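import Crest.Agent.T49.EaEndB_64

/-!
# Row 49 (helper64): END from regularisation and the increment step
-/

set_option autoImplicit false

noncomputable section

namespace Crest.Agent.T49.Ea

open MvPolynomial Finset
open Crest.Agent.T49.Tw Crest.Agent.T49.Gl Crest.Agent.T49.Fm Crest.Agent.T49.Samp
open Crest.Agent.T49.Rg Crest.Agent.T49.Nil Crest.Agent.T49.Mal
open Crest.Agent.T49.End (pcw)

theorem end_of {s D : ℕ} (hs1 : 1 ≤ s) (hR : RegStmt) (hI : Inc s D) : Fr.End s D := by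
  intro c hc0 hc1
  obtain ⟨K, Dz, hK⟩ := reg_pack hs1 hR
  obtain ⟨Cc, hCc⟩ := hI c hc0 hc1
  obtain ⟨Da, hDa⟩ := wide_allPC s
  obtain ⟨Ci, hCi⟩ := sig_in s D
  obtain ⟨E, b0, hE⟩ := exists_scl s K Dz Cc
  obtain ⟨b, hb0, hb⟩ : ∃ b : ℝ, 0 ≤ b ∧ Real.exp (-b) ≤ |kk D s| :=
    ⟨|Real.log (|kk D s|)|, abs_nonneg _, (Real.exp_le_exp.2 (neg_abs_le _)).trans_eq
      (Real.exp_log (abs_pos.2 kk_ne))⟩
  obtain ⟨C1, C, hC0, hC⟩ := nums Ci (E * (Cc + 2)) (Cc + 3 + Da + (2 * Dz + 2))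
    (b0 + b + s + 10) (15 + 4 * (s + 1) ^ 2 + b3 D s)
  refine ⟨C, fun ι _ T τ0 f α σ R L dg hP hdg hkap hf hα hα1 hSt => ?_⟩
  obtain ⟨κ, _, N, g, Φ, Z, hκ, hN, hg, hΦ, hZ, hV⟩ := hSt
  have hR2 := hP.two
  obtain ⟨n1, n2⟩ := hC R hR2
  have hQ1 : 1 ≤ R ^ Ci := one_le_pow₀ (by linarith)
  obtain ⟨Xi, y, z, τ, hS⟩ := hE b R (R ^ Ci) _ hb0 (by positivity) n1
  rw [pow_mul, ← hS.z_eq] at n2
  have hRQ1 : R ≤ R * R ^ Ci := le_mul_of_one_le_right (by linarith) hQ1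
  have hRQ2 : 2 * R ^ Ci ≤ R * R ^ Ci := mul_le_mul_of_nonneg_right hR2 (by linarith)
  have hs0 : (0 : ℝ) ≤ s := Nat.cast_nonneg _
  have hlam := hS.lam_ge
  have hXi : 10 * τ (s + 1) ≤ Xi := (mul_le_mul_of_nonneg_right (by linarith)
    (by linarith [hS.lo (s + 1)])).trans hS.Xi_ge
  have hX1 : 3 * R + 10 ≤ Xi := by linarith [hS.lo (s + 1)]
  have hX2 : R ^ Ci + 10 ≤ Xi := by linarith [hS.lo (s + 1)]
  have hXz := hS.Xi_le
  have hL0 : (0 : ℝ) < L := (Real.exp_pos _).trans_le hP.L_ge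
  have hL : 0 < L := by exact_mod_cast hL0
  have hℓL := Real.exp_log hL0
  have hℓR : R ^ C ≤ Real.log L := Real.exp_le_exp.1 (hP.L_ge.trans_eq hℓL.symm)
  obtain ⟨P, p1, p2, p3, p4, p5, p6, p7, p8⟩ :=
    len (by linarith) (show Cc + 3 ≤ C by omega) n2 hℓR hP.L_le
  clear n1 n2 hC hE hlam hXi hRQ1 hRQ2
  have hk1 : |kk D s| ≤ 1 := (abs_of_pos kk_pos).trans_le kk_le_one
  have hreg : ∀ D', D' ≤ C → T.RegM T.lev D' s τ0 := fun D' h =>
    MA.regM_mono (Cell.regM_of_reg hP.reg) h (by omega) (by linarith)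
  have hA := hDa ι T τ0 _ (kk_ne (D := D) (s := s)) R P hk1 hP.lev (hreg _ (by omega)) hP.card
    (by linarith) p7
  have hM : (scl T (kk D s) kk_ne).M ≤ 2 * (scl T (kk D s) kk_ne).mu := by
    have h := (abs_le.1 (Cell.allPC_self hA (by linarith))).2
    have h1 : Real.exp (-P) ≤ 1 := Real.exp_le_one_iff.2 (by linarith)
    rw [← div_le_iff₀ (Tri.mu_pos _)]; linarith
  obtain ⟨hfq, Dn, hDn, hlin⟩ := wide T hP.lev hP.σ_pos hP.σ_le hP.le_σ hℓL (by linarith)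
    (by linarith) hA (by linarith) p8 Z
  have hα0 : 0 < α := (Real.exp_pos _).trans_le hα
  have hH : ∀ y, |(f y - (1 + c) * α) / 2| ≤ 1 := fun y => by
    have h1 := hf y
    have h2 : c * α ≤ 1 / 2 := (mul_le_of_le_one_right hc0.le hα1).trans hc1
    have h3 := mul_pos hc0 hα0
    rw [abs_le]; constructor <;> linarith
  have hF : ∀ y, |Dn y * ((f y - (1 + c) * α) / 2)| ≤ 1 := fun y => by
    rw [abs_mul, abs_of_nonneg (hDn y).1]; exact mul_le_one₀ (hDn y).2 (abs_nonneg _) (hH y)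
  have hκR : (Fintype.card κ : ℝ) ≤ R := le_trans (by exact_mod_cast hκ) hdg
  have he1 : (1 : ℝ) ≤ Real.exp (Real.log L) := Real.one_le_exp (by linarith)
  obtain ⟨a, ha, c0, β, ha1, ha2, hβ, hβ1, hU⟩ := hCi R hR2 ι κ T σ _ L N g (dSub_of_wcf hg) Φ Z _ Dn
    hP.lev hP.card hκR hP.σ_pos hL hN hΦ hZ hV hH hDn hM (sqrt_exp_le (by linarith))
    (hlin 1 1 0 0 (fun y => Φ (N.evZ y g) * ((f y - (1 + c) * α) / 2)) one_pos one_pos
      (by simpa using he1) (by simpa using he1) fun y => by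
        rw [abs_mul, abs_of_nonneg (hΦ.mem _).1]
        exact mul_le_one₀ (hΦ.mem _).2 (abs_nonneg _) (hH y))
  obtain ⟨G, w, cen, r, Γ, hG1, hG, hw, hw1, hΓ, hsig, hall⟩ := hK ι κ T _ kk_ne _ a ha c0
    (fun y => Dn y * ((f y - (1 + c) * α) / 2)) β τ0 Cc E b R _ _ Xi y z τ hS hR2 hQ1 hb0 hb hk1
    hP.lev hN.wt_le hP.card hκR hkap (hreg _ (by omega)) p4 ha1 ha2 hβ hβ1 hF hU
  have hw0 : 0 < w := (Real.exp_pos _).trans_le hw
  have hzℓ : Real.exp z ≤ Real.exp (Real.log L) := Real.exp_le_exp.2 (by linarith)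
  have hwℓ : w⁻¹ ≤ Real.exp (Real.log L) := by
    refine le_trans ?_ hzℓ
    rw [← inv_inv (Real.exp z), ← Real.exp_neg]
    exact inv_anti₀ (Real.exp_pos _) hw
  have hb1 := hlin w G r cen (fun y => Γ y * ((f y - (1 + c) * α) / 2) / Real.exp Xi) hw0 hG1
    (hG.trans hzℓ) hwℓ fun y => by
      rw [abs_div, abs_of_pos (Real.exp_pos Xi), div_le_one (Real.exp_pos _), abs_mul,
        abs_of_nonneg (hΓ y).1]
      exact (mul_le_of_le_one_right (hΓ y).1 (hH y)).trans (hΓ y).2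
  have hb2 : 3 * √(Real.exp (-P)) ≤ β / 8 / Real.exp Xi := by
    refine (sqrt_exp_le (w := R ^ Ci + 4 + Xi) (by linarith)).trans ?_
    rw [neg_add, Real.exp_add, Real.exp_neg Xi, div_eq_mul_inv _ (Real.exp Xi)]
    refine mul_le_mul_of_nonneg_right ?_ (by positivity)
    have h1 := exp_neg_le_quarter (show R ^ Ci + 2 + 2 ≤ R ^ Ci + 4 by linarith)
      (exp_neg_le_quarter le_rfl hβ)
    linarith [(Real.exp_pos _).trans_le hβ]
  have hback := sig_back (scl T (kk D s) kk_ne) hP.σ_pos hL hw0 hG1 Z (fw T σ) cen r Γ Dn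
    (fun y => f y - (1 + c) * α) hb1 hsig hb2 (exp_neg_le_quarter (by linarith) hβ)
  have hRX : Real.exp (-Xi) ≤ Real.exp (-R) := Real.exp_le_exp.2 (by linarith)
  obtain ⟨d, l, c', r', d1, d2, l1, l2, hr, hpos⟩ := hCc ι (scl T (kk D s) kk_ne) σ Xi z α w L G
    cen r Γ f Z (fw T σ) reb hP.lev (by linarith) hXz (hP.card.trans (by linarith)) hP.σ_pos hP.σ_le
    (hRX.trans hP.le_σ) ((Real.exp_le_exp.2 p1).trans hP.L_ge)
    (Cell.allPC_mono hA p5 (Real.exp_le_exp.2 (neg_le_neg p5))) hG1 hG hw hw1 hΓ hf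
    (hRX.trans hα) hα1 (fun W t v => by rw [reb_pt, add_comm]) reb_injective
    (fun V => (Real.exp_pos _).le) (fun V _ t ht => hfq V t ht)
    (fun d l c' r' d1 d2 l1 l2 hr => (hall d l c' r' d1 (hS.y_eq ▸ d2) (hS.y_eq ▸ l1) l2 hr).1) hback
  obtain ⟨-, ι', _, U, φ, u1, u2, u3, u4, u5, u6⟩ :=
    hall d l c' r' d1 (hS.y_eq ▸ d2) (hS.y_eq ▸ l1) l2 hr
  refine ⟨ι', _, U, φ, u1, u2.trans (Nat.add_le_add_left hκ _), fun l => (u3 l).trans (by linarith),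
    ⟨u4.int, u4.deg, fun x Y hY h => Fr.O26.sep_mono (u4.sep x Y hY h) (by linarith),
      u4.lm.trans (by linarith)⟩, u5, u6 f _ (fun y => ?_) hpos⟩
  rw [abs_of_nonneg (hf y).1]; exact (hf y).2

/-- **END** -/
theorem endStmt_of (hR : RegStmt) (hI : IncStmt) : Fr.EndStmt := fun s hs =>
  let ⟨D0, h⟩ := hI s hs
  ⟨D0, fun D hD => end_of hs hR (h D hD)⟩

end Crest.Agent.T49.Ea
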