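import Mathlib

/-! Row 49, fibre theorem (Kelley-Meka block): definitions, exact statements of the leaves, basic lemmas. -/

set_option autoImplicit false

namespace Crest.Agent.T49.Fib
open Finset
open scoped Pointwise

section Defs
variable {G : Type} [AddCommGroup G] [Fintype G] [DecidableEq G]

/-- Bohr set (chord length). -/
noncomputable def bohr (Γ : Finset (AddChar G ℂ)) (ρ : ℝ) : Finset G := by
  classical exact univ.filter fun x => ∀ γ ∈ Γ, ‖γ x - 1‖ ≤ ρ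

/-- Average over a finite set. -/
noncomputable def av (B : Finset G) (f : G → ℝ) : ℝ := (∑ x ∈ B, f x) / (#B : ℝ)

/-- Real indicator function. -/
def ind (X : Finset G) (x : G) : ℝ := if x ∈ X then 1 else 0

/-- `t` is a `κ`-almost period of the set `B`. -/
def Inv (κ : ℝ) (B : Finset G) (t : G) : Prop := (#(B \ (t +ᵥ B)) : ℝ) ≤ κ * #B

/-- Values in `[0,1]`. -/
def Un (f : G → ℝ) : Prop := ∀ x, 0 ≤ f x ∧ f x ≤ 1

/-- The codegree `E_{c ∈ C} f(b+c) w(a+c)`. -/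
noncomputable def cod (C : Finset G) (f w : G → ℝ) (b a : G) : ℝ :=
  av C fun c => f (b + c) * w (a + c)

open Classical in
/-- Number of pairs in `B × B` whose codegree exceeds `τ`. -/
noncomputable def tail (C B : Finset G) (f : G → ℝ) (τ : ℝ) : ℕ :=
  #((B ×ˢ B).filter fun z => τ < cod C f f z.1 z.2)

end Defs

/-- The fibre theorem (final form). -/
def FTStmt : Prop :=
  ∃ C : ℕ, ∀ (G : Type) [AddCommGroup G] [Fintype G] (m : ℝ) (X Y P Q : G → ℝ), 2 ≤ m →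
    Un X → Un Y → Un P → Un Q →
    Real.exp (-m) * (Fintype.card G : ℝ) ^ 2 ≤ ∑ x, ∑ y, X x * Y y * (P (x + y) - Q (x + y)) →
    ∃ Λ : Finset (AddChar G ℂ), (#Λ : ℝ) ≤ m ^ C ∧
      (∀ ξ ∈ Λ, Real.exp (-m ^ C) * (Fintype.card G : ℝ) ≤ ‖∑ u, (P u : ℂ) * ξ u‖ ∨
        Real.exp (-m ^ C) * (Fintype.card G : ℝ) ≤ ‖∑ u, (Q u : ℂ) * ξ u‖) ∧
      ∀ ν : G → ℝ, (∀ t, 0 ≤ ν t) → (∀ t, ν t ≠ 0 → ∀ ξ ∈ Λ, ‖ξ t - 1‖ ≤ Real.exp (-m ^ C)) →
        ∃ u₀, (1 - 1 / m) * ∑ t, ν t * Q (u₀ + t) + Real.exp (-m ^ C) * ∑ t, ν t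
          ≤ ∑ t, ν t * P (u₀ + t)

/-- Local sup-norm almost periodicity (Croot-Sisask + local Chang). -/
def APBStmt : Prop :=
  ∃ C : ℕ, ∀ (G : Type) [AddCommGroup G] [Fintype G] [DecidableEq G] (A M L S : Finset G) (w : ℕ)
    (ε : ℝ), A.Nonempty → M.Nonempty → S.Nonempty → 1 ≤ w → 0 < ε → ε ≤ 1 →
    #(A + S) ≤ 2 ^ w * #A → #L ≤ 2 ^ w * #M →
    ∃ Λ : Finset (AddChar G ℂ), (#Λ : ℝ) ≤ C * (w / ε) ^ C ∧ ∃ σ : G → ℝ, (∀ s, 0 ≤ σ s) ∧
      ∑ s, σ s = 1 ∧ ∀ x t, Inv (Real.exp (-(C * (w / ε) ^ C))) S t →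
        t ∈ bohr Λ (Real.exp (-(C * (w / ε) ^ C))) →
        (av A fun a => av M fun y => ind L (x - a - y)) - ε ≤
          ∑ s, σ s * av A fun a => av M fun y => ind L (x + s + t - a - y)

open Classical in
/-- Two-sided codegrees from upper tails. -/
def TSStmt : Prop :=
  ∀ (G : Type) [AddCommGroup G] [Fintype G] [DecidableEq G] (C B : Finset G) (f w : G → ℝ)
    (df dw e θ θ' : ℝ) (p : ℕ), C.Nonempty → B.Nonempty → Un f → Un w → 0 < df → df ≤ 1 → 0 < dw →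
    dw ≤ 1 → 0 < e → e ≤ 1 / 10 → Even p → θ ≤ df ^ (2 * p) → θ ≤ dw ^ (2 * p) →
    2 ≤ θ' * (1 + e) ^ p →
    (∀ b ∈ B, (1 - e) * df ≤ av C fun c => f (b + c)) →
    (∀ a ∈ B, (1 - e) * dw ≤ av C fun c => w (a + c)) →
    (tail C B f ((1 + e) * df ^ 2) : ℝ) ≤ θ * (#B : ℝ) ^ 2 →
    (tail C B w ((1 + e) * dw ^ 2) : ℝ) ≤ θ * (#B : ℝ) ^ 2 →
    (#((B ×ˢ B).filter fun z => ¬ ((1 - 30 * e) * (df * dw) ≤ cod C f w z.1 z.2 ∧
      cod C f w z.1 z.2 ≤ (1 + 30 * e) * (df * dw))) : ℝ) ≤ 2 * θ' * (#B : ℝ) ^ 2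

/-- Upper tail of codegrees gives an increment on a Bohr-type set (sifting + almost periodicity). -/
def ULStmt : Prop :=
  ∃ K : ℕ, ∀ (G : Type) [AddCommGroup G] [Fintype G] [DecidableEq G] (C B B' S X : Finset G)
    (κ d e θ : ℝ) (p w : ℕ), C.Nonempty → B.Nonempty → B'.Nonempty → S.Nonempty →
    (∀ x ∈ B, -x ∈ B) → (∀ x ∈ B', -x ∈ B') → (∀ b ∈ B, Inv κ C b) → (∀ b ∈ B', Inv κ B b) →
    #(B + B') ≤ 2 * #B → #(B' + S) ≤ 2 * #B' → 0 < d → d ≤ 1 → 0 < e → e ≤ 1 / 10 → 0 < θ →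
    κ ≤ θ / 2 → κ ≤ e * d ^ 2 / 4 → (1 + 3 * e / 4) ^ p ≤ e * θ / 200 * (1 + e) ^ p → 1 ≤ w →
    16 ≤ θ * d ^ (2 * p) * 2 ^ w → av C (ind X) ≤ (1 + e / 10) * d →
    θ * (#B : ℝ) ^ 2 ≤ (tail C B (ind X) ((1 + e) * d ^ 2) : ℝ) →
    ∃ Λ : Finset (AddChar G ℂ), (#Λ : ℝ) ≤ K * (w / e) ^ K ∧ ∀ T : Finset G, T.Nonempty →
      (∀ t ∈ T, Inv (Real.exp (-(K * (w / e) ^ K))) S t ∧
        t ∈ bohr Λ (Real.exp (-(K * (w / e) ^ K)))) →
      ∃ z, (1 + e / 10) * d < av T fun t => ind X (z + t)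

/-- Pruning to significant frequencies. -/
def PruneStmt : Prop :=
  ∃ C : ℕ, ∀ (G : Type) [AddCommGroup G] [Fintype G] [DecidableEq G] (m : ℝ)
    (Γ : Finset (AddChar G ℂ)) (B : Finset G) (σ κ α v : ℝ) (P Q : G → ℝ) (u₀ : G), 2 ≤ m →
    (#Γ : ℝ) ≤ m → Real.exp (-m) ≤ σ → σ ≤ 1 → bohr Γ σ ⊆ B → (∀ t ∈ bohr Γ σ, Inv κ B t) →
    Un P → Un Q → 0 ≤ α → α ≤ 1 → Real.exp (-m) ≤ v → κ ≤ v / 8 →
    α * (av B fun a => av B fun b => Q (u₀ + b - a)) + v ≤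
      (av B fun a => av B fun b => P (u₀ + b - a)) →
    ∃ Λ : Finset (AddChar G ℂ), (#Λ : ℝ) ≤ m ^ C ∧
      (∀ ξ ∈ Λ, Real.exp (-m ^ C) * (Fintype.card G : ℝ) ≤ ‖∑ u, (P u : ℂ) * ξ u‖ ∨
        Real.exp (-m ^ C) * (Fintype.card G : ℝ) ≤ ‖∑ u, (Q u : ℂ) * ξ u‖) ∧
      ∀ ν : G → ℝ, (∀ t, 0 ≤ ν t) → (∀ t, ν t ≠ 0 → ∀ ξ ∈ Λ, ‖ξ t - 1‖ ≤ Real.exp (-m ^ C)) →
        ∃ u₁, α * ∑ t, ν t * Q (u₁ + t) + v / 4 * ∑ t, ν t ≤ ∑ t, ν t * P (u₁ + t)

section Basic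
variable {G : Type} [AddCommGroup G] [Fintype G] [DecidableEq G]

omit [DecidableEq G] in
lemma mem_bohr {Γ : Finset (AddChar G ℂ)} {ρ : ℝ} {x : G} :
    x ∈ bohr Γ ρ ↔ ∀ γ ∈ Γ, ‖γ x - 1‖ ≤ ρ := by
  simp [bohr]

omit [DecidableEq G] in
lemma norm_char (γ : AddChar G ℂ) (x : G) : ‖γ x‖ = 1 := AddChar.norm_apply γ x

omit [DecidableEq G] in
lemma norm_char_add (γ : AddChar G ℂ) (x y : G) :
    ‖γ (x + y) - 1‖ ≤ ‖γ x - 1‖ + ‖γ y - 1‖ := by
  have : γ (x + y) - 1 = (γ x - 1) + γ x * (γ y - 1) := by rw [AddChar.map_add_eq_mul]; ring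
  rw [this]
  refine (norm_add_le _ _).trans ?_
  rw [norm_mul, norm_char, one_mul]

omit [DecidableEq G] in
lemma norm_char_neg (γ : AddChar G ℂ) (x : G) : ‖γ (-x) - 1‖ = ‖γ x - 1‖ := by
  have h : γ (-x) * γ x = 1 := by rw [← AddChar.map_add_eq_mul]; simp
  have : γ (-x) - 1 = -(γ (-x) * (γ x - 1)) := by rw [mul_sub, h]; ring
  rw [this, norm_neg, norm_mul, norm_char, one_mul]

omit [DecidableEq G] in
lemma zero_mem_bohr (Γ : Finset (AddChar G ℂ)) {ρ : ℝ} (h : 0 ≤ ρ) : (0 : G) ∈ bohr Γ ρ := by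
  rw [mem_bohr]; intro γ _; simpa using h

omit [DecidableEq G] in
lemma bohr_nonempty (Γ : Finset (AddChar G ℂ)) {ρ : ℝ} (h : 0 ≤ ρ) : (bohr Γ ρ).Nonempty :=
  ⟨0, zero_mem_bohr Γ h⟩

omit [DecidableEq G] in
lemma neg_mem_bohr {Γ : Finset (AddChar G ℂ)} {ρ : ℝ} {x : G} (h : x ∈ bohr Γ ρ) :
    -x ∈ bohr Γ ρ := by
  rw [mem_bohr] at h ⊢; intro γ hγ; rw [norm_char_neg]; exact h γ hγ

omit [DecidableEq G] in
lemma add_mem_bohr {Γ : Finset (AddChar G ℂ)} {ρ σ : ℝ} {x y : G} (hx : x ∈ bohr Γ ρ)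
    (hy : y ∈ bohr Γ σ) : x + y ∈ bohr Γ (ρ + σ) := by
  rw [mem_bohr] at hx hy ⊢; intro γ hγ
  exact (norm_char_add γ x y).trans (add_le_add (hx γ hγ) (hy γ hγ))

omit [DecidableEq G] in
lemma bohr_mono {Γ Γ' : Finset (AddChar G ℂ)} {ρ σ : ℝ} (hΓ : Γ ⊆ Γ') (h : ρ ≤ σ) :
    bohr Γ' ρ ⊆ bohr Γ σ := by
  intro x hx; rw [mem_bohr] at hx ⊢; exact fun γ hγ => (hx γ (hΓ hγ)).trans h

lemma bohr_add_subset (Γ : Finset (AddChar G ℂ)) (ρ σ : ℝ) :
    bohr Γ ρ + bohr Γ σ ⊆ bohr Γ (ρ + σ) := by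
  intro z hz
  obtain ⟨x, hx, y, hy, rfl⟩ := Finset.mem_add.1 hz
  exact add_mem_bohr hx hy

omit [DecidableEq G] in
/-- Density of a Bohr set. -/
lemma card_bohr_ge (Γ : Finset (AddChar G ℂ)) {ρ : ℝ} (h0 : 0 < ρ) (h1 : ρ ≤ 1) :
    (ρ / 8) ^ #Γ * (Fintype.card G : ℝ) ≤ #(bohr Γ ρ) := by
  classical
  set n : ℕ := ⌊2 * Real.pi / ρ⌋₊ + 1 with hn
  have hnle : (n : ℝ) ≤ 8 / ρ := by
    have h2 : (⌊2 * Real.pi / ρ⌋₊ : ℝ) ≤ 2 * Real.pi / ρ := Nat.floor_le (by positivity)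
    have h3 : (1 : ℝ) ≤ 1 / ρ := by rw [le_div_iff₀ h0]; linarith
    have h4 : 2 * Real.pi / ρ ≤ 7 / ρ := by
      gcongr; linarith [Real.pi_lt_d2]
    have : (8 : ℝ) / ρ = 7 / ρ + 1 / ρ := by ring
    rw [hn]; push_cast; linarith
  have hidx : ∀ (γ : AddChar G ℂ) (x : G), ⌊(Complex.arg (γ x) + Real.pi) / ρ⌋₊ < n := by
    intro γ x
    rw [hn, Nat.lt_succ_iff]
    apply Nat.floor_le_floor
    gcongr
    linarith [Complex.arg_le_pi (γ x)]
  let φ : G → (Γ → Fin n) := fun x γ => ⟨_, hidx γ.1 x⟩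
  have hG : (0 : ℝ) < Fintype.card G := by exact_mod_cast Fintype.card_pos
  have hn0 : (0 : ℝ) < n := by rw [hn]; positivity
  obtain ⟨y, -, hy⟩ := Finset.exists_le_card_fiber_of_nsmul_le_card_of_maps_to (s := (univ : Finset G))
    (t := (univ : Finset (Γ → Fin n))) (f := φ) (b := (Fintype.card G : ℝ) / (n : ℝ) ^ #Γ)
    (fun _ _ => mem_univ _) univ_nonempty (by
      simp only [card_univ, Fintype.card_pi, Fintype.card_fin, prod_const, Fintype.card_coe,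
        nsmul_eq_mul]
      push_cast
      rw [mul_div_cancel₀ _ (pow_pos hn0 _).ne'])
  set F := univ.filter fun x => φ x = y with hF
  have hFne : F.Nonempty := by
    rw [← Finset.card_pos]
    have : (0 : ℝ) < #F := lt_of_lt_of_le (by positivity) hy
    exact_mod_cast this
  obtain ⟨x0, hx0⟩ := hFne
  have hsub : F.image (fun x => x - x0) ⊆ bohr Γ ρ := by
    intro z hz
    obtain ⟨x, hx, rfl⟩ := Finset.mem_image.1 hz
    rw [mem_bohr]; intro γ hγ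
    have e1 : φ x ⟨γ, hγ⟩ = φ x0 ⟨γ, hγ⟩ := by
      rw [(mem_filter.1 hx).2, (mem_filter.1 hx0).2]
    have e2 : ⌊(Complex.arg (γ x) + Real.pi) / ρ⌋₊ = ⌊(Complex.arg (γ x0) + Real.pi) / ρ⌋₊ :=
      congrArg Fin.val e1
    have nn : ∀ u : G, 0 ≤ (Complex.arg (γ u) + Real.pi) / ρ := fun u =>
      div_nonneg (by linarith [Complex.neg_pi_lt_arg (γ u)]) h0.le
    have a1 := Nat.floor_le (nn x)
    have a2 := Nat.lt_floor_add_one ((Complex.arg (γ x) + Real.pi) / ρ)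
    have a3 := Nat.floor_le (nn x0)
    have a4 := Nat.lt_floor_add_one ((Complex.arg (γ x0) + Real.pi) / ρ)
    rw [e2] at a1 a2
    have hd : |Complex.arg (γ x) - Complex.arg (γ x0)| ≤ ρ := by
      have : |(Complex.arg (γ x) + Real.pi) / ρ - (Complex.arg (γ x0) + Real.pi) / ρ| ≤ 1 :=
        abs_le.2 ⟨by linarith, by linarith⟩
      rw [← sub_div, abs_div, abs_of_pos h0, div_le_one h0] at this
      simpa using this
    have hx1 : γ x = Complex.exp (Complex.arg (γ x) * Complex.I) := by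
      have := Complex.norm_mul_exp_arg_mul_I (γ x)
      rw [norm_char] at this; simpa using this.symm
    have hx2 : γ x0 = Complex.exp (Complex.arg (γ x0) * Complex.I) := by
      have := Complex.norm_mul_exp_arg_mul_I (γ x0)
      rw [norm_char] at this; simpa using this.symm
    have : γ (x - x0) = Complex.exp (Complex.I * ((Complex.arg (γ x) - Complex.arg (γ x0) : ℝ) : ℂ)) := by
      rw [AddChar.map_sub_eq_div]
      conv_lhs => rw [hx1, hx2]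
      rw [← Complex.exp_sub]; congr 1; push_cast; ring
    rw [this]
    exact (Real.norm_exp_I_mul_ofReal_sub_one_le).trans (by simpa using hd)
  have hc : (#F : ℝ) ≤ #(bohr Γ ρ) := by
    have := Finset.card_le_card hsub
    rw [Finset.card_image_of_injective _ (sub_left_injective)] at this
    exact_mod_cast this
  refine le_trans ?_ (hy.trans hc)
  rw [le_div_iff₀ (pow_pos hn0 _), mul_right_comm, ← mul_pow]
  have : (ρ / 8 * n) ^ #Γ ≤ 1 := by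
    apply pow_le_one₀ (by positivity)
    rw [le_div_iff₀ h0] at hnle; linarith
  nlinarith

omit [DecidableEq G] in
/-- A regular radius at one prescribed scale. -/
lemma exists_reg (Γ : Finset (AddChar G ℂ)) {ρ κ η : ℝ} (n : ℕ) (h0 : 0 < ρ) (h1 : ρ ≤ 1)
    (hκ : 0 ≤ κ) (hη : 0 ≤ η) (hn : n * η ≤ ρ / 2) (hb : (16 / ρ) ^ #Γ < (1 + κ) ^ n) :
    ∃ σ, ρ / 2 ≤ σ ∧ σ + η ≤ ρ ∧ (#(bohr Γ (σ + η)) : ℝ) ≤ (1 + κ) * #(bohr Γ σ) := by
  by_contra hcon
  push Not at hcon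
  have key : ∀ i ≤ n, (1 + κ) ^ i * (#(bohr Γ (ρ / 2)) : ℝ) ≤ #(bohr Γ (ρ / 2 + i * η)) := by
    intro i
    induction i with
    | zero => intro _; simp
    | succ i ih =>
      intro hi
      have h2 := ih (by omega)
      have hi' : ((i + 1 : ℕ) : ℝ) ≤ n := by exact_mod_cast hi
      have h3 := hcon (ρ / 2 + i * η) (by have : (0 : ℝ) ≤ i * η := by positivity
                                          linarith) (by push_cast at hi'; nlinarith)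
      have e : ρ / 2 + ((i + 1 : ℕ) : ℝ) * η = ρ / 2 + i * η + η := by push_cast; ring
      rw [e, pow_succ]
      nlinarith
  have h2 := key n le_rfl
  have h3 := card_bohr_ge Γ (ρ := ρ / 2) (by positivity) (by linarith)
  have h4 : (#(bohr Γ (ρ / 2 + n * η)) : ℝ) ≤ Fintype.card G := by
    exact_mod_cast Finset.card_le_univ _
  have hG : (0 : ℝ) < Fintype.card G := by exact_mod_cast Fintype.card_pos
  have h5 : (16 / ρ) ^ #Γ * (ρ / 2 / 8) ^ #Γ = 1 := by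
    rw [← mul_pow]; have : 16 / ρ * (ρ / 2 / 8) = 1 := by field_simp; norm_num
    rw [this, one_pow]
  have h6 : (0 : ℝ) < (ρ / 2 / 8) ^ #Γ := by positivity
  have h7 : (1 + κ) ^ n * ((ρ / 2 / 8) ^ #Γ * Fintype.card G) ≤ Fintype.card G :=
    (mul_le_mul_of_nonneg_left h3 (by positivity)).trans (h2.trans h4)
  have h8 : (16 / ρ) ^ #Γ * ((ρ / 2 / 8) ^ #Γ * Fintype.card G) <
      (1 + κ) ^ n * ((ρ / 2 / 8) ^ #Γ * Fintype.card G) :=
    mul_lt_mul_of_pos_right hb (by positivity)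
  rw [← mul_assoc, h5, one_mul] at h8
  linarith

omit [Fintype G] in
/-- A small sumset gives almost periods. -/
lemma inv_of_card_add {B U : Finset G} {κ : ℝ} (h : (#(B + U) : ℝ) ≤ (1 + κ) * #B) {t : G}
    (ht : t ∈ U) (h0 : (0 : G) ∈ U) : Inv κ B t := by
  unfold Inv
  have h1 : B ∪ (t +ᵥ B) ⊆ B + U := by
    intro x hx
    rcases mem_union.1 hx with hx | hx
    · exact Finset.mem_add.2 ⟨x, hx, 0, h0, add_zero x⟩
    · obtain ⟨y, hy, rfl⟩ := Finset.mem_vadd_finset.1 hx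
      exact Finset.mem_add.2 ⟨y, hy, t, ht, by simp [add_comm]⟩
  have h2 : #(B \ (t +ᵥ B)) + #(t +ᵥ B) = #(B ∪ (t +ᵥ B)) := Finset.card_sdiff_add_card _ _
  rw [Finset.card_vadd_finset] at h2
  have h3 : (#(B \ (t +ᵥ B)) : ℝ) + #B ≤ #(B + U) := by
    exact_mod_cast h2.le.trans (card_le_card h1)
  linarith

omit [Fintype G] in
lemma Inv.mono {B : Finset G} {κ κ' : ℝ} {t : G} (h : Inv κ B t) (hk : κ ≤ κ') : Inv κ' B t :=
  le_trans h (mul_le_mul_of_nonneg_right hk (Nat.cast_nonneg _))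

omit [Fintype G] in
/-- Shifting by an almost period changes sums of `[0,1]`-valued functions by at most `κ #B`. -/
lemma Inv.sum_shift {B : Finset G} {κ : ℝ} {t : G} (h : Inv κ B t) {f : G → ℝ} (hf : Un f) :
    |∑ c ∈ B, f (t + c) - ∑ c ∈ B, f c| ≤ κ * #B := by
  have e1 : ∑ c ∈ B, f (t + c) = ∑ c ∈ t +ᵥ B, f c := by
    rw [Finset.vadd_finset_def, Finset.sum_image (fun x _ y _ hxy => by simpa using hxy)]
    rfl
  have e2 := Finset.sum_sdiff_sub_sum_sdiff (s₁ := B) (s₂ := t +ᵥ B) (f := f)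
  have c1 : #((t +ᵥ B) \ B) = #(B \ (t +ᵥ B)) :=
    Finset.card_sdiff_comm (Finset.card_vadd_finset t B)
  have b : ∀ s : Finset G, 0 ≤ ∑ c ∈ s, f c ∧ ∑ c ∈ s, f c ≤ #s := fun s =>
    ⟨sum_nonneg fun c _ => (hf c).1, by
      simpa using Finset.sum_le_card_nsmul s f 1 fun c _ => (hf c).2⟩
  have b1 := b ((t +ᵥ B) \ B)
  have b2 := b (B \ (t +ᵥ B))
  rw [c1] at b1
  unfold Inv at h
  rw [e1, ← e2, abs_le]
  constructor <;> linarith [b1.1, b1.2, b2.1, b2.2]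

omit [Fintype G] in
lemma Inv.av_shift {B : Finset G} (hB : B.Nonempty) {κ : ℝ} {t : G} (h : Inv κ B t) {f : G → ℝ}
    (hf : Un f) : |(av B fun c => f (t + c)) - av B f| ≤ κ := by
  have hp : (0 : ℝ) < #B := by exact_mod_cast hB.card_pos
  unfold av
  rw [← sub_div, abs_div, abs_of_pos hp, div_le_iff₀ hp]
  exact h.sum_shift hf

omit [AddCommGroup G] [Fintype G] in
lemma un_ind (X : Finset G) : Un (ind X) := fun x => by
  unfold ind; split_ifs <;> norm_num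

omit [AddCommGroup G] [Fintype G] [DecidableEq G] in
lemma av_mono {B : Finset G} {f g : G → ℝ} (h : ∀ x ∈ B, f x ≤ g x) : av B f ≤ av B g :=
  div_le_div_of_nonneg_right (sum_le_sum h) (Nat.cast_nonneg _)

omit [AddCommGroup G] [Fintype G] [DecidableEq G] in
lemma av_const {B : Finset G} (hB : B.Nonempty) (c : ℝ) : av B (fun _ => c) = c := by
  have hp : (0 : ℝ) < #B := by exact_mod_cast hB.card_pos
  unfold av; rw [sum_const, nsmul_eq_mul]; field_simp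

omit [AddCommGroup G] [Fintype G] [DecidableEq G] in
lemma av_nonneg {B : Finset G} {f : G → ℝ} (h : ∀ x ∈ B, 0 ≤ f x) : 0 ≤ av B f :=
  div_nonneg (sum_nonneg h) (Nat.cast_nonneg _)

omit [AddCommGroup G] [Fintype G] [DecidableEq G] in
lemma av_le {B : Finset G} (hB : B.Nonempty) {f : G → ℝ} {c : ℝ} (h : ∀ x ∈ B, f x ≤ c) :
    av B f ≤ c := (av_mono h).trans (av_const hB c).le

omit [AddCommGroup G] [Fintype G] [DecidableEq G] in
lemma le_av {B : Finset G} (hB : B.Nonempty) {f : G → ℝ} {c : ℝ} (h : ∀ x ∈ B, c ≤ f x) :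
    c ≤ av B f := (av_const hB c).ge.trans (av_mono h)

omit [AddCommGroup G] [Fintype G] [DecidableEq G] in
lemma av_add (B : Finset G) (f g : G → ℝ) : av B (fun x => f x + g x) = av B f + av B g := by
  unfold av; rw [sum_add_distrib, add_div]

omit [AddCommGroup G] [Fintype G] [DecidableEq G] in
lemma av_sub (B : Finset G) (f g : G → ℝ) : av B (fun x => f x - g x) = av B f - av B g := by
  unfold av; rw [sum_sub_distrib, sub_div]

omit [AddCommGroup G] [Fintype G] [DecidableEq G] in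
lemma av_mul_left (B : Finset G) (c : ℝ) (f : G → ℝ) : av B (fun x => c * f x) = c * av B f := by
  unfold av; rw [← mul_sum, mul_div_assoc]

omit [AddCommGroup G] [Fintype G] [DecidableEq G] in
lemma av_mul_right (B : Finset G) (c : ℝ) (f : G → ℝ) : av B (fun x => f x * c) = av B f * c := by
  unfold av; rw [← sum_mul]; ring

omit [AddCommGroup G] [Fintype G] [DecidableEq G] in
lemma av_comm (A B : Finset G) (f : G → G → ℝ) :
    av A (fun a => av B fun b => f a b) = av B fun b => av A fun a => f a b := by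
  unfold av
  simp only [← sum_div]
  rw [sum_comm, div_right_comm]

omit [AddCommGroup G] [Fintype G] [DecidableEq G] in
lemma sum_av {ι : Type*} (s : Finset ι) (B : Finset G) (f : ι → G → ℝ) :
    ∑ i ∈ s, av B (f i) = av B fun x => ∑ i ∈ s, f i x := by
  unfold av; rw [← sum_div, sum_comm]

omit [AddCommGroup G] [Fintype G] [DecidableEq G] in
/-- Some point is at least the average. -/
lemma exists_av_le {B : Finset G} (hB : B.Nonempty) (f : G → ℝ) : ∃ x ∈ B, av B f ≤ f x := by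
  obtain ⟨x, hx, h⟩ := B.exists_max_image f hB
  exact ⟨x, hx, av_le hB h⟩

omit [AddCommGroup G] [Fintype G] [DecidableEq G] in
lemma Un.av {B : Finset G} (hB : B.Nonempty) {f : G → G → ℝ} (h : ∀ x, Un (f x)) :
    Un fun x => av B (f x) := fun x =>
  ⟨av_nonneg fun y _ => (h x y).1, av_le hB fun y _ => (h x y).2⟩

end Basic

end Crest.Agent.T49.Fib
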