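import Crest.Agent.T49.GincDef_10
import Crest.Agent.T49.Ftz_58

/-! Row 49 (helper58): the inverse theorem on boxes of `ℤ^ι` from the inverse theorem in one
variable (Freiman embedding). -/

set_option autoImplicit false

noncomputable section

namespace Crest.Agent.T49.Ginc
open Finset Crest.Agent.T49.Gow Crest.Agent.T49.Rat
open scoped ComplexConjugate Pointwise

/-- Gowers norms are invariant under Freiman isomorphisms induced by homomorphisms -/
theorem Uc_freiman {G G' : Type*} [AddCommGroup G] [AddCommGroup G'] [DecidableEq G]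
    [DecidableEq G'] (φ : G →+ G') (S : Finset G)
    (hφ : ∀ a ∈ S, ∀ b ∈ S, ∀ c ∈ S, ∀ d ∈ S, φ (a - b) = φ (c - d) → a - b = c - d) (s : ℕ) :
    ∀ (f : G → ℂ) (f' : G' → ℂ), Supp f S → Supp f' (S.image φ) → (∀ y ∈ S, f' (φ y) = f y) →
      Uc s f' = Uc s f := by
  have hinj : Set.InjOn φ S := fun a ha b hb h =>
    sub_eq_zero.1 ((hφ a ha b hb a ha a ha (by rw [map_sub, map_sub, h, ← h])).trans (sub_self a))
  have hinj2 : Set.InjOn φ (S - S : Finset G) := by
    intro x hx y hy h
    obtain ⟨a, ha, b, hb, rfl⟩ := mem_sub.1 hx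
    obtain ⟨c, hc, d, hd, rfl⟩ := mem_sub.1 hy
    exact hφ a ha b hb c hc d hd h
  induction s with
  | zero =>
    intro f f' hf hf' h
    rw [Uc, Uc, hf.finsum_eq, hf'.finsum_eq, sum_image hinj]
    exact sum_congr rfl h
  | succ s ih =>
    intro f f' hf hf' h
    have hz : ∀ {H : Type _} [AddCommGroup H] (t : ℕ), Uc t (0 : H → ℂ) = 0 := by
      intro H _ t
      induction t with
      | zero => simp [Uc]
      | succ t iht =>
        have : ∀ h : H, D h (0 : H → ℂ) = 0 := fun h => by funext x; simp [D]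
        simp [Uc, this, iht]
    have hz' : ∀ (t : ℕ), Uc t (0 : G' → ℂ) = 0 := by
      intro t
      induction t with
      | zero => simp [Uc]
      | succ t iht =>
        have : ∀ h : G', D h (0 : G' → ℂ) = 0 := fun h => by funext x; simp [D]
        simp [Uc, this, iht]
    rw [Uc, Uc, finsum_eq_sum_of_support_subset (s := S - S),
      finsum_eq_sum_of_support_subset (s := (S - S).image φ), sum_image hinj2]
    · refine sum_congr rfl fun k hk => ih _ _ (hf.D k) (hf'.D _) fun y hy => ?_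
      rw [D, D, h y hy, ← map_add]
      congr 1
      by_cases hyk : y + k ∈ S
      · exact h _ hyk
      · rw [hf _ hyk]
        refine hf' _ fun hm => hyk ?_
        obtain ⟨z, hz, hzz⟩ := mem_image.1 hm
        obtain ⟨c, hc, d, hd, rfl⟩ := mem_sub.1 hk
        have := hφ z hz y hy c hc d hd (by rw [map_sub, hzz, map_add]; abel)
        rw [← this]; simpa using hz
    · intro k hk
      by_contra hk'
      refine hk ?_
      have : D k f' = 0 := by
        funext x
        by_cases h1 : x ∈ S.image φ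
        · by_cases h2 : x + k ∈ S.image φ
          · obtain ⟨a, ha, rfl⟩ := mem_image.1 h1
            obtain ⟨b, hb, hb'⟩ := mem_image.1 h2
            exact absurd (mem_coe.2 (mem_image.2 ⟨b - a, sub_mem_sub hb ha, by
              rw [map_sub, hb']; abel⟩)) hk'
          · simp [D, hf' _ h2]
        · simp [D, hf' _ h1]
      change Uc s (D k f') = 0
      rw [this, hz']
    · intro k hk
      by_contra hk'
      refine hk ?_
      have : D k f = 0 := by
        funext x
        by_cases h1 : x ∈ S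
        · by_cases h2 : x + k ∈ S
          · exact absurd (mem_coe.2 (mem_sub.2 ⟨_, h2, _, h1, by abel⟩)) hk'
          · simp [D, hf _ h2]
        · simp [D, hf _ h1]
      change Uc s (D k f) = 0
      rw [this, hz]

lemma digits_zero {K : ℤ} (hK : 0 < K) : ∀ (D : ℕ) (z : Fin D → ℤ), (∀ i, |z i| < K) →
    ∑ i : Fin D, K ^ (i : ℕ) * z i = 0 → ∀ i, z i = 0
  | 0, _, _, _ => fun i => i.elim0
  | D + 1, z, hz, h => by
    rw [Fin.sum_univ_succ] at h
    have h1 : ∑ i : Fin D, K ^ ((i.succ : Fin (D + 1)) : ℕ) * z i.succ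
        = K * ∑ i : Fin D, K ^ (i : ℕ) * z i.succ := by
      rw [mul_sum]; exact sum_congr rfl fun i _ => by rw [Fin.val_succ]; ring
    rw [h1] at h
    have h0 : z 0 = 0 := Int.eq_zero_of_abs_lt_dvd
      ⟨-∑ i : Fin D, K ^ (i : ℕ) * z i.succ, by simp at h; linarith⟩ (hz 0)
    have h2 : ∑ i : Fin D, K ^ (i : ℕ) * z i.succ = 0 := by
      rw [h0] at h; simpa [hK.ne'] using h
    exact fun i => Fin.cases h0 (digits_zero hK D _ (fun i => hz _) h2) i

lemma digits_le {K : ℤ} (hK : 0 < K) : ∀ (D : ℕ) (z : Fin D → ℤ), (∀ i, |z i| < K) →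
    |∑ i : Fin D, K ^ (i : ℕ) * z i| < K ^ D
  | 0, _, _ => by simp
  | D + 1, z, hz => by
    rw [Fin.sum_univ_succ]
    have h1 : ∑ i : Fin D, K ^ ((i.succ : Fin (D + 1)) : ℕ) * z i.succ
        = K * ∑ i : Fin D, K ^ (i : ℕ) * z i.succ := by
      rw [mul_sum]; exact sum_congr rfl fun i _ => by rw [Fin.val_succ]; ring
    have h2 := digits_le hK D (fun i => z i.succ) fun i => hz _
    have h3 := hz 0
    rw [h1]
    refine (abs_add_le _ _).trans_lt ?_
    rw [abs_mul, abs_mul, abs_of_pos hK, pow_succ]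
    simp only [Fin.val_zero, pow_zero, abs_one, one_mul]
    nlinarith

variable {ι : Type} [Fintype ι] [DecidableEq ι]

/-- the linear form with coefficients `a` -/
def lform (a : ι → ℤ) : (ι → ℤ) →+ (Unit → ℤ) where
  toFun y _ := ∑ i, a i * y i
  map_zero' := by funext _; simp
  map_add' u v := by funext _; simp [mul_add, sum_add_distrib]

theorem gi_of_one [Nonempty ι] {Nil₁ : Cls Unit} {Nil : Cls ι} (hB : Basic Nil₁) {s : ℕ}
    (hc : ∀ m ψ (a : ι → ℤ), Nil₁ s m ψ → Nil s m fun y => ψ (lform a y)) (h : GI Nil₁ s) :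
    GI Nil s := by
  classical
  obtain ⟨C, hC⟩ := h
  set D := Fintype.card ι with hD
  have hD1 : 1 ≤ D := Fintype.card_pos
  set c : ℕ := (D + 2) * (s + 2) with hc0
  refine ⟨(c + 1) * C, fun m N f hm hN hf hf1 hU => ?_⟩
  set K : ℕ := 4 * N + 1 with hK
  have hK0 : (0 : ℤ) < K := by positivity
  let ε := Fintype.equivFin ι
  let a : ι → ℤ := fun i => (K : ℤ) ^ (ε i : ℕ)
  have hl : ∀ y, lform a y () = ∑ j : Fin D, (K : ℤ) ^ (j : ℕ) * y (ε.symm j) := fun y => by
    rw [← Equiv.sum_comp ε]; simp [lform, a]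
  have hφ : ∀ x ∈ box ι N, ∀ y ∈ box ι N, ∀ z ∈ box ι N, ∀ w ∈ box ι N,
      lform a (x - y) = lform a (z - w) → x - y = z - w := by
    intro x hx y hy z hz w hw hh
    rw [← sub_eq_zero, ← map_sub] at hh
    have := digits_zero hK0 D (fun j => (x - y - (z - w)) (ε.symm j)) (fun j => by
      have h1 := abs_le.1 (mem_box.1 hx (ε.symm j))
      have h2 := abs_le.1 (mem_box.1 hy (ε.symm j))
      have h3 := abs_le.1 (mem_box.1 hz (ε.symm j))
      have h4 := abs_le.1 (mem_box.1 hw (ε.symm j))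
      simp only [Pi.sub_apply]
      rw [abs_lt, hK]; push_cast; constructor <;> omega) (by rw [← hl, hh]; rfl)
    rw [← sub_eq_zero]
    funext i
    simpa using this (ε i)
  have hinj : Set.InjOn (lform a) (box ι N) := fun x hx y hy hh =>
    sub_eq_zero.1 ((hφ x hx y hy x hx x hx (by rw [map_sub, map_sub, hh, ← hh])).trans (sub_self x))
  have him : (box ι N).image (lform a) ⊆ box Unit (K ^ D) := by
    intro n hn
    obtain ⟨y, hy, rfl⟩ := mem_image.1 hn
    refine mem_box.2 fun _ => ?_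
    rw [hl]
    push_cast
    exact (digits_le hK0 D _ fun j => (mem_box.1 hy _).trans_lt (by rw [hK]; push_cast; omega)).le
  let f' : (Unit → ℤ) → ℂ := fun n => ∑ y ∈ box ι N, if lform a y = n then f y else 0
  have hf'1 : ∀ y ∈ box ι N, f' (lform a y) = f y := fun y hy => by
    simp only [f']
    rw [sum_eq_single y (fun z hz hne => if_neg fun hh => hne (hinj hz hy hh))
      (fun hh => absurd hy hh), if_pos rfl]
  have hf'2 : Supp f' ((box ι N).image (lform a)) := fun n hn =>
    sum_eq_zero fun y hy => if_neg fun hh => hn (mem_image.2 ⟨y, hy, hh⟩)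
  have hf'3 : ∀ n, ‖f' n‖ ≤ 1 := fun n => by
    by_cases hn : n ∈ (box ι N).image (lform a)
    · obtain ⟨y, hy, rfl⟩ := mem_image.1 hn
      rw [hf'1 y hy]; exact hf1 y
    · rw [hf'2 n hn]; simp
  have hUeq : U (s + 1) f' = U (s + 1) f := by
    rw [U, U, Uc_freiman (lform a) (box ι N) hφ (s + 1) f f' hf hf'2 hf'1]
  set m' : ℝ := m + c with hm'
  have hc0' : (0 : ℝ) ≤ c := Nat.cast_nonneg _
  have hmm : m' ^ C ≤ m ^ ((c + 1) * C) := by
    rw [pow_mul]
    refine pow_le_pow_left₀ (by linarith) ?_ _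
    have h1 : (c : ℝ) + 1 ≤ 2 ^ c := by exact_mod_cast Nat.lt_two_pow_self
    have h2 : (2 : ℝ) ^ c ≤ m ^ c := pow_le_pow_left₀ (by norm_num) hm _
    rw [pow_succ]
    nlinarith
  have hcard1 : #(box ι N) ≤ #(box Unit (K ^ D)) := by
    rw [← card_image_of_injOn hinj]; exact card_le_card him
  have hcard2 : #(box Unit (K ^ D)) ≤ 2 ^ (D + 2) * #(box ι N) := by
    rw [card_box, card_box, Fintype.card_unit, pow_one, ← hD]
    have h1 : K ^ D ≤ 2 ^ D * (2 * N + 1) ^ D := by
      rw [← mul_pow]; exact Nat.pow_le_pow_left (by omega) _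
    have h2 : 1 ≤ K ^ D := Nat.one_le_pow _ _ (by omega)
    rw [pow_add]; nlinarith
  have hNK : (N : ℝ) ≤ (K ^ D : ℕ) := by
    have : N ≤ K ^ D := le_trans (by omega) (Nat.le_self_pow (by omega) K)
    exact_mod_cast this
  obtain ⟨ψ, hψ, hcor⟩ := hC m' (K ^ D) f' (by linarith)
    ((Real.exp_le_exp.2 hmm).trans (hN.trans hNK)) (hf'2.mono him) hf'3 (by
      rw [hUeq]
      refine le_trans ?_ hU
      have h1 : (#(box Unit (K ^ D)) : ℝ) ≤ 2 ^ (D + 2) * #(box ι N) := by exact_mod_cast hcard2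
      have h2 : ((2 : ℝ) ^ (D + 2)) ^ (s + 2) ≤ Real.exp c := by
        rw [← pow_mul, ← hc0, show (c : ℝ) = c * 1 by ring, Real.exp_nat_mul]
        exact pow_le_pow_left₀ (by norm_num) (by linarith [Real.add_one_le_exp (1 : ℝ)]) _
      have h3 : Real.exp (-m') * Real.exp c = Real.exp (-m) := by
        rw [← Real.exp_add]; congr 1; rw [hm']; ring
      calc _ ≤ Real.exp (-m') * (2 ^ (D + 2) * #(box ι N)) ^ (s + 2) := by gcongr
        _ = Real.exp (-m') * ((2 : ℝ) ^ (D + 2)) ^ (s + 2) * (#(box ι N) : ℝ) ^ (s + 2) := by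
            rw [mul_pow]; ring
        _ ≤ Real.exp (-m') * Real.exp c * (#(box ι N) : ℝ) ^ (s + 2) := by gcongr
        _ = _ := by rw [h3])
  refine ⟨fun y => ψ (lform a y), hc _ _ a ?_, ?_⟩
  · rcases Nat.eq_zero_or_pos C with rfl | hCpos
    · simpa using hψ
    · exact hB.mono _ _ _ _ hψ (le_trans (by linarith) (le_self_pow₀ (by linarith) hCpos.ne')) hmm
  · have hs : ∑ n ∈ box Unit (K ^ D), f' n * conj (ψ n)
        = ∑ y ∈ box ι N, f y * conj (ψ (lform a y)) := by
      rw [← sum_subset him fun n _ hn => by rw [hf'2 n hn, zero_mul], sum_image hinj]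
      exact sum_congr rfl fun y hy => by rw [hf'1 y hy]
    rw [hs] at hcor
    refine le_trans ?_ hcor
    have h1 : (#(box ι N) : ℝ) ≤ #(box Unit (K ^ D)) := by exact_mod_cast hcard1
    have h2 : Real.exp (-m ^ ((c + 1) * C)) ≤ Real.exp (-m' ^ C) :=
      Real.exp_le_exp.2 (neg_le_neg hmm)
    gcongr

end Crest.Agent.T49.Ginc
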