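import Crest.Agent.T49.BchC_16

/-!
# Row 49 (helper16): the BCH group of a real Lie algebra of class `≤ s`

`star_assoc`, `star_eq_of_le`, `star_sub_half_mem`, the adjoint action `Ad`, the conjugation formula,
the first-order formulas, the group `Exp s L`.
-/

set_option autoImplicit false

noncomputable section

namespace Crest.Agent.T49.Bch

open Finset
open scoped Nat
open LieAlgebra (ad)

/-- the rational structure of a real Lie algebra -/
@[reducible] def ratAlg (L : Type*) [LieRing L] [LieAlgebra ℝ L] : LieAlgebra ℚ L :=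
  { Module.compHom L (algebraMap ℚ ℝ) with
    lie_smul := fun t x y => lie_smul (algebraMap ℚ ℝ t) x y }

theorem bch_sub_tail (s : ℕ) : bch s - (Lib.X + Lib.Y + tail s) ∈ Lib.F (s + 1) := by
  rcases Nat.eq_zero_or_pos s with rfl | hs
  · exact Lib.mem_F_one _
  refine (Finsupp.mem_supported' ℚ _).2 fun w hw => ?_
  have hw' : w.length ≤ s := by simpa using hw
  rw [← sub_sub, Finsupp.sub_apply, tail, Finsupp.filter_apply]
  split_ifs with h
  · have h1 : w ≠ .of true := by rintro rfl; simp at h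
    have h2 : w ≠ .of false := by rintro rfl; simp at h
    simp [Lib.X, Lib.Y, Finsupp.single_eq_of_ne h1, Finsupp.single_eq_of_ne h2]
  · rw [sub_zero]
    exact (Finsupp.mem_supported' ℚ _).1 (bch_sub_mem_two hs) w (by simp; omega)

theorem bch_succ_sub (S : ℕ) : bch (S + 1) - bch S ∈ Lib.F (S + 1) := by
  refine Lib.fb.uniq (S := S) (n := S) (Lib.mem_F_one _) (Lib.mem_F_one _) ?_
  have h1 : _ ∈ Lib.F (S + 1) := Lib.fb.anti _ (bch_spec (S + 1))
  have h2 := bch_spec S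
  have h3 : phi Lib.br Lib.E (S + 1 + 1) (bch (S + 1)) - phi Lib.br Lib.E (S + 1) (bch (S + 1)) ∈
      Lib.F (S + 1) := by
    rw [phi, sum_range_succ, phi, add_sub_cancel_left]
    exact Submodule.smul_mem _ _
      (Lib.fb.anti _ (Lib.fb.pow_mem (Lib.mem_F_one _) (Lib.mem_F_one _) (S + 1)))
  have h4 : Lib.rhs (S + 1 + 1) - Lib.rhs (S + 1) ∈ Lib.F (S + 1) := by
    rw [Lib.rhs, sum_range_succ, Lib.rhs, ← add_assoc, add_sub_cancel_left]
    exact Submodule.smul_mem _ _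
      (Lib.fb.anti _ (Lib.fb.pow_mem (Lib.mem_F_one _) (Lib.mem_F_one _) (S + 1)))
  change phi Lib.br Lib.E (S + 1) (bch (S + 1)) - phi Lib.br Lib.E (S + 1) (bch S) ∈ Lib.F (S + 1)
  convert add_mem (sub_mem (sub_mem h1 h2) h3) h4 using 1
  abel

theorem bch_sub_of_le {s t : ℕ} (h : s ≤ t) : bch t - bch s ∈ Lib.F (s + 1) := by
  induction t, h using Nat.le_induction with
  | base => simp
  | succ t ht ih =>
    have := add_mem (Lib.fb.mono (Nat.succ_le_succ ht) (bch_succ_sub t)) ih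
    rwa [sub_add_sub_cancel] at this

section

variable {L : Type*} [LieRing L] [LieAlgebra ℝ L]

/-- real evaluation of a formal combination of words -/
def evR (x y : L) (p : Lib) : L := ∑ w ∈ p.support, ((p w : ℚ) : ℝ) • ev (two x y) w

theorem star_def (s : ℕ) (x y : L) : star s x y = x + y + evR x y (tail s) := rfl

theorem evR_eq (x y : L) (p : Lib) : evR x y p = (letI := ratAlg L; evL x y p) := by
  let _ := ratAlg L
  rw [evL, Finsupp.linearCombination_apply, Finsupp.sum]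
  rfl

theorem evR_mem (M : Submodule ℝ L) {x y : L} {i : ℕ}
    (hM : ∀ w : FreeMagma Bool, i ≤ w.length → ev (two x y) w ∈ M) {p : Lib} (hp : p ∈ Lib.F i) :
    evR x y p ∈ M :=
  M.sum_mem fun w hw => M.smul_mem _ (hM w (hp hw))

theorem evR_eq_zero (s : ℕ) [Nil s L] (x y : L) {p : Lib} (hp : p ∈ Lib.F (s + 1)) :
    evR x y p = 0 :=
  evR_mem ⊥ (fun _ hw => Nil.ev_eq_zero s _ hw) hp

theorem evR_add (x y : L) (p q : Lib) : evR x y (p + q) = evR x y p + evR x y q := by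
  simp only [evR_eq, map_add]

theorem evR_sub (x y : L) (p q : Lib) : evR x y (p - q) = evR x y p - evR x y q := by
  simp only [evR_eq, map_sub]

theorem evR_smul (x y : L) (c : ℚ) (p : Lib) : evR x y (c • p) = (c : ℝ) • evR x y p := by
  simp only [evR_eq, map_smul]
  rfl

theorem evR_X (x y : L) : evR x y Lib.X = x := by simp only [evR_eq, evL_X]

theorem evR_Y (x y : L) : evR x y Lib.Y = y := by simp only [evR_eq, evL_Y]

theorem evR_br (x y : L) (p q : Lib) : evR x y (Lib.br p q) = ⁅evR x y p, evR x y q⁆ := by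
  simp only [evR_eq, evL_br]

theorem star_eq_evR (s : ℕ) [Nil s L] (x y : L) : star s x y = evR x y (bch s) := by
  have := evR_eq_zero s x y (bch_sub_tail s)
  rw [evR_sub, evR_add, evR_add, evR_X, evR_Y, sub_eq_zero] at this
  rw [this, star_def]

theorem adL_pow_eq (x y : L) (k : ℕ) :
    (letI := ratAlg L; (adL L x ^ k) y) = (ad ℝ L x ^ k) y := by
  let _ := ratAlg L
  induction k with
  | zero => rfl
  | succ k ih =>
    rw [pow_succ', pow_succ', Module.End.mul_apply, Module.End.mul_apply, ih]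
    rfl

/-- **Associativity.** -/
theorem star_assoc (s : ℕ) [Nil s L] (x y z : L) :
    star s (star s x y) z = star s x (star s y z) := by
  simp only [star_eq_evR, evR_eq]
  exact @evL_assoc L _ (ratAlg L) s _ x y z

/-- the product does not depend on the bound for the class -/
theorem star_eq_of_le {s t : ℕ} [h : Nil s L] (hst : s ≤ t) (x y : L) :
    star t x y = star s x y := by
  have := h.mono hst
  have := evR_eq_zero s x y (bch_sub_of_le hst)
  rwa [evR_sub, ← star_eq_evR, ← star_eq_evR, sub_eq_zero] at this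

/-- the second order term (no nilpotency needed) -/
theorem star_sub_half_mem {s : ℕ} (hs : 2 ≤ s) (M : Submodule ℝ L) {x y : L}
    (hx : ∀ m ∈ M, ⁅x, m⁆ ∈ M) (hy : ∀ m ∈ M, ⁅y, m⁆ ∈ M) (h1 : ⁅x, ⁅x, y⁆⁆ ∈ M)
    (h2 : ⁅y, ⁅x, y⁆⁆ ∈ M) : star s x y - (x + y + (1 / 2 : ℝ) • ⁅x, y⁆) ∈ M := by
  have h3 := sub_mem (bch_sub_mem_three hs) (Lib.fb.mono (by omega : 3 ≤ s + 1) (bch_sub_tail s))
  have := evR_mem M (fun w hw => ev_two_mem_three M.toAddSubgroup hx hy h1 h2 hw) h3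
  simp only [evR_sub, evR_add, evR_smul, evR_br, evR_X, evR_Y, lie_self, smul_zero,
    sub_zero] at this
  rw [star_def]
  convert this using 1
  push_cast
  abel

/-- the second order term in a Lie algebra of class `≤ s` (any `s`) -/
theorem star_sub_half_mem' (s : ℕ) [Nil s L] (M : Submodule ℝ L) {x y : L}
    (hx : ∀ m ∈ M, ⁅x, m⁆ ∈ M) (hy : ∀ m ∈ M, ⁅y, m⁆ ∈ M) (h1 : ⁅x, ⁅x, y⁆⁆ ∈ M)
    (h2 : ⁅y, ⁅x, y⁆⁆ ∈ M) : star s x y - (x + y + (1 / 2 : ℝ) • ⁅x, y⁆) ∈ M := by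
  rw [← star_eq_of_le (Nat.le_add_right s 2)]
  exact star_sub_half_mem (by omega) M hx hy h1 h2

/-- if `[x,y]` commutes with `x` and `y` -/
theorem star_eq_half (s : ℕ) [Nil s L] {x y : L} (h1 : ⁅x, ⁅x, y⁆⁆ = 0) (h2 : ⁅y, ⁅x, y⁆⁆ = 0) :
    star s x y = x + y + (1 / 2 : ℝ) • ⁅x, y⁆ := by
  have := star_sub_half_mem' s ⊥ (x := x) (y := y) (by simp) (by simp) (by simp [h1]) (by simp [h2])
  rwa [Submodule.mem_bot, sub_eq_zero] at this

/-- filtration form of the second order term -/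
theorem star_sub_half_mem_filtration (s : ℕ) [Nil s L] (F : ℕ → Submodule ℝ L) (hanti : Antitone F)
    (hF : ∀ i j a b, a ∈ F i → b ∈ F j → ⁅a, b⁆ ∈ F (i + j)) {i j : ℕ} {x y : L} (hx : x ∈ F i)
    (hy : y ∈ F j) : star s x y - (x + y + (1 / 2 : ℝ) • ⁅x, y⁆) ∈ F (i + j + min i j) :=
  star_sub_half_mem' s _ (fun _ h => hanti (by omega) (hF _ _ _ _ hx h))
    (fun _ h => hanti (by omega) (hF _ _ _ _ hy h))
    (hanti (by omega) (hF _ _ _ _ hx (hF _ _ _ _ hx hy)))
    (hanti (by omega) (hF _ _ _ _ hy (hF _ _ _ _ hx hy)))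

/-! ### group identities at the level of `star` -/

section Grp

variable (s : ℕ) [Nil s L]

@[simp] theorem neg_star_star (x y : L) : star s (-x) (star s x y) = y := by
  rw [← star_assoc, neg_star_self, zero_star]

@[simp] theorem star_neg_star (x y : L) : star s x (star s (-x) y) = y := by
  rw [← star_assoc, star_neg_self, zero_star]

@[simp] theorem star_star_neg (x y : L) : star s (star s x y) (-y) = x := by
  rw [star_assoc, star_neg_self, star_zero]

@[simp] theorem star_neg_star' (x y : L) : star s (star s x (-y)) y = x := by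
  rw [star_assoc, neg_star_self, star_zero]

theorem neg_star (x y : L) : -star s x y = star s (-y) (-x) := by
  have h : star s (star s x y) (star s (-y) (-x)) = 0 := by
    rw [star_assoc, star_neg_star, star_neg_self]
  rw [← neg_star_star s (star s x y) (star s (-y) (-x)), h, star_zero]

theorem star_left_cancel {x y z : L} (h : star s x y = star s x z) : y = z := by
  rw [← neg_star_star s x y, h, neg_star_star]

theorem star_right_cancel {x y z : L} (h : star s x z = star s y z) : x = y := by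
  rw [← star_star_neg s x z, h, star_star_neg]

theorem star_eq_iff_left {x y z : L} : star s x y = z ↔ y = star s (-x) z :=
  ⟨fun h => by rw [← h, neg_star_star], fun h => by rw [h, star_neg_star]⟩

theorem star_eq_iff_right {x y z : L} : star s x y = z ↔ x = star s z (-y) :=
  ⟨fun h => by rw [← h, star_star_neg], fun h => by rw [h, star_neg_star']⟩

end Grp

/-! ### the adjoint action -/

theorem ad_pow_succ_apply (x y : L) (k : ℕ) : (ad ℝ L x ^ (k + 1)) y = ⁅x, (ad ℝ L x ^ k) y⁆ := by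
  rw [pow_succ', Module.End.mul_apply, LieAlgebra.ad_apply]

theorem ad_pow_succ_apply' (x y : L) (k : ℕ) : (ad ℝ L x ^ (k + 1)) y = (ad ℝ L x ^ k) ⁅x, y⁆ := by
  rw [pow_succ, Module.End.mul_apply, LieAlgebra.ad_apply]

/-- the word `[x,[x,..,[x,y]]]` -/
def adw : ℕ → FreeMagma Bool
  | 0 => .of false
  | k + 1 => .of true * adw k

theorem length_adw (k : ℕ) : (adw k).length = k + 1 := by
  induction k with
  | zero => rfl
  | succ k ih => rw [adw, length_mul, ih, length_of]; ring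

theorem ev_adw (x y : L) (k : ℕ) : ev (two x y) (adw k) = (ad ℝ L x ^ k) y := by
  induction k with
  | zero => rfl
  | succ k ih => rw [adw, ev_mul, ih, ad_pow_succ_apply]; rfl

theorem ad_pow_eq_zero (s : ℕ) [Nil s L] (x : L) {k : ℕ} (hk : s ≤ k) : ad ℝ L x ^ k = 0 := by
  ext y
  rw [← ev_adw, Nil.ev_eq_zero s _ (by rw [length_adw]; omega), LinearMap.zero_apply]

theorem ad_pow_mem (M : Submodule ℝ L) {x y : L} (hx : ∀ m ∈ M, ⁅x, m⁆ ∈ M) (hy : y ∈ M) (k : ℕ) :
    (ad ℝ L x ^ k) y ∈ M := by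
  induction k with
  | zero => exact hy
  | succ k ih => rw [ad_pow_succ_apply]; exact hx _ ih

theorem map_ad_pow {L' : Type*} [LieRing L'] [LieAlgebra ℝ L'] (g : L →ₗ⁅ℝ⁆ L') (x y : L) (k : ℕ) :
    g ((ad ℝ L x ^ k) y) = (ad ℝ L' (g x) ^ k) (g y) := by
  induction k with
  | zero => rfl
  | succ k ih => rw [ad_pow_succ_apply, ad_pow_succ_apply, g.map_lie, ih]

/-- `∑_{k<s} a_k (ad x)^k` -/
def adS (a : ℕ → ℝ) (s : ℕ) (x : L) : L →ₗ[ℝ] L := ∑ k ∈ range s, a k • ad ℝ L x ^ k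

theorem adS_apply (a : ℕ → ℝ) (s : ℕ) (x y : L) :
    adS a s x y = ∑ k ∈ range s, a k • (ad ℝ L x ^ k) y := by
  simp [adS, LinearMap.sum_apply]

theorem adS_mem (a : ℕ → ℝ) (s : ℕ) (M : Submodule ℝ L) {x y : L} (hx : ∀ m ∈ M, ⁅x, m⁆ ∈ M)
    (hy : y ∈ M) : adS a s x y ∈ M := by
  rw [adS_apply]
  exact M.sum_mem fun k _ => M.smul_mem _ (ad_pow_mem M hx hy k)

theorem adS_sub_mem {a : ℕ → ℝ} (ha : a 0 = 1) (s : ℕ) [Nil s L] (M : Submodule ℝ L) {x y : L}
    (hx : ∀ m ∈ M, ⁅x, m⁆ ∈ M) (hy : ⁅x, y⁆ ∈ M) : adS a s x y - y ∈ M := by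
  rcases s with _ | s
  · have : y = 0 := Nil.out (s := 0) (.of y) (by simp)
    simp [this]
  rw [adS_apply, sum_range_succ', ha, one_smul, pow_zero, Module.End.one_apply, add_sub_cancel_right]
  refine M.sum_mem fun k _ => M.smul_mem _ ?_
  rw [ad_pow_succ_apply']
  exact ad_pow_mem M hx hy k

theorem map_adS {L' : Type*} [LieRing L'] [LieAlgebra ℝ L'] (g : L →ₗ⁅ℝ⁆ L') (a : ℕ → ℝ) (s : ℕ)
    (x y : L) : g (adS a s x y) = adS a s (g x) (g y) := by
  simp only [adS_apply, map_sum, map_smul, map_ad_pow]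

/-- `exp (ad x)` as a linear map -/
def expAd (s : ℕ) (x : L) : L →ₗ[ℝ] L := adS (fun k => (k ! : ℝ)⁻¹) s x

/-- `(exp (ad x) - 1) / ad x` -/
def psiAd (s : ℕ) (x : L) : L →ₗ[ℝ] L := adS (fun k => ((k + 1)! : ℝ)⁻¹) s x

theorem expAd_apply (s : ℕ) (x y : L) :
    expAd s x y = ∑ k ∈ range s, (k ! : ℝ)⁻¹ • (ad ℝ L x ^ k) y := adS_apply _ s x y

theorem psiAd_apply (s : ℕ) (x y : L) :
    psiAd s x y = ∑ k ∈ range s, ((k + 1)! : ℝ)⁻¹ • (ad ℝ L x ^ k) y := adS_apply _ s x y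

/-- **Conjugation.** -/
theorem star_conj (s : ℕ) [Nil s L] (x y : L) : star s (star s x y) (-x) = expAd s x y := by
  simp only [star_eq_evR, evR_eq, expAd_apply]
  refine (@evL_conj L _ (ratAlg L) s _ x y).trans (sum_congr rfl fun k _ => ?_)
  rw [adL_pow_eq]
  change (((k ! : ℚ)⁻¹ : ℚ) : ℝ) • (ad ℝ L x ^ k) y = _
  push_cast
  rfl

/-- **First-order formula**, left version. -/
theorem star_psiAd (s : ℕ) [Nil s L] {x u : L}
    (hc : ∀ k l, ⁅(ad ℝ L x ^ k) u, (ad ℝ L x ^ l) u⁆ = 0) : star s (psiAd s x u) x = x + u := by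
  rw [star_eq_evR, evR_eq, psiAd_apply]
  refine Eq.trans ?_ (@evL_first_order L _ (ratAlg L) s _ x u (by simpa only [adL_pow_eq] using hc))
  congr 2
  refine sum_congr rfl fun k _ => ?_
  rw [adL_pow_eq]
  change _ = ((((k + 1)! : ℚ)⁻¹ : ℚ) : ℝ) • (ad ℝ L x ^ k) u
  push_cast
  rfl

theorem ad_neg_pow (x y : L) (k : ℕ) : (ad ℝ L (-x) ^ k) y = (-1 : ℝ) ^ k • (ad ℝ L x ^ k) y := by
  induction k with
  | zero => simp
  | succ k ih =>
    rw [ad_pow_succ_apply, ad_pow_succ_apply, ih, neg_lie, lie_smul, pow_succ, mul_neg_one, neg_smul]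

/-- **First-order formula**, right version. -/
theorem star_psiAd_right (s : ℕ) [Nil s L] {x u : L}
    (hc : ∀ k l, ⁅(ad ℝ L x ^ k) u, (ad ℝ L x ^ l) u⁆ = 0) :
    star s x (psiAd s (-x) u) = x + u := by
  have h := star_psiAd s (x := -x) (u := -u) fun k l => by
    simp only [map_neg (ad ℝ L (-x) ^ _), ad_neg_pow, neg_lie, lie_neg, smul_lie, lie_smul, hc,
      smul_zero, neg_zero]
  rw [map_neg, ← neg_star, ← neg_add, neg_inj] at h
  exact h

/-- the commutation hypothesis holds inside an abelian `ad x`-stable submodule -/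
theorem comm_of_abelian (M : Submodule ℝ L) {x u : L} (hx : ∀ m ∈ M, ⁅x, m⁆ ∈ M) (hu : u ∈ M)
    (hM : ∀ a ∈ M, ∀ b ∈ M, ⁅a, b⁆ = 0) (k l : ℕ) : ⁅(ad ℝ L x ^ k) u, (ad ℝ L x ^ l) u⁆ = 0 :=
  hM _ (ad_pow_mem M hx hu k) _ (ad_pow_mem M hx hu l)

theorem expAd_lie (s : ℕ) [Nil s L] (x a b : L) :
    expAd s x ⁅a, b⁆ = ⁅expAd s x a, expAd s x b⁆ := by
  let _ := ratAlg L
  have h0 : (LieDerivation.inner ℝ L L (-x)).toLinearMap = ad ℝ L x := by
    ext y; simp
  have hs : (LieDerivation.inner ℝ L L (-x)).toLinearMap ^ s = 0 := by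
    rw [h0, ad_pow_eq_zero s x le_rfl]
  have hn : IsNilpotent (LieDerivation.inner ℝ L L (-x)).toLinearMap := ⟨s, hs⟩
  have key : ∀ y, LieDerivation.exp _ hn y = expAd s x y := fun y => by
    rw [LieDerivation.exp_map_apply, IsNilpotent.exp_eq_sum hs, expAd_apply, LinearMap.sum_apply, h0]
    refine sum_congr rfl fun k _ => ?_
    change (((k ! : ℚ)⁻¹ : ℚ) : ℝ) • (ad ℝ L x ^ k) y = _
    push_cast
    rfl
  rw [← key, ← key, ← key]
  exact LieEquiv.map_lie _ a b

/-- **The adjoint action** `Ad s x = exp (ad x)`. -/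
def Ad (s : ℕ) [Nil s L] (x : L) : L →ₗ⁅ℝ⁆ L where
  toLinearMap := expAd s x
  map_lie' := expAd_lie s x _ _

section Ad

variable (s : ℕ) [Nil s L]

theorem Ad_eq (x y : L) : Ad s x y = expAd s x y := rfl

theorem Ad_apply (x y : L) : Ad s x y = ∑ k ∈ range s, (k ! : ℝ)⁻¹ • (ad ℝ L x ^ k) y :=
  expAd_apply s x y

theorem Ad_eq_star (x y : L) : Ad s x y = star s (star s x y) (-x) := (star_conj s x y).symm

theorem star_eq_Ad_star (x y : L) : star s x y = star s (Ad s x y) x := by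
  rw [Ad_eq_star, star_neg_star']

theorem star_eq_star_Ad (x y : L) : star s x y = star s y (Ad s (-y) x) := by
  rw [Ad_eq_star, neg_neg, star_assoc, star_neg_star]

@[simp] theorem Ad_zero (y : L) : Ad s 0 y = y := by simp [Ad_eq_star]

theorem Ad_star (x x' y : L) : Ad s (star s x x') y = Ad s x (Ad s x' y) := by
  simp only [Ad_eq_star, neg_star, star_assoc]

@[simp] theorem Ad_neg_Ad (x y : L) : Ad s (-x) (Ad s x y) = y := by
  rw [← Ad_star, neg_star_self, Ad_zero]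

@[simp] theorem Ad_Ad_neg (x y : L) : Ad s x (Ad s (-x) y) = y := by
  rw [← Ad_star, star_neg_self, Ad_zero]

theorem Ad_of_lie_eq_zero {x y : L} (h : ⁅x, y⁆ = 0) : Ad s x y = y := by
  have := adS_sub_mem (a := fun k => (k ! : ℝ)⁻¹) (by simp) s ⊥ (x := x) (y := y) (by simp)
    (by simp [h])
  rwa [Submodule.mem_bot, sub_eq_zero] at this

theorem Ad_mem (M : Submodule ℝ L) {x y : L} (hx : ∀ m ∈ M, ⁅x, m⁆ ∈ M) (hy : y ∈ M) :
    Ad s x y ∈ M := adS_mem _ s M hx hy

theorem Ad_sub_mem (M : Submodule ℝ L) {x y : L} (hx : ∀ m ∈ M, ⁅x, m⁆ ∈ M) (hy : ⁅x, y⁆ ∈ M) :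
    Ad s x y - y ∈ M := adS_sub_mem (by simp) s M hx hy

theorem psiAd_sub_mem (M : Submodule ℝ L) {x y : L} (hx : ∀ m ∈ M, ⁅x, m⁆ ∈ M)
    (hy : ⁅x, y⁆ ∈ M) : psiAd s x y - y ∈ M := adS_sub_mem (by simp) s M hx hy

theorem map_Ad {L' : Type*} [LieRing L'] [LieAlgebra ℝ L'] [Nil s L'] (g : L →ₗ⁅ℝ⁆ L') (x y : L) :
    g (Ad s x y) = Ad s (g x) (g y) := map_adS g _ s x y

omit [Nil s L] in
theorem map_psiAd {L' : Type*} [LieRing L'] [LieAlgebra ℝ L'] (g : L →ₗ⁅ℝ⁆ L') (x y : L) :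
    g (psiAd s x y) = psiAd s (g x) (g y) := map_adS g _ s x y

end Ad

/-! ### congruences -/

/-- `star` respects congruences modulo an ideal (no nilpotency needed) -/
theorem star_congr (s : ℕ) (I : LieIdeal ℝ L) {x x' y y' : L} (hx : x - x' ∈ I) (hy : y - y' ∈ I) :
    star s x y - star s x' y' ∈ I := by
  let π : L →ₗ⁅ℝ⁆ L ⧸ I := { I.toSubmodule.mkQ with map_lie' := rfl }
  have hπ : ∀ a b : L, a - b ∈ I ↔ π a = π b := fun a b => (Submodule.Quotient.eq _).symm
  rw [hπ] at hx hy ⊢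
  rw [map_star, map_star, hx, hy]

theorem neg_star_mem_iff (s : ℕ) [Nil s L] (I : LieIdeal ℝ L) {x y : L} :
    star s (-x) y ∈ I ↔ y - x ∈ I := by
  constructor
  · intro h
    simpa using star_sub_mem_ideal_right s I x h
  · intro h
    simpa using star_congr s I (x := -x) (x' := -x) (by simp) h

theorem star_neg_mem_iff (s : ℕ) [Nil s L] (I : LieIdeal ℝ L) {x y : L} :
    star s y (-x) ∈ I ↔ y - x ∈ I := by
  constructor
  · intro h
    simpa using star_sub_mem_ideal_left s I h x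
  · intro h
    simpa using star_congr s I (y := -x) (y' := -x) h (by simp)

end

/-! ### the group -/

/-- the group `exp L` -/
@[ext] structure Exp (s : ℕ) (L : Type*) where
  /-- the logarithm -/
  log : L

namespace Exp

variable {s : ℕ} {L L' : Type*} [LieRing L] [LieAlgebra ℝ L] [LieRing L'] [LieAlgebra ℝ L']

instance : Mul (Exp s L) := ⟨fun g h => ⟨star s g.log h.log⟩⟩
instance : One (Exp s L) := ⟨⟨0⟩⟩
instance : Inv (Exp s L) := ⟨fun g => ⟨-g.log⟩⟩

@[simp] theorem log_mul (g h : Exp s L) : (g * h).log = star s g.log h.log := rfl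
omit [LieAlgebra ℝ L] in
@[simp] theorem log_one : (1 : Exp s L).log = 0 := rfl
omit [LieAlgebra ℝ L] in
@[simp] theorem log_inv (g : Exp s L) : g⁻¹.log = -g.log := rfl
theorem mk_mul (x y : L) : (⟨x⟩ * ⟨y⟩ : Exp s L) = ⟨star s x y⟩ := rfl

variable [Nil s L] [Nil s L']

instance : Group (Exp s L) :=
  Group.ofLeftAxioms (fun _ _ _ => Exp.ext (star_assoc s _ _ _)) (fun _ => Exp.ext (zero_star s _))
    fun _ => Exp.ext (neg_star_self s _)

@[simp] theorem log_pow (g : Exp s L) (n : ℕ) : (g ^ n).log = (n : ℝ) • g.log := by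
  induction n with
  | zero => simp
  | succ n ih =>
    rw [pow_succ, log_mul, ih, star_of_lie_eq_zero s (by simp), Nat.cast_succ, add_smul, one_smul]

@[simp] theorem log_zpow (g : Exp s L) (n : ℤ) : (g ^ n).log = (n : ℝ) • g.log := by
  cases n with
  | ofNat n => simp
  | negSucc n => rw [zpow_negSucc, log_inv, log_pow, Int.cast_negSucc, neg_smul]

theorem log_conj (g h : Exp s L) : (g * h * g⁻¹).log = Ad s g.log h.log := star_conj s _ _

/-- functoriality -/
def map (s : ℕ) [Nil s L] [Nil s L'] (f : L →ₗ⁅ℝ⁆ L') : Exp s L →* Exp s L' :=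
  MonoidHom.mk' (fun g => ⟨f g.log⟩) fun g h => Exp.ext (map_star s f g.log h.log)

@[simp] theorem log_map (f : L →ₗ⁅ℝ⁆ L') (g : Exp s L) : (map s f g).log = f g.log := rfl

/-- a subset closed under `star` and negation, as a subgroup -/
def subOf (s : ℕ) [Nil s L] (H : Set L) (h0 : 0 ∈ H) (hneg : ∀ x ∈ H, -x ∈ H)
    (hstar : ∀ x ∈ H, ∀ y ∈ H, star s x y ∈ H) : Subgroup (Exp s L) where
  carrier := {g | g.log ∈ H}
  one_mem' := h0
  mul_mem' hg hh := hstar _ hg _ hh
  inv_mem' hg := hneg _ hg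

/-- the subgroup of a subalgebra -/
def sub (s : ℕ) [Nil s L] (H : LieSubalgebra ℝ L) : Subgroup (Exp s L) :=
  subOf s H (zero_mem H) (fun _ h => neg_mem h) fun _ hx _ hy => star_mem s H hx hy

@[simp] theorem mem_sub {H : LieSubalgebra ℝ L} {g : Exp s L} : g ∈ sub s H ↔ g.log ∈ H := Iff.rfl

instance (I : LieIdeal ℝ L) : (sub s (I : LieSubalgebra ℝ L)).Normal :=
  ⟨fun h hh g => by
    rw [mem_sub, log_conj]
    exact Ad_mem s I.toSubmodule (fun _ hm => I.lie_mem hm) hh⟩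

theorem inv_mul_mem_iff (I : LieIdeal ℝ L) {g h : Exp s L} :
    g⁻¹ * h ∈ sub s (I : LieSubalgebra ℝ L) ↔ h.log - g.log ∈ I := neg_star_mem_iff s I

end Exp

end Crest.Agent.T49.Bch
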