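import Crest.Agent.T49.GonSub_60

/-! # Row 49: adapted integer bases, coordinate matrices, lifts, weight projections -/

set_option autoImplicit false
set_option linter.unusedSectionVars false

open Finset Matrix

namespace Crest.Agent.T49.Gon

variable {μ ι κ : Type*} [Fintype μ] [Fintype ι] [Fintype κ]

/-- left inverse of an injective integer matrix. -/
theorem exists_leftInv (A : Matrix μ ι ℤ) {H : ℝ} (hH : 1 ≤ H) (hA : ∀ i j, |(A i j : ℝ)| ≤ H)
    {d : ℕ} (hd : Fintype.card ι ≤ d ∨ Fintype.card μ ≤ d) (hinj : Function.Injective (lin A)) :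
    ∃ (q : ℕ) (B : Matrix ι μ ℤ), 1 ≤ q ∧ (q : ℝ) ≤ bl d H ∧ (∀ j i, |(B j i : ℝ)| ≤ bl d H) ∧
      (∀ y, ‖lin B y‖ ≤ bl d H * ‖y‖) ∧ ∀ x, lin B (lin A x) = (q : ℝ) • x := by
  obtain ⟨q, B, hq1, hq, hB, hBn, h⟩ := exists_solver A hH hA hd
  have hq0 : (q : ℝ) ≠ 0 := by positivity
  refine ⟨q, B, hq1, hq, hB, hBn, fun x => ?_⟩
  have := hinj (h _ ⟨x, rfl⟩)
  conv_rhs => rw [← this]
  rw [smul_smul, mul_inv_cancel₀ hq0, one_smul]

/-- **Lifting along an integer map**: a linear section `S = q⁻¹ B` of `lin A` from `A(U)` into `U`. -/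
theorem IsRat.exists_lift {H : ℝ} {U : Submodule ℝ (ι → ℝ)} (h : IsRat H U) (A : Matrix μ ι ℤ)
    (hA : ∀ i j, |(A i j : ℝ)| ≤ H) (hH : 1 ≤ H) {d : ℕ} (hd : Fintype.card ι ≤ d) :
    ∃ (q : ℕ) (B : Matrix ι μ ℤ), 1 ≤ q ∧ (q : ℝ) ≤ bl d (bl d H) ∧
      (∀ y, ‖lin B y‖ ≤ bl d H * (bl d (bl d H) * ‖y‖)) ∧ (∀ y, lin B y ∈ U) ∧
      ∀ x ∈ U, lin A (lin B (lin A x)) = (q : ℝ) • lin A x := by
  obtain ⟨r, G, hr, hG, -, rfl⟩ := h.exists_gen
  have hd0 : (0 : ℝ) ≤ d := Nat.cast_nonneg d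
  have hAG : ∀ i a, |((A * G) i a : ℝ)| ≤ bl d H := by
    intro i a
    refine (abs_mul_entry_le A G i a).trans ?_
    calc ∑ k, |(A i k : ℝ)| * |(G k a : ℝ)| ≤ ∑ _k : ι, H * H :=
          sum_le_sum fun k _ => mul_le_mul (hA _ _) (hG _ _) (abs_nonneg _) (by linarith)
      _ = Fintype.card ι * (H * H) := by simp
      _ ≤ d * (H * H) := mul_le_mul_of_nonneg_right (by exact_mod_cast hd) (by positivity)
      _ ≤ (((d : ℝ) + 1) * H) ^ 2 := by
          nlinarith [mul_nonneg hd0 (mul_self_nonneg H), mul_nonneg (mul_nonneg hd0 hd0) (mul_self_nonneg H), mul_self_nonneg H]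
      _ ≤ bl d H := pow_le_pow_right₀ (by nlinarith) (by omega)
  have hrd : Fintype.card (Fin r) ≤ d := by simpa using hr.trans hd
  obtain ⟨q, B, hq1, hq, -, hBn, h⟩ := exists_solver (A * G) (one_le_bl d hH) hAG (Or.inl hrd)
  have hq0 : (q : ℝ) ≠ 0 := by positivity
  refine ⟨q, G * B, hq1, hq, fun y => ?_, fun y => ⟨lin B y, (lin_mul _ _ _).symm⟩, ?_⟩
  · rw [lin_mul]
    refine (norm_lin_le G (by linarith) hG hrd _).trans ?_
    have h1 : (d : ℝ) * H ≤ bl d H := le_trans (by nlinarith) (mul_le_bl d hH)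
    exact mul_le_mul h1 (hBn y) (norm_nonneg _) (by linarith [one_le_bl d hH])
  · rintro _ ⟨x, rfl⟩
    have := h (lin (A * G) x) ⟨x, rfl⟩
    rw [map_smul] at this
    rw [lin_mul G B, ← lin_mul A G, ← lin_mul A G, ← this, smul_smul, mul_inv_cancel₀ hq0, one_smul,
      this]

/-- a basis adapted to an increasing chain of spanning sets. -/
theorem exists_chain_basis (S : ℕ → Set (ι → ℤ)) (hS : Monotone S) (n : ℕ) :
    ∃ (r : ℕ) (z : Fin r → ι → ℤ) (lv : Fin r → ℕ), r ≤ Fintype.card ι ∧ (∀ a, lv a ≤ n) ∧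
      (∀ a, z a ∈ S (lv a)) ∧ LinearIndependent ℝ (fun a => cst (z a)) ∧
      ∀ j ≤ n, Submodule.span ℝ (cst '' S j) =
        Submodule.span ℝ ((fun a => cst (z a)) '' {a | lv a ≤ j}) := by
  classical
  obtain ⟨P, hP⟩ : ∃ P : ℕ → Set (ι → ℤ) → Prop, ∀ j T, P j T ↔ (T ⊆ S j ∧ LinearIndepOn ℝ cst T ∧
      Submodule.span ℝ (cst '' T) = Submodule.span ℝ (cst '' S j)) := ⟨_, fun _ _ => Iff.rfl⟩
  have hext : ∀ j T, T ⊆ S j → LinearIndepOn ℝ cst T → ∃ T', P j T' ∧ T ⊆ T' := by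
    intro j T hsub hT
    obtain ⟨b, hb1, hb2, hb3, hb4⟩ := exists_linearIndepOn_extension hT hsub
    exact ⟨b, (hP _ _).2 ⟨hb1, hb4, le_antisymm (Submodule.span_mono (Set.image_mono hb1))
      (Submodule.span_le.2 hb3)⟩, hb2⟩
  have hstep : ∀ j T, ∃ T', P j T → P (j + 1) T' ∧ T ⊆ T' := by
    intro j T
    by_cases hT : P j T
    · obtain ⟨T', h⟩ := hext (j + 1) T (((hP _ _).1 hT).1.trans (hS (Nat.le_succ j)))
        ((hP _ _).1 hT).2.1
      exact ⟨T', fun _ => h⟩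
    · exact ⟨T, fun h => absurd h hT⟩
  choose nx hnx using hstep
  obtain ⟨T0, hT0, -⟩ := hext 0 ∅ (Set.empty_subset _) (linearIndepOn_empty ℝ _)
  obtain ⟨T, hT00, hTs⟩ : ∃ T : ℕ → Set (ι → ℤ), T 0 = T0 ∧ ∀ j, T (j + 1) = nx j (T j) :=
    ⟨fun j => Nat.rec T0 (fun j T => nx j T) j, rfl, fun _ => rfl⟩
  have hT' : ∀ j, P j (T j) := by
    intro j
    induction j with
    | zero => rw [hT00]; exact hT0
    | succ j ih => rw [hTs]; exact (hnx j _ ih).1
  have hTm : Monotone T := monotone_nat_of_le_succ fun j => by rw [hTs]; exact (hnx j _ (hT' j)).2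
  have hT := fun j => (hP _ _).1 (hT' j)
  have hli : LinearIndependent ℝ (fun x : T n => cst (x : ι → ℤ)) := (hT n).2.1
  have hfin : Finite (T n) := hli.finite
  have := Fintype.ofFinite (T n)
  let e := (Fintype.equivFin (T n)).symm
  have hex : ∀ a : Fin (Fintype.card (T n)), ∃ j, (e a : ι → ℤ) ∈ T j := fun a => ⟨n, (e a).2⟩
  refine ⟨Fintype.card (T n), fun a => e a, fun a => Nat.find (hex a), ?_, fun a => Nat.find_min' _ (e a).2,
    fun a => (hT _).1 (Nat.find_spec (hex a)), hli.comp _ e.injective, fun j hj => ?_⟩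
  · simpa using hli.fintype_card_le_finrank
  · rw [← (hT j).2.2]
    congr 1
    ext v
    constructor
    · rintro ⟨x, hx, rfl⟩
      refine ⟨e.symm ⟨x, hTm hj hx⟩, Nat.find_min' _ (by simpa using hx), by simp⟩
    · rintro ⟨a, ha, rfl⟩
      exact ⟨e a, hTm ha (Nat.find_spec (hex a)), rfl⟩

theorem mem_span_iff_coord {r : ℕ} (z : Fin r → ι → ℤ)
    (hli : LinearIndependent ℝ (fun a => cst (z a))) (p : Fin r → Prop) (y : Fin r → ℝ) :
    ∑ a, y a • cst (z a) ∈ Submodule.span ℝ ((fun a => cst (z a)) '' {a | p a}) ↔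
      ∀ a, ¬ p a → y a = 0 := by
  classical
  constructor
  · intro h
    have key : ∀ v ∈ Submodule.span ℝ ((fun a => cst (z a)) '' {a | p a}),
        ∃ c : Fin r → ℝ, (∀ a, ¬ p a → c a = 0) ∧ v = ∑ a, c a • cst (z a) := by
      intro v hv
      induction hv using Submodule.span_induction with
      | mem x hx =>
        obtain ⟨b, hb, rfl⟩ := hx
        refine ⟨Pi.single b 1, fun a ha => Pi.single_eq_of_ne (by rintro rfl; exact ha hb) _, ?_⟩
        rw [sum_eq_single b]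
        · simp
        · intro a _ ha; simp [Pi.single_eq_of_ne ha]
        · simp
      | zero => exact ⟨0, fun _ _ => rfl, by simp⟩
      | add x x' _ _ h1 h2 =>
        obtain ⟨c, hc, rfl⟩ := h1
        obtain ⟨c', hc', rfl⟩ := h2
        exact ⟨c + c', fun a ha => by simp [hc a ha, hc' a ha], by simp [add_smul, sum_add_distrib]⟩
      | smul t x _ h1 =>
        obtain ⟨c, hc, rfl⟩ := h1
        exact ⟨t • c, fun a ha => by simp [hc a ha], by simp [smul_sum, smul_smul]⟩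
    obtain ⟨c, hc, e⟩ := key _ h
    intro a ha
    rw [Fintype.linearIndependent_iffₛ.1 hli y c e a, hc a ha]
  · intro h
    refine Submodule.sum_mem _ fun a _ => ?_
    by_cases ha : p a
    · exact Submodule.smul_mem _ _ (Submodule.subset_span ⟨a, ha, rfl⟩)
    · simp [h a ha]

/-- **Adapted coordinates for a filtration** `V 1 ⊇ V 2 ⊇ … ⊇ V (s+1)`, each `V i` spanned by its short
integer vectors with the property `p`.  The columns of `Z` are a basis of `V 1` modulo `V (s+1)`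
adapted to the filtration, `q⁻¹ C` is the coordinate map. -/
theorem exists_adapted (p : (ι → ℤ) → Prop) (V : ℕ → Submodule ℝ (ι → ℝ)) (s : ℕ) {H : ℝ}
    (hH : 1 ≤ H) {d : ℕ} (hd : Fintype.card ι ≤ d) (hanti : ∀ i, 1 ≤ i → i ≤ s → V (i + 1) ≤ V i)
    (hV : ∀ i, 1 ≤ i → i ≤ s + 1 → V i ≤ Submodule.span ℝ
      {v | v ∈ V i ∧ ∃ z : ι → ℤ, p z ∧ (∀ k, |(z k : ℝ)| ≤ H) ∧ v = cst z}) :
    ∃ (r : ℕ) (wt : Fin r → ℕ) (Z : Matrix ι (Fin r) ℤ) (C : Matrix (Fin r) ι ℤ) (q : ℕ),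
      r ≤ Fintype.card ι ∧ (∀ a, 1 ≤ wt a ∧ wt a ≤ s) ∧ (∀ k a, |(Z k a : ℝ)| ≤ H) ∧
      (∀ a, p fun k => Z k a) ∧ (∀ a, cst (fun k => Z k a) ∈ V (wt a)) ∧
      1 ≤ q ∧ (q : ℝ) ≤ bl d H ∧ (∀ a k, |(C a k : ℝ)| ≤ bl d H) ∧
      (∀ x, ‖lin C x‖ ≤ bl d H * ‖x‖) ∧ (∀ y, lin C (lin Z y) = (q : ℝ) • y) ∧
      (∀ x ∈ V 1, (q : ℝ) • x - lin Z (lin C x) ∈ V (s + 1)) ∧
      (∀ i, 1 ≤ i → i ≤ s + 1 → ∀ x ∈ V 1, x ∈ V i ↔ ∀ a, wt a < i → lin C x a = 0) := by
  classical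
  have hanti' : ∀ i j, 1 ≤ i → i ≤ j → j ≤ s + 1 → V j ≤ V i := by
    intro i j hi hij hj
    induction j, hij using Nat.le_induction with
    | base => exact le_rfl
    | succ j hij ih => exact (hanti j (by omega) (by omega)).trans (ih (by omega))
  let S : ℕ → Set (ι → ℤ) := fun j =>
    {z | p z ∧ (∀ k, |(z k : ℝ)| ≤ H) ∧ cst z ∈ V (max 1 (s + 1 - j))}
  have hSm : Monotone S := fun j j' hj z hz =>
    ⟨hz.1, hz.2.1, hanti' _ _ (le_max_left _ _) (by omega) (by omega) hz.2.2⟩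
  have hSV : ∀ j ≤ s, Submodule.span ℝ (cst '' S j) = V (s + 1 - j) := by
    intro j hj
    have hm : max 1 (s + 1 - j) = s + 1 - j := by omega
    apply le_antisymm
    · refine Submodule.span_le.2 ?_
      rintro _ ⟨z, hz, rfl⟩
      exact hm ▸ hz.2.2
    · refine (hV _ (by omega) (by omega)).trans (Submodule.span_mono ?_)
      rintro _ ⟨hv, z, hz1, hz2, rfl⟩
      exact ⟨z, ⟨hz1, hz2, hm.symm ▸ hv⟩, rfl⟩
  obtain ⟨r0, z, lv, hr0, hlv, hzS, hli, hsp⟩ := exists_chain_basis S hSm s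
  let Z0 : Matrix ι (Fin r0) ℤ := Matrix.of fun k a => z a k
  have hZ0 : ∀ y, lin Z0 y = ∑ a, y a • cst (z a) := fun y => lin_eq_sum Z0 y
  have hinj : Function.Injective (lin Z0) := by
    rw [← LinearMap.ker_eq_bot, LinearMap.ker_eq_bot']
    intro x hx
    rw [hZ0] at hx
    exact funext (Fintype.linearIndependent_iff.1 hli x hx)
  obtain ⟨q, B, hq1, hq, hB, hBn, hBZ⟩ :=
    exists_leftInv Z0 hH (fun k a => (hzS a).2.1 k) (Or.inr hd) hinj
  have hq0 : (q : ℝ) ≠ 0 := by positivity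
  -- membership in `V i` in terms of the full coordinates
  have hmem : ∀ i, 1 ≤ i → i ≤ s + 1 → ∀ y, lin Z0 y ∈ V i ↔ ∀ a, s + 1 - lv a < i → y a = 0 := by
    intro i hi hi' y
    have h1 : V i = Submodule.span ℝ ((fun a => cst (z a)) '' {a | lv a ≤ s + 1 - i}) := by
      rw [← hsp _ (by omega), hSV _ (by omega)]
      congr 1; omega
    rw [h1, hZ0, mem_span_iff_coord z hli]
    refine forall_congr' fun a => ?_
    have := hlv a
    have h2 : (¬ lv a ≤ s + 1 - i) ↔ s + 1 - lv a < i := by omega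
    rw [h2]
  have hV1 : ∀ x ∈ V 1, ∃ y, lin Z0 y = x := by
    intro x hx
    have h1 : V 1 = Submodule.span ℝ ((fun a => cst (z a)) '' {a | lv a ≤ s}) := by
      rw [← hsp _ le_rfl, hSV _ le_rfl]
      congr 1; omega
    rw [h1] at hx
    have : Submodule.span ℝ ((fun a => cst (z a)) '' {a | lv a ≤ s}) ≤ LinearMap.range (lin Z0) := by
      refine Submodule.span_le.2 ?_
      rintro _ ⟨a, -, rfl⟩
      exact ⟨Pi.single a 1, lin_single Z0 a⟩
    exact this hx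
  let K := {a : Fin r0 // 1 ≤ lv a}
  let e := (Fintype.equivFin K).symm
  let Z : Matrix ι (Fin (Fintype.card K)) ℤ := Matrix.of fun k a => z (e a) k
  let C : Matrix (Fin (Fintype.card K)) ι ℤ := Matrix.of fun a k => B (e a) k
  have hC : ∀ x a, lin C x a = lin B x (e a) := fun x a => rfl
  -- extension by zero
  let ext0 : (Fin (Fintype.card K) → ℝ) → Fin r0 → ℝ := fun y a =>
    if h : 1 ≤ lv a then y (e.symm ⟨a, h⟩) else 0
  have hext : ∀ y a, ext0 y (e a) = y a := by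
    intro y a
    simp only [ext0, dif_pos (e a).2]
    congr 1
    exact e.symm_apply_apply a
  have hZ : ∀ y, lin Z y = lin Z0 (ext0 y) := by
    intro y
    rw [hZ0, lin_eq_sum, ← sum_filter_add_sum_filter_not univ (fun a => 1 ≤ lv a),
      sum_eq_zero (s := univ.filter fun a => ¬ 1 ≤ lv a), add_zero,
      sum_subtype (p := fun a => 1 ≤ lv a) _ (by simp), ← e.sum_comp]
    · exact sum_congr rfl fun a _ => by rw [hext]; rfl
    · intro a ha
      simp only [ext0, dif_neg (mem_filter.1 ha).2, zero_smul]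
  refine ⟨Fintype.card K, fun a => s + 1 - lv (e a), Z, C, q, ?_, fun a => ?_,
    fun k a => (hzS _).2.1 k, fun a => (hzS _).1, fun a => ?_, hq1, hq, fun a k => hB _ _,
    fun x => ?_, fun y => ?_, fun x hx => ?_, fun i hi hi' x hx => ?_⟩
  · exact le_trans (by simpa using Fintype.card_subtype_le (fun a : Fin r0 => 1 ≤ lv a)) hr0
  · have := hlv (e a)
    have := (e a).2
    dsimp only
    omega
  · have h1 := (hzS (e a)).2.2
    have := hlv (e a)
    have hm : max 1 (s + 1 - lv (e a)) = s + 1 - lv (e a) := by omega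
    rw [hm] at h1
    exact h1
  · refine le_trans ?_ (hBn x)
    refine (pi_norm_le_iff_of_nonneg (norm_nonneg _)).2 fun a => ?_
    rw [hC]; exact norm_le_pi_norm _ _
  · ext a
    rw [hC, hZ, hBZ, Pi.smul_apply, hext, Pi.smul_apply]
  · obtain ⟨y, rfl⟩ := hV1 x hx
    rw [hZ, ← map_smul, ← map_sub, hmem _ (by omega) le_rfl]
    intro a ha
    have h1 : 1 ≤ lv a := by have := hlv a; omega
    obtain ⟨b, hb⟩ : ∃ b, (e b : Fin r0) = a := ⟨e.symm ⟨a, h1⟩, by simp⟩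
    rw [← hb, Pi.sub_apply, hext, hC, hBZ, sub_self]
  · obtain ⟨y, rfl⟩ := hV1 x hx
    rw [hmem i hi hi']
    constructor
    · intro h a ha
      rw [hC, hBZ, Pi.smul_apply, h _ ha, smul_zero]
    · intro h a ha
      have h1 : 1 ≤ lv a := by have := hlv a; omega
      obtain ⟨b, hb⟩ : ∃ b, (e b : Fin r0) = a := ⟨e.symm ⟨a, h1⟩, by simp⟩
      have := h b (by dsimp only; rwa [hb])
      rw [hC, hBZ, Pi.smul_apply, smul_eq_mul, hb] at this
      exact (mul_eq_zero.1 this).resolve_left hq0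

/-- `exists_adapted` for a chain of rational subspaces. -/
theorem exists_adapted' (V : ℕ → Submodule ℝ (ι → ℝ)) (s : ℕ) {H : ℝ}
    (hH : 1 ≤ H) {d : ℕ} (hd : Fintype.card ι ≤ d) (hanti : ∀ i, 1 ≤ i → i ≤ s → V (i + 1) ≤ V i)
    (hV : ∀ i, 1 ≤ i → i ≤ s + 1 → IsRat H (V i)) :
    ∃ (r : ℕ) (wt : Fin r → ℕ) (Z : Matrix ι (Fin r) ℤ) (C : Matrix (Fin r) ι ℤ) (q : ℕ),
      r ≤ Fintype.card ι ∧ (∀ a, 1 ≤ wt a ∧ wt a ≤ s) ∧ (∀ k a, |(Z k a : ℝ)| ≤ H) ∧
      (∀ a, cst (fun k => Z k a) ∈ V (wt a)) ∧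
      1 ≤ q ∧ (q : ℝ) ≤ bl d H ∧ (∀ a k, |(C a k : ℝ)| ≤ bl d H) ∧
      (∀ x, ‖lin C x‖ ≤ bl d H * ‖x‖) ∧ (∀ y, lin C (lin Z y) = (q : ℝ) • y) ∧
      (∀ x ∈ V 1, (q : ℝ) • x - lin Z (lin C x) ∈ V (s + 1)) ∧
      (∀ i, 1 ≤ i → i ≤ s + 1 → ∀ x ∈ V 1, x ∈ V i ↔ ∀ a, wt a < i → lin C x a = 0) := by
  obtain ⟨r, wt, Z, C, q, h1, h2, h3, -, h5⟩ := exists_adapted (fun _ => True) V s hH hd hanti
    fun i hi hi' => (hV i hi hi').trans
      (Submodule.span_mono fun _ ⟨hv, z, hz, e⟩ => ⟨hv, z, trivial, hz, e⟩)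
  exact ⟨r, wt, Z, C, q, h1, h2, h3, h5⟩

/-- integer coordinates on the quotient by a rational subspace: `C` has kernel `U` and `C Z = q`. -/
theorem IsRat.exists_quot {H : ℝ} {U : Submodule ℝ (ι → ℝ)} (h : IsRat H U) (hH : 1 ≤ H) {d : ℕ}
    (hd : Fintype.card ι ≤ d) :
    ∃ (r : ℕ) (Z : Matrix ι (Fin r) ℤ) (C : Matrix (Fin r) ι ℤ) (q : ℕ),
      r ≤ Fintype.card ι ∧ (∀ k a, |(Z k a : ℝ)| ≤ H) ∧
      1 ≤ q ∧ (q : ℝ) ≤ bl d H ∧ (∀ a k, |(C a k : ℝ)| ≤ bl d H) ∧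
      (∀ x, ‖lin C x‖ ≤ bl d H * ‖x‖) ∧ (∀ y, lin C (lin Z y) = (q : ℝ) • y) ∧
      (∀ x, (q : ℝ) • x - lin Z (lin C x) ∈ U) ∧ (∀ x, x ∈ U ↔ lin C x = 0) := by
  obtain ⟨r, wt, Z, C, q, h1, h2, h3, -, h5, h6, h7, h8, h9, h10, h11⟩ :=
    exists_adapted' (fun i => if i ≤ 1 then ⊤ else U) 1 hH hd
      (fun i hi hi' => by simp [hi']) (fun i _ _ => by
        split_ifs
        · exact IsRat.top hH
        · exact h)
  refine ⟨r, Z, C, q, h1, h3, h5, h6, h7, h8, h9, fun x => by simpa using h10 x (by simp),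
    fun x => ?_⟩
  have := h11 2 (by omega) le_rfl x (by simp)
  simp only [Nat.reduceLeDiff, if_false] at this
  rw [this, funext_iff]
  exact forall_congr' fun a => by have := h2 a; simp; omega

section Prj

/-- the projection on the coordinates with property `p`. -/
noncomputable def prj (p : ι → Prop) : (ι → ℝ) →ₗ[ℝ] (ι → ℝ) := by
  classical
  exact { toFun := fun x i => if p i then x i else 0
          map_add' := fun x y => by ext i; by_cases h : p i <;> simp [h]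
          map_smul' := fun c x => by ext i; by_cases h : p i <;> simp [h] }

theorem prj_pos {p : ι → Prop} (x : ι → ℝ) {i : ι} (h : p i) : prj p x i = x i := by
  classical
  exact if_pos h

theorem prj_neg {p : ι → Prop} (x : ι → ℝ) {i : ι} (h : ¬ p i) : prj p x i = 0 := by
  classical
  exact if_neg h

theorem prj_prj (p : ι → Prop) (x : ι → ℝ) : prj p (prj p x) = prj p x := by
  ext i
  by_cases h : p i
  · rw [prj_pos _ h]
  · rw [prj_neg _ h, prj_neg _ h]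

theorem prj_eq_self {p : ι → Prop} {x : ι → ℝ} : prj p x = x ↔ ∀ i, ¬ p i → x i = 0 := by
  constructor
  · intro h i hi; rw [← h, prj_neg _ hi]
  · intro h
    ext i
    by_cases hi : p i
    · rw [prj_pos _ hi]
    · rw [prj_neg _ hi, h i hi]

theorem norm_prj_le (p : ι → Prop) (x : ι → ℝ) : ‖prj p x‖ ≤ ‖x‖ := by
  refine (pi_norm_le_iff_of_nonneg (norm_nonneg _)).2 fun i => ?_
  by_cases h : p i
  · rw [prj_pos _ h]; exact norm_le_pi_norm x i
  · rw [prj_neg _ h]; simp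

theorem norm_prj_le_iff {p : ι → Prop} {x : ι → ℝ} {ε : ℝ} (hε : 0 ≤ ε) :
    ‖prj p x‖ ≤ ε ↔ ∀ i, p i → |x i| ≤ ε := by
  rw [pi_norm_le_iff_of_nonneg hε]
  constructor
  · intro h i hi
    have := h i
    rwa [prj_pos _ hi] at this
  · intro h i
    by_cases hi : p i
    · rw [prj_pos _ hi]; exact h i hi
    · rw [prj_neg _ hi]; simpa using hε

theorem exists_prj_cst (p : ι → Prop) (z : ι → ℤ) :
    ∃ z' : ι → ℤ, prj p (cst z) = cst z' ∧ (∀ i, ¬ p i → z' i = 0) ∧ ∀ i, p i → z' i = z i := by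
  classical
  refine ⟨fun i => if p i then z i else 0, ?_, fun i hi => if_neg hi, fun i hi => if_pos hi⟩
  ext i
  by_cases h : p i
  · rw [prj_pos _ h]; simp [h]
  · rw [prj_neg _ h]; simp [h]

theorem IsDen.prj {q : ℕ} {x : ι → ℝ} (hx : IsDen q x) (p : ι → Prop) : IsDen q (prj p x) := by
  obtain ⟨z, hz⟩ := hx
  obtain ⟨z', h, -⟩ := exists_prj_cst p z
  exact ⟨z', by rw [← map_smul, hz, h]⟩

theorem IsRat.map_prj {H : ℝ} {U : Submodule ℝ (ι → ℝ)} (h : IsRat H U) (hH : 0 ≤ H)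
    (p : ι → Prop) : IsRat H (U.map (prj p)) := by
  rw [h.eq_span, Submodule.map_span]
  refine IsRat.span _ ?_
  rintro _ ⟨v, ⟨-, z, hz, rfl⟩, rfl⟩
  obtain ⟨z', h1, h2, h3⟩ := exists_prj_cst p z
  refine ⟨z', fun i => ?_, h1⟩
  by_cases hi : p i
  · rw [h3 i hi]; exact hz i
  · rw [h2 i hi]; simpa using hH

/-- coordinate subspaces are rational. -/
theorem isRat_coord (p : ι → Prop) {H : ℝ} (hH : 1 ≤ H) (U : Submodule ℝ (ι → ℝ))
    (hU : ∀ x, x ∈ U ↔ ∀ i, ¬ p i → x i = 0) : IsRat H U := by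
  have : U = (⊤ : Submodule ℝ (ι → ℝ)).map (prj p) := by
    ext x
    rw [hU, ← prj_eq_self]
    constructor
    · intro h; exact ⟨x, trivial, h⟩
    · rintro ⟨y, -, rfl⟩; exact prj_prj p y
  rw [this]
  exact (IsRat.top hH).map_prj (by linarith) p

theorem sum_prj_wt (wt : ι → ℕ) (T : Finset ℕ) (hT : ∀ i, wt i ∈ T) (x : ι → ℝ) :
    ∑ n ∈ T, prj (fun i => wt i = n) x = x := by
  ext i
  rw [Finset.sum_apply, sum_eq_single (wt i)]
  · exact prj_pos _ rfl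
  · intro n _ hn; exact prj_neg _ (Ne.symm hn)
  · intro h; exact absurd (hT i) h

/-- `U` is graded for the weight `wt`. -/
def IsGr (wt : ι → ℕ) (U : Submodule ℝ (ι → ℝ)) : Prop :=
  ∀ n, ∀ x ∈ U, prj (fun i => wt i = n) x ∈ U

theorem IsGr.mem_iff {wt : ι → ℕ} {U : Submodule ℝ (ι → ℝ)} (h : IsGr wt U) (x : ι → ℝ) :
    x ∈ U ↔ ∀ n, prj (fun i => wt i = n) x ∈ U := by
  classical
  refine ⟨fun hx n => h n x hx, fun hx => ?_⟩
  rw [← sum_prj_wt wt (univ.image wt) (fun i => mem_image_of_mem _ (mem_univ i)) x]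
  exact Submodule.sum_mem _ fun n _ => hx n

/-- a graded rational subspace is spanned by short HOMOGENEOUS integer vectors. -/
theorem IsRat.le_span_homog {wt : ι → ℕ} {H : ℝ} {U : Submodule ℝ (ι → ℝ)} (h : IsRat H U)
    (hH : 0 ≤ H) (hg : IsGr wt U) :
    U ≤ Submodule.span ℝ {v | v ∈ U ∧ ∃ z : ι → ℤ, (∃ n, ∀ i, wt i ≠ n → z i = 0) ∧
      (∀ k, |(z k : ℝ)| ≤ H) ∧ v = cst z} := by
  classical
  refine h.le_of_forall fun z hz hU => ?_
  rw [← sum_prj_wt wt (univ.image wt) (fun i => mem_image_of_mem _ (mem_univ i)) (cst z)]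
  refine Submodule.sum_mem _ fun n _ => Submodule.subset_span ⟨hg n _ hU, ?_⟩
  obtain ⟨z', h1, h2, h3⟩ := exists_prj_cst (fun i => wt i = n) z
  refine ⟨z', ⟨n, h2⟩, fun i => ?_, h1⟩
  by_cases hi : wt i = n
  · rw [h3 i hi]; exact hz i
  · rw [h2 i hi]; simpa using hH

/-- graded UNIQ: weighted smallness. -/
theorem IsRat.tiny_rat_gr {wt : ι → ℕ} {H : ℝ} {U : Submodule ℝ (ι → ℝ)} (h : IsRat H U)
    (hH : 1 ≤ H) {d : ℕ} (hd : Fintype.card ι ≤ d) {q : ℕ} (hq : 1 ≤ q)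
    {e r : ι → ℝ} (hr : IsDen q r) (n : ℕ) {ε : ℝ} (hε : 0 ≤ ε) (he : ∀ i, wt i = n → |e i| ≤ ε)
    (hs : q * (bl d H * ε) < 1) (hU : prj (fun i => wt i = n) (e + r) ∈ U) :
    prj (fun i => wt i = n) e ∈ U ∧ prj (fun i => wt i = n) r ∈ U := by
  rw [map_add] at hU
  refine h.tiny_rat hH hd hq (hr.prj _) (lt_of_le_of_lt ?_ hs) hU
  refine mul_le_mul_of_nonneg_left (mul_le_mul_of_nonneg_left ((norm_prj_le_iff hε).2 he) ?_)
    (Nat.cast_nonneg q)
  linarith [one_le_bl d hH]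

/-- INT in one degree inside a coordinate subspace which is respected by all `U a`. -/
theorem IsRat.int_prj {α : Type*} [Fintype α] {H : ℝ} {U : α → Submodule ℝ (ι → ℝ)}
    (h : ∀ a, IsRat H (U a)) (hH : 1 ≤ H) {d : ℕ} (hd : Fintype.card ι ≤ d) :
    ∃ q' : ℕ, 1 ≤ q' ∧ (q' : ℝ) ≤ bl d (bl d H) ∧
      ∀ (p : ι → Prop), (∀ a, ∀ x ∈ U a, prj p x ∈ U a) →
      ∀ (x : ι → ℝ) (e r : α → ι → ℝ) (q : ℕ) (ε : ℝ), 0 ≤ ε → (∀ a i, p i → |e a i| ≤ ε) →
        (∀ a, IsDen q (prj p (r a))) → (∀ a, prj p (x - e a - r a) ∈ U a) →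
        ∃ e' r' : ι → ℝ, ‖e'‖ ≤ bl d (bl d H) * (bl d H * ε) ∧ IsDen (q' * q) r' ∧
          prj p e' = e' ∧ prj p r' = r' ∧ ∀ a, prj p x - e' - r' ∈ U a := by
  obtain ⟨q', hq1, hq, hI⟩ := IsRat.int h hH hd
  refine ⟨q', hq1, hq, fun p hp x e r q ε hε he hr hx => ?_⟩
  obtain ⟨e', r', he', hr', hm⟩ := hI (prj p x) (fun a => prj p (e a)) (fun a => prj p (r a)) q ε hε
    (fun a => (norm_prj_le_iff hε).2 (he a)) hr (fun a => by simpa only [map_sub] using hx a)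
  refine ⟨prj p e', prj p r', (norm_prj_le p e').trans he', hr'.prj p, prj_prj _ _, prj_prj _ _,
    fun a => ?_⟩
  have := hp a _ (hm a)
  rwa [map_sub, map_sub, prj_prj] at this

end Prj

section Bil

/-- `{x ∈ U | ∀ a, A a x ∈ K a}` is rational (e.g. `A a = ad (w a)` for a basis `w a`). -/
theorem IsRat.cond {α : Type*} [Fintype α] {H : ℝ} {U : Submodule ℝ (ι → ℝ)} (h : IsRat H U)
    (A : α → Matrix μ ι ℤ) (K : α → Submodule ℝ (μ → ℝ)) (hK : ∀ a, IsRat H (K a))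
    (hA : ∀ a i j, |(A a i j : ℝ)| ≤ H) (hH : 1 ≤ H) {d : ℕ} (hι : Fintype.card ι ≤ d)
    (hμ : Fintype.card μ ≤ d) :
    IsRat (bl d (bl d (bl d (bl d (bl d H))))) (U ⊓ ⨅ a, (K a).comap (lin (A a))) := by
  have h1 := one_le_bl d hH
  have h2 := one_le_bl d h1
  have h3 := one_le_bl d h2
  have := IsRat.iInf (U := fun o : Option α => o.elim U fun a => (K a).comap (lin (A a)))
    (H := bl d (bl d (bl d H))) (fun o => by
      cases o with
      | none => exact h.mono ((le_bl d hH).trans ((le_bl d h1).trans (le_bl d h2)))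
      | some a => exact (hK a).comap (A a) (hA a) hH hμ) h3 hι
  simpa [iInf_option] using this

/-- a linear map that sends the standard basis to vectors of denominator `q` and size `R` is
`q⁻¹` times an integer matrix of height `q R`. -/
theorem exists_lin_of_den [DecidableEq ι] (f : (ι → ℝ) →ₗ[ℝ] (μ → ℝ)) {q : ℕ} {R : ℝ}
    (hf : ∀ j, IsDen q (f (Pi.single j 1)) ∧ ‖f (Pi.single j 1)‖ ≤ R) :
    ∃ A : Matrix μ ι ℤ, (∀ i j, |(A i j : ℝ)| ≤ q * R) ∧ ∀ x, lin A x = (q : ℝ) • f x := by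
  choose z hz using fun j => (hf j).1
  refine ⟨Matrix.of fun i j => z j i, fun i j => ?_, fun x => ?_⟩
  · have h1 : (z j i : ℝ) = q * f (Pi.single j 1) i := (congrFun (hz j) i).symm
    rw [Matrix.of_apply, h1, abs_mul, Nat.abs_cast]
    exact mul_le_mul_of_nonneg_left ((norm_le_pi_norm _ i).trans (hf j).2) (Nat.cast_nonneg q)
  · rw [lin_eq_sum]
    conv_rhs => rw [pi_eq_sum_univ' x, map_sum, smul_sum]
    refine sum_congr rfl fun j _ => ?_
    rw [map_smul, smul_comm, hz j]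
    rfl

end Bil

end Crest.Agent.T49.Gon
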