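import Crest.Agent.T49.GowQuad_71

/-! Row 49 (helper71): the Cauchy-Schwarz steps on intervals of `ℤ`, flattened products,
bias on a box gives bias on a line in every direction. -/

set_option autoImplicit false

noncomputable section

open Finset
open scoped ComplexConjugate BigOperators Pointwise Classical

namespace Crest.Agent.T49.Box

open Crest.Agent.T49.Gow (Supp D U vtx)

/-- conjugate if the sign is `-1` -/
def cz (ε : ℤˣ) (z : ℂ) : ℂ := if ε = 1 then z else conj z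

@[simp] lemma cz_one (z : ℂ) : cz 1 z = z := by simp [cz]

@[simp] lemma cz_neg_one (z : ℂ) : cz (-1) z = conj z := by simp [cz]

lemma cz_neg (ε : ℤˣ) (z : ℂ) : cz (-ε) z = conj (cz ε z) := by
  rcases Int.units_eq_one_or ε with rfl | rfl <;> simp

lemma cz_neg' (ε : ℤˣ) (z : ℂ) : cz (-ε) z = cz ε (conj z) := by
  rcases Int.units_eq_one_or ε with rfl | rfl <;> simp

lemma cz_mul (ε : ℤˣ) (z w : ℂ) : cz ε (z * w) = cz ε z * cz ε w := by
  rcases Int.units_eq_one_or ε with rfl | rfl <;> simp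

lemma cz_cz (ε ε' : ℤˣ) (z : ℂ) : cz ε (cz ε' z) = cz (ε * ε') z := by
  rcases Int.units_eq_one_or ε with rfl | rfl <;> rcases Int.units_eq_one_or ε' with rfl | rfl <;>
    simp

@[simp] lemma norm_cz (ε : ℤˣ) (z : ℂ) : ‖cz ε z‖ = ‖z‖ := by
  rcases Int.units_eq_one_or ε with rfl | rfl <;> simp

lemma cz_prod {α : Type*} (ε : ℤˣ) (s : Finset α) (f : α → ℂ) :
    cz ε (∏ a ∈ s, f a) = ∏ a ∈ s, cz ε (f a) := by
  rcases Int.units_eq_one_or ε with rfl | rfl <;> simp [map_prod]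

/-- `-1` for `true` -/
def sb (a : Bool) : ℤˣ := if a then -1 else 1

/-- the sign of a vertex of the cube: `(-1) ^ (number of false entries)` -/
def sw {t : ℕ} (w : Fin t → Bool) : ℤˣ := ∏ i, sb (!w i)

lemma gcj_eq : ∀ {t : ℕ} (w : Fin t → Bool) (z : ℂ), Gow.cj w z = cz (sw w) z
  | 0, w, z => by simp [Gow.cj, sw]
  | t + 1, w, z => by
    rw [Gow.cj, gcj_eq, sw, sw, Fin.prod_univ_succ]
    cases h : w 0
    · simp only [sb, Bool.not_false, if_true, neg_one_mul, cz_neg', Fin.tail]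
      simp
    · simp [sb, Fin.tail]

lemma Dk_eq {G : Type*} [AddCommGroup G] {t : ℕ} (k : Fin t → G) (f : G → ℂ) (x : G) :
    Dk k f x = ∏ w, cz (sw w) (f (vtx x k w)) := by
  simp only [Dk, gcj_eq]

/-- variables of the symmetry step: `inl (false, a) = y_a`, `inl (true, b) = y'_b`, `inr i = k_i` -/
abbrev SV (t : ℕ) : Type := (Bool × Bool) ⊕ Fin t

/-- factors of the symmetry step: `(a, b, c, w)` -/
abbrev SF (t : ℕ) : Type := Bool × Bool × Bool × (Fin t → Bool)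

section
variable {G : Type*} [AddCommGroup G] {t : ℕ}

/-- the sign `(-1) ^ (a + b + c + #false w)` -/
def sgnF (j : SF t) : ℤˣ := sb j.1 * sb j.2.1 * sb j.2.2.1 * sw j.2.2.2

/-- the first argument `z - y_a - y'_b` -/
def argH (z : G) (j : SF t) (x : SV t → G) : G :=
  z - x (.inl (false, j.1)) - x (.inl (true, j.2.1))

/-- the second argument `y_a + w · (k₀ + k)` (`c = false`) or `y'_b + w · (k₀ + k)` (`c = true`) -/
def argN (k₀ : Fin t → G) (j : SF t) (x : SV t → G) : G :=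
  x (.inl (j.2.2.1, if j.2.2.1 then j.2.1 else j.1)) +
    ∑ i, if j.2.2.2 i then k₀ i + x (.inr i) else 0

/-- the integrand of the symmetry step -/
def symF (M : G → G → ℂ) (z : G) (k₀ : Fin t → G) (x : SV t → G) : ℂ :=
  ∏ j : SF t, cz (sgnF j) (M (argH z j x) (argN k₀ j x))

lemma symF_eq (M : G → G → ℂ) (z : G) (k₀ : Fin t → G) (x : SV t → G) :
    symF M z k₀ x = sk4 (fun h => Dk (fun i => k₀ i + x (.inr i)) (M h)) z (x (.inl (false, false)))
      (x (.inl (false, true))) (x (.inl (true, false))) (x (.inl (true, true))) := by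
  simp only [symF, Fintype.prod_prod_type, Fintype.prod_bool, sk4, sk, Dk_eq, sgnF, argH, argN, sb,
    vtx, map_mul, map_prod, ← cz_neg]
  simp only [if_true, Bool.false_eq_true, if_false, neg_mul, one_mul, mul_neg, mul_one, neg_neg]
  ring

omit [AddCommGroup G] in
lemma sum_SV {A : Type*} [AddCommMonoid A] (B : Finset G) (φ : (SV t → G) → A) :
    ∑ x ∈ Fintype.piFinset fun _ : SV t => B, φ x =
      ∑ k ∈ Fintype.piFinset fun _ : Fin t => B, ∑ y₁ ∈ B, ∑ y₂ ∈ B, ∑ y₁' ∈ B, ∑ y₂' ∈ B,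
        φ (Sum.elim (fun p => if p.1 then (if p.2 then y₂' else y₁') else
          (if p.2 then y₂ else y₁)) k) := by
  simp only [← sum_product']
  refine sum_bij' (fun x _ => (fun i => x (.inr i), x (.inl (false, false)), x (.inl (false, true)),
    x (.inl (true, false)), x (.inl (true, true))))
    (fun q _ => Sum.elim (fun p => if p.1 then (if p.2 then q.2.2.2.2 else q.2.2.2.1) else
          (if p.2 then q.2.2.1 else q.2.1)) q.1) ?_ ?_ ?_ ?_ ?_
  · intro x hx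
    simp only [Fintype.mem_piFinset, mem_product] at hx ⊢
    exact ⟨fun i => hx _, hx _, hx _, hx _, hx _⟩
  · rintro ⟨k, a, b, c, d⟩ hq
    simp only [Fintype.mem_piFinset, mem_product] at hq ⊢
    rintro (⟨_ | _, _ | _⟩ | i) <;> simp [hq]
  · intro x _
    funext j
    rcases j with (⟨_ | _, _ | _⟩ | i) <;> simp
  · rintro ⟨k, a, b, c, d⟩ _
    simp
  · intro x _
    congr 1
    funext j
    rcases j with (⟨_ | _, _ | _⟩ | i) <;> simp

end

lemma Ico_add_Ico_subset (N : ℕ) :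
    Ico (0 : ℤ) N + Ico (0 : ℤ) N ⊆ Ico (0 : ℤ) (2 * N) := fun x hx => by
  obtain ⟨a, ha, b, hb, rfl⟩ := mem_add.1 hx
  simp only [mem_Ico] at *
  omega

lemma Ico_sub_Ico_subset (N : ℕ) :
    Ico (0 : ℤ) N - Ico (0 : ℤ) N ⊆ Ico (-N : ℤ) N := fun x hx => by
  obtain ⟨a, ha, b, hb, rfl⟩ := mem_sub.1 hx
  simp only [mem_Ico] at *
  omega

lemma sum_pi_split {A : Type*} [AddCommMonoid A] (t N : ℕ) (φ : (Fin t → ℤ) → A) :
    ∑ k ∈ Fintype.piFinset fun _ : Fin t => Ico (-N : ℤ) N, φ k =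
      ∑ e : Fin t → Bool, ∑ k ∈ Fintype.piFinset fun _ : Fin t => Ico (0 : ℤ) N,
        φ (fun i => (if e i then -(N : ℤ) else 0) + k i) := by
  rw [← sum_product']
  refine sum_bij' (fun k _ => (fun i => decide (k i < 0), fun i => if k i < 0 then k i + N else k i))
    (fun q _ i => (if q.1 i then -(N : ℤ) else 0) + q.2 i) ?_ ?_ ?_ ?_ ?_
  · intro k hk
    simp only [Fintype.mem_piFinset, mem_product, mem_univ, true_and, mem_Ico] at hk ⊢
    intro i
    have := hk i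
    split_ifs <;> omega
  · rintro ⟨e, k⟩ hq
    simp only [Fintype.mem_piFinset, mem_product, mem_univ, true_and, mem_Ico] at hq ⊢
    intro i
    have := hq i
    split_ifs <;> omega
  · intro k _
    funext i
    by_cases h : k i < 0 <;> simp [h]
  · rintro ⟨e, k⟩ hq
    simp only [Fintype.mem_piFinset, mem_product, mem_univ, true_and, mem_Ico] at hq
    refine Prod.ext (funext fun i => ?_) (funext fun i => ?_)
    · have := hq i
      cases h : e i <;> simp [h] <;> omega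
    · have := hq i
      cases h : e i <;> simp [h] <;> omega
  · intro k _
    congr 1
    funext i
    by_cases h : k i < 0 <;> simp [h]

/-- **symmetry chain on an interval** -/
theorem symm_Ico (t N : ℕ) (H : Finset ℤ) {f b : ℤ → ℂ} (hf1 : ∀ x, ‖f x‖ ≤ 1)
    (hb1 : ∀ x, ‖b x‖ ≤ 1) (hf : Supp f (Ico 0 N)) (hb : Supp b (Ico 0 N)) (M : ℤ → ℤ → ℂ) {δ : ℝ}
    (hδ : 0 ≤ δ) (hN : 0 < N)
    (h : δ * (N : ℝ) ^ (t + 3) ≤ ∑ h ∈ H, U (t + 1) (fun n => b n * f (n + h) * M h n)) :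
    ∃ z ∈ Ico (0 : ℤ) (2 * N), ∃ k₀ : Fin t → ℤ, (∀ i, k₀ i = 0 ∨ k₀ i = -N) ∧
      δ ^ 4 / 16 ^ (t + 1) * (N : ℝ) ^ (t + 4) ≤
        (∑ x ∈ Fintype.piFinset fun _ : SV t => Ico (0 : ℤ) N, symF M z k₀ x).re := by
  have h1 := (pow_le_pow_left₀ (by positivity) h 4).trans (symm_chain_U t _ _
    (Ico (-N : ℤ) N) (Ico (0 : ℤ) (2 * N)) H
    (by convert Ico_add_Ico_subset N; rfl) (by convert Ico_sub_Ico_subset N; rfl) hb1 hf1 hb hf M)
  have hN0 : (0 : ℝ) < N := by exact_mod_cast hN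
  have c1 : (#(Ico (-N : ℤ) N) : ℝ) = 2 * N := by
    rw [Int.card_Ico, show (N : ℤ) - -N = ((2 * N : ℕ) : ℤ) by push_cast; ring, Int.toNat_natCast]
    push_cast; ring
  have c2 : (#(Ico (0 : ℤ) (2 * N)) : ℝ) = 2 * N := by
    rw [Int.card_Ico, show 2 * (N : ℤ) - 0 = ((2 * N : ℕ) : ℤ) by push_cast; ring,
      Int.toNat_natCast]
    push_cast; ring
  have c3 : (#(Ico (0 : ℤ) N) : ℝ) = N := by simp
  set J : ℤ × (Fin t → Bool) → ℝ := fun p => (∑ x ∈ Fintype.piFinset fun _ : SV t => Ico (0 : ℤ) N,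
    symF M p.1 (fun i => if p.2 i then -(N : ℤ) else 0) x).re with hJ
  have e : (∑ k ∈ Fintype.piFinset fun _ : Fin t => Ico (-N : ℤ) N, ∑ z ∈ Ico (0 : ℤ) (2 * N),
      ∑ y₁ ∈ Ico (0 : ℤ) N, ∑ y₂ ∈ Ico (0 : ℤ) N, ∑ y₁' ∈ Ico (0 : ℤ) N, ∑ y₂' ∈ Ico (0 : ℤ) N,
        sk4 (fun h => Dk k (M h)) z y₁ y₂ y₁' y₂').re
      = ∑ p ∈ Ico (0 : ℤ) (2 * N) ×ˢ univ, J p := by
    rw [sum_comm, sum_product, Complex.re_sum]
    refine sum_congr rfl fun z _ => ?_
    rw [sum_pi_split, Complex.re_sum]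
    refine sum_congr rfl fun e _ => ?_
    simp only [hJ, sum_SV, symF_eq]
    rfl
  rw [e, c1, c2, c3] at h1
  by_contra hcon
  push Not at hcon
  have hne : (Ico (0 : ℤ) (2 * N) ×ˢ (univ : Finset (Fin t → Bool))).Nonempty :=
    ⟨(0, fun _ => false), by simp [hN]⟩
  have h2 : ∑ p ∈ Ico (0 : ℤ) (2 * N) ×ˢ univ, J p <
      ∑ _p ∈ Ico (0 : ℤ) (2 * N) ×ˢ (univ : Finset (Fin t → Bool)),
        δ ^ 4 / 16 ^ (t + 1) * (N : ℝ) ^ (t + 4) :=
    sum_lt_sum_of_nonempty hne fun p hp => hcon p.1 (mem_product.1 hp).1 _ fun i => by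
      cases p.2 i <;> simp
  rw [sum_const, nsmul_eq_mul, card_product, Nat.cast_mul, c2, card_univ, Fintype.card_fun,
    Fintype.card_bool, Fintype.card_fin, Nat.cast_pow, Nat.cast_ofNat] at h2
  have h3 := h1.trans_lt (mul_lt_mul_of_pos_left (mul_lt_mul_of_pos_left
    (mul_lt_mul_of_pos_left h2 (by positivity)) (by positivity)) (by positivity))
  refine absurd h3 (not_lt.2 (le_of_eq ?_))
  have e16 : (16 : ℝ) ^ (t + 1) = 2 ^ (t * 4) * 16 := by
    rw [pow_succ, mul_comm t, pow_mul]; norm_num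
  rw [e16]
  field_simp
  ring

/-- the range of summation of `qcorr` is an interval -/
lemma filter_Ico (N u : ℤ) : (Ico (0 : ℤ) N).filter (fun n => n + u ∈ Ico (0 : ℤ) N)
    = Ico (max 0 (-u)) (min N (N - u)) := by
  ext n
  simp only [mem_filter, mem_Ico, max_le_iff, lt_min_iff]
  omega

/-- a biased quadruple is biased on a long interval inside `[0, N)` -/
lemma qcorr_Ico (N : ℕ) {χ : ℤ → ℤ → ℂ} (hχ : ∀ h n, ‖χ h n‖ ≤ 1) (q : ℤ × ℤ × ℤ × ℤ) {a : ℝ}
    (ha0 : 0 < a) (ha : a ≤ ‖qcorr (Ico (0 : ℤ) N) χ q‖) :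
    ∃ (n₀ : ℤ) (L : ℕ), 0 ≤ n₀ ∧ n₀ + L ≤ N ∧ a ≤ L ∧
      a ≤ ‖∑ n ∈ Ico n₀ (n₀ + L), χ q.1 n * χ q.2.1 (n + (q.1 - q.2.2.2)) *
        conj (χ q.2.2.1 n) * conj (χ q.2.2.2 (n + (q.1 - q.2.2.2)))‖ := by
  set u := q.1 - q.2.2.2 with hu
  have e : qcorr (Ico (0 : ℤ) N) χ q = ∑ n ∈ Ico (max 0 (-u)) (min (N : ℤ) (N - u)),
      χ q.1 n * χ q.2.1 (n + u) * conj (χ q.2.2.1 n) * conj (χ q.2.2.2 (n + u)) := by
    rw [← filter_Ico]; unfold qcorr; congr
  rw [e] at ha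
  have hlt : max 0 (-u) < min (N : ℤ) (N - u) := by
    by_contra h
    rw [Ico_eq_empty h, sum_empty, norm_zero] at ha
    exact absurd ha (not_le.2 ha0)
  obtain ⟨L, hL⟩ := Int.eq_ofNat_of_zero_le (sub_nonneg.2 hlt.le)
  have e2 : min (N : ℤ) (N - u) = max 0 (-u) + L := by omega
  rw [e2] at ha
  refine ⟨max 0 (-u), L, le_max_left _ _, e2 ▸ min_le_left _ _, ha.trans ?_, ha⟩
  refine (norm_sum_le _ _).trans ((sum_le_card_nsmul _ _ 1 fun n _ => ?_).trans (by simp))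
  simp only [norm_mul, Complex.norm_conj]
  exact mul_le_one₀ (mul_le_one₀ (mul_le_one₀ (hχ _ _) (norm_nonneg _) (hχ _ _))
    (norm_nonneg _) (hχ _ _)) (norm_nonneg _) (hχ _ _)

section Line
variable {G : Type*} [AddCommGroup G]

/-- shifting a sum of a `1`-bounded function -/
lemma norm_sum_shift_sub (B : Finset G) {Φ : G → ℂ} (hΦ : ∀ x, ‖Φ x‖ ≤ 1) (v : G) :
    ‖∑ x ∈ B, Φ x - ∑ x ∈ B, Φ (x + v)‖ ≤ 2 * #{x ∈ B | x + v ∉ B} := by
  set B' := B.image (· + v) with hB'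
  have e : ∑ x ∈ B, Φ (x + v) = ∑ x ∈ B', Φ x :=
    (sum_image fun a _ b _ h => add_right_cancel h).symm
  have c1 : #(B' \ B) = #{x ∈ B | x + v ∉ B} := by
    rw [← card_image_of_injective {x ∈ B | x + v ∉ B} (add_left_injective v)]
    congr 1
    ext y
    simp only [hB', mem_sdiff, mem_image, mem_filter]
    constructor
    · rintro ⟨⟨x, hx, rfl⟩, h⟩; exact ⟨x, ⟨hx, h⟩, rfl⟩
    · rintro ⟨x, ⟨hx, h⟩, rfl⟩; exact ⟨⟨x, hx, rfl⟩, h⟩
  have c2 : #(B \ B') = #(B' \ B) :=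
    card_sdiff_comm (card_image_of_injective B (add_left_injective v)).symm
  have n : ∀ A : Finset G, ‖∑ x ∈ A, Φ x‖ ≤ #A := fun A =>
    (norm_sum_le _ _).trans ((sum_le_card_nsmul _ _ 1 fun x _ => hΦ x).trans (by simp))
  rw [e, ← sum_sdiff_sub_sum_sdiff, ← c1, two_mul]
  exact (norm_sub_le _ _).trans (add_le_add (c2 ▸ n _) (n _))

/-- bias on a set gives bias on a translate of every small pattern -/
theorem exists_pattern_bias {α : Type*} (B : Finset G) (hB : B.Nonempty) {Φ : G → ℂ}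
    (hΦ : ∀ x, ‖Φ x‖ ≤ 1) (P : Finset α) (v : α → G) {δ κ : ℝ} (hδ : δ * #B ≤ ‖∑ x ∈ B, Φ x‖)
    (hκ : ∀ a ∈ P, (#{x ∈ B | x + v a ∉ B} : ℝ) ≤ κ * #B) :
    ∃ x ∈ B, (δ - 2 * κ) * #P ≤ ‖∑ a ∈ P, Φ (x + v a)‖ := by
  by_contra hcon
  push Not at hcon
  have h1 : ‖∑ x ∈ B, ∑ a ∈ P, Φ (x + v a)‖ < #B * ((δ - 2 * κ) * #P) := by
    refine (norm_sum_le _ _).trans_lt ((sum_lt_sum_of_nonempty hB hcon).trans_le ?_)
    rw [sum_const, nsmul_eq_mul]
  have h2 : ‖∑ _a ∈ P, ∑ x ∈ B, Φ x - ∑ a ∈ P, ∑ x ∈ B, Φ (x + v a)‖ ≤ #P * (2 * (κ * #B)) := by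
    rw [← sum_sub_distrib, ← nsmul_eq_mul]
    refine (norm_sum_le _ _).trans (sum_le_card_nsmul _ _ _ fun a ha => ?_)
    exact (norm_sum_shift_sub B hΦ (v a)).trans (by linarith [hκ a ha])
  rw [sum_comm] at h1
  have h3 := norm_sub_norm_le (∑ _a ∈ P, ∑ x ∈ B, Φ x) (∑ a ∈ P, ∑ x ∈ B, Φ (x + v a))
  rw [sum_const, nsmul_eq_mul, norm_mul, Complex.norm_natCast] at h3
  rw [sum_const, nsmul_eq_mul] at h2
  have h4 := mul_le_mul_of_nonneg_left hδ (Nat.cast_nonneg (α := ℝ) #P)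
  nlinarith

end Line

section BoxLine
variable {ι : Type*} [Fintype ι] [DecidableEq ι]

/-- boundary of a cube -/
lemma card_shift_notMem (a : ι → ℤ) (N R : ℕ) (hN : 0 < N) (v : ι → ℤ) (hv : ∀ i, |v i| ≤ R) :
    (#{x ∈ Fintype.piFinset fun i => Ico (a i) (a i + N) |
        x + v ∉ Fintype.piFinset fun i => Ico (a i) (a i + N)} : ℝ) ≤
      (Fintype.card ι * R / N) * #(Fintype.piFinset fun i => Ico (a i) (a i + N)) := by
  set A : ι → Finset ℤ := fun i => Ico (a i) (a i + N) with hA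
  set E : ι → Finset ℤ := fun i => {y ∈ A i | y + v i ∉ A i} with hE
  have cA : ∀ i, #(A i) = N := fun i => by simp [hA]
  have cE : ∀ i, #(E i) ≤ R := fun i => by
    have h1 := abs_le.1 (hv i)
    rcases le_total 0 (v i) with h | h
    · refine (card_le_card (t := Ico (a i + N - R) (a i + N)) fun y hy => ?_).trans (by simp)
      simp only [hE, hA, mem_filter, mem_Ico] at hy ⊢
      omega
    · refine (card_le_card (t := Ico (a i) (a i + R)) fun y hy => ?_).trans (by simp)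
      simp only [hE, hA, mem_filter, mem_Ico] at hy ⊢
      omega
  have hsub : {x ∈ Fintype.piFinset A | x + v ∉ Fintype.piFinset A} ⊆
      univ.biUnion fun i => Fintype.piFinset (Function.update A i (E i)) := fun x hx => by
    simp only [mem_filter, Fintype.mem_piFinset, not_forall] at hx
    obtain ⟨h1, i, hi⟩ := hx
    refine mem_biUnion.2 ⟨i, mem_univ _, Fintype.mem_piFinset.2 fun j => ?_⟩
    by_cases h : j = i
    · subst h
      rw [Function.update_self]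
      exact mem_filter.2 ⟨h1 j, hi⟩
    · rw [Function.update_of_ne h]; exact h1 j
  have hc : ∀ i, #(Fintype.piFinset (Function.update A i (E i))) * N ≤ R * #(Fintype.piFinset A) := by
    intro i
    rw [Fintype.card_piFinset, Fintype.card_piFinset, ← mul_prod_erase _ _ (mem_univ i),
      ← mul_prod_erase _ (fun j => #(A j)) (mem_univ i), Function.update_self, cA,
      prod_congr rfl fun j hj => by rw [Function.update_of_ne (ne_of_mem_erase hj)]]
    calc _ ≤ R * (∏ j ∈ univ.erase i, #(A j)) * N := by gcongr; exact cE i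
      _ = _ := by ring
  have h1 : #{x ∈ Fintype.piFinset A | x + v ∉ Fintype.piFinset A} * N ≤
      Fintype.card ι * (R * #(Fintype.piFinset A)) := by
    calc _ ≤ (∑ i, #(Fintype.piFinset (Function.update A i (E i)))) * N :=
          Nat.mul_le_mul_right _ ((card_le_card hsub).trans card_biUnion_le)
      _ ≤ _ := by
          rw [sum_mul, ← card_univ, ← smul_eq_mul]
          exact sum_le_card_nsmul _ _ _ fun i _ => hc i
  have hN0 : (0 : ℝ) < N := by exact_mod_cast hN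
  rw [div_mul_eq_mul_div, le_div_iff₀ hN0, mul_assoc]
  exact_mod_cast h1

/-- **bias on a cube gives bias on a line in every direction** -/
theorem exists_line_bias (a : ι → ℤ) (N V L : ℕ) (hN : 0 < N) {Φ : (ι → ℤ) → ℂ}
    (hΦ : ∀ x, ‖Φ x‖ ≤ 1) {δ : ℝ}
    (hδ : δ * (N : ℝ) ^ Fintype.card ι ≤
      ‖∑ x ∈ Fintype.piFinset fun i => Ico (a i) (a i + N), Φ x‖)
    (hL : 4 * (Fintype.card ι * (V * L) : ℝ) ≤ δ * N) (v : ι → ℤ) (hv : ∀ i, |v i| ≤ V) :
    ∃ x ∈ Fintype.piFinset fun i => Ico (a i) (a i + N),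
      δ / 2 * L ≤ ‖∑ n ∈ Ico (0 : ℤ) L, Φ (x + n • v)‖ := by
  have hc : (#(Fintype.piFinset fun i => Ico (a i) (a i + N)) : ℝ) = (N : ℝ) ^ Fintype.card ι := by
    simp [Fintype.card_piFinset]
  have hN0 : (0 : ℝ) < N := by exact_mod_cast hN
  obtain ⟨x, hx, h⟩ := exists_pattern_bias (Fintype.piFinset fun i => Ico (a i) (a i + N))
    (Fintype.piFinset_nonempty.2 fun i => ⟨a i, by simp [hN]⟩) hΦ (Ico (0 : ℤ) L) (fun n => n • v)
    (δ := δ) (κ := Fintype.card ι * (V * L : ℕ) / N) (hc ▸ hδ) fun n hn => by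
      convert card_shift_notMem a N (V * L) hN (n • v) fun i => ?_
      obtain ⟨h0, h1⟩ := mem_Ico.1 hn
      rw [Pi.smul_apply, smul_eq_mul, abs_mul, abs_of_nonneg h0, Nat.cast_mul, mul_comm]
      exact mul_le_mul (hv i) h1.le h0 (Nat.cast_nonneg _)
  refine ⟨x, hx, le_trans ?_ h⟩
  rw [Int.card_Ico, sub_zero, Int.toNat_natCast]
  refine mul_le_mul_of_nonneg_right ?_ (Nat.cast_nonneg _)
  have : (Fintype.card ι * (V * L : ℕ) / N : ℝ) ≤ δ / 4 := by
    rw [div_le_iff₀ hN0]; push_cast; linarith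
  linarith

end BoxLine

end Crest.Agent.T49.Box
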