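import Crest.Agent.T49.GiA_40
import Crest.Agent.T49.GiB_40
import Crest.Agent.T49.Bch_16
import Crest.Agent.T49.GowSym_71

/-!
# Row 49 (helper40): the inverse theorem `GI`, definitions and exact statements of all leaves

The algebra is done with SYMBOLS: points of a graded datum `g`, modulo smooth points on the left
and rational points on the right (`Near`).  Step `GI1 (t+1) → GI1 (t+2)`:
`BigU (t+2) → StA → StQ → StS → StB → StB' → StC → StE → CorNil (t+2)`.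
All groups use `star (t+2)`.
-/

set_option autoImplicit false

noncomputable section

namespace Crest.Agent.T49.GI

open Finset Crest.Agent.T49.Nil Crest.Agent.T49.Nil.ND
open Crest.Agent.T49.Bch (star expAd)
open Crest.Agent.T49.Gow (Supp D U)
open Crest.Agent.T49.Box (SV SF sgnF argH argN)
open scoped ComplexConjugate

variable {ι ι' : Type} [Fintype ι] [Fintype ι']

/-! ### basic notions -/

/-- weights `≤ S`, dimension `≤ m`, structure constants `≤ exp m` (no lattice condition) -/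
structure Fd (g : ND ι) (S : ℕ) (m : ℝ) : Prop where
  wt_le : ∀ k, g.wt k ≤ S
  dim : (Fintype.card ι : ℝ) ≤ m
  c_le : ∀ i j k, |(g.c i j k : ℝ)| ≤ Real.exp m

/-- a graded datum of step `≤ S` and complexity `≤ m` -/
structure Gd (g : ND ι) (S : ℕ) (m : ℝ) : Prop extends Fd g S m where
  gr : Graded g

/-- the homogeneous component of weight `n` -/
def hp (g : ND ι) (n : ℕ) : g.L →ₗ[ℝ] g.L := Gon.prj fun k => g.wt k = n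

/-- the dilation `δ_t` -/
def dil (g : ND ι) (t : ℝ) (x : g.L) : g.L := fun k => t ^ g.wt k * x k

/-- the homogeneous polynomial map `t ↦ δ_t x` -/
def hom (N : ND ι) (x : ι → ℝ) : N.PS Unit :=
  fun k => MvPolynomial.monomial (Finsupp.single () (N.wt k)) (x k)

/-- the symbol (top homogeneous part) of `P` at the point `t`, as a point of the graded datum -/
def symAt (N g : ND ι) {σ : Type} (t : σ → ℝ) (P : N.PS σ) : g.L :=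
  fun k => MvPolynomial.eval t (MvPolynomial.homogeneousComponent (N.wt k) (P k))

/-- the symbol of a polynomial sequence in one variable -/
def sym (N g : ND ι) (P : N.PS Unit) : g.L := symAt N g (fun _ => 1) P

/-- smooth at scale `T` -/
def SmE (g : ND ι) (T m : ℝ) (x : g.L) : Prop := ∀ k, |x k| * T ^ g.wt k ≤ Real.exp m

/-- rational with denominator `≤ exp m` -/
def Rt (g : ND ι) (m : ℝ) (x : g.L) : Prop := ∃ q : ℕ, 1 ≤ q ∧ (q : ℝ) ≤ Real.exp m ∧ g.Den q x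

/-- graded subspace -/
def IsG (g : ND ι) (U : Submodule ℝ g.L) : Prop := Gon.IsGr (ι := ι) g.wt U

/-- graded rational subspace of height `≤ exp m` -/
structure GR (g : ND ι) (m : ℝ) (U : Submodule ℝ g.L) : Prop where
  gr : IsG g U
  rat : g.RatS (Real.exp m) U

/-- `x ∈ (smooth) * U * (rational)` -/
def Near (g : ND ι) (S : ℕ) (T m : ℝ) (U : Submodule ℝ g.L) (x : g.L) : Prop :=
  ∃ ε y γ : g.L, SmE g T m ε ∧ y ∈ U ∧ Rt g m γ ∧ x = star S ε (star S y γ)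

/-- a weight preserving linear map with an integer matrix of height `≤ exp m` -/
structure GMap (g : ND ι) (g' : ND ι') (m : ℝ) (φ : g.L →ₗ[ℝ] g'.L) : Prop where
  int : g.IntMap g' (Real.exp m) φ
  gr : ∀ i k, φ (g.e i) k ≠ 0 → g'.wt k = g.wt i

/-- the basis vectors in `κ` span an ideal -/
def CoId (N : ND ι) (κ : ι → Prop) : Prop := ∀ i j k, N.c i j k ≠ 0 → κ j → κ k

/-- supported on the coordinates in `κ` -/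
def On (N : ND ι) (κ : ι → Prop) (x : N.L) : Prop := ∀ k, ¬ κ k → x k = 0

/-- an integer frequency of degree `s` and height `≤ exp m` -/
structure Freq (N : ND ι) (s : ℕ) (m : ℝ) (η : ι → ℤ) : Prop where
  supp : ∀ k, N.wt k ≠ s → η k = 0
  le : ∀ k, |(η k : ℝ)| ≤ Real.exp m

/-- the sequence `n ↦ F (P n)` -/
def sq (N : ND ι) (F : N.L → ℂ) (P : N.PS Unit) (n : ℤ) : ℂ := F (N.evZ (fun _ => n) P)

/-- correlation on `[0, L)` -/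
def Cor (m : ℝ) (L : ℕ) (a ψ : ℤ → ℂ) : Prop :=
  Real.exp (-m) * L ≤ ‖∑ n ∈ Ico (0 : ℤ) L, a n * ψ n‖

/-- after one multiplier `b` (the same for all `h`), many `a h` correlate with degree `t` -/
def Red (t : ℕ) (m : ℝ) (L : ℕ) (H : Finset ℤ) (a : ℤ → ℤ → ℂ) : Prop :=
  ∃ (b : ℤ → ℂ) (H' : Finset ℤ), (∀ n, ‖b n‖ ≤ 1) ∧ H' ⊆ H ∧ Real.exp (-m) * #H ≤ #H' ∧
    ∀ h ∈ H', ∃ ψ, IsNil1 t m ψ ∧ Cor m L (fun n => a h n * b n) ψ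

/-! ### the calculus of `Near` -/

/-- smooth, rational and bounded points are closed under products -/
def ClosStmt : Prop :=
  ∀ S : ℕ, ∃ C : ℕ, 1 ≤ C ∧ ∀ (m : ℝ), 2 ≤ m → ∀ (ι : Type) [Fintype ι] (g : ND ι), Gd g S m →
    (∀ (T : ℝ) (x y : g.L), 1 ≤ T → SmE g T m x → SmE g T m y → SmE g T (m ^ C) (star S x y)) ∧
    (∀ x y : g.L, Rt g m x → Rt g m y → Rt g (m ^ C) (star S x y)) ∧
    (∀ x y : g.L, ‖x‖ ≤ Real.exp m → ‖y‖ ≤ Real.exp m →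
      ‖star S x y‖ ≤ Real.exp (m ^ C) ∧ ‖expAd S x y‖ ≤ Real.exp (m ^ C)) ∧
    ∀ (T : ℝ) (U : Submodule ℝ g.L) (ε x γ : g.L), 1 ≤ T → SmE g T m ε → Rt g m γ →
      (Near g S T m U x → Near g S T (m ^ C) U (star S ε (star S x γ))) ∧
      (Near g S T m U (star S ε (star S x γ)) → Near g S T (m ^ C) U x)

/-- images, preimages, intersections and sums along graded integer maps -/
def PushStmt : Prop :=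
  ∃ C : ℕ, 1 ≤ C ∧ ∀ (m : ℝ), 2 ≤ m → ∀ (ι ι' : Type) [Fintype ι] [Fintype ι'] (g : ND ι)
    (g' : ND ι'), (Fintype.card ι : ℝ) ≤ m → (Fintype.card ι' : ℝ) ≤ m →
    (∀ φ : g.L →ₗ[ℝ] g'.L, GMap g g' m φ →
      (∀ U, GR g m U → GR g' (m ^ C) (U.map φ)) ∧ (∀ U, GR g' m U → GR g (m ^ C) (U.comap φ)) ∧
      (∀ (T : ℝ) x, 1 ≤ T → SmE g T m x → SmE g' T (m ^ C) (φ x)) ∧
      (∀ x, Rt g m x → Rt g' m (φ x)) ∧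
      (∀ x, ‖x‖ ≤ Real.exp m → ‖φ x‖ ≤ Real.exp (m ^ C)) ∧
      (∀ n x, φ (hp g n x) = hp g' n (φ x)) ∧
      -- a graded bounded lift
      ∀ U, GR g m U → ∃ ρ : g'.L →ₗ[ℝ] g.L, (∀ y, ρ y ∈ U) ∧ (∀ x ∈ U, φ (ρ (φ x)) = φ x) ∧
        ∀ (T : ℝ) y, 1 ≤ T → SmE g' T m y → SmE g T (m ^ C) (ρ y)) ∧
    (∀ (φ : g.L →ₗ⁅ℝ⁆ g'.L) (S : ℕ) (T : ℝ) U x, GMap g g' m φ.toLinearMap → 1 ≤ T →
      Near g S T m U x → Near g' S T (m ^ C) (U.map φ.toLinearMap) (φ x)) ∧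
    (∀ (J : Type) [Fintype J] (U : J → Submodule ℝ g.L), (∀ a, GR g m (U a)) →
      GR g (m ^ C) (⨅ a, U a) ∧ GR g m (⨆ a, U a)) ∧
    (∀ U W, GR g m U → GR g m W → GR g (m ^ C) (U ⊓ W) ∧ GR g m (U ⊔ W) ∧
      (∀ (T : ℝ) x, 1 ≤ T → x ∈ U ⊔ W → SmE g T m x →
        ∃ u ∈ U, x - u ∈ W ∧ SmE g T (m ^ C) u ∧ SmE g T (m ^ C) (x - u)) ∧
      ∀ x, x ∈ U ⊔ W → Rt g m x → ∃ u ∈ U, x - u ∈ W ∧ Rt g (m ^ C) u ∧ Rt g (m ^ C) (x - u)) ∧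
    -- a graded integer map with kernel `U`
    ∀ U, GR g m U → ∃ p : g.L →ₗ[ℝ] g.L, GMap g g (m ^ C) p ∧ LinearMap.ker p = U

/-- PULL (a family of homomorphisms; `INT` is the case `φ a = id`) -/
def PullStmt : Prop :=
  ∀ S : ℕ, ∃ C : ℕ, 1 ≤ C ∧ ∀ (m : ℝ), 2 ≤ m → ∀ (ι ι' J : Type) [Fintype ι] [Fintype ι']
    [Fintype J] (g : ND ι) (g' : ND ι') (φ : J → g.L →ₗ⁅ℝ⁆ g'.L)
    (𝔥 : J → LieSubalgebra ℝ g'.L) (T : ℝ) (x : g.L), Gd g S m → Gd g' S m →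
    (Fintype.card J : ℝ) ≤ m → Real.exp (m ^ C) ≤ T → (∀ a, GMap g g' m (φ a).toLinearMap) →
    (∀ a, GR g' m (𝔥 a).toSubmodule) → (∀ a, Near g' S T m (𝔥 a).toSubmodule (φ a x)) →
    Near g S T (m ^ C) (⨅ a, (𝔥 a).toSubmodule.comap (φ a).toLinearMap) x

/-- UNIQ -/
def UniqStmt : Prop :=
  ∀ S : ℕ, ∃ C : ℕ, 1 ≤ C ∧ ∀ (m : ℝ), 2 ≤ m → ∀ (ι : Type) [Fintype ι] (g : ND ι)
    (𝔥 : LieSubalgebra ℝ g.L) (T : ℝ) (x y ε γ : g.L), Gd g S m → Real.exp (m ^ C) ≤ T →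
    GR g m 𝔥.toSubmodule → x ∈ 𝔥 → y ∈ 𝔥 → SmE g T m ε → Rt g m γ →
    x = star S ε (star S y γ) → ε ∈ 𝔥 ∧ γ ∈ 𝔥

/-- FUND (no lattice condition on the datum) -/
def FundStmt : Prop :=
  ∀ S : ℕ, ∃ C : ℕ, 1 ≤ C ∧ ∀ (m : ℝ), 2 ≤ m → ∀ (ι : Type) [Fintype ι] (N : ND ι)
    (𝔥 : LieSubalgebra ℝ N.L) (y : N.L), Fd N S m → N.RatS (Real.exp m) 𝔥.toSubmodule → y ∈ 𝔥 →
    ∃ u ∈ 𝔥, ∃ γ ∈ 𝔥, ‖u‖ ≤ Real.exp (m ^ C) ∧ IsInt γ ∧ y = star S u γ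

/-! ### equidistribution in terms of symbols -/

/-- `LT` for symbols -/
def LtN (S s D : ℕ) : Prop :=
  ∃ C : ℕ, 1 ≤ C ∧ ∀ (m : ℝ), 2 ≤ m → ∀ (ι σ : Type) [Fintype ι] [Fintype σ] [DecidableEq σ]
    (N g : ND ι) (η : ι → ℤ) (F : N.L → ℂ) (P : N.PS σ) (T : ℝ) (lo hi : σ → ℤ), GrOf N g →
    Fintype.card σ ≤ D → (Fintype.card ι : ℝ) ≤ m → N.Good S (Real.exp m) →
    N.NChar S s (Real.exp m) η F → P ∈ N.poly σ → Real.exp (m ^ C) ≤ T →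
    (∀ v, |(lo v : ℝ)| ≤ T ∧ |(hi v : ℝ)| ≤ T) →
    Real.exp (-m) * T ^ Fintype.card σ ≤ ‖∑ n ∈ ibox lo hi, F (N.evZ n P)‖ →
    ∃ 𝔥 : LieSubalgebra ℝ g.L, GR g (m ^ C) 𝔥.toSubmodule ∧ (∀ x ∈ 𝔥, g.fn η x = 0) ∧
      ∀ v : σ → ℤ, (∀ i, |v i| ≤ 1) →
        Near g S T (m ^ C) 𝔥.toSubmodule (symAt N g (fun i => (v i : ℝ)) P)

def LtNStmt : Prop := LTStmt → ∀ S s D, 1 ≤ s → LtN S s D

/-- converse of `LT` for a family: the cell is pigeonholed and put into the multiplier -/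
def ConvFStmt : Prop :=
  ∀ S t : ℕ, ∃ C : ℕ, 1 ≤ C ∧ ∀ (m : ℝ), 2 ≤ m → ∀ (ι : Type) [Fintype ι] (N g : ND ι)
    (η : ι → ℤ) (𝔥 : LieSubalgebra ℝ g.L) (L : ℕ) (H : Finset ℤ) (F : ℤ → N.L → ℂ)
    (P : ℤ → N.PS Unit) (a : ℤ → ℤ → ℂ), GrOf N g → (Fintype.card ι : ℝ) ≤ m →
    N.Good S (Real.exp m) → GR g m 𝔥.toSubmodule → (∀ x ∈ 𝔥, g.fn η x = 0) →
    Real.exp (m ^ C) ≤ L →
    (∀ h ∈ H, N.NChar S (t + 1) (Real.exp m) η (F h) ∧ P h ∈ N.poly Unit ∧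
      Near g S L m 𝔥.toSubmodule (sym N g (P h)) ∧ (∀ n, ‖a h n‖ ≤ 1) ∧
      Cor m L (a h) (sq N (F h) (P h))) →
    Red t (m ^ C) L H a

/-- vector nilcharacters -/
def VecStmt : Prop :=
  ∀ S s : ℕ, ∃ C : ℕ, 1 ≤ C ∧ ∀ (m : ℝ), 2 ≤ m → ∀ (ι : Type) [Fintype ι] (N : ND ι)
    (η : ι → ℤ), (Fintype.card ι : ℝ) ≤ m → N.Good S (Real.exp m) → Freq N s m η →
    ∃ (J : ℕ) (F : Fin J → N.L → ℂ), (J : ℝ) ≤ Real.exp (m ^ C) ∧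
      (∀ j, N.NChar S s (Real.exp (m ^ C)) η (F j)) ∧ ∀ x, ∑ j, F j x * conj (F j x) = 1

/-- converse of the inverse theorem -/
def DerStmt : Prop :=
  ∀ d : ℕ, ∃ C : ℕ, 1 ≤ C ∧ ∀ (m : ℝ), 2 ≤ m → ∀ (L : ℕ) (a ψ : ℤ → ℂ), IsNil1 d m ψ →
    Supp a (Ico (0 : ℤ) L) → (∀ n, ‖a n‖ ≤ 1) → Cor m L a ψ →
    Real.exp (-m ^ C) * (L : ℝ) ^ (d + 2) ≤ U (d + 1) a

/-- removal of the part that does not depend on `h`, coordinate form -/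
def FibCStmt : Prop :=
  ∀ S t : ℕ, ∃ C : ℕ, 1 ≤ C ∧ ∀ (m : ℝ), 2 ≤ m → ∀ (ι : Type) [Fintype ι] (N : ND ι)
    (κ : ι → Prop) (L : ℕ) (H : Finset ℤ) (F : ℤ → N.L → ℂ) (P : ℤ → N.PS Unit)
    (a : ℤ → ℤ → ℂ), (Fintype.card ι : ℝ) ≤ m → N.Good S (Real.exp m) → CoId N κ → 0 < L →
    (∀ h ∈ H, N.LipFn S (Real.exp m) (F h) ∧
      (∀ Z ∈ N.F (t + 1), On N κ Z → ∀ x, F h (star S Z x) = F h x) ∧ P h ∈ N.poly Unit ∧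
      (∀ h' ∈ H, ∀ k, ¬ κ k → P h k = P h' k) ∧ (∀ n, ‖a h n‖ ≤ 1) ∧
      Cor m L (a h) (sq N (F h) (P h))) →
    Red t (m ^ C) L H a

/-- a filtration by rational subspaces together with an ideal -/
structure SFil (N : ND ι) (S : ℕ) (m : ℝ) (V : ℕ → Submodule ℝ N.L) (𝔨 : Submodule ℝ N.L) :
    Prop where
  rat : ∀ b, N.RatS (Real.exp m) (V b)
  ratk : N.RatS (Real.exp m) 𝔨
  zero : V 0 = V 1
  anti : ∀ b, V (b + 1) ≤ V b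
  lie : ∀ a b, 1 ≤ a → 1 ≤ b → ∀ x ∈ V a, ∀ y ∈ V b, ⁅x, y⁆ ∈ V (a + b)
  bot : V (S + 1) = ⊥
  le : 𝔨 ≤ V 1
  ideal : ∀ x ∈ V 1, ∀ y ∈ 𝔨, ⁅x, y⁆ ∈ 𝔨

/-- a datum adapted to a filtration and an ideal -/
def AdaptStmt : Prop :=
  ∀ S : ℕ, ∃ C : ℕ, 1 ≤ C ∧ ∀ (m : ℝ), 2 ≤ m → ∀ (ι : Type) [Fintype ι] (N : ND ι)
    (V : ℕ → Submodule ℝ N.L) (𝔨 : Submodule ℝ N.L), Fd N S m → SFil N S m V 𝔨 →
    ∃ (r : ℕ) (N' : ND (Fin r)) (κ : Fin r → Prop) (φ : N'.L →ₗ⁅ℝ⁆ N.L), (r : ℝ) ≤ m ∧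
      N'.Good S (Real.exp (m ^ C)) ∧ N'.IntMap N (Real.exp (m ^ C)) φ.toLinearMap ∧
      Function.Injective φ ∧ (∀ b, 1 ≤ b → (N'.F b).map φ.toLinearMap = V b) ∧ CoId N' κ ∧
      ∀ w, φ w ∈ 𝔨 ↔ On N' κ w

/-- removal of the part that does not depend on `h`, subspace form -/
def FibSStmt : Prop :=
  ∀ S t : ℕ, ∃ C : ℕ, 1 ≤ C ∧ ∀ (m : ℝ), 2 ≤ m → ∀ (ι : Type) [Fintype ι] (N : ND ι)
    (V : ℕ → Submodule ℝ N.L) (𝔨 : Submodule ℝ N.L) (L : ℕ) (H : Finset ℤ) (F : ℤ → N.L → ℂ)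
    (P : ℤ → N.PS Unit) (a : ℤ → ℤ → ℂ), (Fintype.card ι : ℝ) ≤ m → N.Good S (Real.exp m) →
    SFil N S m V 𝔨 → 0 < L →
    (∀ h ∈ H, N.LipFn S (Real.exp m) (F h) ∧
      (∀ Z ∈ V (t + 1), Z ∈ 𝔨 → ∀ x, F h (star S Z x) = F h x) ∧ P h ∈ cf Unit V ∧
      (∀ h' ∈ H, ∀ α, N.cv α (P h - P h') ∈ 𝔨) ∧ (∀ n, ‖a h n‖ ≤ 1) ∧
      Cor m L (a h) (sq N (F h) (P h))) →
    Red t (m ^ C) L H a

/-! ### the structure of a family of symbols with many approximate quadruples -/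

/-- `K ≤ Nn` ideals of `𝔥`, `Nn / K` abelian, `η` kills `K` -/
structure Tri (g : ND ι) (m : ℝ) (η : ι → ℤ) (𝔥 : LieSubalgebra ℝ g.L)
    (Nn K : Submodule ℝ g.L) : Prop where
  grH : GR g m 𝔥.toSubmodule
  grN : GR g m Nn
  grK : GR g m K
  KN : K ≤ Nn
  NH : Nn ≤ 𝔥.toSubmodule
  lieN : ∀ x ∈ 𝔥, ∀ y ∈ Nn, ⁅x, y⁆ ∈ Nn
  lieK : ∀ x ∈ 𝔥, ∀ y ∈ K, ⁅x, y⁆ ∈ K
  abel : ∀ x ∈ Nn, ∀ y ∈ Nn, ⁅x, y⁆ ∈ K
  kill : ∀ x ∈ K, g.fn η x = 0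

/-- the signs of the four roles -/
def sg4 : Fin 4 → ℤ := ![1, 1, -1, -1]

section petal

variable {g : ND ι} (𝔥 : LieSubalgebra ℝ (pw g (Fin 4)).L)

/-- the projection of `𝔥` to the role `i` -/
def pH (i : Fin 4) : LieSubalgebra ℝ g.L := 𝔥.map (pr g ℝ i)

/-- the `i`-th entries of the elements of `𝔥` supported on the roles `i`, `l` -/
def pA (i l : Fin 4) : Submodule ℝ g.L :=
  (𝔥.toSubmodule ⊓ ⨅ j : {j : Fin 4 // j ≠ i ∧ j ≠ l},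
    LinearMap.ker (pr g ℝ j.1).toLinearMap).map (pr g ℝ i).toLinearMap

/-- the part that may depend on `h` -/
def pN (i : Fin 4) : Submodule ℝ g.L := pA 𝔥 i (oth i 0) ⊓ pA 𝔥 i (oth i 1)

/-- the petal -/
def pK (i : Fin 4) : Submodule ℝ g.L := 𝔥.toSubmodule.comap (inj g ℝ i).toLinearMap

end petal

def PetalStmt : Prop :=
  ∃ C : ℕ, 1 ≤ C ∧ ∀ (m : ℝ), 2 ≤ m → ∀ (ι : Type) [Fintype ι] (g : ND ι) (η : ι → ℤ)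
    (𝔥 : LieSubalgebra ℝ (pw g (Fin 4)).L), (Fintype.card ι : ℝ) ≤ m →
    GR (pw g (Fin 4)) m 𝔥.toSubmodule → (∀ x ∈ 𝔥, (pw g (Fin 4)).fn (pwη sg4 η) x = 0) →
    ∀ i, Tri g (m ^ C) η (pH 𝔥 i) (pN 𝔥 i) (pK 𝔥 i)

/-- Goursat: two points on the same two lines differ by a bounded element of `pN` -/
def GoursatStmt : Prop :=
  ∀ S : ℕ, ∃ C : ℕ, 1 ≤ C ∧ ∀ (m : ℝ), 2 ≤ m → ∀ (ι : Type) [Fintype ι] (g : ND ι)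
    (𝔥 : LieSubalgebra ℝ (pw g (Fin 4)).L) (T : ℝ) (i : Fin 4)
    (X X' : Fin 2 → (pw g (Fin 4)).L) (u u' y ε' γ' : g.L), Gd g S m → Real.exp (m ^ C) ≤ T →
    GR (pw g (Fin 4)) m 𝔥.toSubmodule →
    (∀ a, Near (pw g (Fin 4)) S T m 𝔥.toSubmodule (X a)) →
    (∀ a, Near (pw g (Fin 4)) S T m 𝔥.toSubmodule (X' a)) →
    (∀ a, pr g ℝ i (X a) = u) → (∀ a, pr g ℝ i (X' a) = u') →
    (∀ a j, j ≠ i → j ≠ oth i a → pr g ℝ j (X a) = pr g ℝ j (X' a)) →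
    y ∈ pH 𝔥 i → ‖y‖ ≤ Real.exp m → SmE g T m ε' → Rt g m γ' → u' = star S ε' (star S y γ') →
    ∃ ε ν γ : g.L, SmE g T (m ^ C) ε ∧ Rt g (m ^ C) γ ∧ ν ∈ pN 𝔥 i ∧ ‖ν‖ ≤ Real.exp (m ^ C) ∧
      u = star S ε (star S (star S ν y) γ)

/-- linearisation in an ideal that is abelian modulo `𝔥` -/
def Lin3Stmt : Prop :=
  ∀ S : ℕ, ∃ C : ℕ, 1 ≤ C ∧ ∀ (m : ℝ), 2 ≤ m → ∀ (ι : Type) [Fintype ι] (g : ND ι)
    (𝔥 : LieSubalgebra ℝ g.L) (Nn K : Submodule ℝ g.L) (T : ℝ) (y ν : g.L), Gd g S m →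
    Real.exp (m ^ C) ≤ T → GR g m 𝔥.toSubmodule → GR g m Nn → K ≤ 𝔥.toSubmodule → K ≤ Nn →
    (∀ x ∈ 𝔥, ∀ z ∈ Nn, ⁅x, z⁆ ∈ Nn) → (∀ x ∈ 𝔥, ∀ z ∈ K, ⁅x, z⁆ ∈ K) →
    (∀ x ∈ Nn, ∀ z ∈ Nn, ⁅x, z⁆ ∈ K) → y ∈ 𝔥 → ν ∈ Nn →
    Near g S T m 𝔥.toSubmodule (star S ν y) →
    ∃ ε ∈ Nn, ∃ γ ∈ Nn, SmE g T (m ^ C) ε ∧ Rt g (m ^ C) γ ∧ ν - ε - expAd S y γ ∈ 𝔥

/-- the bracket-linear element `h a + ∑ ⌊β_j h⌋ b_j` -/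
def lam {E : Type*} [AddCommGroup E] [Module ℝ E] {r : ℕ} (β : Fin r → ℝ) (a : E)
    (b : Fin r → E) (h : ℤ) : E :=
  (h : ℝ) • a + ∑ j, (⌊β j * h⌋ : ℝ) • b j

/-- `x = ε * w * γ` with `w ∈ 𝔥` congruent to `w₀` modulo `K` -/
def Rep (g : ND ι) (S : ℕ) (T m : ℝ) (𝔥 : LieSubalgebra ℝ g.L) (K : Submodule ℝ g.L)
    (w₀ x : g.L) : Prop :=
  ∃ ε w γ : g.L, SmE g T m ε ∧ Rt g m γ ∧ w ∈ 𝔥 ∧ w - w₀ ∈ K ∧ x = star S ε (star S w γ)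

/-- the symbols `x h`, `h ∈ H`, are bracket-linear in an abelian subquotient -/
def Strd (g : ND ι) (S : ℕ) (T m : ℝ) (η : ι → ℤ) (x : ℤ → g.L) (H : Finset ℤ) : Prop :=
  ∃ (𝔥 : LieSubalgebra ℝ g.L) (Nn K : Submodule ℝ g.L) (y : g.L) (r : ℕ) (β : Fin r → ℝ)
    (a : g.L) (b : Fin r → g.L), Tri g m η 𝔥 Nn K ∧ (r : ℝ) ≤ m ∧ y ∈ 𝔥 ∧ a ∈ Nn ∧
    (∀ j, b j ∈ Nn) ∧ ∀ h ∈ H, Rep g S T m 𝔥 K (star S (lam β a b h) y) (x h)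

def StructStmt : Prop :=
  ∀ S : ℕ, ∃ C : ℕ, 1 ≤ C ∧ ∀ (m : ℝ), 2 ≤ m → ∀ (ι : Type) [Fintype ι] (g : ND ι) (η : ι → ℤ)
    (L : ℕ) (x : ℤ → g.L) (𝔥 : LieSubalgebra ℝ (pw g (Fin 4)).L) (Q : Finset (Fin 4 → ℤ)),
    Gd g S m → Real.exp (m ^ C) ≤ L → GR (pw g (Fin 4)) m 𝔥.toSubmodule →
    (∀ z ∈ 𝔥, (pw g (Fin 4)).fn (pwη sg4 η) z = 0) → Real.exp (-m) * (L : ℝ) ^ 3 ≤ #Q →
    (∀ q ∈ Q, IsQuad L q ∧ Near (pw g (Fin 4)) S L m 𝔥.toSubmodule (tup fun i => x (q i))) →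
    ∃ H' : Finset ℤ, (∀ h ∈ H', ∃ q ∈ Q, q 0 = h) ∧ Real.exp (-m ^ C) * L ≤ #H' ∧
      Strd g S L (m ^ C) η x H'

/-! ### the bigraded model -/

/-- the graded subquotient `𝔥 / K` as a datum; `Nn / K` is spanned by basis vectors -/
def SubQStmt : Prop :=
  ∀ (S c : ℕ), 0 < c → ∃ C : ℕ, 1 ≤ C ∧ ∀ (m : ℝ), 2 ≤ m → ∀ (ι : Type) [Fintype ι] (g : ND ι)
    (η : ι → ℤ) (𝔥 : LieSubalgebra ℝ g.L) (Nn K : Submodule ℝ g.L), Gd g S m →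
    Tri g m η 𝔥 Nn K →
    ∃ (r : ℕ) (q : ND (Fin r)) (ν : Fin r → Prop) (Z : q.L →ₗ[ℝ] g.L), Gd q S (m ^ C) ∧
      (∀ i j k, (c : ℤ) ∣ q.c i j k) ∧ GMap q g (m ^ C) Z ∧ (∀ w, Z w ∈ 𝔥) ∧
      (∀ w w', Z ⁅w, w'⁆ - ⁅Z w, Z w'⁆ ∈ K) ∧ (∀ x ∈ 𝔥, ∃ w, x - Z w ∈ K) ∧
      (∀ x ∈ Nn, ∃ w, On q ν w ∧ x - Z w ∈ K) ∧ CoId q ν ∧
      ∀ i j k, ν i → ν j → q.c i j k = 0

/-- graded, with a second grading by `hd ∈ {0,1}` -/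
structure Bigr (A : ND ι) (hd : ι → Bool) : Prop where
  gr : Graded A
  add : ∀ i j k, A.c i j k ≠ 0 → (hd i).toNat + (hd j).toNat = (hd k).toNat

/-- the bigraded dilation `δ_{h,n}` -/
def dil2 (A : ND ι) (hd : ι → Bool) (h n : ℝ) (x : A.L) : A.L :=
  fun k => if hd k then h * n ^ (A.wt k - 1) * x k else n ^ A.wt k * x k

/-- the model `ℝ^r ⋉ (q ⋉ (ν ⊕ ν ⊗ ℝ^r))` of a bracket-linear family -/
def ModelStmt : Prop :=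
  ∀ t : ℕ, ∃ c : ℕ, 0 < c ∧ ∃ C : ℕ, 1 ≤ C ∧ ∀ (m : ℝ), 2 ≤ m → ∀ (ι : Type) [Fintype ι]
    (q : ND ι) (ν : ι → Prop) (η : ι → ℤ) (r : ℕ) (β : Fin r → ℝ) (y a : q.L)
    (b : Fin r → q.L), Gd q (t + 1) m → (∀ i j k, (c : ℤ) ∣ q.c i j k) → CoId q ν →
    (∀ i j k, ν i → ν j → q.c i j k = 0) → Freq q (t + 1) m η → (r : ℝ) ≤ m → On q ν a →
    (∀ j, On q ν (b j)) →
    ∃ (ιA : Type) (_ : Fintype ιA) (A : ND ιA) (hd : ιA → Bool) (ηA : ιA → ℤ) (x : A.L)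
      (ιB : Type) (_ : Fintype ιB) (B : ND ιB) (κ : ιB → Prop) (inc : B.L →ₗ⁅ℝ⁆ A.L)
      (θ : B.L →ₗ⁅ℝ⁆ q.L) (z : ℤ → B.L),
      (Fintype.card ιA : ℝ) ≤ m ^ C ∧ A.Good (t + 2) (Real.exp (m ^ C)) ∧ Bigr A hd ∧
      Freq A (t + 2) (m ^ C) ηA ∧ (∀ k, hd k = false → ηA k = 0) ∧
      Gd B (t + 1) (m ^ C) ∧ B.Good (t + 2) (Real.exp (m ^ C)) ∧ CoId B κ ∧
      B.IntMap A (Real.exp (m ^ C)) inc.toLinearMap ∧ GMap B q (m ^ C) θ.toLinearMap ∧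
      (∀ Z ∈ B.F (t + 1), On B κ Z → inc Z ∈ A.F (t + 2) ∧ A.fn ηA (inc Z) = q.fn η (θ Z)) ∧
      (∀ h h' k, ¬ κ k → z h k = z h' k) ∧
      (∀ h, θ (z h) = star (t + 2) (lam β a b h) y) ∧
      ∀ h : ℤ, ∃ u γ : A.L, ‖u‖ ≤ 1 ∧ IsInt γ ∧ ∀ n : ℝ,
        dil2 A hd h n x = star (t + 2) u (star (t + 2) (inc (dil B n (z h))) γ)

/-! ### symmetry -/

/-- right-normed brackets -/
def rb {𝔤 : Type*} [LieRing 𝔤] : List 𝔤 → 𝔤 → 𝔤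
  | [], x => x
  | y :: ys, x => ⁅y, rb ys x⁆

/-- the part of `h`-degree `e` -/
def ph (A : ND ι) (hd : ι → Bool) (e : Bool) : A.L →ₗ[ℝ] A.L := Gon.prj fun k => hd k = e

/-- the point of the power given by the linear forms of the symmetry argument -/
def iot (A : ND ι) (hd : ι → Bool) (t : ℕ) (v : SV t → ℤ) (x : A.L) : (pw A (SF t)).L :=
  tup fun j => dil2 A hd ((argH (0 : ℤ) j v : ℤ) : ℝ) ((argN (0 : Fin t → ℤ) j v : ℤ) : ℝ) x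

/-- what the equidistribution theorem gives -/
def SymHyp (A : ND ι) (hd : ι → Bool) (η : ι → ℤ) (t : ℕ) (𝔟 : LieSubalgebra ℝ A.L) : Prop :=
  ∃ 𝔥 : LieSubalgebra ℝ (pw A (SF t)).L,
    (∀ x ∈ 𝔥, (pw A (SF t)).fn (pwη (fun j => ((sgnF j : ℤˣ) : ℤ)) η) x = 0) ∧
    ∀ v : SV t → ℤ, (∀ i, v i = 0 ∨ v i = 1) → ∀ x ∈ 𝔟, iot A hd t v x ∈ 𝔥

/-- the symmetry relation -/
def SYM (A : ND ι) (hd : ι → Bool) (η : ι → ℤ) (t : ℕ) (𝔟 : LieSubalgebra ℝ A.L) : Prop :=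
  ∀ (ys : List A.L) (x : A.L) (d : ℕ), (∀ y ∈ ys, y ∈ 𝔟) → x ∈ 𝔟 → hp A d x = x →
    ((t : ℝ) + 2) * A.fn η (rb (ys.map (ph A hd false)) (ph A hd true x)) = d * A.fn η (rb ys x)

def SymStmt : Prop :=
  ∀ (t : ℕ) (ι : Type) [Fintype ι] (A : ND ι) (hd : ι → Bool) (η : ι → ℤ)
    (𝔟 : LieSubalgebra ℝ A.L), Bigr A hd → (∀ k, A.wt k ≠ t + 2 → η k = 0) →
    (∀ k, hd k = false → η k = 0) → IsG A 𝔟.toSubmodule → SymHyp A hd η t 𝔟 → SYM A hd η t 𝔟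

/-- the filtration in which `(δ_n x, δ_{n+h} x, δ_{h,n} x)` has degree `≤ t` over its first entry -/
def FiltStmt : Prop :=
  ∀ t : ℕ, ∃ C : ℕ, 1 ≤ C ∧ ∀ (m : ℝ), 2 ≤ m → ∀ (ι : Type) [Fintype ι] (A : ND ι)
    (hd : ι → Bool) (η η' : ι → ℤ) (𝔟 : LieSubalgebra ℝ A.L) (x : A.L), Fd A (t + 2) m →
    Bigr A hd → Freq A (t + 2) m η → (∀ k, η k = ((t : ℤ) + 2) * η' k) →
    GR A m 𝔟.toSubmodule → SYM A hd η t 𝔟 → x ∈ 𝔟 →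
    ∃ (V : ℕ → Submodule ℝ (pw A (Fin 3)).L) (𝔨 : Submodule ℝ (pw A (Fin 3)).L)
      (P : ℤ → (pw A (Fin 3)).PS Unit), SFil (pw A (Fin 3)) (t + 2) (m ^ C) V 𝔨 ∧
      (∀ Z ∈ V (t + 1), Z ∈ 𝔨 → Z ∈ (pw A (Fin 3)).F (t + 2) ∧
        A.fn η (pr A ℝ 2 Z) = A.fn η' (pr A ℝ 1 Z)) ∧
      (∀ h, P h ∈ cf Unit V) ∧ (∀ h h' α, (pw A (Fin 3)).cv α (P h - P h') ∈ 𝔨) ∧
      ∀ h : ℤ, ∃ u γ : (pw A (Fin 3)).L, ‖u‖ ≤ Real.exp (m ^ C) ∧ IsInt γ ∧ ∀ n : ℤ,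
        tup ![dil A n x, dil A (n + h : ℤ) x, dil2 A hd h n x] =
          star (t + 2) u (star (t + 2) ((pw A (Fin 3)).evZ (fun _ => n) (P h)) γ)

/-! ### the states -/

/-- a polynomial implication between properties of `1`-bounded functions on `[0, L)` -/
def Imp (X Y : ℝ → ℕ → (ℤ → ℂ) → Prop) : Prop :=
  ∃ C : ℕ, 1 ≤ C ∧ ∀ (m : ℝ) (L : ℕ) (f : ℤ → ℂ), 2 ≤ m → Real.exp (m ^ C) ≤ L →
    Supp f (Ico (0 : ℤ) L) → (∀ x, ‖f x‖ ≤ 1) → X m L f → Y (m ^ C) L f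

/-- large `U^{s+1}` norm -/
def BigU (s : ℕ) (m : ℝ) (L : ℕ) (f : ℤ → ℂ) : Prop :=
  Real.exp (-m) * (L : ℝ) ^ (s + 2) ≤ U (s + 1) f

/-- correlation with a nilsequence of degree `s` -/
def CorNil (s : ℕ) (m : ℝ) (L : ℕ) (f : ℤ → ℂ) : Prop := ∃ ψ, IsNil1 s m ψ ∧ Cor m L f ψ

/-- **the inverse theorem for `U^{s+1}[L]`** -/
def GI1 (s : ℕ) : Prop := Imp (BigU s) (CorNil s)

/-- many derivatives correlate with nilcharacters of one datum and one frequency -/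
structure FamA (t : ℕ) (m : ℝ) (L : ℕ) (f : ℤ → ℂ) (N : ND ι) (η : ι → ℤ) (H : Finset ℤ)
    (F : ℤ → N.L → ℂ) (P : ℤ → N.PS Unit) : Prop where
  dim : (Fintype.card ι : ℝ) ≤ m
  good : N.Good (t + 2) (Real.exp m)
  wt_le : ∀ k, N.wt k ≤ t + 1
  freq : Freq N (t + 1) m η
  sub : H ⊆ Ico (-(L : ℤ)) L
  dense : Real.exp (-m) * L ≤ #H
  chr : ∀ h ∈ H, N.NChar (t + 2) (t + 1) (Real.exp m) η (F h)
  poly : ∀ h ∈ H, P h ∈ N.poly Unit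
  cor : ∀ h ∈ H, Cor m L (D h f) (sq N (F h) (P h))

def StA (t : ℕ) (m : ℝ) (L : ℕ) (f : ℤ → ℂ) : Prop :=
  ∃ (ι : Type) (_ : Fintype ι) (N : ND ι) (η : ι → ℤ) (H : Finset ℤ) (F : ℤ → N.L → ℂ)
    (P : ℤ → N.PS Unit), FamA t m L f N η H F P

def StQ (t : ℕ) (m : ℝ) (L : ℕ) (f : ℤ → ℂ) : Prop :=
  ∃ (ι : Type) (_ : Fintype ι) (N : ND ι) (η : ι → ℤ) (H : Finset ℤ) (F : ℤ → N.L → ℂ)
    (P : ℤ → N.PS Unit), FamA t m L f N η H F P ∧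
    ∃ (𝔥 : LieSubalgebra ℝ (pw (gr N) (Fin 4)).L) (Q : Finset (Fin 4 → ℤ)),
      GR (pw (gr N) (Fin 4)) m 𝔥.toSubmodule ∧
      (∀ z ∈ 𝔥, (pw (gr N) (Fin 4)).fn (pwη sg4 η) z = 0) ∧ Real.exp (-m) * (L : ℝ) ^ 3 ≤ #Q ∧
      ∀ q ∈ Q, IsQuad L q ∧ (∀ i, q i ∈ H) ∧ Near (pw (gr N) (Fin 4)) (t + 2) L m 𝔥.toSubmodule
        (tup fun i => sym N (gr N) (P (q i)))

def StS (t : ℕ) (m : ℝ) (L : ℕ) (f : ℤ → ℂ) : Prop :=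
  ∃ (ι : Type) (_ : Fintype ι) (N : ND ι) (η : ι → ℤ) (H : Finset ℤ) (F : ℤ → N.L → ℂ)
    (P : ℤ → N.PS Unit), FamA t m L f N η H F P ∧
    Strd (gr N) (t + 2) L m η (fun h => sym N (gr N) (P h)) H

/-- the derivatives are explained by one bigraded nilcharacter up to degree `t` -/
structure FamB (t : ℕ) (m : ℝ) (L : ℕ) (f : ℤ → ℂ) (A : ND ι) (hd : ι → Bool) (η : ι → ℤ)
    (x : A.L) (F : A.L → ℂ) (b : ℤ → ℂ) (H : Finset ℤ) : Prop where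
  dim : (Fintype.card ι : ℝ) ≤ m
  good : A.Good (t + 2) (Real.exp m)
  bigr : Bigr A hd
  chr : A.NChar (t + 2) (t + 2) (Real.exp m) η F
  top : ∀ k, hd k = false → η k = 0
  bdd : ∀ n, ‖b n‖ ≤ 1
  sub : H ⊆ Ico (-(L : ℤ)) L
  dense : Real.exp (-m) * L ≤ #H
  cor : ∀ h ∈ H, ∃ ψ, IsNil1 t m ψ ∧
    Cor m L (fun n => f (n + h) * b n * F (dil2 A hd h n x)) ψ

def StB (t : ℕ) (m : ℝ) (L : ℕ) (f : ℤ → ℂ) : Prop :=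
  ∃ (ι : Type) (_ : Fintype ι) (A : ND ι) (hd : ι → Bool) (η : ι → ℤ) (x : A.L) (F : A.L → ℂ)
    (b : ℤ → ℂ) (H : Finset ℤ), FamB t m L f A hd η x F b H

def StB' (t : ℕ) (m : ℝ) (L : ℕ) (f : ℤ → ℂ) : Prop :=
  ∃ (ι : Type) (_ : Fintype ι) (A : ND ι) (hd : ι → Bool) (η : ι → ℤ) (x : A.L) (F : A.L → ℂ)
    (b : ℤ → ℂ) (H : Finset ℤ), FamB t m L f A hd η x F b H ∧
    ∃ 𝔟 : LieSubalgebra ℝ A.L, GR A m 𝔟.toSubmodule ∧ SYM A hd η t 𝔟 ∧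
      Near A (t + 2) L m 𝔟.toSubmodule x

def StC (t : ℕ) (m : ℝ) (L : ℕ) (f : ℤ → ℂ) : Prop :=
  ∃ (ι : Type) (_ : Fintype ι) (A : ND ι) (hd : ι → Bool) (η : ι → ℤ) (x : A.L) (F : A.L → ℂ)
    (b : ℤ → ℂ) (H : Finset ℤ), FamB t m L f A hd η x F b H ∧
    ∃ 𝔟 : LieSubalgebra ℝ A.L, GR A m 𝔟.toSubmodule ∧ SYM A hd η t 𝔟 ∧ x ∈ 𝔟 ∧
      ∀ k, ((t : ℤ) + 2) ∣ η k

def StE (t : ℕ) (m : ℝ) (L : ℕ) (f : ℤ → ℂ) : Prop :=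
  ∃ (Θ b : ℤ → ℂ) (H : Finset ℤ), IsNil1 (t + 2) m Θ ∧ (∀ n, ‖b n‖ ≤ 1) ∧
    H ⊆ Ico (-(L : ℤ)) L ∧ Real.exp (-m) * L ≤ #H ∧
    ∀ h ∈ H, ∃ ψ, IsNil1 t m ψ ∧ Cor m L (fun n => f (n + h) * Θ (n + h) * b n) ψ

/-! ### the steps -/

def BaseStmt : Prop := GI1 1
def Step1Stmt : Prop := ∀ t, GI1 (t + 1) → Imp (BigU (t + 2)) (StA t)
def Step2Stmt : Prop := ∀ t, LtN (t + 2) (t + 1) 1 → Imp (StA t) (StQ t)
def Step3Stmt : Prop := StructStmt → ∀ t, Imp (StQ t) (StS t)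
def Step4Stmt : Prop := ClosStmt → PushStmt → SubQStmt → ModelStmt → VecStmt → ConvFStmt →
  FibCStmt → ∀ t, Imp (StS t) (StB t)
def Step5Stmt : Prop := PushStmt → PullStmt → DerStmt → SymStmt →
  ∀ t, LtN (t + 2) (t + 2) (t + 4) → Imp (StB t) (StB' t)
def Step6Stmt : Prop := ∀ t, Imp (StB' t) (StC t)
def Step7Stmt : Prop := VecStmt → FiltStmt → FibSStmt → ∀ t, Imp (StC t) (StE t)
def Step8Stmt : Prop := DerStmt → ∀ t, GI1 (t + 1) → Imp (StE t) (CorNil (t + 2))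

theorem Imp.trans {X Y Z : ℝ → ℕ → (ℤ → ℂ) → Prop} (h₁ : Imp X Y) (h₂ : Imp Y Z) : Imp X Z := by
  obtain ⟨C₁, hC₁, h₁⟩ := h₁
  obtain ⟨C₂, hC₂, h₂⟩ := h₂
  refine ⟨C₁ * C₂, Nat.mul_pos hC₁ hC₂, fun m L f hm hL hf hb hX => ?_⟩
  have hm1 : 2 ≤ m ^ C₁ := hm.trans (le_self_pow₀ (by linarith) (by omega))
  rw [pow_mul] at hL ⊢
  refine h₂ _ L f hm1 hL hf hb (h₁ m L f hm (le_trans ?_ hL) hf hb hX)
  exact Real.exp_le_exp.2 (le_self_pow₀ (by linarith) (by omega))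

/-- the assembly -/
theorem gi_of (hLT : LTStmt) (hLtN : LtNStmt) (hClos : ClosStmt) (hPush : PushStmt)
    (hPull : PullStmt) (hConv : ConvFStmt) (hVec : VecStmt) (hDer : DerStmt) (hFibC : FibCStmt)
    (hFibS : FibSStmt) (hStruct : StructStmt) (hSubQ : SubQStmt) (hModel : ModelStmt)
    (hSym : SymStmt) (hFilt : FiltStmt) (h0 : BaseStmt) (h1 : Step1Stmt) (h2 : Step2Stmt)
    (h3 : Step3Stmt) (h4 : Step4Stmt) (h5 : Step5Stmt) (h6 : Step6Stmt) (h7 : Step7Stmt)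
    (h8 : Step8Stmt) (t : ℕ) : GI1 (t + 1) := by
  induction t with
  | zero => exact h0
  | succ t ih =>
    exact (h1 t ih).trans <| (h2 t (hLtN hLT _ _ _ (by omega))).trans <| (h3 hStruct t).trans <|
      (h4 hClos hPush hSubQ hModel hVec hConv hFibC t).trans <|
      (h5 hPush hPull hDer hSym t (hLtN hLT _ _ _ (by omega))).trans <| (h6 t).trans <|
      (h7 hVec hFilt hFibS t).trans (h8 hDer t ih)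

end Crest.Agent.T49.GI
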