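import Crest.Agent.T49.GowA_67

/-!
# Row 49 (helper67): Gowers norms, file B

* invariance: `Uc_shift`, `Uc_conj`, `Uc_comp_inj`, `U_const_mul`, `IsPh` and `Uc_mul_ph`,
  `Uc_mul_of_cube`;
* `Nm s f = ‖f‖_{U^s}`, `Nm_sum_le` (triangle inequality), `Nm_mul_trig`, `Nm_le_of_norm_le`;
* `cube_le` (generalised von Neumann for cubes, dual functions);
* `U_mono`, `Big`, `big_of_sum`, `U_ge_of_corr` (monotonicity), `popular`, `popular_D`.
-/

set_option autoImplicit false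

noncomputable section

namespace Crest.Agent.T49.Gow

open Finset
open scoped ComplexConjugate Pointwise Classical

variable {G : Type*} [AddCommGroup G] {f g : G → ℂ} {S T : Finset G}

/-! ### invariance -/

lemma D_shift (h a : G) (f : G → ℂ) : D h (fun x => f (x + a)) = fun x => D h f (x + a) := by
  funext x
  simp only [D, add_right_comm x h a]

lemma Uc_shift (a : G) : ∀ (s : ℕ) (f : G → ℂ), Uc s (fun x => f (x + a)) = Uc s f
  | 0, f => finsum_comp_equiv (Equiv.addRight a) (f := f)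
  | s + 1, f => finsum_congr fun h => by rw [D_shift, Uc_shift a s]

lemma U_shift (a : G) (s : ℕ) (f : G → ℂ) : U s (fun x => f (x + a)) = U s f := by
  rw [U, Uc_shift, U]

lemma D_conj (h : G) (f : G → ℂ) : D h (fun x => conj (f x)) = fun x => conj (D h f x) := by
  funext x
  simp only [D, map_mul]

lemma Uc_conj : ∀ (s : ℕ) (f : G → ℂ), Uc s (fun x => conj (f x)) = conj (Uc s f)
  | 0, f => ((starAddEquiv (R := ℂ)).map_finsum f).symm
  | s + 1, f => by
    refine Eq.trans ?_ ((starAddEquiv (R := ℂ)).map_finsum fun h => Uc s (D h f)).symm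
    exact finsum_congr fun h => by rw [D_conj, Uc_conj s]; rfl

lemma U_conj (s : ℕ) (f : G → ℂ) : U s (fun x => conj (f x)) = U s f := by
  rw [U, Uc_conj, RCLike.norm_conj, U]

lemma U_cj {r : ℕ} (w : Fin r → Bool) (s : ℕ) (f : G → ℂ) : U s (fun x => cj w (f x)) = U s f := by
  rcases cj_eq w with h | h <;> simp only [h, U_conj]

lemma finsum_comp_inj {α β : Type*} {φ : α → β} (hφ : Function.Injective φ) {F : β → ℂ}
    (hF : ∀ y, y ∉ Set.range φ → F y = 0) : ∑ᶠ x, F (φ x) = ∑ᶠ y, F y := by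
  rw [← finsum_mem_range hφ, finsum_mem_def]
  congr 1
  exact Set.indicator_eq_self.2 fun y hy => by_contra fun h => hy (hF y h)

/-- functions supported on a subgroup -/
lemma Uc_comp_inj {G' : Type*} [AddCommGroup G'] {φ : G' →+ G} (hφ : Function.Injective φ) :
    ∀ (s : ℕ) {f : G → ℂ}, (∀ y, y ∉ Set.range φ → f y = 0) → Uc s (fun x => f (φ x)) = Uc s f
  | 0, f, hf => finsum_comp_inj hφ hf
  | s + 1, f, hf => by
    have h1 : ∀ h y, y ∉ Set.range φ → D h f y = 0 := fun h y hy => by simp [D, hf y hy]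
    have h2 : ∀ h, h ∉ Set.range φ → Uc s (D h f) = 0 := fun h hh => by
      have : D h f = 0 := by
        funext y
        by_cases hy : y ∈ Set.range φ
        · have h3 : y + h ∉ Set.range φ := by
            rintro ⟨b, hb⟩
            obtain ⟨a, rfl⟩ := hy
            exact hh ⟨b - a, by rw [map_sub, hb, add_sub_cancel_left]⟩
          simp [D, hf _ h3]
        · exact h1 h y hy
      rw [this, Uc_zero]
    rw [Uc, Uc, ← finsum_comp_inj hφ h2]
    refine finsum_congr fun h => ?_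
    rw [← Uc_comp_inj hφ s (h1 _)]
    congr 1
    funext x
    simp [D]

/-- restriction to a coset `a + range φ` -/
lemma U_comp_inj {G' : Type*} [AddCommGroup G'] {φ : G' →+ G} (hφ : Function.Injective φ) (a : G)
    (s : ℕ) {f : G → ℂ} (hf : ∀ y, y - a ∉ Set.range φ → f y = 0) :
    U s (fun x => f (φ x + a)) = U s f := by
  rw [U, Uc_comp_inj hφ s (f := fun y => f (y + a)) fun y hy => hf _ (by simpa using hy), Uc_shift, U]

lemma U_const_mul : ∀ (s : ℕ) (c : ℂ) (f : G → ℂ),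
    U s (fun x => c * f x) = ‖c‖ ^ 2 ^ s * U s f := by
  have key : ∀ (s : ℕ) (c : ℂ), ∃ d : ℂ, ‖d‖ = ‖c‖ ^ 2 ^ s ∧
      ∀ f : G → ℂ, Uc s (fun x => c * f x) = d * Uc s f := by
    intro s
    induction s with
    | zero => exact fun c => ⟨c, by simp, fun f => (mul_finsum f c).symm⟩
    | succ s ih =>
      intro c
      obtain ⟨d, h1, h2⟩ := ih (c * conj c)
      refine ⟨d, by rw [h1, norm_mul, RCLike.norm_conj, ← sq, ← pow_mul, pow_succ'], fun f => ?_⟩
      rw [Uc, Uc, mul_finsum]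
      refine finsum_congr fun h => ?_
      rw [← h2]
      congr 1
      funext x
      simp only [D, map_mul]
      ring
  intro s c f
  obtain ⟨d, h1, h2⟩ := key s c
  rw [U, h2, norm_mul, h1, U]

/-- unimodular polynomial phases of degree `< s` -/
def IsPh : ℕ → (G → ℂ) → Prop
  | 0, u => ∀ x, u x = 1
  | s + 1, u => (∀ x, ‖u x‖ = 1) ∧ ∀ h, IsPh s (D h u)

lemma IsPh.norm : ∀ {s : ℕ} {u : G → ℂ}, IsPh s u → ∀ x, ‖u x‖ = 1
  | 0, _, h, x => by rw [h x, norm_one]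
  | _ + 1, _, h, x => h.1 x

lemma Uc_mul_ph : ∀ (s : ℕ) (f : G → ℂ) {u : G → ℂ}, IsPh s u → Uc s (fun x => f x * u x) = Uc s f
  | 0, f, u, hu => by simp only [show ∀ x, u x = 1 from hu, mul_one]
  | s + 1, f, u, hu => finsum_congr fun h => by rw [D_mul, Uc_mul_ph s _ (hu.2 h)]

lemma U_mul_ph (s : ℕ) (f : G → ℂ) {u : G → ℂ} (hu : IsPh s u) :
    U s (fun x => f x * u x) = U s f := by rw [U, Uc_mul_ph s f hu, U]

lemma IsPh.succ : ∀ {s : ℕ} {u : G → ℂ}, IsPh s u → IsPh (s + 1) u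
  | 0, u, hu => ⟨hu.norm, fun h x => by simp [D, show ∀ x, u x = 1 from hu]⟩
  | _ + 1, _, hu => ⟨hu.1, fun h => (hu.2 h).succ⟩

lemma IsPh.mono {s t : ℕ} {u : G → ℂ} (hu : IsPh s u) (h : s ≤ t) : IsPh t u := by
  induction h with
  | refl => exact hu
  | step _ ih => exact ih.succ

lemma IsPh.mul : ∀ {s : ℕ} {u v : G → ℂ}, IsPh s u → IsPh s v → IsPh s fun x => u x * v x
  | 0, _, _, hu, hv => fun x => by simp only [hu x, hv x, mul_one]
  | _ + 1, _, _, hu, hv => ⟨fun x => by rw [norm_mul, hu.1, hv.1, mul_one],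
      fun h => by rw [D_mul]; exact (hu.2 h).mul (hv.2 h)⟩

lemma IsPh.conj : ∀ {s : ℕ} {u : G → ℂ}, IsPh s u → IsPh s fun x => conj (u x)
  | 0, _, hu => fun x => by simp only [hu x, map_one]
  | _ + 1, _, hu => ⟨fun x => by rw [RCLike.norm_conj, hu.1],
      fun h => by rw [D_conj]; exact (hu.2 h).conj⟩

lemma isPh_one (s : ℕ) : IsPh s fun _ : G => 1 := IsPh.mono (s := 0) (fun _ => rfl) (Nat.zero_le s)

lemma isPh_const {c : ℂ} (hc : ‖c‖ = 1) : IsPh 1 fun _ : G => c :=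
  ⟨fun _ => hc, fun _ _ => by rw [D, Complex.mul_conj, Complex.normSq_eq_norm_sq, hc]; simp⟩

/-- characters are phases of degree `< 2` -/
lemma isPh_char {u : G → ℂ} (h1 : ∀ x, ‖u x‖ = 1) (h2 : ∀ x y, u (x + y) = u x * u y) :
    IsPh 2 u := by
  refine ⟨h1, fun h => ?_⟩
  have : D h u = fun _ => u h := by
    funext x
    rw [D, h2, mul_right_comm, Complex.mul_conj, Complex.normSq_eq_norm_sq, h1]
    simp
  rw [this]
  exact isPh_const (h1 h)

/-- a function which is a polynomial phase on the cubes inside `S` -/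
lemma Uc_mul_of_cube (s : ℕ) (hf : Supp f S) {u : G → ℂ}
    (hu : ∀ (x : G) (h : Fin s → G), (∀ w, vtx x h w ∈ S) → ∏ w, cj w (u (vtx x h w)) = 1) :
    Uc s (fun x => f x * u x) = Uc s f := by
  rw [Uc_eq_sum s (hf.mul_right u) Subset.rfl, Uc_eq_sum s hf Subset.rfl]
  refine sum_congr rfl fun h _ => sum_congr rfl fun x _ => ?_
  simp only [cj_mul, prod_mul_distrib]
  by_cases h1 : ∀ w, vtx x h w ∈ S
  · rw [hu x h h1, mul_one]
  · push Not at h1
    obtain ⟨w, hw⟩ := h1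
    rw [prod_eq_zero (mem_univ w) (by rw [hf _ hw, cj_zero]), zero_mul]

/-! ### the norm -/

/-- the (unnormalised) Gowers norm -/
def Nm (s : ℕ) (f : G → ℂ) : ℝ := U s f ^ ((2 ^ s : ℕ) : ℝ)⁻¹

lemma Nm_nonneg (s : ℕ) (f : G → ℂ) : 0 ≤ Nm s f := Real.rpow_nonneg (U_nonneg _ _) _

lemma Nm_pow (s : ℕ) (f : G → ℂ) : Nm s f ^ 2 ^ s = U s f :=
  Real.rpow_inv_natCast_pow (U_nonneg _ _) (by positivity)

lemma Nm_le_iff {s : ℕ} {a : ℝ} (ha : 0 ≤ a) : Nm s f ≤ a ↔ U s f ≤ a ^ 2 ^ s := by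
  rw [← Nm_pow, pow_le_pow_iff_left₀ (Nm_nonneg _ _) ha (by positivity)]

lemma le_Nm_iff {s : ℕ} {a : ℝ} (ha : 0 ≤ a) : a ≤ Nm s f ↔ a ^ 2 ^ s ≤ U s f := by
  rw [← Nm_pow, pow_le_pow_iff_left₀ ha (Nm_nonneg _ _) (by positivity)]

lemma Nm_const_mul (s : ℕ) (c : ℂ) (f : G → ℂ) : Nm s (fun x => c * f x) = ‖c‖ * Nm s f := by
  refine (pow_left_inj₀ (Nm_nonneg _ _) (mul_nonneg (norm_nonneg _) (Nm_nonneg _ _))
    (n := 2 ^ s) (by positivity)).1 ?_
  rw [mul_pow, Nm_pow, Nm_pow, U_const_mul]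

lemma Nm_mul_ph (s : ℕ) (f : G → ℂ) {u : G → ℂ} (hu : IsPh s u) :
    Nm s (fun x => f x * u x) = Nm s f := by rw [Nm, U_mul_ph s f hu, Nm]

lemma card_cube (s : ℕ) : Fintype.card (Fin s → Bool) = 2 ^ s := by simp

theorem norm_gip_le (s : ℕ) {F : (Fin s → Bool) → G → ℂ} (hF : ∀ w, Supp (F w) S) :
    ‖gip s F‖ ≤ ∏ w, Nm s (F w) := by
  refine le_of_pow_le_pow_left₀ (n := 2 ^ s) (by positivity) (prod_nonneg fun _ _ => Nm_nonneg _ _) ?_
  rw [← prod_pow]
  simp only [Nm_pow]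
  exact gcs s hF

lemma cj_sum {s : ℕ} (w : Fin s → Bool) {ι : Type*} (I : Finset ι) (a : ι → ℂ) :
    cj w (∑ i ∈ I, a i) = ∑ i ∈ I, cj w (a i) := by
  rcases cj_eq w with h | h <;> simp [h]

/-- **triangle inequality** -/
theorem Nm_sum_le (s : ℕ) {ι : Type*} (I : Finset ι) {F : ι → G → ℂ} (hF : ∀ i, Supp (F i) S) :
    Nm s (fun x => ∑ i ∈ I, F i x) ≤ ∑ i ∈ I, Nm s (F i) := by
  rw [Nm_le_iff (sum_nonneg fun _ _ => Nm_nonneg _ _), U,
    Uc_eq_sum s (S := S) (fun x hx => sum_eq_zero fun i _ => hF i x hx) Subset.rfl]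
  simp only [cj_sum, prod_univ_sum]
  simp only [sum_comm (t := Fintype.piFinset fun _ : Fin s → Bool => I)]
  rw [← card_cube, ← card_univ, ← prod_const, prod_univ_sum]
  refine (norm_sum_le _ _).trans (sum_le_sum fun σ _ => ?_)
  rw [← gip_eq_sum s (F := fun w => F (σ w)) (fun w => hF _) Subset.rfl]
  exact norm_gip_le s fun w => hF _

theorem Nm_add_le (s : ℕ) (hf : Supp f S) (hg : Supp g S) :
    Nm s (fun x => f x + g x) ≤ Nm s f + Nm s g := by
  have := Nm_sum_le s univ (F := fun b : Bool => cond b f g) (S := S) (by rintro (_ | _) <;> assumption)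
  simpa using this

/-- the size of the set of cubes -/
def cubeN (s : ℕ) (S : Finset G) : ℝ := ((S.card : ℝ) * ((S - S).card : ℝ) ^ s) ^ ((2 ^ s : ℕ) : ℝ)⁻¹

lemma cubeN_nonneg (s : ℕ) (S : Finset G) : 0 ≤ cubeN s S := Real.rpow_nonneg (by positivity) _

lemma cubeN_pow (s : ℕ) (S : Finset G) :
    cubeN s S ^ 2 ^ s = (S.card : ℝ) * ((S - S).card : ℝ) ^ s :=
  Real.rpow_inv_natCast_pow (by positivity) (by positivity)

lemma Nm_le_cubeN (s : ℕ) (hf : Supp f S) (hb : ∀ x, ‖f x‖ ≤ 1) : Nm s f ≤ cubeN s S := by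
  rw [Nm_le_iff (cubeN_nonneg _ _), cubeN_pow]
  exact U_le s hf hb

lemma Nm_le_of_norm_le (s : ℕ) (hf : Supp f S) {ε : ℝ} (hε : 0 ≤ ε) (hb : ∀ x, ‖f x‖ ≤ ε) :
    Nm s f ≤ ε * cubeN s S := by
  rcases hε.eq_or_lt with rfl | hε
  · have : f = fun x => 0 * f x := funext fun x => by simpa using hb x
    rw [this, Nm_const_mul]
    simp
  have h1 : f = fun x => (ε : ℂ) * ((ε : ℂ)⁻¹ * f x) := funext fun x => by
    rw [← mul_assoc, mul_inv_cancel₀ (by exact_mod_cast hε.ne'), one_mul]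
  rw [h1, Nm_const_mul, Complex.norm_real, Real.norm_of_nonneg hε.le]
  refine mul_le_mul_of_nonneg_left (Nm_le_cubeN s (hf.mul_left _) fun x => ?_) hε.le
  rw [norm_mul, norm_inv, Complex.norm_real, Real.norm_of_nonneg hε.le, inv_mul_le_iff₀ hε, mul_one]
  exact hb x

/-- multiplication by a function close to a combination of polynomial phases of degree `< s` -/
theorem Nm_mul_trig (s : ℕ) (hf : Supp f S) (hb : ∀ x, ‖f x‖ ≤ 1) {ι : Type*} (I : Finset ι)
    (c : ι → ℂ) {u : ι → G → ℂ} (hu : ∀ i ∈ I, IsPh s (u i)) {ψ : G → ℂ} {ε : ℝ} (hε : 0 ≤ ε)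
    (hψ : ∀ x ∈ S, ‖ψ x - ∑ i ∈ I, c i * u i x‖ ≤ ε) :
    Nm s (fun x => f x * ψ x) ≤ (∑ i ∈ I, ‖c i‖) * Nm s f + ε * cubeN s S := by
  have h1 : (fun x => f x * ψ x) = fun x => (∑ i ∈ I, c i * (f x * u i x)) +
      f x * (ψ x - ∑ i ∈ I, c i * u i x) := by
    funext x
    rw [mul_sub, mul_sum, add_comm, sub_add, eq_comm, sub_eq_self, sub_eq_zero]
    exact sum_congr rfl fun i _ => by ring
  rw [h1]
  refine (Nm_add_le s (S := S) (fun x hx => sum_eq_zero fun i _ => by simp [hf x hx])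
    (hf.mul_right _)).trans (add_le_add ?_ ?_)
  · refine (Nm_sum_le s I (F := fun i x => c i * (f x * u i x))
      fun i => (hf.mul_right _).mul_left _).trans (le_of_eq ?_)
    rw [sum_mul]
    exact sum_congr rfl fun i hi => by rw [Nm_const_mul, Nm_mul_ph s f (hu i hi)]
  · refine Nm_le_of_norm_le s (hf.mul_right _) hε fun x => ?_
    by_cases hx : x ∈ S
    · rw [norm_mul]
      exact (mul_le_of_le_one_left (norm_nonneg _) (hb x)).trans (hψ x hx)
    · simpa [hf x hx] using hε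

/-- **von Neumann inequality for cubes** (no conjugations needed) -/
theorem cube_le_prod (s : ℕ) {F : (Fin s → Bool) → G → ℂ} (hF : ∀ w, Supp (F w) S)
    (hT : S - S ⊆ T) :
    ‖∑ h ∈ Fintype.piFinset fun _ : Fin s => T, ∑ x ∈ S, ∏ w, F w (vtx x h w)‖ ≤
      ∏ w, Nm s (F w) := by
  have h1 : ∀ w, Supp (fun x => cj w (F w x)) S := fun w x hx => by
    simp only [hF w x hx, cj_zero]
  have h2 := norm_gip_le s h1
  rw [gip_eq_sum s h1 hT] at h2
  simpa only [cj_cj, Nm, U_cj] using h2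

/-- **dual function inequality** -/
theorem cube_le (s : ℕ) {F : (Fin s → Bool) → G → ℂ} (hF : ∀ w, Supp (F w) S) (hT : S - S ⊆ T)
    (w₀ : Fin s → Bool) (hb : ∀ w, w ≠ w₀ → ∀ x, ‖F w x‖ ≤ 1) :
    ‖∑ h ∈ Fintype.piFinset fun _ : Fin s => T, ∑ x ∈ S, ∏ w, F w (vtx x h w)‖ ≤
      Nm s (F w₀) * cubeN s S ^ (2 ^ s - 1) := by
  refine (cube_le_prod s hF hT).trans ?_
  rw [← mul_prod_erase _ _ (mem_univ w₀)]
  refine mul_le_mul_of_nonneg_left ?_ (Nm_nonneg _ _)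
  rw [← card_cube, ← card_univ, ← card_erase_of_mem (mem_univ w₀), ← prod_const]
  exact prod_le_prod (fun _ _ => Nm_nonneg _ _) fun w hw =>
    Nm_le_cubeN s (hF w) (hb w (ne_of_mem_erase hw))

/-! ### monotonicity -/

lemma U_mono (s : ℕ) (hf : Supp f S) :
    ((S.card : ℝ) * U (s + 1) f) ^ 2 ≤
      U (s + 2) f * (((S - S).card : ℝ) * ((S - S - (S - S)).card : ℝ) ^ (s + 2)) := by
  rcases S.eq_empty_or_nonempty with rfl | ⟨a, ha⟩
  · simp
  let b : G → ℂ := fun x => if x ∈ S - S then 1 else 0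
  have hb : Supp b (S - S) := fun x hx => if_neg hx
  have hf' : Supp (fun x => f (x + a)) (S - S) := fun x hx => hf _ fun h1 =>
    hx (mem_sub.2 ⟨_, h1, _, ha, add_sub_cancel_right x a⟩)
  have h1 := sum_U_D2 s hf' hb
  rw [U_shift] at h1
  refine le_trans (pow_le_pow_left₀ (mul_nonneg (by positivity) (U_nonneg _ _)) ?_ 2)
    (h1.trans (mul_le_mul_of_nonneg_left (U_le _ hb fun x => ?_) (U_nonneg _ _)))
  · have h2 : S.image (· - a) ⊆ S - S - (S - S) := by
      intro h hh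
      obtain ⟨y, hy, rfl⟩ := mem_image.1 hh
      exact mem_sub.2 ⟨_, sub_mem_sub hy ha, _, sub_mem_sub ha ha, by simp⟩
    refine le_trans (le_of_eq ?_) (sum_le_sum_of_subset_of_nonneg h2 fun _ _ _ => U_nonneg _ _)
    rw [sum_image fun x _ y _ h => sub_left_injective h, ← nsmul_eq_mul, ← sum_const]
    refine sum_congr rfl fun y hy => ?_
    rw [← U_shift y]
    congr 1
    funext x
    simp only [D2, b, add_assoc, sub_add_cancel]
    split_ifs with h3
    · simp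
    · rw [hf _ fun h4 => h3 (mem_sub.2 ⟨_, h4, _, hy, add_sub_cancel_right x y⟩), zero_mul]
  · simp only [b]
    split_ifs <;> simp

/-- `‖f‖_{U^s} ≥ δ / K ^ 2` in a form that is monotone in `s` -/
def Big (K δ : ℝ) (S : Finset G) (s : ℕ) (f : G → ℂ) : Prop :=
  δ ^ 2 ^ s * K ^ (s + 3) * (S.card : ℝ) ^ (s + 1) ≤ K ^ 2 ^ (s + 1) * U s f

lemma card_sub_le_of (S : Finset G) : (S - S).card ≤ (S - S - (S - S)).card := by
  rcases S.eq_empty_or_nonempty with rfl | h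
  · simp
  · exact card_le_card_sub_right (h.sub h)

lemma Big.succ {K δ : ℝ} (hδ : 0 ≤ δ) (hK : 0 < K) (hS : ((S - S - (S - S)).card : ℝ) ≤ K * S.card)
    (hf : Supp f S) {s : ℕ} (h : Big K δ S (s + 1) f) : Big K δ S (s + 2) f := by
  rcases S.eq_empty_or_nonempty with rfl | hne
  · simpa [Big] using mul_nonneg (by positivity) (U_nonneg _ _)
  have hc : (0 : ℝ) < S.card := by exact_mod_cast hne.card_pos
  have h1 : ((S - S).card : ℝ) ≤ K * S.card := le_trans (by exact_mod_cast card_sub_le_of S) hS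
  have h2 : ((S.card : ℝ) * U (s + 1) f) ^ 2 ≤ U (s + 2) f * (K * S.card) ^ (s + 3) := by
    refine (U_mono s hf).trans (mul_le_mul_of_nonneg_left ?_ (U_nonneg _ _))
    rw [pow_succ' _ (s + 2)]
    gcongr
  have h3 := pow_le_pow_left₀ (by positivity) (mul_le_mul_of_nonneg_right h hc.le) 2
  rw [mul_assoc (K ^ _), mul_comm (U _ _), mul_pow (K ^ _)] at h3
  have h4 := h3.trans (mul_le_mul_of_nonneg_left h2 (by positivity))
  refine le_of_mul_le_mul_right (le_trans (le_of_eq ?_) (h4.trans (le_of_eq ?_)))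
    (pow_pos (mul_pos hK hc) (s + 3))
  · rw [pow_succ 2 (s + 1), pow_mul]
    ring
  · rw [pow_succ 2 (s + 1 + 1), pow_mul]
    ring

lemma Big.mono {K δ : ℝ} (hδ : 0 ≤ δ) (hK : 0 < K) (hS : ((S - S - (S - S)).card : ℝ) ≤ K * S.card)
    (hf : Supp f S) {s t : ℕ} (h : Big K δ S (s + 1) f) (hst : s ≤ t) : Big K δ S (t + 1) f := by
  induction hst with
  | refl => exact h
  | step _ ih => exact ih.succ hδ hK hS hf

lemma Big.le {K δ : ℝ} (hδ : 0 ≤ δ) (hK : 1 ≤ K) {s : ℕ} (h : Big K δ S s f) :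
    (δ / K ^ 2) ^ 2 ^ s * (S.card : ℝ) ^ (s + 1) ≤ U s f := by
  have hK0 : 0 < K := zero_lt_one.trans_le hK
  rw [div_pow, div_mul_eq_mul_div, div_le_iff₀ (by positivity), ← pow_mul, ← pow_succ', mul_comm (U _ _)]
  refine le_trans ?_ h
  rw [mul_right_comm]
  exact le_mul_of_one_le_right (by positivity) (one_le_pow₀ hK)

lemma big_of_le {K δ : ℝ} (hK : 1 ≤ K) {s : ℕ}
    (h : δ ^ 2 ^ (s + 1) * (S.card : ℝ) ^ (s + 2) ≤ U (s + 1) f) : Big K δ S (s + 1) f := by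
  have h1 : s + 1 + 3 ≤ 2 ^ (s + 1 + 1) := by
    have := Nat.lt_two_pow_self (n := s)
    rw [pow_succ, pow_succ]
    omega
  rw [Big, mul_right_comm, mul_comm]
  exact mul_le_mul (pow_le_pow_right₀ hK h1) h (by
    rw [pow_succ, pow_mul]
    positivity) (by positivity)

/-- **monotonicity** of the normalised norms -/
theorem U_ge_of_le {K δ : ℝ} (hδ : 0 ≤ δ) (hK : 1 ≤ K)
    (hS : ((S - S - (S - S)).card : ℝ) ≤ K * S.card) (hf : Supp f S) {s t : ℕ} (hst : s ≤ t)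
    (h : δ ^ 2 ^ (s + 1) * (S.card : ℝ) ^ (s + 2) ≤ U (s + 1) f) :
    (δ / K ^ 2) ^ 2 ^ (t + 1) * (S.card : ℝ) ^ (t + 2) ≤ U (t + 1) f :=
  ((big_of_le hK h).mono hδ (zero_lt_one.trans_le hK) hS hf hst).le hδ hK

/-- correlation with a polynomial phase of degree `≤ s` gives a large `U ^ (s + 1)` norm -/
theorem U_ge_of_corr {K δ : ℝ} (hδ : 0 ≤ δ) (hK : 1 ≤ K)
    (hS : ((S - S - (S - S)).card : ℝ) ≤ K * S.card) (hf : Supp f S) {s : ℕ} {u : G → ℂ}
    (hu : IsPh (s + 1) u) (h : δ * S.card ≤ ‖∑ x ∈ S, f x * u x‖) :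
    (δ / K ^ 2) ^ 2 ^ (s + 1) * (S.card : ℝ) ^ (s + 2) ≤ U (s + 1) f := by
  rw [← U_mul_ph (s + 1) f hu]
  refine U_ge_of_le hδ hK hS (hf.mul_right u) (Nat.zero_le s) ?_
  rw [U_one (hf.mul_right u)]
  exact le_trans (le_of_eq (by ring)) (pow_le_pow_left₀ (by positivity) h 2)

/-! ### popularity -/

lemma popular {ι : Type*} (I : Finset ι) {a : ι → ℝ} {A M θ : ℝ} (hθ : 0 ≤ θ)
    (hM : ∀ i ∈ I, a i ≤ M) (hA : A ≤ ∑ i ∈ I, a i) :
    A - θ * I.card ≤ M * (I.filter fun i => θ ≤ a i).card := by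
  rw [← sum_filter_add_sum_filter_not I fun i => θ ≤ a i] at hA
  have h1 := sum_le_card_nsmul (I.filter fun i => θ ≤ a i) a M fun i hi => hM i (mem_filter.1 hi).1
  have h2 := sum_le_card_nsmul (I.filter fun i => ¬ θ ≤ a i) a θ
    fun i hi => (not_le.1 (mem_filter.1 hi).2).le
  have h3 : ((I.filter fun i => ¬ θ ≤ a i).card : ℝ) ≤ I.card := by exact_mod_cast card_filter_le _ _
  rw [nsmul_eq_mul] at h1 h2
  nlinarith

/-- many derivatives have a large norm -/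
theorem popular_D {K δ : ℝ} (hδ : 0 ≤ δ) (hK : 0 < K) (hS : ((S - S).card : ℝ) ≤ K * S.card)
    (hf : Supp f S) (hb : ∀ x, ‖f x‖ ≤ 1) {s : ℕ} (h : δ * (S.card : ℝ) ^ (s + 2) ≤ U (s + 1) f) :
    δ / (2 * K ^ s) * S.card ≤ (((S - S).filter fun k =>
      δ / (2 * K) * (S.card : ℝ) ^ (s + 1) ≤ U s (D k f)).card : ℝ) := by
  rcases S.eq_empty_or_nonempty with rfl | hne
  · simp
  have hc : (0 : ℝ) < S.card := by exact_mod_cast hne.card_pos
  have h1 := popular (S - S) (M := (S.card : ℝ) * (K * S.card) ^ s)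
    (θ := δ / (2 * K) * (S.card : ℝ) ^ (s + 1)) (by positivity)
    (fun k _ => (U_le s (hf.D k) (norm_D_le hb k)).trans (by gcongr))
    (h.trans (U_succ_le hf Subset.rfl s))
  have h2 : δ / (2 * K) * (S.card : ℝ) ^ (s + 1) * (S - S).card ≤ δ / 2 * (S.card : ℝ) ^ (s + 2) := by
    refine (mul_le_mul_of_nonneg_left hS (by positivity)).trans (le_of_eq ?_)
    field_simp
    ring
  refine le_of_mul_le_mul_left (le_trans (le_of_eq ?_) (le_trans (by linarith :
    δ / 2 * (S.card : ℝ) ^ (s + 2) ≤ _) h1)) (by positivity : 0 < (S.card : ℝ) * (K * S.card) ^ s)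
  field_simp
  ring

end Crest.Agent.T49.Gow
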