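import Crest.Agent.T49.NilCls_67
import Crest.Agent.T49.GiDef_40
import Crest.Agent.T49.GiD_58
import Crest.Agent.T49.GowB_67

/-! Row 49 (helper58): the window system of `[0,1]`-valued nilsequences, and the inverse theorem
in the form used by block (C). -/

set_option autoImplicit false

noncomputable section

namespace Crest.Agent.T49.Nil
open Finset ND Crest.Agent.T49.Rat Crest.Agent.T49.Gow
open scoped ComplexConjugate

theorem IsNil.const_of_zero {σ : Type} {m : ℝ} {f : (σ → ℤ) → ℂ} (h : IsNil 0 m f) :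
    ∃ c, ∀ n, f n = c := by
  obtain ⟨ι, _, N, F, P, -, hN, -, -, hf⟩ := h
  refine ⟨F 0, fun n => ?_⟩
  rw [hf]
  congr 1
  ext k
  have h1 := hN.wt_le k
  have h2 := N.wt_pos k
  omega

/-- the windows: `[0,1]`-valued nilsequences -/
def nilWin (σ : Type) : WinSys (σ → ℤ) where
  W j m := {κ | In01 κ ∧ IsNil j m fun n => (κ n : ℂ)}
  bdd h := h.1
  mono hj _ hm _ h := ⟨h.1, (h.2.mono hm).mono_deg hj⟩
  one hm := ⟨fun _ => ⟨zero_le_one, le_rfl⟩,
    (isNil_const (c := 1) (by linarith) (by simp)).congr fun _ => by simp⟩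
  const h := by
    obtain ⟨c, hc⟩ := h.2.const_of_zero
    exact ⟨c.re, fun v => by rw [← hc v, Complex.ofReal_re]⟩
  shift a h := ⟨fun _ => h.1 _, h.2.shift a⟩
  mul _ := ⟨3, fun {m κ κ'} hm h h' => ⟨fun v => ⟨mul_nonneg (h.1 v).1 (h'.1 v).1,
    mul_le_one₀ (h.1 v).2 (h'.1 v).1 (h'.1 v).2⟩,
    ((h.2.mul' h'.2 (by linarith)).mono (by
      have : m ^ 3 = m * m * m := by ring
      rw [this]; nlinarith [mul_le_mul hm hm (by norm_num) (by linarith : (0 : ℝ) ≤ m)])).congr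
      fun n => by push_cast; rfl⟩⟩

theorem mem_nilWin {σ : Type} {j : ℕ} {m : ℝ} {κ : (σ → ℤ) → ℝ} :
    κ ∈ (nilWin σ).W j m ↔ In01 κ ∧ IsNil j m fun n => (κ n : ℂ) := Iff.rfl

/-- projection of `ℂ` to `[0,1]` -/
def clamp (z : ℂ) : ℝ := max 0 (min 1 z.re)

theorem clamp_mem (z : ℂ) : 0 ≤ clamp z ∧ clamp z ≤ 1 :=
  ⟨le_max_left _ _, max_le zero_le_one (min_le_left _ _)⟩

theorem clamp_ofReal {x : ℝ} (h : 0 ≤ x ∧ x ≤ 1) : clamp x = x := by
  rw [clamp, Complex.ofReal_re, min_eq_right h.2, max_eq_right h.1]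

theorem clamp_lip (z w : ℂ) : |clamp z - clamp w| ≤ ‖z - w‖ := by
  rw [clamp, clamp, max_comm 0, max_comm 0]
  refine (abs_max_sub_max_le_abs _ _ _).trans ((abs_min_sub_min_le_max _ _ _ _).trans ?_)
  rw [sub_self, abs_zero, ← Complex.sub_re]
  exact max_le (norm_nonneg _) (Complex.abs_re_le_norm _)

theorem ND.LipFn.clamp {ι : Type} [Fintype ι] {N : ND ι} {S : ℕ} {M : ℝ} {F : N.L → ℂ}
    (h : N.LipFn S M F) : N.LipFn S M fun x => (clamp (F x) : ℂ) := by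
  have := h.post (fun z => (Nil.clamp z : ℂ)) zero_le_one
    (fun z _ => by
      rw [Complex.norm_real, Real.norm_of_nonneg (clamp_mem z).1]; exact (clamp_mem z).2)
    (fun z w _ _ => by
      rw [← Complex.ofReal_sub, Complex.norm_real, one_mul]; exact clamp_lip z w)
  rwa [one_mul] at this

/-- a window is given by a function with values in `[0,1]` on the whole group -/
theorem nilWin_rep {σ : Type} {j : ℕ} {m : ℝ} {κ : (σ → ℤ) → ℝ} (h : κ ∈ (nilWin σ).W j m) :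
    ∃ (d : ℕ) (N : ND (Fin d)) (F : N.L → ℝ) (P : N.PS σ), (d : ℝ) ≤ m ∧
      N.Good j (Real.exp m) ∧ In01 F ∧ N.LipFn j (Real.exp m) (fun x => (F x : ℂ)) ∧
      P ∈ N.poly σ ∧ ∀ n, κ n = F (N.evZ n P) := by
  obtain ⟨d, N, F, P, hd, hN, hF, hP, hf⟩ := h.2.exists_fin
  exact ⟨d, N, fun x => clamp (F x), P, hd, hN, fun x => clamp_mem _, hF.clamp, hP, fun n => by
    beta_reduce
    rw [← hf]
    exact (clamp_ofReal (h.1 n)).symm⟩

theorem mem_nilWin_of {σ ι : Type} [Fintype ι] {j : ℕ} {m : ℝ} {N : ND ι} {F : N.L → ℝ}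
    (hd : (Fintype.card ι : ℝ) ≤ m) (hN : N.Good j (Real.exp m)) (h01 : In01 F)
    (hF : N.LipFn j (Real.exp m) fun x => (F x : ℂ)) {P : N.PS σ} (hP : P ∈ N.poly σ) :
    (fun n => F (N.evZ n P)) ∈ (nilWin σ).W j m :=
  ⟨fun _ => h01 _, hF.isNil hd hN hP⟩

/-- windows are stable under affine integer substitutions -/
theorem nilWin_comp {σ τ : Type} [Fintype τ] {j : ℕ} {m : ℝ} {κ : (σ → ℤ) → ℝ}
    (h : κ ∈ (nilWin σ).W j m) (φ : (τ → ℤ) →+ (σ → ℤ)) (a : σ → ℤ) :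
    (fun n => κ (φ n + a)) ∈ (nilWin τ).W j m := ⟨fun _ => h.1 _, h.2.comp_hom φ a⟩

/-- the class of nilsequences -/
abbrev nilCls (σ : Type) : Ginc.Cls σ := fun s m f => IsNil s m f

theorem gi_unit {s : ℕ} (h : GI.GI1 s) : Ginc.GI (nilCls Unit) s := by
  obtain ⟨C, -, hC⟩ := h
  refine ⟨C, fun m N φ hm hN hφ hφ1 hU => ?_⟩
  let π : ℤ →+ (Unit → ℤ) := ⟨⟨fun n _ => n, rfl⟩, fun _ _ => rfl⟩
  have hπ : Function.Injective π := fun a b hab => congrFun hab ()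
  have hcard : (#(box Unit N) : ℝ) = ((2 * N + 1 : ℕ) : ℝ) := by
    rw [card_box, Fintype.card_unit, pow_one]
  have hmem : ∀ n : ℤ, π n + (fun _ => -(N : ℤ)) ∈ box Unit N ↔
      n ∈ Ico (0 : ℤ) ((2 * N + 1 : ℕ) : ℤ) := fun n => by
    rw [mem_box, mem_Ico]
    change (∀ _ : Unit, |n + -(N : ℤ)| ≤ N) ↔ _
    rw [forall_const, abs_le]; push_cast; omega
  obtain ⟨ψ, hψ, hcor⟩ := hC m (2 * N + 1) (fun n => φ (π n + fun _ => -(N : ℤ))) hm
    (hN.trans (by push_cast; linarith [Nat.cast_nonneg (α := ℝ) N]))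
    (fun n hn => hφ _ fun hb => hn ((hmem n).1 hb)) (fun _ => hφ1 _) (by
      rw [GI.BigU, U_comp_inj hπ (fun _ => -(N : ℤ)) (s + 1) (f := φ) fun y hy =>
        absurd ⟨y () + N, funext fun _ => by simp [π]⟩ hy, ← hcard]
      exact hU)
  refine ⟨fun y => conj (ψ (y () + N)), (hψ.shift N).conj, ?_⟩
  rw [GI.Cor, ← hcard] at hcor
  refine hcor.trans (le_of_eq ?_)
  congr 1
  refine sum_nbij' (fun n => π n + fun _ => -(N : ℤ)) (fun y => y () + N)
    (fun n hn => (hmem n).2 hn) (fun y hy => (hmem _).1 ?_) (fun n _ => ?_) (fun y _ => ?_)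
    fun n _ => ?_
  · convert hy using 1
    funext _; simp [π]
  · simp [π]
  · funext _; simp [π]
  · simp [π]

/-- the inverse theorem on boxes of `ℤ^σ` -/
theorem gi_box {σ : Type} [Fintype σ] [DecidableEq σ] [Nonempty σ] {s : ℕ} (h : GI.GI1 s) :
    Ginc.GI (nilCls σ) s :=
  Ginc.gi_of_one basic_isNil (fun _ _ a hψ => hψ.comp_hom' (Ginc.lform a)) (gi_unit h)

end Crest.Agent.T49.Nil
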