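import Crest.Agent.T49.GauC_64

/-!
# Row 49 (helper64): Gaussian lattice library, part D
(change of basis, diagonal lattices, products, fibres, quotients, slicing)
-/

set_option autoImplicit false
set_option linter.unusedSectionVars false

noncomputable section

namespace Crest.Agent.T49.Gau

open MeasureTheory Real Complex
open scoped InnerProductSpace
open Crest.Agent.T49.Lat (cast cast_apply)

variable {ι κ : Type*} [Fintype ι] [Fintype κ]
variable {E : Type*} [NormedAddCommGroup E] [InnerProductSpace ℝ E]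

/-! ### isometries and change of basis -/

section Iso

variable {F : Type*} [NormedAddCommGroup F] [InnerProductSpace ℝ F]

theorem rho_congr {v : E} {w : F} (h : ‖v‖ = ‖w‖) : rho v = rho w := by
  unfold rho; rw [h]

theorem kap_congr {A : (ι → ℝ) →ₗ[ℝ] E} {A' : (ι → ℝ) →ₗ[ℝ] F} (h : ∀ v, ‖A v‖ = ‖A' v‖) :
    kap A = kap A' := by
  unfold kap; congr 1; funext v; exact rho_congr (h v)

theorem th_zero_congr {A : (ι → ℝ) →ₗ[ℝ] E} {A' : (ι → ℝ) →ₗ[ℝ] F} (h : ∀ v, ‖A v‖ = ‖A' v‖) :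
    th A 0 = th A' 0 := tsum_congr fun x => rho_congr (by simpa using h (cast x))

theorem rat_congr {A : (ι → ℝ) →ₗ[ℝ] E} {A' : (ι → ℝ) →ₗ[ℝ] F} (h : ∀ v, ‖A v‖ = ‖A' v‖) :
    rat A = rat A' := by
  unfold rat; rw [kap_congr h, th_zero_congr h]

end Iso

/-- duality under a change of basis -/
theorem IsDual.comp {A B : (ι → ℝ) →ₗ[ℝ] E} (h : IsDual A B) {T S : (κ → ℝ) →ₗ[ℝ] (ι → ℝ)}
    (hT : Function.Surjective T) (hS : Function.Surjective S)
    (hp : ∀ t v, S t ⬝ᵥ T v = t ⬝ᵥ v) : IsDual (A.comp T) (B.comp S) := by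
  refine ⟨?_, fun t v => ?_⟩
  · rw [LinearMap.range_comp_of_range_eq_top _ (LinearMap.range_eq_top.2 hT),
      LinearMap.range_comp_of_range_eq_top _ (LinearMap.range_eq_top.2 hS), h.range_eq]
  · rw [LinearMap.comp_apply, LinearMap.comp_apply, h.pair, hp]

theorem mlin_mul {μ : Type*} [Fintype μ] (T : Matrix ι κ ℤ) (S : Matrix κ μ ℤ) (v : μ → ℝ) :
    mlin T (mlin S v) = mlin (T * S) v := by
  simp only [mlin, Matrix.mulVecLin_apply, Matrix.mulVec_mulVec]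
  congr 1
  exact (Matrix.map_mul (f := Int.castRingHom ℝ)).symm

theorem mlin_one [DecidableEq ι] (v : ι → ℝ) : mlin (1 : Matrix ι ι ℤ) v = v := by
  simp [mlin, Matrix.map_one]

theorem mlin_dot (T : Matrix ι κ ℤ) (t : ι → ℝ) (v : κ → ℝ) :
    t ⬝ᵥ mlin T v = mlin T.transpose t ⬝ᵥ v := by
  simp only [mlin, Matrix.mulVecLin_apply]
  rw [Matrix.dotProduct_mulVec, Matrix.transpose_map, Matrix.mulVec_transpose]

theorem IsDual.comp_mlin [DecidableEq ι] [DecidableEq κ] {A B : (ι → ℝ) →ₗ[ℝ] E} (h : IsDual A B)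
    {T : Matrix ι κ ℤ} {S : Matrix κ ι ℤ} (h1 : T * S = 1) (h2 : S * T = 1) :
    IsDual (A.comp (mlin T)) (B.comp (mlin S.transpose)) := by
  refine h.comp (fun v => ⟨mlin S v, by rw [mlin_mul, h1, mlin_one]⟩)
    (fun v => ⟨mlin T.transpose v, ?_⟩) fun t v => ?_
  · rw [mlin_mul, ← Matrix.transpose_mul, h1, Matrix.transpose_one, mlin_one]
  · rw [dotProduct_comm, mlin_dot, Matrix.transpose_transpose, mlin_mul, h2, mlin_one,
      dotProduct_comm]

theorem mulVec_bij [DecidableEq ι] [DecidableEq κ] {T : Matrix ι κ ℤ} {S : Matrix κ ι ℤ}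
    (h1 : T * S = 1) (h2 : S * T = 1) : Function.Bijective T.mulVec :=
  Function.bijective_iff_has_inverse.2 ⟨S.mulVec,
    fun x => by rw [Matrix.mulVec_mulVec, h2, Matrix.one_mulVec],
    fun x => by rw [Matrix.mulVec_mulVec, h1, Matrix.one_mulVec]⟩

theorem rat_comp_unimod [DecidableEq ι] [DecidableEq κ] {A : (ι → ℝ) →ₗ[ℝ] E}
    (hA : Function.Injective A) {T : Matrix ι κ ℤ} {S : Matrix κ ι ℤ} (h1 : T * S = 1)
    (h2 : S * T = 1) : rat (A.comp (mlin T)) = rat A := by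
  obtain ⟨B, h⟩ := exists_dual hA
  rw [(h.comp_mlin h1 h2).rat_eq, h.rat_eq]
  refine th_comp_unimod B (mulVec_bij (S := T.transpose) ?_ ?_) 0
  · rw [← Matrix.transpose_mul, h1, Matrix.transpose_one]
  · rw [← Matrix.transpose_mul, h2, Matrix.transpose_one]

theorem kap_comp_unimod [DecidableEq ι] [DecidableEq κ] {A : (ι → ℝ) →ₗ[ℝ] E}
    (hA : Function.Injective A) {T : Matrix ι κ ℤ} {S : Matrix κ ι ℤ} (h1 : T * S = 1)
    (h2 : S * T = 1) : kap (A.comp (mlin T)) = kap A := by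
  obtain ⟨B, h⟩ := exists_dual hA
  have hi := (h.comp_mlin h1 h2).inj
  have e1 := th_zero_eq_rat hi
  rw [th_comp_unimod A (mulVec_bij h1 h2), rat_comp_unimod hA h1 h2, th_zero_eq_rat hA] at e1
  exact (mul_right_cancel₀ (by linarith [one_le_rat hA]) e1).symm

/-! ### diagonal lattices -/

/-- the diagonal lattice with widths `1 / a i` -/
def diag (a : ι → ℝ) : (ι → ℝ) →ₗ[ℝ] EuclideanSpace ℝ ι where
  toFun v := WithLp.toLp 2 fun i => a i * v i
  map_add' v w := by ext i; simp [mul_add]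
  map_smul' s v := by ext i; simp [mul_left_comm]

@[simp] theorem diag_apply (a v : ι → ℝ) (i : ι) : diag a v i = a i * v i := rfl

theorem norm_diag_sq (a v : ι → ℝ) : ‖diag a v‖ ^ 2 = ∑ i, (a i * v i) ^ 2 := by
  rw [EuclideanSpace.norm_sq_eq]
  simp [mul_pow]

theorem diag_surj {a : ι → ℝ} (ha : ∀ i, a i ≠ 0) : Function.Surjective (diag a) := fun w =>
  ⟨fun i => (a i)⁻¹ * w i, by ext i; rw [diag_apply, mul_inv_cancel_left₀ (ha i)]⟩

theorem isDual_diag {a : ι → ℝ} (ha : ∀ i, a i ≠ 0) : IsDual (diag a) (diag fun i => (a i)⁻¹) := by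
  refine ⟨?_, fun t v => ?_⟩
  · rw [LinearMap.range_eq_top.2 (diag_surj ha),
      LinearMap.range_eq_top.2 (diag_surj fun i => inv_ne_zero (ha i))]
  · rw [PiLp.inner_apply]
    refine Finset.sum_congr rfl fun i _ => ?_
    simp only [diag_apply, RCLike.inner_apply, conj_trivial]
    field_simp [ha i]

theorem diag_inj {a : ι → ℝ} (ha : ∀ i, a i ≠ 0) : Function.Injective (diag a) :=
  (isDual_diag ha).inj

theorem kap_diag {a : ι → ℝ} (ha : ∀ i, a i ≠ 0) : kap (diag a) = ∏ i, |a i|⁻¹ := by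
  classical
  have h1 : kap (diag fun _ : ι => (1 : ℝ)) = 1 := by
    have h := isDual_diag (a := fun _ : ι => (1 : ℝ)) fun _ => one_ne_zero
    have h2 := h.kap_mul
    have h3 := kap_pos h.inj
    simp only [inv_one] at h2
    nlinarith
  have h2 : diag a = (diag fun _ : ι => (1 : ℝ)).comp (Matrix.toLin' (Matrix.diagonal a)) := by
    refine LinearMap.ext fun v => ?_
    ext i
    simp [Matrix.mulVec_diagonal]
  have h3 : LinearMap.det (Matrix.toLin' (Matrix.diagonal a)) = ∏ i, a i := by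
    rw [LinearMap.det_toLin', Matrix.det_diagonal]
  rw [h2, kap_comp _ (by rw [h3]; exact Finset.prod_ne_zero_iff.2 fun i _ => ha i), h1, h3,
    mul_one, abs_inv, Finset.abs_prod, Finset.prod_inv_distrib]

/-! ### products, fibres and quotients -/

/-- the lattice generated by two lattices -/
def cop (A₁ : (ι → ℝ) →ₗ[ℝ] E) (A₂ : (κ → ℝ) →ₗ[ℝ] E) : (ι ⊕ κ → ℝ) →ₗ[ℝ] E :=
  A₁.comp (LinearMap.funLeft ℝ ℝ Sum.inl) + A₂.comp (LinearMap.funLeft ℝ ℝ Sum.inr)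

theorem cop_apply (A₁ : (ι → ℝ) →ₗ[ℝ] E) (A₂ : (κ → ℝ) →ₗ[ℝ] E) (v : ι ⊕ κ → ℝ) :
    cop A₁ A₂ v = A₁ (v ∘ Sum.inl) + A₂ (v ∘ Sum.inr) := rfl

theorem cop_elim (A₁ : (ι → ℝ) →ₗ[ℝ] E) (A₂ : (κ → ℝ) →ₗ[ℝ] E) (v : ι → ℝ) (w : κ → ℝ) :
    cop A₁ A₂ (Sum.elim v w) = A₁ v + A₂ w := rfl

/-- restriction to the first block -/
def inl (A : (ι ⊕ κ → ℝ) →ₗ[ℝ] E) : (ι → ℝ) →ₗ[ℝ] E where
  toFun v := A (Sum.elim v 0)
  map_add' v w := by rw [← map_add]; congr 1; funext i; cases i <;> simp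
  map_smul' s v := by rw [← map_smul]; congr 1; funext i; cases i <;> simp

/-- restriction to the second block -/
def inr (A : (ι ⊕ κ → ℝ) →ₗ[ℝ] E) : (κ → ℝ) →ₗ[ℝ] E where
  toFun v := A (Sum.elim 0 v)
  map_add' v w := by rw [← map_add]; congr 1; funext i; cases i <;> simp
  map_smul' s v := by rw [← map_smul]; congr 1; funext i; cases i <;> simp

theorem inl_apply (A : (ι ⊕ κ → ℝ) →ₗ[ℝ] E) (v : ι → ℝ) : inl A v = A (Sum.elim v 0) := rfl

theorem inr_apply (A : (ι ⊕ κ → ℝ) →ₗ[ℝ] E) (v : κ → ℝ) : inr A v = A (Sum.elim 0 v) := rfl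

theorem cop_inl_inr (A : (ι ⊕ κ → ℝ) →ₗ[ℝ] E) : cop (inl A) (inr A) = A := by
  refine LinearMap.ext fun v => ?_
  rw [cop_apply, inl_apply, inr_apply, ← map_add]
  congr 1; funext i; cases i <;> simp

theorem inl_cop (A₁ : (ι → ℝ) →ₗ[ℝ] E) (A₂ : (κ → ℝ) →ₗ[ℝ] E) : inl (cop A₁ A₂) = A₁ :=
  LinearMap.ext fun v => by rw [inl_apply, cop_elim, map_zero, add_zero]

theorem inr_cop (A₁ : (ι → ℝ) →ₗ[ℝ] E) (A₂ : (κ → ℝ) →ₗ[ℝ] E) : inr (cop A₁ A₂) = A₂ :=
  LinearMap.ext fun v => by rw [inr_apply, cop_elim, map_zero, zero_add]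

theorem inl_inj {A : (ι ⊕ κ → ℝ) →ₗ[ℝ] E} (hA : Function.Injective A) :
    Function.Injective (inl A) := fun _ _ h =>
  funext fun i => congrFun (hA h) (Sum.inl i)

theorem inr_inj {A : (ι ⊕ κ → ℝ) →ₗ[ℝ] E} (hA : Function.Injective A) :
    Function.Injective (inr A) := fun _ _ h =>
  funext fun i => congrFun (hA h) (Sum.inr i)

variable {A₁ : (ι → ℝ) →ₗ[ℝ] E} {A₂ : (κ → ℝ) →ₗ[ℝ] E}

theorem cop_inj_left (h : Function.Injective (cop A₁ A₂)) : Function.Injective A₁ :=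
  inl_cop A₁ A₂ ▸ inl_inj h

theorem cop_inj_right (h : Function.Injective (cop A₁ A₂)) : Function.Injective A₂ :=
  inr_cop A₁ A₂ ▸ inr_inj h

theorem cop_cast_elim (A₁ : (ι → ℝ) →ₗ[ℝ] E) (A₂ : (κ → ℝ) →ₗ[ℝ] E) (x : ι → ℤ) (y : κ → ℤ) :
    cop A₁ A₂ (cast (Sum.elim x y)) = A₁ (cast x) + A₂ (cast y) := rfl

/-- **Fubini** along the fibres -/
theorem tsum_cop (h : Function.Injective (cop A₁ A₂)) (c : E) {f : (ι ⊕ κ → ℤ) → ℂ} {M : ℝ}
    (hf : ∀ x, ‖f x‖ ≤ M) :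
    ∑' z : ι ⊕ κ → ℤ, (rho (cop A₁ A₂ (cast z) + c) : ℂ) * f z =
      ∑' y : κ → ℤ, ∑' x : ι → ℤ,
        (rho (A₁ (cast x) + (A₂ (cast y) + c)) : ℂ) * f (Sum.elim x y) := by
  let q : (κ → ℤ) × (ι → ℤ) ≃ (ι ⊕ κ → ℤ) :=
    (Equiv.prodComm _ _).trans (Equiv.sumArrowEquivProdArrow ι κ ℤ).symm
  have hs := (q.summable_iff.2 (summable_rho_mul h c hf))
  rw [← q.tsum_eq, show (fun p => (rho (cop A₁ A₂ (cast (q p)) + c) : ℂ) * f (q p)) =
    (fun z => (rho (cop A₁ A₂ (cast z) + c) : ℂ) * f z) ∘ q from rfl, hs.tsum_prod]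
  refine tsum_congr fun y => tsum_congr fun x => ?_
  rw [← add_assoc]; rfl

theorem summable_th_fibre (h : Function.Injective (cop A₁ A₂)) (c : E) :
    Summable fun y : κ → ℤ => th A₁ (A₂ (cast y) + c) := by
  let q : (κ → ℤ) × (ι → ℤ) ≃ (ι ⊕ κ → ℤ) :=
    (Equiv.prodComm _ _).trans (Equiv.sumArrowEquivProdArrow ι κ ℤ).symm
  have hs := (q.summable_iff.2 (summable_rho h c)).prod
  refine hs.congr fun y => tsum_congr fun x => ?_
  rw [← add_assoc]; rfl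

theorem th_cop (h : Function.Injective (cop A₁ A₂)) (c : E) :
    th (cop A₁ A₂) c = ∑' y : κ → ℤ, th A₁ (A₂ (cast y) + c) := by
  have h1 := tsum_cop h c (f := fun _ => 1) (M := 1) fun _ => by simp
  simp only [mul_one] at h1
  rw [← Complex.ofReal_inj, th, Complex.ofReal_tsum, Complex.ofReal_tsum, h1]
  exact tsum_congr fun y => by rw [th, Complex.ofReal_tsum]

/-- the quotient lattice: projection of `A₂` orthogonally to `A₁` -/
def quo (A₁ : (ι → ℝ) →ₗ[ℝ] E) (A₂ : (κ → ℝ) →ₗ[ℝ] E) : (κ → ℝ) →ₗ[ℝ] E :=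
  A₂ - ((LinearMap.range A₁).starProjection : E →ₗ[ℝ] E).comp A₂

theorem perp_quo (A₁ : (ι → ℝ) →ₗ[ℝ] E) (A₂ : (κ → ℝ) →ₗ[ℝ] E) (y : κ → ℝ) :
    Perp A₁ (quo A₁ A₂ y) := fun v => by
  rw [real_inner_comm]
  exact Submodule.starProjection_inner_eq_zero (A₂ y) _ (LinearMap.mem_range_self A₁ v)

theorem exists_quo (A₁ : (ι → ℝ) →ₗ[ℝ] E) (A₂ : (κ → ℝ) →ₗ[ℝ] E) (y : κ → ℝ) :
    ∃ u, A₂ y = A₁ u + quo A₁ A₂ y := by
  obtain ⟨u, hu⟩ := (LinearMap.range A₁).starProjection_apply_mem (A₂ y)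
  refine ⟨u, ?_⟩
  rw [hu]
  exact (add_sub_cancel _ _).symm

theorem norm_quo_le (A₁ : (ι → ℝ) →ₗ[ℝ] E) (A₂ : (κ → ℝ) →ₗ[ℝ] E) (u : ι → ℝ) (y : κ → ℝ) :
    ‖quo A₁ A₂ y‖ ≤ ‖A₁ u + A₂ y‖ := by
  obtain ⟨u', hu⟩ := exists_quo A₁ A₂ y
  conv_rhs => rw [hu, ← add_assoc, ← map_add]
  exact (perp_quo A₁ A₂ y).norm_le' _

theorem quo_inj (h : Function.Injective (cop A₁ A₂)) : Function.Injective (quo A₁ A₂) := by
  refine (injective_iff_map_eq_zero _).2 fun y hy => ?_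
  obtain ⟨u, hu⟩ := exists_quo A₁ A₂ y
  have h1 : cop A₁ A₂ (Sum.elim (-u) y) = cop A₁ A₂ 0 := by
    rw [cop_elim, map_zero, hu, hy, map_neg]; abel
  exact funext fun i => congrFun (h h1) (Sum.inr i)

/-- the dual of the quotient lattice is a sublattice of the dual lattice -/
theorem IsDual.quo {B : (ι ⊕ κ → ℝ) →ₗ[ℝ] E} (h : IsDual (cop A₁ A₂) B) :
    IsDual (quo A₁ A₂) (inr B) := by
  have h1 : ∀ t u, ⟪inr B t, A₁ u⟫_ℝ = 0 := fun t u => by
    have := h.pair (Sum.elim 0 t) (Sum.elim u 0)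
    rw [cop_elim, map_zero, add_zero] at this
    rw [inr_apply, this]; simp
  have h2 : ∀ t y, ⟪inr B t, Gau.quo A₁ A₂ y⟫_ℝ = t ⬝ᵥ y := fun t y => by
    obtain ⟨u, hu⟩ := exists_quo A₁ A₂ y
    have := h.pair (Sum.elim 0 t) (Sum.elim 0 y)
    rw [cop_elim, map_zero, zero_add, hu, inner_add_right, ← inr_apply, h1, zero_add] at this
    rw [this]; simp
  refine ⟨le_antisymm ?_ ?_, h2⟩
  · rintro _ ⟨t, rfl⟩
    obtain ⟨v, hv⟩ := h.mem (Sum.elim 0 t)
    obtain ⟨u, hu⟩ := exists_quo A₁ A₂ (v ∘ Sum.inr)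
    refine ⟨v ∘ Sum.inr, ?_⟩
    have h3 : inr B t = A₁ (v ∘ Sum.inl + u) + Gau.quo A₁ A₂ (v ∘ Sum.inr) := by
      rw [inr_apply, ← hv, cop_apply, map_add, add_assoc, ← hu]
    have h4 := h1 t (v ∘ Sum.inl + u)
    rw [h3, inner_add_left, real_inner_comm _ (Gau.quo A₁ A₂ _), perp_quo, add_zero,
      inner_self_eq_zero] at h4
    rw [h3, h4, zero_add]
  · rintro _ ⟨y, rfl⟩
    obtain ⟨u, hu⟩ := exists_quo A₁ A₂ y
    obtain ⟨t, ht⟩ := h.symm.mem (Sum.elim (-u) y)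
    have h3 : B t = Gau.quo A₁ A₂ y := by
      rw [ht, cop_elim, map_neg, neg_add_eq_iff_eq_add, ← hu]
    have h4 : t ∘ Sum.inl = 0 := by
      have h5 := h.pair t (Sum.elim (t ∘ Sum.inl) 0)
      rw [cop_elim, map_zero, add_zero, h3, real_inner_comm, perp_quo] at h5
      refine dotProduct_self_eq_zero.1 ?_
      rw [h5]
      simp [dotProduct, Fintype.sum_sum_type]
    refine ⟨t ∘ Sum.inr, ?_⟩
    rw [inr_apply, ← h3, ← h4]
    congr 1; funext i; cases i <;> rfl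

theorem kap_cop (h : Function.Injective (cop A₁ A₂)) :
    kap (cop A₁ A₂) = kap A₁ * kap (quo A₁ A₂) := by
  have hm := (volume_measurePreserving_sumPiEquivProdPi_symm fun _ : ι ⊕ κ => ℝ)
  have hi := integrable_rho h 0
  simp only [add_zero] at hi
  have h1 : Integrable (fun p => rho (cop A₁ A₂ ((MeasurableEquiv.sumPiEquivProdPi
      fun _ : ι ⊕ κ => ℝ).symm p))) (volume.prod volume) :=
    (hm.integrable_comp_emb (MeasurableEquiv.measurableEmbedding _)).2 hi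
  unfold kap
  rw [← hm.integral_comp (MeasurableEquiv.measurableEmbedding _), Measure.volume_eq_prod,
    integral_prod_symm _ h1, ← integral_const_mul]
  congr 1
  funext y
  obtain ⟨u, hu⟩ := exists_quo A₁ A₂ y
  have h2 : ∀ v : ι → ℝ, rho (cop A₁ A₂ ((MeasurableEquiv.sumPiEquivProdPi
      fun _ : ι ⊕ κ => ℝ).symm (v, y))) = rho (A₁ (v + u)) * rho (quo A₁ A₂ y) := fun v => by
    rw [← (perp_quo A₁ A₂ y).rho_add, map_add, add_assoc, ← hu]
    rfl
  simp only [h2]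
  rw [integral_mul_const, integral_add_right_eq_self (fun v => rho (A₁ v)) u]

theorem th_fibre_le (h : Function.Injective A₁) (y : κ → ℝ) :
    th A₁ (A₂ y) ≤ rho (quo A₁ A₂ y) * th A₁ 0 := by
  obtain ⟨u, hu⟩ := exists_quo A₁ A₂ y
  conv_lhs => rw [hu, (perp_quo A₁ A₂ y).th]
  exact mul_le_mul_of_nonneg_left (th_le_th_zero h _) (rho_pos _).le

theorem abs_th_fibre_sub_le (h : Function.Injective A₁) (y : κ → ℝ) :
    |th A₁ (A₂ y) - rho (quo A₁ A₂ y) * kap A₁| ≤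
      rho (quo A₁ A₂ y) * kap A₁ * (rat A₁ - 1) := by
  obtain ⟨u, hu⟩ := exists_quo A₁ A₂ y
  have := abs_th_perp_sub_le h (perp_quo A₁ A₂ y) u
  rwa [← hu] at this

theorem th_cop_le (h : Function.Injective (cop A₁ A₂)) :
    th (cop A₁ A₂) 0 ≤ th A₁ 0 * th (quo A₁ A₂) 0 := by
  rw [th_cop h, mul_comm, th, ← tsum_mul_right]
  refine Summable.tsum_le_tsum (fun y => ?_) (summable_th_fibre h 0)
    ((summable_rho (quo_inj h) 0).mul_right _)
  rw [add_zero, add_zero]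
  exact th_fibre_le (cop_inj_left h) _

theorem rat_cop_le (h : Function.Injective (cop A₁ A₂)) :
    rat (cop A₁ A₂) ≤ rat A₁ * rat (quo A₁ A₂) := by
  unfold rat
  rw [kap_cop h, div_mul_div_comm]
  exact div_le_div_of_nonneg_right (th_cop_le h)
    (mul_pos (kap_pos (cop_inj_left h)) (kap_pos (quo_inj h))).le

theorem th_inr_le {A : (ι ⊕ κ → ℝ) →ₗ[ℝ] E} (hA : Function.Injective A) (c : E) :
    th (inr A) c ≤ th A c := by
  refine Summable.tsum_le_tsum_of_inj (fun y => Sum.elim 0 y)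
    (fun _ _ h => funext fun i => congrFun h (Sum.inr i)) (fun _ _ => (rho_pos _).le)
    (fun y => le_of_eq ?_) (summable_rho (inr_inj hA) c) (summable_rho hA c)
  rw [inr_apply]
  congr 3; funext i; cases i <;> simp

theorem th_inl_le {A : (ι ⊕ κ → ℝ) →ₗ[ℝ] E} (hA : Function.Injective A) (c : E) :
    th (inl A) c ≤ th A c := by
  refine Summable.tsum_le_tsum_of_inj (fun y => Sum.elim y 0)
    (fun _ _ h => funext fun i => congrFun h (Sum.inl i)) (fun _ _ => (rho_pos _).le)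
    (fun y => le_of_eq ?_) (summable_rho (inl_inj hA) c) (summable_rho hA c)
  rw [inl_apply]
  congr 3; funext i; cases i <;> simp

/-- dropping a block of coordinates decreases the ratio -/
theorem rat_quo_le (h : Function.Injective (cop A₁ A₂)) : rat (quo A₁ A₂) ≤ rat (cop A₁ A₂) := by
  obtain ⟨B, hB⟩ := exists_dual h
  rw [hB.rat_eq, hB.quo.rat_eq]
  exact th_inr_le hB.inj' 0

/-- **slicing**: the ratio of a primitive sublattice -/
theorem rat_le_mul_kap (h : Function.Injective (cop A₁ A₂)) :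
    rat A₁ ≤ rat (cop A₁ A₂) * kap (quo A₁ A₂) := by
  have h1 := th_inl_le h 0
  rw [inl_cop] at h1
  have k1 := kap_pos (cop_inj_left h)
  have k2 := kap_pos (quo_inj h)
  unfold rat
  rw [kap_cop h, div_le_iff₀ k1]
  refine h1.trans (le_of_eq ?_)
  field_simp

theorem kap_mul_le_cop (h : Function.Injective (cop A₁ A₂)) :
    kap A₁ * kap A₂ ≤ kap (cop A₁ A₂) := by
  rw [kap_cop h]
  refine mul_le_mul_of_nonneg_left (kap_mono (quo_inj h) fun y => ?_)
    (kap_pos (cop_inj_left h)).le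
  simpa using norm_quo_le A₁ A₂ 0 y

/-- a crude Hadamard inequality -/
theorem prod_le_kap [DecidableEq ι] {A : (ι → ℝ) →ₗ[ℝ] E} (hA : Function.Injective A)
    {a : ι → ℝ} (ha : ∀ i, ‖A (Pi.single i 1)‖ ≤ a i) :
    ∏ i, (√(Fintype.card ι) * a i)⁻¹ ≤ kap A := by
  have hpos : ∀ i, 0 < √(Fintype.card ι : ℝ) * a i := fun i => by
    have : 0 < Fintype.card ι := Fintype.card_pos_iff.2 ⟨i⟩
    refine mul_pos (Real.sqrt_pos.2 (by exact_mod_cast this)) (lt_of_lt_of_le ?_ (ha i))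
    refine norm_pos_iff.2 fun h0 => ?_
    have := congrFun (hA (h0.trans (map_zero A).symm)) i
    simp at this
  have h1 := kap_diag (a := fun i => √(Fintype.card ι : ℝ) * a i) fun i => (hpos i).ne'
  simp only [fun i => abs_of_pos (hpos i)] at h1
  rw [← h1]
  refine kap_mono hA fun v => ?_
  refine (pow_le_pow_iff_left₀ (norm_nonneg _) (norm_nonneg _) two_ne_zero).1 ?_
  have h2 : ‖A v‖ ≤ ∑ i, |a i * v i| := by
    conv_lhs => rw [pi_eq_sum_univ' v, map_sum]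
    refine (norm_sum_le _ _).trans (Finset.sum_le_sum fun i _ => ?_)
    rw [map_smul, norm_smul, abs_mul, mul_comm, Real.norm_eq_abs]
    exact mul_le_mul_of_nonneg_right ((ha i).trans (le_abs_self _)) (abs_nonneg _)
  refine (pow_le_pow_left₀ (norm_nonneg _) h2 2).trans (sq_sum_le_card_mul_sum_sq.trans ?_)
  rw [norm_diag_sq, Finset.mul_sum]
  refine le_of_eq (Finset.sum_congr rfl fun i _ => ?_)
  rw [sq_abs, mul_assoc, mul_pow _ (a i * v i), Real.sq_sqrt (Nat.cast_nonneg _)]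
  rfl

/-- **slicing by dual vectors** `ξ_j = B (e_{inr j})` of norm at most `a j` -/
theorem IsDual.rat_slice_le [DecidableEq κ] {B : (ι ⊕ κ → ℝ) →ₗ[ℝ] E}
    (h : IsDual (cop A₁ A₂) B) {a : κ → ℝ} (ha : ∀ j, ‖inr B (Pi.single j 1)‖ ≤ a j) :
    rat A₁ ≤ rat (cop A₁ A₂) * ∏ j, (√(Fintype.card κ) * a j) := by
  refine (rat_le_mul_kap h.inj).trans
    (mul_le_mul_of_nonneg_left ?_ (zero_le_one.trans (one_le_rat h.inj)))
  have h1 := prod_le_kap h.quo.inj' ha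
  have h2 := h.quo.kap_mul
  have hpos : ∀ i, 0 < √(Fintype.card κ : ℝ) * a i := fun i => by
    have : 0 < Fintype.card κ := Fintype.card_pos_iff.2 ⟨i⟩
    refine mul_pos (Real.sqrt_pos.2 (by exact_mod_cast this)) (lt_of_lt_of_le ?_ (ha i))
    refine norm_pos_iff.2 fun h0 => ?_
    have := congrFun (h.quo.inj' (h0.trans (map_zero _).symm)) i
    simp at this
  have h3 : 0 < ∏ j, (√(Fintype.card κ : ℝ) * a j) := Finset.prod_pos fun j _ => hpos j
  rw [Finset.prod_inv_distrib, inv_le_iff_one_le_mul₀ h3] at h1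
  have h4 := kap_pos h.quo.inj
  calc kap (Gau.quo A₁ A₂) = kap (Gau.quo A₁ A₂) * 1 := (mul_one _).symm
    _ ≤ kap (Gau.quo A₁ A₂) * (kap (inr B) * ∏ j, (√(Fintype.card κ : ℝ) * a j)) :=
        mul_le_mul_of_nonneg_left h1 h4.le
    _ = _ := by rw [← mul_assoc, h2, one_mul]

end Crest.Agent.T49.Gau
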