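import Crest.Agent.T49.MxDef_53
import Crest.Agent.T49.TwPoly_91
import Crest.Agent.T49.TwTri_51

/-!
# Row 49 (helper2): regularisation of (mixed) cells, definitions and statements

Classes `≤ o` are *old* (only shifted, dilated, narrowed), the classes `> o` are
`cl c = o + lev c` and get regularised.  `o = 0`, `cl = lev` is the outer regularisation.
-/

set_option autoImplicit false

open MvPolynomial

noncomputable section

namespace Crest.Agent.T49.Rg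

open Tw

variable {ι ι' : Type}

/-- the map on integer points given by integer polynomials -/
def pt (φ : ι → Pl ι') (z : ι' → ℤ) : ι → ℤ := fun c => ⌊ev z (φ c)⌋

/-- weighted sum of a function on the points -/
def Sg [Fintype ι] (T : Tri ι) (g : (ι → ℤ) → ℝ) : ℝ := ∑' z, T.wgt z * g z

/-- `z_c = r_c + G_c z'_c` -/
def dl (G : ι → ℕ+) (r : ι → ℤ) (c : ι) : Pl ι := C (r c : ℝ) + C ((G c : ℕ) : ℝ) * X c

/-- zoom: `θ'_c (z') = exp (u_c) (θ_c (r + G z') - t_c)` -/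
def zm (T : Cell ι) (G : ι → ℕ+) (u : ι → ℝ) (r : ι → ℤ) (t : ι → ℝ) : Cell ι where
  rk := T.rk
  a c := T.a c * ((G c : ℕ) : ℝ) * Real.exp (u c)
  B c := C (Real.exp (u c)) * (bind₁ (dl G r) (T.B c) + C (T.a c * r c - t c))
  a_ne c := mul_ne_zero (mul_ne_zero (T.a_ne c) (Nat.cast_ne_zero.2 (G c).ne_zero))
    (Real.exp_ne_zero _)
  B_mem c := mul_mem (C_mem_supp _ _) (add_mem (bind_mem_supported (fun _ hc' =>
    add_mem (C_mem_supp _ _) (mul_mem (C_mem_supp _ _) (X_mem_supp hc'))) (T.B_mem c))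
    (C_mem_supp _ _))
  lev := T.lev
  lev_pos := T.lev_pos
  deg c := ((DegLe.bind (fun c' => (degLe_C _ _).add ((degLe_X c').C_mul _)) (T.deg c)).add
    (degLe_C _ _)).C_mul _

/-- plain dilation by `d` of the classes `≤ p` -/
def wG (_T : Cell ι) (cl : ι → ℕ) (p : ℕ) (d : ℕ+) (c : ι) : ℕ+ :=
  if cl c ≤ p then d else 1

/-- zoom of the classes `≤ p`: plain dilation by `d`, narrowing by `exp (-u)` -/
def zo (T : Cell ι) (cl : ι → ℕ) (p : ℕ) (d : ℕ+) (u : ℝ) (r : ι → ℤ) (t : ι → ℝ) : Cell ι :=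
  zm T (wG T cl p d) (fun c => if cl c ≤ p then u else 0) r t

/-- total complexity -/
def kt [Fintype ι] (T : Tri ι) : ℝ := ∑ c, Real.log (1 + |T.a c|)

/-- logarithm of the covolume of class `j` -/
def lm [Fintype ι] (T : Tri ι) (cl : ι → ℕ) (j : ℕ) : ℝ :=
  ∑ c ∈ Finset.univ.filter (fun c => cl c = j), Real.log |T.a c|

/-- squared distance of two points in the windows of class `j` -/
def Dj [Fintype ι] (T : Tri ι) (cl : ι → ℕ) (j : ℕ) (z z' : ι → ℤ) : ℝ :=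
  ∑ c ∈ Finset.univ.filter (fun c => cl c = j), (ev z (T.th c) - ev z' (T.th c)) ^ 2

/-- nondegeneracy of a map `x` on the points: points with the same image and the same old
coordinates have the same coordinates of class `o + 1` or are separated -/
def Sep [Fintype ι] (T : Tri ι) (cl : ι → ℕ) (o : ℕ) (x : (ι → ℤ) → ℤ) (Y : ℝ) : Prop :=
  ∀ z z', x z = x z' → (∀ c, cl c ≤ o → z c = z' c) →
    Dj T cl (o + 1) z z' = 0 ∨ Real.exp (-Y) ≤ Dj T cl (o + 1) z z'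

/-- `T'` is a piece of `T`: points `z = φ (z')`; the old coordinates are shifted, dilated by
`G` and narrowed by `exp (-u)`; `v` is the parent of a coordinate -/
structure Mor [Fintype ι] [Fintype ι'] (o : ℕ) (T : Cell ι) (cl : ι → ℕ) (T' : Cell ι')
    (cl' : ι' → ℕ) (φ : ι → Pl ι') (v : ι' → ι) (G : ℕ+) (u Y : ℝ) : Prop where
  int : ∀ c, IsInt (φ c)
  deg : ∀ c, DegLe T'.lev (φ c) (T.lev c)
  v_inj : Function.Injective v
  v_surj : ∀ c, cl c ≤ o → ∃ c', v c' = c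
  v_old : ∀ c', cl' c' ≤ o ↔ cl (v c') ≤ o
  old_cl : ∀ c', cl' c' ≤ o → cl' c' = cl (v c')
  old_lev : ∀ c', cl' c' ≤ o → T'.lev c' = T.lev (v c')
  old_φ : ∀ c', cl' c' ≤ o →
    ∃ r : ℤ, φ (v c') = C (r : ℝ) + C ((G : ℕ) : ℝ) * X c'
  old_th : ∀ c', cl' c' ≤ o →
    ∃ t : ℝ, T'.th c' = C (Real.exp u) * (bind₁ φ (T.th (v c')) - C t)
  old_a : ∀ c', cl' c' ≤ o → T'.a c' = T.a (v c') * ((G : ℕ) : ℝ) * Real.exp u
  u_nonneg : 0 ≤ u
  sep : ∀ x Y', Y ≤ Y' → Sep T.toTri cl o x Y' → Sep T'.toTri cl' o (fun z => x (pt φ z)) Y'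

/-- **REG**.  `τ` thresholds of the new classes, `exp (-lam)` the accuracy, `exp y` the range of
the further dilations and narrowings of the old coordinates for which regularity is asserted. -/
def RegStmt : Prop := ∀ s : ℕ, 1 ≤ s → ∃ K : ℕ, ∀ (o : ℕ) (ι : Type) [Fintype ι] (T : Cell ι)
  (cl : ι → ℕ) (τ : ℕ → ℝ) (lam X y n : ℝ) (g : (ι → ℤ) → ℝ),
  T.IsMC cl → (∀ c, cl c ≤ o ∨ cl c = o + T.lev c) → (∀ c, T.lev c ≤ s) →
  (Fintype.card ι : ℝ) + 2 ≤ n → 3 ≤ lam → 0 ≤ y → 0 ≤ X → 0 ≤ τ (o + s + 1) →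
  (∀ j, o < j → j ≤ o + s → T.kapM cl j + n ^ K * (τ (j + 1) + lam) ≤ τ j) →
  X + kt T.toTri + n ^ K * (τ (o + 1) + y + lam) ≤ Real.exp lam →
  (∀ z, |g z| ≤ 1) → Real.exp (-X) * T.mu ≤ Sg T.toTri g →
  ∃ (ι' : Type) (_ : Fintype ι') (T' : Cell ι') (cl' : ι' → ℕ) (φ : ι → Pl ι') (v : ι' → ι)
    (G : ℕ+) (u : ℝ), Mor o T cl T' cl' φ v G u (2 * (τ (o + 2) + lam)) ∧
    T'.IsMC cl' ∧ (∀ c, cl' c ≤ o ∨ cl' c = o + T'.lev c) ∧ (∀ c, T'.lev c ≤ s) ∧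
    ((G : ℕ) : ℝ) ≤ Real.exp (n ^ K * (τ (o + 1) + y + lam)) ∧
    u ≤ n ^ K * (τ (o + 1) + y + lam) ∧
    (∀ j, o < j → j ≤ o + s → T'.kapM cl' j ≤ T.kapM cl j + n ^ K * (τ (j + 1) + lam)) ∧
    lm T'.toTri cl' (o + 1) ≤ lm T.toTri cl (o + 1) + n ^ K * (τ (o + 2) + lam) ∧
    (∀ j, o < j → j ≤ o + s → ∀ (d : ℕ+) (u' : ℝ) (r : ι' → ℤ) (t : ι' → ℝ),
      ((d : ℕ) : ℝ) ≤ Real.exp y → 0 ≤ u' → u' ≤ y →
      (zo T' cl' o d u' r t).RegAtM cl' j (Real.exp (τ (j + 1) + lam)) (Real.exp (τ j))) ∧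
    Real.exp (-(X + n ^ K * (τ (o + 1) + lam))) * T'.mu ≤
      Sg T'.toTri (fun z => g (pt φ z)) + Real.exp (-lam) * T'.M

/-! ### leaves -/

/-- (ZM) a zoom is an exact mixture -/
def ZmStmt : Prop := ∀ (ι : Type) [Fintype ι] (T : Cell ι) (G : ι → ℕ+) (u : ι → ℝ)
  (h : (ι → ℤ) → ℝ) (K κ : ℝ), (∀ c, 0 ≤ u c) → (∀ z, |h z| ≤ K) → 0 < κ →
  κ * T.mu ≤ Sg T.toTri h →
  ∃ r t, κ * (zm T G u r t).mu ≤ Sg (zm T G u r t).toTri fun z => h (pt (dl G r) z)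

/-- (REP) adding a tiny polynomial in the other windows to one window -/
def RepStmt : Prop := ∀ (ι : Type) [Fintype ι] (T T' : Tri ι) (c₀ : ι) (e : Pl ι) (s : ℕ)
  (lam X : ℝ) (h : (ι → ℤ) → ℝ), T'.a = T.a → (∀ c, c ≠ c₀ → T'.th c = T.th c) →
  T'.th c₀ = T.th c₀ + T.Th e → e ∈ supported ℝ {c | c ≠ c₀} →
  (∀ m ∈ e.support, m.degree ≤ s) → nrm e ≤ Real.exp (-((s + 5) * lam)) → 3 ≤ lam → 0 ≤ X →
  X + kt T + Fintype.card ι ≤ Real.exp lam → (∀ z, |h z| ≤ 2) →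
  Real.exp (-X) * T.mu ≤ Sg T h →
  Real.exp (-(X + 1)) * T'.mu ≤ Sg T' fun z => h z + 2 * Real.exp (-(2 * lam))

/-- normal form: class structure and ranks -/
structure St (o s : ℕ) (T : Cell ι) (cl : ι → ℕ) : Prop where
  cls : ∀ c, cl c ≤ o ∨ cl c = o + T.lev c
  lev_le : ∀ c, T.lev c ≤ s
  clo : T.Closed fun c => cl c ≤ o
  inj : Function.Injective T.rk
  mono : ∀ c c', o < cl c' → cl c < cl c' → T.rk c < T.rk c'

/-- a relation in class `j` -/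
structure Rel [Fintype ι] (T : Cell ι) (cl : ι → ℕ) (j : ℕ) (ξ : ι → ℝ) (b : ℕ) (e : Pl ι) :
    Prop where
  supp : ∀ c, cl c ≠ j → ξ c = 0
  dual : ∃ L, IsInt L ∧ T.dotT ξ - L ∈ supported ℝ {c | cl c < j}
  low : e ∈ supported ℝ {c | cl c < j}
  int : IsInt (C (b : ℝ) * T.dotT ξ + T.TTh e)

/-- a unimodular and orthogonal change of the block of class `j` -/
structure Rot [Fintype ι] (T T' : Cell ι) (cl : ι → ℕ) (j : ℕ) (φ : ι → Pl ι) : Prop where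
  rk : T'.rk = T.rk
  lev : T'.lev = T.lev
  int : ∀ c, IsInt (φ c)
  deg : ∀ c, DegLe T.lev (φ c) (T.lev c)
  bij : Function.Bijective (pt φ)
  φ_eq : ∀ c, cl c ≠ j → φ c = X c
  th_eq : ∀ c, cl c ≠ j → T'.th c = bind₁ φ (T.th c)
  a_eq : ∀ c, cl c ≠ j → T'.a c = T.a c
  wgt : ∀ z, T'.wgt z = T.wgt (pt φ z)
  dist : ∀ z z', Dj T'.toTri cl j z z' = Dj T.toTri cl j (pt φ z) (pt φ z')
  lm : lm T'.toTri cl j = lm T.toTri cl j

open Classical in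
/-- (GIV) Givens rotations and Bezout: the relation is pushed to the lowest atom of its class -/
def GivStmt : Prop := ∀ (ι : Type) [Fintype ι] (o s j : ℕ) (T : Cell ι) (cl : ι → ℕ) (ξ : ι → ℝ)
  (b : ℕ) (e : Pl ι), St o s T cl → o < j → ξ ≠ 0 → Rel T cl j ξ b e →
  ∃ (T' : Cell ι) (φ : ι → Pl ι) (c₀ : ι) (ρ : ℝ), Rot T T' cl j φ ∧ cl c₀ = j ∧
    (∀ c, cl c = j → T.rk c₀ ≤ T.rk c) ∧ ρ ≠ 0 ∧ ρ ^ 2 = ∑ c, ξ c ^ 2 ∧
    Rel T' cl j (Pi.single c₀ ρ) b e ∧ (∃ c, cl c = j ∧ |T'.a c₀| ≤ |T.a c|) ∧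
    ∑ c ∈ (Finset.univ.filter fun c => cl c = j).erase c₀, Real.log (1 + |T'.a c|) +
        Real.log |T'.a c₀| ≤
      ∑ c ∈ Finset.univ.filter (fun c => cl c = j), Real.log (1 + |T.a c|)

end Crest.Agent.T49.Rg
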