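import Crest.Agent.T49.SgDef_65
import Crest.Agent.T49.RegDef_2
import Crest.Agent.T49.NilWin_58

/-!
# Row 49 (helper26): the exact statements of block (D):
`GlueStmt`, `StartStmt`, `EndStmt`, `ORegStmt`, `BulkStmt`, `NondegStmt`

Frames: `FrDef_99`; states: `SgDef_65`; non-degeneracy invariants `Rg.Sep`, `Rg.lm`: `RegDef_2`.
-/

set_option autoImplicit false

noncomputable section

namespace Crest.Agent.T49.Fr

open Finset MvPolynomial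
open Crest.Agent.T49.Tw Crest.Agent.T49.Nil

section Cells
variable {ι ι' : Type} [Fintype ι] [Fintype ι']

/-- density of `f` on the cell -/
def dens (T : Cell ι) (f : (ι → ℤ) → ℝ) : ℝ := (∑' z, T.wgt z * f z) / T.M

/-- `U` is a piece of `T` along the integer polynomial map `φ`; the non-degeneracy invariants
get worse by at most `y` -/
structure Piece (T : Cell ι) (U : Cell ι') (φ : ι → Pl ι') (y : ℝ) : Prop where
  int : ∀ c, Tw.IsInt (φ c)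
  deg : ∀ c, DegLe U.lev (φ c) (T.lev c)
  sep : ∀ (x : (ι → ℤ) → ℤ) (Y : ℝ), 0 ≤ Y → Rg.Sep T.toTri T.lev 0 x Y →
    Rg.Sep U.toTri U.lev 0 (fun z => x (Rg.pt φ z)) (Y + y)
  lm : Rg.lm U.toTri U.lev 1 ≤ Rg.lm T.toTri T.lev 1 + y

open Classical in
/-- the indicator function of `A` at the position `p` of a point -/
def indA (A : Set ℤ) (p : Pl ι) (z : ι → ℤ) : ℝ := if ⌊ev z p⌋ ∈ A then 1 else 0

end Cells

/-- the standing hypotheses on the cell and the scales: `exp (-R) ≤ σ L ≤ 1`,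
`R ^ C ≤ log L`, `(log L) ^ C ≤ τ (s + 1)` -/
structure Par {ι : Type} [Fintype ι] (T : Cell ι) (s C : ℕ) (τ : ℕ → ℝ) (σ : ℝ) (L : ℕ) (R : ℝ) :
    Prop where
  lev : ∀ c, T.lev c ≤ s
  reg : T.Reg C s τ
  two : 2 ≤ R
  card : (Fintype.card ι : ℝ) ≤ R
  σ_pos : 0 < σ
  σ_le : σ * L ≤ 1
  le_σ : Real.exp (-R) ≤ σ * L
  L_ge : Real.exp (R ^ C) ≤ L
  L_le : Real.log L ^ C ≤ τ (s + 1)

/-- **GLUE1** (the end point of B_rel, D*, EL) -/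
def Glue1 (s D j : ℕ) : Prop :=
  ∃ C : ℕ, ∀ (ι : Type) [Fintype ι] (T : Cell ι) (τ : ℕ → ℝ) (σ : ℝ) (L : ℕ) (R : ℝ),
    Par T s C τ σ L R → Sg.Glue T D s j σ L R (R ^ C)

/-- `Glue1` holds for frames of all large dimensions -/
def GlueStmt : Prop := ∀ s, 1 ≤ s → ∃ D0 : ℕ, ∀ D, D0 ≤ D → ∀ j, 1 ≤ j → j ≤ s → Glue1 s D j

/-- **BULK**: upper bound for the mass of the wider frames -/
def BulkStmt : Prop :=
  ∀ s D : ℕ, ∃ C : ℕ, ∀ (ι : Type) [Fintype ι] (T : Cell ι) (τ : ℕ → ℝ) (σ : ℝ) (L : ℕ) (R : ℝ),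
    Par T s C τ σ L R → Sg.Bulk T D σ (R ^ C)

/-- **START**: the absolute increment theorem on the frames; `σ L` is small (chosen by `Start`) -/
def Start (s D : ℕ) : Prop :=
  ∃ c : ℝ, 0 < c ∧ c ≤ 1 / 2 ∧ ∃ C : ℕ, ∀ (ι : Type) [Fintype ι] (T : Cell ι) (τ : ℕ → ℝ)
    (p : Pl ι) (A : Set ℤ) (m y : ℝ) (L : ℕ), 2 ≤ m → m ≤ y →
    Par T s C τ (L : ℝ)⁻¹ L y → Tw.IsInt p → DegLe T.lev p 1 → T.top 1 p ≠ 0 →
    (∀ a d : ℤ, d ≠ 0 → ∃ i : ℕ, i < s + 2 ∧ a + i * d ∉ A) →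
    Real.exp (-m) ≤ dens T (indA A p) →
    ∃ (σ : ℝ) (d : ℕ), 0 < σ ∧ σ * L ≤ 1 ∧ Real.exp (-y ^ C) ≤ σ * L ∧ (d : ℝ) ≤ m ^ C ∧
      Sg.St T D s s (fun z => (indA A p z - (1 + c) * dens T (indA A p)) / 2) σ L (y ^ C) d 0

/-- `Start` from the absolute increment theorem -/
def StartStmt : Prop :=
  ∀ s D, 1 ≤ s → 1 ≤ D → Rat.GINC (nilWin (Fin D)) (s + 2) → Start s D

/-- **END**: a final state gives an increment on a new cell with few new atoms -/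
def End (s D : ℕ) : Prop :=
  ∀ c : ℝ, 0 < c → c ≤ 1 / 2 → ∃ C : ℕ, ∀ (ι : Type) [Fintype ι] (T : Cell ι) (τ : ℕ → ℝ)
    (f : (ι → ℤ) → ℝ) (α σ R : ℝ) (L dg : ℕ), Par T s C τ σ L R → (dg : ℝ) ≤ R →
    (∀ l, T.kap l ≤ Real.exp R) → (∀ z, 0 ≤ f z ∧ f z ≤ 1) → Real.exp (-R) ≤ α → α ≤ 1 →
    Sg.St0 T D s (fun z => (f z - (1 + c) * α) / 2) σ L R dg →
    ∃ (ι' : Type) (_ : Fintype ι') (U : Cell ι') (φ : ι → Pl ι'),
      (∀ c, U.lev c ≤ s) ∧ Fintype.card ι' ≤ Fintype.card ι + dg ∧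
      (∀ l, U.kap l ≤ T.kap l + R ^ C) ∧ Piece T U φ (R ^ C) ∧ U.mu ≤ 2 * U.M ∧
      (1 + c / 2) * α ≤ dens U fun z => f (Rg.pt φ z)

/-- `End` holds for frames of all large dimensions -/
def EndStmt : Prop := ∀ s, 1 ≤ s → ∃ D0 : ℕ, ∀ D, D0 ≤ D → End s D

/-- **Outer regularisation** (consumer's form of `Rg.RegStmt` with `o = 0`) -/
def OReg (s : ℕ) : Prop :=
  ∀ D : ℕ, ∃ C : ℕ, ∀ (ι : Type) [Fintype ι] (U : Cell ι) (f : (ι → ℤ) → ℝ) (q : ℝ),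
    (∀ c, U.lev c ≤ s) → 2 ≤ q → (Fintype.card ι : ℝ) ≤ q → (∀ l, U.kap l ≤ Real.exp q) →
    (∀ z, 0 ≤ f z ∧ f z ≤ 1) → U.mu ≤ 2 * U.M →
    ∃ (ι' : Type) (_ : Fintype ι') (T : Cell ι') (τ : ℕ → ℝ) (φ : ι → Pl ι'),
      (∀ c, T.lev c ≤ s) ∧ Fintype.card ι' ≤ Fintype.card ι ∧ T.Reg D s τ ∧ q ≤ τ (s + 1) ∧
      (∀ l, T.kap l ≤ U.kap l + (q + ∑ l' ∈ Ioc l s, U.kap l') ^ C) ∧
      Piece U T φ ((q + ∑ l' ∈ range (s + 1), U.kap l') ^ C) ∧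
      dens U f - Real.exp (-q) ≤ dens T fun z => f (Rg.pt φ z)

/-- `OReg` for all `s` -/
def ORegStmt : Prop := ∀ s, 1 ≤ s → OReg s

/-- **NONDEG**: a separated position map on a cell of small level one covolume is not constant -/
def NondegStmt : Prop :=
  ∃ C : ℕ, ∀ (ι : Type) [Fintype ι] (T : Cell ι) (p : Pl ι) (Y n : ℝ), 0 ≤ Y → 2 ≤ n →
    (Fintype.card ι : ℝ) ≤ n → DegLe T.lev p 1 → T.top 1 p = 0 →
    Rg.Sep T.toTri T.lev 0 (fun z => ⌊ev z p⌋) Y → -((n + Y) ^ C) ≤ Rg.lm T.toTri T.lev 1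

end Crest.Agent.T49.Fr
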