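import Crest.Agent.T49.EndSub_59
import Crest.Agent.T49.Fr_26

/-!
# Row 49 (helper64): END, interface of the increment step on the old points
-/

set_option autoImplicit false

noncomputable section

namespace Crest.Agent.T49.Ea

open Finset
open Crest.Agent.T49.Tw Crest.Agent.T49.Gl Crest.Agent.T49.Samp Crest.Agent.T49.End

variable {ι : Type} [Fintype ι]

/-- weight of the class `r` mod `g` and the window of width `lam` at `cen` -/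
def wc (T : Cell ι) (lam : ℝ) (cen : ι → ℝ) (g : ℕ) (r y : ι → ℤ) : ℝ :=
  cls g r y * Real.exp (-Real.pi * ∑ c, ((ev y (T.th c) - cen c) / lam) ^ 2)

/-- its ideal mass -/
def wmu (T : Cell ι) (lam : ℝ) (g : ℕ) : ℝ := T.mu * (lam / g) ^ Fintype.card ι

theorem wc_nonneg (T : Cell ι) (lam : ℝ) (cen : ι → ℝ) (g : ℕ) (r y : ι → ℤ) :
    0 ≤ wc T lam cen g r y := mul_nonneg (cls_nonneg _ _ _) (Real.exp_pos _).le

theorem wgt_mul_pcw (T : Cell ι) (lam : ℝ) (cen : ι → ℝ) (g : ℕ) (r y : ι → ℤ) :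
    T.wgt y * pcw T lam cen g r y = wc T lam cen g r y := by
  rw [pcw, wc, Tri.wgt, mul_left_comm, ← Real.exp_add]
  congr 2
  ring

/-- **INC** (`SUB` + sampler): a weight `Γ` with mean `1 ± 1/10` on all sub-windows and
sub-classes of the piece, a correlation of `Γ (f - (1+c) α)` with a family of frames inside the
piece; then `Γ (f - (1+c/2) α)` has non-negative mean on a sub-window and sub-class -/
def Inc (s D : ℕ) : Prop :=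
  ∀ c : ℝ, 0 < c → c ≤ 1 / 2 → ∃ C : ℕ, ∀ (ι : Type) [Fintype ι] (T : Cell ι) (σ X x α lam : ℝ)
    (L g : ℕ) (cen : ι → ℝ) (r : ι → ℤ) (Γ f : (ι → ℤ) → ℝ) (Z : Finset (Frm D T.lev))
    (wt : Frm D T.lev → ℝ) (rb : Frm D T.lev → (Fin D → ℤ) → Frm D T.lev),
    (∀ c, T.lev c ≤ s) → 2 ≤ X → X ≤ x → (Fintype.card ι : ℝ) ≤ X → 0 < σ → σ * L ≤ 1 →
    Real.exp (-X) ≤ σ * L → Real.exp (x ^ C) ≤ L →
    T.AllPC (Real.log L ^ C) (Real.exp (-Real.log L ^ C)) →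
    1 ≤ g → (g : ℝ) ≤ Real.exp x → Real.exp (-x) ≤ lam → lam ≤ 1 →
    (∀ y, 0 ≤ Γ y ∧ Γ y ≤ Real.exp X) → (∀ y, 0 ≤ f y ∧ f y ≤ 1) → Real.exp (-X) ≤ α → α ≤ 1 →
    (∀ W t v, (rb W t).pt v = W.pt (t + v)) → (∀ t, Function.Injective (rb · t)) →
    (∀ W, 0 ≤ wt W) →
    (∀ W ∈ Z, ∀ t ∈ pos D L, wt W ≤ Real.exp (-(4 * Real.pi) * fq T σ (rb W t))) →
    (∀ (d : ℕ) (l : ℝ) (c' : ι → ℝ) (r' : ι → ℤ), 1 ≤ d → (d : ℝ) ≤ Real.exp (X ^ C) →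
      Real.exp (-X ^ C) ≤ l → l ≤ 1 → Cong g r' r →
      |∑' y, wc T (lam * l) c' (g * d) r' y * Γ y - wmu T (lam * l) (g * d)| ≤
        wmu T (lam * l) (g * d) / 10) →
    Real.exp (-X) * (fmu T D σ * (lam / g) ^ Fintype.card ι) * (L : ℝ) ^ D ≤
      ∑ t ∈ pos D L, ∑ W ∈ Z, wt W * (pcw T lam cen g r (W.pt t) *
        (Γ (W.pt t) * (f (W.pt t) - (1 + c) * α))) →
    ∃ (d : ℕ) (l : ℝ) (c' : ι → ℝ) (r' : ι → ℤ), 1 ≤ d ∧ (d : ℝ) ≤ Real.exp (X ^ C) ∧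
      Real.exp (-X ^ C) ≤ l ∧ l ≤ 1 ∧ Cong g r' r ∧
      0 ≤ ∑' y, wc T (lam * l) c' (g * d) r' y * (Γ y * (f y - (1 + c / 2) * α))

/-- `Inc` holds for frames of all large dimensions -/
def IncStmt : Prop := ∀ s, 1 ≤ s → ∃ D0 : ℕ, ∀ D, D0 ≤ D → Inc s D

end Crest.Agent.T49.Ea
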