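import Mathlib

/-!
# Row 49 (helper85): bookkeeping of quasi-polynomial bounds

The tactic `qp` proves goals of the form
`∃ C : ℕ, ∀ m d H δ …, 2 ≤ m → (d : ℝ) ≤ m → H ≤ exp m → exp (-m) ≤ δ → … → G`
(or the same with `∀ᶠ C in atTop,`), where `G` is a conjunction of goals
`x ≤ m ^ C`, `|x| ≤ m ^ C`, `x ≤ exp (m ^ C)`, `|x| ≤ exp (m ^ C)`, `exp (-m ^ C) ≤ x`,
`(m ^ C)⁻¹ ≤ x`, the strict versions, `exp (-m ^ C) * z ≤ x * z`; with a hypothesis
`exp (m ^ C) ≤ N` also `x ≤ N`, `x ≤ y * N`, `x ≤ N / y`, `x / N ≤ y`; with a hypothesis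
`ρ ≤ exp (-m ^ C)` also `ρ ≤ y`, `x * ρ ≤ y`.  Everything that is fixed before `C` is a constant;
every other atom needs ONE bound among the hypotheses (the most recent one is used).
-/

set_option autoImplicit false

noncomputable section

namespace Crest.Agent.T49.Qp

open Real

/-- polynomial upper bound -/
structure PU (m : ℝ) (a : ℕ) (x : ℝ) : Prop where
  hm : 2 ≤ m
  le : |x| ≤ m ^ a

/-- polynomial lower bound -/
structure PL (m : ℝ) (a : ℕ) (x : ℝ) : Prop where
  hm : 2 ≤ m
  le : (m ^ a)⁻¹ ≤ x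

/-- quasi-polynomial upper bound -/
structure EU (m : ℝ) (a : ℕ) (x : ℝ) : Prop where
  hm : 2 ≤ m
  le : |x| ≤ exp (m ^ a)

/-- quasi-polynomial lower bound -/
structure EL (m : ℝ) (a : ℕ) (x : ℝ) : Prop where
  hm : 2 ≤ m
  le : exp (-m ^ a) ≤ x

variable {m x y : ℝ} {a b c : ℕ}

theorem pw_mono (hm : 2 ≤ m) (h : a ≤ b) : m ^ a ≤ m ^ b :=
  pow_le_pow_right₀ (by linarith) h

theorem one_le_pw (hm : 2 ≤ m) (a : ℕ) : 1 ≤ m ^ a := one_le_pow₀ (by linarith)

theorem pw_pos (hm : 2 ≤ m) (a : ℕ) : 0 < m ^ a := pow_pos (by linarith) a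

theorem exp_pw_mono (hm : 2 ≤ m) (h : a ≤ b) : exp (m ^ a) ≤ exp (m ^ b) :=
  exp_le_exp.2 (pw_mono hm h)

theorem exp_neg_pw_mono (hm : 2 ≤ m) (h : a ≤ b) : exp (-m ^ b) ≤ exp (-m ^ a) :=
  exp_le_exp.2 (neg_le_neg (pw_mono hm h))

theorem pw_add_pw (hm : 2 ≤ m) (a b : ℕ) : m ^ a + m ^ b ≤ m ^ (a + b + 1) := by
  have h1 := pw_mono hm (Nat.le_add_right a b)
  have h2 := pw_mono hm (Nat.le_add_left b a)
  have h3 := pw_pos hm (a + b)
  rw [pow_succ]; nlinarith

theorem pw_add_one (hm : 2 ≤ m) (a : ℕ) : m ^ a + 1 ≤ m ^ (a + 1) := by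
  have h1 := one_le_pw hm a
  rw [pow_succ]; nlinarith

theorem two_mul_exp (hm : 2 ≤ m) (a : ℕ) : 2 * exp (m ^ a) ≤ exp (m ^ (a + 1)) := by
  have h1 : exp (m ^ a + 1) ≤ exp (m ^ (a + 1)) := exp_le_exp.2 (pw_add_one hm a)
  rw [exp_add] at h1
  have h2 : (2 : ℝ) ≤ exp 1 := by have := add_one_le_exp (1 : ℝ); linarith
  have h3 := exp_pos (m ^ a)
  nlinarith

theorem le_pw_ceil (hm : 2 ≤ m) (c : ℝ) : c ≤ m ^ ⌈c⌉₊ := by
  have h1 : c ≤ (⌈c⌉₊ : ℝ) := Nat.le_ceil c
  have h2 : (⌈c⌉₊ : ℝ) ≤ 2 ^ ⌈c⌉₊ := by exact_mod_cast (Nat.lt_two_pow_self).le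
  exact h1.trans (h2.trans (pow_le_pow_left₀ (by norm_num) hm _))

theorem pw_le_exp (a : ℕ) : m ^ a ≤ exp (m ^ a) := by
  have := add_one_le_exp (m ^ a); linarith

/-! ### polynomial upper bounds -/

namespace PU

theorem mono (h : PU m a x) (hab : a ≤ b) : PU m b x := ⟨h.hm, h.le.trans (pw_mono h.hm hab)⟩
theorem fin (hab : a ≤ b) (h : PU m a x) : x ≤ m ^ b := (le_abs_self x).trans (h.mono hab).le
theorem fin_abs (hab : a ≤ b) (h : PU m a x) : |x| ≤ m ^ b := (h.mono hab).le
theorem const (hm : 2 ≤ m) : PU m ⌈|x|⌉₊ x := ⟨hm, le_pw_ceil hm _⟩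
theorem self (hm : 2 ≤ m) : PU m 1 m := ⟨hm, by rw [abs_of_nonneg (by linarith), pow_one]⟩
theorem of_abs_le (h : |x| ≤ y) (hy : PU m a y) : PU m a x :=
  ⟨hy.hm, h.trans ((le_abs_self y).trans hy.le)⟩
theorem of_le (h : x ≤ y) (h0 : 0 ≤ x) (hy : PU m a y) : PU m a x :=
  of_abs_le (by rwa [abs_of_nonneg h0]) hy
theorem of_lt (h : x < y) (h0 : 0 ≤ x) (hy : PU m a y) : PU m a x := of_le h.le h0 hy
theorem of_eq (h : x = y) (hy : PU m a y) : PU m a x := h ▸ hy
theorem of_nat_le {p q : ℕ} (h : p ≤ q) (hy : PU m a (q : ℝ)) : PU m a (p : ℝ) :=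
  of_le (by exact_mod_cast h) (by positivity) hy
theorem of_nat_lt {p q : ℕ} (h : p < q) (hy : PU m a (q : ℝ)) : PU m a (p : ℝ) :=
  of_nat_le h.le hy
theorem neg (h : PU m a x) : PU m a (-x) := ⟨h.hm, by rw [abs_neg]; exact h.le⟩
theorem abs (h : PU m a x) : PU m a |x| := ⟨h.hm, by rw [abs_abs]; exact h.le⟩
theorem add (hx : PU m a x) (hy : PU m b y) : PU m (a + b + 1) (x + y) :=
  ⟨hx.hm, (abs_add_le x y).trans ((add_le_add hx.le hy.le).trans (pw_add_pw hx.hm a b))⟩
theorem sub (hx : PU m a x) (hy : PU m b y) : PU m (a + b + 1) (x - y) := by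
  rw [sub_eq_add_neg]; exact hx.add hy.neg
theorem mul (hx : PU m a x) (hy : PU m b y) : PU m (a + b) (x * y) :=
  ⟨hx.hm, by rw [abs_mul, pow_add]; exact mul_le_mul hx.le hy.le (abs_nonneg _) (pw_pos hx.hm a).le⟩
theorem pow {n : ℕ} (hx : PU m a x) : PU m (a * n) (x ^ n) :=
  ⟨hx.hm, by rw [abs_pow, pow_mul]; exact pow_le_pow_left₀ (abs_nonneg _) hx.le n⟩
theorem inv (hx : PL m a x) : PU m a x⁻¹ := by
  have h0 : 0 < (m ^ a)⁻¹ := inv_pos.2 (pw_pos hx.hm a)
  have h1 : 0 < x := h0.trans_le hx.le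
  refine ⟨hx.hm, ?_⟩
  rw [abs_of_pos (inv_pos.2 h1)]
  exact (inv_le_comm₀ h1 (pw_pos hx.hm a)).2 hx.le
theorem div (hx : PU m a x) (hy : PL m b y) : PU m (a + b) (x / y) := by
  rw [div_eq_mul_inv]; exact hx.mul (inv hy)
theorem max (hx : PU m a x) (hy : PU m b y) : PU m (a + b) (max x y) := by
  rcases max_choice x y with h | h <;> rw [h]
  exacts [hx.mono (Nat.le_add_right _ _), hy.mono (Nat.le_add_left _ _)]
theorem min (hx : PU m a x) (hy : PU m b y) : PU m (a + b) (min x y) := by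
  rcases min_choice x y with h | h <;> rw [h]
  exacts [hx.mono (Nat.le_add_right _ _), hy.mono (Nat.le_add_left _ _)]
theorem sqrt (hx : PU m a x) : PU m a (√x) := by
  refine ⟨hx.hm, ?_⟩
  rw [abs_of_nonneg (sqrt_nonneg x), sqrt_le_left (pw_pos hx.hm a).le]
  have h1 := one_le_pw hx.hm a
  have h2 := (le_abs_self x).trans hx.le
  nlinarith
theorem log (hx : EU m a x) (hx' : EL m b x) : PU m (a + b) (Real.log x) := by
  have h0 : 0 < x := (exp_pos _).trans_le hx'.le
  refine ⟨hx.hm, abs_le.2 ⟨?_, ?_⟩⟩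
  · have := (le_log_iff_exp_le h0).2 hx'.le
    have := pw_mono hx.hm (Nat.le_add_left b a)
    linarith
  · have := (log_le_iff_le_exp h0).2 ((le_abs_self x).trans hx.le)
    exact this.trans (pw_mono hx.hm (Nat.le_add_right a b))
theorem exp_neg (hm : 2 ≤ m) (h : 0 ≤ x) : PU m 0 (exp (-x)) :=
  ⟨hm, by rw [abs_of_pos (exp_pos _), pow_zero]; exact exp_le_one_iff.2 (by linarith)⟩
theorem natCeil (hx : PU m a x) : PU m (a + 1) (⌈x⌉₊ : ℝ) := by
  refine ⟨hx.hm, ?_⟩
  rw [abs_of_nonneg (by positivity)]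
  have h1 : (⌈x⌉₊ : ℝ) ≤ ⌈|x|⌉₊ := by exact_mod_cast Nat.ceil_mono (le_abs_self x)
  have h2 := (Nat.ceil_lt_add_one (abs_nonneg x)).le
  have h3 := pw_add_one hx.hm a
  have h4 := hx.le
  linarith
theorem natFloor (hx : PU m a x) : PU m (a + 1) (⌊x⌋₊ : ℝ) :=
  of_nat_le (Nat.floor_le_ceil x) hx.natCeil
theorem intCeil (hx : PU m a x) : PU m (a + 1) (⌈x⌉ : ℝ) := by
  refine ⟨hx.hm, ?_⟩
  have h1 := Int.le_ceil x
  have h2 := Int.ceil_lt_add_one x
  have h3 := pw_add_one hx.hm a
  have h4 := abs_le.1 hx.le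
  rw [abs_le]; constructor <;> linarith
theorem intFloor (hx : PU m a x) : PU m (a + 1) (⌊x⌋ : ℝ) := by
  refine ⟨hx.hm, ?_⟩
  have h1 := Int.floor_le x
  have h2 := Int.lt_floor_add_one x
  have h3 := pw_add_one hx.hm a
  have h4 := abs_le.1 hx.le
  rw [abs_le]; constructor <;> linarith
theorem nat_add {p q : ℕ} (hx : PU m a (p : ℝ)) (hy : PU m b (q : ℝ)) :
    PU m (a + b + 1) ((p + q : ℕ) : ℝ) := by push_cast; exact hx.add hy
theorem nat_mul {p q : ℕ} (hx : PU m a (p : ℝ)) (hy : PU m b (q : ℝ)) :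
    PU m (a + b) ((p * q : ℕ) : ℝ) := by push_cast; exact hx.mul hy
theorem nat_pow {p n : ℕ} (hx : PU m a (p : ℝ)) : PU m (a * n) ((p ^ n : ℕ) : ℝ) := by
  push_cast; exact hx.pow
theorem nat_sub {p q : ℕ} (hx : PU m a (p : ℝ)) : PU m a ((p - q : ℕ) : ℝ) :=
  of_nat_le (Nat.sub_le p q) hx
theorem nat_div {p q : ℕ} (hx : PU m a (p : ℝ)) : PU m a ((p / q : ℕ) : ℝ) :=
  of_nat_le (Nat.div_le_self p q) hx
theorem nat_max {p q : ℕ} (hx : PU m a (p : ℝ)) (hy : PU m b (q : ℝ)) :
    PU m (a + b) ((Max.max p q : ℕ) : ℝ) := by push_cast; exact hx.max hy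
theorem nat_choose {p n : ℕ} (hx : PU m a (p : ℝ)) : PU m (a * n) ((p.choose n : ℕ) : ℝ) :=
  of_nat_le (Nat.choose_le_pow p n) hx.nat_pow
theorem nat_log {p n : ℕ} (hx : EU m a (n : ℝ)) : PU m (a + 1) ((Nat.log p n : ℕ) : ℝ) := by
  refine ⟨hx.hm, ?_⟩
  rw [abs_of_nonneg (by positivity)]
  have hp := pw_pos hx.hm a
  have hm := hx.hm
  rcases Nat.eq_zero_or_pos n with rfl | hn
  · simp only [Nat.log_zero_right, Nat.cast_zero]; exact (pw_pos hx.hm _).le
  rcases Nat.lt_or_ge p 2 with hp2 | hp2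
  · rw [Nat.log_of_left_le_one (by omega)]; simp only [Nat.cast_zero]; exact (pw_pos hx.hm _).le
  have h1 : 2 ^ Nat.log p n ≤ n :=
    (Nat.pow_le_pow_left hp2 _).trans (Nat.pow_log_le_self p hn.ne')
  have h2 : (2 : ℝ) ^ Nat.log p n ≤ exp (m ^ a) :=
    le_trans (by exact_mod_cast h1) ((le_abs_self _).trans hx.le)
  have h3 : (Nat.log p n : ℝ) * Real.log 2 ≤ m ^ a := by
    rw [← Real.log_pow]; exact (log_le_iff_le_exp (by positivity)).2 h2
  have h4 := log_two_gt_d9
  have h5 : (0 : ℝ) ≤ Nat.log p n := by positivity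
  rw [pow_succ]; nlinarith
theorem toEU (hx : PU m a x) : EU m a x := ⟨hx.hm, hx.le.trans (pw_le_exp a)⟩

end PU

/-! ### polynomial lower bounds -/

namespace PL

theorem pos (h : PL m a x) : 0 < x := (inv_pos.2 (pw_pos h.hm a)).trans_le h.le
theorem mono (h : PL m a x) (hab : a ≤ b) : PL m b x :=
  ⟨h.hm, (inv_anti₀ (pw_pos h.hm a) (pw_mono h.hm hab)).trans h.le⟩
theorem fin (hab : a ≤ b) (h : PL m a x) : (m ^ b)⁻¹ ≤ x := (h.mono hab).le
theorem fin' (hab : a ≤ b) (h : PL m a x) : 1 / m ^ b ≤ x := by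
  rw [one_div]; exact (h.mono hab).le
theorem const (hm : 2 ≤ m) (h : 0 < x) : PL m ⌈x⁻¹⌉₊ x :=
  ⟨hm, (inv_le_comm₀ (pw_pos hm _) h).2 (le_pw_ceil hm _)⟩
theorem of_one_le (hm : 2 ≤ m) (h : 1 ≤ x) : PL m 0 x := ⟨hm, by simpa using h⟩
theorem of_two_le (hm : 2 ≤ m) (h : 2 ≤ x) : PL m 0 x := of_one_le hm (by linarith)
theorem self (hm : 2 ≤ m) : PL m 0 m := of_two_le hm hm
theorem of_le (h : y ≤ x) (hy : PL m a y) : PL m a x := ⟨hy.hm, hy.le.trans h⟩
theorem of_lt (h : y < x) (hy : PL m a y) : PL m a x := of_le h.le hy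
theorem of_eq (h : x = y) (hy : PL m a y) : PL m a x := h ▸ hy
theorem nat_pos {p : ℕ} (hm : 2 ≤ m) (h : 0 < p) : PL m 0 (p : ℝ) :=
  of_one_le hm (by exact_mod_cast h)
theorem add_left (hx : PL m a x) (hy : 0 ≤ y) : PL m a (x + y) := of_le (by linarith) hx
theorem add_right (hy : PL m a y) (hx : 0 ≤ x) : PL m a (x + y) := of_le (by linarith) hy
theorem mul (hx : PL m a x) (hy : PL m b y) : PL m (a + b) (x * y) :=
  ⟨hx.hm, by
    rw [pow_add, mul_inv]
    exact mul_le_mul hx.le hy.le (inv_pos.2 (pw_pos hx.hm b)).le hx.pos.le⟩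
theorem pow {n : ℕ} (hx : PL m a x) : PL m (a * n) (x ^ n) :=
  ⟨hx.hm, by
    rw [pow_mul, ← inv_pow]; exact pow_le_pow_left₀ (inv_pos.2 (pw_pos hx.hm a)).le hx.le n⟩
theorem inv (hx : PU m a x) (h : 0 < x) : PL m a x⁻¹ :=
  ⟨hx.hm, inv_anti₀ h ((le_abs_self x).trans hx.le)⟩
theorem div (hx : PL m a x) (hy : PU m b y) (h : 0 < y) : PL m (a + b) (x / y) := by
  rw [div_eq_mul_inv]; exact hx.mul (inv hy h)
theorem min (hx : PL m a x) (hy : PL m b y) : PL m (a + b) (min x y) := by
  rcases min_choice x y with h | h <;> rw [h]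
  exacts [hx.mono (Nat.le_add_right _ _), hy.mono (Nat.le_add_left _ _)]
theorem max_left (hx : PL m a x) : PL m a (max x y) := of_le (le_max_left _ _) hx
theorem max_right (hy : PL m a y) : PL m a (max x y) := of_le (le_max_right _ _) hy
theorem sqrt (hx : PL m a x) : PL m a (√x) := by
  refine ⟨hx.hm, le_sqrt_of_sq_le ?_⟩
  have h0 : 0 < (m ^ a)⁻¹ := inv_pos.2 (pw_pos hx.hm a)
  have h1 : (m ^ a)⁻¹ ≤ 1 := inv_le_one_of_one_le₀ (one_le_pw hx.hm a)
  have h2 := hx.le
  nlinarith
theorem exp (hm : 2 ≤ m) (h : 0 ≤ x) : PL m 0 (exp x) := of_one_le hm (one_le_exp h)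
theorem natCeil (hx : PL m a x) : PL m a (⌈x⌉₊ : ℝ) := of_le (Nat.le_ceil x) hx
theorem toEL (hx : PL m a x) : EL m a x :=
  ⟨hx.hm, le_trans (by rw [exp_neg]; exact inv_anti₀ (pw_pos hx.hm a) (pw_le_exp a)) hx.le⟩

end PL

/-! ### quasi-polynomial upper bounds -/

namespace EU

theorem mono (h : EU m a x) (hab : a ≤ b) : EU m b x := ⟨h.hm, h.le.trans (exp_pw_mono h.hm hab)⟩
theorem fin (hab : a ≤ b) (h : EU m a x) : x ≤ exp (m ^ b) :=
  (le_abs_self x).trans (h.mono hab).le
theorem fin_abs (hab : a ≤ b) (h : EU m a x) : |x| ≤ exp (m ^ b) := (h.mono hab).le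
theorem const (hm : 2 ≤ m) : EU m ⌈|x|⌉₊ x := (PU.const hm).toEU
theorem self (hm : 2 ≤ m) : EU m 1 m := (PU.self hm).toEU
theorem of_abs_le (h : |x| ≤ y) (hy : EU m a y) : EU m a x :=
  ⟨hy.hm, h.trans ((le_abs_self y).trans hy.le)⟩
theorem of_le (h : x ≤ y) (h0 : 0 ≤ x) (hy : EU m a y) : EU m a x :=
  of_abs_le (by rwa [abs_of_nonneg h0]) hy
theorem of_lt (h : x < y) (h0 : 0 ≤ x) (hy : EU m a y) : EU m a x := of_le h.le h0 hy
theorem of_eq (h : x = y) (hy : EU m a y) : EU m a x := h ▸ hy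
theorem of_nat_le {p q : ℕ} (h : p ≤ q) (hy : EU m a (q : ℝ)) : EU m a (p : ℝ) :=
  of_le (by exact_mod_cast h) (by positivity) hy
theorem of_nat_lt {p q : ℕ} (h : p < q) (hy : EU m a (q : ℝ)) : EU m a (p : ℝ) :=
  of_nat_le h.le hy
theorem neg (h : EU m a x) : EU m a (-x) := ⟨h.hm, by rw [abs_neg]; exact h.le⟩
theorem abs (h : EU m a x) : EU m a |x| := ⟨h.hm, by rw [abs_abs]; exact h.le⟩
theorem add (hx : EU m a x) (hy : EU m b y) : EU m (a + b + 1) (x + y) := by
  refine ⟨hx.hm, (abs_add_le x y).trans ?_⟩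
  have h1 := (hx.mono (Nat.le_add_right a b)).le
  have h2 := (hy.mono (Nat.le_add_left b a)).le
  have h3 := two_mul_exp hx.hm (a + b)
  linarith
theorem sub (hx : EU m a x) (hy : EU m b y) : EU m (a + b + 1) (x - y) := by
  rw [sub_eq_add_neg]; exact hx.add hy.neg
theorem mul (hx : EU m a x) (hy : EU m b y) : EU m (a + b + 1) (x * y) := by
  refine ⟨hx.hm, ?_⟩
  rw [abs_mul]
  refine (mul_le_mul hx.le hy.le (abs_nonneg _) (exp_pos _).le).trans ?_
  rw [← exp_add]
  exact exp_le_exp.2 (pw_add_pw hx.hm a b)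
theorem pow {n : ℕ} (hx : EU m a x) (hn : PU m b (n : ℝ)) : EU m (a + b) (x ^ n) := by
  refine ⟨hx.hm, ?_⟩
  rw [abs_pow]
  refine (pow_le_pow_left₀ (abs_nonneg _) hx.le n).trans ?_
  rw [← exp_nat_mul, pow_add, mul_comm (m ^ a)]
  exact exp_le_exp.2 (mul_le_mul_of_nonneg_right ((le_abs_self _).trans hn.le) (pw_pos hx.hm a).le)
theorem exp (hx : PU m a x) : EU m a (exp x) :=
  ⟨hx.hm, by rw [abs_of_pos (exp_pos _)]; exact exp_le_exp.2 ((le_abs_self x).trans hx.le)⟩
theorem inv (hx : EL m a x) : EU m a x⁻¹ := by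
  have h1 : 0 < x := (exp_pos _).trans_le hx.le
  refine ⟨hx.hm, ?_⟩
  rw [abs_of_pos (inv_pos.2 h1)]
  refine (inv_le_comm₀ h1 (exp_pos _)).2 ?_
  rw [← exp_neg]; exact hx.le
theorem div (hx : EU m a x) (hy : EL m b y) : EU m (a + b + 1) (x / y) := by
  rw [div_eq_mul_inv]; exact hx.mul (inv hy)
theorem max (hx : EU m a x) (hy : EU m b y) : EU m (a + b) (max x y) := by
  rcases max_choice x y with h | h <;> rw [h]
  exacts [hx.mono (Nat.le_add_right _ _), hy.mono (Nat.le_add_left _ _)]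
theorem min (hx : EU m a x) (hy : EU m b y) : EU m (a + b) (min x y) := by
  rcases min_choice x y with h | h <;> rw [h]
  exacts [hx.mono (Nat.le_add_right _ _), hy.mono (Nat.le_add_left _ _)]
theorem sqrt (hx : EU m a x) : EU m a (√x) := by
  refine ⟨hx.hm, ?_⟩
  rw [abs_of_nonneg (sqrt_nonneg x), sqrt_le_left (exp_pos _).le]
  have h1 := one_le_exp (pw_pos hx.hm a).le
  have h2 := (le_abs_self x).trans hx.le
  nlinarith
theorem log (hx : EU m a x) (hx' : EL m b x) : EU m (a + b) (Real.log x) := (PU.log hx hx').toEU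
theorem rpow (hx : EU m a x) (hx' : EL m b x) (hy : PU m c y) : EU m (a + b + c) (x ^ y) := by
  rw [rpow_def_of_pos ((exp_pos _).trans_le hx'.le)]
  exact exp ((PU.log hx hx').mul hy)
theorem natCeil (hx : EU m a x) : EU m (a + 1) (⌈x⌉₊ : ℝ) := by
  refine ⟨hx.hm, ?_⟩
  rw [abs_of_nonneg (by positivity)]
  have h1 : (⌈x⌉₊ : ℝ) ≤ ⌈|x|⌉₊ := by exact_mod_cast Nat.ceil_mono (le_abs_self x)
  have h2 := (Nat.ceil_lt_add_one (abs_nonneg x)).le
  have h3 := two_mul_exp hx.hm a
  have h4 := hx.le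
  have h5 := one_le_exp (pw_pos hx.hm a).le
  linarith
theorem natFloor (hx : EU m a x) : EU m (a + 1) (⌊x⌋₊ : ℝ) :=
  of_nat_le (Nat.floor_le_ceil x) hx.natCeil
theorem intCeil (hx : EU m a x) : EU m (a + 1) (⌈x⌉ : ℝ) := by
  refine ⟨hx.hm, ?_⟩
  have h1 := Int.le_ceil x
  have h2 := Int.ceil_lt_add_one x
  have h3 := two_mul_exp hx.hm a
  have h4 := abs_le.1 hx.le
  have h5 := one_le_exp (pw_pos hx.hm a).le
  rw [abs_le]; constructor <;> linarith
theorem intFloor (hx : EU m a x) : EU m (a + 1) (⌊x⌋ : ℝ) := by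
  refine ⟨hx.hm, ?_⟩
  have h1 := Int.floor_le x
  have h2 := Int.lt_floor_add_one x
  have h3 := two_mul_exp hx.hm a
  have h4 := abs_le.1 hx.le
  have h5 := one_le_exp (pw_pos hx.hm a).le
  rw [abs_le]; constructor <;> linarith
theorem nat_add {p q : ℕ} (hx : EU m a (p : ℝ)) (hy : EU m b (q : ℝ)) :
    EU m (a + b + 1) ((p + q : ℕ) : ℝ) := by push_cast; exact hx.add hy
theorem nat_mul {p q : ℕ} (hx : EU m a (p : ℝ)) (hy : EU m b (q : ℝ)) :
    EU m (a + b + 1) ((p * q : ℕ) : ℝ) := by push_cast; exact hx.mul hy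
theorem nat_pow {p n : ℕ} (hx : EU m a (p : ℝ)) (hn : PU m b (n : ℝ)) :
    EU m (a + b) ((p ^ n : ℕ) : ℝ) := by push_cast; exact hx.pow hn
theorem nat_sub {p q : ℕ} (hx : EU m a (p : ℝ)) : EU m a ((p - q : ℕ) : ℝ) :=
  of_nat_le (Nat.sub_le p q) hx
theorem nat_div {p q : ℕ} (hx : EU m a (p : ℝ)) : EU m a ((p / q : ℕ) : ℝ) :=
  of_nat_le (Nat.div_le_self p q) hx
theorem nat_max {p q : ℕ} (hx : EU m a (p : ℝ)) (hy : EU m b (q : ℝ)) :
    EU m (a + b) ((Max.max p q : ℕ) : ℝ) := by push_cast; exact hx.max hy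
theorem factorial {n : ℕ} (hn : PU m a (n : ℝ)) : EU m (a + a) (n.factorial : ℝ) :=
  of_nat_le (Nat.factorial_le_pow n) (nat_pow hn.toEU hn)
theorem nat_choose {p n : ℕ} (hp : EU m a (p : ℝ)) (hn : PU m b (n : ℝ)) :
    EU m (a + b) ((p.choose n : ℕ) : ℝ) :=
  of_nat_le (Nat.choose_le_pow p n) (nat_pow hp hn)

end EU

/-! ### quasi-polynomial lower bounds -/

namespace EL

theorem pos (h : EL m a x) : 0 < x := (exp_pos _).trans_le h.le
theorem mono (h : EL m a x) (hab : a ≤ b) : EL m b x :=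
  ⟨h.hm, (exp_neg_pw_mono h.hm hab).trans h.le⟩
theorem fin (hab : a ≤ b) (h : EL m a x) : exp (-m ^ b) ≤ x := (h.mono hab).le
theorem fin_inv (hab : a ≤ b) (h : EL m a x) : (exp (m ^ b))⁻¹ ≤ x := by
  rw [← exp_neg]; exact (h.mono hab).le
theorem const (hm : 2 ≤ m) (h : 0 < x) : EL m ⌈x⁻¹⌉₊ x := (PL.const hm h).toEL
theorem of_one_le (hm : 2 ≤ m) (h : 1 ≤ x) : EL m 0 x := (PL.of_one_le hm h).toEL
theorem of_two_le (hm : 2 ≤ m) (h : 2 ≤ x) : EL m 0 x := (PL.of_two_le hm h).toEL
theorem self (hm : 2 ≤ m) : EL m 0 m := of_two_le hm hm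
theorem of_le (h : y ≤ x) (hy : EL m a y) : EL m a x := ⟨hy.hm, hy.le.trans h⟩
theorem of_lt (h : y < x) (hy : EL m a y) : EL m a x := of_le h.le hy
theorem of_eq (h : x = y) (hy : EL m a y) : EL m a x := h ▸ hy
theorem of_exp_le (h : exp y ≤ x) (hy : PU m a y) : EL m a x :=
  ⟨hy.hm, (exp_le_exp.2 (abs_le.1 hy.le).1).trans h⟩
theorem nat_pos {p : ℕ} (hm : 2 ≤ m) (h : 0 < p) : EL m 0 (p : ℝ) := (PL.nat_pos hm h).toEL
theorem add_left (hx : EL m a x) (hy : 0 ≤ y) : EL m a (x + y) := of_le (by linarith) hx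
theorem add_right (hy : EL m a y) (hx : 0 ≤ x) : EL m a (x + y) := of_le (by linarith) hy
theorem mul (hx : EL m a x) (hy : EL m b y) : EL m (a + b + 1) (x * y) := by
  refine ⟨hx.hm, le_trans ?_ (mul_le_mul hx.le hy.le (exp_pos _).le hx.pos.le)⟩
  rw [← exp_add, ← neg_add]
  exact exp_le_exp.2 (neg_le_neg (pw_add_pw hx.hm a b))
theorem pow {n : ℕ} (hx : EL m a x) (hn : PU m b (n : ℝ)) : EL m (a + b) (x ^ n) := by
  refine ⟨hx.hm, le_trans ?_ (pow_le_pow_left₀ (exp_pos _).le hx.le n)⟩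
  rw [← exp_nat_mul, pow_add, mul_comm (m ^ a), mul_neg]
  exact exp_le_exp.2 (neg_le_neg
    (mul_le_mul_of_nonneg_right ((le_abs_self _).trans hn.le) (pw_pos hx.hm a).le))
theorem exp (hx : PU m a x) : EL m a (exp x) := of_exp_le le_rfl hx
theorem inv (hx : EU m a x) (h : 0 < x) : EL m a x⁻¹ :=
  ⟨hx.hm, by rw [exp_neg]; exact inv_anti₀ h ((le_abs_self x).trans hx.le)⟩
theorem div (hx : EL m a x) (hy : EU m b y) (h : 0 < y) : EL m (a + b + 1) (x / y) := by
  rw [div_eq_mul_inv]; exact hx.mul (inv hy h)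
theorem min (hx : EL m a x) (hy : EL m b y) : EL m (a + b) (min x y) := by
  rcases min_choice x y with h | h <;> rw [h]
  exacts [hx.mono (Nat.le_add_right _ _), hy.mono (Nat.le_add_left _ _)]
theorem max_left (hx : EL m a x) : EL m a (max x y) := of_le (le_max_left _ _) hx
theorem max_right (hy : EL m a y) : EL m a (max x y) := of_le (le_max_right _ _) hy
theorem sqrt (hx : EL m a x) : EL m a (√x) := by
  refine ⟨hx.hm, le_sqrt_of_sq_le ?_⟩
  have h0 := exp_pos (-m ^ a)
  have h1 : Real.exp (-m ^ a) ≤ 1 := exp_le_one_iff.2 (neg_nonpos.2 (pw_pos hx.hm a).le)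
  have h2 := hx.le
  nlinarith
theorem rpow (hx : EU m a x) (hx' : EL m b x) (hy : PU m c y) : EL m (a + b + c) (x ^ y) := by
  rw [rpow_def_of_pos hx'.pos]
  exact exp ((PU.log hx hx').mul hy)
theorem natCeil (hx : EL m a x) : EL m a (⌈x⌉₊ : ℝ) := of_le (Nat.le_ceil x) hx

end EL

theorem half_le_one_sub_div (h : 2 ≤ y) : 1 / 2 ≤ 1 - 1 / y := by
  have := one_div_le_one_div_of_le (by norm_num) h
  linarith
theorem one_sub_div_pos (h : 2 ≤ y) : 0 < 1 - 1 / y := by
  have := half_le_one_sub_div h; linarith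
theorem one_sub_inv_pos (h : 2 ≤ y) : 0 < 1 - y⁻¹ := by
  rw [← one_div]; exact one_sub_div_pos h
theorem PL.of_half_le (hm : 2 ≤ m) (h : 1 / 2 ≤ x) : PL m 1 x :=
  ⟨hm, le_trans (by rw [pow_one, one_div]; exact inv_anti₀ (by norm_num) hm) h⟩
theorem PL.one_sub_div (hm : 2 ≤ m) (h : 2 ≤ y) : PL m 1 (1 - 1 / y) :=
  PL.of_half_le hm (half_le_one_sub_div h)
theorem PL.one_sub_inv (hm : 2 ≤ m) (h : 2 ≤ y) : PL m 1 (1 - y⁻¹) := by
  rw [← one_div]; exact PL.one_sub_div hm h
theorem EL.of_half_le (hm : 2 ≤ m) (h : 1 / 2 ≤ x) : EL m 1 x := (PL.of_half_le hm h).toEL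
theorem EL.one_sub_div (hm : 2 ≤ m) (h : 2 ≤ y) : EL m 1 (1 - 1 / y) := (PL.one_sub_div hm h).toEL
theorem EL.one_sub_inv (hm : 2 ≤ m) (h : 2 ≤ y) : EL m 1 (1 - y⁻¹) := (PL.one_sub_inv hm h).toEL
theorem PU.fin_lt (hab : a ≤ b) (h : PU m a (x + 1)) : x < m ^ b :=
  (lt_add_one x).trans_le (h.fin hab)
theorem EU.fin_lt (hab : a ≤ b) (h : EU m a (x + 1)) : x < Real.exp (m ^ b) :=
  (lt_add_one x).trans_le (h.fin hab)
theorem EL.fin_lt (hab : a ≤ b) (h : EL m a (x / 2)) : Real.exp (-m ^ b) < x := by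
  have h1 := h.fin hab
  have h2 := h.pos
  linarith
theorem EU.fin_trans (hab : a ≤ b) (hy : Real.exp (m ^ b) ≤ y) (h : EU m a x) : x ≤ y :=
  (h.fin hab).trans hy
theorem EU.fin_trans_lt (hab : a ≤ b) (hy : Real.exp (m ^ b) ≤ y) (h : EU m a (x + 1)) : x < y :=
  (h.fin_lt hab).trans_le hy
theorem EL.fin_trans (hab : a ≤ b) (hy : y ≤ Real.exp (-m ^ b)) (h : EL m a x) : y ≤ x :=
  hy.trans (h.fin hab)
theorem PU.fin_trans (hab : a ≤ b) (hy : m ^ b ≤ y) (h : PU m a x) : x ≤ y :=
  (h.fin hab).trans hy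

theorem fin_mul {N : ℝ} {k : ℕ} (hk : a + b + 1 ≤ k) (hN : exp (m ^ k) ≤ N) (hx : EU m a x)
    (hy : EL m b y) : x ≤ y * N := by
  have h := ((hx.div hy).fin hk).trans hN
  rwa [div_le_iff₀' hy.pos] at h
theorem fin_mul' {N : ℝ} {k : ℕ} (hk : a + b + 1 ≤ k) (hN : exp (m ^ k) ≤ N) (hx : EU m a x)
    (hy : EL m b y) : x ≤ N * y := by
  rw [mul_comm]; exact fin_mul hk hN hx hy
theorem fin_div {N : ℝ} {k : ℕ} (hk : a + b + 1 ≤ k) (hN : exp (m ^ k) ≤ N) (hx : EU m a x)
    (hy : EU m b y) (h : 0 < y) : x ≤ N / y := by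
  rw [div_eq_mul_inv]; exact fin_mul' hk hN hx (EL.inv hy h)
theorem fin_div' {N : ℝ} {k : ℕ} (hk : a + b + 1 ≤ k) (hN : exp (m ^ k) ≤ N) (hx : EU m a x)
    (hy : EL m b y) : x / N ≤ y := by
  rw [div_le_iff₀ ((exp_pos _).trans_le hN)]; exact fin_mul hk hN hx hy
theorem fin_small {ρ : ℝ} {k : ℕ} (hk : a + b + 1 ≤ k) (hρ : ρ ≤ exp (-m ^ k)) (h0 : 0 ≤ ρ)
    (hx : EU m a x) (hy : EL m b y) : x * ρ ≤ y := by
  have h1 := fin_div' hk le_rfl hx.abs hy
  rw [div_eq_mul_inv, ← exp_neg] at h1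
  calc x * ρ ≤ |x| * ρ := mul_le_mul_of_nonneg_right (le_abs_self x) h0
    _ ≤ |x| * exp (-m ^ k) := mul_le_mul_of_nonneg_left hρ (abs_nonneg x)
    _ ≤ y := h1
theorem fin_small' {ρ : ℝ} {k : ℕ} (hk : a + b + 1 ≤ k) (hρ : ρ ≤ exp (-m ^ k)) (h0 : 0 ≤ ρ)
    (hx : EU m a x) (hy : EL m b y) : ρ * x ≤ y := by
  rw [mul_comm]; exact fin_small hk hρ h0 hx hy

/-! ### the tactic -/

theorem exists_of_ev {φ : ℕ → Prop} (h : ∃ w, ∀ C, w ≤ C → φ C) : ∃ C, φ C :=
  let ⟨w, hw⟩ := h; ⟨w, hw w le_rfl⟩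

theorem ev_of_ev {φ : ℕ → Prop} (h : ∃ w, ∀ C, w ≤ C → φ C) : ∀ᶠ C in Filter.atTop, φ C :=
  Filter.eventually_atTop.2 h

/-- marker for the lower bound on the exponent -/
def Big (w C : ℕ) : Prop := w ≤ C

theorem and_split {a b C : ℕ} {A B : Prop} (h : Big (a + b) C) (hA : Big a C → A)
    (hB : Big b C → B) : A ∧ B :=
  ⟨hA (le_of_add_le_left h), hB (le_of_add_le_right h)⟩

theorem Big.le {a C : ℕ} (h : Big a C) : a ≤ C := h

theorem exists_of_big {φ : ℕ → Prop} (h : ∃ w, ∀ C, Big w C → φ C) : ∃ C, φ C := exists_of_ev h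
theorem ev_of_big {φ : ℕ → Prop} (h : ∃ w, ∀ C, Big w C → φ C) : ∀ᶠ C in Filter.atTop, φ C :=
  ev_of_ev h

theorem pos_of_two_le (h : 2 ≤ x) : 0 < x := by linarith
theorem pos_of_one_le (h : 1 ≤ x) : 0 < x := by linarith
theorem pos_of_exp_le (h : Real.exp y ≤ x) : 0 < x := (exp_pos _).trans_le h

/-- side goals `0 ≤ x`, `0 < x` -/
syntax "qp_pos" : tactic
/-- goals `PU m _ x` -/
syntax "qp_pu" : tactic
/-- goals `PL m _ x` -/
syntax "qp_pl" : tactic
/-- goals `EU m _ x` -/
syntax "qp_eu" : tactic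
/-- goals `EL m _ x` -/
syntax "qp_el" : tactic

macro_rules
  | `(tactic| qp_pos) => `(tactic| first
      | assumption
      | positivity
      | linarith
      | ((with_reducible apply le_of_lt); (with_reducible apply pos_of_exp_le); assumption)
      | ((with_reducible apply pos_of_exp_le); assumption)
      | ((with_reducible apply one_sub_div_pos); linarith)
      | ((with_reducible apply one_sub_inv_pos); linarith)
      | ((with_reducible apply mul_pos) <;> qp_pos)
      | ((with_reducible apply div_pos) <;> qp_pos)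
      | ((with_reducible apply pow_pos); qp_pos)
      | ((with_reducible apply add_pos) <;> qp_pos)
      | ((with_reducible apply add_pos_of_pos_of_nonneg) <;> qp_pos)
      | ((with_reducible apply add_pos_of_nonneg_of_pos) <;> qp_pos)
      | ((with_reducible apply inv_pos_of_pos); qp_pos)
      | ((with_reducible apply mul_nonneg) <;> qp_pos)
      | ((with_reducible apply div_nonneg) <;> qp_pos)
      | ((with_reducible apply pow_nonneg); qp_pos)
      | ((with_reducible apply add_nonneg) <;> qp_pos)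
      | ((with_reducible apply lt_min) <;> qp_pos)
      | ((with_reducible apply le_min) <;> qp_pos)
      | ((with_reducible apply Real.sqrt_pos_of_pos); qp_pos)
      | ((with_reducible apply Real.log_nonneg); linarith)
      | ((with_reducible apply le_of_lt); qp_pos))

macro_rules
  | `(tactic| qp_pu) => `(tactic| first
      | ((with_reducible apply PU.const); assumption)
      | ((with_reducible apply PU.self); assumption)
      | ((with_reducible apply PU.add); qp_pu; qp_pu)
      | ((with_reducible apply PU.sub); qp_pu; qp_pu)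
      | ((with_reducible apply PU.mul); qp_pu; qp_pu)
      | ((with_reducible apply PU.div); qp_pu; qp_pl)
      | ((with_reducible apply PU.pow); qp_pu)
      | ((with_reducible apply PU.neg); qp_pu)
      | ((with_reducible apply PU.abs); qp_pu)
      | ((with_reducible apply PU.inv); qp_pl)
      | ((with_reducible apply PU.max); qp_pu; qp_pu)
      | ((with_reducible apply PU.min); qp_pu; qp_pu)
      | ((with_reducible apply PU.sqrt); qp_pu)
      | ((with_reducible apply PU.log); qp_eu; qp_el)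
      | ((with_reducible apply PU.exp_neg); assumption; qp_pos)
      | ((with_reducible apply PU.natCeil); qp_pu)
      | ((with_reducible apply PU.natFloor); qp_pu)
      | ((with_reducible apply PU.intCeil); qp_pu)
      | ((with_reducible apply PU.intFloor); qp_pu)
      | ((with_reducible apply PU.nat_add); qp_pu; qp_pu)
      | ((with_reducible apply PU.nat_mul); qp_pu; qp_pu)
      | ((with_reducible apply PU.nat_pow); qp_pu)
      | ((with_reducible apply PU.nat_sub); qp_pu)
      | ((with_reducible apply PU.nat_div); qp_pu)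
      | ((with_reducible apply PU.nat_max); qp_pu; qp_pu)
      | ((with_reducible apply PU.nat_choose); qp_pu)
      | ((with_reducible apply PU.nat_log); qp_eu)
      | ((with_reducible apply PU.of_le); (with_reducible assumption); qp_pos; qp_pu)
      | ((with_reducible apply PU.of_abs_le); (with_reducible assumption); qp_pu)
      | ((with_reducible apply PU.of_lt); (with_reducible assumption); qp_pos; qp_pu)
      | ((with_reducible apply PU.of_eq); (with_reducible assumption); qp_pu)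
      | ((with_reducible apply PU.of_nat_le); (with_reducible assumption); qp_pu)
      | ((with_reducible apply PU.of_nat_lt); (with_reducible assumption); qp_pu)
      | fail "qp: no polynomial upper bound")

macro_rules
  | `(tactic| qp_pl) => `(tactic| first
      | ((with_reducible apply PL.const); assumption; qp_pos)
      | ((with_reducible apply PL.self); assumption)
      | ((with_reducible apply PL.add_left); qp_pl; qp_pos)
      | ((with_reducible apply PL.add_right); qp_pl; qp_pos)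
      | ((with_reducible apply PL.mul); qp_pl; qp_pl)
      | ((with_reducible apply PL.div); qp_pl; qp_pu; qp_pos)
      | ((with_reducible apply PL.pow); qp_pl)
      | ((with_reducible apply PL.inv); qp_pu; qp_pos)
      | ((with_reducible apply PL.min); qp_pl; qp_pl)
      | ((with_reducible apply PL.max_left); qp_pl)
      | ((with_reducible apply PL.max_right); qp_pl)
      | ((with_reducible apply PL.sqrt); qp_pl)
      | ((with_reducible apply PL.exp); assumption; qp_pos)
      | ((with_reducible apply PL.natCeil); qp_pl)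
      | ((with_reducible apply PL.one_sub_div); assumption; linarith)
      | ((with_reducible apply PL.one_sub_inv); assumption; linarith)
      | ((with_reducible apply PL.of_one_le); assumption; assumption)
      | ((with_reducible apply PL.of_two_le); assumption; assumption)
      | ((with_reducible apply PL.nat_pos); assumption; (first | assumption | positivity | omega))
      | ((with_reducible apply PL.of_le); (with_reducible assumption); qp_pl)
      | ((with_reducible apply PL.of_lt); (with_reducible assumption); qp_pl)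
      | ((with_reducible apply PL.of_eq); (with_reducible assumption); qp_pl)
      | ((with_reducible apply PL.of_half_le); assumption; linarith)
      | fail "qp: no polynomial lower bound")

macro_rules
  | `(tactic| qp_eu) => `(tactic| first
      | ((with_reducible apply EU.const); assumption)
      | ((with_reducible apply EU.self); assumption)
      | ((with_reducible apply EU.add); qp_eu; qp_eu)
      | ((with_reducible apply EU.sub); qp_eu; qp_eu)
      | ((with_reducible apply EU.mul); qp_eu; qp_eu)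
      | ((with_reducible apply EU.div); qp_eu; qp_el)
      | ((with_reducible apply EU.pow); qp_eu; qp_pu)
      | ((with_reducible apply EU.exp); qp_pu)
      | ((with_reducible apply EU.neg); qp_eu)
      | ((with_reducible apply EU.abs); qp_eu)
      | ((with_reducible apply EU.inv); qp_el)
      | ((with_reducible apply EU.max); qp_eu; qp_eu)
      | ((with_reducible apply EU.min); qp_eu; qp_eu)
      | ((with_reducible apply EU.sqrt); qp_eu)
      | ((with_reducible apply EU.log); qp_eu; qp_el)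
      | ((with_reducible apply EU.rpow); qp_eu; qp_el; qp_pu)
      | ((with_reducible apply EU.natCeil); qp_eu)
      | ((with_reducible apply EU.natFloor); qp_eu)
      | ((with_reducible apply EU.intCeil); qp_eu)
      | ((with_reducible apply EU.intFloor); qp_eu)
      | ((with_reducible apply EU.nat_add); qp_eu; qp_eu)
      | ((with_reducible apply EU.nat_mul); qp_eu; qp_eu)
      | ((with_reducible apply EU.nat_pow); qp_eu; qp_pu)
      | ((with_reducible apply EU.nat_sub); qp_eu)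
      | ((with_reducible apply EU.nat_div); qp_eu)
      | ((with_reducible apply EU.nat_max); qp_eu; qp_eu)
      | ((with_reducible apply EU.factorial); qp_pu)
      | ((with_reducible apply EU.nat_choose); qp_eu; qp_pu)
      | ((with_reducible apply EU.of_le); (with_reducible assumption); qp_pos; qp_eu)
      | ((with_reducible apply EU.of_abs_le); (with_reducible assumption); qp_eu)
      | ((with_reducible apply EU.of_lt); (with_reducible assumption); qp_pos; qp_eu)
      | ((with_reducible apply EU.of_eq); (with_reducible assumption); qp_eu)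
      | ((with_reducible apply EU.of_nat_le); (with_reducible assumption); qp_eu)
      | ((with_reducible apply EU.of_nat_lt); (with_reducible assumption); qp_eu)
      | fail "qp: no quasi-polynomial upper bound")

macro_rules
  | `(tactic| qp_el) => `(tactic| first
      | ((with_reducible apply EL.const); assumption; qp_pos)
      | ((with_reducible apply EL.self); assumption)
      | ((with_reducible apply EL.add_left); qp_el; qp_pos)
      | ((with_reducible apply EL.add_right); qp_el; qp_pos)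
      | ((with_reducible apply EL.mul); qp_el; qp_el)
      | ((with_reducible apply EL.div); qp_el; qp_eu; qp_pos)
      | ((with_reducible apply EL.pow); qp_el; qp_pu)
      | ((with_reducible apply EL.exp); qp_pu)
      | ((with_reducible apply EL.inv); qp_eu; qp_pos)
      | ((with_reducible apply EL.min); qp_el; qp_el)
      | ((with_reducible apply EL.max_left); qp_el)
      | ((with_reducible apply EL.max_right); qp_el)
      | ((with_reducible apply EL.sqrt); qp_el)
      | ((with_reducible apply EL.rpow); qp_eu; qp_el; qp_pu)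
      | ((with_reducible apply EL.natCeil); qp_el)
      | ((with_reducible apply EL.one_sub_div); assumption; linarith)
      | ((with_reducible apply EL.one_sub_inv); assumption; linarith)
      | ((with_reducible apply EL.of_exp_le); (with_reducible assumption); qp_pu)
      | ((with_reducible apply EL.of_one_le); assumption; assumption)
      | ((with_reducible apply EL.of_two_le); assumption; assumption)
      | ((with_reducible apply EL.nat_pos); assumption; (first | assumption | positivity | omega))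
      | ((with_reducible apply EL.of_le); (with_reducible assumption); qp_el)
      | ((with_reducible apply EL.of_lt); (with_reducible assumption); qp_el)
      | ((with_reducible apply EL.of_eq); (with_reducible assumption); qp_el)
      | ((with_reducible apply EL.of_half_le); assumption; linarith)
      | fail "qp: no quasi-polynomial lower bound")

/-- final goals, in the presence of a hypothesis `Big _ C` -/
syntax "qp_fin" : tactic

macro_rules
  | `(tactic| qp_fin) => `(tactic| first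
      | ((with_reducible apply PU.fin); (apply Big.le; with_reducible assumption); qp_pu)
      | ((with_reducible apply EU.fin); (apply Big.le; with_reducible assumption); qp_eu)
      | ((with_reducible apply EL.fin); (apply Big.le; with_reducible assumption); qp_el)
      | ((with_reducible apply EL.fin_inv); (apply Big.le; with_reducible assumption); qp_el)
      | ((with_reducible apply PL.fin); (apply Big.le; with_reducible assumption); qp_pl)
      | ((with_reducible apply PL.fin'); (apply Big.le; with_reducible assumption); qp_pl)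
      | ((with_reducible apply PU.fin_lt); (apply Big.le; with_reducible assumption); qp_pu)
      | ((with_reducible apply EU.fin_lt); (apply Big.le; with_reducible assumption); qp_eu)
      | ((with_reducible apply EL.fin_lt); (apply Big.le; with_reducible assumption); qp_el)
      | ((with_reducible apply mul_le_mul_of_nonneg_right); qp_fin; qp_pos)
      | ((with_reducible apply EU.fin_trans)
         (apply Big.le; with_reducible assumption)
         (with_reducible assumption)
         qp_eu)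
      | ((with_reducible apply EU.fin_trans_lt)
         (apply Big.le; with_reducible assumption)
         (with_reducible assumption)
         qp_eu)
      | ((with_reducible apply EL.fin_trans)
         (apply Big.le; with_reducible assumption)
         (with_reducible assumption)
         qp_el)
      | ((with_reducible apply PU.fin_trans)
         (apply Big.le; with_reducible assumption)
         (with_reducible assumption)
         qp_pu)
      | ((with_reducible apply fin_mul)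
         (apply Big.le; with_reducible assumption)
         (first | with_reducible assumption | with_reducible exact le_rfl)
         qp_eu
         qp_el)
      | ((with_reducible apply fin_mul')
         (apply Big.le; with_reducible assumption)
         (first | with_reducible assumption | with_reducible exact le_rfl)
         qp_eu
         qp_el)
      | ((with_reducible apply fin_div)
         (apply Big.le; with_reducible assumption)
         (first | with_reducible assumption | with_reducible exact le_rfl)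
         qp_eu
         qp_eu
         qp_pos)
      | ((with_reducible apply fin_div')
         (apply Big.le; with_reducible assumption)
         (first | with_reducible assumption | with_reducible exact le_rfl)
         qp_eu
         qp_el)
      | ((with_reducible apply fin_small)
         (apply Big.le; with_reducible assumption)
         (first | with_reducible assumption | with_reducible exact le_rfl)
         qp_pos
         qp_eu
         qp_el)
      | ((with_reducible apply fin_small')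
         (apply Big.le; with_reducible assumption)
         (first | with_reducible assumption | with_reducible exact le_rfl)
         qp_pos
         qp_eu
         qp_el)
      | ((with_reducible apply and_split)
         (with_reducible assumption)
         focus (intro _; intros; qp_fin)
         focus (intro _; intros; qp_fin)))

/-- find the exponent `C` in a quasi-polynomial bound -/
macro "qp" : tactic => `(tactic|
  (first | refine exists_of_big ?_ | refine ev_of_big ?_
   apply Exists.intro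
   intro _ _
   intros
   qp_fin))

section tests

example : ∃ C : ℕ, ∀ m : ℝ, 2 ≤ m → 5 * m ^ 3 + m + 7 ≤ m ^ C := by qp

example (C1 s : ℕ) : ∃ C : ℕ, ∀ (m H δ : ℝ) (d : ℕ), 2 ≤ m → (d : ℝ) ≤ m → 0 ≤ H → H ≤ exp m →
    exp (-m) ≤ δ → (((d : ℝ) + 1) * H) ^ (d + 2) ≤ exp (m ^ C) ∧
      exp (-m ^ C) ≤ δ ^ (2 ^ s) / (16 * ((d : ℝ) + 1) ^ d) ∧ (3 * m ^ C1 + d) ^ C1 ≤ m ^ C ∧
      exp ((m + 1) ^ C1) / δ ≤ exp (m ^ C) := by qp

example (C1 : ℕ) (c : ℝ) (hc : 0 < c) : ∀ᶠ C : ℕ in Filter.atTop, ∀ (m m' K : ℝ) (q : ℕ), 2 ≤ m →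
    2 ≤ m' → m' ≤ m ^ C1 → (q : ℝ) ≤ exp (m' ^ C1) → 1 ≤ K → K ≤ exp m' →
    (⌈K * q / c⌉₊ : ℝ) ≤ exp (m ^ C) ∧ exp (-m ^ C) ≤ c / (K * (q + 1)) ∧
      (m' / (1 / m)) ^ C1 + Real.log K ≤ m ^ C := by qp

example (C1 : ℕ) : ∃ C : ℕ, ∀ (ι : Type) [Fintype ι] (m ρ : ℝ) (N r : ℕ), 2 ≤ m →
    (Fintype.card ι : ℝ) ≤ m → r ≤ Fintype.card ι → exp (m ^ C) ≤ N → ρ ≤ exp (-m ^ C) →
    8 * exp (m ^ C1) * ((r + 1).factorial : ℝ) ≤ N ∧ ρ ≤ (1 - 1 / m) ^ r * exp (-m) / 4 ∧
      exp (-m ^ C) * (N : ℝ) ^ 2 ≤ exp (-(2 * m + r)) / 3 * (N : ℝ) ^ 2 ∧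
      ((2 * r + 1) ^ Fintype.card ι : ℕ) ≤ exp (m ^ C) ∧ |-(r : ℝ) + √m| ≤ m ^ C ∧
      (2 : ℝ) ^ r < exp (m ^ C) := by qp

example (C1 s : ℕ) : ∃ C : ℕ, ∀ (m ρ δ w ε : ℝ) (N d : ℕ), 2 ≤ m → (d : ℝ) ≤ m → exp (-m) ≤ δ →
    exp (m ^ C) ≤ N → 0 ≤ ρ → ρ ≤ exp (-m ^ C) → 0 ≤ w → w ≤ m ^ 2 → 1 / m ≤ ε →
    4 * d * exp m ≤ δ ^ 2 * N ∧ (d + 1) * ρ ≤ δ / 100 ∧ exp (m ^ C1) * exp (-m ^ C) ≤ δ ∧
      C1 * (w / ε) ^ C1 ≤ m ^ C ∧ (s : ℝ) ^ s * d / N ≤ δ ^ (s + d) ∧
      (1 : ℝ) ≤ N / (2 * d + 1) := by qp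

end tests

end Crest.Agent.T49.Qp
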