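import Crest.Agent.T49.EndZm_59
import Crest.Agent.T49.EaDef_64
import Crest.Agent.T49.Qp_85

/-!
# Row 49 (helper59): END, the increment step from the sampler
-/

set_option autoImplicit false

noncomputable section

namespace Crest.Agent.T49.End

open MvPolynomial Finset Crest.Agent.T49.Tw Crest.Agent.T49.Gl Crest.Agent.T49.Fm
open Crest.Agent.T49.Samp (cls Cong cls_nonneg cls_le_one)
open Crest.Agent.T49.Rg (zm dl pt Sg pt_dl zm_th ev_zm_th zm_mu)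
open Crest.Agent.T49.Ea (wc wmu wc_nonneg)

variable {ι : Type} {D : ℕ}

theorem pp_pp (G d : ℕ+) (r r' z : ι → ℤ) :
    pp G r (pp d r' z) = pp (G * d) (pp G r r') z := by
  funext c
  simp only [pp_apply]
  push_cast
  ring

variable [Fintype ι]

theorem wc_tsum (T : Cell ι) (G : ℕ+) (u : ℝ) (r : ι → ℤ) (t : ι → ℝ) (F : (ι → ℤ) → ℝ) :
    ∑' y, wc T (Real.exp (-u)) t G r y * F y = Sg (pz T G u r t).toTri fun z => F (pp G r z) := by
  unfold wc Sg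
  simp only [mul_assoc]
  rw [tsum_cls]
  refine tsum_congr fun z => ?_
  rw [pz_wgt]
  simp only [Real.exp_neg, div_inv_eq_mul, mul_comm (Real.exp u)]

theorem wmu_eq (T : Cell ι) (G : ℕ+) (u : ℝ) (r : ι → ℤ) (t : ι → ℝ) :
    wmu T (Real.exp (-u)) G = (pz T G u r t).mu := by
  rw [pz_mu, wmu, Real.exp_neg, div_eq_mul_inv T.mu, ← inv_pow, mul_inv, div_eq_mul_inv, mul_comm _⁻¹]

theorem pz_pz_wgt (T : Cell ι) (G d : ℕ+) (u u' : ℝ) (r r' : ι → ℤ) (t t' : ι → ℝ) (z : ι → ℤ) :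
    (pz (pz T G u r t) d u' r' t').wgt z =
      (pz T (G * d) (u + u') (pp G r r') fun c => t c + Real.exp (-u) * t' c).wgt z := by
  rw [pz_wgt, pz_wgt]
  congr 2
  refine sum_congr rfl fun c _ => ?_
  rw [ev_zm_th, ← pp_pp, Real.exp_add, Real.exp_neg]
  congr 1
  field_simp
  ring

/-- windows of the wide zoom as windows of the cell -/
theorem wm_win (T : Cell ι) {lam u : ℝ} (hu : Real.exp u * (2 * lam) = 1) (G : ℕ+) (r : ι → ℤ)
    (t : ι → ℝ) {q : ℝ} (hq : 4 ≤ q) (c' : ι → ℝ) (d : ℕ+) (r' : ι → ℤ) :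
    ∃ (l u' : ℝ) (c'' : ι → ℝ) (r'' : ι → ℤ), 0 < l ∧ l ^ 2 * q = 4 ∧ Cong G r'' r ∧
      Real.exp (-u') = lam * l ∧ ∀ F : (ι → ℤ) → ℝ,
        wm (pz T G u r t) q c' d r' (fun z => F (pp G r z)) =
          (∑' y, wc T (lam * l) c'' (G * d) r'' y * F y) / (pz T (G * d) u' r'' c'').M := by
  have hq0 : 0 < q := by linarith
  have e : Real.exp (Real.log q / 2) ^ 2 = q := by
    rw [← Real.exp_nat_mul]
    push_cast
    rw [mul_div_cancel₀ _ two_ne_zero, Real.exp_log hq0]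
  have e2 : Real.exp (-(u + Real.log q / 2)) = lam * (2 * Real.exp (-(Real.log q / 2))) := by
    rw [neg_add, Real.exp_add, Real.exp_neg u, ← mul_assoc, mul_comm lam]
    congr 1
    exact (eq_inv_of_mul_eq_one_right hu).symm
  refine ⟨2 * Real.exp (-(Real.log q / 2)), u + Real.log q / 2,
    fun c => t c + Real.exp (-u) * c' c, pp G r r', by positivity, ?_, cong_pp _ _ _, e2,
    fun F => ?_⟩
  · rw [mul_pow, Real.exp_neg, inv_pow, e]
    field_simp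
    norm_num
  · conv_lhs => rw [← e]
    rw [wm_eq, ← e2, ← PNat.mul_coe, wc_tsum]
    unfold Sg Tri.M
    simp only [pz_pz_wgt, pp_pp]

omit [Fintype ι] in
theorem shOK_shp {lev : ι → ℕ} {s L : ℕ} (hs : ∀ c, lev c ≤ s) {σ lam x y : ℝ} (hσ : 0 < σ)
    (hl : 0 < lam) (hl1 : lam ≤ 1) (G : ℕ+) (hG : ((G : ℕ) : ℝ) ≤ Real.exp x) (hσ1 : σ ≤ 1)
    (hx : 2 * σ⁻¹ ^ s ≤ Real.exp x) (h1 : σ * ((G : ℕ) * L) ≤ lam)
    (h2 : Real.exp (-y) * (2 * lam) ≤ σ * ((G : ℕ) * L)) :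
    ShOK (shp ι D σ lam G hσ hl) lev L x y := by
  have hG1 : (1 : ℝ) ≤ (G : ℕ) := by exact_mod_cast G.pos
  have hi : 1 ≤ σ⁻¹ := one_le_inv_iff₀.2 ⟨hσ, hσ1⟩
  have his : 1 ≤ σ⁻¹ ^ s := one_le_pow₀ hi
  refine ⟨rfl, rfl, fun c => by simp [shp], fun c α h => ?_, ⟨(G : ℕ), by exact_mod_cast G.pos,
    by exact_mod_cast hG, fun c α hα => ⟨?_, ?_⟩⟩, fun c α => ?_, fun c i => ?_,
    fun _ _ _ => ⟨rfl, rfl⟩⟩
  · simp [shp, Nat.sub_eq_zero_of_le h]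
  · exact pow_dvd_pow _ ((Nat.sub_le _ _).trans (mem_mi.1 hα))
  · refine le_trans ?_ hx
    simp only [shp]
    split_ifs with h
    · linarith
    · rw [inv_div, div_eq_mul_inv, ← inv_pow]
      refine mul_le_mul (by linarith) ?_ (by positivity) (by norm_num)
      refine le_trans (pow_le_pow_left₀ (by positivity) ?_ _)
        (pow_le_pow_right₀ hi ((mem_mi.1 hα).trans (hs c)))
      exact inv_anti₀ hσ (le_mul_of_one_le_left hσ.le hG1)
  · simp only [shp]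
    split_ifs with h
    · simp [h]
    · have h3 : α.degree ≠ 0 := fun h' => h ((Finsupp.degree_eq_zero_iff _).1 h')
      rw [div_mul_eq_mul_div, ← mul_pow, div_le_one (by positivity)]
      have h4 : ((G : ℕ) : ℝ) * σ * L ≤ lam := by linarith
      refine (pow_le_of_le_one (by positivity) (h4.trans hl1) h3).trans (by linarith)
  · have h3 : (Finsupp.single i 1 : Fin D →₀ ℕ) ≠ 0 := by simp
    simp only [shp, if_neg h3, Finsupp.degree_single, pow_one]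
    rw [div_mul_eq_mul_div, le_div_iff₀ (by positivity)]
    linarith

open Classical in
/-- finite families of frames based in the class as finite families of coordinates -/
theorem exists_coords (T : Cell ι) {σ lam u : ℝ} (hσ : 0 < σ) (hl : 0 < lam)
    (hu : Real.exp u * (2 * lam) = 1) (G : ℕ+) (r : ι → ℤ) (t : ι → ℝ)
    (S : Finset (Frm D T.lev)) : ∃ Z : Finset (FI D T.lev → ℤ), (∀ z ∈ Z, lift G r z ∈ S) ∧
      ∑ V ∈ S, pw T σ lam t G r V =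
        ∑ z ∈ Z, ((shp ι D σ lam G hσ hl).fc (pz T G u r t)).wgt z := by
  let co : Frm D T.lev → FI D T.lev → ℤ := fun V =>
    if h : Cong G (V.pt 0) r then (exists_lift h).choose else 0
  have hco : ∀ V, Cong G (V.pt 0) r → lift G r (co V) = V := fun V h => by
    simp only [co, dif_pos h]
    exact (exists_lift h).choose_spec
  refine ⟨(S.filter fun V => Cong G (V.pt 0) r).image co, fun z hz => ?_, ?_⟩
  · obtain ⟨V, hV, rfl⟩ := mem_image.1 hz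
    rw [hco V (mem_filter.1 hV).2]
    exact (mem_filter.1 hV).1
  · refine Eq.trans ?_ (sum_congr rfl fun z _ => pw_lift T hσ hl hu G r t z)
    have hi : Set.InjOn co (S.filter fun V => Cong G (V.pt 0) r) := fun V hV V' hV' h => by
      rw [← hco V (mem_filter.1 hV).2, ← hco V' (mem_filter.1 hV').2, h]
    rw [sum_image hi, sum_filter]
    refine sum_congr rfl fun V _ => ?_
    split_ifs with h
    · rw [hco V h]
    · rw [pw, cls, if_neg h, zero_mul]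

theorem mean_bd {A B M μ α c : ℝ} (hμ : 0 < μ) (hA : |A - μ| ≤ μ / 10) (hM : |M / μ - 1| ≤ 1 / 10)
    (hα : 0 ≤ α) (hc : 0 < c) (hc1 : c ≤ 1 / 2) (hB : 0 ≤ B) (hB' : B - (1 + c / 2) * α * A ≤ 0) :
    |(B - (1 + c) * α * A) / M| ≤ 2 * α ∧ (B - (1 + c) * α * A) / M ≤ -(2 / 5 * c * α) := by
  obtain ⟨h1, h2⟩ := abs_le.1 hA
  obtain ⟨h3, h4⟩ := abs_le.1 hM
  have h5 : 9 / 10 * μ ≤ M := by rw [← le_div_iff₀ hμ]; linarith
  have h6 : M ≤ 11 / 10 * μ := by rw [← div_le_iff₀ hμ]; linarith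
  have hM0 : 0 < M := by linarith
  have hcα : 0 ≤ c * α := by positivity
  have k1 : (B - (1 + c) * α * A) / M ≤ -(2 / 5 * c * α) := by
    rw [div_le_iff₀ hM0]
    nlinarith [mul_le_mul_of_nonneg_left h6 hcα, mul_le_mul_of_nonneg_left h1 hcα]
  refine ⟨abs_le.2 ⟨?_, by nlinarith⟩, k1⟩
  rw [le_div_iff₀ hM0]
  have h7 : (1 + c) * α ≤ 3 / 2 * α := by nlinarith
  have h8 : (1 + c) * α * A ≤ 3 / 2 * α * (11 / 10 * μ) :=
    mul_le_mul h7 (by linarith) (by linarith) (by positivity)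
  nlinarith [mul_le_mul_of_nonneg_left h5 hα]

theorem num1 {c A : ℝ} (hc : 0 < c) (hA : 1 ≤ A) : ∃ C : ℕ, ∀ X : ℝ, 2 ≤ X → X + 2 ≤ X ^ C ∧
    Real.exp (-X ^ C) ≤ Real.exp (-X) * Real.exp (-(3 * X + 3)) / (4 * A) ∧
    Real.exp (-X ^ C) ≤ Real.exp (-(3 * X)) / 4 ∧
    Real.exp (-X ^ C) ≤ c / 10 * Real.exp (-X) / (2 * Real.exp X) := by
  have hA0 : 0 < A := by linarith
  qp

theorem num2 (s D Cy C1 : ℕ) (A : ℝ) : ∃ C : ℕ, 2 ≤ C ∧ Cy ≤ C ∧ ∀ x : ℝ, 2 ≤ x →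
    (x ^ Cy) ^ C1 ≤ x ^ C ∧
    2 * Real.exp ((x ^ Cy) ^ C1) * (A * Real.exp x) * (Real.exp (3 * x + 3) * Real.exp x) ≤
      Real.exp (x ^ C) ∧
    ((s + 2) ^ 2 * x + 1) * (((2 * s + 2) * x) ^ C1 + fl D s ((2 * s + 2) * x)) ≤ x ^ C ∧
    ((s + 2) ^ 2 * x + 1) + (((2 * s + 2) * x) ^ C1 + fl D s ((2 * s + 2) * x)) ≤ x ^ C ∧
    (s + 2) ^ 2 * (2 * x) + 1 ≤ x ^ C := by
  have : ∀ᶠ C : ℕ in Filter.atTop, ∀ x : ℝ, 2 ≤ x → (x ^ Cy) ^ C1 ≤ x ^ C ∧
      2 * Real.exp ((x ^ Cy) ^ C1) * (A * Real.exp x) * (Real.exp (3 * x + 3) * Real.exp x) ≤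
        Real.exp (x ^ C) ∧
      ((s + 2) ^ 2 * x + 1) * (((2 * s + 2) * x) ^ C1 + fl D s ((2 * s + 2) * x)) ≤ x ^ C ∧
      ((s + 2) ^ 2 * x + 1) + (((2 * s + 2) * x) ^ C1 + fl D s ((2 * s + 2) * x)) ≤ x ^ C ∧
      (s + 2) ^ 2 * (2 * x) + 1 ≤ x ^ C := by
    unfold fl
    qp
  exact ((Filter.eventually_ge_atTop 2).and ((Filter.eventually_ge_atTop Cy).and this)).exists

theorem exists_len {σ lam ε E : ℝ} {L g N D : ℕ} (hσ : 0 < σ) (hσL : σ * L ≤ 1) (hl : 0 < lam)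
    (hl1 : lam ≤ 1) (hε : 0 < ε) (hε1 : ε ≤ 1 / 4) (hg : 1 ≤ g) (hE : 1 ≤ E)
    (h : 2 * E * (((D : ℝ) + N + 1) * g) ≤ ε * lam * L) :
    ∃ L' : ℕ, E ≤ L' ∧ 0 < L' ∧ g * L' ≤ L ∧ (D : ℝ) * (g * L') ≤ ε * L ∧ σ * (g * L') ≤ lam ∧
      N * (σ * (g * L')) ^ 2 ≤ ε ^ 2 * lam ^ 2 ∧
      σ * L * ε / (4 * ((D : ℝ) + N + 1)) * (2 * lam) ≤ σ * (g * L') := by
  have hD0 : (0 : ℝ) ≤ D := Nat.cast_nonneg D
  have hN0 : (0 : ℝ) ≤ N := Nat.cast_nonneg N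
  have hL0 : (0 : ℝ) ≤ L := Nat.cast_nonneg L
  have hg' : (1 : ℝ) ≤ g := by exact_mod_cast hg
  set A : ℝ := D + N + 1 with hA
  have hA1 : 1 ≤ A := by linarith
  set w : ℝ := ε * lam * L / (A * g) with hw
  have hw1 : 2 * E ≤ w := by rw [hw, le_div_iff₀ (by positivity)]; exact h
  have h1 : (⌊w⌋₊ : ℝ) ≤ w := Nat.floor_le (by linarith)
  have h2 : w / 2 ≤ ⌊w⌋₊ := by linarith [Nat.lt_floor_add_one w]
  have h3 : A * ((g : ℝ) * ⌊w⌋₊) ≤ ε * lam * L := by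
    rw [← mul_assoc, mul_comm, ← le_div_iff₀ (by positivity)]; exact h1
  have h4 : 0 ≤ (g : ℝ) * ⌊w⌋₊ := by positivity
  have h5 : ε * lam * L ≤ ε * L := by nlinarith [mul_nonneg hε.le hL0]
  have h6 : A * (σ * (g * ⌊w⌋₊)) ≤ ε * lam := by
    have := mul_le_mul_of_nonneg_left h3 hσ.le
    nlinarith [mul_pos hε hl]
  have h7 : 0 ≤ σ * (g * ⌊w⌋₊) := by positivity
  refine ⟨⌊w⌋₊, by linarith, ?_, ?_, by nlinarith, by nlinarith, ?_, ?_⟩
  · have : (0 : ℝ) < ⌊w⌋₊ := by linarith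
    exact_mod_cast this
  · have : (g : ℝ) * ⌊w⌋₊ ≤ L := by nlinarith
    exact_mod_cast this
  · rw [← mul_pow]
    refine le_trans ?_ (pow_le_pow_left₀ (by positivity) h6 2)
    rw [mul_pow A]
    exact mul_le_mul_of_nonneg_right (by nlinarith) (sq_nonneg _)
  · have : σ * L * ε / (4 * A) * (2 * lam) = σ * (g * (w / 2)) := by
      rw [hw]; field_simp; ring
    rw [this]
    gcongr

theorem exp_le_tenth {ℓ : ℝ} {C : ℕ} (hℓ2 : 2 ≤ ℓ) (hC2 : 2 ≤ C) : Real.exp (-ℓ ^ C) ≤ 1 / 10 := by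
  have h1 : (4 : ℝ) ≤ ℓ ^ C := by
    have := pow_le_pow_left₀ (by norm_num : (0 : ℝ) ≤ 2) hℓ2 2
    exact le_trans (by linarith) (pow_le_pow_right₀ (by linarith) hC2)
  rw [Real.exp_neg, ← one_div, div_le_div_iff₀ (Real.exp_pos _) (by norm_num)]
  have h4 := Real.quadratic_le_exp_of_nonneg (show 0 ≤ ℓ ^ C by linarith)
  nlinarith

theorem le_of_exp_mul {u x lam : ℝ} (hu : Real.exp u * (2 * lam) = 1) (hl : Real.exp (-x) ≤ lam) :
    u ≤ x := by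
  rw [← Real.exp_le_exp]
  have h1 : Real.exp (-x) * Real.exp x = 1 := by rw [← Real.exp_add]; simp
  have h2 := mul_le_mul_of_nonneg_right hl (Real.exp_pos x).le
  have := Real.exp_pos u
  have := Real.exp_pos x
  nlinarith

theorem eps_le {X : ℝ} (hX : 2 ≤ X) : Real.exp (-(3 * X + 3)) ≤ 1 / 4 := by
  rw [Real.exp_neg, ← one_div, div_le_div_iff₀ (Real.exp_pos _) (by norm_num)]
  linarith [Real.add_one_le_exp (3 * X + 3)]

theorem len_ok {X x lam A g L : ℝ} {Cy C1 : ℕ} (hX : 2 ≤ X) (hXx : X ≤ x) (hA : 0 ≤ A)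
    (hg0 : 0 ≤ g) (hg : g ≤ Real.exp x) (hl : Real.exp (-x) ≤ lam)
    (h : 2 * Real.exp ((x ^ Cy) ^ C1) * (A * Real.exp x) * (Real.exp (3 * x + 3) * Real.exp x) ≤
      L) : 2 * Real.exp ((X ^ Cy) ^ C1) * (A * g) ≤ Real.exp (-(3 * X + 3)) * lam * L := by
  have hl0 : 0 < lam := (Real.exp_pos _).trans_le hl
  set ε := Real.exp (-(3 * X + 3)) with hε
  have hε0 : 0 < ε := Real.exp_pos _
  have hε1 : ε * Real.exp (3 * X + 3) = 1 := by rw [hε, ← Real.exp_add]; simp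
  have hX0 : 0 ≤ X := by linarith
  have h1 : Real.exp ((X ^ Cy) ^ C1) ≤ Real.exp ((x ^ Cy) ^ C1) := by gcongr
  have h2 : 1 ≤ ε * lam * (Real.exp (3 * x + 3) * Real.exp x) := by
    have h3 : Real.exp (-x) * Real.exp x = 1 := by rw [← Real.exp_add]; simp
    have h4 : Real.exp (3 * X + 3) ≤ Real.exp (3 * x + 3) := Real.exp_le_exp.2 (by linarith)
    calc (1 : ℝ) = ε * Real.exp (-x) * (Real.exp (3 * X + 3) * Real.exp x) := by
          rw [mul_mul_mul_comm, hε1, h3, mul_one]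
      _ ≤ _ := by gcongr
  calc _ ≤ 2 * Real.exp ((x ^ Cy) ^ C1) * (A * Real.exp x) * 1 := by
        rw [mul_one]; gcongr
    _ ≤ 2 * Real.exp ((x ^ Cy) ^ C1) * (A * Real.exp x) *
        (ε * lam * (Real.exp (3 * x + 3) * Real.exp x)) := by gcongr
    _ = ε * lam * (2 * Real.exp ((x ^ Cy) ^ C1) * (A * Real.exp x) *
        (Real.exp (3 * x + 3) * Real.exp x)) := by ring
    _ ≤ _ := mul_le_mul_of_nonneg_left h (by positivity)

theorem inv_pow_le {σ L : ℝ} (s : ℕ) (hσ : 0 < σ) (hL0 : 0 < L) {X : ℝ} (hX : X ≤ Real.log L)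
    (h2 : 2 ≤ Real.log L) (hσL' : Real.exp (-X) ≤ σ * L) :
    2 * σ⁻¹ ^ s ≤ Real.exp ((2 * s + 2) * Real.log L) := by
  have h1 : σ⁻¹ ≤ Real.exp (2 * Real.log L) := by
    rw [inv_le_comm₀ hσ (Real.exp_pos _), ← Real.exp_neg]
    refine le_of_mul_le_mul_right (le_trans ?_ hσL') hL0
    conv_lhs => rw [← Real.exp_log hL0]
    rw [Real.log_exp, ← Real.exp_add, Real.exp_le_exp]
    linarith
  have h2 : (2 : ℝ) ≤ Real.exp (2 * Real.log L) := by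
    linarith [Real.add_one_le_exp (2 * Real.log L)]
  calc _ ≤ Real.exp (2 * Real.log L) * Real.exp (2 * Real.log L) ^ s := by gcongr
    _ = _ := by rw [← Real.exp_nat_mul, ← Real.exp_add]; congr 1; ring

theorem two_pow_le {n : ℕ} {X : ℝ} (hn : (n : ℝ) ≤ X) : (2 : ℝ) ^ n ≤ Real.exp X := by
  refine le_trans (pow_le_pow_left₀ (by norm_num) (show (2 : ℝ) ≤ Real.exp 1 by
    linarith [Real.add_one_le_exp (1 : ℝ)]) _) ?_
  rw [← Real.exp_nat_mul, Real.exp_le_exp]; linarith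

theorem psi_le {a b c α X : ℝ} (ha : 0 ≤ a ∧ a ≤ Real.exp X) (hb : 0 ≤ b ∧ b ≤ 1) (hc : 0 < c)
    (hc1 : c ≤ 1 / 2) (hα : 0 < α) (hα1 : α ≤ 1) : |a * (b - (1 + c) * α)| ≤ 2 * Real.exp X := by
  rw [abs_mul, mul_comm 2, abs_of_nonneg ha.1]
  refine mul_le_mul ha.2 (abs_le.2 ⟨?_, ?_⟩) (abs_nonneg _) (Real.exp_pos _).le
  · nlinarith [hb.1]
  · nlinarith [hb.2]

theorem eps_mul_le (X : ℝ) :
    16 * Real.exp (-(3 * X + 3)) * (Real.exp X * Real.exp X) ≤ Real.exp (-X) := by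
  have h2 : (16 : ℝ) ≤ Real.exp 3 := by
    have := Real.sum_le_exp_of_nonneg (show (0 : ℝ) ≤ 3 by norm_num) 5
    simp only [sum_range_succ, sum_range_zero, Nat.factorial] at this
    norm_num at this
    linarith
  calc _ ≤ Real.exp 3 * Real.exp (-(3 * X + 3)) * (Real.exp X * Real.exp X) := by gcongr
    _ = _ := by rw [← Real.exp_add, ← Real.exp_add, ← Real.exp_add]; congr 1; ring

theorem win_l {l q Y : ℝ} (k1 : 0 < l) (k2 : l ^ 2 * q = 4) (hq1 : 4 ≤ q) (hq2 : q ≤ Real.exp Y) :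
    l ≤ 1 ∧ Real.exp (-Y) ≤ l := by
  have k6 : l ≤ 1 := by nlinarith
  have h1 : Real.exp (-Y) * Real.exp Y = 1 := by rw [← Real.exp_add]; simp
  have h2 : l ^ 2 * q ≤ l * Real.exp Y := mul_le_mul (by nlinarith) hq2 (by linarith) k1.le
  exact ⟨k6, le_of_mul_le_mul_right (a := Real.exp Y) (by linarith) (Real.exp_pos _)⟩

theorem win_mean (T : Cell ι) {w u X K c α : ℝ} (hu : Real.exp (-u) = w) (t : ι → ℝ) (G : ℕ+)
    (r : ι → ℤ) {Γ f : (ι → ℤ) → ℝ} (hΓ : ∀ y, 0 ≤ Γ y ∧ Γ y ≤ Real.exp X)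
    (hf : ∀ y, 0 ≤ f y ∧ f y ≤ 1) (hK : 0 < K) (hα : 0 ≤ α) (hc : 0 < c) (hc1 : c ≤ 1 / 2)
    (k8 : |∑' y, wc T w t G r y * Γ y - wmu T w G| ≤ wmu T w G / 10)
    (k9 : ∑' y, wc T w t G r y * (Γ y * (f y - (1 + c / 2) * α)) ≤ 0)
    (k10 : |(pz T G u r t).M / (pz T G u r t).mu - 1| ≤ 1 / 10) :
    |(∑' y, wc T w t G r y * (K⁻¹ * (Γ y * (f y - (1 + c) * α)))) / (pz T G u r t).M| ≤
        K⁻¹ * (2 * α) ∧
      (∑' y, wc T w t G r y * (K⁻¹ * (Γ y * (f y - (1 + c) * α)))) / (pz T G u r t).M ≤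
        K⁻¹ * -(2 / 5 * c * α) := by
  rw [← wmu_eq, hu] at k10
  have hsw : Summable (wc T w t G r) := by
    refine Summable.of_nonneg_of_le (wc_nonneg _ _ _ _ _) (fun y => ?_)
      (pz T 1 u 0 t).summable_wgt
    have h1 : pp 1 0 y = y := funext fun c => by simp [pp_apply]
    rw [pz_wgt, h1, wc, ← hu]
    simp only [Real.exp_neg, div_inv_eq_mul, mul_comm (Real.exp u)]
    exact mul_le_of_le_one_left (Real.exp_pos _).le (cls_le_one _ _ _)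
  have hs1 : Summable fun y => wc T w t G r y * Γ y :=
    Summable.of_nonneg_of_le (fun y => mul_nonneg (wc_nonneg _ _ _ _ _ _) (hΓ y).1)
      (fun y => mul_le_mul_of_nonneg_left (hΓ y).2 (wc_nonneg _ _ _ _ _ _)) (hsw.mul_right _)
  have h0 : ∀ y, 0 ≤ wc T w t G r y * Γ y * f y := fun y =>
    mul_nonneg (mul_nonneg (wc_nonneg _ _ _ _ _ _) (hΓ y).1) (hf y).1
  have hs2 : Summable fun y => wc T w t G r y * Γ y * f y :=
    Summable.of_nonneg_of_le h0 (fun y => mul_le_of_le_one_right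
      (mul_nonneg (wc_nonneg _ _ _ _ _ _) (hΓ y).1) (hf y).2) hs1
  have e : ∀ a : ℝ, ∑' y, wc T w t G r y * (Γ y * (f y - a)) =
      ∑' y, wc T w t G r y * Γ y * f y - a * ∑' y, wc T w t G r y * Γ y := fun a => by
    rw [← tsum_mul_left, ← hs2.tsum_sub (hs1.mul_left a)]
    exact tsum_congr fun y => by ring
  rw [e] at k9
  have hμ : 0 < wmu T w G := by
    rw [← hu, wmu_eq T G u r t]; exact Tri.mu_pos _
  obtain ⟨m1, m2⟩ := mean_bd hμ k8 k10 hα hc hc1 (tsum_nonneg h0) k9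
  simp only [mul_left_comm _ K⁻¹]
  rw [tsum_mul_left, e, mul_div_assoc, abs_mul, abs_of_pos (inv_pos.2 hK)]
  exact ⟨mul_le_mul_of_nonneg_left m1 (by positivity),
    mul_le_mul_of_nonneg_left m2 (by positivity)⟩

theorem fin_contra {K c α E W : ℝ} (hK : 0 < K) (hc : 0 < c) (hα : 0 < α)
    (h1 : 0 - c / 10 * (K⁻¹ * (2 * α)) - E ≤ W) (h2 : W ≤ K⁻¹ * -(2 / 5 * c * α))
    (h3 : E ≤ K⁻¹ * (c / 10 * α)) : False := by
  have h4 : 0 < K⁻¹ * (c * α) := by positivity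
  nlinarith

set_option maxHeartbeats 800000 in
theorem inc_of_samp {s : ℕ} (h : SampT s D) : Ea.Inc s D := by
  intro c hc hc1
  obtain ⟨C1, hS⟩ := h (c / 10) (by positivity)
  have hA1 : (1 : ℝ) ≤ D + #(mi D s) + 1 := by
    linarith [Nat.cast_nonneg (α := ℝ) D, Nat.cast_nonneg (α := ℝ) #(mi D s)]
  obtain ⟨Cy, hCy⟩ := num1 hc hA1
  obtain ⟨C, hC2, hCCy, hC⟩ := num2 s D Cy C1 (D + #(mi D s) + 1)
  refine ⟨C, fun ι _ T σ X x α lam L g cen r Γ f Z wt rb hs hX hXx hn hσ hσL hσL' hL hA' hg1 hg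
    hl hl1 hΓ hf hα hα1 hrb hinj hw0 hw hEQ hsig => ?_⟩
  lift g to ℕ+ using hg1 with G
  by_contra hcon
  push Not at hcon
  obtain ⟨y1, y2, y3, y4⟩ := hCy X hX
  have hx : 2 ≤ x := hX.trans hXx
  have hs0 : (0 : ℝ) ≤ s := Nat.cast_nonneg s
  have hL0 : (0 : ℝ) < L := (Real.exp_pos _).trans_le hL
  have hL1 : (1 : ℝ) ≤ L := by exact_mod_cast Nat.pos_of_ne_zero (Nat.cast_ne_zero.1 hL0.ne')
  have hℓ1 : x ^ C ≤ Real.log L := (Real.le_log_iff_exp_le hL0).2 hL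
  set ℓ := Real.log L with hℓ
  have hxC : x ≤ x ^ C := le_self_pow₀ (by linarith) (by omega)
  have hXC : X ^ C ≤ x ^ C := pow_le_pow_left₀ (by linarith) hXx C
  have hxℓ : x ≤ ℓ := hxC.trans hℓ1
  have hℓ2 : 2 ≤ ℓ := hx.trans hxℓ
  obtain ⟨-, -, c3, c4, c5⟩ := hC ℓ hℓ2
  obtain ⟨c1, -⟩ := hC X hX
  obtain ⟨-, c2, -⟩ := hC x hx
  have hl0 : 0 < lam := (Real.exp_pos _).trans_le hl
  have hα0 : 0 < α := (Real.exp_pos _).trans_le hα
  have hσ1 : σ ≤ 1 := (le_mul_of_one_le_right hσ.le hL1).trans hσL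
  have hη : Real.exp (-ℓ ^ C) ≤ 1 / 10 := exp_le_tenth hℓ2 hC2
  obtain ⟨u, hu⟩ : ∃ u, Real.exp u * (2 * lam) = 1 :=
    ⟨-Real.log (2 * lam), by rw [Real.exp_neg, Real.exp_log (by positivity)]; field_simp⟩
  have hux : u ≤ x := le_of_exp_mul hu hl
  -- the wide zoom and the shape
  have hx'0 : 0 ≤ (2 * s + 2) * ℓ := by positivity
  have hℓℓ : ℓ ≤ (2 * s + 2) * ℓ := le_mul_of_one_le_left (by linarith) (by linarith)
  have hfl : 0 ≤ fl D s ((2 * s + 2) * ℓ) := by unfold fl; positivity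
  have hA1w : (pz T G u r cen).AllPC (((2 * s + 2) * ℓ) ^ C1 + fl D s ((2 * s + 2) * ℓ))
      (Real.exp (-ℓ ^ C)) :=
    Cell.allPC_pc hA' (pc_pz T hs G r cen (z := ℓ) (by linarith)
      (hg.trans (Real.exp_le_exp.2 hxℓ)) (hux.trans hxℓ) le_rfl) c3 c4
  set ε := Real.exp (-(3 * X + 3)) with hε
  have hε0 : 0 < ε := Real.exp_pos _
  have hε2 : ε ≤ 1 / 4 := eps_le hX
  obtain ⟨L', l1, l2, l3, l4, l5, l6, l7⟩ := exists_len (E := Real.exp ((X ^ Cy) ^ C1))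
    (N := #(mi D s)) (D := D) hσ hσL hl0 hl1 hε0 hε2 G.pos (Real.one_le_exp (by positivity))
      (len_ok hX hXx (by linarith) (Nat.cast_nonneg _) hg hl (c2.trans hL))
  have hok : ShOK (shp ι D σ lam G hσ hl0) T.lev L' ((2 * s + 2) * ℓ) (X ^ Cy) := by
    refine shOK_shp hs hσ hl0 hl1 G (hg.trans (Real.exp_le_exp.2 (hxℓ.trans hℓℓ))) hσ1
      (inv_pow_le s hσ hL0 (hXx.trans hxℓ) hℓ2 hσL') l5 ?_
    refine le_trans (mul_le_mul_of_nonneg_right (y2.trans ?_) (by positivity)) l7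
    gcongr
  set m := fmu T D σ * (lam / (G : ℕ)) ^ Fintype.card ι with hm
  have hG0 : (0 : ℝ) < (G : ℕ) := by exact_mod_cast G.pos
  have hm0 : 0 < m := mul_pos (fmu_pos T D hσ) (by positivity)
  have hmu : (shp ι D σ lam G hσ hl0).mu (pz T G u r cen) = 2 ^ Fintype.card ι * m := by
    have h1 : (((G : ℕ) : ℝ) * Real.exp u)⁻¹ = 2 * (lam / (G : ℕ)) := by
      rw [mul_inv, eq_inv_of_mul_eq_one_left hu, inv_inv]; field_simp
    have h2 := T.mu_pos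
    rw [shp_mu T hσ hl0 hu, pz_mu, hmu, hm, div_eq_mul_inv T.mu, ← inv_pow, h1, mul_pow]
    field_simp
  have h2n : (2 : ℝ) ^ Fintype.card ι ≤ Real.exp X := two_pow_le hn
  have hK : 0 < 2 * Real.exp X := by positivity
  have hψ : ∀ y, |Γ y * (f y - (1 + c) * α)| ≤ 2 * Real.exp X := fun y =>
    psi_le (hΓ y) (hf y) hc hc1 hα0 hα1
  have hM : ∀ S : Finset (Frm D T.lev), ∑ V ∈ S, pw T σ lam cen G r V ≤
      2 * (2 ^ Fintype.card ι * m) := fun S => by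
    obtain ⟨Z0, -, hZ0⟩ := exists_coords T hσ hl0 hu G r cen S
    have h1 := (shp ι D σ lam G hσ hl0).M_le (pz T G u r cen) hs hok.ok hA1w
      (le_add_of_nonneg_left (by positivity))
    rw [hmu, ← Sh.fc_M] at h1
    rw [hZ0]
    refine (Summable.sum_le_tsum Z0 (fun z _ => Tri.wgt_nonneg _ z) (Tri.summable_wgt _)).trans
      (h1.trans ?_)
    gcongr
    linarith
  obtain ⟨-, Z', hZ1, hZ2⟩ := sub_main T hs hσ hl0 hl1 cen G r Z wt rb hrb hinj hw0 hw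
    (fun y => Γ y * (f y - (1 + c) * α)) hK hψ hM (Δ := Real.exp (-X) * m) (by positivity) hε0 hε2
    (by
      calc _ = 16 * ε * (Real.exp X * 2 ^ Fintype.card ι) * m := by ring
        _ ≤ 16 * ε * (Real.exp X * Real.exp X) * m := by gcongr
        _ ≤ _ := mul_le_mul_of_nonneg_right (eps_mul_le X) hm0.le)
    l2 (by exact_mod_cast hL0) l3 l4 (l5.trans hl1) l6 hsig
  obtain ⟨Z0, hZ3, hZ4⟩ := exists_coords T hσ hl0 hu G r cen Z'
  have key : ∀ (q : ℝ) (c' : ι → ℝ) (d : ℕ) (r' : ι → ℤ), 4 ≤ q → q ≤ Real.exp ((X ^ Cy) ^ C1) →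
      1 ≤ d → (d : ℝ) ≤ Real.exp ((X ^ Cy) ^ C1) →
      |wm (pz T G u r cen) q c' d r' fun z => (2 * Real.exp X)⁻¹ *
        (Γ (pp G r z) * (f (pp G r z) - (1 + c) * α))| ≤ (2 * Real.exp X)⁻¹ * (2 * α) ∧
      wm (pz T G u r cen) q c' d r' (fun z => (2 * Real.exp X)⁻¹ *
        (Γ (pp G r z) * (f (pp G r z) - (1 + c) * α))) ≤
        (2 * Real.exp X)⁻¹ * -(2 / 5 * c * α) := by
    intro q c' d r' hq1 hq2 hd1 hd2
    lift d to ℕ+ using hd1
    obtain ⟨l, u', c'', r'', k1, k2, k3, k4, k5⟩ := wm_win T hu G r cen hq1 c' d r'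
    have hE := Real.exp_le_exp.2 c1
    obtain ⟨k6, k7⟩ := win_l k1 k2 hq1 (hq2.trans hE)
    have k8 := hEQ d l c'' r'' d.pos (hd2.trans hE) k7 k6 k3
    have k9 := (hcon d l c'' r'' d.pos (hd2.trans hE) k7 k6 k3).le
    have hc' : T.PC (ℓ ^ C) (pz T (G * d) u' r'' c'') id := by
      refine pc_pz T hs (G * d) r'' c'' (z := 2 * ℓ) (by linarith) ?_ ?_ c5
      · rw [PNat.mul_coe, Nat.cast_mul, two_mul, Real.exp_add]
        exact mul_le_mul (hg.trans (Real.exp_le_exp.2 hxℓ))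
          (hd2.trans (hE.trans (Real.exp_le_exp.2 (hXC.trans hℓ1)))) (by positivity) (by positivity)
      · have h1 : Real.exp (-x) * Real.exp (-X ^ C) ≤ Real.exp (-u') := by
          rw [k4]; exact mul_le_mul hl k7 (Real.exp_pos _).le hl0.le
        rw [← Real.exp_add, Real.exp_le_exp] at h1
        linarith
    have k10 := (hA' _ _ _ hc').trans hη
    rw [k5 fun y => (2 * Real.exp X)⁻¹ * (Γ y * (f y - (1 + c) * α))]
    exact win_mean T k4 c'' (G * d) r'' hΓ hf hK hα0.le hc hc1 k8 k9 k10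
  obtain ⟨q, c', d, r', hq1, hq2, hd1, hd2, hfin⟩ := hS ι (pz T G u r cen)
    (shp ι D σ lam G hσ hl0) L' ((2 * s + 2) * ℓ) (X ^ Cy) ((2 * Real.exp X)⁻¹ * (2 * α)) 0
    (fun z => (2 * Real.exp X)⁻¹ * (Γ (pp G r z) * (f (pp G r z) - (1 + c) * α))) Z0 hs
    (by linarith) (by
      have := pow_le_pow_right₀ (show 1 ≤ X by linarith) hCCy
      nlinarith) hok l1
    (Cell.allPC_mono hA1w (le_add_of_nonneg_right hfl) (Real.exp_le_exp.2 (by nlinarith)))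
    (fun z => by
      rw [abs_mul, abs_of_pos (inv_pos.2 hK), inv_mul_le_iff₀ hK, mul_one]; exact hψ _)
    (by positivity) (fun q c' d r' h1 h2 h3 h4 => (key q c' d r' h1 h2 h3 h4).1)
    (by
      refine le_trans ?_ hZ4.le
      rw [hmu]
      refine le_of_mul_le_mul_left (le_trans ?_ hZ1) (show 0 < 2 * (2 * Real.exp X) by positivity)
      calc _ ≤ 2 * (2 * Real.exp X) * (Real.exp (-(3 * X)) / 4 * (Real.exp X * m)) := by gcongr
        _ = Real.exp X * Real.exp (-(3 * X)) * Real.exp X * m := by ring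
        _ = _ := by rw [← Real.exp_add, ← Real.exp_add]; congr 2; ring)
    (fun z hz => by
      rw [zero_mul, ← mul_sum]
      refine mul_nonneg (by positivity) ((hZ2 _ (hZ3 z hz)).2.trans_eq ?_)
      exact sum_congr rfl fun v _ => congrArg (fun y => Γ y * (f y - (1 + c) * α))
        (lift_pt (lev := T.lev) hσ hl0 G r z v))
  refine fin_contra hK hc hα0 hfin (key q c' d r' hq1 hq2 hd1 hd2).2 (y4.trans ?_)
  rw [div_eq_inv_mul]
  gcongr

/-- **INC** from the sampler -/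
theorem incStmt_of (h : SampTStmt) : Ea.IncStmt := fun s hs => by
  obtain ⟨D0, h⟩ := h s hs
  exact ⟨D0, fun D hD => inc_of_samp (h D hD)⟩

end Crest.Agent.T49.End
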