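import Crest.Agent.T49.FmDef_17
import Crest.Agent.T49.MxCell_53
import Crest.Agent.T49.TwTri_51

/-!
# Row 49 (helper17): the frame cell is a projective cover; masses and tails
-/

set_option autoImplicit false
set_option linter.unusedSectionVars false

noncomputable section

namespace Crest.Agent.T49.Fm

open MvPolynomial Crest.Agent.T49.Tw Crest.Agent.T49.Gl Crest.Agent.T49.Rng

variable {ι : Type} {D : ℕ}

theorem card_mi_le (D l : ℕ) : (mi D l).card ≤ (l + 1) ^ D := by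
  classical
  have h : (mi D l).card ≤ (Fintype.piFinset fun _ : Fin D => Finset.range (l + 1)).card := by
    refine Finset.card_le_card_of_injOn (fun α => (α : Fin D → ℕ)) (fun α hα => ?_)
      fun α _ β _ h => DFunLike.coe_injective h
    have h1 := mem_mi.1 (Finset.mem_coe.1 hα)
    refine Finset.mem_coe.2 (Fintype.mem_piFinset.2 fun i => Finset.mem_range.2 ?_)
    exact Nat.lt_succ_of_le ((Finsupp.le_degree i α).trans h1)
  simpa using h

theorem zero_mem_mi (D l : ℕ) : (0 : Fin D →₀ ℕ) ∈ mi D l := mem_mi.2 (by simp)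

theorem mi_mono {l l' : ℕ} (h : l ≤ l') : mi D l ⊆ mi D l' :=
  fun _ hα => mem_mi.2 ((mem_mi.1 hα).trans h)

/-- the generators `1, t_1, …, t_D` -/
def gen (R : Type) [CommRing R] (D : ℕ) : Option (Fin D) → MvPolynomial (Fin D) R :=
  fun o => o.elim 1 X

theorem exists_prod_gen (l : ℕ) : ∀ α : Fin D →₀ ℕ, α.degree ≤ l →
    ∃ u : Fin l → Option (Fin D), ∏ i, gen ℝ D (u i) = monomial α 1 := by
  induction l with
  | zero =>
    intro α hα
    obtain rfl : α = 0 := (Finsupp.degree_eq_zero_iff α).1 (by omega)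
    exact ⟨Fin.elim0, by simp⟩
  | succ l ih =>
    intro α hα
    by_cases h : α.degree ≤ l
    · obtain ⟨u, hu⟩ := ih α h
      refine ⟨Fin.cons none u, ?_⟩
      rw [Fin.prod_univ_succ]
      simp only [Fin.cons_zero, Fin.cons_succ, hu]
      exact one_mul _
    · have h0 : α ≠ 0 := by rintro rfl; simp at h
      obtain ⟨i, hi⟩ := Finsupp.support_nonempty_iff.2 h0
      have h4 : Finsupp.single i 1 ≤ α :=
        Finsupp.single_le_iff.2 (Nat.one_le_iff_ne_zero.2 (Finsupp.mem_support_iff.1 hi))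
      obtain ⟨β, rfl⟩ := exists_add_of_le h4
      rw [map_add, Finsupp.degree_single] at hα
      obtain ⟨u, hu⟩ := ih β (by omega)
      refine ⟨Fin.cons (some i) u, ?_⟩
      rw [Fin.prod_univ_succ]
      simp only [Fin.cons_zero, Fin.cons_succ, hu]
      show X i * _ = _
      rw [X, monomial_mul, one_mul]

/-- loss of the frame cell -/
def fl (D s : ℕ) (u : ℝ) : ℝ := (s + 1) ^ (D + 1) * ((s + 1) * u + s ^ 2 + 1)

theorem abs_coeff_le_nrm' {σ : Type} (f : Pl σ) (m : σ →₀ ℕ) : |coeff m f| ≤ nrm f := by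
  by_cases h : m ∈ f.support
  · exact Finset.single_le_sum (f := fun m => |coeff m f|) (fun _ _ => abs_nonneg _) h
  · rw [notMem_support_iff.1 h, abs_zero]; exact Ch4.nrm_nonneg f

/-- covers only see levels, top parts and the sizes of the diagonal -/
theorem pc_congr {κ : Type} [Fintype ι] [Fintype κ] {T : Cell ι} {U U' : Cell κ} {π : κ → ι}
    {x : ℝ} (h : T.PC x U π) (h1 : U'.lev = U.lev) (h2 : ∀ c, U'.tth c = U.tth c)
    (h3 : ∀ c, U'.a c = U.a c) (h4 : ∀ cl, T.IsMC cl → U'.IsMC (cl ∘ π)) : T.PC x U' π :=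
  ⟨fun c => by rw [h1]; exact h.lev c, h.card, fun cl j => by
    have : U'.kapM (cl ∘ π) j = U.kapM (cl ∘ π) j := by simp only [Cell.kapM, h3]
    rw [this]; exact h.kap cl j, h4,
    fun cl hm j H Λ hR => Cell.regAtM_congr h1 h2 (h.reg cl hm j H Λ hR)⟩

namespace Sh
variable (S : Sh ι D) (T : Cell ι)

/-- admissible shape of complexity `u` -/
def Ok (lev : ι → ℕ) (u : ℝ) : Prop :=
  ∃ G : ℤ, 0 < G ∧ (G : ℝ) ≤ Real.exp u ∧
    ∀ c, ∀ α ∈ mi D (lev c), S.g c α ∣ G ^ lev c ∧ (S.sc c α)⁻¹ ≤ Real.exp u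

theorem Ok.nonneg {S : Sh ι D} {lev : ι → ℕ} {u : ℝ} (h : S.Ok lev u) : 0 ≤ u := by
  obtain ⟨G, h1, h2, -⟩ := h
  have : (1 : ℝ) ≤ G := by exact_mod_cast h1
  exact Real.one_le_exp_iff.1 (this.trans h2)

theorem Ok.mono {S : Sh ι D} {lev : ι → ℕ} {u u' : ℝ} (h : S.Ok lev u) (hu : u ≤ u') :
    S.Ok lev u' := by
  obtain ⟨G, h1, h2, h3⟩ := h
  have := Real.exp_le_exp.2 hu
  exact ⟨G, h1, h2.trans this, fun c α hα => ⟨(h3 c α hα).1, (h3 c α hα).2.trans this⟩⟩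

theorem mcp_coP (φ : Pl (Fin D) →ₗ[ℝ] ℝ) {cl : ι → ℕ} {f : Pl ι} {j : ℕ} (hf : MCP cl f j) :
    MCP (cl ∘ Sigma.fst) (coP φ (aeval (S.Gw T.lev) f)) j := by
  classical
  rw [f.as_sum, map_sum, map_sum]
  refine MCP.sum _ fun m hm => ?_
  by_cases h : ∀ c ∈ m.support, cl c < j
  · refine MCP.of_supp (S.coP_aeval_mem T φ (s := {c | cl c < j}) ?_)
    refine Asm.mem_supported_iff.2 fun m' hm' c hc => ?_
    rw [Finset.mem_singleton.1 (support_monomial_subset hm')] at hc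
    exact h c hc
  · push Not at h
    obtain ⟨c, hc, hj⟩ := h
    obtain ⟨h1, h2⟩ := (hf m hm c hc).resolve_left (by omega)
    have : (monomial m (coeff m f) : Pl ι) = coeff m f • X c := by
      rw [X, smul_monomial, smul_eq_mul, mul_one, ← h2]
    rw [this, map_smul, map_smul, aeval_X, Gw, map_add, coP_C', G0, map_sum, smul_eq_C_mul]
    refine ((MCP.C _).add (MCP.sum _ fun α _ => ?_)).C_mul _
    rw [← map_X (algebraMap ℝ (Pl (Fin D))), coP_C_mul_map]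
    exact (MCP.X' (cl := cl ∘ Sigma.fst) (c := (⟨c, α⟩ : FI D T.lev)) h1).C_mul _

theorem fc_isMC {cl : ι → ℕ} (h : T.IsMC cl) : (S.fc T).IsMC (cl ∘ Sigma.fst) :=
  Cell.isMC_of (fun x => h.pos x.1) fun x => (MCP.C _).add (S.mcp_coP T _ (h.B x.1))

theorem bind_tth (a : Pl (Fin D)) (n : FI D T.lev → ℤ)
    (hn : ∀ c, a ^ T.lev c = ∑ α : {α // α ∈ mi D (T.lev c)},
      monomial α.1 ((S.g c α.1 : ℝ) * n ⟨c, α⟩)) (x : FI D T.lev) :
    bind₁ (fun x : FI D T.lev => (C (n x : ℝ) * X x.1 : Pl ι)) ((S.fc T).tth x) =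
      C (S.cf x.1 x.2.1 (a ^ T.lev x.1)) * T.tth x.1 := by
  rw [fc_tth, bind_coP, ← coP_C_mul_map, ← aeval_dil T.lev a (Ch4.tth_hom T x.1)]
  congr 1
  have h := comp_aeval_apply (R := ℝ) (f := S.G0 T.lev)
    ((bind₁ (R := Pl (Fin D)) fun x : FI D T.lev =>
      map (algebraMap ℝ (Pl (Fin D))) (C (n x : ℝ) * X x.1 : Pl ι)).restrictScalars ℝ) (T.tth x.1)
  refine Eq.trans h ?_
  congr 2
  funext c
  rw [hn c, G0, map_sum, map_sum, Finset.sum_mul]
  refine Finset.sum_congr rfl fun α _ => ?_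
  have e : (monomial α.1 ((S.g c α.1 : ℝ) * n ⟨c, α⟩) : Pl (Fin D)) =
      monomial α.1 (S.g c α.1 : ℝ) * algebraMap ℝ (Pl (Fin D)) (n ⟨c, α⟩ : ℝ) := by
    rw [algebraMap_eq, mul_comm (monomial _ _), C_mul_monomial, mul_comm]
  simp only [AlgHom.coe_restrictScalars', map_mul, bind₁_C_right, bind₁_X_right, map_X, map_C, e]
  ring

variable [Fintype ι]

theorem fc_dcov {s : ℕ} (hs : ∀ c, T.lev c ≤ s) {u : ℝ} (h : S.Ok T.lev u) :
    T.DCov (S.fc T) Sigma.fst (Real.exp ((s + 1) * u + s ^ 2)) := by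
  classical
  have hu := h.nonneg
  obtain ⟨G, hG0, hG, hg⟩ := h
  let b : (Option (Fin D) → ℕ) → MvPolynomial (Fin D) ℤ := fun n => ∑ i, (n i : ℤ) • gen ℤ D i
  let bR : (Option (Fin D) → ℕ) → Pl (Fin D) := fun n => ∑ i, (n i : ℤ) • gen ℝ D i
  have hb : ∀ n, map (Int.castRingHom ℝ) (b n) = bR n := fun n => by
    simp only [b, bR, map_sum, map_zsmul]
    refine Finset.sum_congr rfl fun i _ => ?_
    cases i <;> simp [gen]
  have hdeg : ∀ n, DegLe (fun _ => 1) (bR n) 1 := fun n => by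
    refine degLe_one_iff.2 fun m hm => degree_le_of_totalDegree ?_ hm
    refine totalDegree_finsetSum_le fun i _ => (totalDegree_smul_le _ _).trans ?_
    cases i <;> simp [gen]
  have hnrm : ∀ n : Option (Fin D) → ℕ, ∑ i, n i ≤ s → nrm (bR n) ≤ s := fun n hn => by
    refine (Ch4.nrm_sum_le _ _).trans (le_trans (Finset.sum_le_sum fun i _ => ?_)
      (show ∑ i, (n i : ℝ) ≤ s by exact_mod_cast hn))
    rw [zsmul_eq_mul, ← map_intCast (C : ℝ →+* Pl (Fin D))]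
    refine (Ch4.nrm_mul_le _ _).trans ?_
    have : nrm (gen ℝ D i) = 1 := by
      cases i
      · have := Ch4.nrm_C (ι := Fin D) 1
        rwa [C_1, abs_one] at this
      · exact Ch4.nrm_X _
    rw [this, Ch4.nrm_C]; simp
  refine Cell.dcov_of_diag (α := {n : Option (Fin D) → ℕ // ∑ i, n i ≤ s}) (fun _ => rfl)
    (fun t x => G ^ T.lev x.1 / S.g x.1 x.2.1 * coeff x.2.1 (b t.1 ^ T.lev x.1))
    (fun t x => S.cf x.1 x.2.1 ((C (G : ℝ) * bR t.1) ^ T.lev x.1)) (fun t x => ?_)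
    (fun t x => S.bind_tth T _ _ (fun c => ?_) x) fun ξ hξ => ?_
  · have hl := T.lev_pos x.1
    have hs1 : (1 : ℝ) ≤ s := by exact_mod_cast le_trans hl (hs x.1)
    have hG1 : (0 : ℝ) < G := by exact_mod_cast hG0
    have h1 : nrm (C (G : ℝ) * bR t.1) ≤ Real.exp (u + s) := by
      refine (Ch4.nrm_mul_le _ _).trans ?_
      rw [Ch4.nrm_C, abs_of_pos hG1, Real.exp_add]
      exact mul_le_mul hG ((hnrm _ t.2).trans (by linarith [Real.add_one_le_exp (s : ℝ)]))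
        (Ch4.nrm_nonneg _) (Real.exp_pos _).le
    have h2 : |coeff x.2.1 ((C (G : ℝ) * bR t.1) ^ T.lev x.1)| ≤ Real.exp (s * (u + s)) := by
      refine (abs_coeff_le_nrm' _ _).trans ((Ch4.nrm_pow_le h1 _).trans ?_)
      rw [← Real.exp_nat_mul, Real.exp_le_exp]
      exact mul_le_mul_of_nonneg_right (by exact_mod_cast hs x.1) (by linarith)
    rw [cf_apply, div_eq_mul_inv, abs_mul, abs_of_pos (inv_pos.2 (S.sc_pos _ _))]
    calc _ ≤ Real.exp (s * (u + s)) * Real.exp u :=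
          mul_le_mul h2 (hg _ _ x.2.2).2 (inv_pos.2 (S.sc_pos _ _)).le (Real.exp_pos _).le
      _ = _ := by rw [← Real.exp_add]; congr 1; ring
  · ext m
    rw [coeff_sum]
    by_cases hm : m ∈ mi D (T.lev c)
    · rw [Finset.sum_eq_single ⟨m, hm⟩ (fun β _ hβ => by
        rw [coeff_monomial, if_neg fun h => hβ (Subtype.ext h)]) (by simp), coeff_monomial,
        if_pos rfl, mul_pow, ← C_pow, coeff_C_mul, ← hb, ← map_pow, coeff_map]
      have := Int.mul_ediv_cancel' (hg c m hm).1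
      simp only [eq_intCast]
      rw [← Int.cast_pow, ← this]
      push_cast
      rw [Int.mul_ediv_cancel_left _ (S.g_pos c m).ne']
      ring
    · rw [Finset.sum_eq_zero fun β _ => by
        rw [coeff_monomial, if_neg fun h : β.1 = m => hm (h ▸ β.2)]]
      by_contra h0
      refine hm (mem_mi.2 (degree_le_of_totalDegree ((totalDegree_pow _ _).trans ?_)
        (mem_support_iff.2 h0)))
      have : (C (G : ℝ) * bR t.1).totalDegree ≤ 1 := by
        refine (totalDegree_mul _ _).trans ?_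
        rw [totalDegree_C, zero_add]
        exact totalDegree_le_of_degree (degLe_one_iff.1 (hdeg _))
      simpa using Nat.mul_le_mul_left (T.lev c) this
  · funext x
    obtain ⟨c, α⟩ := x
    let Φ : Pl (Fin D) →ₗ[ℝ] ℝ := ∑ β : {β // β ∈ mi D (T.lev c)}, ξ ⟨c, β⟩ • S.cf c β.1
    have hΦ : ∀ p, Φ p = ∑ β : {β // β ∈ mi D (T.lev c)}, ξ ⟨c, β⟩ * S.cf c β.1 p := fun p => by
      simp [Φ, LinearMap.sum_apply]
    have hG1 : (G : ℝ) ≠ 0 := by exact_mod_cast hG0.ne'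
    have k1 : Submodule.span ℝ {y | ∃ a, Sm (gen ℝ D) s a ∧ y = a ^ T.lev c} ≤ LinearMap.ker Φ := by
      refine Submodule.span_le.2 ?_
      rintro _ ⟨_, ⟨n, hn, rfl⟩, rfl⟩
      have h1 := hξ ⟨n, hn⟩ c
      rw [Fintype.sum_sigma, Finset.sum_eq_single c (fun c' _ hc => Finset.sum_eq_zero fun _ _ => by
        rw [if_neg (Ne.symm hc), mul_zero]) (by simp)] at h1
      simp only [if_true] at h1
      rw [← hΦ, mul_pow, ← C_pow, ← smul_eq_C_mul, map_smul, smul_eq_mul] at h1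
      exact (mul_eq_zero.1 h1).resolve_left (pow_ne_zero _ hG1)
    obtain ⟨v, hv⟩ := exists_prod_gen (T.lev c) α.1 (mem_mi.1 α.2)
    have k2 := k1 (prod_mem_span_pow (gen ℝ D) (hs c) v)
    rw [hv, LinearMap.mem_ker, hΦ, Finset.sum_eq_single α (fun β _ hβ => by
      rw [cf_apply, coeff_monomial, if_neg fun h => hβ (Subtype.ext h.symm)]; simp) (by simp),
      cf_apply, coeff_monomial, if_pos rfl] at k2
    exact (mul_eq_zero.1 k2).resolve_right (div_ne_zero one_ne_zero (S.sc_pos _ _).ne')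

theorem card_fib {s : ℕ} (hs : ∀ c, T.lev c ≤ s) (c : ι) :
    Nat.card {x : FI D T.lev // x.1 = c} ≤ (s + 1) ^ D := by
  have h : Nat.card {x : FI D T.lev // x.1 = c} ≤ Nat.card {α // α ∈ mi D s} := by
    refine Nat.card_le_card_of_injective (fun x => ⟨x.1.2.1, mi_mono (hs _) x.1.2.2⟩) ?_
    rintro ⟨⟨a, α⟩, rfl⟩ ⟨⟨b, β⟩, hb⟩ h
    obtain rfl : b = a := hb
    have h' : α.1 = β.1 := congrArg (fun y : {α // α ∈ mi D s} => y.1) h
    obtain rfl : α = β := Subtype.ext h'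
    rfl
  rw [Nat.card_eq_fintype_card (α := {α // α ∈ mi D s}), Fintype.card_coe] at h
  exact h.trans (card_mi_le D s)

/-- **the frame cell is a projective cover** -/
theorem fc_pc {s : ℕ} (hs : ∀ c, T.lev c ≤ s) {u : ℝ} (h : S.Ok T.lev u) :
    T.PC (fl D s u) (S.fc T) Sigma.fst := by
  have hu := h.nonneg
  have hs0 : (0 : ℝ) ≤ s := Nat.cast_nonneg s
  have hp : (1 : ℝ) ≤ (s + 1) ^ D := one_le_pow₀ (by linarith)
  have hv : 0 ≤ ((s : ℝ) + 1) * u + s ^ 2 := by positivity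
  refine (S.fc_dcov T hs h).pc' (Real.one_le_exp hv) hs ?_ (fun _ => rfl) (N := (s + 1) ^ D)
    (K' := Real.exp ((s + 1) * u + s ^ 2)) (Nat.one_le_pow _ _ (Nat.succ_pos s))
    (Real.one_le_exp hv) (card_fib T hs) (fun x => ?_) ?_ fun cl hm => S.fc_isMC T hm
  · rw [← Real.exp_nat_mul, Real.exp_le_exp, fl, pow_succ ((s : ℝ) + 1) D]
    push_cast
    nlinarith [mul_nonneg (sub_nonneg.2 hp) (mul_nonneg (show (0 : ℝ) ≤ s + 1 by linarith) hv)]
  · obtain ⟨G, hG0, hG, hg⟩ := h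
    obtain ⟨h1, h2⟩ := hg _ _ x.2.2
    have h3 : (0 : ℝ) < S.g x.1 x.2.1 := by exact_mod_cast S.g_pos _ _
    have h4 : (S.g x.1 x.2.1 : ℝ) ≤ Real.exp (s * u) := by
      calc (S.g x.1 x.2.1 : ℝ) ≤ (G : ℝ) ^ T.lev x.1 := by
            exact_mod_cast Int.le_of_dvd (pow_pos hG0 _) h1
        _ ≤ Real.exp u ^ T.lev x.1 := pow_le_pow_left₀ (by exact_mod_cast hG0.le) hG _
        _ ≤ _ := by
          rw [← Real.exp_nat_mul, Real.exp_le_exp]
          exact mul_le_mul_of_nonneg_right (by exact_mod_cast hs x.1) hu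
    rw [fc_a, abs_mul, mul_comm, abs_of_pos (div_pos h3 (S.sc_pos _ _)), div_eq_mul_inv]
    refine mul_le_mul_of_nonneg_right ?_ (abs_nonneg _)
    calc _ ≤ Real.exp (s * u) * Real.exp u :=
          mul_le_mul h4 h2 (inv_pos.2 (S.sc_pos _ _)).le (Real.exp_pos _).le
      _ ≤ _ := by rw [← Real.exp_add, Real.exp_le_exp]; nlinarith [sq_nonneg (s : ℝ)]
  · rw [Real.log_exp, fl, pow_succ ((s : ℝ) + 1) D]
    push_cast
    nlinarith [mul_nonneg (mul_nonneg (show (0 : ℝ) ≤ (s + 1) ^ D by positivity) hs0)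
      (show (0 : ℝ) ≤ (s + 1) * u + s ^ 2 + 1 by positivity)]

/-- total mass -/
def M : ℝ := ∑' z : FI D T.lev → ℤ, S.wt T (S.fr z)

theorem fc_M : (S.fc T).M = S.M T := tsum_congr fun z => S.fc_wgt T z

theorem summable : Summable fun z : FI D T.lev → ℤ => S.wt T (S.fr z) :=
  (S.fc T).summable_wgt.congr fun z => S.fc_wgt T z

theorem M_pos : 0 < S.M T := by rw [← fc_M]; exact (S.fc T).M_pos

theorem mass {s : ℕ} (hs : ∀ c, T.lev c ≤ s) {u x η : ℝ} (h : S.Ok T.lev u)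
    (hA : T.AllPC x η) (hx : fl D s u ≤ x) : |S.M T / S.mu T - 1| ≤ η := by
  rw [← fc_M, ← fc_mu]
  exact hA _ _ _ ((S.fc_pc T hs h).mono hx)

theorem M_le {s : ℕ} (hs : ∀ c, T.lev c ≤ s) {u x η : ℝ} (h : S.Ok T.lev u)
    (hA : T.AllPC x η) (hx : fl D s u ≤ x) : S.M T ≤ (1 + η) * S.mu T := by
  have h1 := (abs_le.1 (S.mass T hs h hA hx)).2
  rw [← div_le_iff₀ (S.mu_pos T)]
  linarith

theorem le_M {s : ℕ} (hs : ∀ c, T.lev c ≤ s) {u x η : ℝ} (h : S.Ok T.lev u)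
    (hA : T.AllPC x η) (hx : fl D s u ≤ x) : (1 - η) * S.mu T ≤ S.M T := by
  have h1 := (abs_le.1 (S.mass T hs h hA hx)).1
  rw [← le_div_iff₀ (S.mu_pos T)]
  linarith

/-- all windows `k` times wider -/
def wide (k : ℝ) (hk : 0 < k) : Sh ι D :=
  { S with sc := fun c α => k * S.sc c α, sc_pos := fun c α => mul_pos hk (S.sc_pos c α) }

theorem wide_fr (k : ℝ) (hk : 0 < k) {lev : ι → ℕ} (z : FI D lev → ℤ) :
    (S.wide k hk).fr z = S.fr z := rfl

theorem wide_qf (k : ℝ) (hk : 0 < k) (W : ι → MvPolynomial (Fin D) ℤ) :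
    (S.wide k hk).qf T W = S.qf T W / k ^ 2 := by
  simp only [qf, Finset.sum_div]
  refine Finset.sum_congr rfl fun c _ => Finset.sum_congr rfl fun α _ => ?_
  show (coeff α (_ - S.cen c) / (k * S.sc c α)) ^ 2 = _
  rw [← div_pow, div_div, mul_comm]

theorem wide_mu (k : ℝ) (hk : 0 < k) :
    (S.wide k hk).mu T = k ^ Fintype.card (FI D T.lev) * S.mu T := by
  rw [Fintype.card_sigma, ← Finset.prod_pow_eq_pow_sum, mu, mu, ← Finset.prod_mul_distrib]
  refine Finset.prod_congr rfl fun c _ => ?_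
  rw [Fintype.card_coe, ← Finset.prod_const, ← Finset.prod_mul_distrib]
  refine Finset.prod_congr rfl fun α _ => ?_
  show k * S.sc c α / S.g c α * _ = _
  ring

theorem Ok.wide {S : Sh ι D} {lev : ι → ℕ} {u v k : ℝ} (h : S.Ok lev u) (hk : 0 < k) (hv : 0 ≤ v)
    (hkv : k⁻¹ ≤ Real.exp v) : (S.wide k hk).Ok lev (u + v) := by
  obtain ⟨G, h1, h2, h3⟩ := h
  refine ⟨G, h1, h2.trans (Real.exp_le_exp.2 (by linarith)), fun c α hα => ⟨(h3 c α hα).1, ?_⟩⟩
  show (k * S.sc c α)⁻¹ ≤ _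
  rw [mul_inv, Real.exp_add, mul_comm]
  exact mul_le_mul (h3 c α hα).2 hkv (inv_pos.2 hk).le (Real.exp_pos _).le

theorem Ok.wide' {S : Sh ι D} {lev : ι → ℕ} {u k : ℝ} (h : S.Ok lev u) (hk : 0 < k) (h1 : 1 ≤ k) :
    (S.wide k hk).Ok lev u := by
  simpa using h.wide hk le_rfl (by simpa using inv_le_one_of_one_le₀ h1)

theorem qf_nonneg (W : ι → MvPolynomial (Fin D) ℤ) : 0 ≤ S.qf T W :=
  Finset.sum_nonneg fun _ _ => Finset.sum_nonneg fun _ _ => sq_nonneg _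

theorem wt_le_one (W : ι → MvPolynomial (Fin D) ℤ) : S.wt T W ≤ 1 :=
  Real.exp_le_one_iff.2 (by nlinarith [S.qf_nonneg T W, Real.pi_pos])

theorem summable_mul {f : (FI D T.lev → ℤ) → ℝ} {K : ℝ} (hf : ∀ z, |f z| ≤ K) :
    Summable fun z => S.wt T (S.fr z) * f z :=
  ((S.fc T).summable_mul_real hf).congr fun z => by rw [fc_wgt]

open Classical in
/-- **tails** -/
theorem bulk {s : ℕ} (hs : ∀ c, T.lev c ≤ s) {u x η : ℝ} (h : S.Ok T.lev u)
    (hA : T.AllPC x η) (hx : fl D s u ≤ x) (r : ℝ) :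
    (∑' z : FI D T.lev → ℤ, if r ≤ S.qf T (S.fr z) then S.wt T (S.fr z) else 0) ≤
      Real.exp (-Real.pi * r / 2) * ((1 + η) * (√2 ^ Fintype.card (FI D T.lev) * S.mu T)) := by
  have h2 : (0 : ℝ) < √2 := by positivity
  have h3 := (S.wide √2 h2).M_le T hs (h.wide' h2 (Real.one_le_sqrt.2 (by norm_num))) hA hx
  rw [wide_mu] at h3
  refine le_trans ?_ (mul_le_mul_of_nonneg_left h3 (Real.exp_pos _).le)
  rw [M, ← tsum_mul_left]
  have key : ∀ z : FI D T.lev → ℤ, (if r ≤ S.qf T (S.fr z) then S.wt T (S.fr z) else 0) ≤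
      Real.exp (-Real.pi * r / 2) * (S.wide √2 h2).wt T ((S.wide √2 h2).fr z) := by
    intro z
    split_ifs with hr
    · rw [wt, wt, wide_fr, wide_qf, Real.sq_sqrt (by norm_num), ← Real.exp_add, Real.exp_le_exp]
      nlinarith [Real.pi_pos]
    · exact mul_nonneg (Real.exp_pos _).le (wt_pos _ _ _).le
  have hs2 := ((S.wide √2 h2).summable T).mul_left (Real.exp (-Real.pi * r / 2))
  refine Summable.tsum_le_tsum key (Summable.of_nonneg_of_le (fun z => ?_) key hs2) hs2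
  split_ifs
  exacts [(wt_pos _ _ _).le, le_rfl]

end Sh

/-! ### natural frames -/

theorem nat_ok {lev : ι → ℕ} {s : ℕ} (hs : ∀ c, lev c ≤ s) {σ v : ℝ} (hσ : 0 < σ) (hv : 0 ≤ v)
    (h : σ⁻¹ ≤ Real.exp v) : (nat ι D σ hσ).Ok lev (s * v) := by
  refine ⟨1, one_pos, by simpa using mul_nonneg (Nat.cast_nonneg s) hv, fun c α hα =>
    ⟨by simp [nat], ?_⟩⟩
  show (σ ^ α.degree)⁻¹ ≤ _
  rw [← inv_pow]
  refine (pow_le_pow_left₀ (inv_pos.2 hσ).le h _).trans ?_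
  rw [← Real.exp_nat_mul, Real.exp_le_exp]
  exact mul_le_mul_of_nonneg_right (by exact_mod_cast (mem_mi.1 hα).trans (hs c)) hv

variable [Fintype ι] (T : Cell ι)

theorem nfc_pc {s : ℕ} (hs : ∀ c, T.lev c ≤ s) {σ v : ℝ} (hσ : 0 < σ) (hv : 0 ≤ v)
    (h : σ⁻¹ ≤ Real.exp v) : T.PC (fl D s (s * v)) (nfc T D hσ) Sigma.fst :=
  Sh.fc_pc _ T hs (nat_ok hs hσ hv h)

/-- sums over natural frames as sums over the points of the frame cell -/
theorem tsum_fw {E : Type} [NormedAddCommGroup E] [NormedSpace ℝ E] {σ : ℝ} (hσ : 0 < σ)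
    (f : Frm D T.lev → E) : ∑' V, fw T σ V • f V =
      ∑' z, (nfc T D hσ).wgt z • f (frE D T.lev z) := by
  rw [← (frE D T.lev).tsum_eq]
  exact tsum_congr fun z => by rw [nfc_wgt]

theorem summable_fw {σ : ℝ} (hσ : 0 < σ) : Summable (fw T σ : Frm D T.lev → ℝ) :=
  (frE D T.lev).summable_iff.1 ((nfc T D hσ).summable_wgt.congr fun z => nfc_wgt T hσ z)

theorem fw_le_one (σ : ℝ) (V : Frm D T.lev) : fw T σ V ≤ 1 :=
  Real.exp_le_one_iff.2 (by
    have : 0 ≤ fq T σ V := Finset.sum_nonneg fun _ _ => Finset.sum_nonneg fun _ _ => sq_nonneg _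
    nlinarith [Real.pi_pos])

theorem summable_fw_mul {σ : ℝ} (hσ : 0 < σ) {f : Frm D T.lev → ℝ} {K : ℝ} (hf : ∀ V, |f V| ≤ K) :
    Summable fun V => fw T σ V * f V :=
  Summable.of_norm_bounded ((summable_fw T hσ).mul_right K) fun V => by
    rw [Real.norm_eq_abs, abs_mul, abs_of_pos (fw_pos T σ V)]
    exact mul_le_mul_of_nonneg_left (hf V) (fw_pos T σ V).le

theorem fw_mass {s : ℕ} (hs : ∀ c, T.lev c ≤ s) {σ v x η : ℝ} (hσ : 0 < σ) (hv : 0 ≤ v)
    (h : σ⁻¹ ≤ Real.exp v) (hA : T.AllPC x η) (hx : fl D s (s * v) ≤ x) :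
    |(∑' V : Frm D T.lev, fw T σ V) / fmu T D σ - 1| ≤ η := by
  rw [← nfc_M T hσ, ← nfc_mu T hσ]
  exact hA _ _ _ ((nfc_pc T hs hσ hv h).mono hx)

theorem fw_mass_le {s : ℕ} (hs : ∀ c, T.lev c ≤ s) {σ v x η : ℝ} (hσ : 0 < σ) (hv : 0 ≤ v)
    (h : σ⁻¹ ≤ Real.exp v) (hA : T.AllPC x η) (hx : fl D s (s * v) ≤ x) :
    ∑' V : Frm D T.lev, fw T σ V ≤ (1 + η) * fmu T D σ := by
  have h1 := (abs_le.1 (fw_mass (D := D) T hs hσ hv h hA hx)).2
  rw [← div_le_iff₀ (fmu_pos T D hσ)]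
  linarith

theorem fm_le_tsum {σ : ℝ} (hσ : 0 < σ) (Z : Finset (Frm D T.lev)) :
    fm T σ Z ≤ ∑' V : Frm D T.lev, fw T σ V :=
  (summable_fw T hσ).sum_le_tsum Z fun V _ => (fw_pos T σ V).le

open Classical in
/-- tails of the natural frames -/
theorem fw_bulk {s : ℕ} (hs : ∀ c, T.lev c ≤ s) {σ v x η : ℝ} (hσ : 0 < σ) (hv : 0 ≤ v)
    (h : σ⁻¹ ≤ Real.exp v) (hA : T.AllPC x η) (hx : fl D s (s * v) ≤ x) (r : ℝ) :
    (∑' V : Frm D T.lev, if r ≤ fq T σ V then fw T σ V else 0) ≤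
      Real.exp (-Real.pi * r / 2) * ((1 + η) * (√2 ^ Fintype.card (FI D T.lev) * fmu T D σ)) := by
  have h1 := (nat ι D σ hσ).bulk T hs (nat_ok hs hσ hv h) hA hx r
  rw [← (frE D T.lev).tsum_eq, fmu_eq T D hσ]
  refine le_of_eq_of_le (tsum_congr fun z => ?_) h1
  rw [fq_eq T hσ, fw_eq T hσ, frE_W σ hσ]

theorem card_FI_le {s : ℕ} (hs : ∀ c, T.lev c ≤ s) :
    Fintype.card (FI D T.lev) ≤ (s + 1) ^ D * Fintype.card ι :=
  Cell.card_le_of_fib Sigma.fst (Sh.card_fib T hs)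

end Crest.Agent.T49.Fm
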