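import Crest.Agent.T49.MxDef_53

/-!
# Row 49: mixed cells, covers and leaf statements (helper53)
-/

set_option autoImplicit false

open MvPolynomial

namespace Crest.Agent.T49.Tw

namespace Cell
variable {ι ι' : Type} [Fintype ι] [Fintype ι']

/-- class-respecting cover -/
def CovM (T : Cell ι) (cl : ι → ℕ) (T' : Cell ι') (cl' : ι' → ℕ) (K : ℝ) : Prop :=
  ∀ ξ : ι' → ℝ, ξ ≠ 0 → ∃ σ μ, T.Sub T' K σ μ ∧ (∀ c' c, μ c' c ≠ 0 → cl c = cl' c') ∧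
    (∀ c' c, coeff (Finsupp.single c 1) (σ c') ≠ 0 → cl c ≤ cl' c') ∧ ∃ c, ∑ c', ξ c' * μ c' c ≠ 0

/-- diagonal cover along `π` -/
def DCov (T : Cell ι) (T' : Cell ι') (π : ι' → ι) (K : ℝ) : Prop :=
  ∀ ξ : ι' → ℝ, ξ ≠ 0 → ∃ σ μ, T.Sub T' K σ μ ∧ (∀ c' c, μ c' c ≠ 0 → c = π c') ∧
    (∀ c' c, coeff (Finsupp.single c 1) (σ c') ≠ 0 → c = π c') ∧ ∃ c, ∑ c', ξ c' * μ c' c ≠ 0

end Cell

/-- (CERT, projective) -/
def CertMStmt : Prop := ∀ n : ℕ, ∃ D : ℕ, ∀ (ι : Type) [Fintype ι] (T : MT ι n)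
  (h : ∀ c, T.wt c ≠ 0) (y : ℝ), 2 ≤ y →
  (T.cell h).AllPC (D * y) (Real.exp (-(D * y))) →
  Good (Real.exp (-y)) (Real.exp (-y)) n T ∧
    ∀ F, T.Form F → ‖T.S F / T.mu - sb n T F‖ ≤ Real.exp (-y)

/-- (CHAIN, projective) -/
def ChainMStmt : Prop := ∀ l d : ℕ, ∃ D : ℕ, ∀ (ι : Type) [Fintype ι] (T : Cell ι) (F : Pl ι),
  (∀ c, T.lev c ≤ l) → DegLe T.lev F (d + 1) →
  ∃ (κ : Type) (_ : Fintype κ) (P : MT κ (d + 1)) (h : ∀ c, P.wt c ≠ 0) (G : Pl κ) (π : κ → ι),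
    P.Form G ∧ T.PC D (P.cell h) π ∧
    (∀ y : ℝ, 2 ≤ y → T.AllPC D (Real.exp (-(D * y))) → Real.exp (-y) * T.mu ≤ ‖T.S F‖ →
      Real.exp (-(D * y)) * P.mu ≤ ‖P.S G‖) ∧
    ∀ (b : ℕ) (r : ℝ), P.Short (C (b : ℝ) * G) r →
      ∃ e, IsWeightedHomogeneous T.lev e (d + 1) ∧ nrm e ≤ Real.exp D * r ∧
        IsInt (C ((b * (d + 1).factorial : ℕ) : ℝ) * T.top (d + 1) F - T.TTh e)

/-- (TOP, mixed) Poisson summation over the top class -/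
def TopMStmt : Prop := ∀ (ι : Type) [Fintype ι] (T : Cell ι) (cl : ι → ℕ) (l : ℕ) (y σ : ℝ),
  T.IsMC cl → (∀ c, cl c ≤ l + 1) → 2 ≤ y → 0 ≤ σ →
  (∀ ξ : ι → ℝ, T.DualF cl (l + 1) ξ → ξ ≠ 0 → ∑ c, |ξ c| ≤ y * T.kapM cl (l + 1) →
    ‖(T.frz fun c => cl c ≤ l).S (dn _ (∑ c, C (ξ c) * T.th c))‖ ≤
      σ * (T.frz fun c => cl c ≤ l).mu) →
  |T.M / T.mu - (T.frz fun c => cl c ≤ l).M / (T.frz fun c => cl c ≤ l).mu| ≤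
    σ * Real.exp (T.kapM cl (l + 1)) +
      Real.exp (-y) * ((T.frz fun c => cl c ≤ l).M / (T.frz fun c => cl c ≤ l).mu)

/-- (ND from masses) no short real form in the top windows is an integer polynomial -/
def NDCStmt : Prop := ∀ s d : ℕ, ∃ D : ℕ, ∀ (ι : Type) [Fintype ι] (T : Cell ι) (e : Pl ι)
  (y : ℝ), (∀ c, T.lev c ≤ s) → Real.log (Fintype.card ι + 2) + 2 ≤ y →
  T.AllPC (D * y) (Real.exp (-(D * y))) → IsWeightedHomogeneous T.lev e (d + 1) →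
  nrm e ≤ Real.exp y → IsInt (T.TTh e) → e = 0

end Crest.Agent.T49.Tw
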