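import Crest.Agent.T49.TwPat_66
import Crest.Agent.T49.MxDefB_53

/-!
# Row 49 (helper66): diagonal covers are projective covers; CERT from `AllPC`
-/

set_option autoImplicit false

open MvPolynomial

noncomputable section

namespace Crest.Agent.T49.Tw

namespace Cert66

variable {ι ι' : Type} [Fintype ι] [Fintype ι']

/-- a substitution that is diagonal along `π` -/
structure DSub (T : Cell ι) (T' : Cell ι') (π : ι' → ι) (K : ℝ) (σ : ι' → Pl ι)
    (μ : ι' → ι → ℝ) : Prop where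
  sub : T.Sub T' K σ μ
  mu : ∀ c' c, μ c' c ≠ 0 → c = π c'
  sg : ∀ c' c, coeff (Finsupp.single c 1) (σ c') ≠ 0 → c = π c'

/-- diagonal cover -/
def DCov (T : Cell ι) (T' : Cell ι') (π : ι' → ι) (K : ℝ) : Prop :=
  ∀ ξ : ι' → ℝ, ξ ≠ 0 → ∃ σ μ, DSub T T' π K σ μ ∧ ∃ c, ∑ c', ξ c' * μ c' c ≠ 0

variable {T : Cell ι} {T' : Cell ι'} {π : ι' → ι} {K : ℝ} {σ : ι' → Pl ι} {μ : ι' → ι → ℝ}

theorem DSub.dualM (h : DSub T T' π K σ μ) {cl : ι → ℕ} {ξ : ι' → ℝ} {j : ℕ}
    (hξ : T'.DualM (cl ∘ π) j ξ) : T.DualM cl j fun c => ∑ c', ξ c' * μ c' c := by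
  refine ⟨fun c hc => Finset.sum_eq_zero fun c' _ => ?_, fun c hc => ?_⟩
  · by_cases h0 : μ c' c = 0
    · rw [h0, mul_zero]
    · rw [hξ.1 c' (by rw [h.mu c' c h0] at hc; exact hc), zero_mul]
  · rw [← h.sub.bind_dotT,
      Ch4.coeff_single_bind fun c' => Ch4.coeff_zero_hom (h.sub.hom c') (T'.lev_pos c')]
    have : ∀ c', ∃ n : ℤ, coeff (Finsupp.single c' 1) (T'.dotT ξ) *
        coeff (Finsupp.single c 1) (σ c') = n := by
      intro c'
      by_cases h1 : coeff (Finsupp.single c 1) (σ c') = 0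
      · exact ⟨0, by simp [h1]⟩
      · obtain ⟨a, ha⟩ := hξ.2 c' (by rw [h.sg c' c h1] at hc; exact hc)
        obtain ⟨b, hb⟩ := h.sub.int c' (Finsupp.single c 1)
        exact ⟨a * b, by rw [ha, hb, Int.cast_mul]⟩
    choose n hn using this
    exact ⟨∑ c', n c', by simp [hn]⟩

theorem DSub.pushE_mem (h : DSub T T' π K σ μ) {s : Set ι} {e : Pl ι'}
    (he : e ∈ supported ℝ {c | π c ∈ s}) : Cell.pushE μ e ∈ supported ℝ s := by
  refine bind_mem_supported (fun c' hc' => sum_mem fun c _ => ?_) he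
  by_cases h0 : μ c' c = 0
  · rw [h0, C_0, zero_mul]; exact zero_mem _
  · exact mul_mem (C_mem_supp _ _) (X_mem_supp (by rw [h.mu c' c h0]; exact hc'))

theorem DCov.regAtM (h : DCov T T' π K) (hK : 1 ≤ K) {l : ℕ} (hl : ∀ c', T'.lev c' ≤ l) {x : ℝ}
    (hx : K ^ (l + 1) ≤ Real.exp x) (cl : ι → ℕ) {j : ℕ} {H Λ : ℝ} (hR : T.RegAtM cl j H Λ) :
    T'.RegAtM (cl ∘ π) j (H * Real.exp (-x)) (Λ * Real.exp (-x)) := by
  intro w ξ b e hξ hw hH hb hbΛ he he' hn hI
  by_contra h0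
  have hj : w ≤ l := by
    obtain ⟨c', hc'⟩ := Function.ne_iff.1 h0
    by_contra hj
    exact hc' (hw c' (by have := hl c'; omega))
  obtain ⟨σ, μ, hs, c, hc⟩ := h ξ h0
  have hK1 : K ≤ Real.exp x :=
    le_trans (by simpa using pow_le_pow_right₀ hK (Nat.le_add_left 1 l)) hx
  have hKj : K ^ w ≤ Real.exp x := le_trans (pow_le_pow_right₀ hK (by omega)) hx
  have key : ∀ {A u v : ℝ}, 0 ≤ u → u ≤ A * Real.exp (-x) → 0 ≤ v → v ≤ Real.exp x →
      u * v ≤ A := by
    intro A u v hu huA hv hvx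
    calc u * v ≤ A * Real.exp (-x) * Real.exp x := mul_le_mul huA hvx hv (hu.trans huA)
      _ = A := by rw [mul_assoc, ← Real.exp_add]; simp
  have hξ0 := hR w _ b (Cell.pushE μ e) (hs.dualM hξ)
    (fun c hc => Finset.sum_eq_zero fun c' _ => by
      by_cases h0 : μ c' c = 0
      · rw [h0, mul_zero]
      · rw [hw c' (by rw [← hs.sub.lev c' c h0]; exact hc), zero_mul])
    ((hs.sub.sum_abs_le ξ).trans
      (key (Finset.sum_nonneg fun _ _ => abs_nonneg _) hH (by linarith) hK1))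
    hb (by simpa using key (Nat.cast_nonneg b) hbΛ zero_le_one (hK.trans hK1))
    (hs.sub.pushE_hom he) (hs.pushE_mem (s := {c | cl c < j}) he')
    ((hs.sub.nrm_pushE hK he).trans (key (nrm_nonneg _) hn (by positivity) hKj))
    (by
      have := Ch4.isInt_bind hs.sub.int hI
      rwa [map_add, map_mul, bind₁_C_right, hs.sub.bind_dotT, hs.sub.bind_TTh] at this)
  exact hc (congrFun hξ0 c)

theorem DCov.cov (h : DCov T T' π K) : T.Cov T' K := fun ξ hξ =>
  let ⟨σ, μ, hs, hc⟩ := h ξ hξ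
  ⟨σ, μ, hs.sub, hc⟩

variable {f : ι' → ℝ} {ρ : ι' → ι → Option ι'}

theorem PatD.dcov (h : PatD T.toTri T'.toTri π K f ρ) (hl : ∀ c, T'.lev c = T.lev (π c)) :
    DCov T T' π K := by
  classical
  intro ξ hξ
  obtain ⟨c0, hc0⟩ := Function.ne_iff.1 hξ
  obtain ⟨q, hq, hinj, hth⟩ := h.sec c0
  have hhom : ∀ c', IsWeightedHomogeneous T.lev (kp π q c') (T'.lev c') := fun c' => by
    unfold kp
    split_ifs
    · rw [hl]; exact isWeightedHomogeneous_X _ _ _
    · exact isWeightedHomogeneous_zero _ _ _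
  refine ⟨kp π q, fun c' c => if q c' ∧ c = π c' then f c' else 0,
    ⟨⟨fun c' => ?_, hhom, fun c' c hc => ?_, fun c' => ?_, fun c' => ?_⟩, fun c' c hc => ?_,
      fun c' c hc => ?_⟩, π c0, ?_⟩
  · unfold kp
    split_ifs
    · exact isInt_X _
    · exact fun _ => ⟨0, by simp⟩
  · have : q c' ∧ c = π c' := by
      by_contra h1
      exact hc (if_neg h1)
    rw [this.2, hl]
  · rw [Finset.sum_eq_single (π c')]
    · split_ifs
      · exact h.f_le c'
      · simpa using (abs_nonneg _).trans (h.f_le c')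
    · intro c _ hc
      rw [if_neg fun h1 => hc h1.2, abs_zero]
    · simp
  · rw [Cell.tth, Cell.top, ← Ch4.top_bind hhom, hth, Finset.sum_eq_single (π c')]
    · by_cases h1 : q c'
      · rw [if_pos h1, if_pos ⟨h1, rfl⟩, Ch4.top_C_mul, hl]
        rfl
      · simp [h1]
    · intro c _ hc
      rw [if_neg fun h1 => hc h1.2, C_0, zero_mul]
    · simp
  · by_contra h1
    exact hc (if_neg fun h2 => h1 h2.2)
  · unfold kp at hc
    split_ifs at hc
    · by_contra h1
      rw [coeff_X, if_neg fun h2 => h1 (Finsupp.single_left_injective one_ne_zero h2).symm] at hc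
      exact hc rfl
    · simp at hc
  · beta_reduce
    rw [Finset.sum_eq_single c0]
    · rw [if_pos ⟨hq, rfl⟩]
      exact mul_ne_zero hc0 (h.f_ne c0)
    · intro c _ hc
      rw [if_neg fun h1 => hc (hinj _ _ h1.1 hq h1.2.symm), mul_zero]
    · simp

omit [Fintype ι] [Fintype ι'] in
theorem PatD.isMC (h : PatD T.toTri T'.toTri π K f ρ) (hl : ∀ c, T'.lev c = T.lev (π c))
    {cl : ι → ℕ} (hc : T.IsMC cl) : T'.IsMC (cl ∘ π) := by
  classical
  refine ⟨fun c => hc.1 _, fun c m hm => ?_⟩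
  rw [h.B_eq] at hm
  have hm1 : m ∈ (bind₁ (lf (ρ c)) (T.B (π c))).support := by
    rw [mem_support_iff] at hm ⊢
    rw [coeff_C_mul] at hm
    exact right_ne_zero_of_mul hm
  rw [(T.B (π c)).as_sum, map_sum] at hm1
  obtain ⟨m0, hm0, hm2⟩ := Finset.mem_biUnion.1 (support_sum hm1)
  by_cases h1 : ∀ d ∈ m0.support, cl d < cl (π c)
  · have h2 : bind₁ (lf (ρ c)) (monomial m0 (coeff m0 (T.B (π c)))) ∈
        supported ℝ {d | cl (π d) < cl (π c)} := by
      refine bind_mem_supported (s := {d | cl d < cl (π c)}) (fun e he => ?_)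
        (mem_supported_iff.2 fun m' hm' d hd => h1 d ?_)
      · rcases h.lf_cases c e with h0 | ⟨d, rfl, h0⟩ <;> rw [h0]
        · exact zero_mem _
        · exact X_mem_supp he
      · rwa [Finset.mem_singleton.1 (support_monomial_subset hm')] at hd
    exact fun d hd => Or.inl (mem_supported_iff.1 h2 m hm2 d hd)
  · push Not at h1
    obtain ⟨e, he, h1⟩ := h1
    obtain ⟨h2, h3⟩ := (hc.2 _ m0 hm0 e he).resolve_left (not_lt.2 h1)
    obtain rfl : m0 = Finsupp.single e 1 := by first | exact h3.1 | exact h3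
    rw [← C_mul_X_eq_monomial, map_mul, bind₁_C_right, bind₁_X_right] at hm2
    rcases h.lf_cases c e with h0 | ⟨d, rfl, h0⟩ <;> rw [h0] at hm2
    · simp at hm2
    · rw [C_mul_X_eq_monomial] at hm2
      obtain rfl := Finset.mem_singleton.1 (support_monomial_subset hm2)
      intro d' hd'
      obtain rfl : d' = d := Finset.mem_singleton.1 (Finsupp.support_single_subset hd')
      first
        | exact Or.inr ⟨h2, rfl, by rw [hl, hl, h3.2]⟩
        | exact Or.inr ⟨h2, rfl⟩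

theorem Pat.card_le {T : Tri ι} {T' : Tri ι'} {N : ℝ} (h : Pat T T' π N K) :
    (Fintype.card ι' : ℝ) ≤ N * Fintype.card ι := by
  simpa using h.fib (fun _ => 1) fun _ => zero_le_one

theorem Pat.kapM_le {N u : ℝ} (h : Pat T.toTri T'.toTri π N (Real.exp u)) (hN : 1 ≤ N)
    (hu : 0 ≤ u) (cl : ι → ℕ) (j : ℕ) : T'.kapM (cl ∘ π) j ≤ N * (1 + u) * T.kapM cl j := by
  classical
  obtain ⟨f0, ρ, hD⟩ := h.ex
  set f : ι → ℝ := fun c => if cl c = j then 1 + Real.log (1 + |T.a c|) else 0 with hf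
  have hlog : ∀ c, 0 ≤ Real.log (1 + |T.a c|) := fun c =>
    Real.log_nonneg (le_add_of_nonneg_right (abs_nonneg _))
  have hf0 : ∀ c, 0 ≤ f c := fun c => by
    simp only [hf]
    split_ifs
    · linarith [hlog c]
    · exact le_rfl
  have e0 : T.kapM cl j = 1 + ∑ c, f c := by rw [Cell.kapM, Finset.sum_filter]
  have e1 : T'.kapM (cl ∘ π) j ≤ 1 + (1 + u) * ∑ c, f (π c) := by
    rw [Cell.kapM, Finset.sum_filter, Finset.mul_sum]
    refine add_le_add le_rfl (Finset.sum_le_sum fun c _ => ?_)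
    change (if cl (π c) = j then 1 + Real.log (1 + |T'.a c|) else 0) ≤ _
    simp only [hf]
    split_ifs
    · have e2 : Real.log (1 + |T'.a c|) ≤ u + Real.log (1 + |T.a (π c)|) := by
        conv_rhs => rw [← Real.log_exp u, ← Real.log_mul (Real.exp_pos _).ne' (by positivity)]
        refine Real.log_le_log (by positivity) ?_
        have := Real.one_le_exp hu
        linarith [hD.abs_a_le c]
      nlinarith [hlog (π c), mul_nonneg hu (hlog (π c))]
    · simp
  have e3 := h.fib f hf0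
  have e5 : (1 + u) * ∑ c, f (π c) ≤ N * (1 + u) * ∑ c, f c := by
    refine (mul_le_mul_of_nonneg_left e3 (by linarith)).trans (le_of_eq ?_)
    ring
  have e6 : 1 ≤ N * (1 + u) := one_le_mul_of_one_le_of_one_le hN (by linarith)
  rw [e0]
  linarith

/-- a diagonal pattern is a projective cover -/
theorem Pat.pc {N u x : ℝ} (h : Pat T.toTri T'.toTri π N (Real.exp u))
    (hl : ∀ c, T'.lev c = T.lev (π c)) {s : ℕ} (hs : ∀ c, T.lev c ≤ s) (hN : 1 ≤ N) (hu : 0 ≤ u)
    (h1 : N * (1 + u) ≤ x) (h2 : (s + 1) * u ≤ x) : T.PC x T' π := by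
  obtain ⟨f, ρ, hD⟩ := h.ex
  refine ⟨hl, h.card_le.trans (mul_le_mul_of_nonneg_right (le_trans ?_ h1) (Nat.cast_nonneg _)),
    fun cl j => (h.kapM_le hN hu cl j).trans (mul_le_mul_of_nonneg_right h1 ?_),
    fun cl => hD.isMC hl, fun cl _ j H Λ => (hD.dcov hl).regAtM (Real.one_le_exp hu) (l := s)
      (fun c => (hl c).trans_le (hs _)) ?_ cl⟩
  · exact le_mul_of_one_le_right (by linarith) (by linarith)
  · exact add_nonneg zero_le_one (Finset.sum_nonneg fun c _ => add_nonneg zero_le_one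
      (Real.log_nonneg (le_add_of_nonneg_right (abs_nonneg _))))
  · rw [← Real.exp_nat_mul, Real.exp_le_exp]
    exact_mod_cast h2

/-- the cell structure on a pattern -/
def Pat.cell {T' : Tri ι'} {N : ℝ} (h : Pat T.toTri T' π N K) : Cell ι' where
  toTri := T'
  lev c := T.lev (π c)
  lev_pos _ := T.lev_pos _
  deg c := let ⟨_, _, hD⟩ := h.ex; hD.degLe (T.deg (π c))

end Cert66

/-- (CERT, projective covers) -/
def CertPCStmt : Prop := ∀ n : ℕ, ∃ D : ℕ, ∀ (ι : Type) [Fintype ι] (T : MT ι n)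
  (h : ∀ c, T.wt c ≠ 0) (y : ℝ), 2 ≤ y →
  (T.cell h).AllPC (D * y) (Real.exp (-(D * y))) →
  Good (Real.exp (-y)) (Real.exp (-y)) n T ∧
    ∀ F, ‖T.S F / T.mu - sb n T F‖ ≤ Real.exp (-y)

open Cert66 in
theorem certPCStmt : CertPCStmt := by
  intro n
  refine ⟨5 ^ n * (n + 1) + n * (n + 1) + 2 * n + 1, fun ι _ T h y hy hA => ?_⟩
  set D : ℕ := 5 ^ n * (n + 1) + n * (n + 1) + 2 * n + 1 with hD
  have hD' : (D : ℝ) = 5 ^ n * (n + 1) + n * (n + 1) + 2 * n + 1 := by rw [hD]; push_cast; rfl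
  have p1 : (0 : ℝ) ≤ 5 ^ n * (n + 1) := by positivity
  have p2 : (0 : ℝ) ≤ n * (n + 1) := by positivity
  have p3 : (0 : ℝ) ≤ n := Nat.cast_nonneg n
  have p4 : (1 : ℝ) ≤ 5 ^ n := one_le_pow₀ (by norm_num)
  have hl : ∀ c, (T.cell h).lev c ≤ n := fun c => by
    have := Finset.sum_le_card_nsmul Finset.univ (fun i => T.wt c i) 1 fun i _ => T.wt_le c i
    simp only [Finset.card_univ, Fintype.card_fin, smul_eq_mul, mul_one] at this
    exact this
  refine cert_pat T h hy fun κ _ T' π hP => ?_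
  have hP' : Pat (T.cell h).toTri (Pat.cell (T := T.cell h) hP).toTri π (5 ^ n)
    (Real.exp (n * y)) := hP
  have h1 := hA _ _ π (hP'.pc (x := D * y) (fun _ => rfl) hl p4 (by nlinarith) ?_ ?_)
  · have h2 : T'.M / T'.mu - 1 ≤ Real.exp (-(D * y)) := (abs_le.1 h1).2
    have h3 : Real.exp (-(D * y)) ≤ Real.exp (-((2 * n + 1) * y)) :=
      Real.exp_le_exp.2 (by nlinarith)
    linarith
  · refine le_trans ?_ (mul_le_mul_of_nonneg_right (show 5 ^ n * (n + 1) ≤ (D : ℝ) by linarith)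
      (by linarith))
    rw [mul_assoc]
    exact mul_le_mul_of_nonneg_left (by nlinarith) (by linarith)
  · nlinarith

theorem certMStmt : CertMStmt := fun n =>
  let ⟨D, h⟩ := certPCStmt n
  ⟨D, fun ι _ T hT y hy hA => ⟨(h ι T hT y hy hA).1, fun F _ => (h ι T hT y hy hA).2 F⟩⟩

end Crest.Agent.T49.Tw
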