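import Crest.Agent.T49.TwDef_52

/-!
# Row 49 (helper2): tower calculus, assembly, part A: `RegAt`, `Der`, `Reg`, `low`
-/

set_option autoImplicit false

open MvPolynomial

namespace Crest.Agent.T49.Tw.Asm

open Cell

section poly

variable {ι : Type}

theorem dn_eq (p : ι → Prop) :
    dn p = killCompl (R := ℝ) (f := (Subtype.val : {c // p c} → ι)) Subtype.val_injective := by
  refine MvPolynomial.algHom_ext fun c => ?_
  by_cases h : p c
  · have h1 : (X c : Pl ι) = rename (Subtype.val : {c // p c} → ι) (X ⟨c, h⟩) := by simp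
    conv_rhs => rw [h1, killCompl_rename_app]
    simp [dn, h]
  · have h1 : c ∉ Set.range (Subtype.val : {c // p c} → ι) := by simpa using h
    simp [dn, h, killCompl]

theorem coeff_dn (p : ι → Prop) (m : {c // p c} →₀ ℕ) (f : Pl ι) :
    coeff m (dn p f) = coeff (m.mapDomain Subtype.val) f := by
  rw [dn_eq]; exact coeff_killCompl _

theorem dn_rename (p : ι → Prop) (g : Pl {c // p c}) : dn p (rename Subtype.val g) = g := by
  rw [dn_eq]; exact killCompl_rename_app _ g

theorem dn_X (p : ι → Prop) (c : {c // p c}) : dn p (X c.1) = X c := by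
  simp [dn, c.2]

theorem dn_C (p : ι → Prop) (r : ℝ) : dn p (C r) = C r := by simp [dn]

theorem rename_dn {p : ι → Prop} {f : Pl ι} (hf : f ∈ supported ℝ {c | p c}) :
    rename Subtype.val (dn p f) = f := by
  rw [supported_eq_range_rename] at hf
  obtain ⟨g, rfl⟩ := hf
  exact congrArg _ (dn_rename p g)

theorem rename_mem_supported {κ : Type} (φ : κ → ι) {s : Set κ} {t : Set ι}
    (h : ∀ c ∈ s, φ c ∈ t) {g : Pl κ} (hg : g ∈ supported ℝ s) : rename φ g ∈ supported ℝ t := by
  rw [rename_eq_bind]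
  exact bind_mem_supported (fun c hc => X_mem_supp (h c hc)) hg

theorem weight_mapDomain {κ : Type} (φ : κ → ι) (w : ι → ℕ) (m : κ →₀ ℕ) :
    Finsupp.weight w (m.mapDomain φ) = Finsupp.weight (fun c => w (φ c)) m := by
  rw [Finsupp.weight_apply, Finsupp.weight_apply, Finsupp.sum_mapDomain_index]
  · simp
  · intro _ _ _; exact add_smul _ _ _

theorem dn_top (p : ι → Prop) (w : ι → ℕ) (d : ℕ) (f : Pl ι) :
    dn p (weightedHomogeneousComponent w d f) =
      weightedHomogeneousComponent (fun c : {c // p c} => w c.1) d (dn p f) := by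
  classical
  ext m
  rw [coeff_dn, coeff_weightedHomogeneousComponent, coeff_weightedHomogeneousComponent, coeff_dn,
    weight_mapDomain]

theorem mem_supported_iff {s : Set ι} {f : Pl ι} :
    f ∈ supported ℝ s ↔ ∀ m ∈ f.support, ∀ c ∈ m.support, c ∈ s := by
  classical
  rw [mem_supported]
  constructor
  · intro h m hm c hc
    exact h (Finset.mem_coe.2 ((mem_vars_iff_mem_support c).2 ⟨m, hm, hc⟩))
  · intro h c hc
    obtain ⟨m, hm, hc⟩ := (mem_vars_iff_mem_support c).1 (Finset.mem_coe.1 hc)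
    exact h m hm c hc

theorem mem_supported_of_hom {w : ι → ℕ} {f : Pl ι} {d : ℕ} (hf : IsWeightedHomogeneous w f d) :
    f ∈ supported ℝ {c | w c ≤ d} :=
  mem_supported_iff.2 fun m hm c hc => by
    have h1 := weight_pos_le w m hc
    rw [hf (mem_support_iff.1 hm)] at h1
    exact h1

theorem hom_rename {κ : Type} (φ : κ → ι) (w : ι → ℕ) {g : Pl κ} {d : ℕ}
    (hg : IsWeightedHomogeneous (fun c => w (φ c)) g d) :
    IsWeightedHomogeneous w (rename φ g) d := by
  rw [rename_eq_bind]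
  exact hom_bind (AddMonoidHom.id ℕ) (fun c => isWeightedHomogeneous_X ℝ w (φ c)) hg

theorem nrm_rename {κ : Type} {φ : κ → ι} (hφ : Function.Injective φ) (g : Pl κ) :
    nrm (rename φ g) = nrm g := by
  classical
  rw [nrm, nrm, support_rename_of_injective hφ,
    Finset.sum_image fun a _ b _ h => Finsupp.mapDomain_injective hφ h]
  exact Finset.sum_congr rfl fun m _ => by rw [coeff_rename_mapDomain φ hφ]

theorem nrm_neg (f : Pl ι) : nrm (-f) = nrm f := by
  simp [nrm, support_neg]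

theorem isInt_rename {κ : Type} {φ : κ → ι} (hφ : Function.Injective φ) {g : Pl κ}
    (hg : IsInt g) : IsInt (rename φ g) := by
  intro m
  by_cases h : coeff m (rename φ g) = 0
  · exact ⟨0, by simpa using h⟩
  · obtain ⟨u, rfl, -⟩ := coeff_rename_ne_zero φ g m h
    rw [coeff_rename_mapDomain φ hφ]
    exact hg u

theorem degLe_C_mul {w : ι → ℕ} {f : Pl ι} {d : ℕ} (r : ℝ) (hf : DegLe w f d) :
    DegLe w (C r * f) d := fun m hm => hf m (by
  rw [mem_support_iff] at hm ⊢
  rw [coeff_C_mul] at hm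
  exact right_ne_zero_of_mul hm)

theorem degLe_add {w : ι → ℕ} {f g : Pl ι} {d : ℕ} (hf : DegLe w f d) (hg : DegLe w g d) :
    DegLe w (f + g) d := by
  classical
  intro m hm
  rcases Finset.mem_union.1 (support_add hm) with h | h
  exacts [hf m h, hg m h]

theorem degLe_sum {β : Type} {w : ι → ℕ} {d : ℕ} (s : Finset β) {f : β → Pl ι}
    (hf : ∀ b ∈ s, DegLe w (f b) d) : DegLe w (∑ b ∈ s, f b) d := by
  classical
  induction s using Finset.induction_on with
  | empty => intro m hm; simp at hm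
  | insert b s hb ih =>
    rw [Finset.sum_insert hb]
    exact degLe_add (hf b (Finset.mem_insert_self _ _))
      (ih fun x hx => hf x (Finset.mem_insert_of_mem hx))

theorem degLe_X (w : ι → ℕ) (c : ι) : DegLe w (X c : Pl ι) (w c) := by
  intro m hm
  rw [support_X, Finset.mem_singleton] at hm
  simp [hm, Finsupp.weight_apply]

theorem degLe_dn {w : ι → ℕ} {f : Pl ι} {d : ℕ} (p : ι → Prop) (hf : DegLe w f d) :
    DegLe (fun c : {c // p c} => w c.1) (dn p f) d := by
  intro m hm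
  rw [mem_support_iff, coeff_dn] at hm
  rw [← weight_mapDomain]
  exact hf _ (mem_support_iff.2 hm)

end poly

section cell

variable {ι : Type} [Fintype ι] {T : Cell ι}

theorem one_le_kap (T : Cell ι) (l : ℕ) : 1 ≤ T.kap l := by
  unfold kap
  refine le_add_of_nonneg_right (Finset.sum_nonneg fun c _ => ?_)
  have := Real.log_nonneg (show 1 ≤ 1 + |T.a c| by linarith [abs_nonneg (T.a c)])
  linarith

theorem mu_pos (T : Tri ι) : 0 < T.mu :=
  Finset.prod_pos fun c _ => inv_pos.2 (abs_pos.2 (T.a_ne c))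

theorem regAt_anti {j : ℕ} {H H' Λ Λ' : ℝ} (h : T.RegAt j H Λ) (hH : H' ≤ H) (hΛ : Λ' ≤ Λ) :
    T.RegAt j H' Λ' := fun ξ b e h1 h2 h3 h4 h5 h6 h7 h8 =>
  h ξ b e h1 (h2.trans hH) h3 (h4.trans hΛ) h5 h6 (h7.trans hΛ) h8

theorem regAt_scale {j : ℕ} {H Λ u v : ℝ} (h : T.RegAt j (H * u) (Λ * u)) (hv : 0 < v)
    (huv : v ≤ u) : T.RegAt j (H * v) (Λ * v) := by
  intro ξ b e h1 h2 h3 h4 h5 h6 h7 h8
  have hH : 0 ≤ H :=
    nonneg_of_mul_nonneg_left ((Finset.sum_nonneg fun c _ => abs_nonneg (ξ c)).trans h2) hv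
  have hΛ : 0 ≤ Λ := nonneg_of_mul_nonneg_left ((Nat.cast_nonneg b).trans h4) hv
  exact regAt_anti h (mul_le_mul_of_nonneg_left huv hH) (mul_le_mul_of_nonneg_left huv hΛ)
    ξ b e h1 h2 h3 h4 h5 h6 h7 h8

theorem der_pos {ι' : Type} [Fintype ι'] {T' : Cell ι'} {x : ℝ} (h : T.Der x T') : 0 < x := by
  have h1 := (one_le_kap T' 0).trans (h.2.2.1 0)
  have h2 := one_le_kap T 0
  by_contra hx
  nlinarith

theorem der_mono {ι' : Type} [Fintype ι'] {T' : Cell ι'} {x x' : ℝ} (h : T.Der x T')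
    (hx : x ≤ x') : T.Der x' T' :=
  ⟨h.1, h.2.1.trans (mul_le_mul_of_nonneg_right hx (Nat.cast_nonneg _)),
    fun j => (h.2.2.1 j).trans (mul_le_mul_of_nonneg_right hx (by linarith [one_le_kap T j])),
    fun j H Λ hR => regAt_scale (h.2.2.2 j H Λ hR) (Real.exp_pos _)
      (Real.exp_le_exp.2 (by linarith))⟩

theorem der_refl (T : Cell ι) : T.Der 1 T :=
  ⟨fun c => ⟨c, rfl⟩, by simp, fun j => by simp, fun j H Λ hR =>
    regAt_scale (u := 1) (by simpa using hR) (Real.exp_pos _) (by simp)⟩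

/-- composition of derivations: any `z ≥ x y, x + y` is a loss for the composite -/
theorem der_trans {ι' ι'' : Type} [Fintype ι'] [Fintype ι''] {T' : Cell ι'} {T'' : Cell ι''}
    {x y z : ℝ} (h : T.Der x T') (h' : T'.Der y T'') (h1 : x * y ≤ z) (h2 : x + y ≤ z) :
    T.Der z T'' := by
  have hy := (der_pos h').le
  refine ⟨fun c => ?_, ?_, fun j => ?_, fun j H Λ hR => ?_⟩
  · obtain ⟨c', hc'⟩ := h'.1 c
    obtain ⟨c'', hc''⟩ := h.1 c'
    exact ⟨c'', hc'.trans hc''⟩
  · calc _ ≤ y * (x * Fintype.card ι) := h'.2.1.trans (mul_le_mul_of_nonneg_left h.2.1 hy)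
      _ = x * y * Fintype.card ι := by ring
      _ ≤ _ := mul_le_mul_of_nonneg_right h1 (Nat.cast_nonneg _)
  · calc _ ≤ y * (x * T.kap j) := (h'.2.2.1 j).trans (mul_le_mul_of_nonneg_left (h.2.2.1 j) hy)
      _ = x * y * T.kap j := by ring
      _ ≤ _ := mul_le_mul_of_nonneg_right h1 (by linarith [one_le_kap T j])
  · have h3 := h'.2.2.2 j _ _ (h.2.2.2 j H Λ hR)
    rw [mul_assoc, mul_assoc] at h3
    refine regAt_scale h3 (Real.exp_pos _) ?_
    rw [← Real.exp_add]
    exact Real.exp_le_exp.2 (by linarith)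

theorem allDer_mono {x x' η η' : ℝ} (h : T.AllDer x η) (hx : x' ≤ x) (hη : η ≤ η') :
    T.AllDer x' η' := fun ι' _ T' hT' => (h ι' T' (der_mono hT' hx)).trans hη

theorem allDer_der {ι' : Type} [Fintype ι'] {T' : Cell ι'} {x y z η : ℝ} (h : T.AllDer z η)
    (h' : T.Der x T') (h1 : x * y ≤ z) (h2 : x + y ≤ z) : T'.AllDer y η :=
  fun ι'' _ T'' hT'' => h ι'' T'' (der_trans h' hT'' h1 h2)

/-- the thresholds decrease with the level -/
theorem reg_le {D l : ℕ} {τ : ℕ → ℝ} (h : T.Reg D l τ) (hD : 1 ≤ D) (h0 : 0 ≤ τ (l + 1)) :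
    ∀ j, 1 ≤ j → j ≤ l + 1 → τ (l + 1) ≤ τ j := by
  intro j hj hjl
  induction hjl using Nat.decreasingInduction with
  | self => exact le_rfl
  | of_succ j hjl ih =>
    have h1 := ih (by omega)
    have h2 := (h j hj (by omega)).1
    have h3 := one_le_kap T j
    have h4 : τ (j + 1) + T.kap j ≤ (τ (j + 1) + T.kap j) ^ D :=
      le_self_pow₀ (by linarith) (by omega)
    linarith

theorem reg_mono {D D' l : ℕ} {τ : ℕ → ℝ} (h : T.Reg D l τ) (hD : D' ≤ D) (hD1 : 1 ≤ D)
    (h0 : 0 ≤ τ (l + 1)) : T.Reg D' l τ := fun j hj hjl =>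
  ⟨(pow_le_pow_right₀ (by
      linarith [reg_le h hD1 h0 (j + 1) (by omega) (by omega), one_le_kap T j]) hD).trans
    (h j hj hjl).1, (h j hj hjl).2⟩

theorem reg_pred {D l : ℕ} {τ : ℕ → ℝ} (h : T.Reg D (l + 1) τ) : T.Reg D l τ :=
  fun j hj hjl => h j hj (by omega)

/-- a derived cell of a regular cell is regular -/
theorem der_reg {ι' : Type} [Fintype ι'] {T' : Cell ι'} {D D' l : ℕ} {τ : ℕ → ℝ} {x q : ℝ}
    (h : T.Reg D l τ) (hd : T.Der x T') (hD : 2 * D' + 2 ≤ D) (hq : 2 ≤ q)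
    (hx : q + 2 * x ≤ τ (l + 1)) :
    T'.Reg D' l fun j => if j ≤ l then τ j / 2 else q := by
  have hx0 := der_pos hd
  have hle := reg_le h (by omega) (by linarith)
  have hbig : ∀ j, 1 ≤ j → j ≤ l → 4 * x ≤ τ j := by
    intro j hj hjl
    have h1 := hle (j + 1) (by omega) (by omega)
    have h2 := (h j hj hjl).1
    have h3 := one_le_kap T j
    have h4 : (τ (j + 1) + T.kap j) ^ 2 ≤ (τ (j + 1) + T.kap j) ^ D :=
      pow_le_pow_right₀ (by linarith) (by omega)
    nlinarith
  intro j hj hjl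
  have h1 := hle (j + 1) (by omega) (by omega)
  have h2 := (h j hj hjl).1
  have h3 := one_le_kap T j
  have h3' := one_le_kap T' j
  have h5 := hd.2.2.1 j
  have h6 : (if j + 1 ≤ l then τ (j + 1) / 2 else q) + 2 * x ≤ τ (j + 1) := by
    split_ifs with h7
    · linarith [hbig (j + 1) (by omega) h7]
    · obtain rfl : j = l := by omega
      exact hx
  have h7 : 0 ≤ (if j + 1 ≤ l then τ (j + 1) / 2 else q) := by
    split_ifs <;> linarith
  simp only [if_pos hjl]
  generalize (if j + 1 ≤ l then τ (j + 1) / 2 else q) = t at h6 h7 ⊢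
  refine ⟨?_, regAt_anti (hd.2.2.2 j _ _ (h j hj hjl).2) ?_ ?_⟩
  · set u := τ (j + 1) + T.kap j with hu
    have h8 : t + T'.kap j ≤ u ^ 2 := by
      have : x * T.kap j ≤ τ (j + 1) * T.kap j :=
        mul_le_mul_of_nonneg_right (by linarith) (by linarith)
      have : τ (j + 1) ≤ τ (j + 1) * T.kap j := le_mul_of_one_le_right (by linarith) h3
      nlinarith [sq_nonneg (τ (j + 1)), sq_nonneg (T.kap j)]
    have h9 : (t + T'.kap j) ^ D' ≤ u ^ (2 * D') := by
      rw [pow_mul]; exact pow_le_pow_left₀ (by linarith) h8 _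
    have h10 : u ^ (2 * D') * u ≤ u ^ D := by
      rw [← pow_succ]; exact pow_le_pow_right₀ (by linarith) (by omega)
    have h11 : 0 ≤ u ^ (2 * D') := pow_nonneg (by linarith) _
    nlinarith [mul_le_mul_of_nonneg_left (show 2 ≤ u by linarith) h11]
  · calc Real.exp t * T'.kap j ≤ Real.exp t * (Real.exp x * T.kap j) := by
          gcongr
          exact h5.trans (mul_le_mul_of_nonneg_right (by linarith [Real.add_one_le_exp x])
            (by linarith))
      _ = Real.exp (t + x) * T.kap j := by rw [Real.exp_add]; ring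
      _ ≤ Real.exp (τ (j + 1) + -x) * T.kap j :=
          mul_le_mul_of_nonneg_right (Real.exp_le_exp.2 (by linarith)) (by linarith)
      _ = _ := by rw [Real.exp_add]; ring
  · rw [← Real.exp_add]
    exact Real.exp_le_exp.2 (by linarith [hbig j hj hjl])

/-! ### the sub-cell of the low levels -/

omit [Fintype ι] in
theorem degLe_th (T : Cell ι) (c : ι) : DegLe T.lev (T.th c) (T.lev c) :=
  degLe_add (degLe_C_mul _ (degLe_X _ c)) (T.deg c)

omit [Fintype ι] in
theorem low_th (T : Cell ι) (l : ℕ) (c : {c // T.lev c ≤ l}) :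
    (T.low l).th c = dn _ (T.th c.1) := by
  rw [Tri.th, Tri.th, map_add, map_mul, dn_C, dn_X]; rfl

omit [Fintype ι] in
theorem low_top (T : Cell ι) (l d : ℕ) (f : Pl ι) :
    (T.low l).top d (dn _ f) = dn _ (T.top d f) := (dn_top _ T.lev d f).symm

omit [Fintype ι] in
theorem low_tth (T : Cell ι) (l : ℕ) (c : {c // T.lev c ≤ l}) :
    (T.low l).tth c = dn _ (T.tth c.1) := by
  rw [tth, low_th, low_top]; rfl

omit [Fintype ι] in
theorem tth_hom (T : Cell ι) (c : ι) : IsWeightedHomogeneous T.lev (T.tth c) (T.lev c) :=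
  weightedHomogeneousComponent_isWeightedHomogeneous _ _

omit [Fintype ι] in
theorem rename_low_tth (T : Cell ι) (l : ℕ) (c : {c // T.lev c ≤ l}) :
    rename Subtype.val ((T.low l).tth c) = T.tth c.1 := by
  rw [low_tth]
  exact rename_dn (supported_mono (fun c' hc' => le_trans hc' c.2)
    (mem_supported_of_hom (tth_hom T c.1)))

omit [Fintype ι] in
theorem TTh_rename (T : Cell ι) (l : ℕ) (e : Pl {c // T.lev c ≤ l}) :
    T.TTh (rename Subtype.val e) = rename Subtype.val ((T.low l).TTh e) := by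
  have : T.TTh.comp (rename Subtype.val) =
      (rename (Subtype.val : {c // T.lev c ≤ l} → ι)).comp (T.low l).TTh :=
    MvPolynomial.algHom_ext fun c => by simp [TTh, rename_low_tth]
  exact AlgHom.congr_fun this e

theorem low_kap (T : Cell ι) {l j : ℕ} (hj : j ≤ l) : (T.low l).kap j = T.kap j := by
  unfold kap
  congr 1
  refine Finset.sum_bij (fun c _ => c.1) (fun c hc => Finset.mem_filter.2
      ⟨Finset.mem_univ _, (Finset.mem_filter.1 hc).2⟩)
    (fun _ _ _ _ h => Subtype.ext h) (fun c hc => ?_) fun _ _ => rfl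
  have h1 : T.lev c = j := by simpa using hc
  exact ⟨⟨c, h1.le.trans hj⟩, Finset.mem_filter.2 ⟨Finset.mem_univ _, h1⟩, rfl⟩

theorem low_card (T : Cell ι) (l : ℕ) :
    (Fintype.card {c // T.lev c ≤ l} : ℝ) ≤ Fintype.card ι := by
  exact_mod_cast Fintype.card_subtype_le _

theorem low_regAt {l j : ℕ} {H Λ : ℝ} (h : T.RegAt j H Λ) : (T.low l).RegAt j H Λ := by
  classical
  intro ξ b e h1 h2 h3 h4 h5 h6 h7 h8
  set ξ' : ι → ℝ := fun c => if h : T.lev c ≤ l then ξ ⟨c, h⟩ else 0 with hξ'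
  have hv : ∀ c : {c // T.lev c ≤ l}, ξ' c.1 = ξ c := fun c => dif_pos c.2
  have hsum : ∀ {β : Type} [AddCommMonoid β] (g : ι → β), (∀ c, ¬ T.lev c ≤ l → g c = 0) →
      ∑ c, g c = ∑ c : {c // T.lev c ≤ l}, g c.1 := by
    intro β _ g hg
    rw [← Finset.sum_subtype (Finset.univ.filter fun c => T.lev c ≤ l) (by simp),
      Finset.sum_filter_of_ne]
    intro c _ hc
    by_contra h'
    exact hc (hg c h')
  have hdot : T.dotT ξ' = rename Subtype.val ((T.low l).dotT ξ) := by
    rw [dotT, dotT, hsum _ fun c hc => by simp [hξ', hc], map_sum]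
    exact Finset.sum_congr rfl fun c _ => by rw [map_mul, rename_C, rename_low_tth, hv]
  have key : ξ' = 0 := by
    refine h ξ' b (rename Subtype.val e) ⟨fun c hc => ?_, fun c hc => ?_⟩ ?_ h3 h4
      (hom_rename _ _ h5) (rename_mem_supported Subtype.val (by exact fun c hc => hc) h6)
      (by rwa [nrm_rename Subtype.val_injective]) ?_
    · by_cases h' : T.lev c ≤ l
      · exact (hv ⟨c, h'⟩).trans (h1.1 ⟨c, h'⟩ hc)
      · exact dif_neg h'
    · rw [hdot]
      by_cases h' : T.lev c ≤ l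
      · obtain ⟨n, hn⟩ := h1.2 ⟨c, h'⟩ hc
        refine ⟨n, ?_⟩
        rw [← hn, ← coeff_rename_mapDomain _ Subtype.val_injective, Finsupp.mapDomain_single]
      · refine ⟨0, ?_⟩
        rw [Int.cast_zero]
        by_contra h0
        obtain ⟨u, hu, -⟩ := coeff_rename_ne_zero _ _ _ h0
        have h9 : c ∈ (Finsupp.mapDomain Subtype.val u).support := by rw [hu]; simp
        obtain ⟨c', -, rfl⟩ := Finset.mem_image.1 (Finsupp.mapDomain_support h9)
        exact h' c'.2
    · rw [hsum _ fun c hc => by simp [hξ', hc]]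
      simpa only [hv] using h2
    · rw [hdot, TTh_rename, ← rename_C (Subtype.val : {c // T.lev c ≤ l} → ι), ← map_mul,
        ← map_add]
      exact isInt_rename Subtype.val_injective h8
  exact funext fun c => (hv c).symm.trans (congrFun key c.1)

theorem low_reg {D l : ℕ} {τ : ℕ → ℝ} (h : T.Reg D l τ) : (T.low l).Reg D l τ :=
  fun j hj hjl => by
    rw [low_kap T hjl]
    exact ⟨(h j hj hjl).1, low_regAt (h j hj hjl).2⟩

theorem dotT_eq_top {l : ℕ} {ξ : ι → ℝ} (hξ : ∀ c, T.lev c ≠ l → ξ c = 0) :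
    T.dotT ξ = T.top l (∑ c, C (ξ c) * T.th c) := by
  rw [dotT, top, map_sum]
  refine Finset.sum_congr rfl fun c _ => ?_
  rw [weightedHomogeneousComponent_C_mul]
  by_cases h : T.lev c = l
  · rw [tth, top, h]
  · simp [hξ c h]

/-- lifting a relation from the low cell -/
theorem lift_rel {l : ℕ} (hl : ∀ c, T.lev c ≤ l + 1) {ξ : ι → ℝ} (hξ : T.Dual (l + 1) ξ) (b : ℕ)
    {e : Pl {c // T.lev c ≤ l}}
    (h : IsInt (C (b : ℝ) * (T.low l).top (l + 1) (dn _ (∑ c, C (ξ c) * T.th c)) -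
      (T.low l).TTh e)) :
    IsInt (C (b : ℝ) * T.dotT ξ + T.TTh (-rename Subtype.val e)) := by
  classical
  rw [low_top, ← dotT_eq_top hξ.1] at h
  rw [map_neg, TTh_rename, ← sub_eq_add_neg]
  intro m
  by_cases hm : ∀ c ∈ m.support, T.lev c ≤ l
  · obtain ⟨u, rfl⟩ : ∃ u : {c // T.lev c ≤ l} →₀ ℕ, u.mapDomain Subtype.val = m :=
      ⟨_, Finsupp.mapDomain_comapDomain _ Subtype.val_injective m fun c hc => ⟨⟨c, hm c hc⟩, rfl⟩⟩
    obtain ⟨n, hn⟩ := h u
    refine ⟨n, ?_⟩
    rw [← hn, coeff_sub, coeff_sub, coeff_C_mul, coeff_C_mul, coeff_dn,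
      coeff_rename_mapDomain _ Subtype.val_injective]
  · push Not at hm
    obtain ⟨c, hc, hcl⟩ := hm
    have hc' : T.lev c = l + 1 := le_antisymm (hl c) hcl
    have h1 : coeff m (rename Subtype.val ((T.low l).TTh e)) = 0 := by
      by_contra h0
      obtain ⟨u, rfl, -⟩ := coeff_rename_ne_zero _ _ _ h0
      obtain ⟨c', -, rfl⟩ := Finset.mem_image.1 (Finsupp.mapDomain_support hc)
      exact absurd c'.2 (by omega)
    rw [coeff_sub, h1, sub_zero, coeff_C_mul]
    by_cases h0 : coeff m (T.dotT ξ) = 0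
    · exact ⟨0, by simp [h0]⟩
    have h2 : Finsupp.weight T.lev m = l + 1 := by
      rw [dotT_eq_top hξ.1] at h0
      exact weightedHomogeneousComponent_isWeightedHomogeneous _ _ h0
    have h3 : m = Finsupp.single c 1 := by
      have h4 : Finsupp.single c 1 ≤ m :=
        Finsupp.single_le_iff.2 (Nat.one_le_iff_ne_zero.2 (Finsupp.mem_support_iff.1 hc))
      obtain ⟨r, rfl⟩ := exists_add_of_le h4
      have h5 : Finsupp.weight T.lev r = 0 := by
        rw [map_add, Finsupp.weight_single, one_smul] at h2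
        omega
      have h6 : r = 0 := by
        by_contra h7
        obtain ⟨c', hc''⟩ := Finsupp.support_nonempty_iff.2 h7
        have := weight_pos_le T.lev r hc''
        have := T.lev_pos c'
        omega
      rw [h6, add_zero]
    obtain ⟨n, hn⟩ := hξ.2 c hc'
    exact ⟨b * n, by rw [h3, hn]; push_cast; rfl⟩

end cell

end Crest.Agent.T49.Tw.Asm
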