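import Crest.Agent.T49.MxDefB_53
import Crest.Agent.T49.TwAsmA_2

/-!
# Row 49: mixed cells, covers (helper53)
-/

set_option autoImplicit false
set_option linter.unusedSectionVars false

open MvPolynomial

namespace Crest.Agent.T49.Tw

open Ch4

/-- polynomials allowed in a window of class `j` -/
def MCP {ι : Type} (cl : ι → ℕ) (f : Pl ι) (j : ℕ) : Prop :=
  ∀ m ∈ f.support, ∀ c' ∈ m.support, cl c' < j ∨ (cl c' = j ∧ m = Finsupp.single c' 1)

namespace MCP
variable {ι κ : Type} {cl : ι → ℕ} {f g : Pl ι} {j : ℕ}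

theorem of_subset (hf : MCP cl f j) (h : g.support ⊆ f.support) : MCP cl g j :=
  fun m hm => hf m (h hm)

theorem zero : MCP cl (0 : Pl ι) j := fun m hm => by simp at hm

theorem add (hf : MCP cl f j) (hg : MCP cl g j) : MCP cl (f + g) j := by
  classical
  intro m hm
  rcases Finset.mem_union.1 (support_add hm) with h | h
  exacts [hf m h, hg m h]

theorem neg (hf : MCP cl f j) : MCP cl (-f) j :=
  hf.of_subset (by rw [support_neg])

theorem sub (hf : MCP cl f j) (hg : MCP cl g j) : MCP cl (f - g) j := by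
  rw [sub_eq_add_neg]; exact hf.add hg.neg

theorem C_mul (r : ℝ) (hf : MCP cl f j) : MCP cl (C r * f) j :=
  hf.of_subset fun m hm => by
    rw [mem_support_iff] at hm ⊢
    rw [coeff_C_mul] at hm
    exact right_ne_zero_of_mul hm

theorem sum {α : Type} (s : Finset α) {F : α → Pl ι} (h : ∀ a ∈ s, MCP cl (F a) j) :
    MCP cl (∑ a ∈ s, F a) j :=
  Finset.sum_induction F (fun p => MCP cl p j) (fun _ _ => add) zero h

theorem of_supp (hf : f ∈ supported ℝ {c | cl c < j}) : MCP cl f j :=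
  fun m hm c hc => Or.inl (Asm.mem_supported_iff.1 hf m hm c hc)

theorem C (r : ℝ) : MCP cl (C r : Pl ι) j := of_supp (C_mem_supp _ _)

theorem X (c : ι) : MCP cl (X c : Pl ι) (cl c) := by
  intro m hm c' hc'
  rw [support_X, Finset.mem_singleton] at hm
  subst hm
  obtain rfl : c' = c := by simpa using Finsupp.support_single_subset hc'
  exact Or.inr ⟨rfl, rfl⟩

theorem X' {c : ι} (h1 : cl c = j) : MCP cl (MvPolynomial.X c : Pl ι) j :=
  h1 ▸ X c

theorem supp (hf : MCP cl f j) : f ∈ supported ℝ {c | cl c ≤ j} :=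
  Asm.mem_supported_iff.2 fun m hm c hc => by
    rcases hf m hm c hc with h | h
    exacts [h.le, h.1.le]

theorem supp_lt (hf : MCP cl f j) {j' : ℕ} (h : j < j') : f ∈ supported ℝ {c | cl c < j'} :=
  supported_mono (fun _ hc => lt_of_le_of_lt hc h) hf.supp

theorem top (hf : MCP cl f j) (v : ι → ℕ) (d : ℕ) :
    MCP cl (weightedHomogeneousComponent v d f) j :=
  hf.of_subset fun m hm => by
    classical
    rw [mem_support_iff] at hm ⊢
    rw [coeff_weightedHomogeneousComponent] at hm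
    intro h; simp [h] at hm

/-- substitution -/
theorem bind {cl' : κ → ℕ} {σ : ι → Pl κ} (hσ : ∀ c, MCP cl' (σ c) (cl c))
    (hf : MCP cl f j) : MCP cl' (bind₁ σ f) j := by
  classical
  rw [f.as_sum, map_sum]
  refine sum _ fun m hm => ?_
  by_cases h : ∀ c ∈ m.support, cl c < j
  · refine of_supp (bind_mem_supported (s := {c | cl c < j}) (fun c hc => (hσ c).supp_lt hc) ?_)
    refine Asm.mem_supported_iff.2 fun m' hm' c hc => ?_
    rw [Finset.mem_singleton.1 (support_monomial_subset hm')] at hc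
    exact h c hc
  · push Not at h
    obtain ⟨c, hc, hj⟩ := h
    obtain ⟨h1, h2⟩ := (hf m hm c hc).resolve_left (by omega)
    have : (monomial m (coeff m f) : Pl ι) = MvPolynomial.C (coeff m f) * MvPolynomial.X c := by
      rw [MvPolynomial.X, C_mul_monomial, mul_one, ← h2]
    rw [this, map_mul, bind₁_C_right, bind₁_X_right]
    exact C_mul _ (h1 ▸ hσ c)

theorem rename {cl' : κ → ℕ} {v : ι → κ} (h1 : ∀ c, cl' (v c) = cl c)
    (hf : MCP cl f j) :
    MCP cl' (MvPolynomial.rename v f) j := by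
  rw [rename_eq_bind]
  exact bind (fun c => X' (h1 c)) hf

theorem dn (q : ι → Prop) (hf : MCP cl f j) :
    MCP (fun c : {c // q c} => cl c.1) (dn q f) j := by
  refine bind (fun c => ?_) hf
  split_ifs with h
  · exact X' rfl
  · exact zero

theorem sh0 (q : ι → Prop) (hf : MCP cl f j) :
    MCP (dlev cl q) (sh0 q f) j :=
  rename (fun _ => rfl) hf

theorem sh1 (q : ι → Prop) (hf : MCP cl f j) :
    MCP (dlev cl q) (sh1 q f) j := by
  refine bind (fun c => ?_) hf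
  split_ifs with h
  · exact X' rfl
  · exact (X' rfl).add (X' rfl)

end MCP

namespace Cell
variable {ι ι' : Type} {T : Cell ι} {cl : ι → ℕ}

theorem IsMC.pos (h : T.IsMC cl) (c : ι) : 0 < cl c := h.1 c

theorem IsMC.B (h : T.IsMC cl) (c : ι) : MCP cl (T.B c) (cl c) := h.2 c

theorem IsMC.th (h : T.IsMC cl) (c : ι) : MCP cl (T.th c) (cl c) :=
  ((MCP.X c).C_mul _).add (h.B c)

theorem IsMC.tth (h : T.IsMC cl) (c : ι) : MCP cl (T.tth c) (cl c) :=
  (h.th c).top _ _

theorem isMC_of (h0 : ∀ c, 0 < cl c) (h : ∀ c, MCP cl (T.B c) (cl c)) :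
    T.IsMC cl := ⟨h0, h⟩

theorem isMC_of_th (h0 : ∀ c, 0 < cl c) (h : ∀ c, MCP cl (T.th c) (cl c)) :
    T.IsMC cl := ⟨h0, fun c => by
  have : T.B c = T.th c - C (T.a c) * X c := by rw [Tri.th]; ring
  show MCP cl (T.B c) _
  rw [this]
  exact (h c).sub ((MCP.X c).C_mul _)⟩

theorem IsMC.clo (h : T.IsMC cl) (l : ℕ) : T.Clo fun c => cl c ≤ l :=
  fun c hc => supported_mono (fun _ hc' => le_trans hc' hc) (h.B c).supp

theorem IsMC.clo_lt (h : T.IsMC cl) (l : ℕ) : T.Clo fun c => cl c < l :=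
  fun c hc => (h.B c).supp_lt hc

theorem IsMC.frz (h : T.IsMC cl) (q : ι → Prop) : (T.frz q).IsMC fun c => cl c.1 :=
  isMC_of (fun c => h.pos c.1) fun c => (h.B c.1).dn q

theorem IsMC.dbl (h : T.IsMC cl) (q : ι → Prop) : (T.dbl q).IsMC (dlev cl q) := by
  refine isMC_of_th (fun c => ?_) fun c => ?_
  · rcases c with c | c
    exacts [h.pos c, h.pos c.1]
  · rcases c with c | c
    · by_cases hq : q c
      · have : (T.dbl q).th (Sum.inl c) = sh0 q (T.th c) := Tri.dbl_th_fr _ hq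
        rw [this]; exact (h.th c).sh0 q
      · have : (T.dbl q).th (Sum.inl c) = _ := Tri.dbl_th_live _ hq
        rw [this]; exact (((h.th c).sh1 q).add ((h.th c).sh0 q)).C_mul _
    · have : (T.dbl q).th (Sum.inr c) = _ := Tri.dbl_th_inr _ c
      rw [this]; exact (((h.th c.1).sh1 q).sub ((h.th c.1).sh0 q)).C_mul _

/-- the levels are a class function -/
theorem isMC_lev (T : Cell ι) : T.IsMC T.lev := by
  refine ⟨T.lev_pos, fun c m hm c' hc' => ?_⟩
  have h1 := weight_pos_le T.lev m hc'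
  have h2 := T.deg c m hm
  rcases (h1.trans h2).lt_or_eq with h | h
  · exact Or.inl h
  · refine Or.inr ⟨h, ?_⟩
    have h4 : Finsupp.single c' 1 ≤ m :=
      Finsupp.single_le_iff.2 (Nat.one_le_iff_ne_zero.2 (Finsupp.mem_support_iff.1 hc'))
    obtain ⟨r, rfl⟩ := exists_add_of_le h4
    have h5 : Finsupp.weight T.lev r = 0 := by
      rw [map_add, Finsupp.weight_single, one_smul] at h2
      omega
    have h6 : r = 0 := by
      by_contra h7
      obtain ⟨c'', hc''⟩ := Finsupp.support_nonempty_iff.2 h7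
      have := weight_pos_le T.lev r hc''
      have := T.lev_pos c''
      omega
    rw [h6, add_zero]

variable [Fintype ι] [Fintype ι']

theorem kapM_lev (T : Cell ι) (j : ℕ) : T.kapM T.lev j = T.kap j := rfl

theorem regAtM_of_regAt {j : ℕ} {H Λ : ℝ} (h : T.RegAt j H Λ) : T.RegAtM T.lev j H Λ := by
  intro w ξ b e h1 hw h2 h3 h4 h5 h6 h7 h8
  by_cases hj : w = j
  · exact h ξ b e h1 h2 h3 h4 (hj ▸ h5) h6 h7 h8
  · funext c
    by_cases hc : T.lev c = j
    · exact hw c (by omega)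
    · exact h1.1 c hc

/-- a regular cell is a regular mixed cell -/
theorem regM_of_reg {D l : ℕ} {τ : ℕ → ℝ} (h : T.Reg D l τ) : T.RegM T.lev D l τ :=
  fun j h1 h2 => ⟨(h j h1 h2).1, regAtM_of_regAt (h j h1 h2).2⟩

theorem kapM_eq (T : Cell ι) (cl : ι → ℕ) (l : ℕ) :
    T.kapM cl l = 1 + ∑ c, if cl c = l then 1 + Real.log (1 + |T.a c|) else 0 := by
  rw [kapM, Finset.sum_filter]

theorem one_le_term (r : ℝ) : 1 ≤ 1 + Real.log (1 + |r|) := by
  linarith [Real.log_nonneg (show 1 ≤ 1 + |r| by linarith [abs_nonneg r])]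

theorem one_le_kapM (T : Cell ι) (cl : ι → ℕ) (l : ℕ) : 1 ≤ T.kapM cl l :=
  le_add_of_nonneg_right (Finset.sum_nonneg fun c _ => by linarith [one_le_term (T.a c)])

/-- complexity of a cell over `T`: at most `N` coordinates over each, windows at most `K` times
narrower -/
theorem kapM_le (T : Cell ι) (T' : Cell ι') (π : ι' → ι) {N : ℕ} {K : ℝ} (hN : 1 ≤ N) (hK : 1 ≤ K)
    (hc : ∀ c, Nat.card {c' // π c' = c} ≤ N) (ha : ∀ c', |T'.a c'| ≤ K * |T.a (π c')|)
    (cl : ι → ℕ) (j : ℕ) :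
    T'.kapM (cl ∘ π) j ≤ N * (1 + Real.log K) * T.kapM cl j := by
  classical
  have hl := Real.log_nonneg hK
  have hN' : (1 : ℝ) ≤ N := by exact_mod_cast hN
  set g : ι → ℝ := fun c => if cl c = j then 1 + Real.log (1 + |T.a c|) else 0 with hg
  have hg0 : ∀ c, 0 ≤ g c := fun c => by
    simp only [hg]; split_ifs
    · linarith [one_le_term (T.a c)]
    · exact le_rfl
  have h1 : ∀ c', (if (cl ∘ π) c' = j then 1 + Real.log (1 + |T'.a c'|) else 0) ≤
      (1 + Real.log K) * g (π c') := by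
    intro c'
    simp only [hg, Function.comp]
    split_ifs
    · have h0 := abs_nonneg (T.a (π c'))
      have h2 : Real.log (1 + |T'.a c'|) ≤ Real.log (K * (1 + |T.a (π c')|)) :=
        Real.log_le_log (by positivity) (by nlinarith [ha c'])
      rw [Real.log_mul (by positivity) (by positivity)] at h2
      nlinarith [one_le_term (T.a (π c'))]
    · simp
  have h2 : ∑ c', g (π c') ≤ N * ∑ c, g c := by
    rw [← Finset.sum_fiberwise (s := Finset.univ) (g := π), Finset.mul_sum]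
    refine Finset.sum_le_sum fun c _ => ?_
    rw [Finset.sum_congr rfl (g := fun _ => g c) fun c' hc' => by
      rw [(Finset.mem_filter.1 hc').2], Finset.sum_const, nsmul_eq_mul]
    refine mul_le_mul_of_nonneg_right ?_ (hg0 c)
    have := hc c
    rw [Nat.card_eq_fintype_card, Fintype.card_subtype] at this
    exact_mod_cast this
  rw [kapM_eq, kapM_eq]
  have h3 := Finset.sum_le_sum fun c' (_ : c' ∈ Finset.univ) => h1 c'
  rw [← Finset.mul_sum] at h3
  have h4 : 0 ≤ ∑ c, g c := Finset.sum_nonneg fun c _ => hg0 c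
  have h5 := mul_le_mul_of_nonneg_left h2 (show 0 ≤ 1 + Real.log K by linarith)
  have h6 : (1 : ℝ) ≤ N * (1 + Real.log K) := by nlinarith
  calc _ ≤ 1 + (1 + Real.log K) * (N * ∑ c, g c) := by linarith
    _ ≤ N * (1 + Real.log K) * (1 + ∑ c, g c) := by nlinarith

theorem card_le_of_fib (π : ι' → ι) {N : ℕ} (hc : ∀ c, Nat.card {c' // π c' = c} ≤ N) :
    Fintype.card ι' ≤ N * Fintype.card ι := by
  classical
  rw [← Finset.card_univ, ← Finset.card_univ]
  refine Finset.card_le_mul_card_image_of_maps_to (f := π) (fun _ _ => Finset.mem_univ _) N ?_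
  intro c _
  have := hc c
  rwa [Nat.card_eq_fintype_card, Fintype.card_subtype] at this

theorem dotT_supp (h : T.IsMC cl) {j : ℕ} {ξ : ι → ℝ} (hξ : ∀ c, cl c ≠ j → ξ c = 0) :
    T.dotT ξ ∈ supported ℝ {c | cl c ≤ j} := by
  refine sum_mem fun c _ => ?_
  by_cases hc : cl c = j
  · exact mul_mem (C_mem_supp _ _) (hc ▸ (h.tth c).supp)
  · rw [hξ c hc, C_0, zero_mul]; exact zero_mem _

variable {T' : Cell ι'} {cl' : ι' → ℕ} {K : ℝ} {σ : ι' → Pl ι} {μ : ι' → ι → ℝ}

theorem Sub.dualM (h : T.Sub T' K σ μ) (hm : T'.IsMC cl') (h1 : ∀ c' c, μ c' c ≠ 0 → cl c = cl' c')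
    (h2 : ∀ c' c, coeff (Finsupp.single c 1) (σ c') ≠ 0 → cl c ≤ cl' c') {ξ : ι' → ℝ} {j : ℕ}
    (hξ : T'.DualM cl' j ξ) : T.DualM cl j fun c => ∑ c', ξ c' * μ c' c := by
  refine ⟨fun c hc => Finset.sum_eq_zero fun c' _ => ?_, fun c hc => ?_⟩
  · by_cases h0 : μ c' c = 0
    · rw [h0, mul_zero]
    · rw [hξ.1 c' (by rw [← h1 c' c h0]; exact hc), zero_mul]
  · rw [← h.bind_dotT, coeff_single_bind fun c' => coeff_zero_hom (h.hom c') (T'.lev_pos c')]
    have : ∀ c', ∃ n : ℤ, coeff (Finsupp.single c' 1) (T'.dotT ξ) *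
        coeff (Finsupp.single c 1) (σ c') = n := by
      intro c'
      rcases lt_trichotomy (cl' c') j with h3 | h3 | h3
      · refine ⟨0, ?_⟩
        have : coeff (Finsupp.single c 1) (σ c') = 0 := by
          by_contra h4
          have := h2 c' c h4
          omega
        simp [this]
      · obtain ⟨a, ha⟩ := hξ.2 c' h3
        obtain ⟨b, hb⟩ := h.int c' (Finsupp.single c 1)
        exact ⟨a * b, by rw [ha, hb, Int.cast_mul]⟩
      · refine ⟨0, ?_⟩
        have : coeff (Finsupp.single c' 1) (T'.dotT ξ) = 0 := by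
          by_contra h4
          have := Asm.mem_supported_iff.1 (dotT_supp hm hξ.1) _ (mem_support_iff.2 h4) c' (by simp)
          exact absurd this (by simpa using h3)
        simp [this]
    choose n hn using this
    exact ⟨∑ c', n c', by simp [hn]⟩

/-- relations are pulled back along a class-respecting cover -/
theorem CovM.regAtM (h : T.CovM cl T' cl' K) (hm : T'.IsMC cl') (hK : 1 ≤ K) {l : ℕ}
    (hl : ∀ c', T'.lev c' ≤ l) {x : ℝ} (hx : K ^ (l + 1) ≤ Real.exp x) {j : ℕ} {H Λ : ℝ}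
    (hR : T.RegAtM cl j H Λ) : T'.RegAtM cl' j (H * Real.exp (-x)) (Λ * Real.exp (-x)) := by
  intro w ξ b e hξ hw hH hb hbΛ he he' hn hI
  by_contra h0
  have hj : w ≤ l := by
    obtain ⟨c', hc'⟩ := Function.ne_iff.1 h0
    by_contra hj
    exact hc' (hw c' (by have := hl c'; omega))
  obtain ⟨σ, μ, hs, h1, h2, c, hc⟩ := h ξ h0
  have hx0 : 0 < Real.exp x := Real.exp_pos x
  have hK1 : K ≤ Real.exp x :=
    le_trans (by simpa using pow_le_pow_right₀ hK (Nat.le_add_left 1 l)) hx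
  have hKj : K ^ w ≤ Real.exp x := le_trans (pow_le_pow_right₀ hK (by omega)) hx
  have key : ∀ {A u v : ℝ}, 0 ≤ u → u ≤ A * Real.exp (-x) → 0 ≤ v → v ≤ Real.exp x →
      u * v ≤ A := by
    intro A u v hu huA hv hvx
    calc u * v ≤ A * Real.exp (-x) * Real.exp x := mul_le_mul huA hvx hv (hu.trans huA)
      _ = A := by rw [mul_assoc, ← Real.exp_add]; simp
  have hξ0 := hR w _ b (pushE μ e) (hs.dualM hm h1 h2 hξ)
    (fun c hc => Finset.sum_eq_zero fun c' _ => by
      by_cases h0 : μ c' c = 0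
      · rw [h0, mul_zero]
      · rw [hw c' (by rw [← hs.lev c' c h0]; exact hc), zero_mul])
    ((hs.sum_abs_le ξ).trans (key (Finset.sum_nonneg fun _ _ => abs_nonneg _) hH (by linarith) hK1))
    hb (by simpa using key (Nat.cast_nonneg b) hbΛ zero_le_one (hK.trans hK1)) (hs.pushE_hom he)
    (by
      refine bind_mem_supported (fun c' hc' => sum_mem fun c _ => ?_) he'
      by_cases h0 : μ c' c = 0
      · rw [h0, C_0, zero_mul]; exact zero_mem _
      · refine mul_mem (C_mem_supp _ _) (X_mem_supp ?_)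
        show cl c < j
        rw [h1 c' c h0]; exact hc')
    ((hs.nrm_pushE hK he).trans (key (nrm_nonneg _) hn (by positivity) hKj))
    (by
      have := isInt_bind hs.int hI
      rwa [map_add, map_mul, bind₁_C_right, hs.bind_dotT, hs.bind_TTh] at this)
  exact hc (congrFun hξ0 c)

theorem CovM.derM (h : T.CovM cl T' cl' K) (hm : T'.IsMC cl') (hK : 1 ≤ K) {l : ℕ}
    (hl : ∀ c', T'.lev c' ≤ l) {x : ℝ} (hx : K ^ (l + 1) ≤ Real.exp x)
    (h1 : ∀ c', ∃ c, cl' c' = cl c ∧ T'.lev c' = T.lev c)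
    (h2 : (Fintype.card ι' : ℝ) ≤ x * Fintype.card ι) (h3 : ∀ j, T'.kapM cl' j ≤ x * T.kapM cl j) :
    T.DerM cl x T' cl' :=
  ⟨hm, h1, h2, h3, fun _ _ _ hR => h.regAtM hm hK hl hx hR⟩

theorem DCov.covM {π : ι' → ι} (h : T.DCov T' π K) (cl : ι → ℕ) : T.CovM cl T' (cl ∘ π) K := by
  intro ξ hξ
  obtain ⟨σ, μ, hs, h1, h2, h3⟩ := h ξ hξ
  exact ⟨σ, μ, hs, fun c' c h0 => by rw [h1 c' c h0]; rfl,
    fun c' c h0 => by rw [h2 c' c h0]; exact le_rfl, h3⟩

/-- a diagonal cover with controlled size is a projective cover -/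
theorem DCov.pc {π : ι' → ι} (h : T.DCov T' π K) (hK : 1 ≤ K) {l : ℕ}
    (hl : ∀ c, T.lev c ≤ l) {x : ℝ} (hx : K ^ (l + 1) ≤ Real.exp x)
    (h1 : ∀ c', T'.lev c' = T.lev (π c'))
    (h2 : (Fintype.card ι' : ℝ) ≤ x * Fintype.card ι)
    (h3 : ∀ cl j, T'.kapM (cl ∘ π) j ≤ x * T.kapM cl j)
    (h4 : ∀ cl, T.IsMC cl → T'.IsMC (cl ∘ π)) : T.PC x T' π :=
  ⟨h1, h2, h3, h4, fun cl hm _ _ _ hR =>
    (h.covM cl).regAtM (h4 cl hm) hK (fun c' => h1 c' ▸ hl _) hx hR⟩

/-- convenient form: fibres of `π` have at most `N` elements, `|a'| ≤ K' |a|` -/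
theorem DCov.pc' {π : ι' → ι} (h : T.DCov T' π K) (hK : 1 ≤ K) {l : ℕ}
    (hl : ∀ c, T.lev c ≤ l) {x : ℝ} (hx : K ^ (l + 1) ≤ Real.exp x)
    (h1 : ∀ c', T'.lev c' = T.lev (π c')) {N : ℕ} {K' : ℝ} (hN : 1 ≤ N) (hK' : 1 ≤ K')
    (hc : ∀ c, Nat.card {c' // π c' = c} ≤ N) (ha : ∀ c', |T'.a c'| ≤ K' * |T.a (π c')|)
    (hNx : N * (1 + Real.log K') ≤ x)
    (h4 : ∀ cl, T.IsMC cl → T'.IsMC (cl ∘ π)) : T.PC x T' π := by
  refine h.pc hK hl hx h1 ?_ (fun cl j => (kapM_le T T' π hN hK' hc ha cl j).trans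
    (mul_le_mul_of_nonneg_right hNx (by linarith [one_le_kapM T cl j]))) h4
  have h5 : (Fintype.card ι' : ℝ) ≤ N * Fintype.card ι := by
    exact_mod_cast card_le_of_fib π hc
  refine h5.trans (mul_le_mul_of_nonneg_right (le_trans ?_ hNx) (Nat.cast_nonneg _))
  exact le_mul_of_one_le_right (Nat.cast_nonneg _) (by linarith [Real.log_nonneg hK'])

/-! ### monotonicity and composition -/

theorem regAtM_anti {j : ℕ} {H H' Λ Λ' : ℝ} (h : T.RegAtM cl j H Λ) (hH : H' ≤ H) (hΛ : Λ' ≤ Λ) :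
    T.RegAtM cl j H' Λ' := fun w ξ b e h1 hw h2 h3 h4 h5 h6 h7 h8 =>
  h w ξ b e h1 hw (h2.trans hH) h3 (h4.trans hΛ) h5 h6 (h7.trans hΛ) h8

theorem regAtM_scale {j : ℕ} {H Λ u v : ℝ} (h : T.RegAtM cl j (H * u) (Λ * u)) (hv : 0 < v)
    (huv : v ≤ u) : T.RegAtM cl j (H * v) (Λ * v) := by
  intro w ξ b e h1 hw h2 h3 h4 h5 h6 h7 h8
  have hH : 0 ≤ H :=
    nonneg_of_mul_nonneg_left ((Finset.sum_nonneg fun c _ => abs_nonneg (ξ c)).trans h2) hv
  have hΛ : 0 ≤ Λ := nonneg_of_mul_nonneg_left ((Nat.cast_nonneg b).trans h4) hv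
  exact regAtM_anti h (mul_le_mul_of_nonneg_left huv hH) (mul_le_mul_of_nonneg_left huv hΛ)
    w ξ b e h1 hw h2 h3 h4 h5 h6 h7 h8

theorem DerM.pos {x : ℝ} (h : T.DerM cl x T' cl') : 0 < x := by
  have h1 := (one_le_kapM T' cl' 0).trans (h.kap 0)
  have h2 := one_le_kapM T cl 0
  by_contra hx
  nlinarith

theorem PC.pos {x : ℝ} {π : ι' → ι} (h : T.PC x T' π) : 0 < x := by
  have h1 := (one_le_kapM T' _ 0).trans (h.kap T.lev 0)
  have h2 := one_le_kapM T T.lev 0
  by_contra hx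
  nlinarith

theorem DerM.mono {x x' : ℝ} (h : T.DerM cl x T' cl') (hx : x ≤ x') : T.DerM cl x' T' cl' :=
  ⟨h.mc, h.ex, h.card.trans (mul_le_mul_of_nonneg_right hx (Nat.cast_nonneg _)),
    fun j => (h.kap j).trans (mul_le_mul_of_nonneg_right hx (by linarith [one_le_kapM T cl j])),
    fun j H Λ hR => regAtM_scale (h.reg j H Λ hR) (Real.exp_pos _)
      (Real.exp_le_exp.2 (by linarith))⟩

theorem PC.mono {x x' : ℝ} {π : ι' → ι} (h : T.PC x T' π) (hx : x ≤ x') : T.PC x' T' π :=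
  ⟨h.lev, h.card.trans (mul_le_mul_of_nonneg_right hx (Nat.cast_nonneg _)),
    fun cl j => (h.kap cl j).trans
      (mul_le_mul_of_nonneg_right hx (by linarith [one_le_kapM T cl j])), h.mc,
    fun cl hm j H Λ hR => regAtM_scale (h.reg cl hm j H Λ hR) (Real.exp_pos _)
      (Real.exp_le_exp.2 (by linarith))⟩

theorem PC.refl (T : Cell ι) : T.PC 1 T id :=
  ⟨fun _ => rfl, by simp, fun cl j => by simp, fun _ h => h, fun cl _ j H Λ hR =>
    regAtM_scale (u := 1) (by simpa using hR) (Real.exp_pos _) (by simp)⟩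

theorem PC.derM {x : ℝ} {π : ι' → ι} (h : T.PC x T' π) (hm : T.IsMC cl) :
    T.DerM cl x T' (cl ∘ π) :=
  ⟨h.mc cl hm, fun c' => ⟨π c', rfl, h.lev c'⟩, h.card, h.kap cl, h.reg cl hm⟩

theorem DerM.refl (hm : T.IsMC cl) : T.DerM cl 1 T cl := (PC.refl T).derM hm

theorem DerM.trans {ι'' : Type} [Fintype ι''] {T'' : Cell ι''} {cl'' : ι'' → ℕ} {x y z : ℝ}
    (h : T.DerM cl x T' cl') (h' : T'.DerM cl' y T'' cl'') (h1 : x * y ≤ z) (h2 : x + y ≤ z) :
    T.DerM cl z T'' cl'' := by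
  have hy := h'.pos.le
  refine ⟨h'.mc, fun c => ?_, ?_, fun j => ?_, fun j H Λ hR => ?_⟩
  · obtain ⟨c', hc'⟩ := h'.ex c
    obtain ⟨c'', hc''⟩ := h.ex c'
    exact ⟨c'', hc'.1.trans hc''.1, hc'.2.trans hc''.2⟩
  · calc _ ≤ y * (x * Fintype.card ι) := h'.card.trans (mul_le_mul_of_nonneg_left h.card hy)
      _ = x * y * Fintype.card ι := by ring
      _ ≤ _ := mul_le_mul_of_nonneg_right h1 (Nat.cast_nonneg _)
  · calc _ ≤ y * (x * T.kapM cl j) := (h'.kap j).trans (mul_le_mul_of_nonneg_left (h.kap j) hy)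
      _ = x * y * T.kapM cl j := by ring
      _ ≤ _ := mul_le_mul_of_nonneg_right h1 (by linarith [one_le_kapM T cl j])
  · have h3 := h'.reg j _ _ (h.reg j H Λ hR)
    rw [mul_assoc, mul_assoc] at h3
    refine regAtM_scale h3 (Real.exp_pos _) ?_
    rw [← Real.exp_add]
    exact Real.exp_le_exp.2 (by linarith)

theorem PC.trans {ι'' : Type} [Fintype ι''] {T'' : Cell ι''} {π : ι' → ι} {π' : ι'' → ι'}
    {x y z : ℝ} (h : T.PC x T' π) (h' : T'.PC y T'' π') (h1 : x * y ≤ z) (h2 : x + y ≤ z) :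
    T.PC z T'' (π ∘ π') := by
  have hy := h'.pos.le
  refine ⟨fun c => (h'.lev c).trans (h.lev _), ?_, fun cl j => ?_,
    fun cl hm => h'.mc _ (h.mc cl hm),
    fun cl hm => ((h.derM hm).trans (h'.derM (h.mc cl hm)) h1 h2).reg⟩
  · calc _ ≤ y * (x * Fintype.card ι) := h'.card.trans (mul_le_mul_of_nonneg_left h.card hy)
      _ = x * y * Fintype.card ι := by ring
      _ ≤ _ := mul_le_mul_of_nonneg_right h1 (Nat.cast_nonneg _)
  · calc _ ≤ y * (x * T.kapM cl j) :=
          (h'.kap (cl ∘ π) j).trans (mul_le_mul_of_nonneg_left (h.kap cl j) hy)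
      _ = x * y * T.kapM cl j := by ring
      _ ≤ _ := mul_le_mul_of_nonneg_right h1 (by linarith [one_le_kapM T cl j])

theorem allPC_mono {x x' η η' : ℝ} (h : T.AllPC x η) (hx : x' ≤ x) (hη : η ≤ η') :
    T.AllPC x' η' := fun ι' _ T' π hT' => (h ι' T' π (hT'.mono hx)).trans hη

theorem allPC_pc {π : ι' → ι} {x y z η : ℝ} (h : T.AllPC z η) (h' : T.PC x T' π)
    (h1 : x * y ≤ z) (h2 : x + y ≤ z) : T'.AllPC y η :=
  fun ι'' _ T'' _ hT'' => h ι'' T'' _ (h'.trans hT'' h1 h2)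

theorem allPC_self {x η : ℝ} (h : T.AllPC x η) (hx : 1 ≤ x) : |T.M / T.mu - 1| ≤ η :=
  h ι T id ((PC.refl T).mono hx)

theorem allDerM_mono {x x' η η' : ℝ} (h : T.AllDerM cl x η) (hx : x' ≤ x) (hη : η ≤ η') :
    T.AllDerM cl x' η' := fun ι' _ T' cl' hT' => (h ι' T' cl' (hT'.mono hx)).trans hη

theorem allDerM_der {x y z η : ℝ} (h : T.AllDerM cl z η) (h' : T.DerM cl x T' cl')
    (h1 : x * y ≤ z) (h2 : x + y ≤ z) : T'.AllDerM cl' y η :=
  fun ι'' _ T'' cl'' hT'' => h ι'' T'' cl'' (h'.trans hT'' h1 h2)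

theorem allPC_of_allDerM {x η : ℝ} (h : T.AllDerM cl x η) (hm : T.IsMC cl) : T.AllPC x η :=
  fun ι' _ T' _ hT' => h ι' T' _ (hT'.derM hm)

end Cell

end Crest.Agent.T49.Tw
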