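import Crest.Agent.T49.TwChG_4
import Crest.Agent.T49.MxCov_53

/-!
# Row 49: diagonal covers are projective covers; the chain statement for mixed cells (helper4)
-/

set_option autoImplicit false
set_option linter.unusedSectionVars false

open MvPolynomial

namespace Crest.Agent.T49.Tw

open Ch4

namespace Cell
variable {ι ι' : Type}

variable [Fintype ι] [Fintype ι']

theorem kapM_kp (T : Cell ι) (cl : ι → ℕ) (j : ℕ) : T.kapM cl j = 1 + T.kp fun c => cl c = j := by
  rw [kapM, Finset.sum_filter, Tri.kp]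
  congr 1
  exact Finset.sum_congr rfl fun c _ => by congr

/-- relations of mixed type are pulled back along a diagonal cover -/
theorem DC.regAtM {T : Cell ι} {T' : Cell ι'} {π : ι' → ι} {K x₀ : ℝ} (h : T.DC T' π K x₀)
    (hK : 1 ≤ K) {l : ℕ} (hl : ∀ c, T.lev c ≤ l) {x : ℝ} (hx : K ^ (l + 1) ≤ Real.exp x)
    {cl : ι → ℕ} {j : ℕ} {H Λ : ℝ} (hR : T.RegAtM cl j H Λ) :
    T'.RegAtM (cl ∘ π) j (H * Real.exp (-x)) (Λ * Real.exp (-x)) := by
  classical
  intro w ξ b e hξ hw hH hb hbΛ he he' hn hI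
  by_contra h0
  have hj : w ≤ l := by
    obtain ⟨c', hc'⟩ := Function.ne_iff.1 h0
    by_contra hj
    exact hc' (hw c' (by have := hl (π c'); rw [← h.lev] at this; omega))
  obtain ⟨n, m, hd, c, hc⟩ := h.cov ξ h0
  have hs := hd.sub h.lev
  have hx0 : 0 < Real.exp x := Real.exp_pos x
  have hK1 : K ≤ Real.exp x :=
    le_trans (by simpa using pow_le_pow_right₀ hK (Nat.le_add_left 1 l)) hx
  have hKj : K ^ w ≤ Real.exp x := le_trans (pow_le_pow_right₀ hK (by omega)) hx
  have key : ∀ {A u v : ℝ}, 0 ≤ u → u ≤ A * Real.exp (-x) → 0 ≤ v → v ≤ Real.exp x →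
      u * v ≤ A := by
    intro A u v hu huA hv hvx
    calc u * v ≤ A * Real.exp (-x) * Real.exp x := mul_le_mul huA hvx hv (hu.trans huA)
      _ = A := by rw [mul_assoc, ← Real.exp_add]; simp
  have hz : ∀ c, (∀ c', π c' = c → ξ c' = 0) →
      ∑ c', ξ c' * (if π c' = c then m c' else 0) = 0 := fun c hc =>
    Finset.sum_eq_zero fun c' _ => by
      split_ifs with h1
      · rw [hc c' h1, zero_mul]
      · rw [mul_zero]
  have hξ0 := hR w _ b (pushE (fun c' c => if π c' = c then m c' else 0) e)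
    ⟨fun c hc => hz c fun c' h1 => hξ.1 c' (by rw [Function.comp, h1]; exact hc), fun c hc => by
      rw [← hs.bind_dotT, coeff_single_bind fun c' => coeff_zero_hom (hs.hom c') (T'.lev_pos c')]
      have : ∀ c', ∃ k : ℤ, coeff (Finsupp.single c' 1) (T'.dotT ξ) *
          coeff (Finsupp.single c 1) (C (n c' : ℝ) * X (π c') : Pl ι) = k := by
        intro c'
        by_cases h1 : π c' = c
        · obtain ⟨a, ha⟩ := hξ.2 c' (by rw [Function.comp, h1]; exact hc)
          obtain ⟨b, hb⟩ := hs.int c' (Finsupp.single c 1)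
          exact ⟨a * b, by rw [ha, hb, Int.cast_mul]⟩
        · refine ⟨0, ?_⟩
          rw [coeff_C_mul, coeff_X, if_neg fun h2 =>
            h1 ((Finsupp.single_left_inj one_ne_zero).1 h2)]
          simp
      choose k hk using this
      exact ⟨∑ c', k c', by simp only [hk, Int.cast_sum]⟩⟩
    (fun c hc => hz c fun c' h1 => hw c' (by rw [h.lev, h1]; exact hc))
    ((hs.sum_abs_le ξ).trans (key (Finset.sum_nonneg fun _ _ => abs_nonneg _) hH (by linarith) hK1))
    hb (by simpa using key (Nat.cast_nonneg b) hbΛ zero_le_one (hK.trans hK1)) (hs.pushE_hom he)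
    (by
      refine bind_mem_supported (fun c' hc' => sum_mem fun c _ => ?_) he'
      dsimp only
      split_ifs with h1
      · refine mul_mem (C_mem_supp _ _) (X_mem_supp ?_)
        show cl c < j
        rw [← h1]; exact hc'
      · rw [C_0, zero_mul]; exact zero_mem _)
    ((hs.nrm_pushE hK he).trans (key (nrm_nonneg _) hn (by positivity) hKj))
    (by
      have := isInt_bind hs.int hI
      rwa [map_add, map_mul, bind₁_C_right, hs.bind_dotT, hs.bind_TTh] at this)
  refine hc ?_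
  have := congrFun hξ0 c
  simpa only [mul_ite, mul_zero, Pi.zero_apply] using this

/-- a diagonal cover that respects class functions is a projective cover -/
theorem DC.pc {T : Cell ι} {T' : Cell ι'} {π : ι' → ι} {K x₀ : ℝ} (h : T.DC T' π K x₀)
    (hK : 1 ≤ K) {l : ℕ} (hl : ∀ c, T.lev c ≤ l) {x : ℝ} (hx : K ^ (l + 1) ≤ Real.exp x)
    (hx0 : x₀ ≤ x) (hx1 : 1 ≤ x) (hmc : ∀ cl, T.IsMC cl → T'.IsMC (cl ∘ π)) : T.PC x T' π where
  lev := h.lev
  card := h.card.trans (mul_le_mul_of_nonneg_right hx0 (Nat.cast_nonneg _))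
  kap cl j := by
    rw [kapM_kp, kapM_kp]
    have h1 := h.kp fun c => cl c = j
    have h2 := T.kp_nonneg fun c => cl c = j
    have h3 := mul_le_mul_of_nonneg_right hx0 h2
    have h4 : T'.kp (fun c => (cl ∘ π) c = j) = T'.kp fun c' => cl (π c') = j := rfl
    rw [h4]
    linarith
  mc := hmc
  reg _ _ _ _ _ hR := h.regAtM hK hl hx hR

end Cell

theorem stab_mc {ι : Type} (T : Cell ι) :
    Stab fun _ Z π => ∀ cl, T.IsMC cl → Z.IsMC (cl ∘ π) where
  frz _ _ _ q _ h cl hcl := (h cl hcl).frz q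
  dbl _ _ π q _ h cl hcl := by
    have e : (cl ∘ fun c : DI q => π (Sum.elim id Subtype.val c)) = dlev (cl ∘ π) q := by
      funext c
      rcases c with c | c <;> rfl
    rw [e]
    exact (h cl hcl).dbl q

theorem chainMStmt : ChainMStmt := by
  intro l d
  obtain ⟨D, hD1, hD⟩ := chainG l d
  have hD1' : (1 : ℝ) ≤ D := by exact_mod_cast hD1
  have hle : D ≤ D ^ (l + 1) := Nat.le_self_pow (by omega) D
  have hle' : (D : ℝ) ≤ ((D ^ (l + 1) : ℕ) : ℝ) := by exact_mod_cast hle
  have hexp : (D : ℝ) ^ (l + 1) ≤ Real.exp ((D ^ (l + 1) : ℕ) : ℝ) := by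
    have := Real.add_one_le_exp ((D ^ (l + 1) : ℕ) : ℝ)
    push_cast at this ⊢
    linarith
  refine ⟨D ^ (l + 1), fun ι _ T F hl hF => ?_⟩
  obtain ⟨κ, _, P, h, G, π, h1, h2, h3, h4, h5⟩ :=
    hD ι T F _ (stab_mc T) (fun _ h => h) hl hF
  refine ⟨κ, inferInstance, P, h, G, π, h1, h2.pc hD1' hl hexp hle' (hD1'.trans hle') h3,
    fun y hy hA hs => ?_, fun b r hb => ?_⟩
  · have hy' : -(((D ^ (l + 1) : ℕ) : ℝ) * y) ≤ -(D * y) := by nlinarith
    refine le_trans (mul_le_mul_of_nonneg_right (Real.exp_le_exp.2 hy') (mu_pos _).le)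
      (h4 y hy (fun κ' _ Z π' hZ hQ => ?_) hs)
    exact (hA κ' Z π' (hZ.pc hD1' hl hexp hle' (hD1'.trans hle') hQ)).trans
      (Real.exp_le_exp.2 hy')
  · obtain ⟨e, he1, he2, he3⟩ := h5 b r hb
    obtain ⟨e', -, hr, -⟩ := hb
    exact ⟨e, he1, he2.trans (mul_le_mul_of_nonneg_right (Real.exp_le_exp.2 hle')
      ((nrm_nonneg _).trans hr)), he3⟩

end Crest.Agent.T49.Tw
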