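import Crest.Agent.T49.TwTopF_71
import Crest.Agent.T49.MxDefB_53

/-! Row 49 (helper71): Poisson summation over the top class of a mixed cell (`TopMStmt`). -/

set_option autoImplicit false

noncomputable section

open MvPolynomial Finset
open scoped InnerProductSpace

namespace Crest.Agent.T49.Tw

open Crest.Agent.T49.Lat (cast cast_apply)
open Top71

namespace Top71
variable {ι : Type} {T : Cell ι} {cl : ι → ℕ}

lemma mc_th (h : T.IsMC cl) {c c' : ι} {m : ι →₀ ℕ} (hm : m ∈ (T.th c).support)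
    (hc : c' ∈ m.support) :
    cl c' < cl c ∨ (cl c' = cl c ∧ m = Finsupp.single c' 1) := by
  classical
  rcases mem_union.1 (support_add hm) with h' | h'
  · rw [C_mul_X_eq_monomial] at h'
    have e := mem_singleton.1 (support_monomial_subset h')
    subst e
    have : c' = c := by simpa [Finsupp.single_apply, eq_comm] using hc
    subst this
    exact Or.inr ⟨rfl, rfl⟩
  · exact h.2 c m h' c' hc

end Top71

theorem topMStmt : TopMStmt := by
  classical
  have H1 : ∀ (κ : Type) [Fintype κ] (T : Tri κ), Summable T.wgt := fun _ _ T => T.summable_wgt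
  have H2 := triLat
  intro ι _ T cl l y σ hmc hlev hy hσ hb
  set p : ι → Prop := fun c => cl c ≤ l with hp
  have hl : ∀ c : {c // ¬ p c}, cl c.1 = l + 1 := fun c => by
    have h1 := hlev c.1
    have h2 : ¬ cl c.1 ≤ l := c.2
    omega
  set L : {c // ¬ p c} → {c // ¬ p c} → ℝ :=
    fun c c' => coeff (Finsupp.single c'.1 1) (T.th c.1) with hL
  obtain ⟨hinj, hsurj, hkap, hrat⟩ := H2 _ (fun c => T.rk c.1) (fun c => T.a c.1) L
    (fun c => T.a_ne _) (fun c => by simp [hL, coeff_th T.toTri c.1 c.1 (lt_irrefl _)])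
    fun c c' hne h => by
      simp only [hL]; rw [coeff_th T.toTri c.1 c'.1 h, if_neg fun e => hne (Subtype.ext e)]
  set A := mA L with hA
  obtain ⟨B, hB⟩ := Gau.exists_dual hinj
  have haff : ∀ (c : ι) (x : {c // p c} → ℤ) (u : {c // ¬ p c} → ℤ), ev (gl p x u) (T.th c) =
      ev x (dn p (T.th c)) + ∑ c' : {c // ¬ p c}, coeff (Finsupp.single c'.1 1) (T.th c) * u c' := by
    intro c x u
    have e : (fun c => ((gl p x u c : ℤ) : ℝ)) = gl p (fun c => (x c : ℝ)) fun c => (u c : ℝ) := by
      funext c; by_cases h : p c <;> simp [gl, h]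
    rw [ev, ev, e, eval_dn, eval_gl]
    intro m hm c' hc' hp'
    rcases mc_th hmc hm hc' with h | h
    · have h1 := hlev c
      have h2 := hl ⟨c', hp'⟩
      simp only at h2
      omega
    · exact h.2
  have hlow : ∀ c : {c // p c}, dn p (T.th c.1) = (T.frz p).th c := fun c => by
    simp only [Tri.th, map_add, map_mul, dn, bind₁_X_right, algHom_C, algebraMap_eq]
    rw [dif_pos c.2]
    rfl
  set β : ({c // p c} → ℤ) → EuclideanSpace ℝ {c // ¬ p c} :=
    fun x => WithLp.toLp 2 fun c => ev x (dn p (T.th c.1)) with hβ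
  have hw : ∀ (x : {c // p c} → ℤ) (u : {c // ¬ p c} → ℤ),
      T.wgt (gl p x u) = (T.frz p).wgt x * Gau.rho (A (cast u) + β x) := by
    intro x u
    rw [Tri.wgt, Tri.wgt, Gau.rho, ← Real.exp_add, ← mul_add, EuclideanSpace.real_norm_sq_eq,
      ← Fintype.sum_subtype_add_sum_subtype p]
    congr 3
    · refine sum_congr rfl fun c _ => ?_
      rw [haff, hlow, sum_eq_zero fun c' _ => ?_, add_zero]
      rw [notMem_support_iff.1 fun hm => ?_, zero_mul]
      have h2 : cl c.1 ≤ l := c.2
      have h3 := hl c'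
      rcases mc_th hmc hm (c' := c'.1) (by simp) with h | h <;> omega
    · refine sum_congr rfl fun c _ => ?_
      rw [haff, add_comm]
      rfl
  set ξ : ({c // ¬ p c} → ℤ) → ι → ℝ := fun k => gl p 0 fun c => B (cast k) c with hξ
  have hsum : ∀ (k : {c // ¬ p c} → ℤ) {M : Type} [AddCommMonoid M] (φ : ℝ → ι → M),
      (∀ c, φ 0 c = 0) → ∑ c, φ (ξ k c) c = ∑ c : {c // ¬ p c}, φ (B (cast k) c) c.1 := by
    intro k M _ φ h0
    rw [← Fintype.sum_subtype_add_sum_subtype p, sum_eq_zero fun c _ => ?_, zero_add]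
    · exact sum_congr rfl fun c _ => by simp only [hξ, gl_neg]
    · simp only [hξ, gl_pos, Pi.zero_apply, h0]
  set S : ({c // ¬ p c} → ℤ) → ℂ := fun k => (T.frz p).S (dn p (∑ c, C (ξ k c) * T.th c)) with hS
  have hth : ∀ x, (Gau.th A (β x) : ℂ) = Gau.kap A * ∑' k : {c // ¬ p c} → ℤ,
      (Gau.rho (B (cast k)) : ℂ) * ee (ev x (dn p (∑ c, C (ξ k c) * T.th c))) := fun x => by
    obtain ⟨v, hv⟩ := hsurj (β x)
    rw [← hv, hB.th_eq, Gau.thc]
    congr 1
    refine tsum_congr fun k => ?_
    rw [add_zero, dotProduct_comm, ← hB.pair, hv]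
    congr 2
    rw [hsum k (fun r c => C r * T.th c) (by simp), PiLp.inner_apply, map_sum, ev, map_sum]
    refine sum_congr rfl fun c _ => ?_
    simp [hβ, ev, mul_comm]
  have s1 := H1 _ (T.frz p).toTri
  have s2 : Summable fun k : {c // ¬ p c} → ℤ => Gau.rho (B (cast k)) := by
    simpa using Gau.summable_rho hB.inj' 0
  have w0 : ∀ x, 0 < (T.frz p).wgt x := fun x => Real.exp_pos _
  have hee : ∀ r, ‖ee r‖ = 1 := Gau.norm_e
  have hM : (T.M : ℂ) = Gau.kap A * ∑' k, (Gau.rho (B (cast k)) : ℂ) * S k := by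
    have e1 : T.M = ∑' x, (T.frz p).wgt x * Gau.th A (β x) := by
      rw [Tri.M, tsum_gl p (H1 _ T.toTri)]
      refine tsum_congr fun x => ?_
      rw [Gau.th, ← tsum_mul_left]
      exact tsum_congr fun u => hw x u
    rw [e1, Complex.ofReal_tsum]
    simp only [Complex.ofReal_mul, hth, mul_left_comm _ (Gau.kap A : ℂ)]
    rw [tsum_mul_left, fub s1 s2 (fun x => (w0 x).le) (fun k => (Gau.rho_pos _).le) _
      fun _ _ => hee _]
    rfl
  have hmu : T.mu = (T.frz p).mu * Gau.kap A := by
    rw [hkap, Tri.mu, ← Fintype.prod_subtype_mul_prod_subtype p]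
    rfl
  have hmu0 : 0 < (T.frz p).mu := prod_pos fun c _ => inv_pos.2 (abs_pos.2 (Tri.a_ne _ c))
  have hk0 := Gau.kap_pos hinj
  have hSle : ∀ k, ‖S k‖ ≤ (T.frz p).M := fun k =>
    tsum_of_norm_bounded s1.hasSum fun x => by
      rw [norm_mul, hee, mul_one, Complex.norm_real, Real.norm_of_nonneg (w0 x).le]
  have hM0 : 0 ≤ (T.frz p).M := tsum_nonneg fun x => (w0 x).le
  have hS0 : S 0 = (T.frz p).M := by
    have : ∑ c, C (ξ 0 c) * T.th c = 0 := by
      rw [hsum 0 (fun r c => C r * T.th c) (by simp)]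
      simp
    simp only [hS]
    rw [this]
    simp [Tri.S, Tri.M, ev, ee, Complex.ofReal_tsum]
  -- complexity
  set κ := T.kapM cl (l + 1) with hκ
  have hκ1 : κ = 1 + ∑ c : {c // ¬ p c}, (1 + Real.log (1 + |T.a c.1|)) := by
    rw [hκ, Cell.kapM]
    congr 1
    refine sum_subtype _ (fun c => ?_) fun c => 1 + Real.log (1 + |T.a c|)
    simp only [mem_filter, mem_univ, true_and, hp]
    have := hlev c
    omega
  have hlog : 0 ≤ ∑ c : {c // ¬ p c}, Real.log (1 + |T.a c.1|) :=
    sum_nonneg fun c _ => Real.log_nonneg (by linarith [abs_nonneg (T.a c.1)])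
  rw [sum_add_distrib, sum_const, card_univ, nsmul_eq_mul, mul_one] at hκ1
  set n : ℝ := (Fintype.card {c // ¬ p c} : ℝ) with hn
  have hn0 : 0 ≤ n := Nat.cast_nonneg _
  have hth0 : Gau.th B 0 ≤ Real.exp κ := by
    rw [← hB.rat_eq]
    refine hrat.trans ?_
    rw [← prod_congr rfl fun c _ => Real.exp_log (x := 1 + |T.a c.1|) (by positivity),
      ← Real.exp_sum]
    exact Real.exp_le_exp.2 (by linarith)
  set R := y * √κ with hR
  have hR0 : 0 ≤ R := by positivity
  set f : ({c // ¬ p c} → ℤ) → ℝ := fun k => if ‖B (cast k)‖ < R then 0 else 1 with hf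
  have htail : ∑' k, Gau.rho (B (cast k)) * f k ≤ Real.exp (-y) := by
    have h1 := Gau.tail_le hB.inj' 0 hR0 (f := f) (fun k => by simp only [hf]; split_ifs <;> simp)
      fun k hk => by rw [add_zero] at hk; simp [hf, hk]
    simp only [add_zero] at h1
    refine h1.trans ((mul_le_mul_of_nonneg_left hth0 (Real.exp_pos _).le).trans ?_)
    rw [← Real.exp_add, Real.exp_le_exp, hR, mul_pow, Real.sq_sqrt (by linarith)]
    have h2 : (1 : ℝ) ≤ κ := by linarith
    have h3 : 4 ≤ y ^ 2 := by nlinarith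
    nlinarith [mul_nonneg (sub_nonneg.2 h2) (sub_nonneg.2 h3)]
  have hterm : ∀ k, k ≠ 0 → ‖S k‖ ≤ σ * (T.frz p).mu + (T.frz p).M * f k := by
    intro k hk
    by_cases h : ‖B (cast k)‖ < R
    · simp only [hf, h, if_true, mul_zero, add_zero]
      refine hb (ξ k) ⟨fun c hc => ?_, fun c hc => ⟨k ⟨c, by simp [hp, hc]⟩, ?_⟩⟩ ?_ ?_
      · have h1 := hlev c
        exact gl_pos 0 _ ⟨c, show cl c ≤ l by omega⟩
      · have h1 := hB.pair (cast k) (Pi.single ⟨c, by simp [hp, hc]⟩ 1)
        rw [dotProduct_single, mul_one, cast_apply] at h1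
        rw [← h1, hsum k (fun r c => C r * T.th c) (by simp), coeff_sum,
          PiLp.inner_apply]
        refine sum_congr rfl fun c' _ => ?_
        rw [coeff_C_mul]
        simp [hA, mA, hL, Pi.single_apply, mul_comm]
      · intro h0
        refine hk (_root_.funext fun c => ?_)
        have h1 : B (cast k) = B 0 := by
          rw [map_zero]
          ext c'
          simpa [hξ, gl_neg] using congrFun h0 c'.1
        simpa using congrFun (hB.inj' h1) c
      · rw [hsum k (fun r _ => |r|) (by simp)]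
        have h1 : (∑ c : {c // ¬ p c}, |B (cast k) c|) ^ 2 ≤ n * ‖B (cast k)‖ ^ 2 := by
          refine sq_sum_le_card_mul_sum_sq.trans (le_of_eq ?_)
          rw [EuclideanSpace.real_norm_sq_eq, card_univ]
          simp only [sq_abs, hn]
        refine le_of_sq_le_sq (h1.trans ?_) (mul_nonneg (by linarith) (by linarith))
        calc n * ‖B (cast k)‖ ^ 2 ≤ κ * R ^ 2 :=
              mul_le_mul (by linarith) (pow_le_pow_left₀ (norm_nonneg _) h.le 2) (sq_nonneg _)
                (by linarith)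
          _ = _ := by rw [hR, mul_pow, Real.sq_sqrt (by linarith)]; ring
    · simp only [hf, h, if_false, mul_one]
      linarith [hSle k, mul_nonneg hσ hmu0.le]
  have s5 : Summable fun k => (Gau.rho (B (cast k)) : ℂ) * S k := by
    simpa using Gau.summable_rho_mul hB.inj' 0 hSle
  have s6 : Summable fun k => Gau.rho (B (cast k)) * f k := by
    simpa using Gau.summable_rho_mul_real hB.inj' 0 (f := f) (M := 1)
      fun k => by simp only [hf]; split_ifs <;> simp
  have hmain : ‖∑' k, (Gau.rho (B (cast k)) : ℂ) * S k - (T.frz p).M‖ ≤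
      σ * (T.frz p).mu * Real.exp κ + (T.frz p).M * Real.exp (-y) := by
    rw [s5.tsum_eq_add_tsum_ite 0, hS0, Gau.cast_zero, map_zero, Gau.rho_zero, Complex.ofReal_one,
      one_mul, add_sub_cancel_left]
    refine (tsum_of_norm_bounded ((s2.hasSum.mul_left (σ * (T.frz p).mu)).add
      (s6.hasSum.mul_left (T.frz p).M)) fun k => ?_).trans ?_
    · have h0 := (Gau.rho_pos (B (cast k))).le
      split_ifs with h
      · rw [norm_zero]
        have : 0 ≤ f k := by simp only [hf]; split_ifs <;> simp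
        positivity
      · rw [norm_mul, Complex.norm_real, Real.norm_of_nonneg h0]
        linarith [mul_le_mul_of_nonneg_left (hterm k h) h0]
    · refine add_le_add (mul_le_mul_of_nonneg_left ?_ (by positivity))
        (mul_le_mul_of_nonneg_left htail hM0)
      simpa [Gau.th] using hth0
  have e : ((T.M / T.mu - (T.frz p).M / (T.frz p).mu : ℝ) : ℂ) =
      (∑' k, (Gau.rho (B (cast k)) : ℂ) * S k - (T.frz p).M) / (T.frz p).mu := by
    have h1 : ((T.frz p).mu : ℂ) ≠ 0 := by exact_mod_cast hmu0.ne'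
    have h2 : (Gau.kap A : ℂ) ≠ 0 := by exact_mod_cast hk0.ne'
    push_cast
    rw [hM, hmu]
    push_cast
    field_simp
  show |T.M / T.mu - (T.frz p).M / (T.frz p).mu| ≤
    σ * Real.exp κ + Real.exp (-y) * ((T.frz p).M / (T.frz p).mu)
  rw [← Real.norm_eq_abs, ← Complex.norm_real, e, norm_div, Complex.norm_real,
    Real.norm_of_nonneg hmu0.le, div_le_iff₀ hmu0]
  refine hmain.trans (le_of_eq ?_)
  field_simp

end Crest.Agent.T49.Tw
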