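import Crest.Agent.T49.GauB_64

/-!
# Row 49 (helper64): Gaussian lattice library, part C
(moments, shifts, convolution, cosets, sublattices, products, slicing)
-/

set_option autoImplicit false
set_option linter.unusedSectionVars false

noncomputable section

namespace Crest.Agent.T49.Gau

open MeasureTheory Real Complex
open scoped InnerProductSpace
open Crest.Agent.T49.Lat (cast cast_apply)

variable {ι : Type*} [Fintype ι] {E : Type*} [NormedAddCommGroup E] [InnerProductSpace ℝ E]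
variable {A B : (ι → ℝ) →ₗ[ℝ] E}

/-! ### moments -/

theorem sq_mul_rho_le (v : E) {a : ℝ} (ha : 0 < a) (ha1 : a < 1) :
    rho v * ‖v‖ ^ 2 ≤ (3 * a)⁻¹ * Real.exp (-1) * rho (√(1 - a) • v) := by
  rw [rho_smul, Real.sq_sqrt (by linarith)]
  unfold rho
  set r := ‖v‖ ^ 2
  have hr : 0 ≤ r := by positivity
  have h1 : π * a * r ≤ Real.exp (π * a * r - 1) := by
    linarith [Real.add_one_le_exp (π * a * r - 1)]
  have h2 : 3 * a * r ≤ π * a * r :=
    mul_le_mul_of_nonneg_right (mul_le_mul_of_nonneg_right Real.pi_gt_three.le ha.le) hr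
  have h3 : r ≤ (3 * a)⁻¹ * Real.exp (π * a * r - 1) := by
    rw [le_inv_mul_iff₀ (by positivity)]; linarith
  calc Real.exp (-π * r) * r ≤ Real.exp (-π * r) * ((3 * a)⁻¹ * Real.exp (π * a * r - 1)) :=
        mul_le_mul_of_nonneg_left h3 (Real.exp_pos _).le
    _ = _ := by
        rw [mul_left_comm, mul_assoc (3 * a)⁻¹, ← Real.exp_add, ← Real.exp_add]
        congr 2; ring

theorem inv_sqrt_pow_le (n : ℕ) : (√(1 - 1 / (n + 2 : ℝ)) ^ n)⁻¹ ≤ Real.exp 1 := by
  have hn : (0 : ℝ) ≤ n := Nat.cast_nonneg n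
  have h0 : 0 < 1 - 1 / (n + 2 : ℝ) := by
    rw [sub_pos, div_lt_one (by linarith)]; linarith
  have h1 : 1 - 1 / (n + 2 : ℝ) ≤ √(1 - 1 / (n + 2 : ℝ)) := by
    refine Real.le_sqrt_of_sq_le ?_
    have : 0 ≤ 1 / (n + 2 : ℝ) := by positivity
    nlinarith
  have h2 : (1 - 1 / (n + 2 : ℝ))⁻¹ ≤ Real.exp (1 / (n + 1)) := by
    have : (1 - 1 / (n + 2 : ℝ))⁻¹ = 1 / (n + 1) + 1 := by
      rw [inv_eq_iff_eq_inv, eq_comm, inv_eq_iff_eq_inv, eq_comm, inv_eq_iff_eq_inv]
      field_simp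
      ring
    rw [this]; exact Real.add_one_le_exp _
  calc (√(1 - 1 / (n + 2 : ℝ)) ^ n)⁻¹ ≤ ((1 - 1 / (n + 2 : ℝ)) ^ n)⁻¹ :=
        inv_anti₀ (pow_pos h0 n) (pow_le_pow_left₀ h0.le h1 n)
    _ = ((1 - 1 / (n + 2 : ℝ))⁻¹) ^ n := (inv_pow _ _).symm
    _ ≤ Real.exp (1 / (n + 1)) ^ n := pow_le_pow_left₀ (inv_pos.2 h0).le h2 n
    _ = Real.exp (n * (1 / (n + 1))) := (Real.exp_nat_mul _ _).symm
    _ ≤ _ := by
        refine Real.exp_le_exp.2 ?_
        rw [mul_one_div, div_le_one (by linarith)]; linarith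

theorem summable_rho_mul_sq (hA : Function.Injective A) (c : E) :
    Summable fun x : ι → ℤ => rho (A (cast x) + c) * ‖A (cast x) + c‖ ^ 2 := by
  have hs : (0 : ℝ) < √(1 - 1 / 2) := Real.sqrt_pos.2 (by norm_num)
  refine Summable.of_nonneg_of_le (fun x => mul_nonneg (rho_pos _).le (by positivity))
    (fun x => ?_) ((summable_rho (inj_smul hA hs.ne') (√(1 - 1 / 2) • c)).mul_left
      ((3 * (1 / 2 : ℝ))⁻¹ * Real.exp (-1)))
  rw [LinearMap.smul_apply, ← smul_add]
  exact sq_mul_rho_le _ (by norm_num) (by norm_num)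

/-- second moment -/
theorem tsum_rho_mul_sq_le (hA : Function.Injective A) (c : E) :
    ∑' x : ι → ℤ, rho (A (cast x) + c) * ‖A (cast x) + c‖ ^ 2 ≤
      (Fintype.card ι + 1) * th A 0 := by
  set n := Fintype.card ι
  have hn : (0 : ℝ) ≤ n := Nat.cast_nonneg n
  have ha : 0 < 1 / (n + 2 : ℝ) := by positivity
  have ha1 : 1 / (n + 2 : ℝ) < 1 := by rw [div_lt_one (by linarith)]; linarith
  set s := √(1 - 1 / (n + 2 : ℝ)) with hs
  have hs0 : 0 < s := Real.sqrt_pos.2 (by linarith)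
  have hs1 : s ≤ 1 := Real.sqrt_le_one.2 (by linarith)
  have h1 := inj_smul hA hs0.ne'
  have h0 := th_nonneg A 0
  calc ∑' x : ι → ℤ, rho (A (cast x) + c) * ‖A (cast x) + c‖ ^ 2
      ≤ ∑' x : ι → ℤ, (3 * (1 / (n + 2 : ℝ)))⁻¹ * Real.exp (-1) *
          rho ((s • A) (cast x) + s • c) := by
        refine Summable.tsum_le_tsum (fun x => ?_) (summable_rho_mul_sq hA c)
          ((summable_rho h1 _).mul_left _)
        rw [LinearMap.smul_apply, ← smul_add]
        exact sq_mul_rho_le _ ha ha1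
    _ = (3 * (1 / (n + 2 : ℝ)))⁻¹ * Real.exp (-1) * th (s • A) (s • c) := tsum_mul_left
    _ ≤ (3 * (1 / (n + 2 : ℝ)))⁻¹ * Real.exp (-1) * (Real.exp 1 * th A 0) := by
        refine mul_le_mul_of_nonneg_left ((th_smul_le hA hs0 hs1 _).trans
          (mul_le_mul_of_nonneg_right (inv_sqrt_pow_le n) h0)) (by positivity)
    _ = (n + 2) / 3 * th A 0 := by
        rw [mul_assoc, ← mul_assoc (Real.exp (-1)), ← Real.exp_add]
        simp only [neg_add_cancel, Real.exp_zero, one_mul]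
        congr 1
        field_simp
    _ ≤ _ := mul_le_mul_of_nonneg_right (by linarith) h0

theorem norm_le_aux (r a : ℝ) (ha : 0 < a) : r ≤ (r ^ 2 / a + a) / 2 := by
  have : 0 ≤ (r - a) ^ 2 / a := by positivity
  have e1 : (r - a) ^ 2 / a = r ^ 2 / a + a - 2 * r := by field_simp; ring
  linarith

theorem summable_rho_mul_norm (hA : Function.Injective A) (c : E) :
    Summable fun x : ι → ℤ => rho (A (cast x) + c) * ‖A (cast x) + c‖ := by
  refine Summable.of_nonneg_of_le (fun x => mul_nonneg (rho_pos _).le (norm_nonneg _))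
    (fun x => ?_) ((summable_rho_mul_sq hA c).add (summable_rho hA c))
  have := rho_pos (A (cast x) + c)
  nlinarith [mul_nonneg this.le (sq_nonneg (‖A (cast x) + c‖ - 1)),
    mul_nonneg this.le (norm_nonneg (A (cast x) + c))]

/-- first moment -/
theorem tsum_rho_mul_norm_le (hA : Function.Injective A) (c : E) :
    ∑' x : ι → ℤ, rho (A (cast x) + c) * ‖A (cast x) + c‖ ≤ √(Fintype.card ι + 1) * th A 0 := by
  set a := √(Fintype.card ι + 1 : ℝ) with ha
  have ha0 : 0 < a := Real.sqrt_pos.2 (by positivity)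
  have ha2 : (Fintype.card ι + 1 : ℝ) = a * a := (Real.mul_self_sqrt (by positivity)).symm
  have h1 := tsum_rho_mul_sq_le hA c
  have h2 := th_le_th_zero hA c
  calc ∑' x : ι → ℤ, rho (A (cast x) + c) * ‖A (cast x) + c‖
      ≤ ∑' x : ι → ℤ, ((2 * a)⁻¹ * (rho (A (cast x) + c) * ‖A (cast x) + c‖ ^ 2) +
          a / 2 * rho (A (cast x) + c)) := by
        refine Summable.tsum_le_tsum (fun x => ?_) (summable_rho_mul_norm hA c)
          (((summable_rho_mul_sq hA c).mul_left _).add ((summable_rho hA c).mul_left _))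
        have := mul_le_mul_of_nonneg_left (norm_le_aux ‖A (cast x) + c‖ a ha0)
          (rho_pos (A (cast x) + c)).le
        refine this.trans (le_of_eq ?_)
        field_simp
    _ = (2 * a)⁻¹ * (∑' x : ι → ℤ, rho (A (cast x) + c) * ‖A (cast x) + c‖ ^ 2) +
          a / 2 * th A c := by
        rw [((summable_rho_mul_sq hA c).mul_left _).tsum_add ((summable_rho hA c).mul_left _),
          tsum_mul_left, tsum_mul_left]
        rfl
    _ ≤ (2 * a)⁻¹ * (a * a * th A 0) + a / 2 * th A 0 := by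
        rw [← ha2]; gcongr
    _ = a * th A 0 := by field_simp; ring

/-! ### shifts -/

theorem abs_exp_sub_exp_le (a b : ℝ) : |Real.exp a - Real.exp b| ≤
    |a - b| * max (Real.exp a) (Real.exp b) := by
  wlog h : b ≤ a generalizing a b
  · rw [abs_sub_comm, abs_sub_comm a, max_comm]; exact this b a (le_of_not_ge h)
  have h1 : Real.exp b ≤ Real.exp a := Real.exp_le_exp.2 h
  rw [abs_of_nonneg (sub_nonneg.2 h1), abs_of_nonneg (sub_nonneg.2 h), max_eq_left h1]
  have h2 := Real.add_one_le_exp (b - a)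
  have h3 : Real.exp b = Real.exp (b - a) * Real.exp a := by rw [← Real.exp_add]; congr 1; ring
  nlinarith [Real.exp_pos a]

theorem abs_sq_sub_sq_le (v y : E) : |‖v + y‖ ^ 2 - ‖v‖ ^ 2| ≤ ‖y‖ * (2 * ‖v‖ + ‖y‖) := by
  rw [norm_add_sq_real]
  have := abs_real_inner_le_norm v y
  have h2 := abs_le.1 this
  rw [abs_le]
  constructor <;> nlinarith [norm_nonneg y, norm_nonneg v]

theorem rho_add_le (v y : E) : rho (v + y) ≤ rho v * Real.exp (π * (‖y‖ * (2 * ‖v‖ + ‖y‖))) := by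
  unfold rho
  rw [← Real.exp_add]
  refine Real.exp_le_exp.2 ?_
  have := (abs_le.1 (abs_sq_sub_sq_le v y)).1
  nlinarith [Real.pi_pos]

theorem le_rho_add (v y : E) : rho v * Real.exp (-(π * (‖y‖ * (2 * ‖v‖ + ‖y‖)))) ≤ rho (v + y) := by
  unfold rho
  rw [← Real.exp_add]
  refine Real.exp_le_exp.2 ?_
  have := (abs_le.1 (abs_sq_sub_sq_le v y)).2
  nlinarith [Real.pi_pos]

theorem abs_rho_add_sub_le (v y : E) : |rho (v + y) - rho v| ≤
    π * ‖y‖ * ((2 * (rho v * ‖v‖) + ‖y‖ * rho v) +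
      (2 * (rho (v + y) * ‖v + y‖) + ‖y‖ * rho (v + y))) := by
  have h1 := abs_exp_sub_exp_le (-π * ‖v + y‖ ^ 2) (-π * ‖v‖ ^ 2)
  have h2 : |-π * ‖v + y‖ ^ 2 - -π * ‖v‖ ^ 2| = π * |‖v + y‖ ^ 2 - ‖v‖ ^ 2| := by
    rw [← mul_sub, abs_mul, abs_neg, abs_of_pos Real.pi_pos]
  rw [h2] at h1
  change |rho (v + y) - rho v| ≤ _ * max (rho (v + y)) (rho v) at h1
  have h3 := abs_sq_sub_sq_le v y
  have h4 := abs_sq_sub_sq_le (v + y) (-y)
  rw [add_neg_cancel_right, abs_sub_comm, norm_neg] at h4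
  have p1 := rho_pos v
  have p2 := rho_pos (v + y)
  have q1 : 0 ≤ π * ‖y‖ * (2 * (rho v * ‖v‖) + ‖y‖ * rho v) := by positivity
  have q2 : 0 ≤ π * ‖y‖ * (2 * (rho (v + y) * ‖v + y‖) + ‖y‖ * rho (v + y)) := by positivity
  rw [mul_add (π * ‖y‖)]
  rcases le_total (rho (v + y)) (rho v) with h | h
  · rw [max_eq_right h] at h1
    have := mul_le_mul_of_nonneg_right (mul_le_mul_of_nonneg_left h3 Real.pi_pos.le) p1.le
    nlinarith
  · rw [max_eq_left h] at h1
    have := mul_le_mul_of_nonneg_right (mul_le_mul_of_nonneg_left h4 Real.pi_pos.le) p2.le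
    nlinarith

theorem summable_abs_rho_sub (hA : Function.Injective A) (c c' : E) :
    Summable fun x : ι → ℤ => |rho (A (cast x) + c') - rho (A (cast x) + c)| :=
  ((summable_rho hA c').sub (summable_rho hA c)).abs

/-- **`ℓ¹` shift bound** -/
theorem tsum_abs_rho_shift_le (hA : Function.Injective A) (c y : E) :
    ∑' x : ι → ℤ, |rho (A (cast x) + (c + y)) - rho (A (cast x) + c)| ≤
      2 * π * ‖y‖ * (2 * √(Fintype.card ι + 1) + ‖y‖) * th A 0 := by
  have key : ∀ c : E, ∑' x : ι → ℤ, (2 * (rho (A (cast x) + c) * ‖A (cast x) + c‖) +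
      ‖y‖ * rho (A (cast x) + c)) ≤ (2 * √(Fintype.card ι + 1) + ‖y‖) * th A 0 := fun c => by
    rw [((summable_rho_mul_norm hA c).mul_left _).tsum_add ((summable_rho hA c).mul_left _),
      tsum_mul_left, tsum_mul_left, add_mul, mul_assoc]
    exact add_le_add (mul_le_mul_of_nonneg_left (tsum_rho_mul_norm_le hA c) zero_le_two)
      (mul_le_mul_of_nonneg_left (th_le_th_zero hA c) (norm_nonneg _))
  have sm : ∀ c : E, Summable fun x : ι → ℤ => (2 * (rho (A (cast x) + c) * ‖A (cast x) + c‖) +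
      ‖y‖ * rho (A (cast x) + c)) := fun c =>
    ((summable_rho_mul_norm hA c).mul_left _).add ((summable_rho hA c).mul_left _)
  refine (Summable.tsum_le_tsum (fun x => ?_) (summable_abs_rho_sub hA c (c + y))
    (((sm c).add (sm (c + y))).mul_left (π * ‖y‖))).trans ?_
  · rw [← add_assoc]; exact abs_rho_add_sub_le _ _
  · rw [tsum_mul_left, (sm c).tsum_add (sm (c + y))]
    have h1 := add_le_add (key c) (key (c + y))
    have h2 : 0 ≤ π * ‖y‖ := by positivity
    nlinarith [mul_le_mul_of_nonneg_left h1 h2]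

/-- shifting the centre changes bounded averages only slightly -/
theorem norm_tsum_shift_le (hA : Function.Injective A) (c y : E) {f : (ι → ℤ) → ℂ} {M : ℝ}
    (hf : ∀ x, ‖f x‖ ≤ M) :
    ‖∑' x : ι → ℤ, (rho (A (cast x) + (c + y)) : ℂ) * f x -
        ∑' x : ι → ℤ, (rho (A (cast x) + c) : ℂ) * f x‖ ≤
      M * (2 * π * ‖y‖ * (2 * √(Fintype.card ι + 1) + ‖y‖) * th A 0) := by
  have hM : 0 ≤ M := (norm_nonneg _).trans (hf 0)
  rw [← (summable_rho_mul hA _ hf).tsum_sub (summable_rho_mul hA _ hf)]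
  refine (tsum_of_norm_bounded ((summable_abs_rho_sub hA c (c + y)).hasSum.mul_left M)
    fun x => ?_).trans (mul_le_mul_of_nonneg_left (tsum_abs_rho_shift_le hA c y) hM)
  rw [← sub_mul, norm_mul, ← Complex.ofReal_sub, Complex.norm_real, Real.norm_eq_abs, mul_comm]
  exact mul_le_mul_of_nonneg_right (hf x) (abs_nonneg _)

/-- a translate by a short lattice vector -/
theorem norm_tsum_translate_le (hA : Function.Injective A) (c : E) (y : ι → ℤ)
    {f : (ι → ℤ) → ℂ} {M : ℝ} (hf : ∀ x, ‖f x‖ ≤ M) :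
    ‖∑' x : ι → ℤ, (rho (A (cast x) + c) : ℂ) * f (x + y) -
        ∑' x : ι → ℤ, (rho (A (cast x) + c) : ℂ) * f x‖ ≤
      M * (2 * π * ‖A (cast y)‖ * (2 * √(Fintype.card ι + 1) + ‖A (cast y)‖) * th A 0) := by
  have h1 := norm_tsum_shift_le hA c (-A (cast y)) hf
  rw [norm_neg] at h1
  rw [← (Equiv.addRight y).tsum_eq fun x : ι → ℤ =>
    (rho (A (cast x) + (c + -A (cast y))) : ℂ) * f x] at h1
  refine le_of_eq_of_le (congrArg (fun z => ‖z - _‖) (tsum_congr fun x => ?_)) h1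
  rw [Equiv.coe_addRight, cast_add, map_add]
  congr 3; abel

/-- the converse of bias ⇒ relation -/
theorem IsDual.norm_thc_sub_le (h : IsDual A B) (u t : ι → ℝ) (k : ι → ℤ) :
    ‖thc A (A u) t - e (-((t - cast k) ⬝ᵥ u)) * th A (A u)‖ ≤
      2 * π * ‖B (t - cast k)‖ * (√(Fintype.card ι + 1) * th A 0) := by
  have h1 : thc A (A u) t = thc A (A u) (t - cast k) := by
    conv_lhs => rw [← sub_add_cancel t (cast k), thc_add_cast]
  set τ := t - cast k
  rw [h1, ← thc_zero, thc, thc, ← tsum_mul_left, ← (summable_thc h.inj _ _).tsum_sub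
    ((summable_thc h.inj _ _).mul_left _)]
  refine (tsum_of_norm_bounded ((summable_rho_mul_norm h.inj (A u)).hasSum.mul_left
    (2 * π * ‖B τ‖)) fun x => ?_).trans
    (mul_le_mul_of_nonneg_left (tsum_rho_mul_norm_le h.inj _) (by positivity))
  have e1 : (rho (A (cast x) + A u) : ℂ) * e (τ ⬝ᵥ cast x) -
      e (-(τ ⬝ᵥ u)) * ((rho (A (cast x) + A u) : ℂ) * e (0 ⬝ᵥ cast x)) =
      (rho (A (cast x) + A u) : ℂ) * (e (-(τ ⬝ᵥ u)) * (e (τ ⬝ᵥ (cast x + u)) - 1)) := by
    rw [mul_sub, ← e_add, dotProduct_add, zero_dotProduct, e_zero,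
      show -(τ ⬝ᵥ u) + (τ ⬝ᵥ cast x + τ ⬝ᵥ u) = τ ⬝ᵥ cast x by ring]
    ring
  rw [e1, norm_mul, norm_mul, norm_e, one_mul, Complex.norm_real,
    Real.norm_of_nonneg (rho_pos _).le]
  have h2 := (norm_e_sub_one_le (τ ⬝ᵥ (cast x + u))).trans
    (mul_le_mul_of_nonneg_left (h.abs_dot_le τ (cast x + u)) (by positivity))
  rw [map_add] at h2
  have := mul_le_mul_of_nonneg_left h2 (rho_pos (A (cast x) + A u)).le
  linarith

/-! ### convolution -/

theorem rho_mul_rho {a b : ℝ} (hab : 0 < a ^ 2 + b ^ 2) (v w : E) :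
    rho (a • v) * rho (b • (w - v)) =
      rho ((a * b / √(a ^ 2 + b ^ 2)) • w) *
        rho (√(a ^ 2 + b ^ 2) • (v - (b ^ 2 / (a ^ 2 + b ^ 2)) • w)) := by
  rw [rho_smul, rho_smul, rho_smul, rho_smul, ← Real.exp_add, ← Real.exp_add, div_pow,
    Real.sq_sqrt hab.le, norm_sub_sq_real, norm_sub_sq_real, real_inner_smul_right, norm_smul,
    mul_pow, mul_pow, Real.norm_eq_abs, sq_abs, real_inner_comm v w]
  congr 1
  field_simp
  ring

/-- **convolution** of two discrete Gaussians -/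
theorem tsum_rho_mul_rho (A : (ι → ℝ) →ₗ[ℝ] E) {a b : ℝ} (hab : 0 < a ^ 2 + b ^ 2) (c w : E) :
    ∑' y : ι → ℤ, rho (a • (A (cast y) + c)) * rho (b • (w - (A (cast y) + c))) =
      rho ((a * b / √(a ^ 2 + b ^ 2)) • w) * th (√(a ^ 2 + b ^ 2) • A)
        (√(a ^ 2 + b ^ 2) • (c - (b ^ 2 / (a ^ 2 + b ^ 2)) • w)) := by
  unfold th
  rw [← tsum_mul_left]
  refine tsum_congr fun y => ?_
  rw [rho_mul_rho hab, LinearMap.smul_apply, ← smul_add, add_sub_assoc]

/-! ### cosets and sublattices -/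

/-- the real linear map of an integer matrix -/
def mlin {κ : Type*} [Fintype κ] (T : Matrix ι κ ℤ) : (κ → ℝ) →ₗ[ℝ] (ι → ℝ) :=
  Matrix.mulVecLin (T.map (Int.cast : ℤ → ℝ))

theorem mlin_cast {κ : Type*} [Fintype κ] (T : Matrix ι κ ℤ) (y : κ → ℤ) :
    mlin T (cast y) = cast (T.mulVec y) := by
  funext i
  simp [mlin, Matrix.mulVec, dotProduct]

theorem det_mlin [DecidableEq ι] (T : Matrix ι ι ℤ) : LinearMap.det (mlin T) = T.det := by
  have h1 : mlin T = Matrix.toLin' (T.map (Int.cast : ℤ → ℝ)) := by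
    ext; simp [mlin]
  rw [h1, LinearMap.det_toLin']
  exact ((Int.castRingHom ℝ).map_det T).symm

theorem kap_mlin [DecidableEq ι] (A : (ι → ℝ) →ₗ[ℝ] E) {T : Matrix ι ι ℤ} (hT : T.det ≠ 0) :
    kap (A.comp (mlin T)) = |(T.det : ℝ)|⁻¹ * kap A := by
  rw [kap_comp A (by rw [det_mlin]; exact_mod_cast hT), det_mlin, abs_inv]

/-- a sum over a coset `x₀ + T ℤ^κ` -/
theorem tsum_coset {κ : Type*} [Fintype κ] {T : Matrix ι κ ℤ}
    (hT : Function.Injective T.mulVec) (A : (ι → ℝ) →ₗ[ℝ] E) (c : E) (x₀ : ι → ℤ)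
    (f : (ι → ℤ) → ℂ) (hf : ∀ x, f x ≠ 0 → ∃ y, x = x₀ + T.mulVec y) :
    ∑' x : ι → ℤ, (rho (A (cast x) + c) : ℂ) * f x =
      ∑' y : κ → ℤ, (rho (A.comp (mlin T) (cast y) + (A (cast x₀) + c)) : ℂ) *
        f (x₀ + T.mulVec y) := by
  have hi : Function.Injective fun y => x₀ + T.mulVec y := fun _ _ h => hT (add_left_cancel h)
  rw [← hi.tsum_eq (f := fun x => (rho (A (cast x) + c) : ℂ) * f x)]
  · refine tsum_congr fun y => ?_
    rw [LinearMap.comp_apply, mlin_cast, cast_add, map_add]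
    congr 3; abel
  · intro x hx
    obtain ⟨y, hy⟩ := hf x (right_ne_zero_of_mul hx)
    exact ⟨y, hy.symm⟩

/-- a sum over a residue class `x₀ + b ℤ^ι` -/
theorem tsum_class {b : ℤ} (hb : b ≠ 0) (A : (ι → ℝ) →ₗ[ℝ] E) (c : E) (x₀ : ι → ℤ)
    (f : (ι → ℤ) → ℂ) (hf : ∀ x, f x ≠ 0 → ∃ y, x = x₀ + b • y) :
    ∑' x : ι → ℤ, (rho (A (cast x) + c) : ℂ) * f x =
      ∑' y : ι → ℤ, (rho (((b : ℝ) • A) (cast y) + (A (cast x₀) + c)) : ℂ) * f (x₀ + b • y) := by
  have hi : Function.Injective fun y : ι → ℤ => x₀ + b • y := fun _ _ h =>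
    smul_right_injective _ hb (add_left_cancel h)
  rw [← hi.tsum_eq (f := fun x => (rho (A (cast x) + c) : ℂ) * f x)]
  · refine tsum_congr fun y => ?_
    rw [LinearMap.smul_apply, cast_add, cast_zsmul, map_add, map_smul]
    congr 3; abel
  · intro x hx
    obtain ⟨y, hy⟩ := hf x (right_ne_zero_of_mul hx)
    exact ⟨y, hy.symm⟩

open Classical in
/-- the mass of a residue class -/
theorem tsum_class_ind {b : ℤ} (hb : b ≠ 0) (A : (ι → ℝ) →ₗ[ℝ] E) (c : E) (x₀ : ι → ℤ) :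
    ∑' x : ι → ℤ, rho (A (cast x) + c) * (if ∃ y, x = x₀ + b • y then 1 else 0) =
      th ((b : ℝ) • A) (A (cast x₀) + c) := by
  have h := tsum_class hb A c x₀ (fun x => if ∃ y, x = x₀ + b • y then 1 else 0)
    fun x hx => by by_contra h; exact hx (if_neg h)
  rw [← Complex.ofReal_inj, th, Complex.ofReal_tsum, Complex.ofReal_tsum]
  refine Eq.trans (tsum_congr fun x => ?_) (h.trans (tsum_congr fun y => ?_))
  · split_ifs <;> simp
  · rw [if_pos ⟨y, rfl⟩, mul_one]

/-- **equidistribution of residue classes** -/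
theorem abs_th_class_sub_le (hA : Function.Injective A) {b : ℝ} (hb : 0 < b) {w : E}
    (hw : Perp A w) (u : ι → ℝ) :
    |th (b • A) (A u + w) - rho w * ((b ^ Fintype.card ι)⁻¹ * kap A)| ≤
      rho w * ((b ^ Fintype.card ι)⁻¹ * kap A) * (rat (b • A) - 1) := by
  have h1 := abs_th_perp_sub_le (inj_smul hA hb.ne') (w := w) (by simpa using hw.smul b 1)
    (b⁻¹ • u)
  rwa [kap_smul A hb.le, LinearMap.smul_apply, map_smul, smul_smul, mul_inv_cancel₀ hb.ne',
    one_smul] at h1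

theorem inj_comp_mlin {κ : Type*} [Fintype κ] (hA : Function.Injective A) {T : Matrix ι κ ℤ}
    (hT : Function.Injective (mlin T)) : Function.Injective (A.comp (mlin T)) := hA.comp hT

/-- the theta value of a sublattice is smaller -/
theorem th_comp_le {κ : Type*} [Fintype κ] (hA : Function.Injective A) {T : Matrix ι κ ℤ}
    (hT : Function.Injective T.mulVec) (c : E) : th (A.comp (mlin T)) c ≤ th A c := by
  have h1 : th (A.comp (mlin T)) c = ∑' y : κ → ℤ, rho (A (cast (T.mulVec y)) + c) :=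
    tsum_congr fun y => by rw [LinearMap.comp_apply, mlin_cast]
  rw [h1]
  exact Summable.tsum_le_tsum_of_inj _ hT (fun _ _ => (rho_pos _).le) (fun _ => le_rfl)
    ((summable_rho hA c).comp_injective hT) (summable_rho hA c)

theorem mulVec_inj_of_det [DecidableEq ι] {T : Matrix ι ι ℤ} (hT : T.det ≠ 0) :
    Function.Injective T.mulVec := fun x y h => by
  have h1 : T.mulVec (x - y) = 0 := by rw [Matrix.mulVec_sub, h, sub_self]
  exact sub_eq_zero.1 (Matrix.eq_zero_of_mulVec_eq_zero hT h1)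

theorem mlin_inj_of_det [DecidableEq ι] {T : Matrix ι ι ℤ} (hT : T.det ≠ 0) :
    Function.Injective (mlin T) := by
  have : IsUnit (LinearMap.det (mlin T)) := by
    rw [det_mlin]; exact isUnit_iff_ne_zero.2 (by exact_mod_cast hT)
  exact (LinearMap.equivOfDetNeZero _ this.ne_zero).injective

/-- passing to a sublattice multiplies the ratio by at most the index -/
theorem rat_mlin_le [DecidableEq ι] (hA : Function.Injective A) {T : Matrix ι ι ℤ}
    (hT : T.det ≠ 0) : rat (A.comp (mlin T)) ≤ |(T.det : ℝ)| * rat A := by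
  have h0 : (0 : ℝ) < |(T.det : ℝ)| := abs_pos.2 (by exact_mod_cast hT)
  have hk := kap_pos hA
  unfold rat
  rw [kap_mlin A hT, div_le_iff₀ (by positivity)]
  refine (th_comp_le hA (mulVec_inj_of_det hT) 0).trans (le_of_eq ?_)
  field_simp

/-- a unimodular change of basis -/
theorem th_comp_unimod (A : (ι → ℝ) →ₗ[ℝ] E) {κ : Type*} [Fintype κ] {T : Matrix ι κ ℤ}
    (hT : Function.Bijective T.mulVec) (c : E) : th (A.comp (mlin T)) c = th A c := by
  unfold th
  rw [← (Equiv.ofBijective _ hT).tsum_eq fun x => rho (A (cast x) + c)]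
  exact tsum_congr fun y => by rw [LinearMap.comp_apply, mlin_cast]; rfl

end Crest.Agent.T49.Gau
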