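import Mathlib

/-! # Row 49: the test lemma (T0), dimension free

If among any `J+1` points of the ball of radius `r` two differ by an element of `D`, then there is ONE
multiplier `b ≤ J` such that `b • g` is a sum of at most `2J` elements of `D` for every `g` in the ball
of radius `r / (2J+1)`. -/

set_option autoImplicit false

open Finset

namespace Crest.Agent.T49.Gon

variable {Λ : Type*} [AddCommGroup Λ]

/-- `x` is a sum of at most `n` elements of `D`. -/
def SumOf (D : Set Λ) : ℕ → Λ → Prop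
  | 0, x => x = 0
  | n + 1, x => SumOf D n x ∨ ∃ d ∈ D, SumOf D n (x - d)

theorem SumOf.mono {D : Set Λ} {n n' : ℕ} {x : Λ} (h : SumOf D n x) (hn : n ≤ n') :
    SumOf D n' x := by
  induction n', hn using Nat.le_induction with
  | base => exact h
  | succ n' _ ih => exact Or.inl ih

theorem SumOf.le {D : Set Λ} (μ : Λ → ℝ) (h0 : μ 0 ≤ 0) (hadd : ∀ x y, μ (x + y) ≤ μ x + μ y)
    {ε : ℝ} (hε : 0 ≤ ε) (hD : ∀ d ∈ D, μ d ≤ ε) {n : ℕ} {x : Λ} (h : SumOf D n x) :
    μ x ≤ n * ε := by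
  induction n generalizing x with
  | zero => rw [show x = 0 from h]; simpa using h0
  | succ n ih =>
    push_cast
    rcases h with h | ⟨d, hd, h⟩
    · linarith [ih h]
    · have := hadd (x - d) d
      rw [sub_add_cancel] at this
      linarith [ih h, hD d hd]

theorem exists_eq_succ_of_anti (c : ℕ → ℕ) (J : ℕ) (h1 : ∀ i, 1 ≤ c i) (hJ : c 0 ≤ J)
    (hanti : ∀ i, c (i + 1) ≤ c i) : ∃ i < J, c (i + 1) = c i := by
  by_contra h
  push Not at h
  have : ∀ i ≤ J, c i + i ≤ J := by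
    intro i hi
    induction i with
    | zero => simpa using hJ
    | succ i ih =>
      have := ih (by omega)
      have := h i (by omega)
      have := hanti i
      omega
  have := this J le_rfl
  have := h1 J
  omega

theorem exists_eq_succ_of_mono (c : ℕ → ℕ) (J : ℕ) (h1 : 1 ≤ c 0) (hJ : ∀ i ≤ J, c i ≤ J)
    (hmono : ∀ i < J, c i ≤ c (i + 1)) : ∃ i < J, c (i + 1) = c i := by
  by_contra h
  push Not at h
  have : ∀ i ≤ J, i + 1 ≤ c i := by
    intro i hi
    induction i with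
    | zero => simpa using h1
    | succ i ih =>
      have := ih (by omega)
      have := h i (by omega)
      have := hmono i (by omega)
      omega
  have := this J le_rfl
  have := hJ J le_rfl
  omega

section

variable (ν : Λ → ℝ) (D : Set Λ)

/-- one step inside the ball of radius `ρ` -/
def Stp (ρ : ℝ) (x y : Λ) : Prop := ν x ≤ ρ ∧ ν y ≤ ρ ∧ x - y ∈ D

variable {ν D}

theorem sumOf_of_eqvGen (hD : ∀ d ∈ D, -d ∈ D) {J : ℕ} {r : ℝ}
    (hP : ∀ T : Finset Λ, (∀ x ∈ T, ν x ≤ r) → J < #T → ∃ x ∈ T, ∃ y ∈ T, x ≠ y ∧ x - y ∈ D)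
    {x y : Λ} (hx : ν x ≤ r) (h : Relation.EqvGen (Stp ν D r) x y) : SumOf D (2 * J) (y - x) := by
  classical
  -- breadth first search from `x`
  obtain ⟨B, hB0, hBs⟩ : ∃ B : ℕ → Set Λ, B 0 = {x} ∧
      ∀ n, B (n + 1) = B n ∪ {z | ν z ≤ r ∧ ∃ w ∈ B n, z - w ∈ D} :=
    ⟨fun n => Nat.rec {x} (fun _ S => S ∪ {z | ν z ≤ r ∧ ∃ w ∈ S, z - w ∈ D}) n, rfl, fun _ => rfl⟩
  have hBm : Monotone B := monotone_nat_of_le_succ fun n => by
    rw [hBs]; exact Set.subset_union_left
  have hBr : ∀ n, ∀ z ∈ B n, ν z ≤ r ∧ SumOf D n (z - x) := by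
    intro n
    induction n with
    | zero => intro z hz; rw [hB0] at hz; rw [show z = x from hz]; exact ⟨hx, sub_self x⟩
    | succ n ih =>
      intro z hz
      rw [hBs] at hz
      rcases hz with hz | ⟨hz, w, hw, hd⟩
      · exact ⟨(ih z hz).1, Or.inl (ih z hz).2⟩
      · refine ⟨hz, Or.inr ⟨z - w, hd, ?_⟩⟩
        rw [show z - x - (z - w) = w - x by abel]
        exact (ih w hw).2
  have hstab : ∀ n, B (n + 1) = B n → ∀ k, B (n + k) = B n := by
    intro n hn k
    induction k with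
    | zero => rfl
    | succ k ih => rw [← add_assoc, hBs, ih, ← hBs, hn]
  have hfin : B (2 * J + 1) = B (2 * J) := by
    by_contra hne
    have hstrict : ∀ n ≤ 2 * J, ∃ z, z ∈ B (n + 1) ∧ z ∉ B n := by
      intro n hn
      by_contra hcon
      push Not at hcon
      have h1 : B (n + 1) = B n := Set.Subset.antisymm hcon (hBm (Nat.le_succ n))
      apply hne
      obtain ⟨k, hk⟩ := Nat.exists_eq_add_of_le hn
      rw [hk, add_assoc, hstab n h1, hstab n h1]
    choose! z hz1 hz2 using hstrict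
    have hlt : ∀ k k', k < k' → k' ≤ J → z (2 * k) ≠ z (2 * k') ∧ z (2 * k') - z (2 * k) ∉ D ∨
        False := by
      intro k k' hk hk'
      refine Or.inl ⟨fun h => hz2 (2 * k') (by omega) ?_, fun h => ?_⟩
      · rw [← h]; exact hBm (by omega) (hz1 (2 * k) (by omega))
      · have h1 : z (2 * k') ∈ B (2 * k + 1 + 1) := by
          rw [hBs]
          exact Or.inr ⟨(hBr _ _ (hz1 _ (by omega))).1, _, hz1 (2 * k) (by omega), h⟩
        exact hz2 (2 * k') (by omega) (hBm (by omega) h1)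
    have hinj : Set.InjOn (fun k => z (2 * k)) (range (J + 1) : Finset ℕ) := by
      intro k hk k' hk' h
      simp only [coe_range, Set.mem_Iio] at hk hk'
      by_contra hne
      rcases lt_or_gt_of_ne hne with hl | hl
      · exact ((hlt k k' hl (by omega)).resolve_right id).1 h
      · exact ((hlt k' k hl (by omega)).resolve_right id).1 h.symm
    obtain ⟨a, ha, b, hb, hab, hd⟩ := hP ((range (J + 1)).image fun k => z (2 * k)) (by
      intro a ha
      obtain ⟨k, hk, rfl⟩ := mem_image.1 ha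
      rw [mem_range] at hk
      exact (hBr _ _ (hz1 _ (by omega))).1) (by rw [card_image_of_injOn hinj]; simp)
    obtain ⟨k, hk, rfl⟩ := mem_image.1 ha
    obtain ⟨k', hk', rfl⟩ := mem_image.1 hb
    rw [mem_range] at hk hk'
    rcases lt_trichotomy k k' with hl | rfl | hl
    · exact ((hlt k k' hl (by omega)).resolve_right id).2 (by simpa using hD _ hd)
    · exact hab rfl
    · exact ((hlt k' k hl (by omega)).resolve_right id).2 hd
  have hclosed : ∀ a b, Relation.EqvGen (Stp ν D r) a b → (a ∈ B (2 * J) ↔ b ∈ B (2 * J)) := by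
    intro a b hab
    induction hab with
    | rel a b h =>
      constructor
      · intro ha
        rw [← hfin, hBs]
        exact Or.inr ⟨h.2.1, a, ha, by simpa using hD _ h.2.2⟩
      · intro hb
        rw [← hfin, hBs]
        exact Or.inr ⟨h.1, b, hb, h.2.2⟩
    | refl => rfl
    | symm a b _ ih => exact ih.symm
    | trans a b c _ _ h1 h2 => exact h1.trans h2
  exact (hBr _ _ ((hclosed x y h).1 (hBm (Nat.zero_le _) (by rw [hB0]; rfl)))).2

theorem Stp.mono {ρ ρ' : ℝ} (h : ρ ≤ ρ') {x y : Λ} (hs : Stp ν D ρ x y) : Stp ν D ρ' x y :=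
  ⟨hs.1.trans h, hs.2.1.trans h, hs.2.2⟩

/-- at most `J` classes -/
theorem classes_le {J : ℕ} {r ρ : ℝ}
    (hP : ∀ T : Finset Λ, (∀ x ∈ T, ν x ≤ r) → J < #T → ∃ x ∈ T, ∃ y ∈ T, x ≠ y ∧ x - y ∈ D)
    (hρ : ρ ≤ r) (X : Set Λ) (hX : ∀ x ∈ X, ν x ≤ ρ) :
    (Quot.mk (Stp ν D ρ) '' X).Finite ∧ (Quot.mk (Stp ν D ρ) '' X).ncard ≤ J := by
  classical
  have key : ∀ T : Finset (Quot (Stp ν D ρ)), (T : Set _) ⊆ Quot.mk (Stp ν D ρ) '' X → #T ≤ J := by
    intro T hT
    by_contra hlt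
    push Not at hlt
    have : ∀ c ∈ T, ∃ x ∈ X, Quot.mk (Stp ν D ρ) x = c := fun c hc => hT hc
    choose! f hf1 hf2 using this
    have hinj : Set.InjOn f T := fun a ha b hb h => by rw [← hf2 a ha, ← hf2 b hb, h]
    obtain ⟨a, ha, b, hb, hab, hd⟩ := hP (T.image f) (by
      intro a ha
      obtain ⟨c, hc, rfl⟩ := mem_image.1 ha
      exact (hX _ (hf1 c hc)).trans hρ) (by rwa [card_image_of_injOn hinj])
    obtain ⟨c, hc, rfl⟩ := mem_image.1 ha
    obtain ⟨c', hc', rfl⟩ := mem_image.1 hb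
    apply hab
    have : Quot.mk (Stp ν D ρ) (f c) = Quot.mk _ (f c') :=
      Quot.sound ⟨hX _ (hf1 c hc), hX _ (hf1 c' hc'), hd⟩
    rw [hf2 c hc, hf2 c' hc'] at this
    rw [this]
  have hfin : (Quot.mk (Stp ν D ρ) '' X).Finite := by
    by_contra hinf
    obtain ⟨T, hT, hc⟩ := Set.Infinite.exists_subset_card_eq hinf (J + 1)
    have := key T hT
    omega
  refine ⟨hfin, ?_⟩
  rw [Set.ncard_eq_toFinset_card _ hfin]
  exact key _ (by simp)

/-- **Test lemma (T0).** -/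
theorem T0 (hν0 : ν 0 ≤ 0) (hνadd : ∀ x y, ν (x + y) ≤ ν x + ν y) (hνneg : ∀ x, ν (-x) ≤ ν x)
    (hD : ∀ d ∈ D, -d ∈ D) {J : ℕ} {u : ℝ} (hu : 0 ≤ u)
    (hP : ∀ T : Finset Λ, (∀ x ∈ T, ν x ≤ (2 * J + 1) * u) → J < #T →
      ∃ x ∈ T, ∃ y ∈ T, x ≠ y ∧ x - y ∈ D) :
    ∃ b : ℕ, 1 ≤ b ∧ b ≤ J ∧ ∀ g, ν g ≤ u → SumOf D (2 * J) (b • g) := by
  classical
  let ρ : ℕ → ℝ := fun i => (J + 1 + i) * u
  have hρs : ∀ i, ρ (i + 1) = ρ i + u := fun i => by simp only [ρ]; push_cast; ring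
  have hρ0 : ∀ i, ρ 0 ≤ ρ i := fun i => by
    simp only [ρ]; push_cast; nlinarith [Nat.cast_nonneg (α := ℝ) i]
  have hρr : ∀ i ≤ J, ρ i ≤ (2 * J + 1) * u := fun i hi => by
    have : (i : ℝ) ≤ J := by exact_mod_cast hi
    simp only [ρ]; nlinarith
  let V0 : Set Λ := {x | ν x ≤ ρ 0}
  have h0V : (0 : Λ) ∈ V0 := by
    simp only [V0, ρ, Set.mem_ofPred_eq]
    have : (0 : ℝ) ≤ (J + 1 + (0 : ℕ)) * u := by positivity
    linarith
  let up : ∀ i, Quot (Stp ν D (ρ i)) → Quot (Stp ν D (ρ (i + 1))) := fun i =>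
    Quot.map id fun a b h => h.mono (by rw [hρs]; linarith)
  have hup : ∀ i, Quot.mk (Stp ν D (ρ (i + 1))) '' V0 = up i '' (Quot.mk (Stp ν D (ρ i)) '' V0) := by
    intro i; rw [Set.image_image]; rfl
  have hcl0 := classes_le hP (hρr 0 (Nat.zero_le _)) V0 fun x hx => hx
  have hfin : ∀ i, (Quot.mk (Stp ν D (ρ i)) '' V0).Finite := by
    intro i
    induction i with
    | zero => exact hcl0.1
    | succ i ih => rw [hup]; exact ih.image _
  obtain ⟨i, hiJ, hi⟩ := exists_eq_succ_of_anti (fun i => (Quot.mk (Stp ν D (ρ i)) '' V0).ncard) J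
    (fun i => (Set.ncard_pos (hfin i)).2 ⟨_, 0, h0V, rfl⟩) hcl0.2
    (fun i => by rw [hup]; exact Set.ncard_image_le (hfin i))
  have hinj : Set.InjOn (up i) (Quot.mk (Stp ν D (ρ i)) '' V0) := by
    rw [hup] at hi
    exact Set.injOn_of_ncard_image_eq hi (hfin i)
  set mk := Quot.mk (Stp ν D (ρ i)) with hmk
  -- translation invariance inside `V0`
  have hinv : ∀ g, ν g ≤ u → ∀ x y, mk x = mk y → x + g ∈ V0 → y + g ∈ V0 →
      mk (x + g) = mk (y + g) := by
    intro g hg x y hxy hx hy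
    refine hinj ⟨_, hx, rfl⟩ ⟨_, hy, rfl⟩ ?_
    change Quot.mk (Stp ν D (ρ (i + 1))) (x + g) = Quot.mk _ (y + g)
    have h1 := Quot.eqvGen_exact hxy
    clear hxy hx hy
    induction h1 with
    | rel a b h =>
      refine Quot.sound ⟨?_, ?_, by simpa using h.2.2⟩
      · rw [hρs]; linarith [hνadd a g, h.1]
      · rw [hρs]; linarith [hνadd b g, h.2.1]
    | refl => rfl
    | symm a b _ ih => exact ih.symm
    | trans a b c _ _ h1 h2 => exact h1.trans h2
  let B : ℕ → Set Λ := fun j => {x | ν x ≤ j * u}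
  have hBV : ∀ j ≤ J + 1, B j ⊆ V0 := by
    intro j hj x hx
    have : (j : ℝ) ≤ J + 1 := by exact_mod_cast hj
    simp only [B, V0, ρ, Set.mem_ofPred_eq] at hx ⊢
    push_cast
    nlinarith
  have hBs : ∀ j, B j ⊆ B (j + 1) := by
    intro j x hx
    simp only [B, Set.mem_ofPred_eq] at hx ⊢
    push_cast; linarith
  have hBg : ∀ j g, ν g ≤ u → ∀ x ∈ B j, x + g ∈ B (j + 1) := by
    intro j g hg x hx
    simp only [B, Set.mem_ofPred_eq] at hx ⊢
    push_cast; linarith [hνadd x g]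
  have h0B : ∀ j, (0 : Λ) ∈ B j := fun j => by
    simp only [B, Set.mem_ofPred_eq]
    have : (0 : ℝ) ≤ j * u := by positivity
    linarith
  have hcli := classes_le hP (hρr i hiJ.le) V0 fun x hx => le_trans hx (hρ0 i)
  have hfinB : ∀ j ≤ J + 1, (mk '' B j).Finite := fun j hj =>
    hcli.1.subset (Set.image_mono (hBV j hj))
  have hcardB : ∀ j ≤ J + 1, (mk '' B j).ncard ≤ J := fun j hj =>
    (Set.ncard_le_ncard (Set.image_mono (hBV j hj)) hcli.1).trans hcli.2
  obtain ⟨j, hjJ, hj⟩ := exists_eq_succ_of_mono (fun j => (mk '' B j).ncard) J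
    ((Set.ncard_pos (hfinB 0 (by omega))).2 ⟨_, 0, h0B 0, rfl⟩) (fun j hj => hcardB j (by omega))
    (fun j hj => Set.ncard_le_ncard (Set.image_mono (hBs j)) (hfinB _ (by omega)))
  have hEq : mk '' B j = mk '' B (j + 1) :=
    Set.eq_of_subset_of_ncard_le (Set.image_mono (hBs j)) hj.le (hfinB _ (by omega))
  let C := ↥(mk '' B j)
  have : Finite C := (hfinB j (by omega)).to_subtype
  have hrep : ∀ c : C, ∃ x ∈ B j, mk x = c := fun c => c.2
  choose rep hrepB hrep using hrep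
  let f : Λ → C → C := fun g c =>
    if h : ν g ≤ u then ⟨mk (rep c + g), hEq ▸ ⟨_, hBg j g h _ (hrepB c), rfl⟩⟩ else c
  have hf : ∀ g, ν g ≤ u → ∀ (c : C) x, mk x = c → x + g ∈ V0 → (f g c : Quot _) = mk (x + g) := by
    intro g hg c x hx hxg
    simp only [f, dif_pos hg]
    exact hinv g hg _ _ ((hrep c).trans hx.symm) (hBV (j + 1) (by omega) (hBg j g hg _ (hrepB c))) hxg
  have hff : ∀ g g', ν g ≤ u → ν g' ≤ u → ∀ c : C,
      (f g (f g' c) : Quot _) = mk (rep c + g' + g) := by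
    intro g g' hg hg' c
    have h1 := hBg j g' hg' _ (hrepB c)
    exact hf g hg _ _ (hf g' hg' c _ (hrep c) (hBV (j + 1) (by omega) h1)).symm
      (hBV (j + 2) (by omega) (hBg _ g hg _ h1))
  have hneg : ∀ g, ν g ≤ u → ν (-g) ≤ u := fun g hg => (hνneg g).trans hg
  let π : {g // ν g ≤ u} → Equiv.Perm C := fun g =>
    { toFun := f g
      invFun := f (-g)
      left_inv := fun c => Subtype.ext (by rw [hff _ _ (hneg _ g.2) g.2]; simpa using hrep c)
      right_inv := fun c => Subtype.ext (by rw [hff _ _ g.2 (hneg _ g.2)]; simpa using hrep c) }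
  have hcomm : ∀ g g', π g * π g' = π g' * π g := by
    intro g g'
    ext c
    change (f g (f g' c)).1 = (f g' (f g c)).1
    rw [hff _ _ g.2 g'.2, hff _ _ g'.2 g.2, add_right_comm]
  let A := Subgroup.closure (Set.range π)
  have hA : IsMulCommutative A := Subgroup.isMulCommutative_closure (by
    rintro _ ⟨g, rfl⟩ _ ⟨g', rfl⟩
    exact hcomm g g')
  let c0 : C := ⟨mk 0, 0, h0B j, rfl⟩
  let St := MulAction.stabilizer A c0
  have hN : St.Normal := Subgroup.normal_of_isMulCommutative St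
  have hidx : St.index = (MulAction.orbit A c0).ncard := MulAction.index_stabilizer A c0
  have hb1 : 1 ≤ St.index := by
    rw [hidx]
    exact (Set.ncard_pos (Set.toFinite _)).2 ⟨c0, MulAction.mem_orbit_self c0⟩
  have hbJ : St.index ≤ J := by
    rw [hidx]
    refine (Set.ncard_le_card _).trans ?_
    exact hcardB j (by omega)
  refine ⟨St.index, hb1, hbJ, fun g hg => ?_⟩
  have hk : ∀ k ≤ J, ((π ⟨g, hg⟩ ^ k) c0 : Quot _) = mk (k • g) ∧ k • g ∈ B k := by
    intro k hk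
    induction k with
    | zero => exact ⟨by simp [c0], by simpa using h0B 0⟩
    | succ k ih =>
      obtain ⟨h1, h2⟩ := ih (by omega)
      have h3 := hBg k g hg _ h2
      rw [pow_succ', succ_nsmul]
      exact ⟨hf g hg _ _ h1.symm (hBV _ (by omega) h3), h3⟩
  have hmem : (⟨π ⟨g, hg⟩, Subgroup.subset_closure ⟨_, rfl⟩⟩ : A) ^ St.index ∈ St :=
    St.pow_index_mem _
  have hfix : (π ⟨g, hg⟩ ^ St.index) c0 = c0 := hmem
  have h1 : mk 0 = mk (St.index • g) := by rw [← (hk _ hbJ).1, hfix]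
  have h2 : Relation.EqvGen (Stp ν D ((2 * J + 1) * u)) 0 (St.index • g) :=
    (Quot.eqvGen_exact h1).mono fun a b h => h.mono (hρr i hiJ.le)
  have := sumOf_of_eqvGen hD hP (le_trans hν0 (by positivity)) h2
  simpa using this

/-- (T0) for a homomorphism into a seminormed group: small on `D` gives `b φ` small on the ball. -/
theorem T0_hom {A : Type*} [AddCommGroup A] (φ : Λ →+ A) (μ : A → ℝ) (hμ0 : μ 0 ≤ 0)
    (hμadd : ∀ x y, μ (x + y) ≤ μ x + μ y) (hμneg : ∀ x, μ (-x) ≤ μ x)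
    (hν0 : ν 0 ≤ 0) (hνadd : ∀ x y, ν (x + y) ≤ ν x + ν y) (hνneg : ∀ x, ν (-x) ≤ ν x)
    {J : ℕ} {u ε : ℝ} (hu : 0 ≤ u) (hε : 0 ≤ ε)
    (hP : ∀ T : Finset Λ, (∀ x ∈ T, ν x ≤ (2 * J + 1) * u) → J < #T →
      ∃ x ∈ T, ∃ y ∈ T, x ≠ y ∧ μ (φ (x - y)) ≤ ε) :
    ∃ b : ℕ, 1 ≤ b ∧ b ≤ J ∧ ∀ g, ν g ≤ u → μ (b • φ g) ≤ 2 * J * ε := by
  obtain ⟨b, hb1, hbJ, h⟩ := T0 (D := {d | μ (φ d) ≤ ε}) hν0 hνadd hνneg
    (fun d hd => by
      simp only [Set.mem_ofPred_eq, map_neg] at hd ⊢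
      exact (hμneg _).trans hd) hu hP
  refine ⟨b, hb1, hbJ, fun g hg => ?_⟩
  have := (h g hg).le (fun x => μ (φ x)) (by simpa using hμ0)
    (fun x y => by simpa only [map_add] using hμadd _ _) hε (fun d hd => hd)
  simpa [map_nsmul] using this

end

/-- the overlap hypothesis of (T0) from a nearly translation invariant weight: if every translate
`S + x` has mass `> 1 / (J+1)` of the total mass then two of `J+1` translates meet. -/
theorem overlap_of_weight {J : ℕ} (γ : Λ → ℝ) (hγ : ∀ x, 0 ≤ γ x) (hsum : Summable γ)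
    (S : Set Λ) (T : Finset Λ) (hT : J < #T)
    (hS : ∀ x ∈ T, (∑' y, γ y) < (J + 1) * ∑' y, (S.indicator (fun y => γ (y + x)) y)) :
    ∃ x ∈ T, ∃ y ∈ T, x ≠ y ∧ ∃ s ∈ S, ∃ s' ∈ S, x - y = s - s' := by
  classical
  by_contra hcon
  push Not at hcon
  have hsx : ∀ x, Summable fun y => (S.indicator (fun y => γ (y + x)) (y - x)) := by
    intro x
    refine Summable.of_nonneg_of_le (fun y => Set.indicator_nonneg (fun _ _ => hγ _) _)
      (fun y => ?_) hsum
    by_cases h : y - x ∈ S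
    · simp [Set.indicator_of_mem h]
    · simp [Set.indicator_of_notMem h, hγ]
  have h1 : ∀ x, ∑' y, (S.indicator (fun y => γ (y + x)) y) =
      ∑' y, (S.indicator (fun y => γ (y + x)) (y - x)) := fun x =>
    ((Equiv.subRight x).tsum_eq _).symm
  have h2 : ∑ x ∈ T, ∑' y, (S.indicator (fun y => γ (y + x)) (y - x)) ≤ ∑' y, γ y := by
    rw [← Summable.tsum_finsetSum fun x _ => hsx x]
    refine Summable.tsum_le_tsum (fun y => ?_) (summable_sum fun x _ => hsx x) hsum
    by_cases h : ∃ x ∈ T, y - x ∈ S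
    · obtain ⟨x, hx, hy⟩ := h
      rw [sum_eq_single x]
      · simp [Set.indicator_of_mem hy]
      · intro x' hx' hne
        refine Set.indicator_of_notMem (fun hy' => ?_) _
        exact hcon x hx x' hx' (Ne.symm hne) _ hy' _ hy (by abel)
      · intro h; exact absurd hx h
    · push Not at h
      rw [sum_eq_zero fun x hx => Set.indicator_of_notMem (h x hx) _]
      exact hγ y
  have hTne : T.Nonempty := card_pos.1 (by omega)
  have h3 : ∑ _x ∈ T, ∑' y, γ y <
      ∑ x ∈ T, (J + 1) * ∑' y, (S.indicator (fun y => γ (y + x)) (y - x)) :=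
    sum_lt_sum_of_nonempty hTne fun x hx => by rw [← h1]; exact hS x hx
  rw [← mul_sum, sum_const, nsmul_eq_mul] at h3
  have h4 : ((J : ℝ) + 1) ≤ #T := by exact_mod_cast hT
  have h5 : 0 ≤ ∑' y, γ y := tsum_nonneg hγ
  nlinarith

end Crest.Agent.T49.Gon
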