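import Crest.Agent.T49.TwDef_52
import Crest.Agent.T49.GonT0_60
import Crest.Agent.T49.GauC_64

/-!
# Row 49: the absolute step `AbsStmt` (helper82)
-/

set_option autoImplicit false

open Finset

namespace Crest.Agent.T49.Tw

open Crest.Agent.T49.Lat (cast cast_apply)
open Crest.Agent.T49.Gau Crest.Agent.T49.Gon

section Semi

variable {W : Type} [AddCommGroup W] [Module ℝ W] {ν : W → ℝ}

theorem sn_zero (hs : ∀ (t : ℝ) v, ν (t • v) = |t| * ν v) : ν 0 = 0 := by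
  simpa using hs 0 0

theorem sn_neg (hs : ∀ (t : ℝ) v, ν (t • v) = |t| * ν v) (v : W) : ν (-v) = ν v := by
  simpa using hs (-1) v

theorem sn_nonneg (ha : ∀ v w, ν (v + w) ≤ ν v + ν w) (hs : ∀ (t : ℝ) v, ν (t • v) = |t| * ν v)
    (v : W) : 0 ≤ ν v := by
  have := ha v (-v)
  rw [add_neg_cancel, sn_zero hs, sn_neg hs] at this
  linarith

theorem sn_sub (ha : ∀ v w, ν (v + w) ≤ ν v + ν w) (hs : ∀ (t : ℝ) v, ν (t • v) = |t| * ν v)
    (v w : W) : ν (v - w) ≤ ν v + ν w := by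
  have := ha v (-w)
  rwa [sn_neg hs, ← sub_eq_add_neg] at this

theorem sn_sum (ha : ∀ v w, ν (v + w) ≤ ν v + ν w) (hs : ∀ (t : ℝ) v, ν (t • v) = |t| * ν v)
    {κ : Type} (T : Finset κ) (f : κ → W) : ν (∑ i ∈ T, f i) ≤ ∑ i ∈ T, ν (f i) := by
  classical
  induction T using Finset.induction_on with
  | empty => simp [sn_zero hs]
  | insert i T hi ih =>
    rw [sum_insert hi, sum_insert hi]
    exact (ha _ _).trans (by linarith)

theorem sn_comb (ha : ∀ v w, ν (v + w) ≤ ν v + ν w) (hs : ∀ (t : ℝ) v, ν (t • v) = |t| * ν v)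
    {κ : Type} [Fintype κ] (c : κ → ℝ) (f : κ → W) {r R : ℝ} (hr : 0 ≤ r) (hc : ∀ i, |c i| ≤ r)
    (hf : ∀ i, ν (f i) ≤ R) : ν (∑ i, c i • f i) ≤ Fintype.card κ * (r * R) := by
  refine (sn_sum ha hs _ _).trans ?_
  have : ∀ i ∈ (univ : Finset κ), ν (c i • f i) ≤ r * R := fun i _ => by
    rw [hs]
    exact mul_le_mul (hc i) (hf i) (sn_nonneg ha hs _) hr
  simpa using sum_le_card_nsmul _ _ _ this

end Semi

/-- a function on a finite set with `2 F g = F (τ g)` vanishes -/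
theorem zero_of_double {X W : Type} [AddCommGroup W] [Module ℝ W] {S : Set X} (hS : S.Finite)
    (F : X → W) (h : ∀ g ∈ S, ∃ g' ∈ S, (2 : ℝ) • F g = F g') : ∀ g ∈ S, F g = 0 := by
  intro g hg
  rw [← Module.forall_dual_apply_eq_zero_iff ℝ]
  intro l
  obtain ⟨g0, hg0, hmax⟩ := Set.exists_max_image S (fun x => |l (F x)|) hS ⟨g, hg⟩
  obtain ⟨g', hg', he⟩ := h g0 hg0
  have h1 := hmax g' hg'
  have h2 := hmax g hg
  simp only [← he, map_smul, smul_eq_mul, abs_mul, abs_two] at h1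
  have h3 := abs_nonneg (l (F g0))
  have h4 := abs_nonneg (l (F g))
  exact abs_eq_zero.1 (by linarith)

/-- an almost orthogonal basis of short lattice points -/
theorem exists_basis {ι : Type} [Fintype ι] (A : (ι → ℝ) →ₗ[ℝ] EuclideanSpace ℝ ι)
    (hA : Function.Injective A) {lam s : ℝ} (hs : 0 < s)
    (h1 : Fintype.card ι * lam ≤ s / 2)
    (hd : ∀ u : ι → ℝ, ∃ x : ι → ℤ, ‖A (u - cast x)‖ ≤ lam) :
    ∃ (p : ι → ι → ℤ) (P : (ι → ℝ) ≃ₗ[ℝ] (ι → ℝ)), (∀ i, ‖A (cast (p i))‖ ≤ s + lam) ∧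
      (∀ c, P c = ∑ i, c i • cast (p i)) ∧ ∀ c i, |c i| ≤ 2 / s * ‖A (P c)‖ := by
  classical
  have hsurj : Function.Surjective A :=
    (LinearMap.injective_iff_surjective_of_finrank_eq_finrank (by simp)).1 hA
  choose w hw using fun i : ι => hsurj (EuclideanSpace.single i s)
  choose p hp using fun i : ι => hd (w i)
  let P0 : (ι → ℝ) →ₗ[ℝ] (ι → ℝ) := Fintype.linearCombination ℝ fun i => cast (p i)
  have hP0 : ∀ c, P0 c = ∑ i, c i • cast (p i) := fun c => Fintype.linearCombination_apply ..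
  have hε : ∀ i, A (cast (p i)) = EuclideanSpace.single i s - A (w i - cast (p i)) := fun i => by
    rw [map_sub, hw]; abel
  have key : ∀ c : ι → ℝ, ‖c‖ ≤ 2 / s * ‖A (P0 c)‖ := fun c => by
    have h2 : A (P0 c) = ∑ i, c i • EuclideanSpace.single i s -
        ∑ i, c i • A (w i - cast (p i)) := by
      rw [hP0, map_sum, ← sum_sub_distrib]
      exact sum_congr rfl fun i _ => by rw [map_smul, hε, smul_sub]
    have h3 : ‖∑ i, c i • A (w i - cast (p i))‖ ≤ s / 2 * ‖c‖ := by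
      refine (norm_sum_le _ _).trans ?_
      have : ∀ i ∈ (univ : Finset ι), ‖c i • A (w i - cast (p i))‖ ≤ ‖c‖ * lam := fun i _ => by
        rw [norm_smul]
        exact mul_le_mul (norm_le_pi_norm c i) (hp i) (norm_nonneg _) (norm_nonneg _)
      have h4 := sum_le_card_nsmul _ _ _ this
      rw [card_univ, nsmul_eq_mul] at h4
      nlinarith [norm_nonneg c]
    have h5 : ∀ j, ‖c j‖ ≤ (‖A (P0 c)‖ + s / 2 * ‖c‖) / s := fun j => by
      rw [le_div_iff₀ hs]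
      have h6 : (∑ i, c i • EuclideanSpace.single i s : EuclideanSpace ℝ ι) j = c j * s := by
        simp [Pi.single_apply]
      have h7 : ‖(∑ i, c i • EuclideanSpace.single i s : EuclideanSpace ℝ ι) j‖ ≤
          ‖(∑ i, c i • EuclideanSpace.single i s : EuclideanSpace ℝ ι)‖ := PiLp.norm_apply_le _ j
      rw [h6, norm_mul, Real.norm_of_nonneg hs.le] at h7
      have h8 : (∑ i, c i • EuclideanSpace.single i s : EuclideanSpace ℝ ι) =
          A (P0 c) + ∑ i, c i • A (w i - cast (p i)) := by rw [h2]; abel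
      rw [h8] at h7
      linarith [norm_add_le (A (P0 c)) (∑ i, c i • A (w i - cast (p i)))]
    have h9 := (pi_norm_le_iff_of_nonneg (by positivity)).2 h5
    rw [le_div_iff₀ hs] at h9
    rw [div_mul_eq_mul_div, le_div_iff₀ hs]
    linarith
  have hinj : Function.Injective P0 := by
    rw [injective_iff_map_eq_zero]
    intro c hc
    have := key c
    rw [hc, map_zero, norm_zero, mul_zero] at this
    exact norm_le_zero_iff.1 this
  refine ⟨p, LinearEquiv.ofInjectiveEndo P0 hinj, fun i => ?_, hP0, fun c i => ?_⟩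
  · rw [hε]
    refine (norm_sub_le _ _).trans (add_le_add ?_ (hp i))
    rw [EuclideanSpace.single, PiLp.norm_single, Real.norm_of_nonneg hs.le]
  · exact (norm_le_pi_norm c i).trans (key c)

theorem cast_comb {ι : Type} [Fintype ι] (k : ι → ℤ) (p : ι → ι → ℤ) :
    cast (∑ i, k i • p i) = ∑ i, (k i : ℝ) • cast (p i) := by
  funext j
  simp [Finset.sum_apply]

/-- a local lift on a ball of a dense lattice is linear -/
theorem abs_lin {ι : Type} [Fintype ι] (A : (ι → ℝ) →ₗ[ℝ] EuclideanSpace ℝ ι)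
    (hA : Function.Injective A) {G W : Type} [AddCommGroup G] [Module ℝ G] [AddCommGroup W]
    [Module ℝ W] {ν : W → ℝ} (ha : ∀ v w, ν (v + w) ≤ ν v + ν w)
    (hν : ∀ (t : ℝ) v, ν (t • v) = |t| * ν v) (Θ : W →ₗ[ℝ] G) (Ω : AddSubgroup G)
    (ψ : (ι → ℤ) →+ G) {lam s u R Q : ℝ} (hs : 0 < s) (hls : lam ≤ s)
    (h1 : Fintype.card ι * lam ≤ s / 2) (h2 : (Fintype.card ι + 2) * s ≤ u)
    (h3 : (Fintype.card ι + 3) * R ≤ Q)
    (hd : ∀ u : ι → ℝ, ∃ x : ι → ℤ, ‖A (u - cast x)‖ ≤ lam)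
    (hND : ∀ e, ν e ≤ Q → Θ e ∈ Ω → e = 0)
    (h0 : ∀ g : ι → ℤ, ‖A (Lat.cast g)‖ ≤ u → ∃ e, ν e ≤ R ∧ ψ g - Θ e ∈ Ω) :
    ∃ E : (ι → ℝ) →ₗ[ℝ] W, (∀ v, ν (E v) ≤ Fintype.card ι * (2 / s) * R * ‖A v‖) ∧
      ∀ p : ι → ℤ, ψ p - Θ (E (cast p)) ∈ Ω := by
  classical
  obtain ⟨p, P, hp, hP, hc⟩ := exists_basis A hA hs h1 hd
  have hn : (0 : ℝ) ≤ Fintype.card ι := Nat.cast_nonneg _
  choose! E0 hE0 hE0' using h0
  have hpu : ∀ i, ‖A (cast (p i))‖ ≤ u := fun i => (hp i).trans (by nlinarith)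
  let L : (ι → ℝ) →ₗ[ℝ] W := Fintype.linearCombination ℝ fun i => E0 (p i)
  have hL : ∀ c, L c = ∑ i, c i • E0 (p i) := fun c => Fintype.linearCombination_apply ..
  let E : (ι → ℝ) →ₗ[ℝ] W := L.comp P.symm.toLinearMap
  have hE : ∀ v, E v = L (P.symm v) := fun v => rfl
  -- integer combinations of the basis
  have hk : ∀ k : ι → ℤ, P.symm (cast (∑ i, k i • p i)) = cast k := fun k => by
    rw [LinearEquiv.symm_apply_eq, hP, cast_comb]; rfl
  have hkΩ : ∀ k : ι → ℤ, ψ (∑ i, k i • p i) - Θ (L (cast k)) ∈ Ω := fun k => by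
    rw [hL, map_sum, map_sum, ← sum_sub_distrib]
    refine Ω.sum_mem fun i _ => ?_
    have := Ω.zsmul_mem (hE0' _ (hpu i)) (k i)
    rw [map_zsmul, cast_apply, Int.cast_smul_eq_zsmul, map_zsmul, ← smul_sub]
    exact this
  -- the box
  let S : Set (ι → ℤ) := {g | ∀ i, |P.symm (cast g) i| ≤ 1 / 2}
  have hSu : ∀ g ∈ S, ‖A (cast g)‖ ≤ u := fun g hg => by
    have e1 : cast g = ∑ i, P.symm (cast g) i • cast (p i) := by rw [← hP]; simp
    rw [e1, map_sum]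
    refine (norm_sum_le _ _).trans ?_
    have : ∀ i ∈ (univ : Finset ι), ‖A (P.symm (cast g) i • cast (p i))‖ ≤ 1 / 2 * (s + lam) :=
      fun i _ => by
        rw [map_smul, norm_smul]
        exact mul_le_mul (hg i) (hp i) (norm_nonneg _) (by norm_num)
    have h4 := sum_le_card_nsmul _ _ _ this
    rw [card_univ, nsmul_eq_mul] at h4
    nlinarith
  have hSf : S.Finite := by
    refine (Set.finite_Icc (fun j => -∑ i, |p i j|) (fun j => ∑ i, |p i j|)).subset fun g hg => ?_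
    have : ∀ j, |g j| ≤ ∑ i, |p i j| := fun j => by
      have e1 : cast g = ∑ i, P.symm (cast g) i • cast (p i) := by rw [← hP]; simp
      have e2 := congrFun e1 j
      rw [Finset.sum_apply] at e2
      have e3 : |(g j : ℝ)| ≤ ∑ i, |(p i j : ℝ)| := by
        rw [← cast_apply g j, e2]
        refine (abs_sum_le_sum_abs _ _).trans (sum_le_sum fun i _ => ?_)
        rw [Pi.smul_apply, smul_eq_mul, abs_mul, cast_apply]
        nlinarith [hg i, abs_nonneg (p i j : ℝ)]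
      exact_mod_cast e3
    exact ⟨fun j => (abs_le.1 (this j)).1, fun j => (abs_le.1 (this j)).2⟩
  have hred : ∀ g : ι → ℤ, g - ∑ i, round (P.symm (cast g) i) • p i ∈ S := fun g i => by
    rw [cast_sub, map_sub, hk, Pi.sub_apply, cast_apply]
    exact abs_sub_round _
  have hF : ∀ g ∈ S, E0 g - E (cast g) = 0 := by
    refine zero_of_double hSf (fun g => E0 g - E (cast g)) fun g hg => ?_
    set k : ι → ℤ := fun i => round (P.symm (cast (g + g)) i) with hkdef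
    have hg' := hred (g + g)
    refine ⟨_, hg', ?_⟩
    set g' := g + g - ∑ i, k i • p i with hg'def
    have hk1 : ∀ i, |cast k i| ≤ 1 := fun i => by
      have e1 := abs_sub_round (P.symm (cast (g + g)) i)
      have e2 : |P.symm (cast (g + g)) i| ≤ 1 := by
        rw [cast_add, map_add, Pi.add_apply]
        linarith [abs_add_le (P.symm (cast g) i) (P.symm (cast g) i), hg i]
      have e3 : |(k i : ℝ)| < 2 := by
        have := abs_sub_abs_le_abs_sub (k i : ℝ) (P.symm (cast (g + g)) i)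
        rw [abs_sub_comm] at this
        simp only [hkdef] at this ⊢
        linarith
      have e4 : |k i| < 2 := by exact_mod_cast e3
      have e5 : |k i| ≤ 1 := by omega
      rw [cast_apply]
      exact_mod_cast e5
    have e1 : E0 g + E0 g - L (cast k) - E0 g' = 0 := by
      refine hND _ ?_ ?_
      · have a1 := sn_sub ha hν (E0 g + E0 g - L (cast k)) (E0 g')
        have a2 := sn_sub ha hν (E0 g + E0 g) (L (cast k))
        have a3 := ha (E0 g) (E0 g)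
        have a4 := hE0 g (hSu g hg)
        have a5 := hE0 g' (hSu g' hg')
        have a6 : ν (L (cast k)) ≤ Fintype.card ι * (1 * R) := by
          rw [hL]; exact sn_comb ha hν _ _ zero_le_one hk1 fun i => hE0 _ (hpu i)
        linarith
      · have b1 := hE0' g (hSu g hg)
        have b2 := hE0' g' (hSu g' hg')
        have b3 := hkΩ k
        have b4 := Ω.sub_mem (Ω.add_mem b2 b3) (Ω.add_mem b1 b1)
        convert b4 using 1
        simp only [hg'def, map_sub, map_add]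
        abel
    have e2 : E (cast g') = E (cast g) + E (cast g) - L (cast k) := by
      rw [hg'def, cast_sub, cast_add, map_sub, map_add, hE (cast (∑ i, k i • p i)), hk]
    show (2 : ℝ) • (E0 g - E (cast g)) = E0 g' - E (cast g')
    rw [e2, two_smul, ← sub_eq_zero, ← e1]
    abel
  refine ⟨E, fun v => ?_, fun g => ?_⟩
  · rw [hE, hL]
    have hr : 0 ≤ 2 / s * ‖A v‖ := mul_nonneg (div_nonneg zero_le_two hs.le) (norm_nonneg _)
    have hi : ∀ i, |P.symm v i| ≤ 2 / s * ‖A v‖ := fun i => by simpa using hc (P.symm v) i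
    refine (sn_comb ha hν _ _ hr hi fun i => hE0 _ (hpu i)).trans (le_of_eq ?_)
    generalize ‖A v‖ = a
    ring
  · set k : ι → ℤ := fun i => round (P.symm (cast g) i)
    have hg' := hred g
    have b1 := hE0' _ (hSu _ hg')
    rw [sub_eq_zero.1 (hF _ hg')] at b1
    have b2 := Ω.add_mem b1 (hkΩ k)
    convert b2 using 1
    rw [cast_sub, map_sub, map_sub, map_sub, hE (cast (∑ i, _ • p i)), hk]
    abel

/-- the overlap hypothesis of (T0) for the difference set of a dense set -/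
theorem overlap_dense {ι : Type} [Fintype ι] (A : (ι → ℝ) →ₗ[ℝ] EuclideanSpace ℝ ι)
    (hA : Function.Injective A) (Y : (ι → ℤ) → Prop) [DecidablePred Y] {δ r : ℝ} {J : ℕ}
    (hY : δ * th A 0 ≤ ∑' p : ι → ℤ, if Y p then rho (A (Lat.cast p) + 0) else 0)
    (hr : 2 * Real.pi * r * (2 * √(Fintype.card ι + 1) + r) ≤ δ / 2)
    (hJ : 1 < (J + 1) * (δ / 2)) (T : Finset (ι → ℤ)) (hT : ∀ x ∈ T, ‖A (Lat.cast x)‖ ≤ r)
    (hc : J < #T) : ∃ x ∈ T, ∃ y ∈ T, x ≠ y ∧ ∃ s, Y s ∧ ∃ s', Y s' ∧ x - y = s - s' := by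
  refine overlap_of_weight (fun x => rho (A (Lat.cast x) + 0)) (fun _ => (rho_pos _).le)
    (summable_rho hA 0) {p | Y p} T hc fun x hx => ?_
  have hth := th_pos hA (0 : EuclideanSpace ℝ ι)
  have h1 := tsum_abs_rho_shift_le hA 0 (A (Lat.cast x))
  have hx0 := norm_nonneg (A (Lat.cast x))
  have h2 : 2 * Real.pi * ‖A (Lat.cast x)‖ * (2 * √(Fintype.card ι + 1) + ‖A (Lat.cast x)‖) ≤
      δ / 2 := by
    refine le_trans ?_ hr
    have := hT x hx
    have := Real.pi_pos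
    have hr0 : 0 ≤ r := hx0.trans (hT x hx)
    gcongr
  have s1 : Summable fun p : ι → ℤ => if Y p then rho (A (Lat.cast p) + 0) else 0 :=
    Summable.of_nonneg_of_le (fun p => by split_ifs; exacts [(rho_pos _).le, le_rfl])
      (fun p => by split_ifs; exacts [le_rfl, (rho_pos _).le]) (summable_rho hA 0)
  have s2 : Summable fun y : ι → ℤ =>
      Set.indicator {p | Y p} (fun y => rho (A (Lat.cast (y + x)) + 0)) y := by
    refine Summable.indicator ?_ _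
    simpa only [cast_add, map_add, add_zero] using summable_rho hA (A (Lat.cast x))
  have s3 := summable_abs_rho_sub hA 0 (0 + A (Lat.cast x))
  have h3 : (∑' p : ι → ℤ, if Y p then rho (A (Lat.cast p) + 0) else 0) ≤
      ∑' y : ι → ℤ, (Set.indicator {p | Y p} (fun y => rho (A (Lat.cast (y + x)) + 0)) y +
        |rho (A (Lat.cast y) + (0 + A (Lat.cast x))) - rho (A (Lat.cast y) + 0)|) := by
    refine Summable.tsum_le_tsum (fun y => ?_) s1 (s2.add s3)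
    by_cases h : Y y
    · rw [if_pos h, Set.indicator_of_mem (show y ∈ {p | Y p} from h), cast_add, map_add, add_zero,
        add_zero, zero_add]
      linarith [neg_abs_le (rho (A (Lat.cast y) + A (Lat.cast x)) - rho (A (Lat.cast y)))]
    · rw [if_neg h, Set.indicator_of_notMem (show y ∉ {p | Y p} from h), zero_add]
      exact abs_nonneg _
  rw [s2.tsum_add s3] at h3
  have h4 := mul_le_mul_of_nonneg_right h2 hth.le
  have hJ0 : (0 : ℝ) < J + 1 := by positivity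
  show th A 0 < _
  have h5 : δ / 2 * th A 0 ≤ ∑' y : ι → ℤ,
      Set.indicator {p | Y p} (fun y => rho (A (Lat.cast (y + x)) + 0)) y := by linarith
  calc th A 0 = 1 * th A 0 := (one_mul _).symm
    _ < (J + 1) * (δ / 2) * th A 0 := mul_lt_mul_of_pos_right hJ hth
    _ ≤ _ := by rw [mul_assoc]; exact mul_le_mul_of_nonneg_left h5 hJ0.le

theorem abs_num1 {K ε n J : ℝ} (hn : 0 ≤ n) (hnK : 7 * (n + 2) ≤ K) (hε0 : 0 < ε)
    (hεK : ε * K = 1) (hJ1 : J ≤ 2 * K) (hJ2 : 2 * K < J + 1) :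
    (2 * J + 1) * ε ^ 5 ≤ 5 * ε ^ 4 ∧
      2 * Real.pi * (5 * ε ^ 4) * (2 * √(n + 1) + 5 * ε ^ 4) ≤ ε / 2 ∧ 1 < (J + 1) * (ε / 2) := by
  have hε1 : ε ≤ 1 / 14 := by nlinarith
  have hε2 : ε ^ 2 ≤ 1 / 196 := by nlinarith
  refine ⟨?_, ?_, by nlinarith⟩
  · have : (2 * J + 1 : ℝ) ≤ 5 * K := by linarith
    calc (2 * J + 1) * ε ^ 5 ≤ 5 * K * ε ^ 5 := by gcongr
      _ = 5 * ε ^ 4 * (ε * K) := by ring
      _ = _ := by rw [hεK, mul_one]
  · have hsq : √(n + 1) ≤ n + 2 := Real.sqrt_le_iff.2 ⟨by linarith, by nlinarith⟩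
    have h1 : 5 * ε ^ 4 ≤ 1 := by nlinarith
    have h2 : 2 * √(n + 1) + 5 * ε ^ 4 ≤ K := by linarith
    calc 2 * Real.pi * (5 * ε ^ 4) * (2 * √(n + 1) + 5 * ε ^ 4)
        ≤ 2 * 4 * (5 * ε ^ 4) * K := by gcongr; exact Real.pi_le_four
      _ = 40 * ε ^ 2 * ε * (ε * K) := by ring
      _ ≤ ε / 2 := by rw [hεK]; nlinarith

theorem abs_num2 {K ε n lam : ℝ} (hn : 0 ≤ n) (hnK : 7 * (n + 2) ≤ K) (hε0 : 0 < ε)
    (hεK : ε * K = 1) (hlam0 : 0 < lam) (hlam : lam ≤ ε ^ 12) :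
    lam ≤ ε ^ 6 ∧ n * lam ≤ ε ^ 6 / 2 ∧ (n + 2) * ε ^ 6 ≤ ε ^ 5 := by
  have hε1 : ε ≤ 1 / 14 := by nlinarith
  have hε2 : ε ^ 2 ≤ 1 / 196 := by nlinarith
  have hε6 : ε ^ 12 ≤ ε ^ 6 * ε ^ 2 := by
    rw [← pow_add]; exact pow_le_pow_of_le_one hε0.le (by linarith) (by norm_num)
  have hε60 : 0 < ε ^ 6 := by positivity
  have h1 : lam ≤ ε ^ 6 * ε ^ 2 := hlam.trans hε6
  have h2 : n ≤ K := by linarith
  have h3 : n + 2 ≤ K := by linarith
  have hK : 0 ≤ K := by linarith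
  refine ⟨by nlinarith, ?_, ?_⟩
  · calc n * lam ≤ K * (ε ^ 6 * ε ^ 2) := by gcongr
      _ = ε ^ 6 * ε * (ε * K) := by ring
      _ ≤ ε ^ 6 / 2 := by rw [hεK]; nlinarith
  · calc (n + 2) * ε ^ 6 ≤ K * ε ^ 6 := by gcongr
      _ = ε ^ 5 * (ε * K) := by ring
      _ = _ := by rw [hεK, mul_one]

theorem abs_num3 {K n J : ℝ} (hn : 0 ≤ n) (hnK : 7 * (n + 2) ≤ K) (hJ1 : J ≤ 2 * K) :
    (n + 3) * K ^ 4 ≤ K ^ 12 ∧ 2 * J * (2 * K) ≤ K ^ 4 ∧ J ≤ K ^ 12 ∧
      n * (2 * K ^ 6) * K ^ 4 ≤ K ^ 12 := by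
  have hK1 : 1 ≤ K := by linarith
  have hK2 : 8 ≤ K ^ 2 := by nlinarith
  have h3 : n + 3 ≤ K := by linarith
  have h4 : 2 * n ≤ K ^ 2 := by nlinarith
  refine ⟨?_, ?_, ?_, ?_⟩
  · calc (n + 3) * K ^ 4 ≤ K * K ^ 4 := by gcongr
      _ = K ^ 5 := by ring
      _ ≤ K ^ 12 := pow_le_pow_right₀ hK1 (by norm_num)
  · calc 2 * J * (2 * K) ≤ 2 * (2 * K) * (2 * K) := by gcongr
      _ = 8 * K ^ 2 := by ring
      _ ≤ K ^ 2 * K ^ 2 := by gcongr
      _ = K ^ 4 := by ring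
  · calc J ≤ K ^ 2 := by nlinarith
      _ ≤ K ^ 12 := pow_le_pow_right₀ hK1 (by norm_num)
  · calc n * (2 * K ^ 6) * K ^ 4 = 2 * n * K ^ 10 := by ring
      _ ≤ K ^ 2 * K ^ 10 := by gcongr
      _ = K ^ 12 := by ring

theorem lift_sumOf {Λ G W : Type} [AddCommGroup Λ] [AddCommGroup G] [Module ℝ G] [AddCommGroup W]
    [Module ℝ W] {ν : W → ℝ} (ha : ∀ v w, ν (v + w) ≤ ν v + ν w)
    (hν : ∀ (t : ℝ) v, ν (t • v) = |t| * ν v) (Θ : W →ₗ[ℝ] G) (Ω : AddSubgroup G)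
    (φ : Λ →+ G) (g₀ : G) (Y : Λ → Prop) {K : ℝ} (hK : 0 ≤ K)
    (hYe : ∀ p, Y p → ∃ e, ν e ≤ K ∧ g₀ + φ p - Θ e ∈ Ω) (m : ℕ) :
    ∀ x : Λ, SumOf {d | ∃ s, Y s ∧ ∃ s', Y s' ∧ d = s - s'} m x →
      ∃ e, ν e ≤ m * (2 * K) ∧ φ x - Θ e ∈ Ω := by
  induction m with
  | zero =>
    intro x hx
    obtain rfl : x = 0 := hx
    exact ⟨0, by simp [sn_zero hν], by simp⟩
  | succ m ih =>
    rintro x (hx | ⟨d, ⟨s, hs, s', hs', rfl⟩, hx⟩)
    · obtain ⟨e, h1, h2⟩ := ih x hx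
      exact ⟨e, h1.trans (by push_cast; linarith), h2⟩
    · obtain ⟨e, h1, h2⟩ := ih _ hx
      obtain ⟨e1, h3, h4⟩ := hYe s hs
      obtain ⟨e2, h5, h6⟩ := hYe s' hs'
      refine ⟨e + (e1 - e2), ?_, ?_⟩
      · have := ha e (e1 - e2)
        have := sn_sub ha hν e1 e2
        push_cast
        linarith
      · convert Ω.add_mem h2 (Ω.sub_mem h4 h6) using 1
        simp only [map_sub, map_add]
        abel

theorem seven_mul_le {n y : ℝ} (hn : 0 ≤ n) (hy : Real.log (n + 2) + 2 ≤ y) :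
    7 * (n + 2) ≤ Real.exp y := by
  have he2 : (7 : ℝ) ≤ Real.exp 2 := by
    have h1 := Real.exp_one_gt_d9
    have h2 : Real.exp 2 = Real.exp 1 * Real.exp 1 := by rw [← Real.exp_add]; norm_num
    nlinarith
  have h1 := Real.exp_le_exp.2 hy
  rw [Real.exp_add, Real.exp_log (by linarith)] at h1
  nlinarith

theorem absStmt : AbsStmt := by
  classical
  refine ⟨12, ?_⟩
  intro ι _ A G W _ _ _ _ ν Θ Ω φ g₀ Y y lam Q hA ha hν hy hlam0 hlam hd hQ hND hY hYe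
  have hn : (0 : ℝ) ≤ Fintype.card ι := Nat.cast_nonneg _
  have hnK := seven_mul_le hn hy
  have hK12 : Real.exp (((12 : ℕ) : ℝ) * y) = Real.exp y ^ 12 := Real.exp_nat_mul y 12
  rw [Real.exp_neg, hK12, ← inv_pow] at hlam
  rw [hK12] at hQ ⊢
  rw [Real.exp_neg] at hY
  have hK0 := Real.exp_pos y
  generalize Real.exp y = K at hnK hlam hQ hY hYe hK0 ⊢
  have hε0 : 0 < K⁻¹ := inv_pos.2 hK0
  have hεK : K⁻¹ * K = 1 := inv_mul_cancel₀ hK0.ne'
  have hJ1 : (⌊2 * K⌋₊ : ℝ) ≤ 2 * K := Nat.floor_le (by linarith)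
  have hJ2 : 2 * K < ⌊2 * K⌋₊ + 1 := Nat.lt_floor_add_one _
  generalize ⌊2 * K⌋₊ = J at hJ1 hJ2
  obtain ⟨hr1, hr2, hJ3⟩ := abs_num1 hn hnK hε0 hεK hJ1 hJ2
  obtain ⟨a1, a2, a3⟩ := abs_num2 hn hnK hε0 hεK hlam0 hlam
  obtain ⟨c1, c2, c3, c4⟩ := abs_num3 hn hnK hJ1
  have hY' : K⁻¹ * th A 0 ≤ ∑' p : ι → ℤ, if Y p then rho (A (Lat.cast p) + 0) else 0 := by
    simp only [th, add_zero]
    exact hY
  obtain ⟨b, hb1, hbJ, hb⟩ := T0 (ν := fun x : ι → ℤ => ‖A (Lat.cast x)‖)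
    (D := {d | ∃ s, Y s ∧ ∃ s', Y s' ∧ d = s - s'}) (by simp)
    (fun x x' => by rw [cast_add, map_add]; exact norm_add_le _ _)
    (fun x => by rw [cast_neg, map_neg, norm_neg])
    (by rintro d ⟨s, hs, s', hs', rfl⟩; exact ⟨s', hs', s, hs, by abel⟩)
    (J := J) (u := K⁻¹ ^ 5) (pow_pos hε0 5).le fun T hT hc =>
      overlap_dense A hA Y hY' hr2 hJ3 T (fun x hx => (hT x hx).trans hr1) hc
  obtain ⟨E, hE1, hE2⟩ := abs_lin A hA ha hν Θ Ω (b • φ) (pow_pos hε0 6) a1 a2 a3 (c1.trans hQ)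
    hd hND fun g hg => by
      obtain ⟨e, h1, h2⟩ := lift_sumOf ha hν Θ Ω φ g₀ Y hK0.le hYe _ _ (hb g hg)
      refine ⟨e, h1.trans ?_, by rw [map_nsmul] at h2; exact h2⟩
      push_cast
      exact c2
  refine ⟨b, hb1, le_trans (by exact_mod_cast hbJ) c3, E, fun v => (hE1 v).trans ?_,
    fun p => hE2 p⟩
  refine mul_le_mul_of_nonneg_right ?_ (norm_nonneg _)
  rw [inv_pow, div_inv_eq_mul]
  exact c4

end Crest.Agent.T49.Tw
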