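import Crest.Agent.T49.TwAsmA_2

/-!
# Row 49 (helper2): tower calculus, assembly: `MassStmt` and `DAPStmt` from the leaves
-/

set_option autoImplicit false

open MvPolynomial

namespace Crest.Agent.T49.Tw

namespace Asm

open Cell

/-- `MassStmt` at level `l` with exponent `D` -/
def Mass (l D : ℕ) : Prop := ∀ (ι : Type) [Fintype ι] (T : Cell ι) (τ : ℕ → ℝ),
  (∀ c, T.lev c ≤ l) → Real.log (Fintype.card ι + 2) + 2 ≤ τ (l + 1) → T.Reg D l τ →
  |T.M / T.mu - 1| ≤ Real.exp (-τ (l + 1))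

/-- `DAPStmt` at level `l`, degree `d + 1`, with exponent `D` -/
def Dap (l d D : ℕ) : Prop := ∀ (ι : Type) [Fintype ι] (T : Cell ι) (τ : ℕ → ℝ)
  (F : Pl ι) (y : ℝ), (∀ c, T.lev c ≤ l) → DegLe T.lev F (d + 1) →
  Real.log (Fintype.card ι + 2) + 2 ≤ y → D * y ≤ τ (l + 1) → T.Reg D l τ →
  Real.exp (-y) * T.mu ≤ ‖T.S F‖ →
  ∃ (b : ℕ) (e : Pl ι), 1 ≤ b ∧ (b : ℝ) ≤ Real.exp (D * y) ∧
    IsWeightedHomogeneous T.lev e (d + 1) ∧ nrm e ≤ Real.exp (D * y) ∧
    IsInt (C (b : ℝ) * T.top (d + 1) F - T.TTh e)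

theorem log_card_nonneg (n : ℕ) : 0 ≤ Real.log ((n : ℝ) + 2) :=
  Real.log_nonneg (by linarith [Nat.cast_nonneg (α := ℝ) n])

theorem log_card_le {n n' : ℕ} {x : ℝ} (hx : 0 ≤ x) (h : (n' : ℝ) ≤ x * n) :
    Real.log ((n' : ℝ) + 2) ≤ x + Real.log ((n : ℝ) + 2) := by
  have hn : (0 : ℝ) ≤ n := Nat.cast_nonneg n
  have hn' : (0 : ℝ) ≤ n' := Nat.cast_nonneg n'
  rw [Real.log_le_iff_le_exp (by linarith), Real.exp_add, Real.exp_log (by linarith)]
  have h1 := Real.add_one_le_exp x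
  nlinarith [mul_le_mul_of_nonneg_right h1 (show (0 : ℝ) ≤ n + 2 by linarith)]

theorem log_card_mono {n n' : ℕ} (h : (n' : ℝ) ≤ n) :
    Real.log ((n' : ℝ) + 2) ≤ Real.log ((n : ℝ) + 2) :=
  Real.log_le_log (by linarith [Nat.cast_nonneg (α := ℝ) n']) (by linarith)

/-- all cells derived from a regular cell have the ideal mass -/
theorem allDer_of_mass {l DM D : ℕ} (hM : Mass l DM) (hD : 2 * DM + 2 ≤ D) {ι : Type} [Fintype ι]
    {T : Cell ι} {τ : ℕ → ℝ} (hl : ∀ c, T.lev c ≤ l) (h : T.Reg D l τ) {x q : ℝ}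
    (hq : x + Real.log (Fintype.card ι + 2) + 2 ≤ q) (hx : q + 2 * x ≤ τ (l + 1)) :
    T.AllDer x (Real.exp (-q)) := by
  intro ι' _ T' hd
  have hx0 := der_pos hd
  have h0 := log_card_nonneg (Fintype.card ι)
  have h1 := hM ι' T' _ (fun c => by obtain ⟨c', hc⟩ := hd.1 c; exact hc ▸ hl c')
    (by simp only [if_neg (Nat.not_succ_le_self l)]; linarith [log_card_le hx0.le hd.2.1])
    (der_reg h hd hD (by linarith) hx)
  simpa only [if_neg (Nat.not_succ_le_self l)] using h1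

theorem mass_zero : Mass 0 0 := by
  intro ι _ T τ hl _ _
  have : IsEmpty ι := ⟨fun c => absurd (hl c) (by have := T.lev_pos c; omega)⟩
  have h1 : T.M = 1 := by simp [Tri.M, Tri.wgt]
  have h2 : T.mu = 1 := by simp [Tri.mu]
  rw [h1, h2]
  simpa using (Real.exp_pos _).le

theorem dap_of_mass (hC : ChainStmt) (hCe : CertStmt) (hD : DAStmt) {l DM : ℕ} (hM : Mass l DM)
    (d : ℕ) : ∃ D, Dap l d D := by
  obtain ⟨D1, h1⟩ := hC l d
  obtain ⟨D2, h2⟩ := hCe (d + 1)
  obtain ⟨D3, h3⟩ := hD d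
  -- `y2 = A y`, `y' = B y`, loss `x = E y`
  obtain ⟨A, hA⟩ : ∃ A : ℕ, A = 2 * D1 + 2 := ⟨_, rfl⟩
  obtain ⟨B, hB⟩ : ∃ B : ℕ, B = (D3 + 1) * A := ⟨_, rfl⟩
  obtain ⟨E, hE⟩ : ∃ E : ℕ, E = (D1 + 1) * (D2 * B) + D1 := ⟨_, rfl⟩
  refine ⟨2 * DM + 2 + 3 * E + 1 + B + (d + 1).factorial + D1, ?_⟩
  intro ι _ T τ F y hl hF hy hτ hR hS
  have hL := log_card_nonneg (Fintype.card ι)
  have hy2 : 2 ≤ y := by linarith
  have hy0 : 0 ≤ y := by linarith
  have cD1 : (0 : ℝ) ≤ D1 := Nat.cast_nonneg _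
  have cD2 : (0 : ℝ) ≤ D2 := Nat.cast_nonneg _
  have cD3 : (0 : ℝ) ≤ D3 := Nat.cast_nonneg _
  have cB : (0 : ℝ) ≤ B := Nat.cast_nonneg _
  have cE : (0 : ℝ) ≤ E := Nat.cast_nonneg _
  have cM : (0 : ℝ) ≤ DM := Nat.cast_nonneg _
  have cf : (0 : ℝ) ≤ (d + 1).factorial := Nat.cast_nonneg _
  have hA' : (A : ℝ) = 2 * D1 + 2 := by rw [hA]; push_cast; ring
  have hB' : (B : ℝ) = (D3 + 1) * A := by rw [hB]; push_cast; ring
  have hE' : (E : ℝ) = (D1 + 1) * (D2 * B) + D1 := by rw [hE]; push_cast; ring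
  push_cast at hτ ⊢
  have p1 := mul_nonneg cD1 hy0
  have pB := mul_nonneg cB hy0
  have pE := mul_nonneg cE hy0
  have pM := mul_nonneg cM hy0
  have pf := mul_nonneg cf hy0
  have p2 : 0 ≤ D2 * (B * y) := mul_nonneg cD2 pB
  have p12 : 0 ≤ D1 * (D2 * (B * y)) := mul_nonneg cD1 p2
  have q1 : (D1 : ℝ) ≤ D1 * y := le_mul_of_one_le_right cD1 (by linarith)
  have hEy : E * y = D1 * (D2 * (B * y)) + D2 * (B * y) + D1 * y := by rw [hE']; ring
  have hAy : A * y = 2 * (D1 * y) + 2 * y := by rw [hA']; ring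
  have hBy : B * y = D3 * (A * y) + A * y := by rw [hB']; ring
  have p3 : 0 ≤ D3 * (A * y) := mul_nonneg cD3 (by linarith)
  have hAll : T.AllDer (E * y) (Real.exp (-(E * y + y))) :=
    allDer_of_mass hM (by omega) hl hR (by linarith) (by linarith)
  obtain ⟨κ, _, P, hP, G, hG, hder, hb, hback⟩ := h1 ι T F hl hF
  have hb1 := hb y hy2 (allDer_mono hAll (by linarith) (Real.exp_le_exp.2 (by linarith))) hS
  obtain ⟨hgood, hsb⟩ := h2 κ P hP (B * y) (by linarith)
    (allDer_mono (allDer_der hAll hder (y := D2 * (B * y)) (by linarith) (by linarith)) le_rfl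
      (Real.exp_le_exp.2 (by linarith)))
  have hmu := mu_pos P.toTri
  have hsb1 : Real.exp (-(A * y)) ≤ ‖sb (d + 1) P G‖ := by
    have e1 : Real.exp (-(D1 * y)) ≤ ‖P.S G / P.mu‖ := by
      rw [norm_div, Complex.norm_real, Real.norm_of_nonneg hmu.le, le_div_iff₀ hmu]
      exact hb1
    have e2 := hsb G hG
    have e3 : ‖P.S G / P.mu‖ ≤ ‖P.S G / P.mu - sb (d + 1) P G‖ + ‖sb (d + 1) P G‖ := by
      simpa using norm_add_le (P.S G / P.mu - sb (d + 1) P G) (sb (d + 1) P G)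
    have e4 : Real.exp (-(B * y)) ≤ Real.exp (-(A * y)) := Real.exp_le_exp.2 (by linarith)
    have e5 : Real.exp (-(A * y)) * 2 ≤ Real.exp (-(D1 * y)) := by
      calc _ ≤ Real.exp (-(A * y)) * Real.exp 1 := by
            gcongr; linarith [Real.add_one_le_exp 1]
        _ = Real.exp (-(A * y) + 1) := (Real.exp_add _ _).symm
        _ ≤ _ := Real.exp_le_exp.2 (by linarith)
    linarith
  have hclean : P.Clean := fun c => mem_supported_iff.2 fun _ _ c' _ => hP c'
  obtain ⟨b, hb1', hb2, hshort⟩ := h3 κ P G (A * y) _ _ hclean hG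
    (by linarith [log_card_le cD1 hder.2.1]) (Real.exp_pos _)
    (Real.exp_le_exp.2 (by linarith)) (Real.exp_le_exp.2 (by linarith)) hgood hsb1
  obtain ⟨e, he1, he2, he3⟩ := hback b _ hshort
  refine ⟨b * (d + 1).factorial, e, Nat.mul_pos hb1' (Nat.factorial_pos _), ?_, he1, ?_, he3⟩
  · push_cast
    calc (b : ℝ) * (d + 1).factorial ≤ Real.exp (D3 * (A * y)) * Real.exp ((d + 1).factorial) := by
          gcongr; linarith [Real.add_one_le_exp ((d + 1).factorial : ℝ)]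
      _ = Real.exp (D3 * (A * y) + (d + 1).factorial) := (Real.exp_add _ _).symm
      _ ≤ _ := Real.exp_le_exp.2 (by
          have : ((d + 1).factorial : ℝ) ≤ (d + 1).factorial * y :=
            le_mul_of_one_le_right cf (by linarith)
          linarith)
  · refine he2.trans ?_
    rw [← Real.exp_add]
    exact Real.exp_le_exp.2 (by linarith)

theorem mass_succ (hT : TopStmt) {l DM DP : ℕ} (hM : Mass l DM) (hP : Dap l l DP) :
    Mass (l + 1) (DM + DP + 3) := by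
  intro ι _ T τ hl hq hR
  have hL := log_card_nonneg (Fintype.card ι)
  have hL' := log_card_mono (low_card T l)
  set q := τ (l + 1 + 1) with hqdef
  have hk := one_le_kap T (l + 1)
  obtain ⟨hch, hreg⟩ := hR (l + 1) (by omega) le_rfl
  rw [← hqdef] at hch hreg
  set k := T.kap (l + 1) with hkdef
  have cP : (0 : ℝ) ≤ DP := Nat.cast_nonneg _
  have hτ : (DP + 1) * (q + k + 2) ≤ τ (l + 1) := by
    refine le_trans ?_ hch
    have h1 : (DP : ℝ) + 1 ≤ (q + k) ^ DP := by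
      have h2 : (DP : ℝ) + 1 ≤ 2 ^ DP := by exact_mod_cast Nat.lt_two_pow_self (n := DP)
      exact h2.trans (pow_le_pow_left₀ (by norm_num) (by linarith) _)
    calc (DP + 1) * (q + k + 2) ≤ (q + k) ^ DP * (q + k) ^ 2 :=
          mul_le_mul h1 (by nlinarith) (by linarith) (pow_nonneg (by linarith) _)
      _ = (q + k) ^ (DP + 2) := (pow_add _ _ _).symm
      _ ≤ _ := pow_le_pow_right₀ (by linarith) (by omega)
  have hτ1 : DP * (q + k + 2) ≤ τ (l + 1) := by linarith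
  have hτ2 : q + k + 2 ≤ τ (l + 1) := by
    linarith [mul_nonneg cP (show 0 ≤ q + k + 2 by linarith)]
  have hlow := low_reg (reg_pred hR)
  have hm := hM _ (T.low l) τ (fun c => c.2) (by linarith)
    (reg_mono hlow (by omega) (by omega) (by linarith))
  have htop := hT ι T l (q + 2) (Real.exp (-(q + k + 2))) hl (by linarith) (Real.exp_pos _).le
    fun ξ hξ hξ0 hξ1 => by
      by_contra hbig
      push Not at hbig
      have hdeg : DegLe T.lev (∑ c, C (ξ c) * T.th c) (l + 1) :=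
        degLe_sum _ fun c _ => degLe_C_mul _ fun m hm => (degLe_th T c m hm).trans (hl c)
      obtain ⟨b, e, hb1, hb2, he1, he2, he3⟩ := hP _ (T.low l) τ _ (q + k + 2) (fun c => c.2)
        (degLe_dn _ hdeg) (by linarith) hτ1
        (reg_mono hlow (by omega) (by omega) (by linarith)) hbig.le
      refine hξ0 (hreg ξ b (-rename Subtype.val e) hξ (hξ1.trans ?_) hb1
        (hb2.trans (Real.exp_le_exp.2 hτ1)) ?_ (neg_mem ?_) ?_ (lift_rel hl hξ b he3))
      · refine mul_le_mul_of_nonneg_right ?_ (by linarith)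
        have h1 := Real.quadratic_le_exp_of_nonneg (show 0 ≤ q by linarith)
        nlinarith
      · exact (weightedHomogeneousSubmodule ℝ T.lev (l + 1)).neg_mem (hom_rename _ _ he1)
      · exact rename_mem_supported Subtype.val (s := Set.univ)
          (by exact fun c _ => Nat.lt_succ_of_le (n := T.lev c.1) c.2) (by rw [supported_univ]; trivial)
      · rw [nrm_neg, nrm_rename Subtype.val_injective]
        exact he2.trans (Real.exp_le_exp.2 hτ1)
  rw [← hkdef, ← Real.exp_add, show -(q + k + 2) + k = -(q + 2) by ring] at htop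
  have e1 : Real.exp (-τ (l + 1)) ≤ Real.exp (-(q + 2)) := Real.exp_le_exp.2 (by linarith)
  have e2 : Real.exp (-(q + 2)) ≤ 1 := Real.exp_le_one_iff.2 (by linarith)
  have e3 : Real.exp (-(q + 2)) * 4 ≤ Real.exp (-q) := by
    calc _ ≤ Real.exp (-(q + 2)) * Real.exp 2 := by
          gcongr; linarith [Real.quadratic_le_exp_of_nonneg (show (0 : ℝ) ≤ 2 by norm_num)]
      _ = _ := by rw [← Real.exp_add]; congr 1; ring
  have e4 := Real.exp_pos (-(q + 2))
  have e5 : (T.low l).M / (T.low l).mu ≤ 2 := by linarith [(abs_le.1 hm).2]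
  have e6 := mul_le_mul_of_nonneg_left e5 e4.le
  have e7 := abs_sub_le (T.M / T.mu) ((T.low l).M / (T.low l).mu) 1
  linarith

end Asm

/-- **assembly of the tower calculus** -/
theorem mass_dap (hT : TopStmt) (hC : ChainStmt) (hCe : CertStmt) (hD : DAStmt) :
    MassStmt ∧ DAPStmt := by
  have hM : ∀ l, ∃ D, Asm.Mass l D := by
    intro l
    induction l with
    | zero => exact ⟨0, Asm.mass_zero⟩
    | succ l ih =>
      obtain ⟨DM, hM⟩ := ih
      obtain ⟨DP, hP⟩ := Asm.dap_of_mass hC hCe hD hM l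
      exact ⟨_, Asm.mass_succ hT hM hP⟩
  exact ⟨hM, fun l d => (hM l).elim fun _ h => Asm.dap_of_mass hC hCe hD h d⟩

/-- all cells derived from a regular cell have the ideal mass -/
theorem allDer_of_massStmt (hM : MassStmt) (l : ℕ) : ∃ D : ℕ, ∀ (ι : Type) [Fintype ι]
    (T : Cell ι) (τ : ℕ → ℝ) (x q : ℝ), (∀ c, T.lev c ≤ l) → T.Reg D l τ →
    x + Real.log (Fintype.card ι + 2) + 2 ≤ q → q + 2 * x ≤ τ (l + 1) →
    T.AllDer x (Real.exp (-q)) := by
  obtain ⟨D, h⟩ := hM l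
  exact ⟨2 * D + 2, fun ι _ T τ x q hl hR hq hx => Asm.allDer_of_mass h le_rfl hl hR hq hx⟩

end Crest.Agent.T49.Tw

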