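import Crest.Agent.T49.TwCertC_66

/-!
# Row 49 (helper66): tower calculus, leaf CERT
-/

set_option autoImplicit false

open MvPolynomial

noncomputable section

namespace Crest.Agent.T49.Tw.Cert66

open ENNReal

variable {ι ι0 : Type} {n : ℕ}

/-! ### the singleton lattice -/

theorem lin_of_hom (T : MT ι (n + 1)) {f : Pl ι} {d : Fin (n + 1) → ℕ}
    (hd : ∑ i, d i ≤ 1) (hd0 : d ≠ 0) (hf : IsWeightedHomogeneous T.wt f d)
    (ha : f ∈ supported ℝ T.act) {m : ι →₀ ℕ} (hm : m ∈ f.support) :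
    ∃ c, T.wt c = d ∧ m = Finsupp.single c 1 := by
  classical
  have h1 : Finsupp.weight T.wt m = d := hf (mem_support_iff.1 hm)
  have h2 : ∀ c ∈ m.support, T.wt c ≠ 0 := mem_supported_iff.1 ha m hm
  have hpos : ∀ c, T.wt c ≠ 0 → 1 ≤ ∑ i, T.wt c i := fun c hc => by
    obtain ⟨i, hi⟩ := Function.ne_iff.1 hc
    exact le_trans (Nat.one_le_iff_ne_zero.2 hi)
      (Finset.single_le_sum (f := fun i => T.wt c i) (fun _ _ => Nat.zero_le _) (Finset.mem_univ i))
  obtain ⟨c, hc⟩ : m.support.Nonempty := by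
    rw [Finsupp.support_nonempty_iff]
    rintro rfl
    exact hd0 (by rw [← h1, map_zero])
  obtain ⟨m', rfl⟩ : ∃ m', m = Finsupp.single c 1 + m' :=
    ⟨m - Finsupp.single c 1, (add_tsub_cancel_of_le (Finsupp.single_le_iff.2
      (Nat.one_le_iff_ne_zero.2 (Finsupp.mem_support_iff.1 hc)))).symm⟩
  have h3 : Finsupp.weight T.wt (Finsupp.single c 1) = T.wt c := by simp [Finsupp.weight_apply]
  rw [map_add, h3] at h1
  have h4 : m' = 0 := by
    by_contra hne
    obtain ⟨c', hc'⟩ := Finsupp.support_nonempty_iff.2 hne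
    have h5 : T.wt c' ≠ 0 := h2 c' (by
      rw [Finsupp.mem_support_iff] at hc' ⊢
      rw [Finsupp.add_apply]
      omega)
    have h6 : ∑ i, T.wt c' i ≤ ∑ i, Finsupp.weight T.wt m' i := by
      refine Finset.sum_le_sum fun i _ => ?_
      refine (weight_pos_le (fun c => T.wt c i) m' hc').trans (le_of_eq ?_)
      simp [Finsupp.weight_apply, Finsupp.sum]
    have h7 := hpos c (h2 c hc)
    have h8 := hpos c' h5
    rw [← h1] at hd
    simp only [Pi.add_apply, Finset.sum_add_distrib] at hd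
    omega
  subst h4
  exact ⟨c, by simpa using h1, by simp⟩

theorem ev_lin [Fintype ι] (T : MT ι (n + 1)) (hT : T.Clean) (c : T.C0) (p : T.C0 → ℤ) :
    ev (T.ext0 p) (T.B c.1) = ∑ c' : T.C0, coeff (Finsupp.single c'.1 1) (T.B c.1) * p c' := by
  classical
  have hd : ∑ i, T.wt c.1 i ≤ 1 := by
    rw [Fin.sum_univ_succ, Finset.sum_eq_zero (f := fun i : Fin n => T.wt c.1 i.succ)
      fun i _ => congrFun c.2.2 i, add_zero]
    exact T.wt_le _ _
  have hd0 : T.wt c.1 ≠ 0 := fun h => c.2.1 (congrFun h 0)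
  have h1 : T.B c.1 = ∑ c' : T.C0, C (coeff (Finsupp.single c'.1 1) (T.B c.1)) * X c'.1 := by
    ext m
    simp only [coeff_sum, coeff_C_mul, coeff_X]
    by_cases hm : ∃ c' : T.C0, m = Finsupp.single c'.1 1
    · obtain ⟨c', rfl⟩ := hm
      rw [Finset.sum_eq_single c']
      · simp
      · intro b _ hb
        rw [if_neg fun h => hb (Subtype.ext (Finsupp.single_left_injective one_ne_zero h)), mul_zero]
      · simp
    · rw [Finset.sum_eq_zero fun b _ => by rw [if_neg fun h => hm ⟨b, h.symm⟩, mul_zero]]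
      by_contra h
      obtain ⟨c', h1, h2⟩ := lin_of_hom T hd hd0 (T.hom c.1) (hT c.1) (mem_support_iff.2 h)
      exact hm ⟨⟨c', by rw [h1]; exact c.2⟩, h2⟩
  conv_lhs => rw [h1]
  unfold ev
  rw [map_sum]
  refine Finset.sum_congr rfl fun c' _ => ?_
  rw [map_mul, eval_C, eval_X, MT.ext0, dif_pos c'.2]

theorem latFact : LatFact := by
  classical
  intro ι _ n T s hT hs
  let L : Matrix T.C0 T.C0 ℝ := fun c c' =>
    s⁻¹ * ((if c' = c then T.a c.1 else 0) + coeff (Finsupp.single c'.1 1) (T.B c.1))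
  have hz : ∀ c c' : T.C0, ¬ T.rk c'.1 < T.rk c.1 →
      coeff (Finsupp.single c'.1 1) (T.B c.1) = 0 := fun c c' h => by
    by_contra h1
    exact h (mem_supported_iff.1 (T.B_mem c.1) _ (mem_support_iff.2 h1) c'.1 (by simp))
  have hL : IsTri (fun c : T.C0 => T.rk c.1) (fun c => s⁻¹ * T.a c.1) L :=
    ⟨fun c => mul_ne_zero (inv_ne_zero hs.ne') (T.a_ne _),
      fun c => by simp only [L, if_true, hz c c (lt_irrefl _), add_zero],
      fun c c' h1 h2 => by simp only [L, if_neg h1, hz c c' h2, add_zero, mul_zero]⟩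
  have h1 : T.gam s = fun p => Gau.rho (tlin L (Lat.cast p) + 0) := by
    funext p
    rw [add_zero, rho_eq_exp_sum, MT.gam]
    congr 2
    refine Finset.sum_congr rfl fun c _ => ?_
    rw [tlin_apply, ev_th, ev_lin T hT, MT.ext0, dif_pos c.2]
    simp only [L, mul_assoc, ← Finset.mul_sum, add_mul, Finset.sum_add_distrib, ite_mul, zero_mul,
      Finset.sum_ite_eq', Finset.mem_univ, if_true, div_eq_inv_mul]
    rfl
  refine ⟨h1 ▸ Gau.summable_rho hL.inj 0, ?_⟩
  have h2 := Gau.kap_le_th hL.inj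
  rw [hL.kap] at h2
  rw [MT.rho0, h1]
  refine le_trans (le_of_eq ?_) h2
  refine Finset.prod_congr rfl fun c _ => ?_
  rw [abs_mul, mul_inv, abs_inv, inv_inv, abs_of_pos hs]

/-! ### the masses -/

theorem EE_unfold [Fintype ι] (T : MT ι (n + 1)) {k : ℕ} {s : Fin k → ℝ} (hs : ∀ i, 0 < s i)
    (lam : ℝ) : ∑' x, ENNReal.ofReal (wp T x) *
      EE (T.spec (xt T x)) s (fun p => AA lam n ((T.spec (xt T x)).step s p)) =
    ∑' x, ENNReal.ofReal (wp (T.unfold s) x) *
      AA lam n ((T.unfold s).spec (xt (T.unfold s) x)) := by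
  refine Eq.trans (tsum_congr fun x => ?_)
    (tsum_unfold T hs fun z => AA lam n ((T.unfold s).spec z)).symm
  exact congrArg _ (tsum_congr fun p => congrArg _ (congrArg (AA lam n) (step_spec T s _ p)))

theorem tsum_wgt [Fintype ι] (T : Tri ι) :
    ∑' z, ENNReal.ofReal (T.wgt z / T.mu) = ENNReal.ofReal (T.M / T.mu) := by
  rw [← ENNReal.ofReal_tsum_of_nonneg (fun z => div_nonneg (T.wgt_nonneg z) T.mu_pos.le)
    (T.summable_wgt.div_const _), tsum_div_const]
  rfl

theorem AA_le [Fintype ι0] {T0 : Cell ι0} {l : ℕ} (hl : ∀ c, T0.lev c ≤ l) {y D ε : ℝ}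
    (hy : 2 ≤ y) (hA : T0.AllDer (D * y) ε) {N : ℕ} (h1 : 5 ^ N * (N + 1) ≤ D)
    (h2 : N * (l + 1) ≤ D) (n : ℕ) : ∀ {ι : Type} [Fintype ι] (T : MT ι n) (π : ι → ι0) (a : ℕ),
    a + n = N → Ov T0 l y a T π →
    ∑' x, ENNReal.ofReal (wp T x) * AA (Real.exp (-y)) n (T.spec (xt T x)) ≤
      4 ^ n * ENNReal.ofReal (1 + ε) := by
  induction n with
  | zero =>
    intro ι _ T π a ha h
    obtain rfl : a = N := ha
    have h3 := hA _ _ (h.der hy h1 h2)
    refine (tsum_zero T fun _ => 1).trans_le ?_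
    simp only [mul_one, pow_zero, one_mul]
    rw [tsum_wgt]
    refine ENNReal.ofReal_le_ofReal ?_
    have : T.M / T.mu - 1 ≤ ε := (abs_le.1 h3).2
    linarith
  | succ n ih =>
    intro ι _ T π a ha h
    have key : ∀ {k : ℕ} (s : Fin k → ℝ), k ≤ 5 → (∀ i, 0 < s i) → (∀ i, (s i)⁻¹ ≤ Real.exp y) →
        ∑' x, ENNReal.ofReal (wp T x) * EE (T.spec (xt T x)) s
          (fun p => AA (Real.exp (-y)) n ((T.spec (xt T x)).step s p)) ≤
        4 ^ n * ENNReal.ofReal (1 + ε) := fun s hk hs hsK =>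
      (EE_unfold T hs _).trans_le
        (ih _ _ (a + 1) (by omega) (h.unfold hl (by linarith) hk hs hsK))
    have e1 : (1 : ℝ) ≤ Real.exp y := Real.one_le_exp (by linarith)
    have g1 := key (Fin.elim0 : Fin 0 → ℝ) (by norm_num) (fun i => i.elim0) fun i => i.elim0
    have g2 := key (fun _ : Fin 1 => 1) (by norm_num) (fun _ => one_pos) fun _ => by simpa using e1
    have g3 := key (fun _ : Fin 1 => Real.exp (-y)) (by norm_num) (fun _ => Real.exp_pos _)
      fun _ => by rw [Real.exp_neg, inv_inv]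
    have g4 := key (sc5 (Real.exp (-y))) le_rfl (sc5_pos _) fun _ => by
      rw [sc5, inv_inv]
      have := Real.add_one_le_exp y
      exact (Real.sqrt_le_iff.2 ⟨by norm_num, by norm_num⟩ : √2 ≤ 2).trans (by linarith)
    simp only [AA, mul_add, ENNReal.tsum_add]
    refine (add_le_add (add_le_add (add_le_add g1 g2) g3) g4).trans (le_of_eq ?_)
    ring

/-! ### the sequential bias -/

theorem norm_sb_le (n : ℕ) : ∀ {ι : Type} [Fintype ι] (T : MT ι n) (F : Pl ι), T.Clean →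
    ‖sb n T F‖ ≤ 1 := by
  induction n with
  | zero => intro ι _ T F _; exact (norm_ee' _).le
  | succ n ih =>
    intro ι _ T F hT
    obtain ⟨h1, h2⟩ := latFact ι n T 1 hT one_pos
    have h3 : 0 < T.rho0 1 := (mu0_pos T one_pos).trans_le h2
    rw [sb, norm_div, Complex.norm_real, Real.norm_of_nonneg h3.le, div_le_one h3]
    refine tsum_of_norm_bounded h1.hasSum fun p => ?_
    rw [norm_mul, Complex.norm_real, Real.norm_of_nonneg (gam_pos T _ _).le]
    exact mul_le_of_le_one_right (gam_pos T _ _).le (ih _ _ (step_clean T _ _))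

/-- the test function -/
def gw (ω v : ℂ) : ℝ := 1 - (ω * v).re

theorem gw_nonneg {ω v : ℂ} (hω : ‖ω‖ ≤ 1) (hv : ‖v‖ ≤ 1) : 0 ≤ gw ω v := by
  have h1 := Complex.re_le_norm (ω * v)
  rw [norm_mul] at h1
  have := mul_le_one₀ hω (norm_nonneg _) hv
  unfold gw
  linarith

theorem hasSum_gw {α : Type} {w : α → ℝ} (hw : Summable w) (h0 : ∀ a, 0 ≤ w a) {f : α → ℂ}
    (hf : ∀ a, ‖f a‖ ≤ 1) (ω : ℂ) (r : ℝ) :
    HasSum (fun a => w a / r * gw ω (f a))
      ((∑' a, w a) / r - (ω * ((∑' a, (w a : ℂ) * f a) / r)).re) := by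
  have h1 : Summable fun a => (w a : ℂ) * f a := by
    refine Summable.of_norm_bounded hw fun a => ?_
    rw [norm_mul, Complex.norm_real, Real.norm_of_nonneg (h0 a)]
    exact mul_le_of_le_one_right (h0 a) (hf a)
  have h2 := Complex.hasSum_re ((h1.hasSum.div_const (r : ℂ)).mul_left ω)
  have h3 : (fun a => w a / r * gw ω (f a)) =
      fun a => w a / r - (ω * ((w a : ℂ) * f a / r)).re := funext fun a => by
    rw [gw, mul_sub, mul_one, show ω * ((w a : ℂ) * f a / r) = ((w a / r : ℝ) : ℂ) * (ω * f a) by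
      push_cast; ring, Complex.re_ofReal_mul]
  rw [h3]
  exact (hw.hasSum.div_const r).sub h2

theorem gw_sb_le [Fintype ι] (T : MT ι (n + 1)) (hT : T.Clean) (F : Pl ι) {ω : ℂ} (hω : ‖ω‖ ≤ 1) :
    ENNReal.ofReal (gw ω (sb (n + 1) T F)) ≤ EE T (fun _ : Fin 1 => 1) fun p =>
      ENNReal.ofReal (gw ω (sb n (T.step (fun _ => 1) p) (T.res (fun _ => 1) p 0 F))) := by
  obtain ⟨h1, h2⟩ := latFact ι n T 1 hT one_pos
  have h3 : 0 < T.rho0 1 := (mu0_pos T one_pos).trans_le h2
  have hf : ∀ p : T.C0 → ℤ, ‖sb n (T.step (fun _ : Fin 1 => 1) fun _ => p)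
      (T.res (fun _ : Fin 1 => 1) (fun _ => p) 0 F)‖ ≤ 1 :=
    fun p => norm_sb_le n _ _ (step_clean T _ _)
  have h4 := hasSum_gw h1 (fun p => (gam_pos T _ _).le) hf ω (T.rho0 1)
  rw [show (∑' p, T.gam 1 p) / T.rho0 1 = 1 from div_self h3.ne'] at h4
  change HasSum _ (gw ω (sb (n + 1) T F)) at h4
  rw [← h4.tsum_eq, ENNReal.ofReal_tsum_of_nonneg
    (fun p => mul_nonneg (div_pos (gam_pos T _ _) h3).le (gw_nonneg hω (hf p))) h4.summable, EE,
    ← (Equiv.funUnique (Fin 1) (T.C0 → ℤ)).symm.tsum_eq]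
  refine ENNReal.tsum_le_tsum fun p => ?_
  rw [ENNReal.ofReal_mul (div_pos (gam_pos T _ _) h3).le]
  refine mul_le_mul' (ENNReal.ofReal_le_ofReal ?_) le_rfl
  rw [ws, Fin.prod_univ_one]
  exact div_le_div_of_nonneg_left (gam_pos T _ _).le (mu0_pos T one_pos) h2

/-- one copy of slot `0`: the same coordinates -/
def e1 (T : MT ι (n + 1)) : ι ≃ T.UT 1 where
  toFun := T.cp 0
  invFun := T.pr 1
  left_inv := T.pr_cp 0
  right_inv := by
    rintro (c | ⟨c, i⟩)
    · exact cp_pos T 0 c.2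
    · rw [Subsingleton.elim i 0]
      exact cp_neg T 0 c.2

theorem fc_one (T : MT ι (n + 1)) (c : T.UT 1) : fc T (fun _ => 1) c = 1 := by
  rcases c with c | c
  · rfl
  · change (if _ then _ else _) = _
    simp

theorem e1_th (T : MT ι (n + 1)) (c : ι) :
    (T.unfold fun _ : Fin 1 => 1).th (e1 T c) = rename (e1 T) (T.th c) := by
  change (T.unfold fun _ : Fin 1 => 1).th (T.cp 0 c) = rename (T.cp 0) (T.th c)
  by_cases h : T.wt c 0 = 0
  · rw [cp_pos T 0 h, unfold_th_inl]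
    exact base_eq_rename T 0 (mem_supp0 T (th_hom T.toTri (T.hom c)) h)
  · rw [cp_neg T 0 h, unfold_th_inr, fc_one, C_1, one_mul]

theorem sb_le {ω : ℂ} (hω : ‖ω‖ ≤ 1) (n : ℕ) : ∀ {ι : Type} [Fintype ι] (T : MT ι n) (F : Pl ι),
    ∑' x, ENNReal.ofReal (wp T x) *
      ENNReal.ofReal (gw ω (sb n (T.spec (xt T x)) (T.sub (xt T x) F))) ≤
    ∑' z, ENNReal.ofReal (T.wgt z / T.mu) * ENNReal.ofReal (gw ω (ee (ev z F))) := by
  induction n with
  | zero =>
    intro ι _ T F
    refine le_of_eq ((tsum_zero T fun z => ENNReal.ofReal (gw ω (ee (ev 0 (T.sub z F))))).trans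
      (tsum_congr fun z => ?_))
    rw [MT.sub, ev_bind_of (y := z) fun c => by
      rw [if_pos (Subsingleton.elim _ _)]; exact eval_C _]
  | succ n ih =>
    intro ι _ T F
    have h1 := tsum_unfold T (s := fun _ : Fin 1 => 1) (fun _ => one_pos) fun z =>
      ENNReal.ofReal (gw ω (sb n ((T.unfold fun _ : Fin 1 => 1).spec z)
        ((T.unfold fun _ : Fin 1 => 1).sub z (rename (T.cp 0) F))))
    refine le_trans (ENNReal.tsum_le_tsum fun x => mul_le_mul' le_rfl ?_)
      (h1.symm.trans_le ((ih _ _).trans_eq ?_))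
    · refine (gw_sb_le _ (spec_clean T _) _ hω).trans_eq (tsum_congr fun p => congrArg _ ?_)
      exact congrArg (fun v => ENNReal.ofReal (gw ω v))
        (congrArg₂ (sb n) (step_spec T _ _ p) (res_spec T _ _ p 0 F))
    · rw [← (Equiv.arrowCongr (e1 T).symm (Equiv.refl ℤ)).tsum_eq]
      refine tsum_congr fun z => ?_
      rw [T.toTri.wgt_eq_of_th _ (e1 T) (e1_th T), T.toTri.mu_eq_of_a _ (e1 T) fun c => by
        rw [unfold_a, fc_one, one_mul]; exact congrArg _ (T.pr_cp 0 c), ev_rename']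
      rfl

theorem norm_sub_sb_le [Fintype ι] (T : MT ι n) (h : ∀ c, T.wt c ≠ 0) (F : Pl ι) :
    ‖T.S F / T.mu - sb n T F‖ ≤ T.M / T.mu - 1 := by
  obtain ⟨ω, hω, h1⟩ := Complex.exists_norm_eq_mul_self (T.S F / T.mu - sb n T F)
  have h2 := sb_le hω.le n T F
  rw [tsum_act T h fun z => ENNReal.ofReal (gw ω (sb n (T.spec z) (T.sub z F))), spec_of_act T h,
    sub_of_act T h] at h2
  have h3 := hasSum_gw T.summable_wgt T.wgt_nonneg (f := fun z => ee (ev z F))
    (fun _ => (norm_ee' _).le) ω T.mu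
  have h4 : ∀ z, 0 ≤ T.wgt z / T.mu := fun z => div_nonneg (T.wgt_nonneg z) T.mu_pos.le
  have h5 : ∀ z, 0 ≤ T.wgt z / T.mu * gw ω (ee (ev z F)) := fun z =>
    mul_nonneg (h4 z) (gw_nonneg hω.le (norm_ee' _).le)
  simp only [← ENNReal.ofReal_mul (h4 _)] at h2
  rw [← ENNReal.ofReal_tsum_of_nonneg h5 h3.summable,
    ENNReal.ofReal_le_ofReal_iff (tsum_nonneg h5), h3.tsum_eq] at h2
  have h6 := congrArg Complex.re h1
  rw [Complex.ofReal_re, mul_sub, Complex.sub_re] at h6
  change 1 - _ ≤ T.M / T.mu - (ω * (T.S F / T.mu)).re at h2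
  linarith

end Crest.Agent.T49.Tw.Cert66

namespace Crest.Agent.T49.Tw

open Cert66 in
theorem certStmt : CertStmt := by
  intro n
  refine ⟨5 ^ n * (n + 1) + n * (n + 1) + 2 * n + 1, fun ι _ T h y hy hA => ?_⟩
  set D : ℕ := 5 ^ n * (n + 1) + n * (n + 1) + 2 * n + 1 with hD
  have hD' : (D : ℝ) = 5 ^ n * (n + 1) + n * (n + 1) + 2 * n + 1 := by rw [hD]; push_cast; rfl
  have p1 : (0 : ℝ) ≤ 5 ^ n * (n + 1) := by positivity
  have p2 : (0 : ℝ) ≤ n * (n + 1) := by positivity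
  have p3 : (0 : ℝ) ≤ n := Nat.cast_nonneg n
  have hl : ∀ c, (T.cell h).lev c ≤ n := fun c => by
    have := Finset.sum_le_card_nsmul Finset.univ (fun i => T.wt c i) 1 fun i _ => T.wt_le c i
    simp only [Finset.card_univ, Fintype.card_fin, smul_eq_mul, mul_one] at this
    exact this
  have hhom : ∀ c, IsWeightedHomogeneous (T.cell h).lev (T.B c) ((T.cell h).lev c) := by
    intro c m hm
    have h1 : Finsupp.weight T.wt m = T.wt c := T.hom c hm
    change Finsupp.weight (fun c => ∑ i, T.wt c i) m = ∑ i, T.wt c i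
    rw [← h1]
    simp only [Finsupp.weight_apply, Finsupp.sum, Finset.sum_apply, Pi.smul_apply,
      Finset.smul_sum]
    exact Finset.sum_comm
  have hO : Ov (T.cell h) n y 0 T id :=
    ⟨hhom, fun f _ => by simp, fun c => by simp [MT.cell], fun j H Λ hR => by
      simp only [Nat.cast_zero, zero_mul, neg_zero, Real.exp_zero, mul_one]
      exact hR⟩
  have hT : T.Clean := fun c => by
    rw [show T.act = Set.univ from Set.eq_univ_of_forall h]
    simp
  refine ⟨good_of_AA latFact (Real.exp_pos _) (Real.exp_pos _)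
    (Real.exp_le_one_iff.2 (by linarith)) n T hT ?_, fun F _ => (norm_sub_sb_le T h F).trans ?_⟩
  · have h1 := AA_le hl hy hA (N := n) (by linarith) (by linarith) n T id 0 (zero_add n) hO
    rw [tsum_act T h fun z => AA (Real.exp (-y)) n (T.spec z), spec_of_act T h,
      ENNReal.ofReal_add zero_le_one (Real.exp_pos _).le, ENNReal.ofReal_one, mul_add,
      mul_one] at h1
    refine h1.trans (add_le_add le_rfl ?_)
    rw [show (4 : ENNReal) ^ n = ENNReal.ofReal (4 ^ n) by simp [ENNReal.ofReal_pow],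
      ← ENNReal.ofReal_mul (by positivity)]
    refine ENNReal.ofReal_le_ofReal ?_
    have h4 : (4 : ℝ) ≤ Real.exp y := by
      have := Real.add_one_le_exp (y / 2)
      rw [show y = y / 2 + y / 2 by ring, Real.exp_add]
      nlinarith
    refine (mul_le_mul_of_nonneg_right (pow_le_pow_left₀ (by norm_num) h4 n)
      (Real.exp_pos _).le).trans ?_
    rw [← Real.exp_nat_mul, ← Real.exp_nat_mul, ← Real.exp_add, Real.exp_le_exp]
    nlinarith
  · have h1 := hA _ _ (hO.der hy (D := D) (by rw [pow_zero, Nat.cast_zero]; linarith) (by simp))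
    refine (abs_le.1 h1).2.trans (Real.exp_le_exp.2 ?_)
    nlinarith

end Crest.Agent.T49.Tw
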