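import Crest.Agent.T49.TwDblDef_4

/-!
# Row 49: the analytic part of the doubling (helper80): `dblMuStmt`, `dblCSStmt`, `fibStmt`
-/

set_option autoImplicit false
set_option maxHeartbeats 400000

open MvPolynomial

namespace Crest.Agent.T49.Tw

namespace DblA

/-! ### abstract Cauchy-Schwarz lemmas -/

/-- weighted Cauchy-Schwarz for series -/
theorem cs_tsum {X : Type} {w g : X → ℝ} (hw : ∀ x, 0 ≤ w x) (h0 : Summable w)
    (h1 : Summable fun x => w x * g x) (h2 : Summable fun x => w x * g x ^ 2) :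
    (∑' x, w x * g x) ^ 2 ≤ (∑' x, w x) * ∑' x, w x * g x ^ 2 := by
  have key : ∀ t : ℝ, 0 ≤ (∑' x, w x) * (t * t) + (2 * ∑' x, w x * g x) * t +
      ∑' x, w x * g x ^ 2 := by
    intro t
    have e : (∑' x, w x) * (t * t) + (2 * ∑' x, w x * g x) * t + ∑' x, w x * g x ^ 2 =
        ∑' x, (w x * (t * t) + (2 * t) * (w x * g x) + w x * g x ^ 2) := by
      rw [((h0.mul_right _).add (h1.mul_left _)).tsum_add h2,
        (h0.mul_right _).tsum_add (h1.mul_left _), tsum_mul_right, tsum_mul_left]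
      ring
    rw [e]
    refine tsum_nonneg fun x => ?_
    have : w x * (t * t) + (2 * t) * (w x * g x) + w x * g x ^ 2 = w x * (t + g x) ^ 2 := by ring
    rw [this]
    exact mul_nonneg (hw x) (sq_nonneg _)
  have := discrim_le_zero key
  unfold discrim at this
  nlinarith

theorem summable_mul_bdd {X : Type} {w : X → ℝ} (hw : ∀ x, 0 ≤ w x) (h0 : Summable w)
    {φ : X → ℂ} (hφ : ∀ x, ‖φ x‖ ≤ 1) : Summable fun x => (w x : ℂ) * φ x := by
  refine Summable.of_norm_bounded h0 fun x => ?_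
  rw [norm_mul, Complex.norm_real, Real.norm_of_nonneg (hw x)]
  exact mul_le_of_le_one_right (hw x) (hφ x)

section abstract

variable {X U : Type} {w : X → ℝ} {v : X → U → ℝ}

theorem summable_fib (hw : ∀ x, 0 < w x) (h1 : Summable fun p : X × U => w p.1 * v p.1 p.2)
    (x : X) : Summable (v x) := by
  have := (h1.prod_factor x).mul_left (w x)⁻¹
  refine this.congr fun u => ?_
  simp only
  rw [← mul_assoc, inv_mul_cancel₀ (hw x).ne', one_mul]

/-- Fubini, one fibre variable -/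
theorem fub1 (hw : ∀ x, 0 < w x) (hv : ∀ x u, 0 ≤ v x u)
    (h1 : Summable fun p : X × U => w p.1 * v p.1 p.2) {φ : X → U → ℂ}
    (hφ : ∀ x u, ‖φ x u‖ ≤ 1) :
    (Summable fun x => (w x : ℂ) * ∑' u, (v x u : ℂ) * φ x u) ∧
    ∑' p : X × U, ((w p.1 * v p.1 p.2 : ℝ) : ℂ) * φ p.1 p.2 =
      ∑' x, (w x : ℂ) * ∑' u, (v x u : ℂ) * φ x u := by
  have hs : Summable fun p : X × U => ((w p.1 * v p.1 p.2 : ℝ) : ℂ) * φ p.1 p.2 :=
    summable_mul_bdd (w := fun p : X × U => w p.1 * v p.1 p.2)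
      (φ := fun p : X × U => φ p.1 p.2)
      (fun p => mul_nonneg (hw p.1).le (hv p.1 p.2)) h1 fun p => hφ p.1 p.2
  have e : ∀ x, ∑' u, ((w x * v x u : ℝ) : ℂ) * φ x u = (w x : ℂ) * ∑' u, (v x u : ℂ) * φ x u := by
    intro x
    rw [← tsum_mul_left]
    refine tsum_congr fun u => ?_
    push_cast
    ring
  refine ⟨hs.prod.congr fun x => e x, ?_⟩
  rw [hs.tsum_prod]
  exact tsum_congr fun x => e x

/-- Fubini, two fibre variables -/
theorem fub2 (hw : ∀ x, 0 < w x) (hv : ∀ x u, 0 ≤ v x u)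
    (h1 : Summable fun p : X × U => w p.1 * v p.1 p.2)
    (h2 : Summable fun p : X × U × U => w p.1 * v p.1 p.2.1 * v p.1 p.2.2) {φ : X → U → ℂ}
    (hφ : ∀ x u, ‖φ x u‖ ≤ 1) :
    (Summable fun x => w x * ‖∑' u, (v x u : ℂ) * φ x u‖ ^ 2) ∧
    ∑' p : X × U × U, ((w p.1 * v p.1 p.2.1 * v p.1 p.2.2 : ℝ) : ℂ) *
        (φ p.1 p.2.2 * (starRingEnd ℂ) (φ p.1 p.2.1)) =
      ((∑' x, w x * ‖∑' u, (v x u : ℂ) * φ x u‖ ^ 2 : ℝ) : ℂ) := by
  have hs : Summable fun p : X × U × U => ((w p.1 * v p.1 p.2.1 * v p.1 p.2.2 : ℝ) : ℂ) *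
      (φ p.1 p.2.2 * (starRingEnd ℂ) (φ p.1 p.2.1)) := by
    refine summable_mul_bdd (w := fun p : X × U × U => w p.1 * v p.1 p.2.1 * v p.1 p.2.2)
      (φ := fun p : X × U × U => φ p.1 p.2.2 * (starRingEnd ℂ) (φ p.1 p.2.1))
      (fun p => mul_nonneg (mul_nonneg (hw p.1).le (hv p.1 p.2.1)) (hv p.1 p.2.2)) h2 fun p => ?_
    rw [norm_mul, Complex.norm_conj]
    exact mul_le_one₀ (hφ _ _) (norm_nonneg _) (hφ _ _)
  have e : ∀ x, ∑' p : U × U, ((w x * v x p.1 * v x p.2 : ℝ) : ℂ) *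
      (φ x p.2 * (starRingEnd ℂ) (φ x p.1)) =
      ((w x * ‖∑' u, (v x u : ℂ) * φ x u‖ ^ 2 : ℝ) : ℂ) := by
    intro x
    have hx : Summable fun u => (v x u : ℂ) * φ x u :=
      summable_mul_bdd (hv x) (summable_fib hw h1 x) (hφ x)
    have hn : Summable fun u => ‖(v x u : ℂ) * φ x u‖ := hx.norm
    have hn' : Summable fun u => ‖(starRingEnd ℂ) ((v x u : ℂ) * φ x u)‖ := by
      simpa only [Complex.norm_conj] using hn
    have hm := tsum_mul_tsum_of_summable_norm hn' hn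
    rw [← Complex.conj_tsum, Complex.conj_mul'] at hm
    push_cast
    rw [hm, ← tsum_mul_left]
    refine tsum_congr fun p => ?_
    simp only [map_mul, Complex.conj_ofReal]
    ring
  have hs' : Summable fun x => ((w x * ‖∑' u, (v x u : ℂ) * φ x u‖ ^ 2 : ℝ) : ℂ) :=
    hs.prod.congr fun x => e x
  refine ⟨Complex.summable_ofReal.1 hs', ?_⟩
  rw [hs.tsum_prod, Complex.ofReal_tsum]
  exact tsum_congr fun x => e x

theorem summable_w_mul {g : X → ℝ} (hw : ∀ x, 0 ≤ w x) (h0 : Summable w)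
    (h2 : Summable fun x => w x * g x ^ 2) : Summable fun x => w x * |g x| := by
  refine Summable.of_nonneg_of_le (fun x => mul_nonneg (hw x) (abs_nonneg _)) (fun x => ?_)
    (h0.add h2)
  have : |g x| ≤ 1 + g x ^ 2 := by
    rw [← sq_abs]
    nlinarith [sq_nonneg (|g x| - 1), abs_nonneg (g x)]
  nlinarith [hw x]

theorem norm_tsum_sq_le {G : X → ℂ} (hw : ∀ x, 0 ≤ w x) (h0 : Summable w) {g : X → ℝ}
    (hG : ∀ x, ‖G x‖ ≤ w x * |g x|) (h2 : Summable fun x => w x * g x ^ 2) :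
    ‖∑' x, G x‖ ^ 2 ≤ (∑' x, w x) * ∑' x, w x * g x ^ 2 := by
  have h1 := summable_w_mul hw h0 h2
  have h3 : ‖∑' x, G x‖ ≤ ∑' x, w x * |g x| := tsum_of_norm_bounded h1.hasSum hG
  have h4 := cs_tsum hw h0 h1 (by simpa only [sq_abs] using h2)
  simp only [sq_abs] at h4
  exact (pow_le_pow_left₀ (norm_nonneg _) h3 2).trans h4

theorem abs_cs (hw : ∀ x, 0 < w x) (hv : ∀ x u, 0 ≤ v x u) (h0 : Summable w)
    (h1 : Summable fun p : X × U => w p.1 * v p.1 p.2)
    (h2 : Summable fun p : X × U × U => w p.1 * v p.1 p.2.1 * v p.1 p.2.2) {φ : X → U → ℂ}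
    (hφ : ∀ x u, ‖φ x u‖ ≤ 1) :
    ‖∑' p : X × U, ((w p.1 * v p.1 p.2 : ℝ) : ℂ) * φ p.1 p.2‖ ^ 2 ≤ (∑' x, w x) *
      ‖∑' p : X × U × U, ((w p.1 * v p.1 p.2.1 * v p.1 p.2.2 : ℝ) : ℂ) *
        (φ p.1 p.2.2 * (starRingEnd ℂ) (φ p.1 p.2.1))‖ := by
  obtain ⟨hs, e⟩ := fub2 hw hv h1 h2 hφ
  rw [(fub1 hw hv h1 hφ).2, e, Complex.norm_real, Real.norm_of_nonneg
    (tsum_nonneg fun x => mul_nonneg (hw x).le (sq_nonneg _))]
  refine norm_tsum_sq_le (fun x => (hw x).le) h0 (fun x => ?_) hs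
  rw [norm_mul, Complex.norm_real, Real.norm_of_nonneg (hw x).le, abs_norm]

theorem abs_fib (hw : ∀ x, 0 < w x) (hv : ∀ x u, 0 ≤ v x u) (h0 : Summable w)
    (h1 : Summable fun p : X × U => w p.1 * v p.1 p.2)
    (h2 : Summable fun p : X × U × U => w p.1 * v p.1 p.2.1 * v p.1 p.2.2) {f : X → ℂ}
    (hf : ∀ x, ‖f x‖ ≤ 1) {μ μ₁ μ₂ : ℝ} (hμ : 0 < μ) (hμ₁ : 0 < μ₁) (hμ₂ : μ₂ * μ₁ = μ ^ 2) :
    ‖(∑' p : X × U, ((w p.1 * v p.1 p.2 : ℝ) : ℂ) * f p.1) / μ -
        (∑' x, (w x : ℂ) * f x) / μ₁‖ ^ 2 ≤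
      (∑' x, w x) / μ₁ * ((∑' p : X × U × U, w p.1 * v p.1 p.2.1 * v p.1 p.2.2) / μ₂ -
        2 * ((∑' p : X × U, w p.1 * v p.1 p.2) / μ) + (∑' x, w x) / μ₁) := by
  set Z : X → ℝ := fun x => ∑' u, v x u with hZ
  have hZ0 : ∀ x, 0 ≤ Z x := fun x => tsum_nonneg (hv x)
  have hone : ∀ (x : X) (u : U), ‖(fun (_ : X) (_ : U) => (1 : ℂ)) x u‖ ≤ 1 := by simp
  have eZ : ∀ x, ∑' u, (v x u : ℂ) * 1 = (Z x : ℂ) := by
    intro x
    simp only [mul_one, hZ, Complex.ofReal_tsum]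
  obtain ⟨s1, e1⟩ := fub1 hw hv h1 hone
  obtain ⟨s2, e2⟩ := fub2 hw hv h1 h2 hone
  obtain ⟨s3, e3⟩ := fub1 hw hv h1 (φ := fun x _ => f x) fun x _ => hf x
  simp only [eZ, Complex.norm_real, Real.norm_eq_abs, sq_abs] at s1 e1 s2 e2
  have eZf : ∀ x, ∑' u, (v x u : ℂ) * f x = (Z x : ℂ) * f x := by
    intro x
    rw [tsum_mul_right, ← Complex.ofReal_tsum]
  simp only [eZf] at s3 e3
  have s1' : Summable fun x => w x * Z x := by
    refine Complex.summable_ofReal.1 (s1.congr fun x => ?_)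
    push_cast
    rfl
  have e1' : ∑' p : X × U, w p.1 * v p.1 p.2 = ∑' x, w x * Z x := by
    refine Complex.ofReal_injective ?_
    rw [Complex.ofReal_tsum, Complex.ofReal_tsum]
    simp only [mul_one] at e1
    rw [e1]
    refine tsum_congr fun x => ?_
    push_cast
    rfl
  have e2' : ∑' p : X × U × U, w p.1 * v p.1 p.2.1 * v p.1 p.2.2 = ∑' x, w x * Z x ^ 2 := by
    refine Complex.ofReal_injective ?_
    rw [← e2, Complex.ofReal_tsum]
    simp only [map_one, mul_one]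
  have s4 : Summable fun x => (w x : ℂ) * f x := summable_mul_bdd (fun x => (hw x).le) h0 hf
  rw [e3, e1', e2', ← tsum_div_const, ← tsum_div_const,
    ← (s3.div_const _).tsum_sub (s4.div_const _)]
  have eg : ∀ x, w x * (Z x / μ - 1 / μ₁) ^ 2 =
      w x * Z x ^ 2 / μ ^ 2 - (2 / (μ * μ₁)) * (w x * Z x) + w x / μ₁ ^ 2 := by
    intro x
    field_simp
    ring
  have s5 : Summable fun x => w x * (Z x / μ - 1 / μ₁) ^ 2 := by
    simp only [eg]
    exact ((s2.div_const _).sub (s1'.mul_left _)).add (h0.div_const _)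
  refine (norm_tsum_sq_le (g := fun x => Z x / μ - 1 / μ₁) (fun x => (hw x).le) h0
    (fun x => ?_) s5).trans (le_of_eq ?_)
  · have : (w x : ℂ) * ((Z x : ℂ) * f x) / μ - (w x : ℂ) * f x / μ₁ =
        ((w x * (Z x / μ - 1 / μ₁) : ℝ) : ℂ) * f x := by
      push_cast
      ring
    rw [this, norm_mul, Complex.norm_real, Real.norm_eq_abs, abs_mul, abs_of_pos (hw x)]
    exact mul_le_of_le_one_right (mul_nonneg (hw x).le (abs_nonneg _)) (hf x)
  · simp only [eg]
    rw [((s2.div_const _).sub (s1'.mul_left _)).tsum_add (h0.div_const _),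
      (s2.div_const _).tsum_sub (s1'.mul_left _), tsum_div_const, tsum_div_const, tsum_mul_left]
    have hμ₂' : μ₂ = μ ^ 2 / μ₁ := by
      rw [← hμ₂]
      field_simp
    rw [hμ₂']
    field_simp

end abstract

/-! ### evaluation -/

variable {ι : Type}

theorem ev_bind {κ : Type} (z : κ → ℤ) (y : ι → ℤ) (g : ι → Pl κ)
    (h : ∀ c, ev z (g c) = (y c : ℝ)) (f : Pl ι) : ev z (bind₁ g f) = ev y f := by
  unfold ev at *
  induction f using MvPolynomial.induction_on with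
  | C a => simp
  | add p q hp hq => simp only [map_add, hp, hq]
  | mul_X p i hp => simp only [map_mul, hp, bind₁_X_right, h, eval_X]

theorem ev_congr {s : Set ι} {z y : ι → ℤ} (h : ∀ c ∈ s, z c = y c) {f : Pl ι}
    (hf : f ∈ supported ℝ s) : ev z f = ev y f := by
  unfold ev
  rw [supported_eq_adjoin_X] at hf
  induction hf using Algebra.adjoin_induction with
  | mem x hx =>
    obtain ⟨c, hc, rfl⟩ := hx
    simp [h c hc]
  | algebraMap r => simp
  | add x y _ _ hx hy => simp only [map_add, hx, hy]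
  | mul x y _ _ hx hy => simp only [map_mul, hx, hy]

theorem ev_th (T : Tri ι) (z : ι → ℤ) (c : ι) :
    ev z (T.th c) = T.a c * z c + ev z (T.B c) := by
  simp [ev, Tri.th]

theorem ev_C_mul (z : ι → ℤ) (r : ℝ) (f : Pl ι) : ev z (C r * f) = r * ev z f := by
  simp [ev]

theorem ev_add (z : ι → ℤ) (f g : Pl ι) : ev z (f + g) = ev z f + ev z g := by simp [ev]

theorem ev_sub (z : ι → ℤ) (f g : Pl ι) : ev z (f - g) = ev z f - ev z g := by simp [ev]

theorem norm_ee (x : ℝ) : ‖ee x‖ = 1 := by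
  have : 2 * (Real.pi : ℂ) * Complex.I * x = ((2 * Real.pi * x : ℝ) : ℂ) * Complex.I := by
    push_cast
    ring
  rw [ee, this, Complex.norm_exp_ofReal_mul_I]

theorem ee_sub (x y : ℝ) : ee (x - y) = ee x * (starRingEnd ℂ) (ee y) := by
  unfold ee
  rw [← Complex.exp_conj, ← Complex.exp_add]
  congr 1
  simp only [map_mul, Complex.conj_ofReal, Complex.conj_I, map_ofNat]
  push_cast
  ring

/-! ### summability -/

theorem summable_exp_abs {c : ℝ} (hc : 0 < c) :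
    Summable fun n : ℤ => Real.exp (-c * |(n : ℝ)|) := by
  have h : Summable fun n : ℕ => Real.exp (-c * (n : ℝ)) := by
    have := summable_geometric_of_lt_one (Real.exp_pos (-c)).le
      (Real.exp_lt_one_iff.2 (by linarith : -c < 0))
    refine this.congr fun n => ?_
    rw [← Real.exp_nat_mul, mul_comm]
  refine Summable.of_nat_of_neg ?_ ?_
  · simpa using h
  · simpa using h

theorem summable_wgt [Fintype ι] (T : Tri ι) : Summable T.wgt := by
  classical
  set Φ : (ι → ℤ) → ι → ℤ := fun z c => z c + ⌊ev z (T.B c) / T.a c⌋ with hΦ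
  have hinj : Function.Injective Φ := by
    intro z y h
    have : ∀ n, ∀ c, T.rk c = n → z c = y c := by
      intro n
      induction n using Nat.strong_induction_on with
      | _ n ih =>
        intro c hc
        have h1 : ev z (T.B c) = ev y (T.B c) :=
          ev_congr (fun c' hc' => ih _ (hc ▸ hc') c' rfl) (T.B_mem c)
        have h2 := congrFun h c
        simp only [hΦ, h1] at h2
        exact add_right_cancel h2
    exact funext fun c => this _ c rfl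
  set g : ι → ℤ → ℝ := fun c n =>
    Real.exp (2 * (Real.pi * T.a c ^ 2)) * Real.exp (-(Real.pi * T.a c ^ 2) * |(n : ℝ)|) with hg
  have hpos : ∀ c, 0 < Real.pi * T.a c ^ 2 := fun c =>
    mul_pos Real.pi_pos (pow_pos (abs_pos.2 (T.a_ne c)) 2 |>.trans_eq (sq_abs _))
  have hgs : ∀ c, Summable (g c) := fun c => (summable_exp_abs (hpos c)).mul_left _
  have hg0 : ∀ c n, 0 ≤ g c n := fun c n => by positivity
  have hle : ∀ z, T.wgt z ≤ ∏ c, g c (Φ z c) := by
    intro z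
    rw [Tri.wgt, Finset.mul_sum, Real.exp_sum]
    refine Finset.prod_le_prod (fun c _ => (Real.exp_pos _).le) fun c _ => ?_
    rw [hg]
    simp only
    rw [← Real.exp_add, Real.exp_le_exp, ev_th]
    set t : ℝ := z c + ev z (T.B c) / T.a c with ht
    have h1 : T.a c * z c + ev z (T.B c) = T.a c * t := by
      have := T.a_ne c
      rw [ht]
      field_simp
    have h2 : |((Φ z c : ℤ) : ℝ)| ≤ |t| + 1 := by
      have h3 : ((Φ z c : ℤ) : ℝ) = t - Int.fract (ev z (T.B c) / T.a c) := by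
        simp only [hΦ, ht, Int.fract]
        push_cast
        ring
      rw [h3]
      have h4 := Int.fract_nonneg (ev z (T.B c) / T.a c)
      have h5 := Int.fract_lt_one (ev z (T.B c) / T.a c)
      refine (abs_sub _ _).trans ?_
      rw [abs_of_nonneg h4]
      linarith
    have h3 : |((Φ z c : ℤ) : ℝ)| ≤ t ^ 2 + 2 := by
      rw [← sq_abs t]
      nlinarith [sq_nonneg (|t| - 1 / 2)]
    rw [h1, mul_pow]
    nlinarith [mul_le_mul_of_nonneg_left h3 (hpos c).le]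
  refine summable_of_sum_le (fun z => (Real.exp_pos _).le) (c := ∏ c, ∑' n, g c n) fun u => ?_
  calc ∑ z ∈ u, T.wgt z ≤ ∑ z ∈ u, ∏ c, g c (Φ z c) := Finset.sum_le_sum fun z _ => hle z
    _ = ∑ n ∈ u.image Φ, ∏ c, g c (n c) := by
      rw [Finset.sum_image fun x _ y _ h => hinj h]
    _ ≤ ∑ n ∈ Fintype.piFinset (fun c => (u.image Φ).image fun n => n c), ∏ c, g c (n c) := by
      refine Finset.sum_le_sum_of_subset_of_nonneg (fun n hn => ?_)
        fun n _ _ => Finset.prod_nonneg fun c _ => hg0 _ _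
      exact Fintype.mem_piFinset.2 fun c => Finset.mem_image_of_mem (fun n => n c) hn
    _ = ∏ c, ∑ n ∈ (u.image Φ).image fun n => n c, g c n := (Finset.prod_univ_sum _ _).symm
    _ ≤ ∏ c, ∑' n, g c n :=
      Finset.prod_le_prod (fun c _ => Finset.sum_nonneg fun n _ => hg0 _ _) fun c _ =>
        (hgs c).sum_le_tsum _ fun n _ => hg0 _ _

theorem mu_pos [Fintype ι] (T : Tri ι) : 0 < T.mu :=
  Finset.prod_pos fun c _ => inv_pos.2 (abs_pos.2 (T.a_ne c))

/-! ### points of the double -/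

variable (q : ι → Prop) [DecidablePred q]

/-- glue frozen and live coordinates -/
def glue (x : {c // q c} → ℤ) (u : {c // ¬ q c} → ℤ) (c : ι) : ℤ :=
  if h : q c then x ⟨c, h⟩ else u ⟨c, h⟩

/-- splitting of the points -/
def E1 : ({c // q c} → ℤ) × ({c // ¬ q c} → ℤ) ≃ (ι → ℤ) where
  toFun p := glue q p.1 p.2
  invFun z := (fun c => z c.1, fun c => z c.1)
  left_inv p := by
    ext c
    · simp [glue, c.2]
    · simp [glue, c.2]
  right_inv z := by
    ext c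
    simp [glue]

/-- points of the double are pairs of points with the same frozen part -/
def E2 : ({c // q c} → ℤ) × ({c // ¬ q c} → ℤ) × ({c // ¬ q c} → ℤ) ≃ (DI q → ℤ) where
  toFun p := Sum.elim (glue q p.1 p.2.1) (p.2.2 - p.2.1)
  invFun z := (fun c => z (Sum.inl c.1), fun c => z (Sum.inl c.1),
    fun c => z (Sum.inl c.1) + z (Sum.inr c))
  left_inv p := by
    ext c
    · simp [glue, c.2]
    · simp [glue, c.2]
    · simp [glue, c.2]
  right_inv z := by
    ext c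
    rcases c with c | c
    · simp [glue]
    · simp

theorem ev_sh0 (p : ({c // q c} → ℤ) × ({c // ¬ q c} → ℤ) × ({c // ¬ q c} → ℤ)) (f : Pl ι) :
    ev (E2 q p) (sh0 q f) = ev (glue q p.1 p.2.1) f := by
  rw [sh0_eq_bind]
  refine ev_bind _ _ _ (fun c => ?_) f
  simp [ev, E2]

theorem ev_sh1 (p : ({c // q c} → ℤ) × ({c // ¬ q c} → ℤ) × ({c // ¬ q c} → ℤ)) (f : Pl ι) :
    ev (E2 q p) (sh1 q f) = ev (glue q p.1 p.2.2) f := by
  unfold sh1
  refine ev_bind _ _ _ (fun c => ?_) f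
  by_cases h : q c
  · simp [ev, E2, glue, h]
  · simp [ev, E2, glue, h]

variable {q}

theorem ev_th_fr {T : Tri ι} (hT : T.Clo q) (x : {c // q c} → ℤ) (u : {c // ¬ q c} → ℤ)
    (c : {c // q c}) : ev (glue q x u) (T.th c.1) = ev x ((T.frz q).th c) := by
  rw [ev_th, ev_th]
  have h1 : ev x (dn q (T.B c.1)) = ev (glue q x 0) (T.B c.1) := by
    unfold dn
    refine ev_bind _ _ _ (fun c' => ?_) _
    by_cases h : q c'
    · simp [ev, glue, h]
    · simp [ev, glue, h]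
  have h2 : ev (glue q x u) (T.B c.1) = ev (glue q x 0) (T.B c.1) :=
    ev_congr (fun c' (hc' : q c') => by simp [glue, hc']) (hT c.1 c.2)
  show _ = T.a c.1 * _ + ev x (dn q (T.B c.1))
  rw [h1, h2]
  simp [glue, c.2]

/-- the live part of the weight -/
noncomputable def wl [Fintype ι] (T : Tri ι) (q : ι → Prop) [DecidablePred q]
    (x : {c // q c} → ℤ) (u : {c // ¬ q c} → ℤ) : ℝ :=
  Real.exp (-Real.pi * ∑ c : {c // ¬ q c}, ev (glue q x u) (T.th c.1) ^ 2)

theorem wgt_E1 [Fintype ι] {T : Tri ι} (hT : T.Clo q)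
    (p : ({c // q c} → ℤ) × ({c // ¬ q c} → ℤ)) :
    T.wgt (E1 q p) = (T.frz q).wgt p.1 * wl T q p.1 p.2 := by
  unfold Tri.wgt wl
  rw [← Real.exp_add, ← mul_add, ← Fintype.sum_subtype_add_sum_subtype q]
  congr 3
  exact Finset.sum_congr rfl fun c _ => by rw [← ev_th_fr hT p.1 p.2 c]; rfl

theorem wgt_E2 [Fintype ι] {T : Tri ι} (hT : T.Clo q)
    (p : ({c // q c} → ℤ) × ({c // ¬ q c} → ℤ) × ({c // ¬ q c} → ℤ)) :
    (T.dbl q).wgt (E2 q p) = (T.frz q).wgt p.1 * wl T q p.1 p.2.1 * wl T q p.1 p.2.2 := by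
  unfold Tri.wgt wl
  rw [← Real.exp_add, ← Real.exp_add, ← mul_add, ← mul_add, Fintype.sum_sum_type,
    ← Fintype.sum_subtype_add_sum_subtype q, add_assoc, add_assoc, ← Finset.sum_add_distrib,
    ← Finset.sum_add_distrib]
  congr 3
  · refine Finset.sum_congr rfl fun c _ => ?_
    rw [T.dbl_th_fr c.2, ev_sh0, ev_th_fr hT]
  · refine Finset.sum_congr rfl fun c _ => ?_
    rw [T.dbl_th_live c.2, T.dbl_th_inr c, ev_C_mul, ev_C_mul, ev_add, ev_sub, ev_sh0, ev_sh1,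
      mul_pow, mul_pow, inv_pow, Real.sq_sqrt (by norm_num)]
    ring

theorem summable_E1 [Fintype ι] {T : Tri ι} (hT : T.Clo q) :
    Summable fun p : ({c // q c} → ℤ) × ({c // ¬ q c} → ℤ) =>
      (T.frz q).wgt p.1 * wl T q p.1 p.2 :=
  ((E1 q).summable_iff.2 (summable_wgt T)).congr fun p => wgt_E1 hT p

theorem summable_E2 [Fintype ι] {T : Tri ι} (hT : T.Clo q) :
    Summable fun p : ({c // q c} → ℤ) × ({c // ¬ q c} → ℤ) × ({c // ¬ q c} → ℤ) =>
      (T.frz q).wgt p.1 * wl T q p.1 p.2.1 * wl T q p.1 p.2.2 :=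
  ((E2 q).summable_iff.2 (summable_wgt (T.dbl q))).congr fun p => wgt_E2 hT p

end DblA

open DblA

theorem dblMuStmt : DblMuStmt := by
  intro ι _ T q _
  unfold Tri.mu
  rw [Fintype.prod_sum_type, ← Fintype.prod_subtype_mul_prod_subtype q,
    ← Fintype.prod_subtype_mul_prod_subtype q (fun c => |T.a c|⁻¹), mul_assoc,
    mul_assoc, ← mul_assoc (∏ _ : {c // ¬ q c}, _), ← Finset.prod_mul_distrib]
  have h1 : ∏ c : {c // q c}, |(T.dbl q).a (Sum.inl c.1)|⁻¹ = ∏ c : {c // q c}, |T.a c.1|⁻¹ :=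
    Finset.prod_congr rfl fun c _ => by rw [T.dbl_a_fr c.2]
  have h2 : ∏ c : {c // ¬ q c}, |(T.dbl q).a (Sum.inl c.1)|⁻¹ * |(T.dbl q).a (Sum.inr c)|⁻¹ =
      (∏ c : {c // ¬ q c}, |T.a c.1|⁻¹) ^ 2 := by
    rw [← Finset.prod_pow]
    refine Finset.prod_congr rfl fun c _ => ?_
    have h0 : (0 : ℝ) < √2 := by positivity
    have ha : 0 < |T.a c.1| := abs_pos.2 (T.a_ne _)
    rw [T.dbl_a_live c.2, T.dbl_a_inr c, abs_mul, abs_mul, abs_inv, abs_of_pos h0]
    field_simp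
  have h3 : ∏ c : {c // q c}, |(T.frz q).a c|⁻¹ = ∏ c : {c // q c}, |T.a c.1|⁻¹ := rfl
  rw [h1, h2, h3]
  ring

theorem dblCSStmt : DblCSStmt := by
  intro ι _ T q _ hT F
  have h := abs_cs (w := (T.frz q).wgt) (v := wl T q) (fun x => Real.exp_pos _)
    (fun x u => (Real.exp_pos _).le) (summable_wgt _) (summable_E1 hT) (summable_E2 hT)
    (φ := fun x u => ee (ev (glue q x u) F)) fun x u => (norm_ee _).le
  unfold Tri.S Tri.M
  rw [← (E1 q).tsum_eq, ← (E2 q).tsum_eq]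
  simp only [wgt_E1 hT, wgt_E2 hT, ev_sub, ev_sh0, ev_sh1, ee_sub]
  exact h

theorem fibStmt : FibStmt := by
  intro ι _ T q _ hT f hf
  have h := abs_fib (w := (T.frz q).wgt) (v := wl T q) (fun x => Real.exp_pos _)
    (fun x u => (Real.exp_pos _).le) (summable_wgt _) (summable_E1 hT) (summable_E2 hT) hf
    (mu_pos T) (mu_pos (T.frz q)) (dblMuStmt ι T q)
  unfold Tri.M
  rw [← (E1 q).tsum_eq, ← (E1 q).tsum_eq, ← (E2 q).tsum_eq]
  have e : ∀ p : ({c // q c} → ℤ) × ({c // ¬ q c} → ℤ),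
      (fun c : {c // q c} => E1 q p c.1) = p.1 := by
    intro p
    ext c
    simp [E1, glue, c.2]
  simp only [wgt_E1 hT, wgt_E2 hT, e]
  exact h

end Crest.Agent.T49.Tw
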