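import Crest.Agent.T49.TwChain_4
import Crest.Agent.T49.TwDblA_80

/-! The unconditional chain statement for towers (row 49). -/

namespace Crest.Agent.T49.Tw

theorem chainStmt : ChainStmt := chainStmt_of dblMuStmt dblCSStmt fibStmt

end Crest.Agent.T49.Tw
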