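import Crest.Agent.T49.TwLat_81

/-!
# Row 49 (helper81): a good tower has no short integer form (`NDStmt`)
-/

set_option autoImplicit false

open MvPolynomial

namespace Crest.Agent.T49.Tw
open Crest.Agent.T49.Lat (cast cast_apply)
open scoped InnerProductSpace

namespace L81

theorem eval_lin {ι α : Type} {w : ι → ℕ} {f : Pl ι} (hf : IsWeightedHomogeneous w f 1)
    (s : Finset α) (t : α → ℝ) (x : α → ι → ℝ) (x₀ : ι → ℝ)
    (h0 : ∀ a ∈ s, ∀ c, w c = 0 → x a c = x₀ c) (h1 : ∀ c, w c = 1 → x₀ c = ∑ a ∈ s, t a * x a c) :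
    eval x₀ f = ∑ a ∈ s, t a * eval (x a) f := by
  have := bind_lin (κ := Unit) hf s (fun a => C (t a)) (fun a c => C (x a c)) (fun c => C (x₀ c))
    (fun a ha c hc => by rw [h0 a ha c hc]) fun c hc => by rw [h1 c hc]; simp
  have h2 := congrArg (eval (0 : Unit → ℝ)) this
  simpa only [eval_bind, map_sum, map_mul, eval_C] using h2

theorem sqrt_le_self' (d : ℕ) : √((d : ℝ) + 2) ≤ d + 2 := by
  rw [Real.sqrt_le_iff]
  have : (0 : ℝ) ≤ d := Nat.cast_nonneg d
  constructor <;> nlinarith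

theorem one_le_sqrt' (d : ℕ) : 1 ≤ √((d : ℝ) + 2) := by
  rw [Real.one_le_sqrt]
  have : (0 : ℝ) ≤ d := Nat.cast_nonneg d
  linarith

end L81

open L81

namespace MT
variable {ι : Type} {n : ℕ}

/-- replace the singleton coordinates of `y` by `v` -/
def upd (T : MT ι (n + 1)) (y : ι → ℝ) (v : T.C0 → ℝ) (c : ι) : ℝ :=
  if h : T.wt c 0 ≠ 0 ∧ Fin.tail (T.wt c) = 0 then v ⟨c, h⟩ else y c

theorem upd_self (T : MT ι (n + 1)) (y : ι → ℝ) : T.upd y (fun c => y c.1) = y := by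
  funext c; unfold upd; split_ifs <;> rfl

theorem eval_rsub (T : MT ι (n + 1)) {k : ℕ} (i : Fin k) (y : ι → ℝ) (v : T.C0 → ℝ) (e : Pl ι) :
    eval (fun c => y (T.pr k c)) (bind₁ (T.rsub i v) e) = eval (T.upd y v) e := by
  rw [eval_bind]
  congr 2
  funext c
  unfold rsub upd
  split_ifs
  · simp
  · simp [pr_cp]

variable [Fintype ι]

/-- a form is affine in the singleton coordinates -/
theorem exists_affine (T : MT ι (n + 1)) {e : Pl ι}
    (he : IsWeightedHomogeneous (fun c => T.wt c 0) e 1) (y : ι → ℝ) :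
    ∃ (α : ℝ) (ξ : T.C0 → ℝ), ∀ v, eval (T.upd y v) e = α + ∑ c, ξ c * v c := by
  classical
  let x : Option T.C0 → ι → ℝ := fun a c => match a with
    | none => T.upd y 0 c
    | some c0 => if T.wt c 0 = 0 then y c else if c = c0.1 then 1 else 0
  refine ⟨eval (x none) e, fun c => eval (x (some c)) e, fun v => ?_⟩
  rw [eval_lin he Finset.univ (fun a => a.elim 1 v) x (T.upd y v) (fun a _ c hc => ?_)
    fun c hc => ?_]
  · simp [Fintype.sum_option, mul_comm]
  · have h1 : ∀ u, T.upd y u c = y c := fun u => dif_neg fun h => h.1 hc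
    rcases a with _ | c0
    · exact (h1 _).trans (h1 _).symm
    · exact (if_pos hc).trans (h1 _).symm
  · have h0 : ¬ T.wt c 0 = 0 := by omega
    simp only [Fintype.sum_option, Option.elim, x, if_neg h0, one_mul]
    unfold upd
    split_ifs with h
    · rw [Finset.sum_eq_single ⟨c, h⟩]
      · simp
      · intro b _ hb
        rw [if_neg fun e => hb (Subtype.ext e.symm), mul_zero]
      · simp
    · rw [Finset.sum_eq_zero fun b _ => by
        rw [if_neg fun e : c = b.1 => h (by rw [e]; exact b.2), mul_zero], add_zero]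

/-- a short lattice vector outside a hyperplane -/
theorem exists_short_off (T : MT ι (n + 1)) {lam : ℝ} (hl : 0 < lam)
    (h : T.rho0 lam ≤ 4 / 3 * T.mu0 lam) {ξ : EuclideanSpace ℝ T.C0} (hξ : ξ ≠ 0) :
    ∃ x : T.C0 → ℤ, ⟪ξ, T.lat (cast x)⟫_ℝ ≠ 0 ∧
      ‖T.lat (cast x)‖ ≤ 3 * (√(Fintype.card T.C0 + 2) * lam) := by
  set r := √((Fintype.card T.C0 : ℝ) + 2) * lam with hr
  have hr0 : 0 < r := mul_pos (one_pos.trans_le (one_le_sqrt' _)) hl
  have hn : 0 < ‖ξ‖ := norm_pos_iff.2 hξ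
  obtain ⟨x, hx⟩ := T.exists_near hl h ((2 * r / ‖ξ‖) • ξ)
  have hw : ‖(2 * r / ‖ξ‖) • ξ‖ = 2 * r := by
    rw [norm_smul, Real.norm_eq_abs, abs_of_pos (by positivity), div_mul_cancel₀ _ hn.ne']
  refine ⟨x, fun h0 => ?_, ?_⟩
  · have h1 := abs_real_inner_le_norm ξ ((2 * r / ‖ξ‖) • ξ - T.lat (cast x))
    rw [inner_sub_right, h0, sub_zero, real_inner_smul_right, real_inner_self_eq_norm_sq] at h1
    have h2 : 2 * r / ‖ξ‖ * ‖ξ‖ ^ 2 = ‖ξ‖ * (2 * r) := by field_simp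
    rw [h2, abs_of_pos (by positivity)] at h1
    have h3 := le_of_mul_le_mul_left h1 hn
    linarith
  · have h1 := norm_sub_norm_le (T.lat (cast x)) ((2 * r / ‖ξ‖) • ξ)
    rw [norm_sub_rev] at h1
    linarith

/-- an affine hyperplane carries at most `0.55` of the mass of a smooth lattice -/
theorem prb_hyper (T : MT ι (n + 1)) {lam : ℝ} (hl : 0 < lam)
    (hl2 : lam * (Fintype.card T.C0 + 2) ≤ 1 / 512) (h : T.rho0 lam ≤ 4 / 3 * T.mu0 lam)
    (α : ℝ) {ξ : EuclideanSpace ℝ T.C0} (hξ : ξ ≠ 0) :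
    T.prb (fun _ : Fin 1 => 1) (fun p => α + ⟪ξ, T.lat (cast (p 0))⟫_ℝ = 0) ≤ 11 / 20 := by
  classical
  obtain ⟨x, hx, hx2⟩ := T.exists_short_off hl h hξ
  set g : (T.C0 → ℤ) → ℝ := fun p => if α + ⟪ξ, T.lat (cast p)⟫_ℝ = 0 then 1 else 0 with hg
  have hg1 : ∀ p, |g p| ≤ 1 := fun p => by simp only [hg]; split_ifs <;> simp
  have hth := Gau.th_pos T.lat_inj 0
  have h1 := Gau.norm_tsum_translate_le T.lat_inj 0 x (f := fun p => (g p : ℂ)) (M := 1)
    fun p => by simpa using hg1 p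
  simp only [← Complex.ofReal_mul, ← Complex.ofReal_tsum, ← Complex.ofReal_sub, Complex.norm_real,
    Real.norm_eq_abs] at h1
  have s1 := Gau.summable_rho_mul_real T.lat_inj 0 hg1
  have s2 := Gau.summable_rho_mul_real T.lat_inj 0 (f := fun p => g (p + x)) fun p => hg1 _
  have h2 : ∑' p, Gau.rho (T.lat (cast p) + 0) * g (p + x) +
      ∑' p, Gau.rho (T.lat (cast p) + 0) * g p ≤ Gau.th T.lat 0 := by
    rw [← s2.tsum_add s1]
    refine (s2.add s1).tsum_le_tsum (fun p => ?_) (Gau.summable_rho T.lat_inj 0)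
    rw [← mul_add]
    refine mul_le_of_le_one_right (Gau.rho_pos _).le ?_
    simp only [hg]
    split_ifs with a1 a2
    · rw [Gau.cast_add, map_add, inner_add_right, ← add_assoc, a2, zero_add] at a1
      exact absurd a1 hx
    all_goals norm_num
  have h3 : 2 * Real.pi * ‖T.lat (cast x)‖ * (2 * √(Fintype.card T.C0 + 1) + ‖T.lat (cast x)‖)
      ≤ 1 / 10 := by
    set d : ℝ := (Fintype.card T.C0 : ℝ) with hd
    have hd0 : 0 ≤ d := Nat.cast_nonneg _
    have a1 : √(d + 1) ≤ √(d + 2) := Real.sqrt_le_sqrt (by linarith)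
    have a2 : √(d + 2) * √(d + 2) = d + 2 := Real.mul_self_sqrt (by linarith)
    have a3 : √(d + 2) ≤ d + 2 := sqrt_le_self' _
    have a4 : √(d + 2) * lam ≤ 1 / 512 := by nlinarith
    have a5 : ‖T.lat (cast x)‖ * √(d + 1) ≤ 3 / 512 := by
      calc _ ≤ 3 * (√(d + 2) * lam) * √(d + 2) := by gcongr
        _ = 3 * (lam * (√(d + 2) * √(d + 2))) := by ring
        _ ≤ _ := by rw [a2]; linarith
    have a6 : ‖T.lat (cast x)‖ * ‖T.lat (cast x)‖ ≤ 3 / 512 * (3 / 512) :=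
      mul_self_le_mul_self (norm_nonneg _) (by linarith)
    have a7 : ‖T.lat (cast x)‖ * (2 * √(d + 1) + ‖T.lat (cast x)‖) ≤ 1 / 80 := by nlinarith
    have a8 := mul_le_mul (Real.pi_le_four) a7 (by positivity) (by norm_num)
    nlinarith
  rw [prb_one', inv_one, one_smul, div_le_iff₀ hth]
  have h4 := (abs_le.1 h1).1
  have h5 := mul_le_mul_of_nonneg_right h3 hth.le
  show ∑' p, Gau.rho (T.lat (cast p) + 0) * g p ≤ _
  linarith

theorem nd_base (T : MT ι 1) {lam : ℝ} (hl : 0 < lam) (h : T.rho0 lam ≤ 4 / 3 * T.mu0 lam)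
    {Q : ℝ} (hQ : Q * ((Fintype.card ι + 2) * lam) ≤ 1 / 2) : T.ND Q := by
  intro e he hn hi
  have hact : ∀ c ∈ T.act, T.wt c 0 ≠ 0 ∧ Fin.tail (T.wt c) = 0 := fun c hc =>
    ⟨fun h0 => hc (wt_eq_zero h0 (Subsingleton.elim _ _)), Subsingleton.elim _ _⟩
  set ξ : EuclideanSpace ℝ T.C0 := WithLp.toLp 2 fun c => coeff (Finsupp.single c.1 1) e with hξ
  have hev : ∀ y : ι → ℝ, eval y e = ∑ c : T.C0, ξ c * y c.1 := fun y => by
    rw [← T.eval_extR (fun c => y c.1) he.1 rfl (Subsingleton.elim _ _)]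
    exact eval_congr_supp (fun c hc => (T.extR_C0 (fun c => y c.1) ⟨c, hact c hc⟩).symm) he.2
  by_cases h0 : ξ = 0
  · exact MvPolynomial.funext fun y => by rw [hev, h0]; simp
  exfalso
  have hn0 : 0 < ‖ξ‖ := norm_pos_iff.2 h0
  have hξQ : ‖ξ‖ ≤ Q := by
    classical
    have h1 : ‖ξ‖ ≤ ∑ c, |ξ c| := by
      rw [EuclideanSpace.norm_eq, Real.sqrt_le_iff]
      exact ⟨by positivity, Finset.sum_sq_le_sq_sum_of_nonneg fun _ _ => norm_nonneg _⟩
    have h2 := sum_abs_coeff_le_nrm e (Finset.univ.image fun c : T.C0 => Finsupp.single c.1 1)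
    rw [Finset.sum_image fun a _ b _ hab =>
      Subtype.ext (Finsupp.single_left_injective one_ne_zero hab)] at h2
    exact h1.trans (h2.trans hn)
  obtain ⟨x, hx⟩ := T.exists_near hl h ((1 / (2 * ‖ξ‖ ^ 2)) • ξ)
  replace hx : _ < ((Fintype.card ι : ℝ) + 2) * lam :=
    hx.trans_le (mul_le_mul_of_nonneg_right ((sqrt_le_self' _).trans
      (add_le_add_left (Nat.cast_le.2 T.card_C0_le) 2)) hl.le)
  obtain ⟨k, hk⟩ := hi.ev (T.ext0 x)
  rw [Tri.ev_Th, hev] at hk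
  have hk2 : ⟪ξ, T.lat (cast x)⟫_ℝ = k := by
    rw [← hk, PiLp.inner_apply]
    refine Finset.sum_congr rfl fun c _ => ?_
    rw [lat_cast]; simp [mul_comm]
  have h1 := abs_real_inner_le_norm ξ ((1 / (2 * ‖ξ‖ ^ 2)) • ξ - T.lat (cast x))
  rw [inner_sub_right, hk2, real_inner_smul_right, real_inner_self_eq_norm_sq,
    show 1 / (2 * ‖ξ‖ ^ 2) * ‖ξ‖ ^ 2 = 1 / 2 by field_simp] at h1
  have h2 : ‖ξ‖ * ‖(1 / (2 * ‖ξ‖ ^ 2)) • ξ - T.lat (cast x)‖ < 1 / 2 :=
    (mul_lt_mul_of_pos_left hx hn0).trans_le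
      ((mul_le_mul_of_nonneg_right hξQ (by positivity)).trans hQ)
  have h3 := abs_lt.1 (h1.trans_lt h2)
  have h4 : (0 : ℝ) < k := by linarith [h3.2]
  have h5 : (k : ℝ) < 1 := by linarith [h3.1]
  have h6 : 0 < k := by exact_mod_cast h4
  have h7 : k < 1 := by exact_mod_cast h5
  omega

/-- the inductive step: if most one-point towers have no short integer form, neither has `T` -/
theorem nd_step (T : MT ι (n + 1)) {lam : ℝ} (hl : 0 < lam)
    (hl2 : lam * (Fintype.card T.C0 + 2) ≤ 1 / 512) (h : T.rho0 lam ≤ 4 / 3 * T.mu0 lam) {Q Q' : ℝ}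
    (hQ : Q * √(Fintype.card T.C0 + 2) ≤ Q')
    (hb : T.prb (fun _ : Fin 1 => 1) (fun p => ¬ (T.step (fun _ => 1) p).ND Q') ≤ 1 / 4) :
    T.ND Q := by
  intro e he hn hi
  have hs : ∀ _ : Fin 1, (1 : ℝ) ≠ 0 := fun _ => one_ne_zero
  set R := √((Fintype.card T.C0 : ℝ) + 2) with hR
  have hR1 : 1 ≤ R := one_le_sqrt' _
  have htail := T.prb_one_tail (r := 1) (R := R) one_ne_zero (zero_le_one.trans hR1)
  rw [inv_one, one_smul, hR, Real.sq_sqrt (by positivity), ← hR] at htail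
  have he3 : Real.exp ((Fintype.card T.C0 : ℝ) / 2 - 3 / 2 * (Fintype.card T.C0 + 2)) ≤ 1 / 8 := by
    have h1 : (2 : ℝ) ^ 3 ≤ Real.exp 1 ^ 3 :=
      pow_le_pow_left₀ (by norm_num) (by linarith [Real.add_one_le_exp 1]) 3
    rw [← Real.exp_nat_mul] at h1
    have h2 : Real.exp ((Fintype.card T.C0 : ℝ) / 2 - 3 / 2 * (Fintype.card T.C0 + 2)) ≤
        Real.exp (-((3 : ℕ) * 1)) := Real.exp_le_exp.2 (by
      have : (0 : ℝ) ≤ Fintype.card T.C0 := Nat.cast_nonneg _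
      push_cast; linarith)
    rw [Real.exp_neg] at h2
    refine h2.trans ?_
    rw [one_div]
    exact inv_anti₀ (by norm_num) (by linarith)
  set G : (Fin 1 → T.C0 → ℤ) → Prop := fun p =>
    ¬ ((¬ (T.step (fun _ => 1) p).ND Q') ∨ R ≤ ‖T.lat (cast (p 0))‖) with hG
  have hGp : 11 / 20 < T.prb (fun _ : Fin 1 => 1) G := by
    rw [hG, T.prb_not hs]
    linarith [T.prb_or_le hs (fun p => ¬ (T.step (fun _ => 1) p).ND Q')
      fun p => R ≤ ‖T.lat (cast (p 0))‖]
  have hz : ∀ p, G p → bind₁ (T.rsub (0 : Fin 1) fun c => T.lat (cast (p 0)) c) e = 0 := by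
    intro p hp
    obtain ⟨h1, h2⟩ := not_or.1 hp
    refine not_not.1 h1 _ (T.rsub_form _ p 0 _ he) ?_ ?_
    · refine (T.nrm_rsub_le 0 hR1 (fun c => ?_) he).trans
        ((mul_le_mul_of_nonneg_right hn (zero_le_one.trans hR1)).trans hQ)
      exact (PiLp.norm_apply_le (T.lat (cast (p 0))) c).trans (not_le.1 h2).le
    · rw [← T.res_Th' _ p 0 he.2]
      exact T.isInt_res _ p 0 hi
  refine MvPolynomial.funext fun y => ?_
  obtain ⟨α, ξ, hξ⟩ := T.exists_affine (hom_slot he.1 0) y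
  have hk : ∀ p, G p → α + ⟪(WithLp.toLp 2 ξ : EuclideanSpace ℝ T.C0), T.lat (cast (p 0))⟫_ℝ = 0 := by
    intro p hp
    have h1 := T.eval_rsub (0 : Fin 1) y (fun c => T.lat (cast (p 0)) c) e
    rw [hz p hp, map_zero, hξ] at h1
    rw [h1, PiLp.inner_apply]
    simp [mul_comm]
  have hξ0 : (WithLp.toLp 2 ξ : EuclideanSpace ℝ T.C0) = 0 := by
    by_contra h0
    linarith [T.prb_hyper hl hl2 h α h0, T.prb_mono hs hk]
  obtain ⟨p, hp⟩ := T.exists_of_prb_pos (lt_trans (by norm_num) hGp)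
  have hα := hk p hp
  rw [hξ0, inner_zero_left, add_zero] at hα
  have hξ1 : ∀ c, ξ c = 0 := fun c => congrArg (fun z : EuclideanSpace ℝ T.C0 => z c) hξ0
  rw [← T.upd_self y, hξ, hα]
  simp [hξ1]

end MT

theorem nd_aux : ∀ (n : ℕ) (ι : Type) [Fintype ι] (T : MT ι (n + 1)) (η lam : ℝ),
    0 < lam → lam * (Fintype.card ι + 2) ^ (n + 10) ≤ 1 → η ≤ 1 / 100 →
    Good η lam (n + 1) T → T.ND (lam⁻¹ / (Fintype.card ι + 2) ^ (n + 10)) := by
  intro n
  induction n with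
  | zero =>
    intro ι _ T η lam hl _ hη hg
    have hm := T.mu0_pos hl
    refine T.nd_base hl (hg.1.trans (by nlinarith)) ?_
    have h0 : (0 : ℝ) ≤ Fintype.card ι := Nat.cast_nonneg _
    have h3 : ((Fintype.card ι : ℝ) + 2) * 2 ≤ (Fintype.card ι + 2) ^ (0 + 10) := by
      rw [zero_add, pow_succ']
      exact mul_le_mul_of_nonneg_left ((by linarith : (2 : ℝ) ≤ Fintype.card ι + 2).trans
        (le_self_pow₀ (by linarith) (by norm_num))) (by linarith)
    rw [div_mul_eq_mul_div, div_le_iff₀ (by positivity), mul_left_comm, inv_mul_cancel₀ hl.ne']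
    generalize ((Fintype.card ι : ℝ) + 2) ^ (0 + 10) = z at h3 ⊢
    linarith
  | succ n ih =>
    intro ι _ T η lam hl hl1 hη hg
    have hm := T.mu0_pos hl
    have h0 : (0 : ℝ) ≤ Fintype.card ι := Nat.cast_nonneg _
    have h1 : (Fintype.card T.C0 : ℝ) ≤ Fintype.card ι := by exact_mod_cast T.card_C0_le
    have h2 := sqrt_le_self' (Fintype.card T.C0)
    have h3 : (Fintype.card (T.UT 1) : ℝ) ≤ Fintype.card ι := by
      have := T.card_UT_le 1
      rw [max_self, one_mul] at this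
      exact_mod_cast this
    have h4 : ((Fintype.card (T.UT 1) : ℝ) + 2) ^ (n + 10) ≤ (Fintype.card ι + 2) ^ (n + 10) := by
      gcongr
    have h5 : ((Fintype.card ι : ℝ) + 2) ^ (n + 10) ≤ (Fintype.card ι + 2) ^ (n + 1 + 10) :=
      pow_le_pow_right₀ (by linarith) (by omega)
    refine T.nd_step hl ?_ (hg.1.trans (by nlinarith))
      (Q' := lam⁻¹ / (Fintype.card (T.UT 1) + 2) ^ (n + 10)) ?_ ?_
    · have h6 : (2 : ℝ) ^ 9 ≤ (Fintype.card ι + 2) ^ (n + 10) :=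
        (pow_le_pow_left₀ (by norm_num) (by linarith) 9).trans
          (pow_le_pow_right₀ (by linarith) (by omega))
      rw [show n + 1 + 10 = n + 10 + 1 by ring, pow_succ] at hl1
      have h7 : lam * (Fintype.card T.C0 + 2) * 2 ^ 9 ≤
          lam * (Fintype.card ι + 2) * (Fintype.card ι + 2) ^ (n + 10) := by gcongr
      linarith
    · rw [show n + 1 + 10 = n + 10 + 1 by ring, pow_succ]
      calc _ ≤ lam⁻¹ / ((Fintype.card ι + 2) ^ (n + 10) * (Fintype.card ι + 2)) *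
            (Fintype.card ι + 2) := by gcongr; linarith
        _ = lam⁻¹ / (Fintype.card ι + 2) ^ (n + 10) := by field_simp
        _ ≤ _ := by gcongr
    · have hb : T.prb (fun _ : Fin 1 => 1)
          (fun p => ¬ Good η lam (n + 1) (T.step (fun _ => 1) p)) ≤ 1 / 4 :=
        hg.2.2.1.trans (hη.trans (by norm_num))
      refine le_trans (T.prb_mono (fun _ => one_ne_zero) ?_) hb
      intro p hp hgood
      refine hp ?_
      exact ih _ _ η lam hl (le_trans (mul_le_mul_of_nonneg_left (h4.trans h5) hl.le) hl1) hη hgood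

/-- (ND) -/
theorem ndStmt : NDStmt := fun n =>
  ⟨n + 10, fun ι _ T η lam _ hl hl1 hη hg => nd_aux n ι T η lam hl hl1 hη hg⟩

end Crest.Agent.T49.Tw
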