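import Crest.Agent.T49.TwDA_52
import Crest.Agent.T49.TwAbs_82
import Crest.Agent.T49.TwND_81
import Crest.Agent.T49.TwCert_66
import Crest.Agent.T49.TwChainF_4
import Crest.Agent.T49.TwTopF_71
import Crest.Agent.T49.TwAsm_2

/-!
# Row 49: the tower calculus, unconditional statements (helper52)
-/

namespace Crest.Agent.T49.Tw

theorem bundleStmt : BundleStmt := bundle_of absStmt

theorem daStmt : DAStmt := da_of ndStmt bundleStmt

theorem massStmt : MassStmt := (mass_dap topStmt chainStmt certStmt daStmt).1

theorem dapStmt : DAPStmt := (mass_dap topStmt chainStmt certStmt daStmt).2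

end Crest.Agent.T49.Tw
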