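import Crest.Agent.T49.MxAsm_91
import Crest.Agent.T49.MxTop_71
import Crest.Agent.T49.MxChain_4
import Crest.Agent.T49.MxCert_66
import Crest.Agent.T49.TwFin_52

/-!
# Row 49 (helper91): the mixed tower calculus, unconditional
-/

namespace Crest.Agent.T49.Tw

theorem dapCStmt : DAPCStmt := dapC_of chainMStmt certMStmt daStmt

theorem massMStmt : MassMStmt := massM_of topMStmt dapCStmt

theorem dapMStmt : DAPMStmt := dapM_of massMStmt dapCStmt

theorem allDerMStmt : AllDerMStmt := allDerM_of massMStmt

end Crest.Agent.T49.Tw
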