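import Crest.Agent.T49.Fr_26
import Crest.Agent.T49.FmPC_17
import Crest.Agent.T49.Mx_91
import Crest.Agent.T49.Qp_85

/-! # Row 49 (helper98): `Fr.NondegStmt` and `Fr.BulkStmt` -/

set_option autoImplicit false

noncomputable section

namespace Crest.Agent.T49.Fr

open Finset MvPolynomial MeasureTheory
open Crest.Agent.T49.Tw

namespace N98

/-- Minkowski's linear forms theorem for a triangular matrix -/
theorem mink {κ : Type} [Fintype κ] {rk : κ → ℕ} {a : κ → ℝ} {L : Matrix κ κ ℝ}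
    (h : IsTri rk a L) {ε : ℝ} (hε : 0 < ε) (ha : ∏ c, |a c| < ε ^ Fintype.card κ) :
    ∃ z : κ → ℤ, z ≠ 0 ∧ ∀ c, |∑ c', L c c' * z c'| < ε := by
  classical
  have hd : LinearMap.det L.mulVecLin = ∏ c, a c := by
    rw [← h.det, ← LinearMap.det_toLin' L]; rfl
  have hd0 : ∏ c, a c ≠ 0 := prod_ne_zero_iff.2 fun c _ => h.ne c
  have hp : 0 < ∏ c, |a c| := prod_pos fun c _ => abs_pos.2 (h.ne c)
  let s : Set (κ → ℝ) := L.mulVecLin ⁻¹' Set.pi Set.univ fun _ => Set.Ioo (-ε) ε
  have hvol : volume s = ENNReal.ofReal ((∏ c, |a c|)⁻¹ * (2 * ε) ^ Fintype.card κ) := by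
    rw [Measure.addHaar_preimage_linearMap volume (by rw [hd]; exact hd0), hd, volume_pi,
      Measure.pi_pi]
    simp only [Real.volume_Ioo, prod_const, card_univ]
    rw [ENNReal.ofReal_mul (by positivity), abs_inv, abs_prod, ENNReal.ofReal_pow (by positivity)]
    congr 3
    ring
  have : Countable (Submodule.span ℤ (Set.range (Pi.basisFun ℝ κ))).toAddSubgroup :=
    inferInstanceAs (Countable (Submodule.span ℤ (Set.range (Pi.basisFun ℝ κ))))
  obtain ⟨x, hx0, hx⟩ := exists_ne_zero_mem_lattice_of_measure_mul_two_pow_lt_measure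
    (ZSpan.isAddFundamentalDomain' (Pi.basisFun ℝ κ) volume) (s := s)
    (fun x hx c hc => by
      have := hx c hc
      simp only [map_neg, Pi.neg_apply, Set.mem_Ioo] at this ⊢
      constructor <;> linarith [this.1, this.2])
    ((convex_pi fun _ _ => convex_Ioo _ _).linear_preimage _)
    (by
      rw [hvol, ZSpan.fundamentalDomain_pi_basisFun, volume_pi, Measure.pi_pi]
      simp only [Real.volume_Ico, sub_zero, ENNReal.ofReal_one, prod_const_one, one_mul,
        Module.finrank_fintype_fun_eq_card]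
      rw [← ENNReal.ofReal_ofNat, ← ENNReal.ofReal_pow (by norm_num),
        ENNReal.ofReal_lt_ofReal_iff (by positivity), mul_pow, mul_left_comm,
        lt_mul_iff_one_lt_right (by positivity), ← div_eq_inv_mul, one_lt_div hp]
      exact ha)
  have hz : ∀ c, ∃ n : ℤ, (x : κ → ℝ) c = n := fun c => by
    obtain ⟨n, hn⟩ := ((Pi.basisFun ℝ κ).mem_span_iff_repr_mem ℤ _).1 x.2 c
    exact ⟨n, by simpa using hn.symm⟩
  choose z hz using hz
  refine ⟨z, fun h0 => hx0 (Subtype.ext (funext fun c => by rw [hz, h0]; simp)), fun c => ?_⟩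
  have := hx c (Set.mem_univ c)
  simp only [Matrix.mulVecLin_apply, Matrix.mulVec, dotProduct, hz, Set.mem_Ioo] at this
  exact abs_lt.2 this

variable {ι : Type} [Fintype ι]

/-- a polynomial of weighted degree `≤ 1` is affine in the variables of level one -/
theorem eq_aff {w : ι → ℕ} (hw : ∀ c, 0 < w c) {f : Pl ι} (hf : DegLe w f 1) :
    f = C (coeff 0 f) + ∑ r : {c // w c = 1}, C (coeff (Finsupp.single r.1 1) f) * X r.1 := by
  classical
  ext m
  simp only [coeff_add, coeff_C, coeff_sum, coeff_C_mul, coeff_X]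
  by_cases h0 : 0 = m
  · subst h0
    rw [if_pos rfl, sum_eq_zero, add_zero]
    intro r _
    rw [if_neg (by simp), mul_zero]
  rw [if_neg h0, zero_add]
  by_cases h1 : ∃ r : {c // w c = 1}, Finsupp.single r.1 1 = m
  · obtain ⟨r, rfl⟩ := h1
    rw [sum_eq_single r]
    · simp
    · intro b _ hb
      rw [if_neg, mul_zero]
      intro e
      exact hb (Subtype.ext (Finsupp.single_left_injective one_ne_zero e))
    · simp
  · rw [sum_eq_zero fun r _ => by rw [if_neg fun e => h1 ⟨r, e⟩, mul_zero]]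
    by_contra hm
    have h2 := hf m (mem_support_iff.2 hm)
    have h3 : Finsupp.weight w m ≠ 0 := by
      intro e
      refine h0 (Finsupp.ext fun c => ?_).symm
      by_contra hc
      have := weight_pos_le w m (Finsupp.mem_support_iff.2 hc)
      have := hw c
      omega
    obtain ⟨c, m', rfl, hc, hm'⟩ := exists_of_weight_one (w := w) (m := m) (by omega)
    have : m' = 0 := Finsupp.ext fun c' => by
      by_contra hc'
      have := hm' c' (Finsupp.mem_support_iff.2 hc')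
      have := hw c'
      omega
    exact h1 ⟨⟨c, hc⟩, by rw [this, add_zero]⟩

/-- a separated level-one lattice has a large covolume -/
theorem lm_ge (T : Cell ι) {Y : ℝ}
    (h : ∀ z z', Rg.Dj T.toTri T.lev 1 z z' = 0 ∨ Real.exp (-Y) ≤ Rg.Dj T.toTri T.lev 1 z z') :
    -(Fintype.card {c // T.lev c = 1} * (Y / 2 + Fintype.card {c // T.lev c = 1})) ≤
      Rg.lm T.toTri T.lev 1 := by
  classical
  set n := Fintype.card {c // T.lev c = 1} with hn
  let L : Matrix {c // T.lev c = 1} {c // T.lev c = 1} ℝ :=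
    fun c r => coeff (Finsupp.single r.1 1) (T.th c.1)
  have hB : ∀ c r : ι, ¬ T.rk r < T.rk c → coeff (Finsupp.single r 1) (T.B c) = 0 := by
    intro c r hr
    by_contra hm
    exact hr (mem_supported_iff.1 (T.B_mem c) _ (mem_support_iff.2 hm) r (by simp))
  have hL : IsTri (fun c => T.rk c.1) (fun c => T.a c.1) L := by
    refine ⟨fun c => T.a_ne c.1, fun c => ?_, fun c r h1 h2 => ?_⟩
    · show coeff _ (C (T.a c.1) * X c.1 + T.B c.1) = _
      rw [coeff_add, hB _ _ (lt_irrefl _), coeff_C_mul, coeff_X, if_pos rfl, mul_one, add_zero]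
    · show coeff _ (C (T.a c.1) * X c.1 + T.B c.1) = _
      rw [coeff_add, hB _ _ h2, coeff_C_mul, coeff_X, if_neg, mul_zero, add_zero]
      intro e
      exact h1 (Subtype.ext (Finsupp.single_left_injective one_ne_zero e)).symm
  have hp : 0 < ∏ c : {c // T.lev c = 1}, |T.a c.1| := prod_pos fun c _ => abs_pos.2 (T.a_ne _)
  have hlm : Rg.lm T.toTri T.lev 1 = Real.log (∏ c : {c // T.lev c = 1}, |T.a c.1|) := by
    rw [Real.log_prod fun c _ => (abs_pos.2 (T.a_ne _)).ne', Rg.lm]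
    exact sum_subtype _ (by simp) _
  by_contra hlt
  rw [not_le, hlm, Real.log_lt_iff_lt_exp hp] at hlt
  obtain ⟨z, hz0, hz⟩ := mink hL (Real.exp_pos (-(Y / 2 + n))) (by
    rw [← Real.exp_nat_mul]
    convert hlt using 2
    ring)
  let z' : ι → ℤ := fun c => if hc : T.lev c = 1 then z ⟨c, hc⟩ else 0
  have hD : Rg.Dj T.toTri T.lev 1 z' 0 = ∑ c, (∑ r, L c r * z r) ^ 2 := by
    rw [Rg.Dj, sum_subtype (p := fun c => T.lev c = 1) _ (by simp)]
    refine sum_congr rfl fun c _ => ?_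
    have h1 := T.th_degLe c.1
    rw [c.2] at h1
    congr 1
    rw [eq_aff T.lev_pos h1]
    simp only [ev, map_add, eval_C, map_sum, map_mul, eval_X, Pi.zero_apply, Int.cast_zero,
      mul_zero, sum_const_zero, add_zero, add_sub_cancel_left]
    exact sum_congr rfl fun r _ => by simp only [z', dif_pos r.2]; rfl
  rcases h z' 0 with h0 | h0
  · rw [hD, sum_eq_zero_iff_of_nonneg fun _ _ => sq_nonneg _] at h0
    refine hz0 (funext fun c => ?_)
    have h1 : L.mulVecLin (fun r => (z r : ℝ)) = L.mulVecLin 0 := by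
      rw [map_zero]
      funext c
      exact pow_eq_zero_iff two_ne_zero |>.1 (h0 c (mem_univ c))
    have h2 := congrFun (hL.mulVec_bij.1 h1) c
    simpa using h2
  · rw [hD] at h0
    have h1 : ∑ c, (∑ r, L c r * z r) ^ 2 ≤ n * Real.exp (-(Y / 2 + n)) ^ 2 := by
      refine (sum_le_card_nsmul _ _ _ fun c _ => ?_).trans (by rw [card_univ, nsmul_eq_mul])
      rw [← sq_abs]
      exact pow_le_pow_left₀ (abs_nonneg _) (hz c).le 2
    have h2 : Real.exp (-(Y / 2 + n)) ^ 2 = Real.exp (-Y) * Real.exp (-(2 * n)) := by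
      rw [← Real.exp_nat_mul, ← Real.exp_add]
      congr 1
      push_cast
      ring
    have h3 : (n : ℝ) * Real.exp (-(2 * n)) < 1 := by
      rw [Real.exp_neg, ← div_eq_mul_inv, div_lt_one (Real.exp_pos _)]
      have := Real.add_one_le_exp (2 * (n : ℝ))
      have : (0 : ℝ) ≤ n := Nat.cast_nonneg n
      linarith
    rw [h2] at h1
    nlinarith [Real.exp_pos (-Y)]

/-- the mass of the wider frames -/
theorem bulk_of (T : Cell ι) {s D : ℕ} (hs : ∀ c, T.lev c ≤ s) {σ v x η : ℝ} (hσ : 0 < σ)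
    (hv : 0 ≤ v) (h : σ⁻¹ ≤ Real.exp v) (hA : T.AllPC x η) (hη : η ≤ 1)
    (hx : Fm.fl D s (s * v) ≤ x) :
    Sg.Bulk T D σ (1 + (s + 1) ^ D * Fintype.card ι) := by
  intro Z
  have h2 : (0 : ℝ) < √2 := by positivity
  let S := (Fm.nat ι D σ hσ).wide √2 h2
  have h3 := S.M_le T hs ((Fm.nat_ok hs hσ hv h).wide' h2 (Real.one_le_sqrt.2 (by norm_num))) hA hx
  rw [Fm.Sh.wide_mu, ← Fm.fmu_eq T D hσ] at h3
  have e : ∀ z, S.wt T (S.fr z) = Real.exp (-Real.pi * Gl.fq T σ (Fm.frE D T.lev z) / 2) := by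
    intro z
    rw [Fm.Sh.wt, Fm.Sh.wide_fr, Fm.Sh.wide_qf, Real.sq_sqrt (by norm_num), Fm.fq_eq T hσ,
      Fm.frE_W σ hσ, mul_div_assoc]
  have h4 : ∑ V ∈ Z, Real.exp (-Real.pi * Gl.fq T σ V / 2) ≤ S.M T := by
    have hsum := (S.summable T).congr e
    rw [Fm.Sh.M, tsum_congr e, (Fm.frE D T.lev).tsum_eq
      fun V => Real.exp (-Real.pi * Gl.fq T σ V / 2)]
    exact ((Fm.frE D T.lev).summable_iff
      (f := fun V => Real.exp (-Real.pi * Gl.fq T σ V / 2))).1 hsum |>.sum_le_tsum Z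
      fun _ _ => (Real.exp_pos _).le
  refine h4.trans (h3.trans ?_)
  have hmu : 0 < Gl.fmu T D σ := by rw [Fm.fmu_eq T D hσ]; exact Fm.Sh.mu_pos _ T
  rw [← mul_assoc]
  refine mul_le_mul_of_nonneg_right ?_ hmu.le
  have h5 : (Fintype.card (Fm.FI D T.lev) : ℝ) ≤ (s + 1) ^ D * Fintype.card ι := by
    exact_mod_cast Fm.card_FI_le T hs
  have h6 : √2 ≤ Real.exp 1 := by
    have := Real.add_one_le_exp (1 : ℝ)
    refine le_trans (Real.sqrt_le_iff.2 ⟨by norm_num, by norm_num⟩ : √2 ≤ 2) (by linarith)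
  rw [Real.exp_add]
  refine mul_le_mul (by linarith [Real.add_one_le_exp (1 : ℝ)]) ?_ (by positivity) (by positivity)
  refine (pow_le_pow_left₀ h2.le h6 _).trans ?_
  rw [← Real.exp_nat_mul, mul_one]
  exact Real.exp_le_exp.2 h5

end N98

open N98

theorem nondegStmt : NondegStmt := by
  refine ⟨2, fun ι _ T p Y n hY hn hc hp htop hsep => ?_⟩
  have h0 : p = C (coeff 0 p) := (DegLe.of_whc_eq_zero (d := 0) hp htop).eq_C T.lev_pos
  have h1 := lm_ge T (Y := Y) fun z z' => hsep z z' (by rw [h0]; simp [ev]) fun c h => by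
    have := T.lev_pos c
    omega
  have h2 : (Fintype.card {c // T.lev c = 1} : ℝ) ≤ n :=
    le_trans (by exact_mod_cast Fintype.card_subtype_le _) hc
  have h3 : (0 : ℝ) ≤ Fintype.card {c // T.lev c = 1} := Nat.cast_nonneg _
  refine le_trans (neg_le_neg ?_) h1
  nlinarith [mul_le_mul h2 h2 h3 (by linarith), mul_le_mul_of_nonneg_right h2 hY]

theorem bulkStmt : BulkStmt := by
  intro s D
  obtain ⟨D1, hD⟩ := allDerMStmt s s
  have hC : ∀ᶠ C : ℕ in Filter.atTop, ∀ m n : ℝ, 2 ≤ m → |n| ≤ m →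
      3 * ((s + 1) ^ (D + 1) * ((s + 1) * (s * (2 * m)) + s ^ 2 + 1)) + (n + 2) + 2 ≤ m ^ C ∧
      1 + (s + 1) ^ D * n ≤ m ^ C := by qp
  obtain ⟨C, hC, hC1⟩ := (hC.and (Filter.eventually_ge_atTop (D1 + 1))).exists
  refine ⟨C, fun ι _ T τ σ L R h => ?_⟩
  have hR := h.two
  have hn : (0 : ℝ) ≤ Fintype.card ι := Nat.cast_nonneg _
  have hL : (0 : ℝ) < L := (Real.exp_pos _).trans_le h.L_ge
  have hu : R ≤ Real.log L :=
    (le_self_pow₀ (by linarith) (by omega)).trans ((Real.le_log_iff_exp_le hL).2 h.L_ge)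
  have hσ : σ⁻¹ ≤ Real.exp (2 * Real.log L) := by
    have h1 : Real.exp (-Real.log L) ≤ σ * L := (Real.exp_le_exp.2 (by linarith)).trans h.le_σ
    rw [Real.exp_neg, Real.exp_log hL, inv_le_iff_one_le_mul₀ hL] at h1
    rw [two_mul, Real.exp_add, Real.exp_log hL, inv_le_iff_one_le_mul₀ h.σ_pos]
    linarith
  have h1 := (hC (Real.log L) (Fintype.card ι) (hR.trans hu)
    (by rw [abs_of_nonneg hn]; exact h.card.trans hu)).1.trans h.L_le
  have h2 := (hC R (Fintype.card ι) hR (by rw [abs_of_nonneg hn]; exact h.card)).2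
  have h3 : Real.log (Fintype.card ι + 2) ≤ Fintype.card ι + 2 :=
    Real.log_le_self (by linarith)
  have h4 : 0 ≤ Real.log (Fintype.card ι + 2) := Real.log_nonneg (by linarith)
  have h5 : 0 ≤ Fm.fl D s (s * (2 * Real.log L)) := by
    have : 0 ≤ Real.log L := by linarith
    unfold Fm.fl
    positivity
  have h0 : 0 ≤ τ (s + 1) := le_trans (pow_nonneg (by linarith) _) h.L_le
  have hA := (hD ι T T.lev τ (Fm.fl D s (s * (2 * Real.log L))) _ T.isMC_lev h.lev h.lev
    (MA.regM_mono (Cell.regM_of_reg h.reg) (by omega) (by omega) h0) le_rfl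
    (by unfold Fm.fl; linarith)).2
  intro Z
  refine (bulk_of T h.lev h.σ_pos (by linarith) hσ hA
    (Real.exp_le_one_iff.2 (by linarith)) le_rfl Z).trans ?_
  refine mul_le_mul_of_nonneg_right (Real.exp_le_exp.2 h2) ?_
  rw [Fm.fmu_eq T D h.σ_pos]
  exact (Fm.Sh.mu_pos _ T).le

end Crest.Agent.T49.Fr
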