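import Crest.Agent.T49.NilUq_61
import Crest.Agent.T49.TwPoly_91
import Crest.Agent.T49.Qp_85

/-!
# Row 49 (helper84): GFACT, global factorisation of a weighted polynomial map

If all restrictions `X ∘ r ω` of a weighted polynomial map factor through `H`, and scalar forms that
are small + rational on all restrictions are short (oracle `Orc`), then `X` factors globally.
-/

set_option autoImplicit false

noncomputable section

namespace Crest.Agent.T49.Gf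

open Finset MvPolynomial
open Crest.Agent.T49.Nil Crest.Agent.T49.Nil.ND Crest.Agent.T49.Nil.St
open Crest.Agent.T49.Bch (star)
open Crest.Agent.T49.Tw (Pl nrm DegLe)

variable {ι : Type} [Fintype ι] {N : ND ι} {σ τ Ω : Type}

/-! ### weighted polynomial maps -/

/-- polynomial maps whose coefficient of `z^m` lies in `W (weight lev m)` -/
def wcf (lev : σ → ℕ) (W : ℕ → Submodule ℝ N.L) : Submodule ℝ (N.PS σ) where
  carrier := {P | ∀ m : σ →₀ ℕ, N.cv m P ∈ W (Finsupp.weight lev m)}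
  add_mem' hP hQ α := by rw [map_add]; exact add_mem (hP α) (hQ α)
  zero_mem' α := by rw [map_zero]; exact zero_mem _
  smul_mem' r P hP α := by rw [map_smul]; exact Submodule.smul_mem _ _ (hP α)

variable {lev : σ → ℕ}

theorem mem_wcf {W : ℕ → Submodule ℝ N.L} {P : N.PS σ} :
    P ∈ wcf lev W ↔ ∀ m : σ →₀ ℕ, N.cv m P ∈ W (Finsupp.weight lev m) := Iff.rfl

theorem wcf_mono {W W' : ℕ → Submodule ℝ N.L} (h : ∀ i, W i ≤ W' i) : wcf lev W ≤ wcf lev W' :=
  fun _ hP α => h _ (hP α)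

theorem wcf_one (W : ℕ → Submodule ℝ N.L) : wcf (fun _ : σ => 1) W = cf σ W := by
  ext P
  simp only [mem_wcf, mem_cf, Finsupp.degree_eq_weight_one]

theorem wcf_le_cf (hl : ∀ c, 0 < lev c) {W : ℕ → Submodule ℝ N.L} (hW : Antitone W) :
    wcf lev W ≤ cf σ W := fun _ hP m => hW (Tw.degree_le_weight hl m) (hP m)

theorem wcf_le_poly (hl : ∀ c, 0 < lev c) : wcf lev N.F ≤ N.poly σ := wcf_le_cf hl grSub_F.anti

theorem lie_mem_wcf {W W' W'' : ℕ → Submodule ℝ N.L}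
    (h : ∀ i j, ∀ x ∈ W i, ∀ y ∈ W' j, ⁅x, y⁆ ∈ W'' (i + j)) {P Q : N.PS σ}
    (hP : P ∈ wcf lev W) (hQ : Q ∈ wcf lev W') : ⁅P, Q⁆ ∈ wcf lev W'' := by
  classical
  intro α
  rw [cv_lie]
  refine Submodule.sum_mem _ fun p hp => ?_
  rw [← mem_antidiagonal.1 hp, map_add]
  exact h _ _ _ (hP _) _ (hQ _)

theorem star_mem_wcf (S : ℕ) {H : ℕ → Submodule ℝ N.L} (h : N.GrSub H) {P Q : N.PS σ}
    (hP : P ∈ wcf lev H) (hQ : Q ∈ wcf lev H) : star S P Q ∈ wcf lev H :=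
  star_mem S _ (fun _ ha _ hb => lie_mem_wcf h.lie ha hb) hP hQ

theorem cv_subst (r : σ → Pl τ) (α : τ →₀ ℕ) (P : N.PS σ) (s : Finset (σ →₀ ℕ))
    (hs : ∀ k, (P k).support ⊆ s) :
    N.cv α (N.subst r P) = ∑ m ∈ s, coeff α (bind₁ r (monomial m 1)) • N.cv m P := by
  ext k
  rw [ND.sum_apply]
  simp only [cv_apply, ND.smul_apply, smul_eq_mul]
  change coeff α (bind₁ r (P k)) = _
  have h1 : P k = ∑ m ∈ s, C (coeff m (P k)) * monomial m 1 := by
    conv_lhs => rw [(P k).as_sum]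
    rw [sum_subset (hs k) fun m _ hm => by rw [notMem_support_iff.1 hm, map_zero]]
    exact sum_congr rfl fun m _ => by rw [C_mul_monomial, mul_one]
  conv_lhs => rw [h1, map_sum, coeff_sum]
  refine sum_congr rfl fun m _ => ?_
  rw [map_mul, bind₁_C_right, coeff_C_mul, mul_comm]

/-- substitution of polynomials of the right weighted degree -/
theorem subst_mem_wcf {lev' : τ → ℕ} {r : σ → Pl τ} (hr : ∀ c, DegLe lev' (r c) (lev c))
    {W : ℕ → Submodule ℝ N.L} (hW : Antitone W) {P : N.PS σ} (hP : P ∈ wcf lev W) :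
    N.subst r P ∈ wcf lev' W := by
  classical
  intro α
  rw [cv_subst r α P (univ.biUnion fun k => (P k).support)
    fun k => subset_biUnion_of_mem (fun k => (P k).support) (mem_univ k)]
  refine Submodule.sum_mem _ fun m _ => ?_
  by_cases h : coeff α (bind₁ r (monomial m (1 : ℝ))) = 0
  · rw [h, zero_smul]; exact zero_mem _
  · exact Submodule.smul_mem _ _ (hW (Tw.DegLe.bind hr (Tw.degLe_monomial m 1) α
      (mem_support_iff.2 h)) (hP m))

theorem subst_mem_cf {r : σ → Pl τ} (hr : ∀ c, DegLe (fun _ => 1) (r c) (lev c))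
    {W : ℕ → Submodule ℝ N.L} (hW : Antitone W) {P : N.PS σ} (hP : P ∈ wcf lev W) :
    N.subst r P ∈ cf τ W := by
  rw [← wcf_one]; exact subst_mem_wcf hr hW hP

theorem subst_apply (r : σ → Pl τ) (P : N.PS σ) (k : ι) : N.subst r P k = bind₁ r (P k) := rfl

theorem subst_subst {υ : Type} (r : σ → Pl τ) (r' : τ → Pl υ) (P : N.PS σ) :
    N.subst r' (N.subst r P) = N.subst (fun c => bind₁ r' (r c)) P := by
  ext k : 1
  simp only [subst_apply, bind₁_bind₁]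

theorem ratP_iff {q : ℕ} {P : N.PS σ} : N.RatP q P ↔ ∀ k, Tw.IsInt (C (q : ℝ) * P k) := by
  simp only [RatP, den_iff, Tw.IsInt, coeff_C_mul, cv_apply]
  exact forall_comm

theorem ratP_subst {r : σ → Pl τ} (hr : ∀ c, Tw.IsInt (r c)) {q : ℕ} {P : N.PS σ}
    (hP : N.RatP q P) : N.RatP q (N.subst r P) := by
  rw [ratP_iff] at hP ⊢
  intro k
  have := Tw.IsInt.bind hr (hP k)
  rwa [map_mul, bind₁_C_right] at this

theorem mem_wcf_trunc_succ {H : ℕ → Submodule ℝ N.L} {j : ℕ} {P : N.PS σ}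
    (hP : P ∈ wcf lev (trunc j H))
    (h : ∀ m : σ →₀ ℕ, Finsupp.weight lev m = j → N.cv m P ∈ H j) :
    P ∈ wcf lev (trunc (j + 1) H) := fun α => by
  have := hP α
  rcases lt_trichotomy (Finsupp.weight lev α) j with h1 | h1 | h1
  · rw [trunc_lt H h1] at this; rwa [trunc_lt H (by omega)]
  · rw [trunc_lt H (by omega), h1]; exact h α h1
  · rw [trunc_ge H (by omega)] at this; rwa [trunc_ge H (by omega)]

theorem mem_wcf_of_trunc {S : ℕ} (hS : ∀ k, N.wt k ≤ S) {H : ℕ → Submodule ℝ N.L} {P : N.PS σ}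
    (hP : P ∈ wcf lev (trunc (S + 1) H)) : P ∈ wcf lev H := fun α => by
  have := hP α
  by_cases h : Finsupp.weight lev α < S + 1
  · rwa [trunc_lt H h] at this
  · rw [trunc_ge H (by omega)] at this
    rw [eq_zero_of_mem_FA hS (FA_anti (by omega) this)]
    exact zero_mem _

/-- weighted maps without symbol below weight `j` -/
abbrev wZ (N : ND ι) (lev : σ → ℕ) (j : ℕ) : Submodule ℝ (N.PS σ) :=
  wcf lev (trunc j fun i => N.F (i + 1))

theorem wZ_le (j : ℕ) : wZ N lev j ≤ wcf lev N.F := wcf_mono (grSub_trunc grSub_succ j).le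

theorem wZ_succ_le (j : ℕ) : wZ N lev (j + 1) ≤ wZ N lev j := wcf_mono fun i => by
  by_cases h : i < j
  · rw [trunc_lt _ h, trunc_lt _ (by omega)]
  · rw [trunc_ge _ (by omega : j ≤ i)]; exact (grSub_trunc grSub_succ _).le i

theorem wZ_le_trunc {H : ℕ → Submodule ℝ N.L} (h : N.GrSub H) (j : ℕ) :
    wZ N lev j ≤ wcf lev (trunc j H) :=
  wcf_mono fun i => by unfold trunc; split_ifs; exacts [h.ge i, le_rfl]

theorem lie_mem_wZ (j : ℕ) :
    ∀ P ∈ wcf lev N.F, ∀ Q ∈ wZ N lev j, ⁅P, Q⁆ ∈ wZ N lev (j + 1) := by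
  intro P hP Q hQ
  refine lie_mem_wcf (fun a b x hx y hy => ?_) hP hQ
  by_cases h : a + b < j + 1
  · rw [trunc_lt _ h]
    by_cases hb : b < j
    · rw [trunc_lt _ hb] at hy
      exact lie_mem_FA (j := b + 1) hx hy
    · rw [trunc_ge _ (by omega)] at hy
      obtain rfl : a = 0 := by omega
      rw [zero_add]
      exact lie_mem_FA_succ x hy
  · rw [trunc_ge _ (by omega)]
    exact lie_mem_FA hx ((grSub_trunc grSub_succ j).le b hy)

theorem wcong3 (S j : ℕ) {e g e' g' x : N.PS σ} (he : e ∈ wcf lev N.F) (hg : g ∈ wcf lev N.F)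
    (he' : e' ∈ wcf lev N.F) (hg' : g' ∈ wcf lev N.F) (hx : x ∈ wcf lev N.F)
    (h1 : e' - e ∈ wZ N lev j) (h2 : g' - g ∈ wZ N lev j) :
    star S e' (star S x g') - star S e (star S x g) - ((e' - e) + (g' - g)) ∈ wZ N lev (j + 1) :=
  star_cong3 S (wcf lev N.F) _ _ (fun _ ha _ hb => lie_mem_wcf grSub_F.lie ha hb) (lie_mem_wZ j)
    (wZ_succ_le j) he hg he' hg' hx h1 h2

/-- a map concentrated in the weight `j` (coordinates and monomials) -/
theorem mem_wZ_of_hom {j : ℕ} {P : N.PS σ} (h0 : ∀ k, N.wt k ≠ j → P k = 0)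
    (h : ∀ k, IsWeightedHomogeneous lev (P k) j) : P ∈ wZ N lev j := fun m => by
  by_cases h1 : Finsupp.weight lev m = j
  · rw [h1, trunc_ge _ le_rfl]
    intro k hk
    rw [cv_apply, h0 k hk.ne, coeff_zero]
  · have : N.cv m P = 0 := by
      ext k
      by_contra h2
      exact h1 (h k h2)
    rw [this]; exact zero_mem _

/-! ### norm at scale `L` -/

/-- dilation of the variables -/
def dil (L : ℝ) : Pl τ →ₐ[ℝ] Pl τ := bind₁ fun v => C L * X v

theorem coeff_dil (L : ℝ) (p : Pl τ) (α : τ →₀ ℕ) :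
    coeff α (dil L p) = coeff α p * L ^ α.degree := by
  classical
  have h1 : ∀ (m : τ →₀ ℕ) (a : ℝ), dil L (monomial m a) = monomial m (a * L ^ m.degree) := by
    intro m a
    rw [dil, bind₁_monomial, monomial_eq, Finsupp.prod, Finsupp.degree_apply]
    simp only [mul_pow, prod_mul_distrib, ← C_pow, ← map_prod, prod_pow_eq_pow_sum, map_mul]
    ring
  induction p using MvPolynomial.induction_on' with
  | monomial m a =>
    rw [h1, coeff_monomial, coeff_monomial]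
    split_ifs with h
    · rw [h]
    · rw [zero_mul]
  | add p q hp hq => rw [map_add, coeff_add, coeff_add, hp, hq, add_mul]

/-- `ℓ¹` norm at scale `L` -/
def nrmL (L : ℝ) (p : Pl τ) : ℝ := nrm (dil L p)

theorem abs_coeff_le_nrmL {L : ℝ} (hL : 0 ≤ L) (p : Pl τ) (α : τ →₀ ℕ) :
    |coeff α p| * L ^ α.degree ≤ nrmL L p := by
  have := Tw.abs_coeff_le_nrm (dil L p) α
  rwa [coeff_dil, abs_mul, abs_of_nonneg (pow_nonneg hL _)] at this

theorem nrmL_le {L : ℝ} (hL : 0 ≤ L) {p : Pl τ} {s : Finset (τ →₀ ℕ)} (hs : p.support ⊆ s) {R : ℝ}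
    (h : ∀ α ∈ s, |coeff α p| * L ^ α.degree ≤ R) : nrmL L p ≤ s.card * R := by
  refine Tw.nrm_le_card_mul (fun α hα => hs ?_) fun α hα => ?_
  · rw [mem_support_iff] at hα ⊢
    rw [coeff_dil] at hα
    exact left_ne_zero_of_mul hα
  · rw [coeff_dil, abs_mul, abs_of_nonneg (pow_nonneg hL _)]
    exact h α hα

theorem nrmL_bind_le (hl : ∀ c, 0 < lev c) {g : σ → Pl τ} {L K : ℝ} (hK : 1 ≤ K)
    (hg : ∀ c, nrmL L (g c) ≤ K) {e : Pl σ} {d : ℕ} (he : DegLe lev e d) :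
    nrmL L (bind₁ g e) ≤ nrm e * K ^ d := by
  have : dil L (bind₁ g e) = bind₁ (fun c => dil L (g c)) e := by rw [dil, bind₁_bind₁]
  rw [nrmL, this]
  exact Tw.nrm_bind_le_of_pos hl hg hK he

theorem sm_of_nrmL {L M : ℝ} (hL : 0 ≤ L) (hM : 0 ≤ M) {P : N.PS τ}
    (h : ∀ k, nrmL L (P k) ≤ M) : N.Sm L M P := by
  intro α
  rcases (pow_nonneg hL α.degree).eq_or_lt with h0 | h0
  · rw [← h0, mul_zero]; exact hM
  rw [← le_div_iff₀ h0, norm_le_iff (by positivity)]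
  intro k
  rw [le_div_iff₀ h0]
  exact (abs_coeff_le_nrmL hL (P k) α).trans (h k)

/-! ### the statement -/

/-- the oracle: a form whose restrictions have top coefficients within `U L^(-i)` of `ℤ/q` is, up
to a multiplier, a short form in the `th c` modulo integer forms -/
def Orc (lev : σ → ℕ) (th : σ → Pl σ) (r : Ω → σ → Pl τ) (S : ℕ) (L U V : ℝ) : Prop :=
  ∀ (i : ℕ) (G : Pl σ) (q : ℕ), 1 ≤ i → i ≤ S → IsWeightedHomogeneous lev G i → 1 ≤ q →
    (q : ℝ) ≤ U →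
    (∀ ω, ∀ α : τ →₀ ℕ, α.degree = i →
      ∃ n : ℤ, |q * coeff α (bind₁ (r ω) G) - n| * L ^ i ≤ U) →
    ∃ (b : ℕ) (e : Pl σ), 1 ≤ b ∧ (b : ℝ) ≤ V ∧ IsWeightedHomogeneous lev e i ∧ nrm e ≤ V ∧
      Tw.IsInt (C (b : ℝ) * G - bind₁ th e)

theorem Orc.mono {th : σ → Pl σ} {r : Ω → σ → Pl τ} {S : ℕ} {L U V U' V' : ℝ}
    (h : Orc lev th r S L U V) (hU : U' ≤ U) (hV : V ≤ V') : Orc lev th r S L U' V' := by
  intro i G q h1 h2 h3 h4 h5 h6
  obtain ⟨b, e, a1, a2, a3, a4, a5⟩ := h i G q h1 h2 h3 h4 (h5.trans hU) fun ω α hα =>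
    (h6 ω α hα).imp fun n hn => hn.trans hU
  exact ⟨b, e, a1, a2.trans hV, a3, a4.trans hV, a5⟩

/-- global factorisation `X = ε₀(th) * h * γ` together with a property `p` of the middle factor -/
def WF (N : ND ι) (lev : σ → ℕ) (th : σ → Pl σ) (S : ℕ) (M : ℝ) (q : ℕ)
    (H : ℕ → Submodule ℝ N.L) (X : N.PS σ) (p : N.PS σ → Prop) : Prop :=
  ∃ ε ∈ wcf lev N.F, ∃ h ∈ wcf lev H, ∃ γ ∈ wcf lev N.F,
    N.Sm 1 M ε ∧ N.RatP q γ ∧ X = star S (N.subst th ε) (star S h γ) ∧ p h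

theorem step {S d : ℕ} {B L M V M1 : ℝ} {th : σ → Pl σ} {r : Ω → σ → Pl τ}
    {H : ℕ → Submodule ℝ N.L} (hl : ∀ c, 0 < lev c) (hB : 1 ≤ B) (hd : Fintype.card ι ≤ d)
    (hS : ∀ k, N.wt k ≤ S) (hc : ∀ i j k, |(N.c i j k : ℝ)| ≤ B) (hH : N.GrSub H)
    (hR : ∀ i, N.RatS B (H i)) (hth : ∀ c, IsWeightedHomogeneous lev (th c) (lev c))
    (hri : ∀ ω c, Tw.IsInt (r ω c)) (hrd : ∀ ω c, DegLe (fun _ => 1) (r ω c) (lev c))
    (hrs : ∀ ω c, nrmL L (bind₁ (r ω) (th c)) ≤ B) {j q : ℕ} (hj : j + 1 ≤ S) (hq : 1 ≤ q)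
    (hM : 1 ≤ M) (hV : 1 ≤ V) (hL : q * (Gon.bl d B * M) < L)
    (hO : Orc lev th r S L (q * (Gon.bl d B * M)) V) (hM1 : M ≤ M1) (hV1 : V * B ^ S ≤ M1)
    {X : N.PS σ} (hX : WF N lev th S M q (trunc (j + 1) H) X
      fun h => ∀ ω, N.FactQ S L M q H (N.subst (r ω) h)) :
    ∃ b : ℕ, 1 ≤ b ∧ (b : ℝ) ≤ Gon.bl d B * V ^ d ∧
      WF N lev th S (cS S * (kB S d B * M1) ^ (S + 1)) (dS S * (q * b) ^ (S + 1))
        (trunc (j + 2) H) X fun h => ∀ ω, N.FactQ S L (cS S * (kB S d B * M1) ^ (S + 1))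
          (dS S * (q * b) ^ (S + 1)) H (N.subst (r ω) h) := by
  classical
  obtain ⟨ε, hε, h, hh, γ, hγ, hεs, hγr, hXe, hF⟩ := hX
  have hbl := Gon.one_le_bl d hB
  have hq' : (1 : ℝ) ≤ q := by exact_mod_cast hq
  have hU1 : (q : ℝ) ≤ q * (Gon.bl d B * M) :=
    le_mul_of_one_le_right (by linarith) (one_le_mul_of_one_le_of_one_le hbl hM)
  have hL1 : 1 ≤ L := by linarith
  have hL0 : 0 ≤ L := by linarith
  have hT := grSub_trunc hH (j + 1)
  have hhF : h ∈ wcf lev N.F := wcf_mono hT.le hh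
  obtain ⟨q0, P, hq0, hq0b, -, hPn, hPk, hPp⟩ := Gon.IsRat.exists_proj (hR (j + 1)) hB hd
  set Φ : ι → Pl σ := fun k => ∑ i, C (P k i : ℝ) * h i with hΦ
  have hΦc : ∀ k m, coeff m (Φ k) = Gon.lin P (N.cv m h) k := fun k m => by
    simp only [hΦ, coeff_sum, coeff_C_mul, Gon.lin_apply, cv_apply]
  have hΦd : ∀ k, DegLe lev (Φ k) (j + 1) := fun k m hm => by
    by_contra hlt
    have h1 := hh m
    rw [trunc_ge H (by omega)] at h1
    have h2 := (hPk _).1 (hH.ge (j + 1) (FA_anti (by omega) h1))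
    exact mem_support_iff.1 hm (by rw [hΦc]; exact congrFun h2 k)
  set G : ι → Pl σ := fun k => weightedHomogeneousComponent lev (j + 1) (Φ k) with hG
  have hGh : ∀ k, IsWeightedHomogeneous lev (G k) (j + 1) := fun k =>
    weightedHomogeneousComponent_isWeightedHomogeneous _ _
  have hGr : ∀ ω k (α : τ →₀ ℕ), α.degree = j + 1 →
      coeff α (bind₁ (r ω) (G k)) = Gon.lin P (N.cv α (N.subst (r ω) h)) k := by
    intro ω k α hα
    have h1 : coeff α (bind₁ (r ω) (Φ k - G k)) = 0 := by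
      by_contra h0
      have := Tw.DegLe.bind (hrd ω) (hΦd k).sub_whc α (mem_support_iff.2 h0)
      rw [← Finsupp.degree_eq_weight_one] at this
      omega
    rw [map_sub, coeff_sub, sub_eq_zero] at h1
    rw [← h1]
    simp only [hΦ, map_sum, map_mul, bind₁_C_right, coeff_sum, coeff_C_mul, Gon.lin_apply,
      cv_apply, subst_apply]
  have hor : ∀ k, ∃ (b : ℕ) (e : Pl σ), 1 ≤ b ∧ (b : ℝ) ≤ V ∧
      IsWeightedHomogeneous lev e (j + 1) ∧ nrm e ≤ V ∧
      Tw.IsInt (C (b : ℝ) * G k - bind₁ th e) := by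
    intro k
    refine hO (j + 1) (G k) q (by omega) hj (hGh k) hq hU1 fun ω α hα => ?_
    obtain ⟨e, he, x, hx, g, hg, hes, hgr, hxe⟩ := hF ω
    have hu := uniq S hT hB (ratS_trunc hB hR (j + 1)) hd hq hL1 hL he hg hes hgr
      (cf_mono (le_trunc hH (j + 1)) hx) (hxe ▸ subst_mem_cf (hrd ω) hT.anti hh)
    have h1 := St.lev S (j + 1) hH hu.1 hu.2 (cf_mono (le_trunc hH (j + 2)) hx) hα
    rw [← hxe] at h1
    have h2 := congrFun ((hPk _).1 h1) k
    have h3 : Gon.lin P (N.cv α (N.subst (r ω) h)) k =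
        Gon.lin P (N.cv α e) k + Gon.lin P (N.cv α g) k := by
      simp only [Gon.lin_apply, ND.sub_apply, mul_sub, sum_sub_distrib, Pi.zero_apply] at h2 ⊢
      linarith
    obtain ⟨n, hn⟩ := Gon.IsDen.iff_coord.1 (Gon.IsDen.lin (hgr α) P) k
    refine ⟨n, ?_⟩
    rw [hGr ω k α hα, h3, mul_add, hn, add_sub_cancel_right, abs_mul, abs_of_nonneg (by linarith),
      mul_assoc]
    refine mul_le_mul_of_nonneg_left ?_ (by linarith)
    have h5 : |Gon.lin P (N.cv α e) k| ≤ Gon.bl d B * ‖N.cv α e‖ :=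
      (norm_le_pi_norm (Gon.lin P (N.cv α e)) k).trans (hPn _)
    refine (mul_le_mul_of_nonneg_right h5 (by positivity)).trans ?_
    rw [mul_assoc, ← hα]
    exact mul_le_mul_of_nonneg_left (hes α) (by linarith)
  choose b e hb1 hbV heh hen hint using hor
  have hq0' : (1 : ℝ) ≤ q0 := by exact_mod_cast hq0
  have hb' : ∀ k, (1 : ℝ) ≤ b k := fun k => by exact_mod_cast hb1 k
  set E0 : N.PS σ := fun k => if N.wt k = j + 1 then C ((q0 : ℝ) * b k)⁻¹ * e k else 0 with hE0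
  set Γ : N.PS σ := fun k =>
    if N.wt k = j + 1 then C ((q0 : ℝ) * b k)⁻¹ * (C (b k : ℝ) * G k - bind₁ th (e k)) else 0
    with hΓ
  have hbe : ∀ k, IsWeightedHomogeneous lev (bind₁ th (e k)) (j + 1) := fun k =>
    Tw.hom_bind (AddMonoidHom.id ℕ) hth (heh k)
  have hE0h : ∀ k, IsWeightedHomogeneous lev (E0 k) (j + 1) := fun k => by
    simp only [hE0]
    split_ifs
    · exact Tw.hom_C_mul (heh k) _
    · exact isWeightedHomogeneous_zero _ _ _
  have hE0Z : E0 ∈ wZ N lev (j + 1) := mem_wZ_of_hom (fun k hk => if_neg hk) hE0h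
  have hEZ : N.subst th E0 ∈ wZ N lev (j + 1) :=
    mem_wZ_of_hom (fun k hk => by rw [subst_apply, show E0 k = 0 from if_neg hk, map_zero])
      fun k => Tw.hom_bind (AddMonoidHom.id ℕ) hth (hE0h k)
  have hΓZ : Γ ∈ wZ N lev (j + 1) := mem_wZ_of_hom (fun k hk => if_neg hk) fun k => by
    simp only [hΓ]
    split_ifs
    · exact Tw.hom_C_mul (Tw.hom_sub (Tw.hom_C_mul (hGh k) _) (hbe k)) _
    · exact isWeightedHomogeneous_zero _ _ _
  have hE0n : ∀ k, nrm (E0 k) ≤ V := fun k => by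
    simp only [hE0]
    split_ifs
    · rw [Tw.nrm_C_mul]
      have h1 : 1 ≤ (q0 : ℝ) * b k := one_le_mul_of_one_le_of_one_le hq0' (hb' k)
      refine le_trans (mul_le_of_le_one_left (Tw.nrm_nonneg _) ?_) (hen k)
      rw [abs_of_nonneg (by positivity)]
      exact inv_le_one_of_one_le₀ h1
    · rw [Tw.nrm_zero]; linarith
  have hBS : 1 ≤ B ^ S := one_le_pow₀ hB
  have hVM : V ≤ M1 := (le_mul_of_one_le_right (by linarith) hBS).trans hV1
  have hE0s : N.Sm 1 M1 E0 := fun α => by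
    rw [one_pow, mul_one, norm_le_iff (by linarith)]
    exact fun k => (Tw.abs_coeff_le_nrm _ _).trans ((hE0n k).trans hVM)
  have hΓr : N.RatP (q0 * ∏ k, b k) Γ := by
    rw [ratP_iff]
    intro k
    simp only [hΓ]
    split_ifs
    · have h1 : ((q0 * ∏ k, b k : ℕ) : ℝ) * ((q0 : ℝ) * b k)⁻¹ = (∏ i ∈ univ.erase k, b i : ℕ) := by
        rw [← mul_prod_erase univ b (mem_univ k)]
        have := hb' k
        push_cast
        field_simp
      rw [← mul_assoc, ← C_mul, h1]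
      exact (hint k).nat_mul _
    · rw [mul_zero]; exact Tw.isInt_zero
  have hb0 : 1 ≤ q0 * ∏ k, b k := Nat.mul_pos hq0 (prod_pos fun k _ => hb1 k)
  have hM1' : 1 ≤ M1 := hM.trans hM1
  have := ND.nil hS (MvPolynomial σ ℝ)
  have := ND.nil hS (MvPolynomial τ ℝ)
  have hEF := wZ_le _ hEZ
  have hΓF := wZ_le _ hΓZ
  refine ⟨q0 * ∏ k, b k, hb0, ?_, star S ε E0, star_mem_wcf S grSub_F hε (wZ_le _ hE0Z),
    star S (-N.subst th E0) (star S h (-Γ)), ?_, star S Γ γ, star_mem_wcf S grSub_F hΓF hγ,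
    Sm_star hS hc hB hd zero_le_one hM1' (wcf_le_poly hl hε) (wcf_le_poly hl (wZ_le _ hE0Z))
      (hεs.mono hM1) hE0s,
    RatP_star S (hΓr.of_dvd (Dvd.intro_left _ rfl)) (hγr.of_dvd (Dvd.intro _ rfl)), ?_,
    fun ω => ?_⟩
  · push_cast
    refine mul_le_mul hq0b ?_ (prod_nonneg fun k _ => by linarith [hb' k]) (by linarith)
    refine (prod_le_prod (fun k _ => by linarith [hb' k]) fun k _ => hbV k).trans ?_
    rw [prod_const, card_univ]
    exact pow_le_pow_right₀ hV hd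
  · have h1 := wZ_le_trunc hH _ (wcong3 S (j + 1) (zero_mem _) (zero_mem _) (neg_mem hEF)
      (neg_mem hΓF) hhF (by simpa using hEZ) (by simpa using hΓZ))
    have h2 : h - N.subst th E0 - Γ ∈ wcf lev (trunc (j + 2) H) := by
      refine mem_wcf_trunc_succ
        (sub_mem (sub_mem hh (wZ_le_trunc hH _ hEZ)) (wZ_le_trunc hH _ hΓZ)) fun m hm => ?_
      have hx : N.cv m h ∈ N.F (j + 1) := hm ▸ hhF m
      have h3 : N.cv m h - (q0 : ℝ)⁻¹ • (show N.L from Gon.lin P (N.cv m h)) ∈ H (j + 1) := by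
        have h4 := (H (j + 1)).smul_mem (q0 : ℝ)⁻¹ (hPp (N.cv m h))
        convert h4 using 1
        ext k
        change N.cv m h k - (q0 : ℝ)⁻¹ * Gon.lin P (N.cv m h) k =
          (q0 : ℝ)⁻¹ * ((q0 : ℝ) * N.cv m h k - Gon.lin P (N.cv m h) k)
        field_simp
      have h5 : (q0 : ℝ)⁻¹ • (show N.L from Gon.lin P (N.cv m h)) ∈ N.F (j + 1) := by
        simpa using sub_mem hx (hH.le _ h3)
      have h6 : (q0 : ℝ)⁻¹ • (show N.L from Gon.lin P (N.cv m h)) -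
          N.cv m (N.subst th E0) - N.cv m Γ ∈ N.F (j + 2) := by
        intro k hk
        by_cases hk' : N.wt k = j + 1
        · have h7 : coeff m (G k) = Gon.lin P (N.cv m h) k := by
            rw [hG, coeff_weightedHomogeneousComponent, if_pos hm, hΦc]
          have := hb' k
          simp only [ND.sub_apply, ND.smul_apply, cv_apply, subst_apply, hE0, hΓ, if_pos hk',
            map_mul, bind₁_C_right, coeff_C_mul, coeff_sub, smul_eq_mul, h7]
          field_simp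
          ring
        · have h8 := h5 k (by omega)
          simp only [ND.sub_apply, cv_apply, subst_apply, hE0, hΓ, if_neg hk', map_zero,
            coeff_zero, sub_zero, h8]
      have := add_mem h3 (hH.ge _ h6)
      rw [map_sub, map_sub]
      convert this using 1
      abel
    have h3 := add_mem h1 h2
    rw [Bch.zero_star, Bch.star_zero] at h3
    convert h3 using 1
    abel
  · rw [hXe, Bch.map_star, Bch.star_assoc, Bch.star_assoc S (-N.subst th E0), Bch.star_neg_star,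
      Bch.star_assoc, Bch.neg_star_star]
  · obtain ⟨e', he, x, hx, g, hg, hes, hgr, hxe⟩ := hF ω
    have a1 : N.subst (r ω) (N.subst th E0) ∈ N.poly τ := subst_mem_cf (hrd ω) grSub_F.anti hEF
    have a2 : N.subst (r ω) Γ ∈ N.poly τ := subst_mem_cf (hrd ω) grSub_F.anti hΓF
    have a3 : N.Sm L M1 (N.subst (r ω) (N.subst th E0)) := by
      refine sm_of_nrmL hL0 (by linarith) fun k => ?_
      rw [subst_subst, subst_apply]
      refine (nrmL_bind_le hl hB (hrs ω) (Tw.DegLe.of_hom (hE0h k))).trans (le_trans ?_ hV1)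
      exact mul_le_mul (hE0n k) (pow_le_pow_right₀ hB hj) (by positivity) (by linarith)
    refine ⟨star S (-N.subst (r ω) (N.subst th E0)) e', star_mem_poly S (neg_mem a1) he, x, hx,
      star S g (-N.subst (r ω) Γ), star_mem_poly S hg (neg_mem a2),
      Sm_star hS hc hB hd hL0 hM1' (neg_mem a1) he (Sm_neg a3) (hes.mono hM1),
      RatP_star S (hgr.of_dvd (Dvd.intro _ rfl))
        (RatP_neg ((ratP_subst (hri ω) hΓr).of_dvd (Dvd.intro_left _ rfl))), ?_⟩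
    rw [Bch.map_star, Bch.map_star, map_neg, map_neg, hxe]
    simp only [Bch.star_assoc]

theorem WF.mono {th : σ → Pl σ} {S : ℕ} {M M' : ℝ} {q : ℕ} {H : ℕ → Submodule ℝ N.L} {X : N.PS σ}
    {p p' : N.PS σ → Prop} (h : WF N lev th S M q H X p) (hM : M ≤ M') (hp : ∀ x, p x → p' x) :
    WF N lev th S M' q H X p' := by
  obtain ⟨ε, h1, x, h2, γ, h3, h4, h5, h6, h7⟩ := h
  exact ⟨ε, h1, x, h2, γ, h3, h4.mono hM, h5, h6, hp x h7⟩

/-- **GFACT** -/
theorem gfact (S C0 : ℕ) : ∃ C : ℕ, ∀ y : ℝ, 2 ≤ y → ∀ (ι σ τ Ω : Type) [Fintype ι] (N : ND ι)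
    (lev : σ → ℕ) (th : σ → Pl σ) (r : Ω → σ → Pl τ) (H : ℕ → Submodule ℝ N.L) (L : ℝ) (q : ℕ)
    (X : N.PS σ), (Fintype.card ι : ℝ) ≤ y → (∀ k, N.wt k ≤ S) →
    (∀ i j k, |(N.c i j k : ℝ)| ≤ Real.exp y) → N.GrSub H → (∀ i, N.RatS (Real.exp y) (H i)) →
    (∀ c, 0 < lev c) → (∀ c, IsWeightedHomogeneous lev (th c) (lev c)) →
    (∀ ω c, Tw.IsInt (r ω c)) → (∀ ω c, DegLe (fun _ => 1) (r ω c) (lev c)) →
    (∀ ω c, nrmL L (bind₁ (r ω) (th c)) ≤ Real.exp y) → Real.exp (y ^ C) ≤ L →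
    (∀ u, y ≤ u → u ≤ y ^ C → Orc lev th r S L (Real.exp u) (Real.exp (u ^ C0))) →
    1 ≤ q → (q : ℝ) ≤ Real.exp y → X ∈ wcf lev N.F →
    (∀ ω, N.FactQ S L (Real.exp y) q H (N.subst (r ω) X)) →
    ∃ q' : ℕ, 1 ≤ q' ∧ (q' : ℝ) ≤ Real.exp (y ^ C) ∧
      ∃ ε ∈ wcf lev N.F, ∃ h ∈ wcf lev H, ∃ γ ∈ wcf lev N.F,
        N.Sm 1 (Real.exp (y ^ C)) ε ∧ N.RatP q' γ ∧ X = star S (N.subst th ε) (star S h γ) := by
  have key : ∀ j : ℕ, ∃ C : ℕ, 1 ≤ C ∧ ∀ y : ℝ, 2 ≤ y → j ≤ S → ∀ (ι σ τ Ω : Type) [Fintype ι]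
      (N : ND ι) (lev : σ → ℕ) (th : σ → Pl σ) (r : Ω → σ → Pl τ) (H : ℕ → Submodule ℝ N.L)
      (L : ℝ) (q : ℕ) (X : N.PS σ), (Fintype.card ι : ℝ) ≤ y → (∀ k, N.wt k ≤ S) →
      (∀ i j k, |(N.c i j k : ℝ)| ≤ Real.exp y) → N.GrSub H → (∀ i, N.RatS (Real.exp y) (H i)) →
      (∀ c, 0 < lev c) → (∀ c, IsWeightedHomogeneous lev (th c) (lev c)) →
      (∀ ω c, Tw.IsInt (r ω c)) → (∀ ω c, DegLe (fun _ => 1) (r ω c) (lev c)) →
      (∀ ω c, nrmL L (bind₁ (r ω) (th c)) ≤ Real.exp y) → Real.exp (y ^ C) ≤ L →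
      (∀ u, y ≤ u → u ≤ y ^ C → Orc lev th r S L (Real.exp u) (Real.exp (u ^ C0))) →
      1 ≤ q → (q : ℝ) ≤ Real.exp y → X ∈ wcf lev N.F →
      (∀ ω, N.FactQ S L (Real.exp y) q H (N.subst (r ω) X)) →
      ∃ q' : ℕ, 1 ≤ q' ∧ (q' : ℝ) ≤ Real.exp (y ^ C) ∧
        WF N lev th S (Real.exp (y ^ C)) q' (trunc (j + 1) H) X
          fun h => ∀ ω, N.FactQ S L (Real.exp (y ^ C)) q' H (N.subst (r ω) h) := by
    intro j
    induction j with
    | zero =>
      refine ⟨1, le_rfl, fun y hy _ ι σ τ Ω _ N lev th r H L q X _ _ _ hH _ _ _ _ _ _ _ _ hq1 hq hX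
        hF => ⟨q, hq1, by rwa [pow_one], 0, zero_mem _, X, ?_, 0, zero_mem _,
          Sm_zero (Real.exp_pos _).le, RatP_zero _, by simp, by rwa [pow_one]⟩⟩
      refine mem_wcf_trunc_succ (fun m => ?_) fun m _ => hH.zero _
      rw [trunc_ge H (Nat.zero_le _)]; exact hX m
    | succ j ih =>
      obtain ⟨C1, hC1, hC⟩ := ih
      obtain ⟨C2, hC2⟩ : ∃ C : ℕ, ∀ (y : ℝ) (d : ℕ), 2 ≤ y → (d : ℝ) ≤ y →
          Real.exp (y ^ C1) * ((((d : ℝ) + 1) * Real.exp y) ^ (d + 2) * Real.exp (y ^ C1)) ≤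
            Real.exp (y ^ C) ∧ y ≤ y ^ C := by qp
      have hcS : 0 < cS S := by linarith [two_le_cS S]
      obtain ⟨C3, hC3⟩ : ∃ C : ℕ, ∀ (y : ℝ) (d : ℕ), 2 ≤ y → (d : ℝ) ≤ y →
          Real.exp (y ^ C2) < Real.exp (y ^ C) ∧ y ^ C2 ≤ y ^ C ∧ y ^ C1 ≤ y ^ C ∧
          cS S * (2 ^ S * ((d : ℝ) + 1) ^ 2 * Real.exp y *
            (Real.exp (y ^ C1) + Real.exp ((y ^ C2) ^ C0) * Real.exp y ^ S)) ^ (S + 1) ≤
            Real.exp (y ^ C) ∧
          (dS S : ℝ) * (Real.exp (y ^ C1) * ((((d : ℝ) + 1) * Real.exp y) ^ (d + 2) *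
            Real.exp ((y ^ C2) ^ C0) ^ d)) ^ (S + 1) ≤ Real.exp (y ^ C) := by qp
      refine ⟨C3 + 1, by omega, fun y hy hj ι σ τ Ω _ N lev th r H L q X hd hS hc hH hR hl hth hri
        hrd hrs hL hO hq1 hq hX hF => ?_⟩
      obtain ⟨a1, a2⟩ := hC2 y _ hy hd
      obtain ⟨b1, b2, b3, b4, b5⟩ := hC3 y _ hy hd
      have p1 : y ^ C3 ≤ y ^ (C3 + 1) := pow_le_pow_right₀ (by linarith) (Nat.le_succ _)
      have p2 : Real.exp (y ^ C3) ≤ Real.exp (y ^ (C3 + 1)) := Real.exp_le_exp.2 p1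
      have he : 1 ≤ Real.exp y := Real.one_le_exp (by linarith)
      have he1 : 1 ≤ Real.exp (y ^ C1) := Real.one_le_exp (by positivity)
      have he2 : 1 ≤ Real.exp ((y ^ C2) ^ C0) := Real.one_le_exp (by positivity)
      obtain ⟨q1, hq11, hq12, hW⟩ := hC y hy (by omega) ι σ τ Ω N lev th r H L q X hd hS hc hH hR hl
        hth hri hrd hrs ((Real.exp_le_exp.2 (b3.trans p1)).trans hL)
        (fun u h1 h2 => hO u h1 (h2.trans (b3.trans p1))) hq1 hq hX hF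
      have hU : q1 * (Gon.bl (Fintype.card ι) (Real.exp y) * Real.exp (y ^ C1)) ≤
          Real.exp (y ^ C2) := by
        refine le_trans (mul_le_mul_of_nonneg_right hq12 ?_) a1
        have := Gon.one_le_bl (Fintype.card ι) he
        positivity
      obtain ⟨b, hb1, hb2, hW'⟩ := step (M1 := Real.exp (y ^ C1) +
        Real.exp ((y ^ C2) ^ C0) * Real.exp y ^ S) hl he le_rfl hS hc hH hR hth hri hrd hrs hj hq11
        he1 he2 (hU.trans_lt (b1.trans_le (p2.trans hL)))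
        ((hO _ a2 (b2.trans p1)).mono hU le_rfl) (le_add_of_nonneg_right (by positivity))
        (le_add_of_nonneg_left (by positivity)) hW
      refine ⟨_, Nat.mul_pos (one_le_dS S) (Nat.pow_pos (Nat.mul_pos hq11 hb1)), ?_,
        hW'.mono (b4.trans p2) fun x hx ω => (hx ω).mono (b4.trans p2) dvd_rfl⟩
      refine le_trans ?_ (b5.trans p2)
      push_cast
      gcongr
      exact hb2
  obtain ⟨C, -, hC⟩ := key S
  refine ⟨C, fun y hy ι σ τ Ω _ N lev th r H L q X hd hS hc hH hR hl hth hri hrd hrs hL hO hq1 hq hX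
    hF => ?_⟩
  obtain ⟨q', h1, h2, ε, h3, h, h4, γ, h5, h6, h7, h8, -⟩ :=
    hC y hy le_rfl ι σ τ Ω N lev th r H L q X hd hS hc hH hR hl hth hri hrd hrs hL hO hq1 hq hX hF
  exact ⟨q', h1, h2, ε, h3, h, mem_wcf_of_trunc hS h4, γ, h5, h6, h7, h8⟩

end Crest.Agent.T49.Gf
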