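import Crest.Agent.T49.FrDef_99
import Crest.Agent.T49.Gf_84

/-!
# Row 49 (helper33): relative equidistribution on a regular mixed cell, statements
-/

set_option autoImplicit false

noncomputable section

namespace Crest.Agent.T49.Ltr

open Finset MvPolynomial
open Crest.Agent.T49.Nil Crest.Agent.T49.Nil.ND Crest.Agent.T49.Gl Crest.Agent.T49.Tw

/-- bounded by one, and Lipschitz in the windows on the classes modulo some `b ≤ M` -/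
def Cheap {κ : Type} [Fintype κ] (T : Cell κ) (M : ℝ) (a : (κ → ℤ) → ℂ) : Prop :=
  (∀ z, ‖a z‖ ≤ 1) ∧ ∃ b : ℕ, 1 ≤ b ∧ (b : ℝ) ≤ M ∧ ∀ z z' : κ → ℤ, (∀ c, (b : ℤ) ∣ z c - z' c) →
    ‖a z - a z'‖ ≤ M * ∑ c, |ev z (T.th c) - ev z' (T.th c)|

/-- the top part of the frame `t ↦ V (b t)` -/
def tpd {κ : Type} {D : ℕ} {lev : κ → ℕ} (V : Frm D lev) (b : ℕ) : κ → Pl (Fin D) :=
  fun c => Gf.dil b (V.tp c)

open Classical in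
/-- (FMOM) mass, bulk and first moment of the natural frames -/
def FmomStmt : Prop := ∀ D s : ℕ, ∃ C : ℕ, 1 ≤ C ∧ ∀ (κ : Type) [Fintype κ] (T : Cell κ)
  (σ u ρ η : ℝ), (∀ c, T.lev c ≤ s) → 1 ≤ u → Real.exp (-u) ≤ σ → σ ≤ 1 → 0 < ρ → ρ ≤ 1 →
  η ≤ 1 → T.AllPC (C * u) η →
  Summable (fun V : Frm D T.lev => fw T σ V) ∧
  ∑' V : Frm D T.lev, fw T σ V ≤ 2 * fmu T D σ ∧
  (∑' V : Frm D T.lev, if fq T σ V ≤ ρ⁻¹ then 0 else fw T σ V) ≤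
    C * (η + ρ * Fintype.card κ) * fmu T D σ ∧
  ∀ t : Fin D → ℤ, (∀ i, |(t i : ℝ)| * σ * C ≤ ρ) → ∀ f : (κ → ℤ) → ℂ, (∀ z, ‖f z‖ ≤ 1) →
    ‖(∑' V : Frm D T.lev, (fw T σ V : ℂ) * f (V.pt t)) / fmu T D σ -
      (∑' z, (T.wgt z : ℂ) * f z) / T.mu‖ ≤ C * (√η + ρ * Fintype.card κ)

/-- (ORC) the oracle of `Gf.gfact` for the top parts of a dense family of frames -/
def OrcStmt : Prop := ∀ D l s S : ℕ, 0 < D → ∃ C : ℕ, ∀ (κ : Type) [Fintype κ] (T : Cell κ)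
  (cl : κ → ℕ) (τ : ℕ → ℝ) (σ L u y : ℝ) (b : ℕ) (Z : Finset (Frm D T.lev)),
  T.IsMC cl → (∀ c, cl c ≤ l) → (∀ c, T.lev c ≤ s) → T.RegM cl C l τ →
  Real.log (Fintype.card κ + 2) + 2 ≤ y → 1 ≤ u → Real.exp (-u) ≤ σ → σ ≤ 1 →
  (y + u) ^ C ≤ τ (l + 1) → Real.exp (-y) * fmu T D σ ≤ fm T σ Z → 1 ≤ b → (b : ℝ) ≤ Real.exp y →
  Real.exp (-y) ≤ σ * L → Real.exp (C * y) ≤ L →
  Gf.Orc T.lev T.tth (fun V : Z => tpd V.1 b) S L (Real.exp y) (Real.exp (C * y))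

/-- (LT_rel) a biased nilcharacter along a weighted polynomial map of a regular mixed cell -/
def LtRStmt : Prop := ∀ S s l s' : ℕ, 1 ≤ s → ∃ C : ℕ, 1 ≤ C ∧ ∀ m : ℝ, 2 ≤ m →
  ∀ (ι κ : Type) [Fintype ι] [Fintype κ] (T : Cell κ) (cl : κ → ℕ) (τ : ℕ → ℝ) (N : ND ι)
    (η : ι → ℤ) (F : N.L → ℂ) (P : N.PS κ) (a : (κ → ℤ) → ℂ),
    T.IsMC cl → (∀ c, cl c ≤ l) → (∀ c, T.lev c ≤ s') → (Fintype.card κ : ℝ) ≤ m →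
    T.RegM cl C l τ → m ^ C ≤ τ (l + 1) → (Fintype.card ι : ℝ) ≤ m → N.Good S (Real.exp m) →
    N.NChar S s (Real.exp m) η F → P ∈ Gf.wcf T.lev N.F → Cheap T (Real.exp m) a →
    Real.exp (-m) * T.mu ≤ ‖∑' z, (T.wgt z : ℂ) * (a z * F (N.evZ z P))‖ →
    ∃ (H : ℕ → Submodule ℝ N.L) (q : ℕ), N.GrSub H ∧ (∀ i, N.RatS (Real.exp (m ^ C)) (H i)) ∧
      (∀ x ∈ H s, N.fn η x = 0) ∧ 1 ≤ q ∧ (q : ℝ) ≤ Real.exp (m ^ C) ∧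
      Gf.WF N T.lev T.tth S (Real.exp (m ^ C)) q H P fun _ => True

end Crest.Agent.T49.Ltr
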