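import Crest.Agent.T49.BchN_16
import Crest.Agent.T49.NilSt_61

/-!
# Row 49 (helper16): the gauges of a nilmanifold datum; `Ad` and `psiAd` on points and on
polynomial maps
-/

set_option autoImplicit false

noncomputable section

namespace Crest.Agent.T49.Nil

open Finset ND
open Crest.Agent.T49.Bch

variable {ι : Type} [Fintype ι] {N : ND ι} {σ : Type}

/-- the sup norm as a gauge: `(gL ..).le x a ↔ ‖x‖ ≤ a` -/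
def gL (N : ND ι) {d : ℕ} {B : ℝ} (hB : ∀ i j k, |(N.c i j k : ℝ)| ≤ B) (hB0 : 0 ≤ B)
    (hd : Fintype.card ι ≤ d) : Gauge N.L ((d : ℝ) ^ 2 * B) :=
  Gauge.ofSeminorm (normSeminorm ℝ N.L) (by positivity) fun x y =>
    (St.norm_lie_le hB hB0 x y).trans (by
      have : (Fintype.card ι : ℝ) ≤ d := by exact_mod_cast hd
      simp only [coe_normSeminorm]
      gcongr)

theorem gL_le {d : ℕ} {B : ℝ} {hB : ∀ i j k, |(N.c i j k : ℝ)| ≤ B} {hB0 : 0 ≤ B}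
    {hd : Fintype.card ι ≤ d} {x : N.L} {a : ℝ} : (gL N hB hB0 hd).le x a ↔ ‖x‖ ≤ a := Iff.rfl

/-- smoothness of polynomial sequences as a gauge:
`(gP ..).le P a ↔ P ∈ N.poly σ ∧ N.Sm T a P` -/
def gP (N : ND ι) (σ : Type) {S d : ℕ} {B T : ℝ} (hS : ∀ k, N.wt k ≤ S)
    (hB : ∀ i j k, |(N.c i j k : ℝ)| ≤ B) (hB0 : 0 ≤ B) (hd : Fintype.card ι ≤ d) (hT : 0 ≤ T) :
    Gauge (N.PS σ) (St.kB S d B) where
  le P a := P ∈ N.poly σ ∧ N.Sm T a P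
  nonneg h := le_trans (by positivity) (h.2 0)
  zero := ⟨zero_mem _, fun α => by simp⟩
  mono h hab := ⟨h.1, h.2.mono hab⟩
  add h h' := ⟨add_mem h.1 h'.1, St.Sm_add hT h.2 h'.2⟩
  smul c _ _ h := ⟨Submodule.smul_mem _ c h.1, St.Sm_smul c h.2⟩
  lie h h' := ⟨lie_mem_poly h.1 h'.1, St.Sm_lie hS hB hB0 hd hT h.1 h'.1 h.2 h'.2⟩

theorem gP_le {S d : ℕ} {B T : ℝ} {hS : ∀ k, N.wt k ≤ S} {hB : ∀ i j k, |(N.c i j k : ℝ)| ≤ B}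
    {hB0 : 0 ≤ B} {hd : Fintype.card ι ≤ d} {hT : 0 ≤ T} {P : N.PS σ} {a : ℝ} :
    (gP N σ hS hB hB0 hd hT).le P a ↔ P ∈ N.poly σ ∧ N.Sm T a P := Iff.rfl

/-- the lattice of integer points -/
def intL (N : ND ι) : AddSubgroup N.L where
  carrier := {x | IsInt x}
  add_mem' ha hb k := by
    obtain ⟨a, ha⟩ := ha k
    obtain ⟨b, hb⟩ := hb k
    exact ⟨a + b, by rw [ND.add_apply, ha, hb, Int.cast_add]⟩
  zero_mem' _ := ⟨0, by simp⟩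
  neg_mem' ha k := by
    obtain ⟨a, ha⟩ := ha k
    exact ⟨-a, by rw [ND.neg_apply, ha, Int.cast_neg]⟩

theorem mem_intL {x : N.L} : x ∈ intL N ↔ IsInt x := Iff.rfl

theorem smul_mem_intL {q : ℕ} {x : N.L} : (q : ℝ) • x ∈ intL N ↔ N.Den q x := den_iff.symm

theorem isInt_iff_den {x : N.L} : IsInt x ↔ N.Den 1 x := by
  rw [← smul_mem_intL, Nat.cast_one, one_smul, mem_intL]

theorem lie_mem_intL : ∀ a ∈ intL N, ∀ b ∈ intL N, ⁅a, b⁆ ∈ intL N := fun _ ha _ hb =>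
  isInt_iff_den.2 (St.den_lie (isInt_iff_den.1 ha) (isInt_iff_den.1 hb))

/-- polynomial maps with integer coefficients -/
def intP (N : ND ι) (σ : Type) : AddSubgroup (N.PS σ) :=
  ⨅ α : σ →₀ ℕ, (intL N).comap (N.cv α).toAddMonoidHom

theorem mem_intP {P : N.PS σ} : P ∈ intP N σ ↔ N.RatP 1 P := by
  simp only [intP, AddSubgroup.mem_iInf, AddSubgroup.mem_comap, RatP, ← isInt_iff_den]
  rfl

theorem smul_mem_intP {q : ℕ} {P : N.PS σ} : (q : ℝ) • P ∈ intP N σ ↔ N.RatP q P := by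
  simp only [intP, AddSubgroup.mem_iInf, AddSubgroup.mem_comap, RatP, ← smul_mem_intL,
    LinearMap.toAddMonoidHom_coe, map_smul]

theorem lie_mem_intP : ∀ a ∈ intP N σ, ∀ b ∈ intP N σ, ⁅a, b⁆ ∈ intP N σ := fun _ ha _ hb =>
  mem_intP.2 (St.RatP_lie (mem_intP.1 ha) (mem_intP.1 hb))

theorem den_star (S : ℕ) {q : ℕ} {x y : N.L} (hx : N.Den q x) (hy : N.Den q y) :
    N.Den (dn S * q ^ (S + 1)) (star S x y) :=
  smul_mem_intL.1 (den_star_mem S _ lie_mem_intL S.le_succ (by omega) (smul_mem_intL.2 hx)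
    (smul_mem_intL.2 hy))

theorem den_Ad (S : ℕ) [Bch.Nil S N.L] {q : ℕ} {x y : N.L} (hx : N.Den q x) (hy : N.Den q y) :
    N.Den (dn S * q ^ S) (Ad S x y) :=
  smul_mem_intL.1 (den_Ad_mem S _ lie_mem_intL le_rfl (smul_mem_intL.2 hx) (smul_mem_intL.2 hy))

theorem den_psiAd (S : ℕ) {q : ℕ} {x y : N.L} (hx : N.Den q x) (hy : N.Den q y) :
    N.Den (dn S * q ^ S) (psiAd S x y) :=
  smul_mem_intL.1 (den_psiAd_mem S _ lie_mem_intL le_rfl (smul_mem_intL.2 hx) (smul_mem_intL.2 hy))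

theorem RatP_Ad (S : ℕ) [Bch.Nil S (N.PS σ)] {q : ℕ} {P Q : N.PS σ} (hP : N.RatP q P)
    (hQ : N.RatP q Q) : N.RatP (dn S * q ^ S) (Ad S P Q) :=
  smul_mem_intP.1 (den_Ad_mem S _ lie_mem_intP le_rfl (smul_mem_intP.2 hP) (smul_mem_intP.2 hQ))

theorem RatP_psiAd (S : ℕ) {q : ℕ} {P Q : N.PS σ} (hP : N.RatP q P) (hQ : N.RatP q Q) :
    N.RatP (dn S * q ^ S) (psiAd S P Q) :=
  smul_mem_intP.1 (den_psiAd_mem S _ lie_mem_intP le_rfl (smul_mem_intP.2 hP) (smul_mem_intP.2 hQ))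

theorem ND.Good.isInt_Ad {S : ℕ} {M : ℝ} (h : N.Good S M) [Bch.Nil S N.L] {x y : N.L}
    (hx : IsInt x) (hy : IsInt y) : IsInt (Ad S x y) := by
  rw [Ad_eq_star]
  exact h.lat _ _ (h.lat _ _ hx hy) ((intL N).neg_mem hx)

/-- the scaled lattice `q ℤ^ι` is a group as soon as `dn S ∣ q` -/
theorem star_mem_scaled (S : ℕ) {q : ℕ} (hq : dn S ∣ q) {x y : N.L} (hx : IsInt x) (hy : IsInt y) :
    ∃ z, IsInt z ∧ star S ((q : ℝ) • x) ((q : ℝ) • y) = (q : ℝ) • z := by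
  obtain ⟨c, rfl⟩ := hq
  obtain ⟨z, hz, e⟩ := star_mem_lattice S
    ((intL N).map (DistribSMul.toAddMonoidHom N.L ((dn S * c : ℕ) : ℝ))) (by
      rintro _ ⟨a, ha, rfl⟩ _ ⟨b, hb, rfl⟩
      refine ⟨_, ⟨(c : ℝ) • ⁅a, b⁆, natCast_smul_mem _ (lie_mem_intL a ha b hb) c, rfl⟩, ?_⟩
      simp only [DistribSMul.toAddMonoidHom_apply, smul_lie, lie_smul, smul_smul]
      congr 1
      push_cast
      ring) ⟨x, hx, rfl⟩ ⟨y, hy, rfl⟩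
  exact ⟨z, hz, e.symm⟩

section bounds

variable {S d : ℕ} {B K : ℝ}

theorem norm_Ad_le [Bch.Nil S N.L] (hB : ∀ i j k, |(N.c i j k : ℝ)| ≤ B) (hB0 : 0 ≤ B)
    (hd : Fintype.card ι ≤ d) (hK : (d : ℝ) ^ 2 * B ≤ K) (hK1 : 1 ≤ K) {x : N.L} (hx : ‖x‖ ≤ K)
    (y : N.L) : ‖Ad S x y‖ ≤ cb S * K ^ (2 * S) * ‖y‖ :=
  (gL N hB hB0 hd).Ad_le S hK hK1 hx le_rfl

theorem norm_psiAd_le (hB : ∀ i j k, |(N.c i j k : ℝ)| ≤ B) (hB0 : 0 ≤ B)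
    (hd : Fintype.card ι ≤ d) (hK : (d : ℝ) ^ 2 * B ≤ K) (hK1 : 1 ≤ K) {x : N.L} (hx : ‖x‖ ≤ K)
    (y : N.L) : ‖psiAd S x y‖ ≤ cb S * K ^ (2 * S) * ‖y‖ :=
  (gL N hB hB0 hd).psiAd_le S hK hK1 hx le_rfl

theorem norm_star_le (hB : ∀ i j k, |(N.c i j k : ℝ)| ≤ B) (hB0 : 0 ≤ B)
    (hd : Fintype.card ι ≤ d) (hK : (d : ℝ) ^ 2 * B ≤ K) (hK1 : 1 ≤ K) {x y : N.L} (hx : ‖x‖ ≤ K)
    (hy : ‖y‖ ≤ K) : ‖star S x y‖ ≤ cb S * K ^ (2 * S + 1) :=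
  (gL N hB hB0 hd).star_le S hK hK1 hx hy

theorem norm_star_neg_le (hB : ∀ i j k, |(N.c i j k : ℝ)| ≤ B) (hB0 : 0 ≤ B)
    (hd : Fintype.card ι ≤ d) (hK : (d : ℝ) ^ 2 * B ≤ K) (hK1 : 1 ≤ K) {x x' : N.L} (hx : ‖x‖ ≤ K)
    (hx' : ‖x'‖ ≤ K) : ‖star S x' (-x)‖ ≤ cb S * K ^ (2 * S) * ‖x' - x‖ :=
  (gL N hB hB0 hd).star_neg_le S hK hK1 hx hx' le_rfl

/-- a left Lipschitz function is Lipschitz on bounded sets -/
theorem ND.LipFn.norm_sub_le [Bch.Nil S N.L] {M : ℝ} {F : N.L → ℂ} (hF : N.LipFn S M F) (hM : 0 ≤ M)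
    (hB : ∀ i j k, |(N.c i j k : ℝ)| ≤ B) (hB0 : 0 ≤ B) (hd : Fintype.card ι ≤ d)
    (hK : (d : ℝ) ^ 2 * B ≤ K) (hK1 : 1 ≤ K) {x x' : N.L} (hx : ‖x‖ ≤ K) (hx' : ‖x'‖ ≤ K)
    (y : N.L) : ‖F (star S x' y) - F (star S x y)‖ ≤ M * (cb S * K ^ (2 * S) * ‖x' - x‖) := by
  have := hF.lip (star S x' (-x)) (star S x y)
  rw [star_assoc, neg_star_star] at this
  exact this.trans (mul_le_mul_of_nonneg_left (norm_star_neg_le hB hB0 hd hK hK1 hx hx') hM)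

/-- left translates of Lipschitz functions -/
theorem ND.LipFn.translate [Bch.Nil S N.L] {M : ℝ} {F : N.L → ℂ} (hF : N.LipFn S M F) (hM : 0 ≤ M)
    (hB : ∀ i j k, |(N.c i j k : ℝ)| ≤ B) (hB0 : 0 ≤ B) (hd : Fintype.card ι ≤ d)
    (hK : (d : ℝ) ^ 2 * B ≤ K) (hK1 : 1 ≤ K) {u : N.L} (hu : ‖u‖ ≤ K) :
    N.LipFn S (M * (cb S * K ^ (2 * S))) fun x => F (star S u x) where
  bdd _ := hF.bdd _
  per x γ hγ := by rw [← star_assoc, hF.per _ _ hγ]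
  lip Z x := by
    rw [← star_assoc, star_eq_Ad_star S u Z, star_assoc, mul_assoc]
    exact (hF.lip _ _).trans (mul_le_mul_of_nonneg_left (norm_Ad_le hB hB0 hd hK hK1 hu Z) hM)

variable {T : ℝ}

theorem Sm_Ad [Bch.Nil S (N.PS σ)] {S' : ℕ} (hS : ∀ k, N.wt k ≤ S')
    (hB : ∀ i j k, |(N.c i j k : ℝ)| ≤ B)
    (hB0 : 0 ≤ B) (hd : Fintype.card ι ≤ d) (hT : 0 ≤ T) (hK : St.kB S' d B ≤ K) (hK1 : 1 ≤ K)
    {P Q : N.PS σ} {b : ℝ} (hP : P ∈ N.poly σ) (hQ : Q ∈ N.poly σ) (h : N.Sm T K P)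
    (h' : N.Sm T b Q) : N.Sm T (cb S * K ^ (2 * S) * b) (Ad S P Q) :=
  ((gP N σ hS hB hB0 hd hT).Ad_le S hK hK1 ⟨hP, h⟩ ⟨hQ, h'⟩).2

theorem Sm_psiAd {S' : ℕ} (hS : ∀ k, N.wt k ≤ S') (hB : ∀ i j k, |(N.c i j k : ℝ)| ≤ B)
    (hB0 : 0 ≤ B) (hd : Fintype.card ι ≤ d) (hT : 0 ≤ T) (hK : St.kB S' d B ≤ K) (hK1 : 1 ≤ K)
    {P Q : N.PS σ} {b : ℝ} (hP : P ∈ N.poly σ) (hQ : Q ∈ N.poly σ) (h : N.Sm T K P)
    (h' : N.Sm T b Q) : N.Sm T (cb S * K ^ (2 * S) * b) (psiAd S P Q) :=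
  ((gP N σ hS hB hB0 hd hT).psiAd_le S hK hK1 ⟨hP, h⟩ ⟨hQ, h'⟩).2

end bounds

/-- `adS` (hence `Ad`, `psiAd`) of a filtered polynomial map preserves `cf σ W` for every family
`W` of ideal type -/
theorem adS_mem_cf (a : ℕ → ℝ) (S : ℕ) {V W : ℕ → Submodule ℝ N.L}
    (h : ∀ i j, ∀ x ∈ V i, ∀ y ∈ W j, ⁅x, y⁆ ∈ W (i + j)) {P Q : N.PS σ} (hP : P ∈ cf σ V)
    (hQ : Q ∈ cf σ W) : adS a S P Q ∈ cf σ W :=
  adS_mem a S _ (fun _ hm => lie_mem_cf h hP hm) hQ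

theorem Ad_mem_poly (S : ℕ) [Bch.Nil S (N.PS σ)] {P Q : N.PS σ} (hP : P ∈ N.poly σ)
    (hQ : Q ∈ N.poly σ) : Ad S P Q ∈ N.poly σ :=
  Ad_mem S _ (fun _ hm => lie_mem_poly hP hm) hQ

theorem psiAd_mem_poly (S : ℕ) {P Q : N.PS σ} (hP : P ∈ N.poly σ) (hQ : Q ∈ N.poly σ) :
    psiAd S P Q ∈ N.poly σ :=
  adS_mem _ S _ (fun _ hm => lie_mem_poly hP hm) hQ

theorem Ad_mem_FA {A : Type} [CommRing A] [Algebra ℝ A] (S : ℕ) [Bch.Nil S (N.pts A)] {i : ℕ}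
    (x : N.pts A) {y : N.pts A} (hy : y ∈ N.FA A i) : Ad S x y ∈ N.FA A i :=
  Ad_mem S _ (fun _ hm => FA_anti i.le_succ (lie_mem_FA_succ x hm)) hy

theorem Ad_sub_mem_FA {A : Type} [CommRing A] [Algebra ℝ A] (S : ℕ) [Bch.Nil S (N.pts A)] {i : ℕ}
    (x : N.pts A) {y : N.pts A} (hy : y ∈ N.FA A i) : Ad S x y - y ∈ N.FA A (i + 1) :=
  Ad_sub_mem S _ (fun _ hm => FA_anti (i + 1).le_succ (lie_mem_FA_succ x hm)) (lie_mem_FA_succ x hy)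

end Crest.Agent.T49.Nil
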