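import Crest.Agent.T49.TorB_46

/-!
Row 49 (S0068), helper46.  Vertical Fourier expansion for an action of `ℝ^ι`; trigonometric
approximation of Lipschitz periodic functions.
-/

set_option autoImplicit false

open Finset Complex
open scoped Real ComplexConjugate

namespace Crest.Agent.T49.Tor

variable {ι : Type*} [Fintype ι] {X : Type*}

/-- `F` is invariant under the integer points of the additive action `act` and `M`-Lipschitz
along it -/
structure Vert (act : (ι → ℝ) → X → X) (F : X → ℂ) (M : ℝ) : Prop where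
  add : ∀ s t x, act (s + t) x = act s (act t x)
  per : ∀ (n : ι → ℤ) x, F (act (fun i => (n i : ℝ)) x) = F x
  nonneg : 0 ≤ M
  lip : ∀ t x, ‖F (act t x) - F x‖ ≤ M * ‖t‖

/-- the vertical Fourier coefficient of frequency `ξ` -/
noncomputable def coef (act : (ι → ℝ) → X → X) (F : X → ℂ) (ξ : ι → ℤ) (x : X) : ℂ :=
  avg fun t => e (-dot ξ t) * F (act t x)

variable {act : (ι → ℝ) → X → X} {F : X → ℂ} {M : ℝ}

lemma Vert.zero (h : Vert act F M) (x : X) : F (act 0 x) = F x := by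
  have := h.lip 0 x
  rw [norm_zero, mul_zero, norm_le_zero_iff, sub_eq_zero] at this
  exact this

lemma Vert.continuous (h : Vert act F M) (x : X) : Continuous fun t => F (act t x) := by
  refine (LipschitzWith.of_dist_le_mul (K := ⟨M, h.nonneg⟩) fun s t => ?_).continuous
  have := h.lip (s - t) (act t x)
  rw [← h.add, sub_add_cancel] at this
  rw [dist_eq_norm, dist_eq_norm]; exact this

lemma Vert.continuous' (h : Vert act F M) (ξ : ι → ℤ) (x : X) :
    Continuous fun t => e (-dot ξ t) * F (act t x) :=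
  Continuous.mul (by fun_prop) (h.continuous x)

lemma Vert.per' (h : Vert act F M) (x : X) : Per fun t => F (act t x) := fun t n => by
  simp only [add_comm t, h.add, h.per]

/-- the coefficient has vertical frequency `ξ` exactly -/
lemma Vert.coef_act (h : Vert act F M) (ξ : ι → ℤ) (s : ι → ℝ) (x : X) :
    coef act F ξ (act s x) = e (dot ξ s) * coef act F ξ x := by
  have hp : Per fun t => e (-dot ξ t) * F (act t x) := fun t n => by
    have h1 := per_e_dot (-ξ) t n
    have h2 := h.per' x t n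
    simp only [neg_dot] at h1 h2 ⊢
    rw [h1, h2]
  unfold coef
  rw [← avg_shift hp s, ← avg_const_mul]
  congr 1; funext t
  rw [h.add, dot_add, neg_add, e_add]
  linear_combination (-(e (-dot ξ t) * F (act t (act s x)))) * e_mul_e_neg (dot ξ s)

/-- closure principle: linear inequalities that hold along the whole orbit pass to `coef` -/
lemma Vert.norm_sum_coef_le (h : Vert act F M) (ξ : ι → ℤ) {J : Type*} (s : Finset J) (a : J → ℂ)
    (x : J → X) {B : ℝ} (hB : ∀ t, ‖∑ j ∈ s, a j * F (act t (x j))‖ ≤ B) :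
    ‖∑ j ∈ s, a j * coef act F ξ (x j)‖ ≤ B := by
  have h1 : ∑ j ∈ s, a j * coef act F ξ (x j) =
      avg fun t => e (-dot ξ t) * ∑ j ∈ s, a j * F (act t (x j)) := by
    simp only [mul_sum, mul_left_comm (e _)]
    rw [avg_sum (f := fun j t => a j * (e (-dot ξ t) * F (act t (x j)))) _
      fun j _ => continuous_const.mul (h.continuous' ξ (x j))]
    simp only [avg_const_mul, coef]
  rw [h1]
  exact norm_avg_le_const fun t _ => by rw [norm_mul, norm_e, one_mul]; exact hB t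

lemma norm_coef_le (ξ : ι → ℤ) (x : X) {B : ℝ} (hB : ∀ t, ‖F (act t x)‖ ≤ B) :
    ‖coef act F ξ x‖ ≤ B :=
  norm_avg_le_const fun t _ => by rw [norm_mul, norm_e, one_mul]; exact hB t

lemma Vert.norm_coef_sub_le (h : Vert act F M) (ξ : ι → ℤ) (x y : X) {B : ℝ}
    (hB : ∀ t, ‖F (act t x) - F (act t y)‖ ≤ B) : ‖coef act F ξ x - coef act F ξ y‖ ≤ B := by
  unfold coef
  rw [← avg_sub (h.continuous' ξ x) (h.continuous' ξ y)]
  exact norm_avg_le_const fun t _ => by rw [← mul_sub, norm_mul, norm_e, one_mul]; exact hB t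

lemma coef_congr (ξ : ι → ℤ) {x y : X} (hB : ∀ t, F (act t x) = F (act t y)) :
    coef act F ξ x = coef act F ξ y := by
  simp only [coef, hB]

/-- the coefficients satisfy the same vertical Lipschitz bound -/
lemma Vert.coef (h : Vert act F M) (ξ : ι → ℤ) : Vert act (coef act F ξ) M where
  add := h.add
  per n x := by rw [h.coef_act, dot_int, e_intCast, one_mul]
  nonneg := h.nonneg
  lip s x := h.norm_coef_sub_le ξ _ _ fun t => by
    rw [← h.add, add_comm, h.add]; exact h.lip s _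

variable [DecidableEq ι]

/-- **vertical Fourier expansion** -/
theorem Vert.expand (h : Vert act F M) {K : ℕ} (hK : 0 < K) (x : X) :
    ‖F x - ∑ ξ ∈ cube ι K, (fw K ξ : ℂ) * Tor.coef act F ξ x‖ ≤ M * Fintype.card ι / (2 * √K) := by
  have := fejer_origin hK (h.continuous x) h.nonneg fun t _ => by rw [h.zero]; exact h.lip t x
  rwa [h.zero] at this

lemma err_le {M d ε : ℝ} {K : ℕ} (hK : 0 < K) (hε : 0 ≤ ε) (h : (M * d) ^ 2 ≤ 4 * ε ^ 2 * K) :
    M * d / (2 * √K) ≤ ε := by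
  have hK' : (0 : ℝ) < K := by exact_mod_cast hK
  have hs : 0 < √(K : ℝ) := Real.sqrt_pos.2 hK'
  rw [div_le_iff₀ (by positivity)]
  refine abs_le_of_sq_le_sq' ?_ (by positivity) |>.2
  rw [mul_pow, mul_pow, mul_pow, Real.sq_sqrt hK'.le, ← mul_pow]; linarith

/-- version with an accuracy parameter -/
theorem Vert.expand' (h : Vert act F M) {K : ℕ} (hK : 0 < K) {ε : ℝ} (hε : 0 ≤ ε)
    (hKε : (M * Fintype.card ι) ^ 2 ≤ 4 * ε ^ 2 * K) (x : X) :
    ‖F x - ∑ ξ ∈ cube ι K, (fw K ξ : ℂ) * Tor.coef act F ξ x‖ ≤ ε :=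
  (h.expand hK x).trans (err_le hK hε hKε)

/-- **bias passes to one vertical frequency**: weights `w` of total mass `≤ W` -/
theorem Vert.exists_bias (h : Vert act F M) {K : ℕ} (hK : 0 < K) {J : Type*} (s : Finset J)
    (w : J → ℂ) (x : J → X) {W δ : ℝ} (hW : ∑ j ∈ s, ‖w j‖ ≤ W) (hδ : 0 ≤ δ)
    (hKδ : (M * Fintype.card ι) ^ 2 ≤ δ ^ 2 * K) (hb : δ * W ≤ ‖∑ j ∈ s, w j * F (x j)‖) :
    ∃ ξ ∈ cube ι K, δ * W / (2 * (2 * K + 1) ^ Fintype.card ι) ≤
      ‖∑ j ∈ s, w j * Tor.coef act F ξ (x j)‖ := by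
  have he := h.expand' hK (ε := δ / 2) (by positivity) (by nlinarith)
  have h1 : ‖∑ j ∈ s, w j * F (x j) - ∑ ξ ∈ cube ι K, (fw K ξ : ℂ) *
      ∑ j ∈ s, w j * Tor.coef act F ξ (x j)‖ ≤ δ / 2 * W := by
    simp only [mul_sum, mul_left_comm (fw K _ : ℂ)]
    rw [sum_comm, ← sum_sub_distrib]
    refine (norm_sum_le _ _).trans (le_trans (sum_le_sum fun j _ => ?_)
      ((mul_sum _ _ _).symm.le.trans (mul_le_mul_of_nonneg_left hW (by positivity))))
    rw [← mul_sum, ← mul_sub, norm_mul, mul_comm]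
    exact mul_le_mul_of_nonneg_right (he _) (norm_nonneg _)
  have h2 : δ * W / 2 ≤ ∑ ξ ∈ cube ι K, ‖∑ j ∈ s, w j * Tor.coef act F ξ (x j)‖ := by
    have h3 : ‖∑ ξ ∈ cube ι K, (fw K ξ : ℂ) * ∑ j ∈ s, w j * Tor.coef act F ξ (x j)‖ ≤
        ∑ ξ ∈ cube ι K, ‖∑ j ∈ s, w j * Tor.coef act F ξ (x j)‖ :=
      (norm_sum_le _ _).trans (sum_le_sum fun ξ _ => by
        rw [norm_mul, norm_real, Real.norm_of_nonneg (fw_nonneg K ξ)]
        exact mul_le_of_le_one_left (norm_nonneg _) (fw_le_one K ξ))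
    have h4 := norm_sub_norm_le (∑ j ∈ s, w j * F (x j)) (∑ ξ ∈ cube ι K, (fw K ξ : ℂ) *
      ∑ j ∈ s, w j * Tor.coef act F ξ (x j))
    linarith
  have hne : (cube ι K).Nonempty := ⟨0, mem_cube.2 fun i => by simp⟩
  refine exists_le_of_sum_le hne (le_trans (le_of_eq ?_) h2)
  rw [sum_const, card_cube, nsmul_eq_mul]; push_cast; field_simp

omit [DecidableEq ι] in
lemma vert_translate {f : (ι → ℝ) → ℂ} (hp : Per f) (hM : 0 ≤ M)
    (hl : ∀ s t, ‖f s - f t‖ ≤ M * ‖s - t‖) : Vert (fun t x : ι → ℝ => t + x) f M where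
  add := add_assoc
  per n x := by rw [add_comm]; exact hp x n
  nonneg := hM
  lip t x := by simpa using hl (t + x) x

/-- **trigonometric approximation of a Lipschitz periodic function** -/
theorem exists_trig {f : (ι → ℝ) → ℂ} (hp : Per f) (hM : 0 ≤ M)
    (hl : ∀ s t, ‖f s - f t‖ ≤ M * ‖s - t‖) {B : ℝ} (hB : ∀ t, ‖f t‖ ≤ B) {K : ℕ} (hK : 0 < K) :
    ∃ c : (ι → ℤ) → ℂ, (∀ ξ, ‖c ξ‖ ≤ B) ∧ ‖c 0 - avg f‖ = 0 ∧
      ∀ x, ‖f x - ∑ ξ ∈ cube ι K, c ξ * e (dot ξ x)‖ ≤ M * Fintype.card ι / (2 * √K) := by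
  have h := vert_translate hp hM hl
  refine ⟨fun ξ => fw K ξ * coef (fun t x : ι → ℝ => t + x) f ξ 0, fun ξ => ?_, ?_, fun x => ?_⟩
  · rw [norm_mul, norm_real, Real.norm_of_nonneg (fw_nonneg K ξ)]
    exact (mul_le_of_le_one_left (norm_nonneg _) (fw_le_one K ξ)).trans
      (norm_coef_le _ _ fun t => hB _)
  · have h1 : avg (fun t => (fej ι K t : ℂ)) = fw (ι := ι) K 0 := by
      simp only [fej_eq_sum, ← neg_dot]
      rw [avg_sum _ fun ξ _ => by fun_prop]
      simp only [avg_const_mul, avg_e_dot, neg_eq_zero, mul_ite, mul_one, mul_zero]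
      rw [sum_ite_eq', if_pos (mem_cube.2 fun i => by simp)]
    rw [avg_ofReal, avg_fej hK] at h1
    simp [← h1, coef]
  · have h1 := h.expand hK x
    have h2 : ∀ ξ, coef (fun t x : ι → ℝ => t + x) f ξ x =
        e (dot ξ x) * coef (fun t x : ι → ℝ => t + x) f ξ 0 := fun ξ => by
      simpa using h.coef_act ξ x 0
    simpa only [h2, mul_assoc, mul_comm (e _)] using h1

end Crest.Agent.T49.Tor
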