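import Crest.Agent.T49.NilPr_67
import Crest.Agent.T49.NilBox_73
import Crest.Agent.T49.BchND_16
import Crest.Agent.T49.TorC_46

/-!
# Row 49 (helper73): left translates, truncation (QUOT), vertical expansion (V), derivative (BOX)
-/

set_option autoImplicit false

noncomputable section

namespace Crest.Agent.T49.Nil

open Finset ND
open Crest.Agent.T49.Bch (star Ad star_assoc)
open scoped ComplexConjugate

variable {ι : Type} [Fintype ι] {N : ND ι}

section ideal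

variable {A : Type} [CommRing A] [Algebra ℝ A]

/-- the weight filtration as ideals -/
def ND.FI (N : ND ι) (A : Type) [CommRing A] [Algebra ℝ A] (i : ℕ) : LieIdeal ℝ (N.pts A) where
  toSubmodule := N.FA A i
  lie_mem {x _} hm := FA_anti (Nat.le_succ i) (lie_mem_FA_succ x hm)

theorem mem_FI {i : ℕ} {x : N.pts A} : x ∈ N.FI A i ↔ x ∈ N.FA A i := Iff.rfl

theorem star_congr_FA (S : ℕ) {i : ℕ} {x x' y y' : N.pts A} (hx : x - x' ∈ N.FA A i)
    (hy : y - y' ∈ N.FA A i) : star S x y - star S x' y' ∈ N.FA A i :=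
  Bch.star_congr S (N.FI A i) hx hy

theorem star_sub_add_left (S : ℕ) {i : ℕ} {Z : N.pts A} (hZ : Z ∈ N.FA A i) (x : N.pts A) :
    star S Z x - (Z + x) ∈ N.FA A (i + 1) :=
  Bch.star_sub_mem_filtration S (N.FA A) (fun _ _ => FA_anti) (fun _ _ _ _ => lie_mem_FA) hZ
    (mem_FA_one x)

theorem star_sub_add_right (S : ℕ) {i : ℕ} {Z : N.pts A} (hZ : Z ∈ N.FA A i) (x : N.pts A) :
    star S x Z - (x + Z) ∈ N.FA A (i + 1) := by
  rw [add_comm i]
  exact Bch.star_sub_mem_filtration S (N.FA A) (fun _ _ => FA_anti) (fun _ _ _ _ => lie_mem_FA)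
    (mem_FA_one x) hZ

theorem star_mem_FA (S : ℕ) {i : ℕ} {x y : N.pts A} (hx : x ∈ N.FA A i) (hy : y ∈ N.FA A i) :
    star S x y ∈ N.FA A i := by
  simpa using add_mem (FA_anti (Nat.le_succ i) (star_sub_add_left S hx y)) (add_mem hx hy)

theorem star_left_comm_Ad (S : ℕ) [Bch.Nil S (N.pts A)] (u Z x : N.pts A) :
    star S u (star S Z x) = star S (Ad S u Z) (star S u x) := by
  rw [← star_assoc, Bch.star_eq_Ad_star S u Z, star_assoc]

end ideal

section norms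

theorem nrm_lie_le {M : ℝ} (hc : ∀ i j k, |(N.c i j k : ℝ)| ≤ M) (hM : 0 ≤ M) (x y : N.L) :
    ‖⁅x, y⁆‖ ≤ (Fintype.card ι : ℝ) ^ 2 * M * ‖x‖ * ‖y‖ := by
  rw [norm_le_iff (by positivity)]
  intro k
  rw [lie_apply]
  refine (abs_sum_le_sum_abs _ _).trans ((sum_le_card_nsmul _ _
    ((Fintype.card ι : ℝ) * (M * ‖x‖ * ‖y‖)) fun i _ => ?_).trans (le_of_eq ?_))
  · refine (abs_sum_le_sum_abs _ _).trans ((sum_le_card_nsmul _ _ (M * ‖x‖ * ‖y‖)
      fun j _ => ?_).trans (le_of_eq (by simp)))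
    rw [abs_mul, abs_mul]
    exact mul_le_mul (mul_le_mul (hc i j k) (abs_apply_le x i) (abs_nonneg _) hM)
      (abs_apply_le y j) (abs_nonneg _) (by positivity)
  · rw [nsmul_eq_mul, card_univ]; ring

/-- bound for the adjoint action -/
def adB (S : ℕ) (x : ℝ) : ℝ := (S + 1) * (1 + x) ^ S

theorem one_le_adB (S : ℕ) {x : ℝ} (hx : 0 ≤ x) : 1 ≤ adB S x :=
  one_le_mul_of_one_le_of_one_le (by simp) (one_le_pow₀ (by linarith))

theorem adB_mono (S : ℕ) {x y : ℝ} (hx : 0 ≤ x) (h : x ≤ y) : adB S x ≤ adB S y :=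
  mul_le_mul_of_nonneg_left (pow_le_pow_left₀ (by linarith) (by linarith) _) (by positivity)

theorem adB_le_exp (S : ℕ) {x m : ℝ} (hx : 0 ≤ x) (hm : 1 ≤ m) (h : x ≤ Real.exp m) :
    adB S x ≤ Real.exp (3 * S * m) := by
  have h1 : (S : ℝ) + 1 ≤ Real.exp (S * m) :=
    (Real.add_one_le_exp _).trans (Real.exp_le_exp.2 (le_mul_of_one_le_right (by positivity) hm))
  have h2 : 1 + x ≤ Real.exp (2 * m) := by
    have := Real.add_one_le_exp m
    rw [two_mul, Real.exp_add]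
    nlinarith
  calc adB S x ≤ Real.exp (S * m) * Real.exp (2 * m) ^ S :=
        mul_le_mul h1 (pow_le_pow_left₀ (by linarith) h2 _) (by positivity) (by positivity)
    _ = _ := by rw [← Real.exp_nat_mul, ← Real.exp_add]; congr 1; ring

theorem nrm_Ad_le {S : ℕ} [Bch.Nil S N.L] {M B : ℝ} (hc : ∀ i j k, |(N.c i j k : ℝ)| ≤ M)
    (hM : 0 ≤ M) {u : N.L} (hu : ‖u‖ ≤ B) (Z : N.L) :
    ‖Ad S u Z‖ ≤ adB S ((Fintype.card ι : ℝ) ^ 2 * M * B) * ‖Z‖ := by
  have hB : 0 ≤ B := (norm_nonneg _).trans hu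
  set x := (Fintype.card ι : ℝ) ^ 2 * M * B with hx
  have hx0 : 0 ≤ x := by positivity
  have h1 : ∀ k : ℕ, ‖(LieAlgebra.ad ℝ N.L u ^ k) Z‖ ≤ x ^ k * ‖Z‖ := by
    intro k
    induction k with
    | zero => simp
    | succ k ih =>
      rw [Bch.ad_pow_succ_apply]
      refine (nrm_lie_le hc hM _ _).trans ?_
      rw [pow_succ' x, mul_assoc x]
      exact mul_le_mul (mul_le_mul_of_nonneg_left hu (by positivity)) ih (norm_nonneg _) hx0
  rw [Bch.Ad_apply]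
  refine (norm_sum_le _ _).trans ((sum_le_card_nsmul _ _ ((1 + x) ^ S * ‖Z‖) fun k hk => ?_).trans ?_)
  · rw [norm_smul]
    refine (mul_le_of_le_one_left (norm_nonneg _) ?_).trans ((h1 k).trans ?_)
    · rw [Real.norm_of_nonneg (by positivity)]
      exact inv_le_one_of_one_le₀ (by exact_mod_cast Nat.factorial_pos k)
    · refine mul_le_mul_of_nonneg_right ((pow_le_pow_left₀ hx0 (by linarith) k).trans
        (pow_le_pow_right₀ (by linarith) (mem_range.1 hk).le)) (norm_nonneg _)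
  · rw [nsmul_eq_mul, card_range, adB, mul_assoc]
    exact mul_le_mul_of_nonneg_right (by linarith) (by positivity)

end norms

section fn

variable {S s : ℕ} {M M' B : ℝ} {F : N.L → ℂ} {η : ι → ℤ}

/-- a function of degree `≤ s` only depends on the class modulo `F (s+1)` -/
theorem ND.NFn.congr [Bch.Nil S N.L] (h : N.NFn S s M F) {a b : N.L} (hab : a - b ∈ N.F (s + 1)) :
    F a = F b := by
  rw [← h.inv _ ((Bch.star_neg_mem_iff S (N.FI ℝ (s + 1))).2 hab) b, Bch.star_neg_star']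

theorem ND.NFn.star_eq_add [Bch.Nil S N.L] (h : N.NFn S s M F) {Z : N.L} (hZ : Z ∈ N.F s)
    (x : N.L) : F (star S Z x) = F (x + Z) :=
  h.congr (add_comm Z x ▸ star_sub_add_left S hZ x)

theorem ND.NChar.add_vert [Bch.Nil S N.L] (h : N.NChar S s M η F) {Z : N.L} (hZ : Z ∈ N.F s)
    (x : N.L) : F (x + Z) = Tor.e (N.fn η Z) * F x := by
  rw [← h.nfn.star_eq_add hZ, h.vert Z hZ]

theorem ND.LipFn.left (hN : N.Good S M') (hM' : 0 ≤ M') (h : N.LipFn S M F) (hM : 0 ≤ M) {u : N.L}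
    (hu : ‖u‖ ≤ B) :
    N.LipFn S (M * adB S ((Fintype.card ι : ℝ) ^ 2 * M' * B)) fun x => F (star S u x) := by
  have := hN.nil ℝ
  refine ⟨fun x => h.bdd _, fun x γ hγ => by rw [← star_assoc, h.per _ γ hγ], fun Z x => ?_⟩
  rw [star_left_comm_Ad, mul_assoc]
  exact (h.lip _ _).trans (mul_le_mul_of_nonneg_left (nrm_Ad_le hN.c_le hM' hu Z) hM)

theorem ND.NFn.left (hN : N.Good S M') (hM' : 0 ≤ M') (h : N.NFn S s M F) (hM : 0 ≤ M) {u : N.L}
    (hu : ‖u‖ ≤ B) :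
    N.NFn S s (M * adB S ((Fintype.card ι : ℝ) ^ 2 * M' * B)) fun x => F (star S u x) := by
  have := hN.nil ℝ
  exact ⟨h.toLipFn.left hN hM' hM hu, fun Z hZ x => by
    rw [star_left_comm_Ad, h.inv _ (Ad_mem_FA S u hZ)]⟩

theorem ND.NChar.fn_congr (h : N.NChar S s M η F) {Z Z' : N.L} (hZ : Z - Z' ∈ N.F (s + 1)) :
    N.fn η Z = N.fn η Z' := by
  rw [← sub_eq_zero, ← map_sub, fn_eq_zero h.supp hZ]

theorem ND.NChar.left (hN : N.Good S M') (hM' : 0 ≤ M') (h : N.NChar S s M η F) (hM : 0 ≤ M)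
    {u : N.L} (hu : ‖u‖ ≤ B) :
    N.NChar S s (M * adB S ((Fintype.card ι : ℝ) ^ 2 * M' * B)) η fun x => F (star S u x) := by
  have := hN.nil ℝ
  have hB : 0 ≤ B := (norm_nonneg _).trans hu
  exact ⟨h.toLipFn.left hN hM' hM hu, h.supp, fun k => (h.η_le k).trans
    (le_mul_of_one_le_right hM (one_le_adB S (by positivity))), fun Z hZ x => by
    rw [star_left_comm_Ad, h.vert _ (Ad_mem_FA S u hZ), h.fn_congr (Ad_sub_mem_FA S u hZ)]⟩

/-- pull-back along a Lie homomorphism that preserves integer points -/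
theorem ND.LipFn.pullHom {ι' : Type} [Fintype ι'] {N' : ND ι'} (h : N.LipFn S M F) (hM : 0 ≤ M)
    (φ : N'.L →ₗ⁅ℝ⁆ N.L) (hint : ∀ x, IsInt x → IsInt (φ x)) (hB : ∀ x, ‖φ x‖ ≤ B * ‖x‖) :
    N'.LipFn S (M * B) fun x => F (φ x) :=
  ⟨fun x => h.bdd _, fun x γ hγ => by rw [Bch.map_star, h.per _ _ (hint γ hγ)], fun Z x => by
    rw [Bch.map_star, mul_assoc]
    exact (h.lip _ _).trans (mul_le_mul_of_nonneg_left (hB Z) hM)⟩

/-- product of a function with the conjugate of another one -/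
theorem ND.LipFn.mulConj {G : N.L → ℂ} (h : N.LipFn S M F) (h' : N.LipFn S M' G) :
    N.LipFn S (M + M') fun x => F x * conj (G x) := by
  refine ⟨fun x => ?_, fun x γ hγ => by rw [h.per x γ hγ, h'.per x γ hγ], fun Z x => ?_⟩
  · rw [norm_mul, RCLike.norm_conj]
    exact mul_le_one₀ (h.bdd x) (norm_nonneg _) (h'.bdd x)
  · have e : F (star S Z x) * conj (G (star S Z x)) - F x * conj (G x) =
        (F (star S Z x) - F x) * conj (G (star S Z x)) + F x * conj (G (star S Z x) - G x) := by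
      rw [map_sub]; ring
    rw [e, add_mul]
    refine (norm_add_le _ _).trans (add_le_add ?_ ?_)
    · rw [norm_mul, RCLike.norm_conj]
      exact (mul_le_of_le_one_right (norm_nonneg _) (h'.bdd _)).trans (h.lip Z x)
    · rw [norm_mul, RCLike.norm_conj]
      exact (mul_le_of_le_one_left (norm_nonneg _) (h.bdd _)).trans (h'.lip Z x)

theorem ND.LipFn.constMul (h : N.LipFn S M F) {c : ℂ} (hc : ‖c‖ ≤ 1) :
    N.LipFn S M fun x => c * F x :=
  ⟨fun x => by rw [norm_mul]; exact mul_le_one₀ hc (norm_nonneg _) (h.bdd x),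
    fun x γ hγ => by rw [h.per x γ hγ], fun Z x => by
      rw [← mul_sub, norm_mul]
      exact (mul_le_of_le_one_left (norm_nonneg _) hc).trans (h.lip Z x)⟩

theorem ND.NChar.constMul (h : N.NChar S s M η F) {c : ℂ} (hc : ‖c‖ ≤ 1) :
    N.NChar S s M η fun x => c * F x :=
  ⟨h.toLipFn.constMul hc, h.supp, h.η_le, fun Z hZ x => by rw [h.vert Z hZ]; ring⟩

end fn

/-! ### truncation -/

section trunc

variable {S s : ℕ} {M M' : ℝ} {F : N.L → ℂ}

/-- the truncation `g / F (s+1)` -/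
abbrev ND.trc (N : ND ι) (s : ℕ) : ND {i // N.wt i ≤ s} := N.quo _ (N.keep_le s)

theorem norm_qsec_le {p : ι → Prop} [DecidablePred p] (h : N.Keep p) (x : (N.quo p h).L) :
    ‖qsec h ℝ x‖ ≤ ‖x‖ := (norm_le_iff (norm_nonneg _)).2 fun k => by
  by_cases hk : p k
  · rw [qsec_apply h x ⟨k, hk⟩]; exact abs_apply_le x _
  · rw [qsec_apply_of_not h x hk]; simp

theorem norm_qpr_le {p : ι → Prop} [DecidablePred p] (h : N.Keep p) (x : N.L) :
    ‖qpr h ℝ x‖ ≤ ‖x‖ := (norm_le_iff (norm_nonneg _)).2 fun k => abs_apply_le x k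

theorem star_quo {p : ι → Prop} [DecidablePred p] (h : N.Keep p) (S : ℕ) {A : Type} [CommRing A]
    [Algebra ℝ A] (x y : (N.quo p h).pts A) :
    star S x y = qpr h A (star S (qsec h A x) (qsec h A y)) := by
  rw [Bch.map_star, qpr_qsec, qpr_qsec]

theorem ND.Good.quo (hN : N.Good S M) {p : ι → Prop} [DecidablePred p] (h : N.Keep p) :
    (N.quo p h).Good S M :=
  ⟨fun k => hN.wt_le k, fun i j k => hN.c_le i j k, fun x y hx hy => by
    rw [star_quo h]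
    exact isInt_qpr h (hN.lat _ _ (isInt_qsec h hx) (isInt_qsec h hy))⟩

theorem ND.Good.trc (hN : N.Good S M) (s : ℕ) : (N.trc s).Good s M :=
  (hN.quo (N.keep_le s)).step fun k => k.2

theorem sub_mem_of_qpr_eq {A : Type} [CommRing A] [Algebra ℝ A] {x y : N.pts A}
    (h : qpr (N.keep_le s) A x = qpr (N.keep_le s) A y) : x - y ∈ N.FA A (s + 1) :=
  fun k hk => sub_eq_zero.2 ((qpr_eq_iff _).1 h k (Nat.lt_succ_iff.1 hk))

theorem ND.NFn.trc_qpr (hS : ∀ k, N.wt k ≤ S) (hF : N.NFn S s M F) (x : N.L) :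
    F (qsec (N.keep_le s) ℝ (qpr (N.keep_le s) ℝ x)) = F x := by
  have := ND.nil hS ℝ
  exact hF.congr (sub_mem_of_qpr_eq (by rw [qpr_qsec]))

theorem ND.NFn.trc (hS : ∀ k, N.wt k ≤ S) (hF : N.NFn S s M F) (hM : 0 ≤ M) :
    (N.trc s).LipFn s M fun x => F (qsec (N.keep_le s) ℝ x) := by
  refine ND.LipFn.step (S := S) ⟨fun x => hF.bdd _, fun x γ hγ => ?_, fun Z x => ?_⟩
    (fun k => hS k) fun k => k.2
  · rw [star_quo, hF.trc_qpr hS, hF.per _ _ (isInt_qsec _ hγ)]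
  · rw [star_quo, hF.trc_qpr hS]
    exact (hF.lip _ _).trans (mul_le_mul_of_nonneg_left (norm_qsec_le _ Z) hM)

/-- **QUOT**: a function of degree `≤ s` along a polynomial map is a nilsequence of degree `≤ s` -/
theorem ND.NFn.isNil {σ : Type} {m : ℝ} (hd : (Fintype.card ι : ℝ) ≤ m)
    (hN : N.Good S (Real.exp m)) (hF : N.NFn S s (Real.exp m) F) {P : N.PS σ}
    (hP : P ∈ N.poly σ) : IsNil s m fun n => F (N.evZ n P) :=
  ⟨_, inferInstance, N.trc s, _, qpr (N.keep_le s) _ P,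
    le_trans (by exact_mod_cast Fintype.card_subtype_le _) hd, hN.trc s,
    hF.trc hN.wt_le (Real.exp_pos _).le, qpr_mem_poly _ hP,
    fun n => (hF.trc_qpr hN.wt_le (N.evZ n P)).symm⟩

end trunc

/-! ### vertical expansion -/

section vertical

variable {S s : ℕ} {M M' : ℝ} {F : N.L → ℂ}

/-- extension by zero from the indices of weight `s` -/
def ND.vx (N : ND ι) (s : ℕ) (t : {k // N.wt k = s} → ℝ) : N.L :=
  fun k => if h : N.wt k = s then t ⟨k, h⟩ else 0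

/-- extension by zero of a frequency -/
def ND.vz (N : ND ι) (s : ℕ) (ξ : {k // N.wt k = s} → ℤ) : ι → ℤ :=
  fun k => if h : N.wt k = s then ξ ⟨k, h⟩ else 0

/-- the vertical action -/
def ND.vact (N : ND ι) (s : ℕ) (t : {k // N.wt k = s} → ℝ) (x : N.L) : N.L := x + N.vx s t

theorem vx_add (a b : {k // N.wt k = s} → ℝ) : N.vx s (a + b) = N.vx s a + N.vx s b := by
  ext k
  by_cases h : N.wt k = s <;> simp [ND.vx, h]

theorem vx_mem (t : {k // N.wt k = s} → ℝ) : N.vx s t ∈ N.F s := fun _ hk => dif_neg hk.ne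

theorem norm_vx_le (t : {k // N.wt k = s} → ℝ) : ‖N.vx s t‖ ≤ ‖t‖ :=
  (norm_le_iff (norm_nonneg _)).2 fun k => by
    by_cases h : N.wt k = s
    · simp only [ND.vx, dif_pos h]; exact norm_le_pi_norm t _
    · simp [ND.vx, h]

theorem isInt_vx (n : {k // N.wt k = s} → ℤ) : IsInt (N.vx s fun i => (n i : ℝ)) := fun k => by
  by_cases h : N.wt k = s
  · exact ⟨n ⟨k, h⟩, dif_pos h⟩
  · exact ⟨0, by simp [ND.vx, h]⟩

theorem sub_vx_mem {Z : N.L} (hZ : Z ∈ N.F s) : Z - N.vx s (fun i => Z i) ∈ N.F (s + 1) := by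
  intro k hk
  by_cases h : N.wt k = s
  · simp [ND.vx, h]
  · simp [ND.vx, h, hZ k (by omega)]

theorem fn_vz (ξ : {k // N.wt k = s} → ℤ) (Z : N.L) :
    N.fn (N.vz s ξ) Z = Tor.dot ξ fun i => Z i := by
  rw [fn_apply, Tor.dot, ← sum_keep (fun k => N.wt k = s) (fun k => (N.vz s ξ k : ℝ) * Z k)
    fun l hl => by simp [ND.vz, hl]]
  exact sum_congr rfl fun i _ => by simp [ND.vz, i.2]

theorem ND.NFn.vert (hS : ∀ k, N.wt k ≤ S) (hF : N.NFn S s M F) (hM : 0 ≤ M) :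
    Tor.Vert (N.vact s) F M := by
  have := ND.nil hS ℝ
  refine ⟨fun a b x => ?_, fun n x => ?_, hM, fun t x => ?_⟩
  · simp only [ND.vact, vx_add]; abel
  · rw [ND.vact, ← hF.congr (star_sub_add_right S (vx_mem _) x), hF.per _ _ (isInt_vx n)]
  · rw [ND.vact, ← hF.star_eq_add (vx_mem t)]
    exact (hF.lip _ _).trans (mul_le_mul_of_nonneg_left (norm_vx_le t) hM)

theorem ND.NFn.nchar_coef (hS : ∀ k, N.wt k ≤ S) (hF : N.NFn S s M F) (hM : 0 ≤ M)
    (ξ : {k // N.wt k = s} → ℤ) (hM' : M ≤ M') (hξ : ∀ i, |(ξ i : ℝ)| ≤ M') :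
    N.NChar S s M' (N.vz s ξ) (Tor.coef (N.vact s) F ξ) := by
  have := ND.nil hS ℝ
  have hV := hF.vert hS hM
  have hc : ∀ a b : N.L, a - b ∈ N.F (s + 1) →
      Tor.coef (N.vact s) F ξ a = Tor.coef (N.vact s) F ξ b := fun a b hab =>
    Tor.coef_congr ξ fun t => hF.congr (by simpa [ND.vact] using hab)
  refine ⟨⟨fun x => Tor.norm_coef_le ξ x fun t => hF.bdd _, fun x γ hγ => Tor.coef_congr ξ fun t => ?_,
    fun Z x => hV.norm_coef_sub_le ξ _ _ fun t => ?_⟩, fun k hk => dif_neg hk, fun k => ?_,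
    fun Z hZ x => ?_⟩
  · simp only [ND.vact]
    rw [← hF.star_eq_add (vx_mem t), ← hF.star_eq_add (vx_mem t), ← star_assoc, hF.per _ _ hγ]
  · simp only [ND.vact]
    rw [← hF.congr (star_sub_add_right S (vx_mem t) _), ← hF.congr (star_sub_add_right S (vx_mem t) x),
      star_assoc]
    exact (hF.lip _ _).trans (mul_le_mul_of_nonneg_right hM' (norm_nonneg _))
  · by_cases h : N.wt k = s
    · simpa [ND.vz, h] using hξ ⟨k, h⟩
    · simpa [ND.vz, h] using hM.trans hM'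
  · rw [fn_vz, ← hV.coef_act]
    refine hc _ _ ?_
    have := add_mem (star_sub_add_left S hZ x) (sub_vx_mem hZ)
    rw [ND.vact]
    convert this using 1
    abel

/-- **V**: vertical expansion into nilcharacters -/
theorem ND.NFn.expand (hS : ∀ k, N.wt k ≤ S) (hF : N.NFn S s M F) (hM : 0 ≤ M) {K : ℕ} (hK : 0 < K)
    {ε : ℝ} (hε : 0 ≤ ε) (hKε : (M * Fintype.card ι) ^ 2 ≤ 4 * ε ^ 2 * K) (hM' : M ≤ M')
    (hKM : (K : ℝ) ≤ M') :
    ∃ (n : ℕ) (η : Fin n → ι → ℤ) (G : Fin n → N.L → ℂ), n ≤ (2 * K + 1) ^ Fintype.card ι ∧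
      (∀ j, N.NChar S s M' (η j) (G j)) ∧ ∀ x, ‖F x - ∑ j, G j x‖ ≤ ε := by
  classical
  set κ := {k // N.wt k = s}
  have hκ : Fintype.card κ ≤ Fintype.card ι := Fintype.card_subtype_le _
  set e := (Tor.cube κ K).equivFin.symm
  refine ⟨_, fun j => N.vz s (e j), fun j x => (Tor.fw K (e j).1 : ℂ) * Tor.coef (N.vact s) F (e j) x,
    ?_, fun j => ?_, fun x => ?_⟩
  · rw [Tor.card_cube]
    exact Nat.pow_le_pow_right (by omega) hκ
  · refine (hF.nchar_coef hS hM _ hM' fun i => le_trans ?_ hKM).constMul ?_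
    · exact_mod_cast Tor.mem_cube.1 (e j).2 i
    · rw [Complex.norm_real, Real.norm_of_nonneg (Tor.fw_nonneg _ _)]
      exact Tor.fw_le_one _ _
  · rw [e.sum_comp (fun ξ => (Tor.fw K ξ.1 : ℂ) * Tor.coef (N.vact s) F ξ x),
      sum_coe_sort _ fun ξ => (Tor.fw K ξ : ℂ) * Tor.coef (N.vact s) F ξ x]
    refine (hF.vert hS hM).expand' hK hε (le_trans ?_ hKε) x
    refine pow_le_pow_left₀ (by positivity) (mul_le_mul_of_nonneg_left ?_ hM) 2
    exact_mod_cast hκ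

/-- **V** with quasi-polynomial bounds -/
theorem ND.NFn.expand_exp {m : ℝ} (hm : 2 ≤ m) (hd : (Fintype.card ι : ℝ) ≤ m)
    (hS : ∀ k, N.wt k ≤ S) (hF : N.NFn S s (Real.exp m) F) :
    ∃ (n : ℕ) (η : Fin n → ι → ℤ) (G : Fin n → N.L → ℂ), (n : ℝ) ≤ Real.exp (m ^ 5) ∧
      (∀ j, N.NChar S s (Real.exp (7 * m)) (η j) (G j)) ∧
      ∀ x, ‖F x - ∑ j, G j x‖ ≤ Real.exp (-m) / 2 := by
  have h1 := Real.add_one_le_exp m
  have h6 : Real.exp (6 * m) ≤ (⌈Real.exp (6 * m)⌉₊ : ℝ) := Nat.le_ceil _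
  have h6' : (⌈Real.exp (6 * m)⌉₊ : ℝ) ≤ Real.exp (6 * m) + 1 :=
    (Nat.ceil_lt_add_one (Real.exp_pos _).le).le
  have h61 : 1 ≤ Real.exp (6 * m) := Real.one_le_exp (by linarith)
  have h7 : Real.exp (7 * m) = Real.exp (6 * m) * Real.exp m := by
    rw [← Real.exp_add]; congr 1; ring
  have h8 : Real.exp (8 * m) = Real.exp (7 * m) * Real.exp m := by
    rw [← Real.exp_add]; congr 1; ring
  have hK7 : (⌈Real.exp (6 * m)⌉₊ : ℝ) ≤ Real.exp (7 * m) := by rw [h7]; nlinarith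
  obtain ⟨n, η, G, hn, hG, hap⟩ := hF.expand hS (Real.exp_pos _).le (K := ⌈Real.exp (6 * m)⌉₊)
    (Nat.ceil_pos.2 (Real.exp_pos _)) (ε := Real.exp (-m) / 2) (by positivity) (M' := Real.exp (7 * m))
    (by
      refine le_trans ?_ (mul_le_mul_of_nonneg_left h6 (by positivity))
      have e1 : 4 * (Real.exp (-m) / 2) ^ 2 * Real.exp (6 * m) = (Real.exp m * Real.exp m) ^ 2 := by
        rw [div_pow, ← Real.exp_nat_mul, ← Real.exp_add, ← Real.exp_nat_mul, mul_div_assoc',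
          div_mul_eq_mul_div, mul_assoc, ← Real.exp_add]
        norm_num
        ring
      rw [e1]
      exact pow_le_pow_left₀ (by positivity)
        (mul_le_mul_of_nonneg_left (by linarith) (Real.exp_pos _).le) 2)
    (Real.exp_le_exp.2 (by linarith)) hK7
  refine ⟨n, η, G, ?_, hG, hap⟩
  have h71 : 1 ≤ Real.exp (7 * m) := Real.one_le_exp (by linarith)
  calc (n : ℝ) ≤ (2 * (⌈Real.exp (6 * m)⌉₊ : ℝ) + 1) ^ Fintype.card ι := by exact_mod_cast hn
    _ ≤ Real.exp (8 * m) ^ Fintype.card ι :=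
      pow_le_pow_left₀ (by positivity) (by rw [h8]; nlinarith) _
    _ ≤ _ := by
      rw [← Real.exp_nat_mul]
      refine Real.exp_le_exp.2 ?_
      have h3 : 8 ≤ m ^ 3 := by
        have := pow_le_pow_left₀ (by norm_num : (0 : ℝ) ≤ 2) hm 3
        norm_num at this ⊢; exact this
      calc (Fintype.card ι : ℝ) * (8 * m) ≤ m * (m ^ 3 * m) :=
            mul_le_mul hd (mul_le_mul_of_nonneg_right h3 (by linarith)) (by linarith) (by linarith)
        _ = _ := by ring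

end vertical

/-! ### the derivative of a nilcharacter -/

section box

variable {S s : ℕ} {M M' B : ℝ} {F : N.L → ℂ} {η : ι → ℤ} {σ : Type}

theorem card_box_le (N : ND ι) : Fintype.card (ι ⊕ N.I2) ≤ 2 * Fintype.card ι := by
  rw [Fintype.card_sum, two_mul]
  exact Nat.add_le_add_left (Fintype.card_subtype_le _) _

theorem isInt_mk2 {x y : N.L} (hx : IsInt x) (hy : IsInt y) : IsInt (N.mk2 x y : N.box.L) := by
  rintro (k | k)
  · exact hy k
  · obtain ⟨a, ha⟩ := hx k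
    obtain ⟨b, hb⟩ := hy k
    exact ⟨a - b, by rw [mk2_inr, ha, hb]; simp⟩

theorem ND.Good.box (hN : N.Good S M) (hM : 0 ≤ M) : N.box.Good S M := by
  refine ⟨?_, ?_, fun x y hx hy => ?_⟩
  · rintro (k | k)
    · exact hN.wt_le k
    · exact (Nat.sub_le _ _).trans (hN.wt_le k)
  · rintro (i | i) (j | j) (k | k) <;>
      first | exact hN.c_le _ _ _ | simpa [ND.box, ND.boxC] using hM
  · rw [← mk2_p1_p2 (star S x y), Bch.map_star, Bch.map_star]
    exact isInt_mk2 (hN.lat _ _ (isInt_p1 hx) (isInt_p1 hy)) (hN.lat _ _ (isInt_p2 hx) (isInt_p2 hy))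

theorem norm_p2_le (x : N.box.L) : ‖N.p2 ℝ x‖ ≤ ‖x‖ :=
  (norm_le_iff (norm_nonneg _)).2 fun k => abs_apply_le x (.inl k)

theorem norm_off_le (x : N.box.L) : ‖(N.off x : N.L)‖ ≤ ‖x‖ :=
  (norm_le_iff (norm_nonneg _)).2 fun k => by
    by_cases h : 2 ≤ N.wt k
    · rw [off_apply x ⟨k, h⟩]; exact abs_apply_le x _
    · rw [off_apply_of_not x h]; simp

theorem norm_p1_le (x : N.box.L) : ‖N.p1 ℝ x‖ ≤ 2 * ‖x‖ := by
  rw [p1_eq, two_mul]
  exact (norm_add_le _ _).trans (add_le_add (norm_p2_le x) (norm_off_le x))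

/-- the function `F (u x) conj F (y)` on the box datum -/
def ND.boxFn (N : ND ι) (S : ℕ) (F : N.L → ℂ) (u : N.L) : N.box.L → ℂ :=
  fun z => F (star S u (N.p1 ℝ z)) * conj (F (N.p2 ℝ z))

theorem ND.NChar.boxFn (hN : N.Good S M') (hM' : 0 ≤ M') (h : N.NChar S (s + 1) M η F) (hM : 0 ≤ M)
    {u : N.L} (hu : ‖u‖ ≤ B) :
    N.box.NFn S s (3 * M * adB S ((Fintype.card ι : ℝ) ^ 2 * M' * B)) (N.boxFn S F u) := by
  have hB : 0 ≤ B := (norm_nonneg _).trans hu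
  have h1 := h.left hN hM' hM hu
  have ha := one_le_adB S (x := (Fintype.card ι : ℝ) ^ 2 * M' * B) (by positivity)
  refine ⟨((h1.toLipFn.pullHom (by positivity) (N.p1 ℝ) (fun _ => isInt_p1) norm_p1_le).mulConj
    (h.toLipFn.pullHom (B := 1) hM (N.p2 ℝ) (fun _ => isInt_p2)
      fun x => by simpa using norm_p2_le x)).mono (by nlinarith), fun Z hZ x => ?_⟩
  simp only [ND.boxFn, Bch.map_star]
  rw [h1.vert _ (p1_mem_FA hZ), h.vert _ (p2_mem_FA hZ), map_mul,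
    h.fn_congr (Z := N.p1 ℝ Z) (Z' := N.p2 ℝ Z)
      (by rw [p1_eq, add_sub_cancel_left]; exact (mem_box_FA.1 hZ).2), ← Tor.e_neg]
  linear_combination (F (star S u (N.p1 ℝ x)) * conj (F (N.p2 ℝ x))) *
    Tor.e_mul_e_neg (N.fn η (N.p2 ℝ Z))

/-- the first component `u⁻¹ P(t+h) γ⁻¹` -/
def ND.boxQ (N : ND ι) (S : ℕ) (P : N.PS σ) (h : σ → ℝ) (u γ : N.L) : N.PS σ :=
  star S (N.cst _ (-u)) (star S (N.tr h P) (N.cst _ (-γ)))

/-- the polynomial map `(u⁻¹ P(t+h) γ⁻¹, P(t))` into the box datum -/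
def ND.boxP (N : ND ι) (S : ℕ) (P : N.PS σ) (h : σ → ℝ) (u γ : N.L) : N.box.PS σ :=
  N.mk2 (N.boxQ S P h u γ) P

theorem lie_mem_cf_jump {P Q : N.PS σ} (hP : P ∈ N.poly σ)
    (hQ : Q ∈ cf σ fun i => N.F (max (i + 1) 2)) : ⁅P, Q⁆ ∈ cf σ fun i => N.F (max (i + 1) 2) :=
  lie_mem_cf (W := N.F) (W' := fun i => N.F (max (i + 1) 2)) (W'' := fun i => N.F (max (i + 1) 2))
    (fun _ _ _ hx _ hy => FA_anti (by omega) (lie_mem_FA hx hy)) hP hQ

theorem lie_cst_mem_cf_jump {P : N.PS σ} (hP : P ∈ N.poly σ) (x : N.L) :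
    ⁅P, N.cst (MvPolynomial σ ℝ) x⁆ ∈ cf σ fun i => N.F (max (i + 1) 2) := by
  classical
  refine lie_mem_cf (W := fun i => N.F (max i 1)) (W' := fun i => N.F (i + 1))
    (W'' := fun i => N.F (max (i + 1) 2))
    (fun _ _ _ hx _ hy => FA_anti (by omega) (lie_mem_FA hx hy)) (fun α => ?_)
    (cst_mem_cf (mem_FA_one x))
  rcases Nat.eq_zero_or_pos α.degree with h | h
  · exact FA_anti (by omega : max α.degree 1 ≤ 1) (mem_FA_one _)
  · exact FA_anti (by omega : max α.degree 1 ≤ α.degree) (hP α)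

theorem star_mem_poly73 (S : ℕ) {P Q : N.PS σ} (hP : P ∈ N.poly σ) (hQ : Q ∈ N.poly σ) :
    star S P Q ∈ N.poly σ := by
  simpa using add_mem (Bch.star_sub_mem S (N.poly σ) (fun _ h => lie_mem_poly hP h)
    (fun _ h => lie_mem_poly hQ h) (lie_mem_poly hP hQ)) (add_mem hP hQ)

theorem star_cst_sub_mem (S : ℕ) {P : N.PS σ} (hP : P ∈ N.poly σ) (x : N.L) :
    star S P (N.cst _ x) - (P + N.cst _ x) ∈ cf σ fun i => N.F (max (i + 1) 2) :=
  Bch.star_sub_mem S _ (fun _ h => lie_mem_cf_jump hP h)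
    (fun _ h => lie_mem_cf_jump (cst_mem_poly x) h) (lie_cst_mem_cf_jump hP x)

theorem cst_star_sub_mem (S : ℕ) {P : N.PS σ} (hP : P ∈ N.poly σ) (x : N.L) :
    star S (N.cst _ x) P - (N.cst _ x + P) ∈ cf σ fun i => N.F (max (i + 1) 2) :=
  Bch.star_sub_mem S _ (fun _ h => lie_mem_cf_jump (cst_mem_poly x) h)
    (fun _ h => lie_mem_cf_jump hP h)
    (by rw [← lie_skew]; exact neg_mem (lie_cst_mem_cf_jump hP x))

theorem boxQ_mem_poly {P : N.PS σ} (hP : P ∈ N.poly σ) (h : σ → ℝ) (u γ : N.L) :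
    N.boxQ S P h u γ ∈ N.poly σ :=
  star_mem_poly73 S (cst_mem_poly _) (star_mem_poly73 S (tr_mem_poly hP h) (cst_mem_poly _))

theorem tr_sub_cst_mem {P : N.PS σ} (hP : P ∈ N.poly σ) (h : σ → ℝ) {w : N.L}
    (hw : N.ev h P - N.ev 0 P - w ∈ N.F 2) :
    N.tr h P - P - N.cst _ w ∈ cf σ fun i => N.F (max (i + 1) 2) := by
  classical
  intro α
  by_cases hα : 0 = α
  · subst hα
    rw [cv_zero_eq, map_sub, map_sub, ev_tr, ev_cst, zero_add]
    exact hw
  · rw [map_sub, cv_cst, if_neg hα, sub_zero]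
    have : α.degree ≠ 0 := fun h => hα ((Finsupp.degree_eq_zero_iff α).1 h).symm
    exact FA_anti (by omega : max (α.degree + 1) 2 ≤ α.degree + 1)
      (tr_sub_mem_cf (fun _ _ => FA_anti) hP h α)

theorem boxQ_sub_mem {P : N.PS σ} (hP : P ∈ N.poly σ) (h : σ → ℝ) {u γ : N.L}
    (hw : N.ev h P - N.ev 0 P - (u + γ) ∈ N.F 2) :
    N.boxQ S P h u γ - P ∈ cf σ fun i => N.F (max (i + 1) 2) := by
  have h1 := cst_star_sub_mem S (star_mem_poly73 S (tr_mem_poly hP h) (cst_mem_poly (-γ))) (-u)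
  have h2 := star_cst_sub_mem S (tr_mem_poly hP h) (-γ)
  have h3 := tr_sub_cst_mem hP h hw
  convert add_mem (add_mem h1 h2) h3 using 1
  simp only [ND.boxQ, map_neg, map_add]
  abel

theorem boxP_mem_poly {P : N.PS σ} (hP : P ∈ N.poly σ) (h : σ → ℝ) {u γ : N.L}
    (hw : N.ev h P - N.ev 0 P - (u + γ) ∈ N.F 2) : N.boxP S P h u γ ∈ N.box.poly σ :=
  mk2_mem_poly hP (cf_mono (fun _ => FA_anti (le_max_left _ _)) (boxQ_sub_mem hP h hw))

theorem p1_boxP {P : N.PS σ} (hP : P ∈ N.poly σ) (h : σ → ℝ) {u γ : N.L}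
    (hw : N.ev h P - N.ev 0 P - (u + γ) ∈ N.F 2) :
    N.p1 _ (N.boxP S P h u γ) = N.boxQ S P h u γ :=
  p1_mk2 (mem_FA_of_cf fun α => FA_anti (le_max_right _ _) (boxQ_sub_mem hP h hw α))

theorem p2_boxP (P : N.PS σ) (h : σ → ℝ) (u γ : N.L) : N.p2 _ (N.boxP S P h u γ) = P := rfl

theorem boxFn_boxP (hN : N.Good S M') (hF : N.LipFn S M F) {P : N.PS σ} (hP : P ∈ N.poly σ)
    (h : σ → ℤ) {u γ : N.L} (hγ : IsInt γ)
    (hw : N.ev (fun v => (h v : ℝ)) P - N.ev 0 P - (u + γ) ∈ N.F 2) (n : σ → ℤ) :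
    N.boxFn S F u (N.box.evZ n (N.boxP S P (fun v => (h v : ℝ)) u γ)) =
      F (N.evZ (n + h) P) * conj (F (N.evZ n P)) := by
  have := hN.nil ℝ
  have h1 : N.p1 ℝ (N.box.evZ n (N.boxP S P (fun v => (h v : ℝ)) u γ)) =
      N.evZ n (N.boxQ S P (fun v => (h v : ℝ)) u γ) := by
    rw [← p1_boxP hP _ hw]; exact (map_p1 _ _).symm
  have h2 : N.p2 ℝ (N.box.evZ n (N.boxP S P (fun v => (h v : ℝ)) u γ)) = N.evZ n P := rfl
  have hγ' : IsInt (-γ) := fun k => let ⟨z, hz⟩ := hγ k; ⟨-z, by simp [hz]⟩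
  rw [ND.boxFn, h1, h2, ND.boxQ, Bch.map_star, Bch.map_star, evZ_tr, ND.evZ, ev_cst, ev_cst,
    Bch.star_neg_star, hF.per _ _ hγ']

/-- integer part and fractional part -/
theorem exists_frac_int (w : N.L) : ∃ u γ : N.L, ‖u‖ ≤ 1 ∧ IsInt γ ∧ w = u + γ :=
  ⟨fun k => Int.fract (w k), fun k => ⌊w k⌋, (norm_le_iff zero_le_one).2 fun k => by
    rw [abs_of_nonneg (Int.fract_nonneg _)]; exact (Int.fract_lt_one _).le,
    fun k => ⟨_, rfl⟩, pts_ext fun k => (Int.fract_add_floor (w k)).symm⟩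

/-- **BOX**: the derivative of a nilcharacter of degree `s+1` along a polynomial map is a function
of degree `s` on the box datum -/
theorem ND.NChar.exists_box (hN : N.Good S M') (hM' : 0 ≤ M') (hF : N.NChar S (s + 1) M η F)
    (hM : 0 ≤ M) {P : N.PS σ} (hP : P ∈ N.poly σ) (h : σ → ℤ) :
    ∃ u γ : N.L, ‖u‖ ≤ 1 ∧ IsInt γ ∧ N.ev (fun v => (h v : ℝ)) P - N.ev 0 P = u + γ ∧
      N.box.NFn S s (3 * M * adB S ((Fintype.card ι : ℝ) ^ 2 * M' * 1)) (N.boxFn S F u) ∧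
      N.boxP S P (fun v => (h v : ℝ)) u γ ∈ N.box.poly σ ∧
      ∀ n, N.boxFn S F u (N.box.evZ n (N.boxP S P (fun v => (h v : ℝ)) u γ)) =
        F (N.evZ (n + h) P) * conj (F (N.evZ n P)) := by
  obtain ⟨u, γ, hu, hγ, hw⟩ := exists_frac_int (N.ev (fun v => (h v : ℝ)) P - N.ev 0 P)
  have hw' : N.ev (fun v => (h v : ℝ)) P - N.ev 0 P - (u + γ) ∈ N.F 2 := by
    rw [hw, sub_self]; exact zero_mem _
  exact ⟨u, γ, hu, hγ, hw, hF.boxFn hN hM' hM hu, boxP_mem_poly hP _ hw',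
    boxFn_boxP hN hF.toLipFn hP h hγ hw'⟩

theorem box_bound (S : ℕ) {m d : ℝ} (hm : 2 ≤ m) (hd0 : 0 ≤ d) (hd : d ≤ m) :
    3 * Real.exp m * adB S (d ^ 2 * Real.exp m * 1) ≤ Real.exp ((9 * S + 2) * m) := by
  have h1 := Real.add_one_le_exp m
  have h2 : d ^ 2 * Real.exp m * 1 ≤ Real.exp (3 * m) := by
    rw [show 3 * m = m + m + m by ring, Real.exp_add, Real.exp_add, mul_one, pow_two]
    exact mul_le_mul_of_nonneg_right (mul_le_mul (by linarith) (by linarith) hd0 (by linarith))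
      (by linarith)
  have h3 := adB_le_exp S (by positivity) (by linarith) h2
  calc _ ≤ Real.exp m * Real.exp m * Real.exp (3 * S * (3 * m)) :=
        mul_le_mul (mul_le_mul_of_nonneg_right (by linarith) (by linarith)) h3
          (zero_le_one.trans (one_le_adB S (by positivity))) (by positivity)
    _ = _ := by rw [← Real.exp_add, ← Real.exp_add]; congr 1; ring

/-- **BOX** for the class `IsNil` -/
theorem ND.NChar.isNil_deriv {m : ℝ} (hm : 2 ≤ m) (hd : (Fintype.card ι : ℝ) ≤ m)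
    (hN : N.Good S (Real.exp m)) (hF : N.NChar S (s + 1) (Real.exp m) η F) {P : N.PS σ}
    (hP : P ∈ N.poly σ) (h : σ → ℤ) :
    IsNil s ((9 * S + 2) * m) fun n => F (N.evZ (n + h) P) * conj (F (N.evZ n P)) := by
  obtain ⟨u, γ, -, -, -, h1, h2, h3⟩ :=
    hF.exists_box hN (Real.exp_pos _).le (Real.exp_pos _).le hP h
  have hS : (0 : ℝ) ≤ S := Nat.cast_nonneg S
  have h4 : 2 * m ≤ (9 * S + 2) * m := by nlinarith
  have := (h1.mono (box_bound S hm (Nat.cast_nonneg _) hd)).isNil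
    (le_trans (by exact_mod_cast card_box_le N) ((mul_le_mul_of_nonneg_left hd zero_le_two).trans h4))
    ((hN.box (Real.exp_pos _).le).mono (Real.exp_le_exp.2 (by linarith))) h2
  simpa only [h3] using this

end box

end Crest.Agent.T49.Nil
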