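import Crest.Agent.T49.GlA_99
import Crest.Agent.T49.LtrDef_33
import Crest.Agent.T49.NilFn_73
import Crest.Agent.T49.PB_10

/-!
# Row 49 (helper99): the bridge `RI → GLUE1`, assembly
-/

set_option autoImplicit false

noncomputable section

namespace Crest.Agent.T49.Gl

open MvPolynomial Finset Crest.Agent.T49.Tw Crest.Agent.T49.Nil Crest.Agent.T49.Nil.ND
open Crest.Agent.T49.Gf (wcf Orc)
open scoped ComplexConjugate

variable {ι : Type} [Fintype ι]

theorem from_dual {Λ E : ℂ} {K y a : ℝ} (h : ‖Λ - K * E‖ ≤ Real.exp (-y)) (hK : 1 ≤ K)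
    (hE : Real.exp (-a) ≤ ‖E‖) (hy : a + 1 ≤ y) : Real.exp (-(a + 1)) ≤ ‖Λ‖ := by
  have h1 := norm_sub_norm_le (K * E) Λ
  rw [norm_sub_rev, norm_mul, Complex.norm_real, Real.norm_of_nonneg (by linarith)] at h1
  have h2 : Real.exp (-y) ≤ Real.exp (-(a + 1)) := Real.exp_le_exp.2 (by linarith)
  nlinarith [exp_half a, norm_nonneg E]

theorem to_dual {Λ E : ℂ} {K y a k : ℝ} (h : ‖Λ - K * E‖ ≤ Real.exp (-y)) (hK : 1 ≤ K)
    (hk : K ≤ Real.exp k) (hΛ : Real.exp (-a) ≤ ‖Λ‖) (hy : a + 1 ≤ y) :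
    Real.exp (-(a + 1 + k)) ≤ ‖E‖ := by
  have h1 := norm_sub_norm_le Λ (K * E)
  rw [norm_mul, Complex.norm_real, Real.norm_of_nonneg (by linarith)] at h1
  have h2 : Real.exp (-y) ≤ Real.exp (-(a + 1)) := Real.exp_le_exp.2 (by linarith)
  have h3 := mul_le_mul_of_nonneg_right hk (norm_nonneg E)
  have h4 : Real.exp (-(a + 1)) = Real.exp k * Real.exp (-(a + 1 + k)) := by
    rw [← Real.exp_add]; congr 1; ring
  refine le_of_mul_le_mul_left ?_ (Real.exp_pos k)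
  linarith [exp_half a]

theorem lam_le {α β : Type} (Z : Finset α) (B : Finset β) {w : α → ℝ} (hw : ∀ V, 0 ≤ w V)
    {c : α → ℂ} (hc : ∀ V, ‖c V‖ ≤ 1) (χ g : α → β → ℂ) {μ a : ℝ} (hμ : 0 < μ)
    (h : Real.exp (-a) ≤ ‖(∑ V ∈ Z, (w V : ℂ) * ∑ t ∈ B, c V * χ V t * g V t) / (μ : ℂ)‖) :
    Real.exp (-a) * μ ≤ ∑ V ∈ Z, w V * ‖∑ t ∈ B, χ V t * g V t‖ := by
  rw [norm_div, Complex.norm_real, Real.norm_of_nonneg hμ.le, le_div_iff₀ hμ] at h
  refine h.trans ((norm_sum_le _ _).trans (sum_le_sum fun V _ => ?_))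
  simp only [mul_assoc, ← mul_sum]
  rw [norm_mul, norm_mul, Complex.norm_real, Real.norm_of_nonneg (hw V)]
  exact mul_le_mul_of_nonneg_left (mul_le_of_le_one_left (norm_nonneg _) (hc V)) (hw V)

theorem gm_scl {T : Cell ι} {l D : ℕ} {q r : ℝ} (h : Ri.Gm T l D q) (hD : 1 ≤ D) (hq : 0 ≤ q)
    (h0 : 0 < r) (h1 : r ≤ 1) : Ri.Gm (scl T r h0.ne') l D q := by
  obtain ⟨k1, cl, τ, k2, k3, k4, k5⟩ := h
  exact ⟨k1, cl, τ, scl_isMC k2 r _, k3, k4, scl_regM k2 h0 h1 k5 hD (hq.trans k4)⟩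

theorem Std.mono {T : Cell ι} {s L : ℕ} {σ R R' y x x' : ℝ} (h : Std T s σ L R y x) (hR : R ≤ R')
    (hy : R' ≤ y) (hx : x' ≤ x) : Std T s σ L R' y x' :=
  ⟨h.two.trans hR, hy, h.card.trans hR, h.lev, (Real.exp_le_exp.2 (by linarith)).trans h.lo, h.hi,
    h.Lle, Cell.allPC_mono h.pc hx (Real.exp_le_exp.2 (by linarith))⟩

/-- from the family of local correlations to one global nilsequence -/
def Fwd (s D j : ℕ) : Prop :=
  ∃ C : ℕ, 1 ≤ C ∧ ∀ (ι κ : Type) [Fintype ι] [Fintype κ] (T : Cell ι) (σ : ℝ) (L : ℕ) (R y : ℝ)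
    (N : ND κ) (Z : Finset (Frm D T.lev)) (F : Frm D T.lev → N.L → ℂ)
    (P : Frm D T.lev → N.PS (Fin D)) (H : (ι → ℤ) → ℂ),
    Std T s σ L R y (y ^ C) → R ^ C ≤ y → Real.exp (R ^ C) ≤ L → 0 < σ → Ri.Gm T s C (R ^ C) →
    FB T D σ R → (Fintype.card κ : ℝ) ≤ R → N.Good s (Real.exp R) → (∀ z, ‖H z‖ ≤ 1) →
    Real.exp (-R) * fmu T D σ ≤ fm T σ Z →
    (∀ V ∈ Z, N.NFn s j (Real.exp R) (F V) ∧ P V ∈ N.poly (Fin D) ∧
      Real.exp (-R) * (L : ℝ) ^ D ≤ ‖∑ t ∈ pos D L, F V (N.evZ t (P V)) * H (V.pt t)‖) →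
    ∃ (κ' : Type) (_ : Fintype κ') (N' : ND κ') (F' : N'.L → ℂ) (G : N'.PS ι) (ψ : (ι → ℤ) → ℂ),
      (Fintype.card κ' : ℝ) ≤ R ^ C ∧ N'.Good j (Real.exp (R ^ C)) ∧
      N'.LipFn j (Real.exp (R ^ C)) F' ∧ G ∈ wcf T.lev N'.F ∧ Cheap T (R ^ C) ψ ∧
      Real.exp (-R ^ C) * (fmu T D σ * (L : ℝ) ^ D) ≤ ∑ V ∈ Z, fw T σ V *
        ‖∑ t ∈ pos D L, F V (N.evZ t (P V)) * (ψ (V.pt t) * F' (N'.evZ (V.pt t) G))‖

theorem fwd (hD : DualStmt) (hX : BoxDStmt) (hN : NVStmt) {s D j : ℕ} (hj : j + 1 ≤ D)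
    (hRI : Ri.RI s j) : Fwd s D j := by
  classical
  obtain ⟨Cd, rd, hrd, hD⟩ := hD s D
  obtain ⟨Cx, hX⟩ := hX j D
  obtain ⟨Cn, rn, hrn, hN⟩ := hN s D (j + 1) (by omega)
  obtain ⟨Dr, Cr, hCr, hRI⟩ := hRI
  obtain ⟨r, h0, h1, h2, h3⟩ : ∃ r : ℝ, 0 < r ∧ r ≤ 1 ∧ r ≤ rd ∧ r ≤ rn :=
    ⟨min 1 (min rd rn), by positivity, min_le_left _ _,
      (min_le_right _ _).trans (min_le_left _ _), (min_le_right _ _).trans (min_le_right _ _)⟩
  obtain ⟨k0, hk0, hk⟩ : ∃ k : ℝ, 0 ≤ k ∧ Real.exp (-k) ≤ r :=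
    ⟨-Real.log r, neg_nonneg.2 (Real.log_nonpos h0.le h1), by rw [neg_neg, Real.exp_log h0]⟩
  obtain ⟨K0, -, hK0⟩ := exists_subset_card_eq (s := (univ : Finset (Fin D))) (n := j + 1)
    (by simpa using hj)
  let p1 : ℝ → ℝ := fun R => R + k0
  let p2 : ℝ → ℝ := fun R => 2 * (R + R + 1 + p1 R ^ Cd) + 1 + 1
  let p3 : ℝ → ℝ := fun R => (p2 R + R + 1) ^ Cx + (p2 R + 1) + k0
  let p4 : ℝ → ℝ := fun R => p3 R ^ Cn + ((j + 1 : ℕ) * 2 ^ (j + 1) * R + R)
  obtain ⟨C1, hC1, hC⟩ := PB.exists_le (f := fun R => 2 * (p3 R + p3 R ^ Cn + p4 R ^ Cr + 1))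
    (by simp only [p1, p2, p3, p4]; fun_prop)
  refine ⟨C1 + Cd + Cn + Dr, by omega, fun ι κ _ _ T σ L R y N Z F P H hS hy hL hσ hG hB hκ hNg hH
    hZ hF => ?_⟩
  have hR := hS.two
  have hW := (hC R hR).trans (PB.pow_mono hR (show C1 ≤ C1 + Cd + Cn + Dr by omega))
  have hy2 : 2 ≤ y := hR.trans hS.le
  generalize R ^ (C1 + Cd + Cn + Dr) = W at *
  have a1 : 0 ≤ p1 R ^ Cd := by simp only [p1]; positivity
  have a2 : p2 R = 2 * (R + R + 1 + p1 R ^ Cd) + 1 + 1 := rfl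
  have a3 : 0 ≤ (p2 R + R + 1) ^ Cx := pow_nonneg (by linarith) _
  have a4 : p3 R = (p2 R + R + 1) ^ Cx + (p2 R + 1) + k0 := rfl
  have a5 : 0 ≤ p3 R ^ Cn := pow_nonneg (by linarith) _
  have a6 : 0 ≤ ((j + 1 : ℕ) : ℝ) * 2 ^ (j + 1) * R := by positivity
  have a7 : p4 R = p3 R ^ Cn + ((j + 1 : ℕ) * 2 ^ (j + 1) * R + R) := rfl
  have a8 : p4 R ≤ p4 R ^ Cr := PB.le_pow (by linarith) hCr
  have a9 : p1 R = R + k0 := rfl
  have hL0 : (0 : ℝ) < L := (Real.exp_pos _).trans_le hL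
  have hμ : 0 < fmu T D σ := fmu_pos T D hσ
  have hN0 : (0 : ℝ) < (L : ℝ) ^ D := by positivity
  have hw : ∀ V : Frm D T.lev, 0 ≤ fw T σ V := fun V => (fw_pos T σ V).le
  choose c hc1 hc2 using fun V : Frm D T.lev =>
    exists_unit99 (∑ t ∈ pos D L, F V (N.evZ t (P V)) * H (V.pt t))
  obtain ⟨hM, K, Dl, hK1, hK2, hDl, hdu⟩ := hD ι T σ L (p1 R) y r h0.ne' Z
    (fun V t => (if V ∈ Z then c V else 0) * F V (N.evZ t (P V)))
    (hS.mono (by linarith) (by linarith) (PB.pow_mono hy2 (by omega)))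
    ((Real.exp_le_exp.2 (by linarith)).trans hk) h2 fun V t => by
      split_ifs with hV
      · rw [norm_mul]
        exact mul_le_one₀ (hc1 V) (norm_nonneg _) ((hF V hV).1.bdd _)
      · simp
  have hc3 : ∀ V, ‖if V ∈ Z then c V else 0‖ ≤ 1 := fun V => by
    split_ifs
    · exact hc1 V
    · simp
  -- the dual function is large
  have b1 : Real.exp (-(R + R)) ≤ ‖(∑ V ∈ Z, (fw T σ V : ℂ) * ∑ t ∈ pos D L,
      (if V ∈ Z then c V else 0) * F V (N.evZ t (P V)) * H (V.pt t)) /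
        ((fmu T D σ * (L : ℝ) ^ D : ℝ) : ℂ)‖ := by
    have e : (∑ V ∈ Z, (fw T σ V : ℂ) * ∑ t ∈ pos D L,
        (if V ∈ Z then c V else 0) * F V (N.evZ t (P V)) * H (V.pt t)) =
        (∑ V ∈ Z, fw T σ V * ‖∑ t ∈ pos D L, F V (N.evZ t (P V)) * H (V.pt t)‖ : ℝ) := by
      rw [Complex.ofReal_sum]
      refine sum_congr rfl fun V hV => ?_
      simp only [if_pos hV, mul_assoc, ← mul_sum]
      rw [hc2, Complex.ofReal_mul]
    rw [e, ← Complex.ofReal_div, Complex.norm_real]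
    refine le_trans ?_ (le_abs_self _)
    rw [le_div_iff₀ (by positivity), neg_add, Real.exp_add]
    calc Real.exp (-R) * Real.exp (-R) * (fmu T D σ * (L : ℝ) ^ D)
        = Real.exp (-R) * fmu T D σ * (Real.exp (-R) * (L : ℝ) ^ D) := by ring
      _ ≤ fm T σ Z * (Real.exp (-R) * (L : ℝ) ^ D) :=
          mul_le_mul_of_nonneg_right hZ (by positivity)
      _ ≤ _ := by
          rw [fm, sum_mul]
          exact sum_le_sum fun V hV => mul_le_mul_of_nonneg_left (hF V hV).2.2 (hw V)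
  have b2 := dual_self _ hM hDl hH (to_dual (hdu H hH) hK1 hK2 b1 (by linarith))
  have hDc : ∀ z, ‖conj (Dl z)‖ ≤ 1 := fun z => by rw [RCLike.norm_conj]; exact hDl z
  have b3 := lam_le Z _ hw hc3 _ _ (by positivity)
    (from_dual (hdu _ hDc) hK1 b2 (by linarith))
  rw [← a2] at b3
  obtain ⟨Z1, hZ1, b4, b5⟩ := dense_of_sum Z (x := fun V => if V ∈ Z then
      ‖∑ t ∈ pos D L, F V (N.evZ t (P V)) * conj (Dl (V.pt t))‖ else 0) hw hμ.le hN0
    (fun V => by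
      split_ifs with hV
      · refine (norm_sum_le_of_le _ (n := fun _ => 1) fun t _ => ?_).trans
          (by simp [card_pos_eq])
        rw [norm_mul]
        exact mul_le_one₀ ((hF V hV).1.bdd _) (norm_nonneg _) (hDc _)
      · exact hN0.le) (hB.mass Z) (b3.trans_eq (sum_congr rfl fun V hV => by rw [if_pos hV]))
  -- large box averages
  have b6 : ∀ V ∈ Z1, Real.exp (-(p2 R + R + 1) ^ Cx) ≤ bxL L K0 fun t => Dl (V.pt t) := by
    intro V hV
    have hV' := hF V (hZ1 hV)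
    refine hX _ L K0 _ (fun t => conj (F V (N.evZ t (P V)))) (by linarith) (by exact_mod_cast hL0)
      hK0 ((hV'.1.isNil hκ hNg hV'.2.1).conj.mono (by linarith)) (fun t => hDl _) ?_
    have := b4 V hV
    rw [if_pos (hZ1 hV), ← RCLike.norm_conj, map_sum] at this
    simpa only [map_mul, RingHomCompTriple.comp_apply, RingHom.id_apply, Complex.conj_conj]
      using this
  obtain ⟨ψ, hψ, b7⟩ := hN ι T σ L (p3 R) y r h0.ne' K0 Z1 Dl
    (hS.mono (by linarith) (by linarith) (PB.pow_mono hy2 (by omega))) (by linarith)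
    ((Real.exp_le_exp.2 (by linarith)).trans hL) ((Real.exp_le_exp.2 (by linarith)).trans hk) h3
    hK0 hDl (by
      calc Real.exp (-p3 R) * fmu T D σ
          ≤ Real.exp (-(p2 R + 1) + -(p2 R + R + 1) ^ Cx) * fmu T D σ :=
            mul_le_mul_of_nonneg_right (Real.exp_le_exp.2 (by linarith)) hμ.le
        _ = Real.exp (-(p2 R + 1)) * fmu T D σ * Real.exp (-(p2 R + R + 1) ^ Cx) := by
            rw [Real.exp_add]; ring
        _ ≤ (∑ V ∈ Z1, fw T σ V) * Real.exp (-(p2 R + R + 1) ^ Cx) :=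
            mul_le_mul_of_nonneg_right b5 (Real.exp_pos _).le
        _ ≤ _ := by
            rw [sum_mul]
            exact sum_le_sum fun V hV => mul_le_mul_of_nonneg_left (b6 V hV) (hw V))
  -- the inverse theorem on the wide cell
  obtain ⟨ψ', φ, ⟨κ', _, N', F', G, g1, g2, g3, g4, rfl⟩, hφ, b8⟩ := hRI ι (scl T r h0.ne') (p4 R)
    (fun z => Dl z * ψ z) ⟨by linarith, hS.card.trans (by linarith),
      (gm_scl hG (by omega) (by linarith) h0 h1).mono (by omega) (by linarith) (by linarith)⟩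
    (fun z => by rw [norm_mul, hψ.norm, mul_one]; exact hDl z) (by
      refine le_trans ?_ b7
      refine (mul_le_mul_of_nonneg_left (muK_le _ _) (Real.exp_pos _).le).trans ?_
      rw [← mul_assoc, ← Real.exp_add]
      refine mul_le_mul_of_nonneg_right (Real.exp_le_exp.2 ?_) (cmu_pos _ _).le
      have := mul_le_mul_of_nonneg_left hS.card
        (show 0 ≤ ((j + 1 : ℕ) : ℝ) * 2 ^ (j + 1) by positivity)
      linarith)
  have hφ' := cheap_of_chp h0 h1 hφ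
  have hμ' := (scl T r h0.ne').mu_pos
  have b9 := lam_le Z _ hw hc3 _ _ (by positivity) (from_dual (a := p4 R ^ Cr)
    (hdu (fun z => ψ z * φ z * F' (N'.evZ z G)) fun z => by
      rw [norm_mul, norm_mul, hψ.norm, hφ'.norm, one_mul, one_mul]; exact g3.bdd _) hK1 (by
      rw [norm_div, Complex.norm_real, Real.norm_of_nonneg hμ'.le, le_div_iff₀ hμ']
      simpa only [Ri.Cor, Ri.sqW, mul_assoc] using b8) (by linarith))
  refine ⟨κ', inferInstance, N', F', G, fun z => ψ z * φ z, by linarith,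
    g2.mono (Real.exp_le_exp.2 (by linarith)), g3.mono (Real.exp_le_exp.2 (by linarith)), g4,
    ((hψ.mono (m' := p3 R ^ Cn + p4 R ^ Cr) (by linarith)).mul (hφ'.mono (by linarith))
      (by linarith)).mono (by linarith), le_trans ?_ b9⟩
  exact mul_le_mul_of_nonneg_right (Real.exp_le_exp.2 (by linarith)) (by positivity)

/-- **GLUE1 from the relative inverse theorem** -/
theorem glueStmt (hRI : ∀ l t, Ri.RI l (t + 1)) (hA : AllDerMStmt) (hB : Fr.BulkStmt)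
    (hO : Ltr.OrcStmt) (hD : DualStmt) (hX : BoxDStmt) (hN : NVStmt) (hK : BackStmt)
    (hM : DimredStmt) : Fr.GlueStmt := by
  intro s hs
  refine ⟨s + 1, fun D hDs j hj hjs => ?_⟩
  obtain ⟨Cf, hCf, hf⟩ := fwd hD hX hN (s := s) (D := D) (j := j) (by omega)
    (by obtain ⟨t, rfl⟩ : ∃ t, j = t + 1 := ⟨j - 1, by omega⟩; exact hRI s t)
  obtain ⟨Da, hA⟩ := hA s s
  obtain ⟨Cb, hB⟩ := hB s D
  obtain ⟨Co, hO⟩ := hO D s s s (by omega)
  obtain ⟨Ck, hK⟩ := hK s D j hj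
  obtain ⟨Cm, hM⟩ := hM s D j (Co + 1)
  let p1 : ℝ → ℝ := fun R => R ^ Cb + R
  let p2 : ℝ → ℝ := fun R => p1 R ^ Cf
  let p3 : ℝ → ℝ := fun R => p2 R ^ Ck + p2 R + 3
  obtain ⟨C1, hC1, hC⟩ := PB.exists_le (f := fun R => p3 R + (Co + 1) * p3 R ^ Cm)
    (by simp only [p1, p2, p3]; fun_prop)
  obtain ⟨C2, hC2, hC'⟩ := PB.exists_le (f := fun y => 3 * y ^ Cf + y + 3 + (3 * y) ^ Co)
    (by fun_prop)
  refine ⟨C1 + C2 + Cf + Da + Cb + Co, fun ι _ T τ σ L R hP κ _ N η Z F P H hκ hNg hH hZ hF => ?_⟩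
  have hR := hP.two
  have hσ := hP.σ_pos
  have hW := (hC R hR).trans (PB.pow_mono hR (show C1 ≤ C1 + C2 + Cf + Da + Cb + Co by omega))
  have hL := hP.L_ge
  have hL0 : (0 : ℝ) < L := (Real.exp_pos _).trans_le hL
  have hy : R ^ (C1 + C2 + Cf + Da + Cb + Co) ≤ Real.log L := (Real.le_log_iff_exp_le hL0).2 hL
  have hRW : R ≤ R ^ (C1 + C2 + Cf + Da + Cb + Co) := PB.le_pow hR (by omega)
  have hy2 : 2 ≤ Real.log L := by linarith
  have hτ := (hC' _ hy2).trans ((PB.pow_mono hy2 (by omega)).trans hP.L_le)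
  have hreg : ∀ D', D' ≤ C1 + C2 + Cf + Da + Cb + Co → T.RegM T.lev D' s τ := fun D' h =>
    MA.regM_mono (Cell.regM_of_reg hP.reg) h (by omega) (le_trans (by positivity) hP.L_le)
  have hB' : FB T D σ (R ^ Cb) := fb_of_bulk (hB ι T τ σ L R ⟨hP.lev, Asm.reg_mono hP.reg
    (by omega) (by omega) (le_trans (by positivity) hP.L_le), hR, hP.card, hσ,
    hP.σ_le, hP.le_σ, (Real.exp_le_exp.2 (PB.pow_mono hR (by omega))).trans hL,
    (PB.pow_mono hy2 (by omega)).trans hP.L_le⟩)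
  have hLy : Real.exp (Real.log L) = L := Real.exp_log hL0
  generalize R ^ (C1 + C2 + Cf + Da + Cb + Co) = W at *
  generalize Real.log L = y at *
  have a0 : 0 ≤ R ^ Cb := by positivity
  have a1 : p1 R = R ^ Cb + R := rfl
  have a2 : p1 R ≤ p2 R := PB.le_pow (by linarith) hCf
  have a3 : 0 ≤ p2 R ^ Ck := pow_nonneg (by linarith) _
  have a4 : p3 R = p2 R ^ Ck + p2 R + 3 := rfl
  have a5 : 0 ≤ p3 R ^ Cm := pow_nonneg (by linarith) _
  have a6 : 0 ≤ Co * p3 R ^ Cm := by positivity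
  have a7 : 0 ≤ y ^ Cf := by positivity
  have a8 : 0 ≤ (3 * y) ^ Co := by positivity
  have a9 : Real.log (Fintype.card ι + 2) ≤ R + 1 := by
    linarith [Real.log_le_sub_one_of_pos (show (0 : ℝ) < Fintype.card ι + 2 by positivity), hP.card]
  rw [add_mul, one_mul] at hW
  have hE : ∀ {a b : ℝ}, a ≤ b → Real.exp a ≤ Real.exp b := Real.exp_le_exp.2
  have hμ := fmu_pos T D hσ
  have hmc := Cell.isMC_lev T
  obtain ⟨κ', _, N', F', G, ψ, g1, g2, g3, g4, g5, g6⟩ := hf ι κ T σ L (p1 R) y N Z F P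
    (fun z => H z) ⟨by linarith, by linarith, by linarith [hP.card], hP.lev,
      (hE (by linarith)).trans hP.le_σ, hP.σ_le, hLy.ge, Cell.allPC_mono (hA ι T T.lev τ (y ^ Cf)
        (y ^ Cf + y + 3) hmc hP.lev hP.lev (hreg _ (by omega)) (by linarith) (by linarith)).2
        le_rfl (hE (by linarith))⟩ (show p2 R ≤ y by linarith)
    ((hE (show p2 R ≤ W by linarith)).trans hL) hσ
    ⟨hP.lev, T.lev, τ, hmc, hP.lev, show p2 R ≤ _ by linarith, hreg _ (by omega)⟩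
    (hB'.mono hσ (by linarith)) (by linarith) (hNg.mono (hE (by linarith)))
    (fun z => by rw [Complex.norm_real]; exact hH z)
    ((mul_le_mul_of_nonneg_right (hE (by linarith)) hμ.le).trans hZ) fun V hV =>
    ⟨(hF V hV).1.nfn.mono (hE (by linarith)), (hF V hV).2.1,
      (mul_le_mul_of_nonneg_right (hE (by linarith)) (by positivity)).trans (hF V hV).2.2⟩
  obtain ⟨Hh, q, Z', k1, k2, k3, k4, k5, k6, k7, k8⟩ := hK (p2 R) ι κ κ' T σ L N N' η Z F P F' G ψ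
    (by linarith) (by linarith [hP.card]) (by linarith) g1 hP.lev ((hE (by linarith)).trans hL) hσ
    hP.σ_le (hB'.mono hσ (by linarith)) (hNg.mono (hE (by linarith))) (g2.step_le hjs)
    (fun V hV => ⟨(hF V hV).1.mono (hE (by linarith)), (hF V hV).2.1⟩)
    ((g3.nfn g2.wt_le).step g2.wt_le fun k => (g2.wt_le k).trans hjs) g4 g5 g6
  obtain ⟨V0, hV0⟩ : Z.Nonempty := by
    refine nonempty_iff_ne_empty.2 fun h => ?_
    rw [h, fm, sum_empty] at hZ
    exact absurd hZ (not_le.2 (by positivity))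
  have g1' : (Fintype.card κ' : ℝ) ≤ p2 R := g1
  obtain ⟨n, Nb, g, Hb, q', m1, m2, m3, m4, m5, m6, m7, m8, m9⟩ := hM (p3 R) ι κ κ' T σ L N N' η Z'
    P G Hh q (by linarith) (by linarith [hP.card]) (by linarith) (by linarith) hP.lev
    ((hE (by linarith)).trans hL) hσ hP.σ_le (hNg.mono (hE (by linarith)))
    ((g2.step_le hjs).mono (hE (show p2 R ≤ _ by linarith))) (hF V0 hV0).1.supp g4 k1
    (fun i => (k2 i).mono (hE (by linarith))) k3 k4 (k5.trans (hE (by linarith)))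
    (fun u hu1 hu2 => by
      have hu : 2 ≤ u := by linarith
      have b1 : Co * u ≤ Co * p3 R ^ Cm := mul_le_mul_of_nonneg_left hu2 (Nat.cast_nonneg _)
      have b2 : Real.exp (-(y + R)) ≤ σ := by
        refine le_of_mul_le_mul_right (le_trans (le_of_eq ?_) hP.le_σ) hL0
        rw [← hLy, ← Real.exp_add]; congr 1; ring
      have b3 : σ ≤ 1 := (le_mul_of_one_le_right hσ.le
        ((Real.one_le_exp (by linarith)).trans hL)).trans hP.σ_le
      have b4 := hO ι T T.lev τ σ L (y + R) u 1 Z' hmc hP.lev hP.lev (hreg _ (by omega))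
        (by linarith) (by linarith) b2 b3
        ((pow_le_pow_left₀ (by linarith) (show _ ≤ 3 * y by linarith) _).trans (by linarith))
        ((mul_le_mul_of_nonneg_right (hE (by linarith)) hμ.le).trans k7) le_rfl
        (by rw [Nat.cast_one]; exact Real.one_le_exp (by linarith))
        ((hE (by linarith)).trans hP.le_σ) ((hE (by linarith)).trans hL)
      have e : (fun V : Z' => Ltr.tpd V.1 1) = fun V : Z' => V.1.tp := by
        funext V c
        simp [Ltr.tpd, Gf.dil]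
      rw [e] at b4
      refine b4.mono le_rfl (hE ?_)
      rw [pow_succ]
      refine mul_le_mul_of_nonneg_right ?_ (by linarith)
      calc (Co : ℝ) ≤ 2 ^ Co := by exact_mod_cast Nat.lt_two_pow_self.le
        _ ≤ _ := pow_le_pow_left₀ (by norm_num) hu _)
    fun V hV => ⟨(k8 V hV).1.trans (by linarith), (k8 V hV).2.mono (hE (by linarith)) dvd_rfl⟩
  have hW' : Real.exp (p3 R ^ Cm) ≤ Real.exp W := hE (by linarith)
  exact ⟨Fin n, inferInstance, Nb, g, Hb, Z', by simpa using m1, m2.mono hW', m3, m4,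
    fun i => (m5 i).mono hW', m6, k6,
    (mul_le_mul_of_nonneg_right (hE (by linarith)) hμ.le).trans k7,
    fun V hV => ⟨q', m7, m8.trans hW', (m9 V hV).mono hW' dvd_rfl⟩⟩

end Crest.Agent.T49.Gl
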