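import Crest.Agent.T49.NilSt_61
import Crest.Agent.T49.Bch_16

/-!
# Row 49 (helper61): PULL / INT

Factorisations of the images of `P` under finitely many filtered integer Lie homomorphisms give a
factorisation of `P` through the intersection of the preimages.
-/

set_option autoImplicit false

noncomputable section

namespace Crest.Agent.T49.Nil.St

open Finset ND
open Crest.Agent.T49.Bch (star)

/-! ### quasi-polynomial bookkeeping -/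

/-- `0 ≤ f m ≤ exp (m ^ C)` for `m ≥ 2` -/
def QB (f : ℝ → ℝ) : Prop := ∃ C : ℕ, ∀ m : ℝ, 2 ≤ m → 0 ≤ f m ∧ f m ≤ Real.exp (m ^ C)

theorem exp_pow_mono {m : ℝ} (hm : 2 ≤ m) {a b : ℕ} (h : a ≤ b) :
    Real.exp (m ^ a) ≤ Real.exp (m ^ b) := Real.exp_le_exp.2 (pow_le_pow_right₀ (by linarith) h)

theorem QB.mono {f g : ℝ → ℝ} (hg : QB g) (h : ∀ m, 2 ≤ m → 0 ≤ f m ∧ f m ≤ g m) : QB f := by
  obtain ⟨C, hC⟩ := hg
  exact ⟨C, fun m hm => ⟨(h m hm).1, (h m hm).2.trans (hC m hm).2⟩⟩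

theorem QB.exp : QB Real.exp := ⟨1, fun m _ => ⟨(Real.exp_pos m).le, by rw [pow_one]⟩⟩

theorem QB.exp_pow (C : ℕ) : QB fun m => Real.exp (m ^ C) :=
  ⟨C, fun _ _ => ⟨(Real.exp_pos _).le, le_rfl⟩⟩

theorem QB.const {c : ℝ} (hc : 0 ≤ c) : QB fun _ => c := by
  obtain ⟨n, hn⟩ := exists_nat_ge c
  refine ⟨n, fun m hm => ⟨hc, hn.trans ?_⟩⟩
  have h1 : (n : ℝ) ≤ 2 ^ n := by exact_mod_cast Nat.lt_two_pow_self.le
  have h2 : (2 : ℝ) ^ n ≤ m ^ n := pow_le_pow_left₀ (by norm_num) hm n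
  linarith [Real.add_one_le_exp (m ^ n)]

theorem QB.mul {f g : ℝ → ℝ} (hf : QB f) (hg : QB g) : QB fun m => f m * g m := by
  obtain ⟨a, ha⟩ := hf
  obtain ⟨b, hb⟩ := hg
  refine ⟨a + b + 1, fun m hm => ⟨mul_nonneg (ha m hm).1 (hb m hm).1, ?_⟩⟩
  refine (mul_le_mul ((ha m hm).2.trans (exp_pow_mono hm (Nat.le_add_right a b)))
    ((hb m hm).2.trans (exp_pow_mono hm (Nat.le_add_left b a))) (hb m hm).1
    (Real.exp_pos _).le).trans ?_
  rw [← Real.exp_add, pow_succ]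
  refine Real.exp_le_exp.2 ?_
  have : 0 ≤ m ^ (a + b) := by positivity
  nlinarith

theorem QB.pow {f : ℝ → ℝ} (hf : QB f) (n : ℕ) : QB fun m => f m ^ n := by
  induction n with
  | zero => simpa using QB.const zero_le_one
  | succ n ih => simpa only [pow_succ] using ih.mul hf

theorem QB.add {f g : ℝ → ℝ} (hf : QB f) (hg : QB g) : QB fun m => f m + g m := by
  obtain ⟨a, ha⟩ := hf
  obtain ⟨b, hb⟩ := hg
  refine ((QB.const (c := 2) (by norm_num)).mul (QB.exp_pow (a + b))).mono fun m hm =>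
    ⟨add_nonneg (ha m hm).1 (hb m hm).1, ?_⟩
  linarith [(ha m hm).2.trans (exp_pow_mono hm (Nat.le_add_right a b)),
    (hb m hm).2.trans (exp_pow_mono hm (Nat.le_add_left b a))]

theorem QB.id : QB fun m => m :=
  QB.exp.mono fun m hm => ⟨by linarith, by linarith [Real.add_one_le_exp m]⟩

/-- the blow-up `bl` in dimension `⌊m⌋₊` -/
theorem QB.bl {f : ℝ → ℝ} (hf : QB f) : QB fun m => Gon.bl ⌊m⌋₊ (f m) := by
  obtain ⟨a, ha⟩ := hf
  refine ⟨(a + 1) * 4, fun m hm => ⟨by have := (ha m hm).1; unfold Gon.bl; positivity, ?_⟩⟩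
  have h1 : m ≤ m ^ (a + 1) := le_self_pow₀ (by linarith) (by omega)
  rw [pow_mul]
  exact Gon.bl_le_exp (by linarith) ((Nat.floor_le (by linarith)).trans h1) (ha m hm).1
    ((ha m hm).2.trans (exp_pow_mono hm (Nat.le_succ a)))

theorem QB.floor : QB fun m => (⌊m⌋₊ : ℝ) :=
  QB.id.mono fun m hm => ⟨Nat.cast_nonneg _, Nat.floor_le (by linarith)⟩

theorem QB.kB (S : ℕ) {f : ℝ → ℝ} (hf : QB f) : QB fun m => kB S ⌊m⌋₊ (f m) :=
  ((QB.const (c := 2 ^ S) (by positivity)).mul ((QB.floor.add (QB.const zero_le_one)).pow 2)).mul hf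

/-- the bound of `Sm_star` -/
theorem QB.star (S : ℕ) {f g : ℝ → ℝ} (hf : QB f) (hg : QB g) :
    QB fun m => cS S * (St.kB S ⌊m⌋₊ (f m) * g m) ^ (S + 1) :=
  (QB.const (by linarith [two_le_cS S])).mul (((hf.kB S).mul hg).pow _)

theorem le_star_bd (S d : ℕ) {B M : ℝ} (hB : 1 ≤ B) (hM : 1 ≤ M) :
    M ≤ cS S * (kB S d B * M) ^ (S + 1) := by
  have hk := one_le_kB S d hB
  have hkM : 1 ≤ kB S d B * M := one_le_mul_of_one_le_of_one_le hk hM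
  exact ((le_mul_of_one_le_left (by linarith) hk).trans (le_self_pow₀ hkM (by omega))).trans
    (le_mul_of_one_le_left (by positivity) (by linarith [two_le_cS S]))

variable {ι : Type} [Fintype ι] {N : ND ι} {σ : Type}

/-- packaged closure of `Sm` and `RatP` under `star` -/
theorem star_qp (S : ℕ) : ∃ C : ℕ, ∀ m : ℝ, 2 ≤ m →
    (∀ (ι σ : Type) [Fintype ι] (N : ND ι) (T : ℝ) (P Q : N.PS σ), (Fintype.card ι : ℝ) ≤ m →
      (∀ k, N.wt k ≤ S) → (∀ i j k, |(N.c i j k : ℝ)| ≤ Real.exp m) → 0 ≤ T → P ∈ N.poly σ →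
      Q ∈ N.poly σ → N.Sm T (Real.exp m) P → N.Sm T (Real.exp m) Q →
      N.Sm T (Real.exp (m ^ C)) (star S P Q)) ∧
    ∀ q : ℕ, (q : ℝ) ≤ Real.exp m → ((dS S * q ^ (S + 1) : ℕ) : ℝ) ≤ Real.exp (m ^ C) := by
  obtain ⟨C, hC⟩ := (QB.star S QB.exp QB.exp).add
    ((QB.const (c := dS S) (Nat.cast_nonneg _)).mul (QB.exp.pow (S + 1)))
  refine ⟨C, fun m hm => ⟨fun ι σ _ N T P Q hd hS hB hT hP hQ h h' => ?_, fun q hq => ?_⟩⟩
  · have he : 1 ≤ Real.exp m := Real.one_le_exp (by linarith)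
    refine (Sm_star hS hB he (Nat.le_floor hd) hT he hP hQ h h').mono (le_trans ?_ (hC m hm).2)
    exact le_add_of_nonneg_right (by positivity)
  · have he : 1 ≤ Real.exp m := Real.one_le_exp (by linarith)
    refine le_trans ?_ (hC m hm).2
    push_cast
    refine le_add_of_nonneg_of_le ((by linarith : (0 : ℝ) ≤ Real.exp m).trans
      (le_star_bd S _ he he)) ?_
    gcongr

section Pull

variable {α : Type} {ι' : α → Type} [∀ a, Fintype (ι' a)] {N' : ∀ a, ND (ι' a)}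

/-- the intersection of the preimages of the `H' a` -/
def pb (φ : ∀ a, N.L →ₗ⁅ℝ⁆ (N' a).L) (H' : ∀ a, ℕ → Submodule ℝ (N' a).L) (i : ℕ) :
    Submodule ℝ N.L := N.F i ⊓ ⨅ a, (H' a i).comap (φ a).toLinearMap

theorem mem_pb {φ : ∀ a, N.L →ₗ⁅ℝ⁆ (N' a).L} {H' : ∀ a, ℕ → Submodule ℝ (N' a).L} {i : ℕ}
    {x : N.L} : x ∈ pb φ H' i ↔ x ∈ N.F i ∧ ∀ a, φ a x ∈ H' a i := by
  simp [pb, Submodule.mem_iInf]

theorem grSub_pb {φ : ∀ a, N.L →ₗ⁅ℝ⁆ (N' a).L} {H' : ∀ a, ℕ → Submodule ℝ (N' a).L}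
    (hφ : ∀ a i, ∀ x ∈ N.F i, φ a x ∈ (N' a).F i) (hH : ∀ a, (N' a).GrSub (H' a)) :
    N.GrSub (pb φ H') :=
  ⟨fun _ => inf_le_left,
    fun i _ hx => mem_pb.2 ⟨FA_anti (Nat.le_succ i) hx, fun a => (hH a).ge i (hφ a _ _ hx)⟩,
    fun _ _ _ hx _ hy => mem_pb.2 ⟨lie_mem_FA (mem_pb.1 hx).1 (mem_pb.1 hy).1, fun a => by
      rw [LieHom.map_lie]; exact (hH a).lie _ _ _ ((mem_pb.1 hx).2 a) _ ((mem_pb.1 hy).2 a)⟩⟩

/-- the linear algebra of one level -/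
theorem split_level [Fintype α] (φ : ∀ a, N.L →ₗ[ℝ] (N' a).L) (U : ∀ a, Submodule ℝ (N' a).L)
    {B : ℝ} {d : ℕ} (hB : 1 ≤ B) (hd : Fintype.card ι ≤ d) (hd' : ∀ a, Fintype.card (ι' a) ≤ d)
    (hφ : ∀ a, N.IntMap (N' a) B (φ a)) (hU : ∀ a, (N' a).RatS B (U a)) (j : ℕ) :
    N.RatS (Gon.bl d ((d + 1) * Gon.bl d B * B)) (N.F j ⊓ ⨅ a, (U a).comap (φ a)) ∧
    ∃ q' : ℕ, 1 ≤ q' ∧ (q' : ℝ) ≤ Gon.bl d ((d + 1) * Gon.bl d B * B) ∧
      ∀ (x : N.L) (e r : ∀ a, (N' a).L) (q : ℕ) (ε : ℝ), x ∈ N.F j → 0 ≤ ε → (∀ a, ‖e a‖ ≤ ε) →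
        (∀ a, (N' a).Den q (r a)) → (∀ a, φ a x - e a - r a ∈ U a) →
        ∃ e' ∈ N.F j, ∃ r' ∈ N.F j, ‖e'‖ ≤ Gon.bl d ((d + 1) * Gon.bl d B * B) * (Gon.bl d B * ε) ∧
          N.Den (q' * q) r' ∧ ∀ a, φ a (x - e' - r') ∈ U a := by
  classical
  choose A hA hAf using fun a => exists_matrix (hφ a)
  choose q0 P _ _ hP hPn hPU _ using fun a => Gon.IsRat.exists_proj (hU a) hB (hd' a)
  have h1 := Gon.one_le_bl d hB
  have hd0 : (0 : ℝ) ≤ d := Nat.cast_nonneg d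
  have hB3 : 1 ≤ ((d : ℝ) + 1) * Gon.bl d B * B :=
    one_le_mul_of_one_le_of_one_le (one_le_mul_of_one_le_of_one_le (by linarith) h1) hB
  have hPA : ∀ a k i, |((P a * A a) k i : ℝ)| ≤ (d + 1) * Gon.bl d B * B := fun a k i => by
    refine (Gon.abs_mul_entry_le _ _ k i).trans ?_
    calc ∑ l, |(P a k l : ℝ)| * |(A a l i : ℝ)| ≤ ∑ _l : ι' a, Gon.bl d B * B :=
          sum_le_sum fun l _ => mul_le_mul (hP _ _ _) (hA _ _ _) (abs_nonneg _) (by linarith)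
      _ = Fintype.card (ι' a) * (Gon.bl d B * B) := by simp
      _ ≤ (d + 1) * (Gon.bl d B * B) := mul_le_mul_of_nonneg_right
          (by exact_mod_cast (hd' a).trans (Nat.le_succ d)) (by positivity)
      _ = _ := by ring
  let M : Matrix ((Σ a, ι' a) ⊕ ι) ι ℤ := Matrix.of fun p i =>
    Sum.elim (fun p : Σ a, ι' a => (P p.1 * A p.1) p.2 i)
      (fun k => if N.wt k < j ∧ k = i then 1 else 0) p
  have hM : ∀ p i, |(M p i : ℝ)| ≤ (d + 1) * Gon.bl d B * B := by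
    rintro (p | k) i
    · exact hPA _ _ _
    · change |(((if N.wt k < j ∧ k = i then 1 else 0 : ℤ)) : ℝ)| ≤ _
      split_ifs
      · simpa using hB3
      · simp; positivity
  have hM1 : ∀ (x : N.L) a k, Gon.lin M x (Sum.inl ⟨a, k⟩) = Gon.lin (P a) (φ a x) k := by
    intro x a k
    rw [← hAf, ← Gon.lin_mul]; rfl
  have hM2 : ∀ (x : N.L) k, Gon.lin M x (Sum.inr k) = if N.wt k < j then x k else 0 := by
    intro x k
    rw [Gon.lin_apply]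
    change ∑ i, (((if N.wt k < j ∧ k = i then 1 else 0 : ℤ)) : ℝ) * x i = _
    split_ifs with h <;> simp [h]
  have hker : ∀ x : N.L, Gon.lin M x = 0 ↔ x ∈ N.F j ∧ ∀ a, φ a x ∈ U a := by
    intro x
    constructor
    · intro h
      refine ⟨fun k hk => ?_, fun a => (hPU a _).2 (funext fun k => ?_)⟩
      · have := hM2 x k
        rwa [h, if_pos hk, eq_comm] at this
      · rw [← hM1, h]; rfl
    · rintro ⟨h, h'⟩
      funext p
      rcases p with ⟨a, k⟩ | k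
      · rw [hM1, (hPU a _).1 (h' a)]; rfl
      · rw [hM2]; split_ifs with hk
        · exact h k hk
        · rfl
  constructor
  · have h2 : N.F j ⊓ ⨅ a, (U a).comap (φ a) = LinearMap.ker (Gon.lin M) := by
      ext x
      exact (by simp [Submodule.mem_iInf] : x ∈ N.F j ⊓ ⨅ a, (U a).comap (φ a) ↔
        x ∈ N.F j ∧ ∀ a, φ a x ∈ U a).trans (hker x).symm
    rw [h2]
    exact Gon.isRat_ker M hB3 hM (Or.inl hd)
  obtain ⟨q', B', hq1, hq, he, hr, hs⟩ := Gon.exists_split M hB3 hM (Or.inl hd)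
  refine ⟨q', hq1, hq, fun x e r q ε hx hε hee hrr hxU => ?_⟩
  let E : (Σ a, ι' a) ⊕ ι → ℝ := Sum.elim (fun p => Gon.lin (P p.1) (e p.1) p.2) 0
  let R : (Σ a, ι' a) ⊕ ι → ℝ := Sum.elim (fun p => Gon.lin (P p.1) (r p.1) p.2) 0
  have hE : ‖E‖ ≤ Gon.bl d B * ε := by
    refine (pi_norm_le_iff_of_nonneg (by positivity)).2 ?_
    rintro (p | k)
    · exact (norm_le_pi_norm (Gon.lin (P p.1) (e p.1)) p.2).trans
        ((hPn _ _).trans (mul_le_mul_of_nonneg_left (hee _) (by linarith)))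
    · change ‖(0 : ℝ)‖ ≤ _
      rw [norm_zero]; positivity
  have hR : Gon.IsDen q R := Gon.IsDen.iff_coord.2 (by
    rintro (p | k)
    · exact Gon.IsDen.iff_coord.1 (Gon.IsDen.lin (hrr p.1) (P p.1)) p.2
    · exact ⟨0, by simp [R]⟩)
  have hxM : Gon.lin M x = E + R := by
    funext p
    rcases p with ⟨a, k⟩ | k
    · have h2 := (hPU a _).1 (hxU a)
      erw [map_sub, map_sub] at h2
      have h3 := congrFun h2 k
      rw [hM1]
      simp only [Pi.sub_apply, Pi.zero_apply] at h3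
      change _ = Gon.lin (P a) (e a) k + Gon.lin (P a) (r a) k
      linarith
    · rw [hM2]
      split_ifs with hk
      · rw [hx k hk]; simp [E, R]
      · simp [E, R]
  obtain ⟨h4, h5⟩ := (hker _).1 (hs x E R hxM)
  set e0 : ι → ℝ := (q' : ℝ)⁻¹ • Gon.lin B' E
  set r0 : ι → ℝ := (q' : ℝ)⁻¹ • Gon.lin B' R
  refine ⟨Gon.prj (fun k => j ≤ N.wt k) e0,
    fun k hk => Gon.prj_neg (p := fun k => j ≤ N.wt k) e0 (not_le.2 hk),
    Gon.prj (fun k => j ≤ N.wt k) r0,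
    fun k hk => Gon.prj_neg (p := fun k => j ≤ N.wt k) r0 (not_le.2 hk),
    (Gon.norm_prj_le _ e0).trans ((he E).trans (mul_le_mul_of_nonneg_left hE
      (by linarith [Gon.one_le_bl d hB3]))), (hr q R hR).prj _, fun a => ?_⟩
  convert h5 a using 2
  funext k
  change x k - Gon.prj (fun k => j ≤ N.wt k) e0 k - Gon.prj (fun k => j ≤ N.wt k) r0 k =
    x k - e0 k - r0 k
  by_cases hk : j ≤ N.wt k
  · rw [Gon.prj_pos (p := fun k => j ≤ N.wt k) e0 hk, Gon.prj_pos (p := fun k => j ≤ N.wt k) r0 hk]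
  · have := h4 k (by omega)
    change x k - e0 k - r0 k = 0 at this
    rw [Gon.prj_neg (p := fun k => j ≤ N.wt k) e0 hk, Gon.prj_neg (p := fun k => j ≤ N.wt k) r0 hk,
      this, hx k (by omega), sub_zero, sub_zero]

theorem ratS_pb [Fintype α] {φ : ∀ a, N.L →ₗ⁅ℝ⁆ (N' a).L} {H' : ∀ a, ℕ → Submodule ℝ (N' a).L}
    {B : ℝ} {d : ℕ} (hB : 1 ≤ B) (hd : Fintype.card ι ≤ d) (hd' : ∀ a, Fintype.card (ι' a) ≤ d)
    (hφ : ∀ a, N.IntMap (N' a) B (φ a).toLinearMap) (hU : ∀ a i, (N' a).RatS B (H' a i)) (i : ℕ) :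
    N.RatS (Gon.bl d ((d + 1) * Gon.bl d B * B)) (pb φ H' i) :=
  (split_level (fun a => (φ a).toLinearMap) (fun a => H' a i) hB hd hd' hφ (fun a => hU a i) i).1

/-- one level of PULL, explicit constants -/
theorem pull_step [Fintype α] {S d : ℕ} {B : ℝ} (φ : ∀ a, N.L →ₗ⁅ℝ⁆ (N' a).L)
    (H' : ∀ a, ℕ → Submodule ℝ (N' a).L) (hB : 1 ≤ B) (hd : Fintype.card ι ≤ d)
    (hd' : ∀ a, Fintype.card (ι' a) ≤ d) (hS : ∀ k, N.wt k ≤ S) (hS' : ∀ a k, (N' a).wt k ≤ S)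
    (hc : ∀ i j k, |(N.c i j k : ℝ)| ≤ B) (hc' : ∀ a i j k, |((N' a).c i j k : ℝ)| ≤ B)
    (hφ : ∀ a, N.IntMap (N' a) B (φ a).toLinearMap)
    (hφF : ∀ a i, ∀ x ∈ N.F i, φ a x ∈ (N' a).F i) (hH : ∀ a, (N' a).GrSub (H' a))
    (hU : ∀ a i, (N' a).RatS B (H' a i)) (j : ℕ) :
    ∃ q' : ℕ, 1 ≤ q' ∧ (q' : ℝ) ≤ Gon.bl d ((d + 1) * Gon.bl d B * B) ∧
      ∀ (σ : Type) (q : ℕ) (T M : ℝ) (P : N.PS σ), 1 ≤ q → 1 ≤ M → 1 ≤ T →
        (dS S * q ^ (S + 1) : ℕ) * (Gon.bl d B * (cS S * (kB S d B * ((d + 1) * B * M)) ^ (S + 1))) < T →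
        (∀ a, (N' a).FactQ S T M q (H' a) (bc (φ a) _ P)) →
        N.FactQ S T M q (trunc j (pb φ H')) P →
        N.FactQ S T (cS S * (kB S d B * (Gon.bl d ((d + 1) * Gon.bl d B * B) * (Gon.bl d B *
          (cS S * (kB S d B * ((d + 1) * B * M)) ^ (S + 1))))) ^ (S + 1))
          (dS S * (q' * (dS S * q ^ (S + 1))) ^ (S + 1)) (trunc (j + 1) (pb φ H')) P := by
  classical
  obtain ⟨q', hq1, hq, hsp⟩ :=
    (split_level (fun a => (φ a).toLinearMap) (fun a => H' a j) hB hd hd' hφ (fun a => hU a j) j).2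
  refine ⟨q', hq1, hq, fun σ q T M P hq0 hM hT hbig hF hP => ?_⟩
  obtain ⟨ε, hε, h, hh, γ, hγ, hεs, hγr, hPe⟩ := hP
  choose ε' hε' h' hh' γ' hγ' hεs' hγr' hPe' using hF
  have hG := grSub_pb hφF hH
  have hhp : h ∈ N.poly σ := cf_le_poly (grSub_trunc hG j) hh
  have hd0 : (0 : ℝ) ≤ d := Nat.cast_nonneg d
  have hT0 : 0 ≤ T := by linarith
  set M1 : ℝ := (d + 1) * B * M with hM1
  have hMM1 : M ≤ M1 := le_mul_of_one_le_left (by linarith)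
    (one_le_mul_of_one_le_of_one_le (by linarith) hB)
  set M2 : ℝ := cS S * (kB S d B * M1) ^ (S + 1) with hM2
  have hM12 : M1 ≤ M2 := le_star_bd S d hB (hM.trans hMM1)
  set q2 : ℕ := dS S * q ^ (S + 1) with hq2
  have hq21 : 1 ≤ q2 := Nat.mul_pos (one_le_dS S) (Nat.pow_pos hq0)
  have hbp : ∀ a, ∀ Q ∈ N.poly σ, bc (φ a) _ Q ∈ (N' a).poly σ := fun a Q hQ =>
    bc_mem_cf (φ a) (hφF a) hQ
  -- the factors on the image side
  have key : ∀ a, ∃ e ∈ (N' a).poly σ, ∃ g ∈ (N' a).poly σ, (N' a).Sm T M2 e ∧ (N' a).RatP q2 g ∧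
      ∀ β : σ →₀ ℕ, β.degree = j →
        φ a (N.cv β h) - (N' a).cv β e - (N' a).cv β g ∈ H' a j := by
    intro a
    have := ND.nil (hS' a) (MvPolynomial σ ℝ)
    have e1 : star S (-bc (φ a) _ ε) (ε' a) ∈ (N' a).poly σ :=
      star_mem_poly S (neg_mem (hbp a _ hε)) (hε' a)
    have g1 : star S (γ' a) (-bc (φ a) _ γ) ∈ (N' a).poly σ :=
      star_mem_poly S (hγ' a) (neg_mem (hbp a _ hγ))
    have e2 : (N' a).Sm T M2 (star S (-bc (φ a) _ ε) (ε' a)) :=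
      Sm_star (hS' a) (hc' a) hB (hd' a) hT0 (hM.trans hMM1) (neg_mem (hbp a _ hε)) (hε' a)
        (Sm_neg ((Sm_bc (hφ a) (by linarith) hd hT0 hεs).mono (by rw [hM1]; gcongr; linarith)))
        ((hεs' a).mono hMM1)
    have g2 : (N' a).RatP q2 (star S (γ' a) (-bc (φ a) _ γ)) :=
      RatP_star S (hγr' a) (RatP_neg (RatP_bc (hφ a) hγr))
    have heq : bc (φ a) _ h = star S (star S (-bc (φ a) _ ε) (ε' a))
        (star S (h' a) (star S (γ' a) (-bc (φ a) _ γ))) := by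
      have h1 := hPe' a
      rw [hPe, Bch.map_star, Bch.map_star] at h1
      rw [Bch.star_assoc, ← Bch.star_assoc S (h' a), ← Bch.star_assoc S (ε' a), ← h1,
        Bch.star_assoc, Bch.neg_star_star, Bch.star_star_neg]
    have hφh : bc (φ a) _ h ∈ cf σ (trunc j (H' a)) := bc_mem_cf (φ a) (fun i x hx => by
      unfold trunc at hx ⊢
      split_ifs at hx ⊢
      · exact (mem_pb.1 hx).2 a
      · exact hφF a i x hx) hh
    have hu := uniq S (grSub_trunc (hH a) j) hB (ratS_trunc hB (hU a) j) (hd' a) hq21 hT hbig e1 g1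
      e2 g2 (cf_mono (le_trunc (hH a) j) (hh' a)) (heq ▸ hφh)
    refine ⟨_, e1, _, g1, e2, g2, fun β hβ => ?_⟩
    have := lev S j (hH a) hu.1 hu.2 (cf_mono (le_trunc (hH a) (j + 1)) (hh' a)) hβ
    rwa [← heq, cv_bc] at this
  choose e he g hg hes hgr hlev using key
  set M3 : ℝ := Gon.bl d ((d + 1) * Gon.bl d B * B) * (Gon.bl d B * M2) with hM3
  have hbl := Gon.one_le_bl d hB
  have hbl' : 1 ≤ Gon.bl d ((d + 1) * Gon.bl d B * B) := Gon.one_le_bl d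
    (one_le_mul_of_one_le_of_one_le (one_le_mul_of_one_le_of_one_le (by linarith) hbl) hB)
  have hM23 : M2 ≤ M3 := (le_mul_of_one_le_left (by linarith) hbl).trans
    (le_mul_of_one_le_left (mul_nonneg (by linarith) (by linarith)) hbl')
  have hco : ∀ β : σ →₀ ℕ, ∃ e' ∈ N.F β.degree, ∃ r' ∈ N.F β.degree, ‖e'‖ * T ^ β.degree ≤ M3 ∧
      N.Den (q' * q2) r' ∧ (β.degree ≠ j ∨ N.cv β h = 0 → e' = 0 ∧ r' = 0) ∧
      (β.degree = j → N.cv β h - e' - r' ∈ pb φ H' j) := by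
    intro β
    by_cases hβ : β.degree ≠ j ∨ N.cv β h = 0
    · refine ⟨0, zero_mem _, 0, zero_mem _, by rw [norm_zero, zero_mul]; linarith,
        Gon.IsDen.zero _, fun _ => ⟨rfl, rfl⟩, fun h1 => ?_⟩
      rw [hβ.resolve_left (not_not.2 h1), sub_zero, sub_zero]
      exact zero_mem _
    have hβj : β.degree = j := by by_contra h1; exact hβ (Or.inl h1)
    have hTp : 0 < T ^ β.degree := by positivity
    obtain ⟨e', he', r', hr', h1, h2, h3⟩ := hsp (N.cv β h) (fun a => (N' a).cv β (e a))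
      (fun a => (N' a).cv β (g a)) q2 (M2 / T ^ β.degree) (hβj ▸ hhp β)
      (div_nonneg (by linarith) hTp.le) (fun a => (le_div_iff₀ hTp).2 (hes a β))
      (fun a => hgr a β) fun a => hlev a β hβj
    refine ⟨e', hβj ▸ he', r', hβj ▸ hr', ?_, h2, fun h => absurd h hβ, fun _ =>
      mem_pb.2 ⟨sub_mem (sub_mem (hβj ▸ hhp β) he') hr', h3⟩⟩
    refine (mul_le_mul_of_nonneg_right h1 hTp.le).trans (le_of_eq ?_)
    rw [hM3]; field_simp
  choose e' he' r' hr' hn hden hz hmem using hco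
  obtain ⟨ε1, hε1⟩ := exists_ps e' ((finite_cv h).subset fun β hβ h0 => hβ (hz β (Or.inr h0)).1)
  obtain ⟨γ1, hγ1⟩ := exists_ps r' ((finite_cv h).subset fun β hβ h0 => hβ (hz β (Or.inr h0)).2)
  have hε1p : ε1 ∈ N.poly σ := fun β => by rw [hε1]; exact he' β
  have hγ1p : γ1 ∈ N.poly σ := fun β => by rw [hγ1]; exact hr' β
  have hε1Z : ε1 ∈ Zj N σ j := mem_Zj_of_hom hε1p fun β hβ => by
    rw [hε1]; exact (hz β (Or.inl hβ.ne)).1
  have hγ1Z : γ1 ∈ Zj N σ j := mem_Zj_of_hom hγ1p fun β hβ => by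
    rw [hγ1]; exact (hz β (Or.inl hβ.ne)).2
  have := ND.nil hS (MvPolynomial σ ℝ)
  refine ⟨star S ε ε1, star_mem_poly S hε hε1p, star S (-ε1) (star S h (-γ1)), ?_,
    star S γ1 γ, star_mem_poly S hγ1p hγ,
    Sm_star hS hc hB hd hT0 (by linarith) hε hε1p (hεs.mono (by linarith))
      fun β => by rw [hε1]; exact hn β,
    RatP_star S (fun β => by rw [hγ1]; exact hden β) (hγr.of_dvd
      (Dvd.dvd.mul_left (Dvd.dvd.mul_left (dvd_pow_self q (by omega)) _) _)), ?_⟩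
  · have h1 := Zj_le_cf hG _ (cong3 S j (zero_mem _) (zero_mem _) (neg_mem hε1p) (neg_mem hγ1p) hhp
      (by simpa using hε1Z) (by simpa using hγ1Z))
    have h2 : h - ε1 - γ1 ∈ cf σ (trunc (j + 1) (pb φ H')) :=
      mem_cf_trunc_succ (sub_mem (sub_mem hh (Zj_le_cf hG j hε1Z)) (Zj_le_cf hG j hγ1Z))
        fun β hβ => by rw [map_sub, map_sub, hε1, hγ1]; exact hmem β hβ
    have h3 := add_mem h1 h2
    rw [Bch.zero_star, Bch.star_zero] at h3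
    convert h3 using 1
    abel
  · rw [hPe, Bch.star_assoc, Bch.star_assoc S (-ε1), Bch.star_neg_star, Bch.star_assoc,
      Bch.neg_star_star]

end Pull

/-- **PULL / INT** for a finite family of filtered integer Lie homomorphisms.  The denominator
`q'` does not depend on `P`. -/
theorem pull (S : ℕ) : ∃ C : ℕ, ∀ m : ℝ, 2 ≤ m → ∀ (ι α : Type) [Fintype ι] [Fintype α]
    (ι' : α → Type) [∀ a, Fintype (ι' a)] (N : ND ι) (N' : ∀ a, ND (ι' a))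
    (φ : ∀ a, N.L →ₗ⁅ℝ⁆ (N' a).L) (H' : ∀ a, ℕ → Submodule ℝ (N' a).L),
    (Fintype.card ι : ℝ) ≤ m → (∀ a, (Fintype.card (ι' a) : ℝ) ≤ m) → (∀ k, N.wt k ≤ S) →
    (∀ a k, (N' a).wt k ≤ S) → (∀ i j k, |(N.c i j k : ℝ)| ≤ Real.exp m) →
    (∀ a i j k, |((N' a).c i j k : ℝ)| ≤ Real.exp m) →
    (∀ a, N.IntMap (N' a) (Real.exp m) (φ a).toLinearMap) →
    (∀ a i, ∀ x ∈ N.F i, φ a x ∈ (N' a).F i) → (∀ a, (N' a).GrSub (H' a)) →
    (∀ a i, (N' a).RatS (Real.exp m) (H' a i)) →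
    N.GrSub (pb φ H') ∧ (∀ i, N.RatS (Real.exp (m ^ C)) (pb φ H' i)) ∧
    ∀ q : ℕ, 1 ≤ q → (q : ℝ) ≤ Real.exp m → ∃ q' : ℕ, 1 ≤ q' ∧ (q' : ℝ) ≤ Real.exp (m ^ C) ∧ q ∣ q' ∧
      ∀ (σ : Type) (T : ℝ) (P : N.PS σ), Real.exp (m ^ C) ≤ T → P ∈ N.poly σ →
        (∀ a, (N' a).FactQ S T (Real.exp m) q (H' a) (bc (φ a) _ P)) →
        N.FactQ S T (Real.exp (m ^ C)) q' (pb φ H') P := by
  have b1 : QB fun m => Gon.bl ⌊m⌋₊ (Real.exp m) := QB.exp.bl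
  have b0 : QB fun m => (⌊m⌋₊ : ℝ) + 1 := QB.floor.add (QB.const zero_le_one)
  have b2 : QB fun m => Gon.bl ⌊m⌋₊ ((⌊m⌋₊ + 1) * Gon.bl ⌊m⌋₊ (Real.exp m) * Real.exp m) :=
    ((b0.mul b1).mul QB.exp).bl
  have bd : QB fun _ => (dS S : ℝ) := QB.const (Nat.cast_nonneg _)
  have key : ∀ j : ℕ, ∃ C : ℕ, 1 ≤ C ∧ ∀ m : ℝ, 2 ≤ m → ∀ (ι α : Type) [Fintype ι] [Fintype α]
      (ι' : α → Type) [∀ a, Fintype (ι' a)] (N : ND ι) (N' : ∀ a, ND (ι' a))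
      (φ : ∀ a, N.L →ₗ⁅ℝ⁆ (N' a).L) (H' : ∀ a, ℕ → Submodule ℝ (N' a).L),
      (Fintype.card ι : ℝ) ≤ m → (∀ a, (Fintype.card (ι' a) : ℝ) ≤ m) → (∀ k, N.wt k ≤ S) →
      (∀ a k, (N' a).wt k ≤ S) → (∀ i j k, |(N.c i j k : ℝ)| ≤ Real.exp m) →
      (∀ a i j k, |((N' a).c i j k : ℝ)| ≤ Real.exp m) →
      (∀ a, N.IntMap (N' a) (Real.exp m) (φ a).toLinearMap) →
      (∀ a i, ∀ x ∈ N.F i, φ a x ∈ (N' a).F i) → (∀ a, (N' a).GrSub (H' a)) →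
      (∀ a i, (N' a).RatS (Real.exp m) (H' a i)) →
      ∀ q : ℕ, 1 ≤ q → (q : ℝ) ≤ Real.exp m → ∃ q' : ℕ, 1 ≤ q' ∧ (q' : ℝ) ≤ Real.exp (m ^ C) ∧
        q ∣ q' ∧ ∀ (σ : Type) (T : ℝ) (P : N.PS σ), Real.exp (m ^ C) ≤ T → P ∈ N.poly σ →
          (∀ a, (N' a).FactQ S T (Real.exp m) q (H' a) (bc (φ a) _ P)) →
          N.FactQ S T (Real.exp (m ^ C)) q' (trunc j (pb φ H')) P := by
    intro j
    induction j with
    | zero =>
      refine ⟨1, le_rfl, fun m hm ι α _ _ ι' _ N N' φ H' _ _ _ _ _ _ _ _ _ _ q hq1 hq =>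
        ⟨q, hq1, by rwa [pow_one], dvd_rfl, fun σ T P _ hP _ => ⟨0, zero_mem _, P,
          mem_cf_trunc_zero _ hP, 0, zero_mem _, Sm_zero (Real.exp_pos _).le, RatP_zero _, by simp⟩⟩⟩
    | succ j ih =>
      obtain ⟨C, hC1, hC⟩ := ih
      have c1 := QB.star S QB.exp ((b0.mul QB.exp).mul (QB.exp_pow C))
      have c2 := bd.mul ((QB.exp_pow C).pow (S + 1))
      have c3 := QB.star S QB.exp (b2.mul (b1.mul c1))
      have c4 := bd.mul ((b2.mul c2).pow (S + 1))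
      obtain ⟨C', hC'⟩ := ((((c2.mul (b1.mul c1)).add (QB.const zero_le_one)).add c3).add c4).add
        (QB.exp_pow C)
      obtain ⟨_, p1⟩ := c2.mul (b1.mul c1)
      obtain ⟨_, p3⟩ := c3
      obtain ⟨_, p4⟩ := c4
      refine ⟨C' + 1, by omega, fun m hm ι α _ _ ι' _ N N' φ H' hd hd' hS hS' hc hc' hφ hφF hH hU q
        hq1 hq => ?_⟩
      have he : 1 ≤ Real.exp m := Real.one_le_exp (by linarith)
      have hb := (hC' m hm).2.trans (exp_pow_mono hm (Nat.le_succ C'))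
      have n1 := (p1 m hm).1
      have n3 := (p3 m hm).1
      have n4 := (p4 m hm).1
      have n5 := Real.exp_pos (m ^ C)
      beta_reduce at hb n1 n3 n4
      have hmC : Real.exp m ≤ Real.exp (m ^ C) := by
        simpa using exp_pow_mono hm hC1
      obtain ⟨q1, hq11, hq12, hq13, h1⟩ :=
        hC m hm ι α ι' N N' φ H' hd hd' hS hS' hc hc' hφ hφF hH hU q hq1 hq
      obtain ⟨q', hq'1, hq'2, h2⟩ := pull_step φ H' he (Nat.le_floor hd)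
        (fun a => Nat.le_floor (hd' a)) hS hS' hc hc' hφ hφF hH hU j
      have hq2 : ((dS S * q1 ^ (S + 1) : ℕ) : ℝ) ≤ dS S * Real.exp (m ^ C) ^ (S + 1) := by
        push_cast; gcongr
      refine ⟨dS S * (q' * (dS S * q1 ^ (S + 1))) ^ (S + 1), Nat.mul_pos (one_le_dS S)
        (Nat.pow_pos (Nat.mul_pos hq'1 (Nat.mul_pos (one_le_dS S) (Nat.pow_pos hq11)))), ?_,
        hq13.trans (Dvd.dvd.mul_left ((Dvd.dvd.mul_left (Dvd.dvd.mul_left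
          (dvd_pow_self q1 (by omega)) _) _).trans (dvd_pow_self _ (by omega))) _),
        fun σ T P hT hP hF => ?_⟩
      · refine le_trans ?_ (le_trans (add_le_add (le_add_of_nonneg_left (by linarith)) n5.le) hb)
        rw [add_zero, Nat.cast_mul, Nat.cast_pow, Nat.cast_mul]
        gcongr
        exact (Nat.cast_nonneg _).trans hq'2
      · refine (h2 σ q1 T (Real.exp (m ^ C)) P hq11 (he.trans hmC) (by linarith) ?_
          (fun a => (hF a).mono hmC hq13) (h1 σ T P (by linarith) hP hF)).mono (by linarith) dvd_rfl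
        refine lt_of_le_of_lt (mul_le_mul_of_nonneg_right hq2 ?_) (by linarith)
        have := Gon.one_le_bl ⌊m⌋₊ he
        have := one_le_kB S ⌊m⌋₊ he
        have := two_le_cS S
        positivity
  obtain ⟨C, -, hC⟩ := key (S + 1)
  obtain ⟨C2, hC2⟩ := b2
  refine ⟨C + C2, fun m hm ι α _ _ ι' _ N N' φ H' hd hd' hS hS' hc hc' hφ hφF hH hU =>
    ⟨grSub_pb hφF hH, fun i => (ratS_pb (Real.one_le_exp (by linarith)) (Nat.le_floor hd)
      (fun a => Nat.le_floor (hd' a)) hφ hU i).mono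
        ((hC2 m hm).2.trans (exp_pow_mono hm (by omega))), fun q hq1 hq => ?_⟩⟩
  obtain ⟨q', h1, h2, h3, h4⟩ := hC m hm ι α ι' N N' φ H' hd hd' hS hS' hc hc' hφ hφF hH hU q hq1 hq
  have hm' := exp_pow_mono hm (Nat.le_add_right C C2)
  refine ⟨q', h1, h2.trans hm', h3, fun σ T P hT hP hF => ?_⟩
  obtain ⟨ε, a1, h, a2, γ, a3, a4, a5, a6⟩ := h4 σ T P (hm'.trans hT) hP hF
  exact ⟨ε, a1, h, mem_cf_of_trunc hS a2, γ, a3, a4.mono hm', a5, a6⟩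

theorem bc_id (A : Type) [CommRing A] [Algebra ℝ A] (P : N.pts A) :
    bc (LieHom.id : N.L →ₗ⁅ℝ⁆ N.L) A P = P := by
  rw [bc_eq, bcl_def]
  exact (eq_sum_e P).symm

theorem intMap_id {M : ℝ} (hM : 1 ≤ M) : N.IntMap N M (LieHom.id : N.L →ₗ⁅ℝ⁆ N.L).toLinearMap := by
  classical
  intro i k
  refine ⟨if k = i then 1 else 0, ?_, ?_⟩
  · change N.e i k = _
    rw [e_apply]; split_ifs <;> simp
  · split_ifs
    · simpa using hM
    · simp; linarith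

/-- **INT**: finitely many factorisations of the same map -/
theorem int (S : ℕ) : ∃ C : ℕ, ∀ m : ℝ, 2 ≤ m → ∀ (ι α : Type) [Fintype ι] [Fintype α]
    (N : ND ι) (H : α → ℕ → Submodule ℝ N.L), (Fintype.card ι : ℝ) ≤ m → (∀ k, N.wt k ≤ S) →
    (∀ i j k, |(N.c i j k : ℝ)| ≤ Real.exp m) → (∀ a, N.GrSub (H a)) →
    (∀ a i, N.RatS (Real.exp m) (H a i)) →
    N.GrSub (fun i => N.F i ⊓ ⨅ a, H a i) ∧
    (∀ i, N.RatS (Real.exp (m ^ C)) (N.F i ⊓ ⨅ a, H a i)) ∧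
    ∀ q : ℕ, 1 ≤ q → (q : ℝ) ≤ Real.exp m → ∃ q' : ℕ, 1 ≤ q' ∧ (q' : ℝ) ≤ Real.exp (m ^ C) ∧ q ∣ q' ∧
      ∀ (σ : Type) (T : ℝ) (P : N.PS σ), Real.exp (m ^ C) ≤ T → P ∈ N.poly σ →
        (∀ a, N.FactQ S T (Real.exp m) q (H a) P) →
        N.FactQ S T (Real.exp (m ^ C)) q' (fun i => N.F i ⊓ ⨅ a, H a i) P := by
  obtain ⟨C, hC⟩ := pull S
  refine ⟨C, fun m hm ι α _ _ N H hd hS hc hH hR => ?_⟩
  obtain ⟨h1, h2, h3⟩ := hC m hm ι α (fun _ => ι) N (fun _ => N) (fun _ => LieHom.id) H hd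
    (fun _ => hd) hS (fun _ => hS) hc (fun _ => hc)
    (fun _ => intMap_id (Real.one_le_exp (by linarith))) (fun _ _ _ hx => hx) hH hR
  refine ⟨h1, h2, fun q hq1 hq => ?_⟩
  obtain ⟨q', a1, a2, a3, a4⟩ := h3 q hq1 hq
  exact ⟨q', a1, a2, a3, fun σ T P hT hP hF => a4 σ T P hT hP fun a => by rw [bc_id]; exact hF a⟩

/-- **PULL** along one homomorphism -/
theorem pull1 (S : ℕ) : ∃ C : ℕ, ∀ m : ℝ, 2 ≤ m → ∀ (ι ι' : Type) [Fintype ι] [Fintype ι']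
    (N : ND ι) (N' : ND ι') (φ : N.L →ₗ⁅ℝ⁆ N'.L) (H' : ℕ → Submodule ℝ N'.L),
    (Fintype.card ι : ℝ) ≤ m → (Fintype.card ι' : ℝ) ≤ m → (∀ k, N.wt k ≤ S) →
    (∀ k, N'.wt k ≤ S) → (∀ i j k, |(N.c i j k : ℝ)| ≤ Real.exp m) →
    (∀ i j k, |(N'.c i j k : ℝ)| ≤ Real.exp m) → N.IntMap N' (Real.exp m) φ.toLinearMap →
    (∀ i, ∀ x ∈ N.F i, φ x ∈ N'.F i) → N'.GrSub H' → (∀ i, N'.RatS (Real.exp m) (H' i)) →
    N.GrSub (fun i => N.F i ⊓ (H' i).comap φ.toLinearMap) ∧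
    (∀ i, N.RatS (Real.exp (m ^ C)) (N.F i ⊓ (H' i).comap φ.toLinearMap)) ∧
    ∀ q : ℕ, 1 ≤ q → (q : ℝ) ≤ Real.exp m → ∃ q' : ℕ, 1 ≤ q' ∧ (q' : ℝ) ≤ Real.exp (m ^ C) ∧ q ∣ q' ∧
      ∀ (σ : Type) (T : ℝ) (P : N.PS σ), Real.exp (m ^ C) ≤ T → P ∈ N.poly σ →
        N'.FactQ S T (Real.exp m) q H' (bc φ _ P) →
        N.FactQ S T (Real.exp (m ^ C)) q' (fun i => N.F i ⊓ (H' i).comap φ.toLinearMap) P := by
  obtain ⟨C, hC⟩ := pull S
  refine ⟨C, fun m hm ι ι' _ _ N N' φ H' hd hd' hS hS' hc hc' hφ hF hH hR => ?_⟩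
  have e : pb (α := Unit) (ι' := fun _ => ι') (N' := fun _ => N') (fun _ => φ) (fun _ => H') =
      fun i => N.F i ⊓ (H' i).comap φ.toLinearMap := by
    funext i; rw [pb, iInf_const]
  obtain ⟨h1, h2, h3⟩ := hC m hm ι Unit (fun _ => ι') N (fun _ => N') (fun _ => φ) (fun _ => H') hd
    (fun _ => hd') hS (fun _ => hS') hc (fun _ => hc') (fun _ => hφ) (fun _ => hF) (fun _ => hH)
    fun _ => hR
  rw [e] at h1 h2 h3
  refine ⟨h1, h2, fun q hq1 hq => ?_⟩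
  obtain ⟨q', a1, a2, a3, a4⟩ := h3 q hq1 hq
  exact ⟨q', a1, a2, a3, fun σ T P hT hP hF => a4 σ T P hT hP fun _ => hF⟩

/-- **UNIQ**, packaged -/
theorem uniq_qp : ∃ C : ℕ, ∀ m : ℝ, 2 ≤ m → ∀ (S : ℕ) (ι σ : Type) [Fintype ι] (N : ND ι)
    (G : ℕ → Submodule ℝ N.L) (T : ℝ) (q : ℕ) (ε γ x : N.PS σ), (Fintype.card ι : ℝ) ≤ m →
    N.GrSub G → (∀ i, N.RatS (Real.exp m) (G i)) → 1 ≤ q → (q : ℝ) ≤ Real.exp m →
    Real.exp (m ^ C) ≤ T → ε ∈ N.poly σ → γ ∈ N.poly σ → N.Sm T (Real.exp m) ε → N.RatP q γ →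
    x ∈ cf σ G → star S ε (star S x γ) ∈ cf σ G → ε ∈ cf σ G ∧ γ ∈ cf σ G := by
  obtain ⟨C, hC⟩ := (QB.exp.mul (QB.exp.bl.mul QB.exp)).add (QB.const zero_le_one)
  refine ⟨C, fun m hm S ι σ _ N G T q ε γ x hd hG hR hq1 hq hT hε hγ hs hr hx hx' => ?_⟩
  have he : 1 ≤ Real.exp m := Real.one_le_exp (by linarith)
  have h1 := (hC m hm).2.trans hT
  have h2 := Gon.one_le_bl ⌊m⌋₊ he
  have h3 : (q : ℝ) * (Gon.bl ⌊m⌋₊ (Real.exp m) * Real.exp m) ≤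
      Real.exp m * (Gon.bl ⌊m⌋₊ (Real.exp m) * Real.exp m) := by gcongr
  have h4 : 0 ≤ Real.exp m * (Gon.bl ⌊m⌋₊ (Real.exp m) * Real.exp m) := by positivity
  beta_reduce at h1
  exact uniq S hG he hR (Nat.le_floor hd) hq1 (by linarith) (by linarith) hε hγ hs hr hx hx'

end Crest.Agent.T49.Nil.St
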