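import Crest.Agent.T49.ZoAff_89
import Crest.Agent.T49.NilUq_61
import Crest.Agent.T49.NilPd_67
import Crest.Agent.T49.Bch_16
import Crest.Agent.T49.Qp_85

/-!
# Row 49 (helper89): relations between polynomial sequences, agreement of symbols, level lemmas
-/

set_option autoImplicit false

noncomputable section

namespace Crest.Agent.T49.Zo

open Finset Crest.Agent.T49.Nil Crest.Agent.T49.Nil.ND Crest.Agent.T49.GI
open Crest.Agent.T49.Bch (star)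

variable {ι ι₁ ι₂ ι₃ : Type} [Fintype ι] [Fintype ι₁] [Fintype ι₂] [Fintype ι₃] {σ τ : Type}

/-- size of a datum (no lattice condition) -/
structure Sz (N : ND ι) (S : ℕ) (m : ℝ) : Prop where
  card : (Fintype.card ι : ℝ) ≤ m
  wt : ∀ k, N.wt k ≤ S
  c : ∀ i j k, |(N.c i j k : ℝ)| ≤ Real.exp m

theorem Sz.mono {N : ND ι} {S : ℕ} {m m' : ℝ} (h : Sz N S m) (hm : m ≤ m') : Sz N S m' :=
  ⟨h.card.trans hm, h.wt, fun i j k => (h.c i j k).trans (Real.exp_le_exp.2 hm)⟩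

theorem Sz.of_good {N : ND ι} {S : ℕ} {m : ℝ} (h : N.Good S (Real.exp m))
    (hc : (Fintype.card ι : ℝ) ≤ m) : Sz N S m := ⟨hc, h.wt_le, h.c_le⟩

theorem Sz.pd {N₁ : ND ι₁} {N₂ : ND ι₂} {S : ℕ} {m₁ m₂ m : ℝ} (h₁ : Sz N₁ S m₁) (h₂ : Sz N₂ S m₂)
    (hm : m₁ + m₂ ≤ m) : Sz (pd N₁ N₂) S m := by
  have a1 : 0 ≤ m₁ := (Nat.cast_nonneg _).trans h₁.card
  have a2 : 0 ≤ m₂ := (Nat.cast_nonneg _).trans h₂.card
  refine ⟨?_, fun k => ?_, fun i j k => ?_⟩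
  · rw [Fintype.card_sum]; push_cast; linarith [h₁.card, h₂.card]
  · cases k with
    | inl k => exact h₁.wt k
    | inr k => exact h₂.wt k
  · have e1 : Real.exp m₁ ≤ Real.exp m := Real.exp_le_exp.2 (by linarith)
    have e2 : Real.exp m₂ ≤ Real.exp m := Real.exp_le_exp.2 (by linarith)
    have e0 : |((0 : ℤ) : ℝ)| ≤ Real.exp m := by simpa using (Real.exp_pos m).le
    cases i <;> cases j <;> cases k <;>
      first | exact (h₁.c _ _ _).trans e1 | exact (h₂.c _ _ _).trans e2 | exact e0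

theorem factQ_poly {N : ND ι} {S : ℕ} {T M : ℝ} {q : ℕ} {H : ℕ → Submodule ℝ N.L} (hH : N.GrSub H)
    {P : N.PS σ} (h : N.FactQ S T M q H P) : P ∈ N.poly σ := by
  obtain ⟨ε, h1, g, h2, γ, h3, -, -, rfl⟩ := h
  exact St.star_mem_poly S h1 (St.star_mem_poly S (St.cf_le_poly hH h2) h3)

theorem factQ_le {N : ND ι} {S : ℕ} {T M : ℝ} {q : ℕ} {H H' : ℕ → Submodule ℝ N.L}
    (hH : ∀ i, H i ≤ H' i) {P : N.PS σ} (h : N.FactQ S T M q H P) : N.FactQ S T M q H' P := by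
  obtain ⟨ε, h1, g, h2, γ, h3⟩ := h
  exact ⟨ε, h1, g, cf_mono hH h2, γ, h3⟩

theorem factQ_of_cf {N : ND ι} (S : ℕ) (T : ℝ) {M : ℝ} (hM : 0 ≤ M) (q : ℕ)
    {H : ℕ → Submodule ℝ N.L} {P : N.PS σ} (h : P ∈ cf σ H) : N.FactQ S T M q H P :=
  ⟨0, zero_mem _, P, h, 0, zero_mem _, St.Sm_zero hM, St.RatP_zero q, by
    rw [Bch.star_of_lie_eq_zero S (lie_zero P), add_zero,
      Bch.star_of_lie_eq_zero S (zero_lie P), zero_add]⟩

theorem bc_eq_of_cv {N : ND ι} {N' : ND ι₁} (f : N.L →ₗ⁅ℝ⁆ N'.L) {P : N.PS σ} {Q : N'.PS σ}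
    (h : ∀ α, f (N.cv α P) = N'.cv α Q) : bc f _ P = Q :=
  ps_ext fun α => by rw [St.cv_bc, h]

variable {N : ND ι} {N₁ : ND ι₁} {N₂ : ND ι₂} {N₃ : ND ι₃}

/-- the pair `(P, Q)` factors through `R` -/
def Rel (S : ℕ) (T M : ℝ) (R : ℕ → Submodule ℝ (pd N₁ N₂).L) (P : N₁.PS σ) (Q : N₂.PS σ) : Prop :=
  (pd N₁ N₂).Fact S T M R (pair P Q)

section Rel
variable {S : ℕ} {T M M' : ℝ} {R : ℕ → Submodule ℝ (pd N₁ N₂).L} {P : N₁.PS σ} {Q : N₂.PS σ}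

theorem Rel.mono (h : Rel S T M R P Q) (hM : M ≤ M') : Rel S T M' R P Q := Fact.mono h hM

theorem Rel.le {R' : ℕ → Submodule ℝ (pd N₁ N₂).L} (h : Rel S T M R P Q) (hR : ∀ i, R i ≤ R' i) :
    Rel S T M R' P Q := by
  obtain ⟨q, h1, h2, h3⟩ := h
  exact ⟨q, h1, h2, factQ_le hR h3⟩

theorem Rel.poly (hR : (pd N₁ N₂).GrSub R) (h : Rel S T M R P Q) :
    P ∈ N₁.poly σ ∧ Q ∈ N₂.poly σ := by
  obtain ⟨q, -, -, h3⟩ := h
  exact mem_pd_poly.1 (factQ_poly hR h3)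

theorem Rel.swap {R' : ℕ → Submodule ℝ (pd N₂ N₁).L} (hT : 0 ≤ T) (h : Rel S T M R P Q)
    (hR : ∀ i x y, pair x y ∈ R i → pair y x ∈ R' i) : Rel S T M R' Q P := by
  obtain ⟨q, h1, h2, h3⟩ := h
  have := (FHom.toPd fHom_snd fHom_fst).factQ (f := toPd (snd N₁ N₂ ℝ) (fst N₁ N₂ ℝ)) zero_le_one hT
    (H' := R') (fun i z hz => hR i _ _ (by rwa [pair_fst_snd])) h3
  rw [bc_eq_of_cv (Q := pair Q P) _ fun α => pd_ext rfl rfl, one_mul] at this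
  exact ⟨q, h1, h2, this⟩

theorem Rel.fst {H : ℕ → Submodule ℝ N₁.L} (hT : 0 ≤ T) (h : Rel S T M R P Q)
    (hR : ∀ i, ∀ z ∈ R i, fst N₁ N₂ ℝ z ∈ H i) : N₁.Fact S T M H P := by
  obtain ⟨q, h1, h2, h3⟩ := h
  have := fHom_fst.factQ (f := GI.fst N₁ N₂ ℝ) zero_le_one hT (H' := H) hR h3
  rw [bc_fst, fst_pair, one_mul] at this
  exact ⟨q, h1, h2, this⟩

theorem Rel.subst [Fintype σ] {D S' : ℕ} (hD : Fintype.card σ ≤ D) (h₁ : ∀ k, N₁.wt k ≤ S')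
    (h₂ : ∀ k, N₂.wt k ≤ S') {T₁ K : ℝ} (hT₁ : 0 ≤ T₁) (hT : 0 ≤ T) (hK : 1 ≤ K)
    {f : σ → MvPolynomial τ ℝ} (hf : Sub T₁ (K * T) f) (hR : (pd N₁ N₂).GrSub R)
    (h : Rel S T M R P Q) :
    Rel S T₁ (nm D S' * K ^ S' * M) R (N₁.subst f P) (N₂.subst f Q) := by
  obtain ⟨q, h1, h2, h3⟩ := h
  have hw : ∀ k, (pd N₁ N₂).wt k ≤ S' := fun k => by
    cases k with
    | inl k => exact h₁ k
    | inr k => exact h₂ k
  have h4 := factQ_subst hD hw hT₁ hT hK hf hR h3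
  rw [ND.subst, map_pair] at h4
  refine ⟨q, h1, h2.trans ?_, h4⟩
  have hM : 0 ≤ M := (Nat.cast_nonneg _).trans h2
  have a1 : (1 : ℝ) ≤ nm D S' := by
    have : 1 ≤ nm D S' := by
      have := card_le_nm hD ({0} : Finset (σ →₀ ℕ)) (S := S') (by simp)
      simpa using this
    exact_mod_cast this
  have a2 : (1 : ℝ) ≤ K ^ S' := one_le_pow₀ hK
  exact le_mul_of_one_le_left hM (one_le_mul_of_one_le_of_one_le a1 a2)

theorem Rel.scale {S' : ℕ} (h₁ : ∀ k, N₁.wt k ≤ S') (h₂ : ∀ k, N₂.wt k ≤ S') {T₁ K : ℝ}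
    (hT₁ : 0 ≤ T₁) (hT : 0 ≤ T) (hK : 1 ≤ K) (hle : T₁ ≤ K * T) (h : Rel S T M R P Q) :
    Rel S T₁ (K ^ S' * M) R P Q := by
  obtain ⟨q, h1, h2, h3⟩ := h
  have hw : ∀ k, (pd N₁ N₂).wt k ≤ S' := fun k => by
    cases k with
    | inl k => exact h₁ k
    | inr k => exact h₂ k
  exact ⟨q, h1, h2.trans (le_mul_of_one_le_left ((Nat.cast_nonneg _).trans h2) (one_le_pow₀ hK)),
    factQ_scale hw hT₁ hT hK hle h3⟩

theorem rel_of_cf (S : ℕ) (T : ℝ) (hM : 1 ≤ M) (h : pair P Q ∈ cf σ R) : Rel S T M R P Q :=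
  ⟨1, le_rfl, by simpa using hM, factQ_of_cf S T (by linarith) 1 h⟩

/-- a factorisation of `P` through the first projection of `Γ` has a partner -/
theorem exists_rel_of_fact {H : ℕ → Submodule ℝ N₁.L} (hT : 0 ≤ T) (hR : (pd N₁ N₂).GrSub R)
    (hH : ∀ i, ∀ x ∈ H i, ∃ y, pair x y ∈ R i) (h : N₁.Fact S T M H P) :
    ∃ Q ∈ N₂.poly σ, Rel S T M R P Q := by
  classical
  obtain ⟨q, h1, h2, ε, hε, g, hg, γ, hγ, h4, h5, rfl⟩ := h
  have hM := St.Sm_nonneg h4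
  have : ∀ α : σ →₀ ℕ, ∃ y, pair (N₁.cv α g) y ∈ R α.degree ∧ (N₁.cv α g = 0 → y = 0) := by
    intro α
    by_cases h0 : N₁.cv α g = 0
    · exact ⟨0, by rw [h0, pair_zero]; exact zero_mem _, fun _ => rfl⟩
    · obtain ⟨y, hy⟩ := hH _ _ (hg α)
      exact ⟨y, hy, fun h => absurd h h0⟩
  choose y hy hy0 using this
  obtain ⟨Q, hQ⟩ := St.exists_ps (N := N₂) y
    ((St.finite_cv g).subset fun α hα h0 => hα (hy0 α h0))
  have hgQ : pair g Q ∈ cf σ R := fun α => by rw [cv_pair, hQ]; exact hy α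
  refine ⟨Q, (mem_pd_poly.1 (St.cf_le_poly hR hgQ)).2, q, h1, h2, pair ε 0,
    pair_mem_poly hε (zero_mem _), pair g Q, hgQ, pair γ 0, pair_mem_poly hγ (zero_mem _),
    (sm_pd hT).2 ⟨h4, St.Sm_zero hM⟩, ratP_pd.2 ⟨h5, St.RatP_zero q⟩, ?_⟩
  rw [star_pair, star_pair, Bch.star_of_lie_eq_zero S (lie_zero Q), add_zero,
    Bch.star_of_lie_eq_zero S (zero_lie Q), zero_add]

end Rel

/-- **composition of relations** -/
theorem rel_comp (S : ℕ) : ∃ C : ℕ, ∀ m : ℝ, 2 ≤ m → ∀ (ι₁ ι₂ ι₃ σ : Type) [Fintype ι₁]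
    [Fintype ι₂] [Fintype ι₃] (N₁ : ND ι₁) (N₂ : ND ι₂) (N₃ : ND ι₃)
    (R : ℕ → Submodule ℝ (pd N₁ N₂).L) (R' : ℕ → Submodule ℝ (pd N₂ N₃).L)
    (G : ℕ → Submodule ℝ (pd N₁ N₃).L) (T : ℝ) (P : N₁.PS σ) (Q : N₂.PS σ) (P' : N₃.PS σ),
    Sz N₁ S m → Sz N₂ S m → Sz N₃ S m → (pd N₁ N₂).GrSub R → (pd N₂ N₃).GrSub R' →
    (∀ i, (pd N₁ N₂).RatS (Real.exp m) (R i)) → (∀ i, (pd N₂ N₃).RatS (Real.exp m) (R' i)) →
    (∀ i x y z, pair x y ∈ R i → pair y z ∈ R' i → pair x z ∈ G i) → Real.exp (m ^ C) ≤ T →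
    Rel S T (Real.exp m) R P Q → Rel S T (Real.exp m) R' Q P' →
    Rel S T (Real.exp (m ^ C)) G P P' := by
  obtain ⟨C₁, hC₁⟩ := St.pull1 S
  obtain ⟨C₂, hC₂⟩ := St.int S
  obtain ⟨C, hC⟩ : ∃ C : ℕ, ∀ m : ℝ, 2 ≤ m →
      (3 * m) ^ C₁ ≤ m ^ C ∧ (2 * (3 * m) ^ C₁ + 3 * m) ^ C₂ ≤ m ^ C := by qp
  refine ⟨C, fun m hm ι₁ ι₂ ι₃ σ _ _ _ N₁ N₂ N₃ R R' G T P Q P' s₁ s₂ s₃ gR gR' rR rR' hG hT h h' => ?_⟩
  obtain ⟨b1, b2⟩ := hC m hm
  have hm3 : (2 : ℝ) ≤ 3 * m := by linarith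
  have e3 : Real.exp m ≤ Real.exp (3 * m) := Real.exp_le_exp.2 (by linarith)
  have hT0 : 0 ≤ T := (Real.exp_pos _).le.trans hT
  have s12 : Sz (pd N₁ N₂) S (3 * m) := s₁.pd s₂ (by linarith)
  have s23 : Sz (pd N₂ N₃) S (3 * m) := s₂.pd s₃ (by linarith)
  have s123 : Sz (pd (pd N₁ N₂) N₃) S (3 * m) := (s₁.pd s₂ le_rfl).pd s₃ (by linarith)
  have one3 : (1 : ℝ) ≤ Real.exp (3 * m) := Real.one_le_exp (by linarith)
  set φ₁ := fst (pd N₁ N₂) N₃ ℝ with hφ₁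
  set φ₂ : (pd (pd N₁ N₂) N₃).L →ₗ⁅ℝ⁆ (pd N₂ N₃).L :=
    toPd ((snd N₁ N₂ ℝ).comp (fst (pd N₁ N₂) N₃ ℝ)) (snd (pd N₁ N₂) N₃ ℝ) with hφ₂
  set φ₃ : (pd (pd N₁ N₂) N₃).L →ₗ⁅ℝ⁆ (pd N₁ N₃).L :=
    toPd ((fst N₁ N₂ ℝ).comp (fst (pd N₁ N₂) N₃ ℝ)) (snd (pd N₁ N₂) N₃ ℝ) with hφ₃
  have f₁ : FHom 1 φ₁.toLinearMap := fHom_fst
  have f₂ : FHom 1 φ₂.toLinearMap := FHom.toPd
    (by simpa using FHom.comp (fHom_snd (g := N₁) (g' := N₂)) f₁ zero_le_one) fHom_snd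
  have f₃ : FHom 1 φ₃.toLinearMap := FHom.toPd
    (by simpa using FHom.comp (fHom_fst (g := N₁) (g' := N₂)) f₁ zero_le_one) fHom_snd
  obtain ⟨g₁, r₁, p₁⟩ := hC₁ (3 * m) hm3 _ _ _ _ φ₁ R s123.card s12.card s123.wt s12.wt s123.c s12.c
    ((f₁.mono one3).intMap (by linarith)) f₁.filt gR fun i => (rR i).mono e3
  obtain ⟨g₂, r₂, p₂⟩ := hC₁ (3 * m) hm3 _ _ _ _ φ₂ R' s123.card s23.card s123.wt s23.wt s123.c s23.c
    ((f₂.mono one3).intMap (by linarith)) f₂.filt gR' fun i => (rR' i).mono e3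
  have hPQ := h.poly gR
  have hQP := h'.poly gR'
  obtain ⟨q, hq1, hq2, hq⟩ := h
  obtain ⟨q', hq1', hq2', hq'⟩ := h'
  obtain ⟨q₁, a1, a2, -, a4⟩ := p₁ q hq1 (hq2.trans e3)
  obtain ⟨q₂, c1, c2, -, c4⟩ := p₂ q' hq1' (hq2'.trans e3)
  set X : (pd (pd N₁ N₂) N₃).PS σ := pair (pair P Q) P' with hX
  have hXp : X ∈ (pd (pd N₁ N₂) N₃).poly σ := pair_mem_poly (pair_mem_poly hPQ.1 hPQ.2) hQP.2
  have hT1 : Real.exp ((3 * m) ^ C₁) ≤ T := (Real.exp_le_exp.2 b1).trans hT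
  have x₁ := a4 σ T X hT1 hXp (by
    rw [bc_eq_of_cv (Q := pair P Q) _ fun α => rfl]; exact hq.mono e3 dvd_rfl)
  have x₂ := c4 σ T X hT1 hXp (by
    rw [bc_eq_of_cv (Q := pair Q P') _ fun α => pd_ext rfl rfl]; exact hq'.mono e3 dvd_rfl)
  set m' : ℝ := 2 * (3 * m) ^ C₁ + 3 * m with hm'
  have p0 : 0 ≤ (3 * m) ^ C₁ := by positivity
  have e4 : Real.exp ((3 * m) ^ C₁) ≤ Real.exp m' := Real.exp_le_exp.2 (by linarith)
  have s' : Sz (pd (pd N₁ N₂) N₃) S m' := s123.mono (by linarith)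
  obtain ⟨-, -, p₃⟩ := hC₂ m' (by linarith) _ Bool (pd (pd N₁ N₂) N₃)
    (fun b => cond b (fun i => (pd (pd N₁ N₂) N₃).F i ⊓ (R i).comap φ₁.toLinearMap)
      fun i => (pd (pd N₁ N₂) N₃).F i ⊓ (R' i).comap φ₂.toLinearMap) s'.card s'.wt s'.c
    (fun b => by cases b; exacts [g₂, g₁])
    (fun b i => by cases b; exacts [(r₂ i).mono e4, (r₁ i).mono e4])
  obtain ⟨q₃, d1, d2, -, d4⟩ := p₃ (q₁ * q₂) (Nat.mul_pos a1 c1) (by
    push_cast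
    calc (q₁ : ℝ) * q₂ ≤ Real.exp ((3 * m) ^ C₁) * Real.exp ((3 * m) ^ C₁) :=
          mul_le_mul a2 c2 (Nat.cast_nonneg _) (Real.exp_pos _).le
      _ ≤ _ := by rw [← Real.exp_add]; exact Real.exp_le_exp.2 (by linarith))
  have e5 : Real.exp (m' ^ C₂) ≤ Real.exp (m ^ C) := Real.exp_le_exp.2 b2
  have x₃ := d4 σ T X (e5.trans hT) hXp fun b => by
    cases b
    · exact x₂.mono e4 (dvd_mul_left _ _)
    · exact x₁.mono e4 (dvd_mul_right _ _)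
  have x₄ := f₃.factQ zero_le_one hT0 (H' := G) (fun i z hz => by
    have h2 := (Submodule.mem_iInf _).1 hz.2
    exact hG i (fst N₁ N₂ ℝ (fst _ _ ℝ z)) (snd N₁ N₂ ℝ (fst _ _ ℝ z)) _
      (by rw [pair_fst_snd]; exact (h2 true).2) (h2 false).2) x₃
  rw [bc_eq_of_cv (Q := pair P P') _ fun α => pd_ext rfl rfl, one_mul] at x₄
  exact ⟨q₃, d1, d2.trans e5, x₄.mono e5 dvd_rfl⟩

/-! ### the graded diagonal -/

/-- the graded diagonal -/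
def diag (N : ND ι) (i : ℕ) : Submodule ℝ (pd N N).L :=
  (pd N N).F i ⊓ (N.F (i + 1)).comap ((fst N N ℝ).toLinearMap - (snd N N ℝ).toLinearMap)

theorem mem_diag {i : ℕ} {z : (pd N N).L} : z ∈ diag N i ↔
    (fst N N ℝ z ∈ N.F i ∧ snd N N ℝ z ∈ N.F i) ∧ fst N N ℝ z - snd N N ℝ z ∈ N.F (i + 1) := by
  rw [diag, Submodule.mem_inf, mem_pd_FA]; rfl

theorem pair_mem_diag {i : ℕ} {x y : N.L} : pair x y ∈ diag N i ↔
    (x ∈ N.F i ∧ y ∈ N.F i) ∧ x - y ∈ N.F (i + 1) := mem_diag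

theorem grSub_diag : (pd N N).GrSub (diag N) := by
  refine ⟨fun i => inf_le_left, fun i z hz => ?_, fun i j x hx y hy => ?_⟩
  · have h := mem_pd_FA.1 hz
    exact mem_diag.2 ⟨⟨FA_anti (Nat.le_succ i) h.1, FA_anti (Nat.le_succ i) h.2⟩, sub_mem h.1 h.2⟩
  · obtain ⟨⟨a1, a2⟩, a3⟩ := mem_diag.1 hx
    obtain ⟨⟨b1, b2⟩, b3⟩ := mem_diag.1 hy
    rw [mem_diag, LieHom.map_lie, LieHom.map_lie]
    refine ⟨⟨lie_mem_FA a1 b1, lie_mem_FA a2 b2⟩, ?_⟩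
    have e : ⁅fst N N ℝ x, fst N N ℝ y⁆ - ⁅snd N N ℝ x, snd N N ℝ y⁆ =
        ⁅fst N N ℝ x - snd N N ℝ x, fst N N ℝ y⁆ + ⁅snd N N ℝ x, fst N N ℝ y - snd N N ℝ y⁆ := by
      rw [sub_lie, lie_sub]; abel
    rw [e]
    exact add_mem (FA_anti (by omega) (lie_mem_FA a3 b1)) (FA_anti (by omega) (lie_mem_FA a2 b3))

theorem ratS_diag {H : ℝ} (hH : 1 ≤ H) (i : ℕ) : (pd N N).RatS H (diag N i) := by
  have e : diag N i = (N.F i).map (toPd (LieHom.id : N.L →ₗ⁅ℝ⁆ N.L) LieHom.id).toLinearMap ⊔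
      pdS (N.F (i + 1)) (N.F (i + 1)) := by
    refine le_antisymm (fun z hz => ?_) (sup_le ?_ fun z hz => grSub_diag.ge i (mem_pd_FA.2 hz))
    · obtain ⟨⟨-, a2⟩, a3⟩ := mem_diag.1 hz
      refine Submodule.mem_sup.2 ⟨pair (snd N N ℝ z) (snd N N ℝ z), ⟨_, a2, rfl⟩,
        pair (fst N N ℝ z - snd N N ℝ z) 0, mem_pdS.2 ⟨a3, zero_mem _⟩, ?_⟩
      rw [← pair_add, add_sub_cancel, add_zero, pair_fst_snd]
    · rintro _ ⟨x, hx, rfl⟩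
      exact pair_mem_diag.2 ⟨⟨hx, hx⟩, by simp⟩
  rw [e]
  refine ratS_sup67 ?_ (ratS_pdS (by linarith) (St.ratS_F hH _) (St.ratS_F hH _))
  simpa using (FHom.toPd fHom_id fHom_id).ratS_map zero_le_one (by linarith) (St.ratS_F hH i)

/-- the symbols of `P` and `Q` agree up to a smooth and a rational factor -/
def Agree (N : ND ι) (S : ℕ) (T M : ℝ) (P Q : N.PS σ) : Prop := Rel S T M (diag N) P Q

section Agree
variable {S : ℕ} {T M M' : ℝ} {P Q : N.PS σ}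

theorem Agree.mono (h : Agree N S T M P Q) (hM : M ≤ M') : Agree N S T M' P Q := Rel.mono h hM

theorem Agree.poly (h : Agree N S T M P Q) : P ∈ N.poly σ ∧ Q ∈ N.poly σ := Rel.poly grSub_diag h

theorem Agree.symm (hT : 0 ≤ T) (h : Agree N S T M P Q) : Agree N S T M Q P :=
  Rel.swap hT h fun _ x y hxy => by
    obtain ⟨⟨a1, a2⟩, a3⟩ := pair_mem_diag.1 hxy
    exact pair_mem_diag.2 ⟨⟨a2, a1⟩, by rw [← neg_sub]; exact neg_mem a3⟩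

theorem Agree.subst [Fintype σ] {D S' : ℕ} (hD : Fintype.card σ ≤ D) (hS : ∀ k, N.wt k ≤ S')
    {T₁ K : ℝ} (hT₁ : 0 ≤ T₁) (hT : 0 ≤ T) (hK : 1 ≤ K) {f : σ → MvPolynomial τ ℝ}
    (hf : Sub T₁ (K * T) f) (h : Agree N S T M P Q) :
    Agree N S T₁ (nm D S' * K ^ S' * M) (N.subst f P) (N.subst f Q) :=
  Rel.subst hD hS hS hT₁ hT hK hf grSub_diag h

theorem Agree.scale {S' : ℕ} (hS : ∀ k, N.wt k ≤ S') {T₁ K : ℝ} (hT₁ : 0 ≤ T₁) (hT : 0 ≤ T)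
    (hK : 1 ≤ K) (hle : T₁ ≤ K * T) (h : Agree N S T M P Q) : Agree N S T₁ (K ^ S' * M) P Q :=
  Rel.scale hS hS hT₁ hT hK hle h

theorem pair_mem_trunc_diag {i : ℕ} (hP : P ∈ N.poly σ) (hQ : Q ∈ N.poly σ)
    (h : P - Q ∈ St.Zj N σ i) : pair P Q ∈ cf σ (St.trunc i (diag N)) := by
  intro α
  rw [cv_pair]
  by_cases hα : α.degree < i
  · rw [St.trunc_lt _ hα]
    have := h α
    rw [St.trunc_lt _ hα, map_sub] at this
    exact pair_mem_diag.2 ⟨⟨hP α, hQ α⟩, this⟩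
  · rw [St.trunc_ge _ (not_lt.1 hα)]
    exact pair_mem_FA (hP α) (hQ α)

/-- equal symbols agree -/
theorem agree_of_Zj (S : ℕ) {S' : ℕ} (hS : ∀ k, N.wt k ≤ S') (T : ℝ) (hM : 1 ≤ M)
    (hP : P ∈ N.poly σ) (hQ : Q ∈ N.poly σ) (h : P - Q ∈ St.Zj N σ (S' + 1)) :
    Agree N S T M P Q :=
  rel_of_cf S T hM (St.mem_cf_of_trunc (S := S') (fun k => by cases k <;> exact hS _)
    (pair_mem_trunc_diag hP hQ h))

theorem agree_refl (S : ℕ) (T : ℝ) (hM : 1 ≤ M) (hP : P ∈ N.poly σ) : Agree N S T M P P :=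
  rel_of_cf S T hM fun α => by
    rw [cv_pair]; exact pair_mem_diag.2 ⟨⟨hP α, hP α⟩, by simp⟩

end Agree

theorem agree_trans (S : ℕ) : ∃ C : ℕ, ∀ m : ℝ, 2 ≤ m → ∀ (ι σ : Type) [Fintype ι] (N : ND ι)
    (T : ℝ) (P Q P' : N.PS σ), Sz N S m → Real.exp (m ^ C) ≤ T →
    Agree N S T (Real.exp m) P Q → Agree N S T (Real.exp m) Q P' →
    Agree N S T (Real.exp (m ^ C)) P P' := by
  obtain ⟨C, hC⟩ := rel_comp S
  refine ⟨C, fun m hm ι σ _ N T P Q P' hs hT h h' => ?_⟩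
  have h1 : (1 : ℝ) ≤ Real.exp m := Real.one_le_exp (by linarith)
  refine hC m hm ι ι ι σ N N N _ _ _ T P Q P' hs hs hs grSub_diag grSub_diag (ratS_diag h1)
    (ratS_diag h1) (fun i x y z hxy hyz => ?_) hT h h'
  obtain ⟨⟨a1, -⟩, a3⟩ := pair_mem_diag.1 hxy
  obtain ⟨⟨-, b2⟩, b3⟩ := pair_mem_diag.1 hyz
  exact pair_mem_diag.2 ⟨⟨a1, b2⟩, by simpa using add_mem a3 b3⟩

/-- the top coefficients of weight `i` differ by `small + rational` -/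
def LevNear (N : ND ι) (i : ℕ) (T M : ℝ) (q : ℕ) (P Q : N.PS σ) : Prop :=
  ∀ α : σ →₀ ℕ, α.degree = i → ∀ k, N.wt k = i →
    ∃ z : ℤ, |(q : ℝ) * (N.cv α P k - N.cv α Q k) - z| * T ^ i ≤ M

/-- **level lemma, input**: if the symbols agree and are equal below level `i`, the level `i`
coefficients differ by `small + rational`. -/
theorem lev_in : ∃ C : ℕ, ∀ m : ℝ, 2 ≤ m → ∀ (S i : ℕ) (ι σ : Type) [Fintype ι] (N : ND ι)
    (T : ℝ) (P Q : N.PS σ), (Fintype.card ι : ℝ) ≤ m → Real.exp (m ^ C) ≤ T →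
    Agree N S T (Real.exp m) P Q → P - Q ∈ St.Zj N σ i →
    ∃ q : ℕ, 1 ≤ q ∧ (q : ℝ) ≤ Real.exp m ∧ LevNear N i T (Real.exp (m ^ C)) q P Q := by
  obtain ⟨C₁, hC₁⟩ := St.uniq_qp
  obtain ⟨C, hC⟩ : ∃ C : ℕ, ∀ m : ℝ, 2 ≤ m →
      (2 * m) ^ C₁ ≤ m ^ C ∧ Real.exp m * (2 * Real.exp m) ≤ Real.exp (m ^ C) := by qp
  refine ⟨C, fun m hm S i ι σ _ N T P Q hc hT h hZ => ?_⟩
  obtain ⟨b1, b2⟩ := hC m hm
  have hT0 : 0 ≤ T := (Real.exp_pos _).le.trans hT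
  have hp := h.poly
  obtain ⟨q, hq1, hq2, ε, hε, g, hg, γ, hγ, h4, h5, h6⟩ := h
  have e2 : Real.exp m ≤ Real.exp (2 * m) := Real.exp_le_exp.2 (by linarith)
  have h1 : (1 : ℝ) ≤ Real.exp (2 * m) := Real.one_le_exp (by linarith)
  have hu := hC₁ (2 * m) (by linarith) S _ σ (pd N N) (St.trunc i (diag N)) T q ε γ g
    (by rw [Fintype.card_sum]; push_cast; linarith) (St.grSub_trunc grSub_diag i)
    (St.ratS_trunc h1 (ratS_diag h1) i) hq1 (hq2.trans e2) ((Real.exp_le_exp.2 b1).trans hT) hε hγ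
    (h4.mono e2) h5 (cf_mono (St.le_trunc grSub_diag i) hg)
    (h6 ▸ pair_mem_trunc_diag hp.1 hp.2 hZ)
  refine ⟨q, hq1, hq2, fun α hα k hk => ?_⟩
  have hl := St.lev S i grSub_diag hu.1 hu.2 (cf_mono (St.le_trunc grSub_diag (i + 1)) hg) hα
  rw [← h6] at hl
  have h7 := (mem_diag.1 hl).2 k (by omega)
  obtain ⟨z₁, hz₁⟩ := den_iff.1 (h5 α) (.inl k)
  obtain ⟨z₂, hz₂⟩ := den_iff.1 (h5 α) (.inr k)
  refine ⟨z₁ - z₂, ?_⟩
  have h8 : N.cv α P k - N.cv α Q k = ((pd N N).cv α ε (.inl k) - (pd N N).cv α ε (.inr k)) +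
      ((pd N N).cv α γ (.inl k) - (pd N N).cv α γ (.inr k)) := by
    have h9 : ((N.cv α P k - (pd N N).cv α ε (.inl k) - (pd N N).cv α γ (.inl k)) -
      (N.cv α Q k - (pd N N).cv α ε (.inr k) - (pd N N).cv α γ (.inr k))) = 0 := h7
    linarith
  have h9 : (q : ℝ) * (N.cv α P k - N.cv α Q k) - ((z₁ - z₂ : ℤ) : ℝ) =
      q * ((pd N N).cv α ε (.inl k) - (pd N N).cv α ε (.inr k)) := by
    rw [h8]; push_cast; rw [← hz₁, ← hz₂]; ring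
  have h10 := h4 α
  rw [hα] at h10
  have h11 : |(pd N N).cv α ε (.inl k) - (pd N N).cv α ε (.inr k)| ≤ 2 * ‖(pd N N).cv α ε‖ := by
    have a1 := abs_apply_le ((pd N N).cv α ε) (Sum.inl k)
    have a2 := abs_apply_le ((pd N N).cv α ε) (Sum.inr k)
    exact (abs_sub _ _).trans (by linarith)
  rw [h9, abs_mul, Nat.abs_cast]
  calc _ ≤ Real.exp m * (2 * ‖(pd N N).cv α ε‖) * T ^ i := by gcongr
    _ = Real.exp m * (2 * (‖(pd N N).cv α ε‖ * T ^ i)) := by ring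
    _ ≤ Real.exp m * (2 * Real.exp m) := by gcongr
    _ ≤ _ := b2

/-- **level lemma, output**: level `i` can be made equal. -/
theorem lev_out {S i : ℕ} (hS : ∀ k, N.wt k ≤ S) {T M : ℝ} (hT : 0 ≤ T) {q : ℕ} (hq : 1 ≤ q)
    (hqM : (q : ℝ) ≤ M) {P Q : N.PS σ} (hP : P ∈ N.poly σ) (hZ : P - Q ∈ St.Zj N σ i)
    (h : LevNear N i T M q P Q) :
    ∃ P' ∈ N.poly σ, Agree N S T M P P' ∧ P' - Q ∈ St.Zj N σ (i + 1) := by
  classical
  have := ND.nil hS (MvPolynomial σ ℝ)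
  have hq0 : (0 : ℝ) < q := by exact_mod_cast hq
  have hq1 : (1 : ℝ) ≤ q := by exact_mod_cast hq
  have hM : 0 ≤ M := hq0.le.trans hqM
  have : ∀ (α : σ →₀ ℕ) (k : ι), ∃ z : ℤ, (α.degree = i → N.wt k = i →
      |(q : ℝ) * (N.cv α (P - Q) k) - z| * T ^ i ≤ M) ∧ (N.cv α (P - Q) = 0 → z = 0) := by
    intro α k
    by_cases h0 : N.cv α (P - Q) = 0
    · exact ⟨0, fun _ _ => by rw [h0]; simpa using hM, fun _ => rfl⟩
    by_cases h1 : α.degree = i ∧ N.wt k = i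
    · obtain ⟨z, hz⟩ := h α h1.1 k h1.2
      exact ⟨z, fun _ _ => by rwa [map_sub], fun h => absurd h h0⟩
    · exact ⟨0, fun a b => absurd ⟨a, b⟩ h1, fun _ => rfl⟩
  choose z hz hz0 using this
  obtain ⟨γ, hγ⟩ := St.exists_ps (N := N)
    (fun α k => if α.degree = i ∧ N.wt k = i then (z α k : ℝ) / q else 0)
    ((St.finite_cv (P - Q)).subset fun α hα h0 => hα (pts_ext fun k => by simp [hz0 α k h0]))
  obtain ⟨ε, hε⟩ := St.exists_ps (N := N)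
    (fun α k => if α.degree = i ∧ N.wt k = i then N.cv α (P - Q) k - (z α k : ℝ) / q else 0)
    ((St.finite_cv (P - Q)).subset fun α hα h0 => hα (pts_ext fun k => by
      rw [h0]; simp [hz0 α k h0]))
  replace hγ : ∀ α k, N.cv α γ k = if α.degree = i ∧ N.wt k = i then (z α k : ℝ) / q else 0 :=
    fun α k => congrFun (hγ α) k
  replace hε : ∀ α k, N.cv α ε k =
      if α.degree = i ∧ N.wt k = i then N.cv α (P - Q) k - (z α k : ℝ) / q else 0 :=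
    fun α k => congrFun (hε α) k
  have hγp : γ ∈ N.poly σ := fun α k hk => by rw [hγ]; exact if_neg (by omega)
  have hεp : ε ∈ N.poly σ := fun α k hk => by rw [hε]; exact if_neg (by omega)
  have hγZ : γ ∈ St.Zj N σ i := St.mem_Zj_of_hom hγp fun α hα =>
    pts_ext fun k => by rw [hγ]; exact if_neg (by omega)
  have hεZ : ε ∈ St.Zj N σ i := St.mem_Zj_of_hom hεp fun α hα =>
    pts_ext fun k => by rw [hε]; exact if_neg (by omega)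
  have hP' : star S (-ε) (star S P (-γ)) ∈ N.poly σ :=
    St.star_mem_poly S (neg_mem hεp) (St.star_mem_poly S hP (neg_mem hγp))
  refine ⟨star S (-ε) (star S P (-γ)), hP', ⟨q, hq, hqM, pair ε 0, pair_mem_poly hεp (zero_mem _),
    pair (star S (-ε) (star S P (-γ))) (star S (-ε) (star S P (-γ))), fun α => ?_, pair γ 0,
    pair_mem_poly hγp (zero_mem _), (sm_pd hT).2 ⟨fun α => ?_, St.Sm_zero hM⟩,
    ratP_pd.2 ⟨fun α => den_iff.2 fun k => ?_, St.RatP_zero q⟩, ?_⟩, ?_⟩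
  · rw [cv_pair]; exact pair_mem_diag.2 ⟨⟨hP' α, hP' α⟩, by simp⟩
  · rw [fst_pair]
    by_cases hα : α.degree = i
    · rcases eq_or_lt_of_le (show 0 ≤ T ^ i by positivity) with h0 | h0
      · rw [hα, ← h0, mul_zero]; exact hM
      rw [hα, ← le_div_iff₀ h0, norm_le_iff (by positivity)]
      intro k
      rw [hε, le_div_iff₀ h0]
      split_ifs with hk
      · have h1 := hz α k hk.1 hk.2
        have e : N.cv α (P - Q) k - (z α k : ℝ) / q = ((q : ℝ) * N.cv α (P - Q) k - z α k) / q := by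
          field_simp
        rw [e, abs_div, Nat.abs_cast, div_mul_eq_mul_div]
        exact (div_le_self (by positivity) hq1).trans h1
      · simpa using hM
    · have : N.cv α ε = 0 := pts_ext fun k => by rw [hε]; exact if_neg (by tauto)
      rw [this, norm_zero, zero_mul]; exact hM
  · rw [fst_pair, hγ]
    split_ifs
    · exact ⟨z α k, by field_simp⟩
    · exact ⟨0, by simp⟩
  · rw [star_pair, star_pair, Bch.star_zero, Bch.zero_star, Bch.star_assoc, Bch.star_neg_star,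
      Bch.star_neg_star']
  · have h1 := St.cong3 S i (zero_mem _) (zero_mem _) (neg_mem hεp) (neg_mem hγp) hP
      (by simpa using hεZ) (by simpa using hγZ)
    rw [Bch.star_zero, Bch.zero_star] at h1
    have h2 : P - Q - ε - γ ∈ St.Zj N σ (i + 1) := by
      refine St.mem_cf_trunc_succ (sub_mem (sub_mem hZ hεZ) hγZ) fun α hα k hk => ?_
      have h3 := hZ α
      rw [hα, St.trunc_ge _ le_rfl] at h3
      rw [map_sub, map_sub, ND.sub_apply, ND.sub_apply, hε, hγ]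
      split_ifs with h4
      · ring
      · rw [h3 k (by omega)]; ring
    convert add_mem h1 h2 using 1
    abel

end Crest.Agent.T49.Zo
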