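import Crest.Agent.T49.Dl_51
import Crest.Agent.T49.ZoRel_89
import Crest.Agent.T49.NilPw_67

/-!
Row 49 (helper51).  The one-frame part of a stage: JOIN of the relations, degree lowering and the
pigeonhole over cells.
-/

set_option autoImplicit false
set_option linter.unusedSectionVars false

noncomputable section

namespace Crest.Agent.T49.Dl
open Finset Nil Nil.ND GI Win D51
open Crest.Agent.T49.Bch (star)

namespace D51

variable {σ : Type} [Fintype σ] [DecidableEq σ]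

/-- the box `[0, L) ^ σ` -/
abbrev bx (σ : Type) [Fintype σ] [DecidableEq σ] (L : ℕ) : Finset (σ → ℤ) :=
  Fintype.piFinset fun _ => Ico (0 : ℤ) L

theorem card_bx (L : ℕ) : #(bx σ L) = L ^ Fintype.card σ := by
  simp [bx, Fintype.card_piFinset]

theorem mem_bx {L : ℕ} {t : σ → ℤ} : t ∈ bx σ L ↔ ∀ v, 0 ≤ t v ∧ t v < L := by
  simp [bx, Fintype.mem_piFinset]

/-- the base points of the cells -/
def cells (σ : Type) [Fintype σ] [DecidableEq σ] (q l n : ℕ) : Finset (σ → ℤ) :=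
  Fintype.piFinset fun _ => (Ico (0 : ℤ) (n * (q * l) : ℕ)).filter fun y => y % (q * l) < q

theorem cell_one {q l n y u : ℤ} (hq : 0 < q) (hy : 0 ≤ y ∧ y < n * (q * l)) (hy' : y % (q * l) < q)
    (hu : 0 ≤ u ∧ u < l) :
    (0 ≤ y + q * u ∧ y + q * u < n * (q * l)) ∧ (y + q * u) % (q * l) / q = u := by
  have hm : 0 < q * l := mul_pos hq (by omega)
  have h1 := Int.emod_nonneg y hm.ne'
  have h2 := Int.mul_ediv_add_emod y (q * l)
  have h3 : y / (q * l) < n := Int.ediv_lt_of_lt_mul hm hy.2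
  have h4 : y % (q * l) + q * u < q * l := by nlinarith
  have h5 : 0 ≤ q * u := mul_nonneg hq.le hu.1
  refine ⟨⟨by omega, by nlinarith⟩, ?_⟩
  have h6 : (y + q * u) % (q * l) = y % (q * l) + q * u := by
    rw [← Int.emod_add_emod, Int.emod_eq_of_lt (by omega) h4]
  rw [h6, Int.add_mul_ediv_left _ _ hq.ne', Int.ediv_eq_zero_of_lt h1 hy', zero_add]

theorem cell_two {q l n t : ℤ} (hq : 0 < q) (hl : 0 < l) (ht : 0 ≤ t ∧ t < n * (q * l)) :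
    ((0 ≤ t - q * (t % (q * l) / q) ∧ t - q * (t % (q * l) / q) < n * (q * l)) ∧
      (t - q * (t % (q * l) / q)) % (q * l) < q) ∧
      0 ≤ t % (q * l) / q ∧ t % (q * l) / q < l := by
  have hm : 0 < q * l := mul_pos hq hl
  have h1 := Int.emod_nonneg t hm.ne'
  have h1' := Int.emod_lt_of_pos t hm
  have h2 := Int.mul_ediv_add_emod t (q * l)
  have h3 := Int.mul_ediv_add_emod (t % (q * l)) q
  have h4 := Int.emod_nonneg (t % (q * l)) hq.ne'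
  have h5 := Int.emod_lt_of_pos (t % (q * l)) hq
  have h6 : 0 ≤ t % (q * l) / q := Int.ediv_nonneg h1 hq.le
  have h7 : 0 ≤ q * l * (t / (q * l)) := mul_nonneg hm.le (Int.ediv_nonneg ht.1 hm.le)
  have h8 : 0 ≤ q * (t % (q * l) / q) := mul_nonneg hq.le h6
  refine ⟨⟨⟨by omega, by omega⟩, ?_⟩, h6, Int.ediv_lt_of_lt_mul hq (by rwa [mul_comm l])⟩
  have h9 : t - q * (t % (q * l) / q) = t % (q * l) % q + q * l * (t / (q * l)) := by omega
  rw [h9, Int.add_mul_emod_self_left, Int.emod_eq_of_lt h4 (by nlinarith)]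
  exact h5

theorem mem_cells {q l n : ℕ} {y : σ → ℤ} : y ∈ cells σ q l n ↔
    ∀ v, (0 ≤ y v ∧ y v < n * (q * l)) ∧ y v % (q * l) < q := by
  simp [cells, Fintype.mem_piFinset]

theorem add_mem_bx {q l n : ℕ} (hq : 1 ≤ q) {y u : σ → ℤ} (hy : y ∈ cells σ q l n)
    (hu : u ∈ bx σ l) : y + (q : ℤ) • u ∈ bx σ (n * (q * l)) := mem_bx.2 fun v => by
  have := (cell_one (q := q) (by omega) (mem_cells.1 hy v).1 (mem_cells.1 hy v).2 (mem_bx.1 hu v)).1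
  push_cast
  exact this

/-- tiling of a box by cells -/
theorem sum_cells {q l : ℕ} (hq : 1 ≤ q) (hl : 1 ≤ l) (n : ℕ) (f : (σ → ℤ) → ℝ) :
    ∑ t ∈ bx σ (n * (q * l)), f t = ∑ y ∈ cells σ q l n, ∑ u ∈ bx σ l, f (y + (q : ℤ) • u) := by
  have hq' : (0 : ℤ) < q := by omega
  have hl' : (0 : ℤ) < l := by omega
  rw [← sum_product']
  refine (sum_nbij' (fun p : (σ → ℤ) × (σ → ℤ) => p.1 + (q : ℤ) • p.2)
    (fun t => (fun v => t v - q * (t v % (q * l) / q), fun v => t v % (q * l) / q))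
    (fun p hp => ?_) (fun t ht => ?_) (fun p hp => ?_) (fun t _ => ?_) fun _ _ => rfl).symm
  · exact add_mem_bx hq (mem_product.1 hp).1 (mem_product.1 hp).2
  · have h := fun v => cell_two (n := n) hq' hl' (by simpa using mem_bx.1 ht v)
    exact mem_product.2 ⟨mem_cells.2 fun v => (h v).1, mem_bx.2 fun v => (h v).2⟩
  · have h := fun v => (cell_one hq' (mem_cells.1 (mem_product.1 hp).1 v).1
      (mem_cells.1 (mem_product.1 hp).1 v).2 (mem_bx.1 (mem_product.1 hp).2 v)).2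
    refine Prod.ext (funext fun v => ?_) (funext fun v => h v)
    simp only [Pi.add_apply, Pi.smul_apply, smul_eq_mul, h v]
    ring
  · funext v
    simp

theorem card_cells {q l : ℕ} (hq : 1 ≤ q) (hl : 1 ≤ l) (n : ℕ) :
    (#(cells σ q l n) : ℝ) * (l : ℝ) ^ Fintype.card σ = (n * (q * l) : ℝ) ^ Fintype.card σ := by
  have h := (sum_cells (σ := σ) hq hl n fun _ => 1).symm
  simp only [sum_const, card_bx, nsmul_eq_mul, mul_one] at h
  exact_mod_cast h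

theorem sum_bx_le {L L' : ℕ} (h : L' ≤ L) (hL : 0 < L) {f : (σ → ℤ) → ℝ} (hf : ∀ t, f t ≤ 1) {ε : ℝ}
    (hε : Fintype.card σ * ((L : ℝ) - L') ≤ ε * L) :
    ∑ t ∈ bx σ L, f t ≤ ∑ t ∈ bx σ L', f t + ε * (L : ℝ) ^ Fintype.card σ := by
  have hsub : bx σ L' ⊆ bx σ L := fun t ht => mem_bx.2 fun v =>
    ⟨(mem_bx.1 ht v).1, (mem_bx.1 ht v).2.trans_le (by exact_mod_cast h)⟩
  rw [← sum_sdiff hsub, add_comm]
  refine add_le_add_right ((sum_le_card_nsmul _ _ 1 fun t _ => hf t).trans ?_) _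
  rw [nsmul_eq_mul, mul_one, cast_card_sdiff hsub, card_bx, card_bx]
  push_cast
  have h1 : (L' : ℝ) ≤ L := by exact_mod_cast h
  have h2 : (0 : ℝ) < L := by exact_mod_cast hL
  rcases Nat.eq_zero_or_pos (Fintype.card σ) with h0 | h0
  · rw [h0] at hε ⊢
    simp only [pow_zero, sub_self, mul_one]
    exact nonneg_of_mul_nonneg_left (by simpa using hε) h2
  have h3 := (le_abs_self _).trans (abs_pow_sub_pow_le (L : ℝ) L' (Fintype.card σ))
  rw [abs_of_nonneg (sub_nonneg.2 h1), Nat.abs_cast, Nat.abs_cast, max_eq_left h1] at h3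
  refine h3.trans ?_
  obtain ⟨k, hk⟩ : ∃ k, Fintype.card σ = k + 1 := ⟨_, (Nat.succ_pred_eq_of_pos h0).symm⟩
  rw [hk] at hε ⊢
  rw [Nat.add_sub_cancel, pow_succ', ← mul_assoc, mul_comm (_ - _)]
  exact mul_le_mul_of_nonneg_right hε (by positivity)

end D51

/-- **JOIN**: finitely many relations with the same first component -/
theorem join (S : ℕ) : ∃ C : ℕ, ∀ R : ℝ, 2 ≤ R → ∀ (ι α : Type) [Fintype ι] [Fintype α]
    (κ : α → Type) [∀ a, Fintype (κ a)] (N : ND ι) (Nb : ∀ a, ND (κ a))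
    (H : ∀ a, ℕ → Submodule ℝ (pd N (Nb a)).L),
    (Fintype.card ι + Fintype.card (Σ a, κ a) : ℝ) ≤ R → N.Good S (Real.exp R) →
    (∀ a, (Nb a).Good S (Real.exp R)) → (∀ a, (pd N (Nb a)).GrSub (H a)) →
    (∀ a i, (pd N (Nb a)).RatS (Real.exp R) (H a i)) →
    ∃ G : ℕ → Submodule ℝ (pd N (ND.pi Nb)).L, (pd N (ND.pi Nb)).GrSub G ∧
      (∀ i, (pd N (ND.pi Nb)).RatS (Real.exp (R ^ C)) (G i)) ∧
      (∀ i x y, pair x y ∈ G i → ∀ a, pair x (pj Nb ℝ a y) ∈ H a i) ∧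
      ∀ q : ℕ, 1 ≤ q → (q : ℝ) ≤ Real.exp R → ∃ q' : ℕ, 1 ≤ q' ∧ (q' : ℝ) ≤ Real.exp (R ^ C) ∧
        ∀ (σ : Type) (T : ℝ) (P : N.PS σ) (Pb : ∀ a, (Nb a).PS σ), Real.exp (R ^ C) ≤ T →
        P ∈ N.poly σ → (∀ a, (pd N (Nb a)).FactQ S T (Real.exp R) q (H a) (pair P (Pb a))) →
        (pd N (ND.pi Nb)).FactQ S T (Real.exp (R ^ C)) q' G (pair P (pmk Pb)) := by
  obtain ⟨C, hC⟩ := St.pull S
  refine ⟨C, fun R hR ι α _ _ κ _ N Nb H hd hN hNb hH hU => ?_⟩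
  have he : 1 ≤ Real.exp R := Real.one_le_exp (by linarith)
  have hB : 0 ≤ Real.exp R := by linarith
  let φ : ∀ a, (pd N (ND.pi Nb)).L →ₗ⁅ℝ⁆ (pd N (Nb a)).L := fun a =>
    toPd (fst N (ND.pi Nb) ℝ) ((pj Nb ℝ a).comp (snd N (ND.pi Nb) ℝ))
  have hφ : ∀ a, FHom 1 (φ a).toLinearMap := fun a =>
    FHom.toPd fHom_fst (by simpa using (fHom_pj a).comp fHom_snd zero_le_one)
  have g1 := good_pd hN (good_pi hNb hB) hB
  have g2 := fun a => good_pd hN (hNb a) hB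
  obtain ⟨h1, h2, h3⟩ := hC R hR _ α (fun a => ι ⊕ κ a) _ (fun a => pd N (Nb a)) φ H
    (by rw [Fintype.card_sum]; push_cast; exact hd) (fun a => by
      rw [Fintype.card_sum]
      push_cast
      refine le_trans (add_le_add_right ?_ _) hd
      exact_mod_cast Fintype.card_le_of_injective _ (sigma_mk_injective (β := κ) (i := a)))
    g1.wt_le (fun a => (g2 a).wt_le) g1.c_le (fun a => (g2 a).c_le)
    (fun a => ((hφ a).mono he).intMap hB) (fun a => (hφ a).filt) hH hU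
  refine ⟨_, h1, h2, fun i x y h a => (St.mem_pb.1 h).2 a, fun q hq1 hq2 => ?_⟩
  obtain ⟨q', a1, a2, -, a3⟩ := h3 q hq1 hq2
  refine ⟨q', a1, a2, fun σ T P Pb hT hP hf => a3 σ T _ hT (pair_mem_poly hP (pmk_mem_poly fun a =>
    (mem_pd_poly.1 (Zo.factQ_poly (hH a) (hf a))).2)) fun a => ?_⟩
  rw [Zo.bc_eq_of_cv (φ a) (Q := pair P (Pb a)) fun β => by rw [cv_pair, cv_pair, cv_pmk]; rfl]
  exact hf a

set_option maxHeartbeats 1000000 in
/-- **DL in sum form**: degree lowering on one cell of the box `[0, L) ^ σ` -/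
theorem dlSum {S : ℕ} (hS : 1 ≤ S) (D : ℕ) : ∃ C : ℕ, ∀ R : ℝ, 2 ≤ R → ∀ (ι ι' σ : Type) [Fintype ι]
    [Fintype ι'] [Fintype σ] [DecidableEq σ] (N : ND ι) (Nb : ND ι')
    (H : ℕ → Submodule ℝ (pd N Nb).L) (j q L : ℕ),
    (Fintype.card ι + Fintype.card ι' : ℝ) ≤ R → N.Good S (Real.exp R) → Nb.Good S (Real.exp R) →
    (pd N Nb).GrSub H → (∀ i, (pd N Nb).RatS (Real.exp R) (H i)) → 1 ≤ q → (q : ℝ) ≤ Real.exp R →
    Fintype.card σ ≤ D → Real.exp (R ^ C) ≤ L →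
    ∃ (Q J r q' l : ℕ) (χ : Fin J → (scl Nb Q).L → ℝ) (N' : ND (Fin r)) (Y : Finset (σ → ℤ)),
      1 ≤ Q ∧ (Q : ℝ) ≤ Real.exp (R ^ C) ∧ (scl Nb Q).Good S (Real.exp (R ^ C)) ∧
      (J : ℝ) ≤ Real.exp (R ^ C) ∧ (∀ a, Wd (scl Nb Q) S (j + 1) (Real.exp (R ^ C)) (χ a)) ∧
      r ≤ Fintype.card ι + Fintype.card ι' ∧ N'.Good S (Real.exp (R ^ C)) ∧ 1 ≤ q' ∧
      (q' : ℝ) ≤ Real.exp (R ^ C) ∧ Real.exp (-R ^ C) * L ≤ l ∧ q' * l ≤ L ∧
      (#Y : ℝ) ≤ Real.exp (R ^ C) ∧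
      (∀ y ∈ Y, ∀ u ∈ bx σ l, y + (q' : ℤ) • u ∈ bx σ L) ∧
      ∀ (F : N.L → ℝ) (P : N.PS σ) (Pb : Nb.PS σ) (h : (σ → ℤ) → ℝ), Wd N S (j + 1) (Real.exp R) F →
        (∀ Z, pair Z 0 ∈ H (j + 1) → ∀ y, F (star S Z y) = F y) →
        (pd N Nb).FactQ S L (Real.exp R) q H (pair P Pb) → (∀ t, |h t| ≤ 1) →
        Real.exp (-R) * (L : ℝ) ^ Fintype.card σ ≤ ∑ t ∈ bx σ L, F (N.evZ t P) * h t →
        ∃ a, ∃ y ∈ Y, ∃ P' ∈ N'.poly σ, ∃ κ : N'.L → ℝ, Wd N' S j (Real.exp (R ^ C)) κ ∧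
          Real.exp (-R ^ C) * (l : ℝ) ^ Fintype.card σ ≤ ∑ u ∈ bx σ l, κ (N'.evZ u P') *
            χ a ((scl Nb Q).evZ (y + (q' : ℤ) • u) (dn Nb Q Pb)) * h (y + (q' : ℤ) • u) := by
  classical
  obtain ⟨C1, h1⟩ := dlStmt S D hS
  obtain ⟨c, hc⟩ : ∃ C : ℕ, ∀ (R E ε : ℝ) (q e : ℕ), 2 ≤ R → E = Real.exp ((R + 3) ^ C1) →
      (q : ℝ) ≤ E → e ≤ D → 0 ≤ ε → ε ≤ Real.exp (-R ^ C) →
      E * q * ε ≤ Real.exp (-R) / 8 ∧ e * q * ε ≤ Real.exp (-R) / 4 := by qp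
  obtain ⟨C, hC⟩ : ∃ C : ℕ, ∀ (R E : ℝ) (e : ℕ), 2 ≤ R → E = Real.exp ((R + 3) ^ C1) → e ≤ D →
      E ≤ Real.exp (R ^ C) ∧ Real.exp (-R ^ C) ≤ Real.exp (-R ^ c) / 2 ∧
      (2 * Real.exp (R ^ c)) ^ e ≤ Real.exp (R ^ C) ∧ Real.exp (R ^ c) ≤ Real.exp (R ^ C) ∧
      Real.exp (-R ^ C) ≤ Real.exp (-R) / 4 / Real.exp ((R + 3) ^ C1) := by qp
  refine ⟨C, fun R hR ι ι' σ _ _ _ _ N Nb H j q L hd hN hNb hH hU hq1 hq2 hD hL => ?_⟩
  have e1 : Real.exp R ≤ Real.exp (R + 3) := Real.exp_le_exp.2 (by linarith)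
  obtain ⟨Q, J, r, q', χ, N', a1, a2, a3, a4, a5, a6, a7, a8, a9, a10, hdl⟩ := h1 (R + 3)
    (by linarith) ι ι' N Nb H j q (by linarith) (hN.mono e1) (hNb.mono e1) hH
    (fun i => (hU i).mono e1) hq1 (hq2.trans e1)
  obtain ⟨c1, c2, c3, c4, c5⟩ := hC R _ _ hR rfl hD
  set E := Real.exp ((R + 3) ^ C1) with hE
  set ε := Real.exp (-R ^ c) with hε
  have hε0 : 0 < ε := Real.exp_pos _
  have hE0 : 0 < E := Real.exp_pos _
  obtain ⟨b1, b2⟩ := hc R E ε q' _ hR rfl a10 hD hε0.le le_rfl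
  have hεe : ε * Real.exp (R ^ c) = 1 := by rw [hε, ← Real.exp_add]; simp
  have hL0 : (0 : ℝ) < L := (Real.exp_pos _).trans_le hL
  have hεL : 1 ≤ ε * L := hεe ▸ mul_le_mul_of_nonneg_left (c4.trans hL) hε0.le
  set l := ⌊ε * L⌋₊ with hl
  have hl1 : 1 ≤ l := Nat.le_floor (by simpa using hεL)
  have hl1' : (1 : ℝ) ≤ l := by exact_mod_cast hl1
  have hl2 : (l : ℝ) ≤ ε * L := Nat.floor_le (by positivity)
  have hl3 : ε * L ≤ 2 * l := by linarith [Nat.lt_floor_add_one (ε * L)]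
  set n := L / (q' * l) with hn
  have hn1 : n * (q' * l) ≤ L := Nat.div_mul_le_self _ _
  have hn1' : (n * (q' * l) : ℝ) ≤ L := by exact_mod_cast hn1
  have hn2 : (L : ℝ) ≤ n * (q' * l) + q' * l := by
    have := Nat.lt_div_mul_add (a := L) (Nat.mul_pos a9 hl1)
    exact_mod_cast this.le
  have hcard := card_cells (σ := σ) a9 hl1 n
  have hq0 : (0 : ℝ) ≤ q' := Nat.cast_nonneg _
  have hmem : ∀ y ∈ cells σ q' l n, ∀ u ∈ bx σ l, y + (q' : ℤ) • u ∈ bx σ L := fun y hy u hu =>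
    mem_bx.2 fun v => ⟨(mem_bx.1 (add_mem_bx a9 hy hu) v).1,
      (mem_bx.1 (add_mem_bx a9 hy hu) v).2.trans_le (by exact_mod_cast hn1)⟩
  have habs : ∀ t ∈ bx σ L, ∀ v, |(t v : ℝ)| ≤ L := fun t ht v => by
    have := mem_bx.1 ht v
    rw [abs_of_nonneg (by exact_mod_cast this.1)]
    exact_mod_cast this.2.le
  have hql : q' * l ≤ L := by
    have h2 : 1 ≤ E := Real.one_le_exp (by positivity)
    have h3 : Real.exp (-R) ≤ 1 := Real.exp_le_one_iff.2 (by linarith)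
    have h4 : q' * ε ≤ 1 := by nlinarith [mul_nonneg hq0 hε0.le]
    have : (q' * l : ℝ) ≤ L := by nlinarith [mul_le_mul_of_nonneg_left hl2 hq0]
    exact_mod_cast this
  refine ⟨Q, J, r, q', l, χ, N', cells σ q' l n, a1, a2.trans c1, a3.mono c1, a4.trans c1,
    fun a => (a5 a).mono c1, a7, a8.mono c1, a9, a10.trans c1,
    (mul_le_mul_of_nonneg_right c2 hL0.le).trans (by linarith), hql, ?_, hmem,
    fun F P Pb h hF hinv hf hh hsum => ?_⟩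
  · refine le_trans (le_of_mul_le_mul_right ?_
      (pow_pos (by linarith : (0 : ℝ) < l) (Fintype.card σ))) c3
    rw [hcard, ← mul_pow]
    refine pow_le_pow_left₀ (by positivity) (hn1'.trans ?_) _
    calc (L : ℝ) = Real.exp (R ^ c) * (ε * L) := by rw [← mul_assoc, mul_comm _ ε, hεe, one_mul]
      _ ≤ Real.exp (R ^ c) * (2 * l) := by gcongr
      _ = _ := by ring
  obtain ⟨P', hP', κ, hκ⟩ := hdl σ L F P Pb hD hL0 (hF.mono e1) hinv (hf.mono e1 dvd_rfl)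
  let Py : (σ → ℤ) → N'.PS σ := fun y => N'.subst (Zo.aff y fun k => Pi.single k (q' : ℤ)) P'
  have hPy : ∀ y u, N'.evZ u (Py y) = N'.evZ (y + (q' : ℤ) • u) P' := fun y u => by
    rw [Zo.evZ_aff, show Zo.apt y (fun k => Pi.single k (q' : ℤ)) u = y + (q' : ℤ) • u from
      funext fun v => by simp [Zo.apt, Pi.single_apply, mul_comm]]
  have hy0 : ∀ y ∈ cells σ q' l n, ∀ v, |(y v : ℝ)| ≤ L := fun y hy =>
    habs y (by simpa using hmem y hy 0 (mem_bx.2 fun v => ⟨le_rfl, by simp only [Pi.zero_apply]; omega⟩))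
  by_contra hcon
  have hlt : ∀ a, ∀ y ∈ cells σ q' l n, ∑ u ∈ bx σ l, κ a y (N'.evZ (y + (q' : ℤ) • u) P') *
      χ a ((scl Nb Q).evZ (y + (q' : ℤ) • u) (dn Nb Q Pb)) * h (y + (q' : ℤ) • u) ≤
      Real.exp (-R ^ C) * (l : ℝ) ^ Fintype.card σ := fun a y hy => by
    by_contra hlt
    exact hcon ⟨a, y, hy, Py y, Zo.subst_mem_poly (Zo.aff_deg _ _) hP', κ a y,
      (hκ a y (hy0 y hy)).1.mono c1, by simpa only [hPy] using (not_le.1 hlt).le⟩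
  have e3 : Real.exp (-(R + 3)) ≤ Real.exp (-R) / 8 := by
    rw [neg_add, Real.exp_add, Real.exp_neg 3, div_eq_mul_inv]
    gcongr
    have := Real.add_one_le_exp (1 : ℝ)
    rw [show (3 : ℝ) = 1 + 1 + 1 by norm_num, Real.exp_add, Real.exp_add]
    nlinarith
  have hpt : ∀ y ∈ cells σ q' l n, ∀ u ∈ bx σ l,
      F (N.evZ (y + (q' : ℤ) • u) P) * h (y + (q' : ℤ) • u) ≤ Real.exp (-R) / 4 +
        ∑ a, κ a y (N'.evZ (y + (q' : ℤ) • u) P') *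
          χ a ((scl Nb Q).evZ (y + (q' : ℤ) • u) (dn Nb Q Pb)) * h (y + (q' : ℤ) • u) := by
    intro y hy u hu
    set t := y + (q' : ℤ) • u with ht
    rw [← mul_one (F _ * _), ← mul_one (Real.exp (-R) / 4), ← a6 ((scl Nb Q).evZ t (dn Nb Q Pb)),
      mul_sum, mul_sum, ← sum_add_distrib]
    refine sum_le_sum fun a _ => ?_
    by_cases h0 : χ a ((scl Nb Q).evZ t (dn Nb Q Pb)) = 0
    · simp [h0]
    have h2 := (hκ a y (hy0 y hy)).2 t (q' * ε) (by positivity) (habs t (hmem y hy u hu))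
      (fun v => by
        have := mem_bx.1 hu v
        have h3 : (0 : ℝ) ≤ u v := by exact_mod_cast this.1
        have h4 : (u v : ℝ) ≤ l := by exact_mod_cast this.2.le
        simp only [ht, Pi.add_apply, Pi.smul_apply, smul_eq_mul]
        push_cast
        rw [add_sub_cancel_left, abs_of_nonneg (by positivity), mul_assoc]
        exact mul_le_mul_of_nonneg_left (h4.trans hl2) hq0)
      (fun v => by simp [ht]) h0
    have h3 : (F (N.evZ t P) - κ a y (N'.evZ t P')) * h t ≤ Real.exp (-R) / 4 := by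
      refine (le_abs_self _).trans ?_
      rw [abs_mul]
      refine (mul_le_of_le_one_right (abs_nonneg _) (hh t)).trans (h2.trans ?_)
      rw [← mul_assoc]
      linarith
    nlinarith [mul_le_mul_of_nonneg_right h3 ((a5 a).mem ((scl Nb Q).evZ t (dn Nb Q Pb))).1]
  have h4 := sum_bx_le (σ := σ) hn1 (by exact_mod_cast hL0) (f := fun t => F (N.evZ t P) * h t)
    (fun t => (le_abs_self _).trans (by
      rw [abs_mul, abs_of_nonneg (hF.mem _).1]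
      exact mul_le_one₀ (hF.mem _).2 (abs_nonneg _) (hh t))) (ε := Real.exp (-R) / 4) (by
      push_cast
      calc _ ≤ Fintype.card σ * (q' * (ε * L)) := by
            gcongr
            nlinarith [mul_le_mul_of_nonneg_left hl2 hq0]
        _ = Fintype.card σ * q' * ε * L := by ring
        _ ≤ _ := mul_le_mul_of_nonneg_right b2 hL0.le)
  rw [sum_cells a9 hl1] at h4
  have h5 : Real.exp (-R ^ C) * J ≤ Real.exp (-R) / 4 :=
    (mul_le_mul_of_nonneg_left a4 (Real.exp_pos _).le).trans ((le_div_iff₀ hE0).1 c5)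
  have h6 : ∀ y ∈ cells σ q' l n, ∑ u ∈ bx σ l, F (N.evZ (y + (q' : ℤ) • u) P) *
      h (y + (q' : ℤ) • u) ≤ Real.exp (-R) / 2 * (l : ℝ) ^ Fintype.card σ := fun y hy => by
    refine (sum_le_sum (hpt y hy)).trans ?_
    rw [sum_add_distrib, sum_comm, sum_const, card_bx, nsmul_eq_mul]
    have h7 := sum_le_sum fun a (_ : a ∈ (univ : Finset (Fin J))) => hlt a y hy
    rw [sum_const, card_univ, Fintype.card_fin, nsmul_eq_mul] at h7
    have h8 := mul_le_mul_of_nonneg_right h5 (pow_nonneg (by linarith : (0 : ℝ) ≤ l) (Fintype.card σ))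
    push_cast
    linarith
  have h7 := sum_le_sum h6
  rw [sum_const, nsmul_eq_mul, mul_left_comm, hcard] at h7
  have h8 : (n * (q' * l) : ℝ) ^ Fintype.card σ ≤ (L : ℝ) ^ Fintype.card σ :=
    pow_le_pow_left₀ (by positivity) hn1' _
  have h9 := mul_le_mul_of_nonneg_left h8 (by positivity : 0 ≤ Real.exp (-R) / 2)
  have h10 : 0 < Real.exp (-R) * (L : ℝ) ^ Fintype.card σ := by positivity
  linarith

/-- **the one-frame part of a stage**: JOIN, DL and the choice of a cell -/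
theorem locStage {S : ℕ} (hS : 1 ≤ S) (D : ℕ) : ∃ C : ℕ, ∀ R : ℝ, 2 ≤ R → ∀ (ι α σ : Type)
    [Fintype ι] [Fintype α] [Fintype σ] [DecidableEq σ] (κ : α → Type) [∀ a, Fintype (κ a)]
    (N : ND ι) (Nb : ∀ a, ND (κ a)) (H : ∀ a, ℕ → Submodule ℝ (pd N (Nb a)).L) (j q L : ℕ),
    (Fintype.card ι + Fintype.card (Σ a, κ a) : ℝ) ≤ R → N.Good S (Real.exp R) →
    (∀ a, (Nb a).Good S (Real.exp R)) → (∀ a, (pd N (Nb a)).GrSub (H a)) →
    (∀ a i, (pd N (Nb a)).RatS (Real.exp R) (H a i)) → 1 ≤ q → (q : ℝ) ≤ Real.exp R →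
    Fintype.card σ ≤ D → Real.exp (R ^ C) ≤ L →
    ∃ (Q J r q' l : ℕ) (χ : Fin J → (scl (ND.pi Nb) Q).L → ℝ) (N' : ND (Fin r))
      (Y : Finset (σ → ℤ)),
      1 ≤ Q ∧ (Q : ℝ) ≤ Real.exp (R ^ C) ∧ (scl (ND.pi Nb) Q).Good S (Real.exp (R ^ C)) ∧
      (J : ℝ) ≤ Real.exp (R ^ C) ∧
      (∀ b, Wd (scl (ND.pi Nb) Q) S (j + 1) (Real.exp (R ^ C)) (χ b)) ∧
      r ≤ Fintype.card ι + Fintype.card (Σ a, κ a) ∧ N'.Good S (Real.exp (R ^ C)) ∧ 1 ≤ q' ∧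
      (q' : ℝ) ≤ Real.exp (R ^ C) ∧ Real.exp (-R ^ C) * L ≤ l ∧ q' * l ≤ L ∧
      (#Y : ℝ) ≤ Real.exp (R ^ C) ∧
      (∀ y ∈ Y, ∀ u ∈ bx σ l, y + (q' : ℤ) • u ∈ bx σ L) ∧
      ∀ (F : N.L → ℝ) (P : N.PS σ) (Pb : ∀ a, (Nb a).PS σ) (h : (σ → ℤ) → ℝ),
        Wd N S (j + 1) (Real.exp R) F → P ∈ N.poly σ →
        (∀ Z, (∀ a, pair Z 0 ∈ H a (j + 1)) → ∀ y, F (star S Z y) = F y) →
        (∀ a, (pd N (Nb a)).FactQ S L (Real.exp R) q (H a) (pair P (Pb a))) → (∀ t, |h t| ≤ 1) →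
        Real.exp (-R) * (L : ℝ) ^ Fintype.card σ ≤ ∑ t ∈ bx σ L, F (N.evZ t P) * h t →
        ∃ b, ∃ y ∈ Y, ∃ P' ∈ N'.poly σ, ∃ F' : N'.L → ℝ, Wd N' S j (Real.exp (R ^ C)) F' ∧
          Real.exp (-R ^ C) * (l : ℝ) ^ Fintype.card σ ≤ ∑ u ∈ bx σ l, F' (N'.evZ u P') *
            χ b ((scl (ND.pi Nb) Q).evZ (y + (q' : ℤ) • u) (dn (ND.pi Nb) Q (pmk Pb))) *
              h (y + (q' : ℤ) • u) := by
  obtain ⟨C1, h1⟩ := join S
  obtain ⟨C2, h2⟩ := dlSum hS D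
  refine ⟨(C1 + 1) * C2 + (C1 + 1), fun R hR ι α σ _ _ _ _ κ _ N Nb H j q L hd hN hNb hH hU hq1 hq2
    hD hL => ?_⟩
  have p1 : R ≤ R ^ (C1 + 1) := by simpa using Qp.pw_mono hR (show 1 ≤ C1 + 1 by omega)
  have e1 : Real.exp R ≤ Real.exp (R ^ (C1 + 1)) := Real.exp_le_exp.2 p1
  have e2 : Real.exp (R ^ C1) ≤ Real.exp (R ^ (C1 + 1)) := Qp.exp_pw_mono hR (by omega)
  have p3 : (R ^ (C1 + 1)) ^ C2 ≤ R ^ ((C1 + 1) * C2 + (C1 + 1)) := by
    rw [← pow_mul]; exact Qp.pw_mono hR (by omega)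
  have e3 := Real.exp_le_exp.2 p3
  have e4 := Real.exp_le_exp.2 (neg_le_neg p3)
  obtain ⟨G, g1, g2, g3, g4⟩ := h1 R hR ι α κ N Nb H hd hN hNb hH hU
  obtain ⟨q1, g5, g6, g7⟩ := g4 q hq1 hq2
  obtain ⟨Q, J, r, q', l, χ, N', Y, a1, a2, a3, a4, a5, a6, a7, a8, a9, a10, a10', a11, a12,
    a13⟩ :=
    h2 (R ^ (C1 + 1)) (hR.trans p1) ι _ σ N (ND.pi Nb) G j q1 L (hd.trans p1) (hN.mono e1)
      ((good_pi hNb (Real.exp_pos _).le).mono e1) g1 (fun i => (g2 i).mono e2) g5 (g6.trans e2) hD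
      (e3.trans hL)
  refine ⟨Q, J, r, q', l, χ, N', Y, a1, a2.trans e3, a3.mono e3, a4.trans e3,
    fun b => (a5 b).mono e3, a6, a7.mono e3, a8, a9.trans e3,
    (mul_le_mul_of_nonneg_right e4 (Nat.cast_nonneg _)).trans a10, a10', a11.trans e3, a12,
    fun F P Pb h hF hP hinv hf hh hsum => ?_⟩
  obtain ⟨b, y, hy, P', hP', F', hF', hs⟩ := a13 F P (pmk Pb) h (hF.mono e1)
    (fun Z hZ => hinv Z fun a => by simpa using g3 _ _ _ hZ a)
    ((g7 σ L P Pb ((Qp.exp_pw_mono hR (by omega)).trans hL) hP hf).mono e2 dvd_rfl) hh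
    ((mul_le_mul_of_nonneg_right (Real.exp_le_exp.2 (neg_le_neg p1)) (by positivity)).trans hsum)
  exact ⟨b, y, hy, P', hP', F', hF'.mono e3,
    (mul_le_mul_of_nonneg_right e4 (by positivity)).trans hs⟩

end Crest.Agent.T49.Dl
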