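import Crest.Agent.T49.WinClt_56
import Crest.Agent.T49.GonGr_60

/-!
Row 49 (helper56).  The datum of a rational graded subalgebra and the structured converse of `LT`
in quasi-polynomial form.
-/

set_option autoImplicit false
set_option linter.unusedSectionVars false

noncomputable section

namespace Crest.Agent.T49.Win
open Finset Nil Nil.ND
open Crest.Agent.T49.Bch (star Ad Gauge cb)

variable {ι : Type} [Fintype ι] {N : ND ι}

theorem good_scl' {S Q : ℕ} {M : ℝ} (h1 : ∀ k, N.wt k ≤ S) (h2 : ∀ i j k, |(N.c i j k : ℝ)| ≤ M)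
    (hQ : 1 ≤ Q) (hb : bden S ∣ Q) : (scl N Q).Good S (Q * M) where
  wt_le := h1
  c_le i j k := by
    change |((Q * N.c i j k : ℤ) : ℝ)| ≤ _
    push_cast
    rw [abs_mul, Nat.abs_cast]
    exact mul_le_mul_of_nonneg_left (h2 i j k) (Nat.cast_nonneg _)
  lat x y hx hy := by
    refine (inL_of_up hQ (c := 1) ?_).isInt
    rw [Bch.map_star, mul_one]
    exact star_inL hb (by simpa using inL_up (InL.of_isInt hx))
      (by simpa using inL_up (InL.of_isInt hy))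

/-- the datum of a rational graded subalgebra -/
theorem exists_subD {S d : ℕ} {B Hh : ℝ} (hG : N.Good S B) (hB : 0 ≤ B) (hd : Fintype.card ι ≤ d)
    {H : ℕ → Submodule ℝ N.L} (hH : N.GrSub H) (hHh : 1 ≤ Hh) (hR : ∀ i, N.RatS Hh (H i)) :
    ∃ (r : ℕ) (N' : ND (Fin r)) (φ : N'.L →ₗ⁅ℝ⁆ N.L) (ψ : N.L →ₗ[ℝ] N'.L) (q : ℕ),
      r ≤ Fintype.card ι ∧
      SubD S (bden S * (Gon.bl d Hh ^ 2 * ((kB ι B + d) * Hh ^ 2))) H N' φ ψ q := by
  obtain ⟨r, wt, Z, C, q, h1, h2, h3, h4, h5, h6, -, h8, h9, h10, h11⟩ :=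
    Gon.exists_adapted' (ι := ι) H S hHh hd (fun i _ _ => hH.anti (Nat.le_succ i)) fun i _ _ => hR i
  have hq0 : (q : ℝ) ≠ 0 := by positivity
  have hbl := Gon.one_le_bl d hHh
  have hkB := one_le_kB (ι := ι) hB
  have hb1 : 1 ≤ bden S := bden_pos S
  have hb1' : (1 : ℝ) ≤ bden S := by exact_mod_cast hb1
  let lZ : (Fin r → ℝ) →ₗ[ℝ] N.L := N.co.symm.toLinearMap ∘ₗ Gon.lin Z
  let lC : N.L →ₗ[ℝ] (Fin r → ℝ) := Gon.lin C ∘ₗ N.co.toLinearMap
  let z : Fin r → N.L := fun a => N.ofInt fun k => Z k a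
  have hz : ∀ a, z a ∈ H (wt a) := h4
  have hZ : ∀ y, lZ y = ∑ a, y a • z a := fun y => Gon.lin_eq_sum Z y
  have hCZ : ∀ y, lC (lZ y) = (q : ℝ) • y := h9
  have htop : ∀ x ∈ H (S + 1), x = 0 := fun x hx => eq_zero_of_mem_FA hG.wt_le (hH.le _ hx)
  have hZC : ∀ x ∈ H 1, lZ (lC x) = (q : ℝ) • x := fun x hx =>
    (sub_eq_zero.1 (htop _ (h10 x hx))).symm
  have hF : ∀ i, 1 ≤ i → i ≤ S + 1 → ∀ x ∈ H 1, x ∈ H i ↔ ∀ a, wt a < i → lC x a = 0 := h11
  have hCint : ∀ y, IsInt y → ∀ a, ∃ n : ℤ, lC y a = n := fun y hy a => by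
    choose n hn using hy
    have : N.co y = Gon.cst n := funext hn
    exact ⟨C.mulVec n a, by
      change Gon.lin C (N.co y) a = _
      rw [this, Gon.lin_cst]; rfl⟩
  have hzz : ∀ a b, IsInt ⁅z a, z b⁆ := fun a b => InL.isInt (by
    simpa using (InL.of_isInt (isInt_ofInt _)).lie (InL.of_isInt (isInt_ofInt _)))
  choose cc hcc using fun a b => hCint _ (hzz a b)
  have hz1 : ∀ a b, ⁅z a, z b⁆ ∈ H 1 := fun a b =>
    hH.anti (by have := (h2 a).1; omega) (hH.lie _ _ _ (hz a) _ (hz b))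
  have hbr : ∀ a b, ⁅(q : ℝ) • z a, (q : ℝ) • z b⁆ = ∑ k, (cc a b k : ℝ) • (q : ℝ) • z k :=
    fun a b => by
      rw [smul_lie, lie_smul, ← hZC _ (hz1 a b), hZ, smul_sum]
      exact sum_congr rfl fun k _ => by rw [hcc, smul_comm]
  have hli : LinearIndependent ℝ fun a => (q : ℝ) • z a := by
    refine Fintype.linearIndependent_iff.2 fun g hg a => ?_
    have h : lZ ((q : ℝ) • g) = 0 := by
      rw [hZ, ← hg]
      exact sum_congr rfl fun k _ => by rw [Pi.smul_apply, smul_smul, smul_eq_mul, mul_comm]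
    have h' := congrFun (hCZ ((q : ℝ) • g)) a
    rw [h, map_zero] at h'
    simpa [hq0] using h'.symm
  let N0 : ND (Fin r) := ofFamily _ hli wt cc hbr (fun a => (h2 a).1) fun a b k hk => by
    by_contra hlt
    refine hk ?_
    have := (hF (wt k + 1) (by omega) (by have := (h2 k).2; omega) _ (hz1 a b)).1
      (hH.anti (by omega) (hH.lie _ _ _ (hz a) _ (hz b))) k (Nat.lt_succ_self _)
    rw [hcc] at this
    exact_mod_cast this
  let φ : (scl N0 (bden S)).L →ₗ⁅ℝ⁆ N.L := (N0.lift _ hbr).comp (up N0 (bden S) ℝ)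
  have hφ : ∀ x, φ x = ((bden S : ℝ) * q) • lZ ((scl N0 (bden S)).co x) := fun x => by
    rw [hZ, smul_sum]
    change ∑ a, ((bden S : ℝ) • x a) • (q : ℝ) • z a = _
    refine sum_congr rfl fun a _ => ?_
    simp only [smul_smul, smul_eq_mul, co_apply]
    congr 1; ring
  have hφ1 : ∀ x, φ x ∈ H 1 := fun x => by
    rw [hφ, hZ]
    exact Submodule.smul_mem _ _ (sum_mem fun a _ =>
      Submodule.smul_mem _ _ (hH.anti (h2 a).1 (hz a)))
  have hψφ : ∀ x a, lC (φ x) a = ((bden S : ℝ) * q * q) * x a := fun x a => by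
    rw [hφ, map_smul, hCZ]; simp [mul_assoc]
  have hzn : ∀ a, ‖z a‖ ≤ Hh := fun a => (norm_le_iff (by linarith)).2 fun k => h3 k a
  have hH2 : Hh ≤ Hh ^ 2 := by nlinarith
  have hb2 : Gon.bl d Hh ≤ Gon.bl d Hh ^ 2 := by nlinarith
  have hd0 : (0 : ℝ) ≤ d := Nat.cast_nonneg _
  have hone : 1 ≤ (kB ι B + d) * Hh ^ 2 := one_le_mul_of_one_le_of_one_le (by linarith) (by linarith)
  refine ⟨r, scl N0 (bden S), φ, (scl N0 (bden S)).co.symm.toLinearMap ∘ₗ lC, bden S * q * q, h1,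
    good_scl' (fun a => (h2 a).2) (fun a b k => ?_) hb1 dvd_rfl, fun x hx => ?_, fun x => ?_,
    fun i hi x => ?_, fun x hx => ?_, Nat.mul_pos (Nat.mul_pos hb1 h5) h5, ?_, fun x => pts_ext fun a => ?_,
    fun y hy a => hCint y hy a, fun y => ?_⟩
  · change |(cc a b k : ℝ)| ≤ _
    rw [← hcc]
    refine (norm_le_pi_norm (lC ⁅z a, z b⁆) k).trans ((h8 _).trans ?_)
    have := norm_lie_le46 hB hG.c_le (z a) (z b)
    calc _ ≤ Gon.bl d Hh * (kB ι B * Hh * Hh) := mul_le_mul_of_nonneg_left (this.trans (by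
          have := hzn a; have := hzn b; gcongr)) (by linarith)
      _ ≤ _ := by rw [mul_assoc, ← sq]; gcongr; linarith
  · rw [hφ, hZ]
    refine InL.isInt ((InL.smul (c := 1) (InL.sum _ fun a _ => ?_) _).of_eq (bden S * q) (by simp))
    obtain ⟨n, hn⟩ := hx a
    exact ((InL.of_isInt (isInt_ofInt _)).smul _).of_eq n (by simp [hn])
  · rw [hφ, norm_smul, Real.norm_of_nonneg (by positivity), mul_assoc, mul_assoc]
    refine mul_le_mul_of_nonneg_left ?_ (by positivity)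
    have h : ‖lZ ((scl N0 (bden S)).co x)‖ ≤ d * Hh * ‖x‖ :=
      Gon.norm_lin_le Z (by linarith) h3 (by simpa using h1.trans hd) _
    calc _ ≤ Gon.bl d Hh ^ 2 * (d * Hh * ‖x‖) := mul_le_mul (h6.trans hb2) h (norm_nonneg _)
          (by positivity)
      _ ≤ _ := by rw [mul_assoc (_ ^ 2)]; gcongr; linarith
  · have key : ∀ j, 1 ≤ j → j ≤ S + 1 → (x ∈ (scl N0 (bden S)).F j ↔ φ x ∈ H j) := fun j hj hj' => by
      rw [hF j hj hj' _ (hφ1 x)]
      refine forall_congr' fun a => imp_congr_right fun _ => ?_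
      rw [hψφ, mul_eq_zero, or_iff_right (by positivity)]
    rcases le_total i (S + 1) with h | h
    · exact key i hi h
    · refine ⟨fun hx => ?_, fun hx => ?_⟩
      · rw [htop _ ((key _ (by omega) le_rfl).1 (FA_anti h hx))]; exact zero_mem _
      · rw [eq_zero_of_mem_FA (N := scl N0 (bden S)) (fun a => (h2 a).2)
          ((key _ (by omega) le_rfl).2 (hH.anti h hx))]
        exact zero_mem _
  · refine ⟨(scl N0 (bden S)).co.symm (((bden S : ℝ) * q * q)⁻¹ • lC x), ?_⟩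
    rw [hφ, LinearEquiv.apply_symm_apply, map_smul, hZC x hx, smul_smul, smul_smul]
    rw [show (bden S : ℝ) * q * ((bden S : ℝ) * q * q)⁻¹ * q = 1 by field_simp, one_smul]
  · push_cast
    rw [mul_assoc, ← sq]
    refine mul_le_mul_of_nonneg_left ?_ (by positivity)
    exact (pow_le_pow_left₀ (by positivity) h6 2).trans (le_mul_of_one_le_right (by positivity) hone)
  · change lC (φ x) a = _
    rw [hψφ]; simp
  · refine (h8 _).trans (mul_le_mul_of_nonneg_right ?_ (norm_nonneg _))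
    exact hb2.trans ((le_mul_of_one_le_right (by positivity) hone).trans
      (le_mul_of_one_le_left (by positivity) hb1'))

/-- **structured converse of `LT`** -/
theorem clt {S : ℕ} (hS : 1 ≤ S) (D : ℕ) : ∃ C : ℕ, ∀ (m : ℝ), 2 ≤ m → ∀ (ι σ : Type) [Fintype ι]
    [Fintype σ] (N : ND ι) (s : ℕ) (η : ι → ℤ) (F : N.L → ℂ) (P : N.PS σ) (T : ℝ)
    (H : ℕ → Submodule ℝ N.L), Fintype.card σ ≤ D → (Fintype.card ι : ℝ) ≤ m →
    N.Good S (Real.exp m) → N.NChar S (s + 1) (Real.exp m) η F → 0 < T → N.GrSub H →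
    (∀ i, N.RatS (Real.exp m) (H i)) → (∀ x ∈ H (s + 1), N.fn η x = 0) →
    N.Fact S T (Real.exp m) H P →
    ∃ (r : ℕ) (N' : ND (Fin r)) (P' : N'.PS σ) (q : ℕ), r ≤ Fintype.card ι ∧
      N'.Good S (Real.exp (m ^ C)) ∧ P' ∈ N'.poly σ ∧ 1 ≤ q ∧ (q : ℝ) ≤ Real.exp (m ^ C) ∧
      CltOut N S s T F P N' P' q (Real.exp (m ^ C)) := by
  obtain ⟨C, hC⟩ : ∃ C : ℕ, ∀ (m K R Mε c : ℝ) (d e qγ q0 Q : ℕ), 2 ≤ m → (d : ℝ) ≤ m → e ≤ D →
      (qγ : ℝ) ≤ Real.exp m →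
      Mε = St.cS S * (St.kB S d (Real.exp m) * Real.exp m) ^ (S + 1) →
      c = ((d : ℝ) ^ 2 * Real.exp m + 1) →
      (Q : ℝ) = (bden S * (St.dS S * qγ ^ (S + 1)) ^ S) ^ 2 →
      R = (bden S * Q) * (bden S * (Gon.bl d (Real.exp m) ^ 2 * ((c + d) * Real.exp m ^ 2))) →
      K = c + (S + 1 : ℝ) ^ e * Mε + 1 → (q0 : ℝ) ≤ R →
      R ≤ Real.exp (m ^ C) ∧ (Q * q0 : ℝ) ≤ Real.exp (m ^ C) ∧
      (Real.exp m + 1) * (R + 1) * Gon.bl d (Real.exp m) * (cb S * K ^ (2 * S) + 1) ^ 2 *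
        ((S + 1 : ℝ) ^ e * (S * Mε) + 1) ≤ Real.exp (m ^ C) := by
    unfold Gon.bl St.kB; qp
  refine ⟨C, fun m hm ι σ _ _ N s η F P T H hD hι hG hF hT hH hR hη ⟨q, hq1, hq2, hf⟩ => ?_⟩
  have he : 1 ≤ Real.exp m := Real.one_le_exp (by linarith)
  obtain ⟨ε, hε, g, hg, γ, h0, hsm, hγ, rfl⟩ := factQ_norm hG he le_rfl hT.le he hH hf
  obtain ⟨r, N0, φ, ψ, q0, hr, hsub⟩ := exists_subD hG (by linarith) le_rfl hH he hR
  have hqγ : 1 ≤ St.dS S * q ^ (S + 1) := Nat.mul_pos (St.one_le_dS S) (by positivity)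
  have hdep := dep_pos S hqγ
  obtain ⟨ψ', hsub', hin⟩ := hsub.deep (Q := bden S * dep S (St.dS S * q ^ (S + 1)))
    (Nat.mul_pos (bden_pos S) hdep) (dvd_mul_right _ _)
  obtain ⟨b1, b2, b3⟩ := hC m _ _ _ (kB ι (Real.exp m)) _ _ q _ (dep S (St.dS S * q ^ (S + 1))) hm hι
    hD hq2 rfl rfl (by unfold dep; push_cast; rfl) (by rw [← Nat.cast_mul]) rfl hsub'.le
  have hM0 : 0 ≤ St.cS S * (St.kB S (Fintype.card ι) (Real.exp m) * Real.exp m) ^ (S + 1) :=
    le_trans (by simp) (hsm 0)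
  obtain ⟨P', hP', hout⟩ := clt_core hS hG (by linarith) le_rfl hF (by linarith) hH hη he (hR 1)
    hsub' hqγ (fun x hx => (hin x hx).of_eq (bden S) (by push_cast; ring)) hT hε hg h0 hsm hγ
    (by rw [add_assoc]; exact le_add_of_nonneg_right (by positivity))
    (by rw [add_assoc]; exact le_add_of_nonneg_left (by linarith [one_le_kB (ι := ι) (by linarith : 0 ≤ Real.exp m)])) b3
  exact ⟨r, _, P', _, hr, hsub'.good.mono b1, hP', Nat.mul_pos hdep hsub'.one_le,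
    by push_cast at b2 ⊢; exact b2, hout⟩

end Crest.Agent.T49.Win
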