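import Crest.Agent.T49.GowA_67
import Crest.Agent.T49.TorA_46
import Crest.Agent.T49.RatDef_50

/-!
Row 49 (helper10).  Part (C), cube route to `Rat.RAT`: exact statements.
The nilsequences enter only through the abstract interface `Basic`, `GI`, `Win`.
-/

set_option autoImplicit false

noncomputable section

namespace Crest.Agent.T49.Ginc

open Finset Crest.Agent.T49.Gow Crest.Agent.T49.Tor Crest.Agent.T49.Rat
open scoped ComplexConjugate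

variable {ι : Type} [Fintype ι] [DecidableEq ι]

/-- `Nil s m f` : `f` is a (complex) nilsequence of degree `≤ s` and complexity `≤ m` -/
abbrev Cls (ι : Type) := ℕ → ℝ → ((ι → ℤ) → ℂ) → Prop

structure Basic (Nil : Cls ι) : Prop where
  bdd : ∀ s m f, Nil s m f → ∀ x, ‖f x‖ ≤ 1
  mono : ∀ s m m' f, Nil s m f → 2 ≤ m → m ≤ m' → Nil s m' f

/-- the quasi-polynomial inverse theorem for `U^{s+1}` on boxes -/
def GI (Nil : Cls ι) (s : ℕ) : Prop :=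
  ∃ C : ℕ, ∀ (m : ℝ) (N : ℕ) (φ : (ι → ℤ) → ℂ), 2 ≤ m → Real.exp (m ^ C) ≤ N →
    Supp φ (box ι N) → (∀ x, ‖φ x‖ ≤ 1) →
    Real.exp (-m) * (#(box ι N) : ℝ) ^ (s + 2) ≤ U (s + 1) φ →
    ∃ ψ, Nil s (m ^ C) ψ ∧
      Real.exp (-m ^ C) * #(box ι N) ≤ ‖∑ x ∈ box ι N, φ x * conj (ψ x)‖

/-- the frequency `θ` is explained at `h` by a tuple from `J` -/
def Expl (N : ℕ) {r : ℕ} (m : ℝ) (J : Finset ((ι → ℤ) → ℂ)) (h : Fin r → ι → ℤ) (θ : ι → ℝ) :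
    Prop :=
  ∃ ψ : (Fin r → Bool) → (ι → ℤ) → ℂ, (∀ w, ψ w ∈ J) ∧ Real.exp (-m) * #(box ι N) ≤
    ‖∑ y ∈ (box ι N).filter (fun y => ∀ w, vtx y h w ∈ box ι N),
      (∏ w, ψ w (vtx y h w)) * e (-dot y θ)‖

/-- WINDOWS: explained frequencies are almost constant when all vertices lie in small cells -/
def Win (Nil : Cls ι) (S : WinSys (ι → ℤ)) (s r : ℕ) : Prop :=
  ∃ C : ℕ, ∀ (m : ℝ) (N : ℕ) (J : Finset ((ι → ℤ) → ℂ)), 2 ≤ m → Real.exp (m ^ C) ≤ N →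
    (#J : ℝ) ≤ m → (∀ ψ ∈ J, Nil s m ψ) →
    ∃ (Q A : ℕ) (χ : Fin Q → Fin A → (ι → ℤ) → ℝ), (Q : ℝ) ≤ Real.exp (m ^ C) ∧
      (A : ℝ) ≤ Real.exp (m ^ C) ∧ (∀ q a, χ q a ∈ S.W s (m ^ C)) ∧
      (∀ q, ∀ x ∈ box ι N, ∑ a, χ q a x = 1) ∧
      ∀ (h : Fin r → ι → ℤ) (Θ : Finset (ι → ℝ)), (#Θ : ℝ) ≤ m → (∀ θ ∈ Θ, Expl N m J h θ) →
        ∃ q, ∀ (a : (Fin r → Bool) → Fin A) (y y' : ι → ℤ),
          (∀ w, vtx y h w ∈ box ι N ∧ χ q (a w) (vtx y h w) ≠ 0) →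
          (∀ w, vtx y' h w ∈ box ι N ∧ χ q (a w) (vtx y' h w) ≠ 0) →
          ∀ θ ∈ Θ, ‖e (dot y θ) - e (dot y' θ)‖ ≤ Real.exp (-m)

/-- values in `[0,1]`, vanishing outside the box -/
def Wt (N : ℕ) (f : (ι → ℤ) → ℝ) : Prop := In01 f ∧ SuppIn f (box ι N)

/-- the shifts -/
def Hs (ι : Type) [Fintype ι] [DecidableEq ι] (N r : ℕ) : Finset (Fin r → ι → ℤ) :=
  Fintype.piFinset fun _ => box ι N

/-- the product over the vertices of a cube -/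
def cub {R : Type*} [CommMonoid R] {r : ℕ} (B : (Fin r → Bool) → (ι → ℤ) → R)
    (h : Fin r → ι → ℤ) (y : ι → ℤ) : R := ∏ w, B w (vtx y h w)

/-- the top vertex -/
def top (r : ℕ) : Fin r → Bool := fun _ => true

/-- `State(r)`; the value `B (top r)` is not used -/
def St (N r : ℕ) (m : ℝ) (P Q : (ι → ℤ) → ℝ) : Prop :=
  ∃ (E : (Fin r → ι → ℤ) → ℝ) (B : (Fin r → Bool) → (ι → ℤ) → ℝ), In01 E ∧ (∀ w, Wt N (B w)) ∧
    Real.exp (-m) * (#(box ι N) : ℝ) ^ (r + 1) ≤ ∑ h ∈ Hs ι N r, E h * ∑ v ∈ box ι N,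
      (cub (Function.update B (top r) P) h v - cub (Function.update B (top r) Q) h v)

/-- LINEARISATION: short lists explain all significant frequencies for almost all shifts -/
def Lin (Nil : Cls ι) (r : ℕ) : Prop :=
  ∃ C : ℕ, ∀ (m : ℝ) (N : ℕ) (B : (Fin r → Bool) → (ι → ℤ) → ℝ), 2 ≤ m →
    Real.exp (m ^ C) ≤ N → (∀ w, Wt N (B w)) →
    ∃ (J : Finset ((ι → ℤ) → ℂ)) (bad : Finset (Fin r → ι → ℤ)), (#J : ℝ) ≤ Real.exp (m ^ C) ∧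
      (∀ ψ ∈ J, Nil (r + 1) (m ^ C) ψ) ∧ (#bad : ℝ) ≤ Real.exp (-m) * (#(box ι N) : ℝ) ^ r ∧
      ∀ h ∈ Hs ι N r, h ∉ bad → ∀ θ : ι → ℝ, Real.exp (-m) * #(box ι N) ≤
        ‖∑ y ∈ box ι N, ((cub B h y : ℝ) : ℂ) * e (dot y θ)‖ → Expl N (m ^ C) J h θ

/-- one stage of the machine -/
def Stage (S : WinSys (ι → ℤ)) (r : ℕ) : Prop :=
  ∃ C : ℕ, ∀ (m : ℝ) (N : ℕ) (P Q : (ι → ℤ) → ℝ), 2 ≤ m → Real.exp (m ^ C) ≤ N → Wt N P →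
    Wt N Q → St N (r + 1) m P Q → ∃ χ ∈ S.W (r + 1) (m ^ C),
      St N r (m ^ C) (fun x => χ x * P x) fun x => χ x * ((1 - 1 / m) * Q x)

end Crest.Agent.T49.Ginc
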