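import Crest.Agent.T49.BchA_16

/-!
# Row 49 (helper16): BCH, definitions and the elementary (word-by-word) properties

* `Nil s L` : all bracket words of length `> s` vanish in the Lie ring `L`;
* `tail s` : the universal finite list of bracket words (lengths `2..s`) with rational coefficients;
* `star s x y = x + y + ∑ c_w • w(x,y)` in a real Lie algebra.
-/

set_option autoImplicit false

noncomputable section

namespace Crest.Agent.T49.Bch

open Finset
open scoped Nat

/-- nilpotency class at most `s`: all bracket words of length `> s` vanish -/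
class Nil (s : ℕ) (L : Type*) [LieRing L] : Prop where
  out : ∀ w : FreeMagma L, s < w.length → ev id w = 0

/-- the substitution of `x` for the first and `y` for the second letter -/
def two {L : Type*} (x y : L) : Bool → L := fun b => cond b x y

@[simp] theorem two_true {L : Type*} (x y : L) : two x y true = x := rfl
@[simp] theorem two_false {L : Type*} (x y : L) : two x y false = y := rfl

theorem map_two {L L' : Type*} (g : L → L') (x y : L) :
    (fun b => g (two x y b)) = two (g x) (g y) := by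
  funext b; cases b <;> rfl

/-- the words of length `2..s` of the BCH series, with their rational coefficients -/
def tail (s : ℕ) : Lib := (bch s).filter fun w => 2 ≤ w.length ∧ w.length ≤ s

theorem tail_length {s : ℕ} {w : FreeMagma Bool} (h : w ∈ (tail s).support) :
    2 ≤ w.length ∧ w.length ≤ s := by
  rw [tail, Finsupp.support_filter, mem_filter] at h
  exact h.2

/-- **The BCH product** in a real Lie algebra of class `≤ s`. -/
def star (s : ℕ) {L : Type*} [LieRing L] [LieAlgebra ℝ L] (x y : L) : L :=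
  x + y + ∑ w ∈ (tail s).support, ((tail s w : ℚ) : ℝ) • ev (two x y) w

/-! ### words -/

theorem ev_map {α β L : Type*} [Bracket L L] (f : β → L) (g : α → β) (w : FreeMagma α) :
    ev f (FreeMagma.map g w) = ev (fun a => f (g a)) w := by
  induction w using FreeMagma.recOnMul with
  | ih1 a => rfl
  | ih2 u v hu hv => rw [map_mul, ev_mul, ev_mul, hu, hv]

theorem length_map {α β : Type*} (g : α → β) (w : FreeMagma α) :
    (FreeMagma.map g w).length = w.length := by
  induction w using FreeMagma.recOnMul with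
  | ih1 a => rfl
  | ih2 u v hu hv => rw [map_mul, length_mul, length_mul, hu, hv]

theorem Nil.ev_eq_zero (s : ℕ) {L : Type*} [LieRing L] [h : Nil s L] {α : Type*} (f : α → L)
    {w : FreeMagma α} (hw : s < w.length) : ev f w = 0 := by
  have := h.out (FreeMagma.map f w) (by rwa [length_map])
  rwa [ev_map] at this

theorem Nil.mono {s t : ℕ} {L : Type*} [LieRing L] (h : Nil s L) (hst : s ≤ t) : Nil t L :=
  ⟨fun w hw => h.out w (lt_of_le_of_lt hst hw)⟩

/-- weighted words lie in the corresponding step of a filtration -/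
theorem ev_mem_filtration {α L : Type*} [Bracket L L] (F : ℕ → Set L)
    (hF : ∀ i j a b, a ∈ F i → b ∈ F j → ⁅a, b⁆ ∈ F (i + j)) (f : α → L)
    (hf : ∀ a, f a ∈ F 1) (w : FreeMagma α) : ev f w ∈ F w.length := by
  induction w using FreeMagma.recOnMul with
  | ih1 a => exact hf a
  | ih2 u v hu hv => exact hF _ _ _ _ hu hv

/-- criterion: a multiplicative filtration with `F 1 = ⊤` and `F i = 0` for `i > s` -/
theorem Nil.of_filtration {s : ℕ} {L : Type*} [LieRing L] (F : ℕ → Set L)
    (hF : ∀ i j a b, a ∈ F i → b ∈ F j → ⁅a, b⁆ ∈ F (i + j)) (h1 : ∀ a, a ∈ F 1)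
    (hs : ∀ i, s < i → ∀ a ∈ F i, a = 0) : Nil s L :=
  ⟨fun w hw => hs _ hw _ (ev_mem_filtration F hF id h1 w)⟩

/-- a jointly injective family of bracket-preserving maps into Lie rings of class `≤ s` -/
theorem Nil.of_forall {s : ℕ} {L : Type*} [LieRing L] {ι : Type*} {L' : ι → Type*}
    [∀ i, LieRing (L' i)] [∀ i, Nil s (L' i)] (g : ∀ i, L → L' i)
    (hg : ∀ i a b, g i ⁅a, b⁆ = ⁅g i a, g i b⁆) (hinj : ∀ a, (∀ i, g i a = 0) → a = 0) :
    Nil s L :=
  ⟨fun w hw => hinj _ fun i => by rw [map_ev (g i) (hg i), Nil.ev_eq_zero s _ hw]⟩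

theorem Nil.of_injective {s : ℕ} {L L' : Type*} [LieRing L] [LieRing L'] [Nil s L'] (g : L → L')
    (hg : ∀ a b, g ⁅a, b⁆ = ⁅g a, g b⁆) (hinj : ∀ a, g a = 0 → a = 0) : Nil s L :=
  ⟨fun w hw => hinj _ (by rw [map_ev g hg, Nil.ev_eq_zero s _ hw])⟩

theorem Nil.of_surjective {s : ℕ} {L L' : Type*} [LieRing L] [LieRing L'] [Nil s L] (g : L → L')
    (hg : ∀ a b, g ⁅a, b⁆ = ⁅g a, g b⁆) (h0 : g 0 = 0) (hsurj : Function.Surjective g) :
    Nil s L' := by
  refine ⟨fun w hw => ?_⟩
  have := map_ev g hg (Function.surjInv hsurj) w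
  rw [Nil.ev_eq_zero s _ hw, h0] at this
  simp only [Function.surjInv_eq] at this
  exact this.symm

instance Nil.subalgebra {s : ℕ} {R L : Type*} [CommRing R] [LieRing L] [LieAlgebra R L] [Nil s L]
    (H : LieSubalgebra R L) : Nil s H :=
  Nil.of_injective (fun a : H => (a : L)) (fun _ _ => rfl) fun _ h => Subtype.ext h

instance Nil.ideal {s : ℕ} {R L : Type*} [CommRing R] [LieRing L] [LieAlgebra R L] [Nil s L]
    (I : LieIdeal R L) : Nil s I :=
  Nil.of_injective (fun a : I => (a : L)) (fun _ _ => rfl) fun _ h => Subtype.ext h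

instance Nil.quotient {s : ℕ} {R L : Type*} [CommRing R] [LieRing L] [LieAlgebra R L] [Nil s L]
    (I : LieIdeal R L) : Nil s (L ⧸ I) :=
  Nil.of_surjective (fun a : L => (LieSubmodule.Quotient.mk a : L ⧸ I)) (fun _ _ => rfl) rfl
    (Quot.mk_surjective)

instance Nil.prod {s : ℕ} {L L' : Type*} [LieRing L] [LieRing L'] [Nil s L] [Nil s L'] :
    Nil s (L × L') :=
  ⟨fun w hw => Prod.ext
    (by rw [map_ev Prod.fst (fun _ _ => rfl), Nil.ev_eq_zero s _ hw]; rfl)
    (by rw [map_ev Prod.snd (fun _ _ => rfl), Nil.ev_eq_zero s _ hw]; rfl)⟩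

section Words

variable {L : Type*} [LieRing L] {α : Type*}

/-- a subgroup stable under `ad` of the letters is stable under `ad` of all words -/
theorem lie_ev_mem (M : AddSubgroup L) (f : α → L) (hM : ∀ a, ∀ m ∈ M, ⁅f a, m⁆ ∈ M)
    (w : FreeMagma α) : ∀ m ∈ M, ⁅ev f w, m⁆ ∈ M := by
  induction w using FreeMagma.recOnMul with
  | ih1 a => exact hM a
  | ih2 u v hu hv =>
    intro m hm
    rw [ev_mul, lie_lie]
    exact sub_mem (hu _ (hv _ hm)) (hv _ (hu _ hm))

theorem eq_of_of_length {w : FreeMagma α} (h : w.length ≤ 1) : ∃ a, w = .of a := by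
  induction w using FreeMagma.recOnMul with
  | ih1 a => exact ⟨a, rfl⟩
  | ih2 u v _ _ =>
    have := u.length_pos
    have := v.length_pos
    rw [length_mul] at h
    omega

/-- words of length `≥ 2` lie in every stable subgroup containing the brackets of letters -/
theorem ev_mem_of_two_le (M : AddSubgroup L) (f : α → L) (hM : ∀ a, ∀ m ∈ M, ⁅f a, m⁆ ∈ M)
    (h2 : ∀ a b, ⁅f a, f b⁆ ∈ M) (w : FreeMagma α) (hw : 2 ≤ w.length) : ev f w ∈ M := by
  induction w using FreeMagma.recOnMul with
  | ih1 a => simp at hw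
  | ih2 u v hu hv =>
    rw [ev_mul]
    by_cases h : 2 ≤ v.length
    · exact lie_ev_mem M f hM u _ (hv h)
    by_cases h' : 2 ≤ u.length
    · rw [← lie_skew]
      exact neg_mem (lie_ev_mem M f hM v _ (hu h'))
    obtain ⟨a, rfl⟩ := eq_of_of_length (w := u) (by omega)
    obtain ⟨b, rfl⟩ := eq_of_of_length (w := v) (by omega)
    exact h2 a b

theorem two_lie_mem (M : AddSubgroup L) {x y : L} (h : ⁅x, y⁆ ∈ M) (a b : Bool) :
    ⁅two x y a, two x y b⁆ ∈ M := by
  cases a <;> cases b
  · simp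
  · rw [two_true, two_false, ← lie_skew]; exact neg_mem h
  · exact h
  · simp

theorem ev_two_mem (M : AddSubgroup L) {x y : L} (hx : ∀ m ∈ M, ⁅x, m⁆ ∈ M)
    (hy : ∀ m ∈ M, ⁅y, m⁆ ∈ M) (h : ⁅x, y⁆ ∈ M) {w : FreeMagma Bool} (hw : 2 ≤ w.length) :
    ev (two x y) w ∈ M :=
  ev_mem_of_two_le M _ (fun a => by cases a; exacts [hy, hx]) (two_lie_mem M h) w hw

theorem ev_two_of_length_two (x y : L) {w : FreeMagma Bool} (hw : w.length = 2) :
    ev (two x y) w ∈ AddSubgroup.zmultiples ⁅x, y⁆ := by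
  induction w using FreeMagma.recOnMul with
  | ih1 a => simp at hw
  | ih2 u v _ _ =>
    have := u.length_pos
    have := v.length_pos
    rw [length_mul] at hw
    obtain ⟨a, rfl⟩ := eq_of_of_length (w := u) (by omega)
    obtain ⟨b, rfl⟩ := eq_of_of_length (w := v) (by omega)
    exact two_lie_mem _ (AddSubgroup.mem_zmultiples _) a b

/-- words of length `≥ 3` lie in every stable subgroup containing `[x,[x,y]]`, `[y,[x,y]]` -/
theorem ev_two_mem_three (M : AddSubgroup L) {x y : L} (hx : ∀ m ∈ M, ⁅x, m⁆ ∈ M)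
    (hy : ∀ m ∈ M, ⁅y, m⁆ ∈ M) (h1 : ⁅x, ⁅x, y⁆⁆ ∈ M) (h2 : ⁅y, ⁅x, y⁆⁆ ∈ M)
    {w : FreeMagma Bool} (hw : 3 ≤ w.length) : ev (two x y) w ∈ M := by
  have hM : ∀ a, ∀ m ∈ M, ⁅two x y a, m⁆ ∈ M := fun a => by cases a; exacts [hy, hx]
  have key : ∀ (a : Bool) (v : FreeMagma Bool), v.length = 2 → ⁅two x y a, ev (two x y) v⁆ ∈ M := by
    intro a v hv
    obtain ⟨n, hn⟩ := ev_two_of_length_two x y hv
    rw [← hn]
    change ⁅_, n • ⁅x, y⁆⁆ ∈ M
    rw [lie_zsmul]
    refine zsmul_mem ?_ n
    cases a; exacts [h2, h1]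
  induction w using FreeMagma.recOnMul with
  | ih1 a => simp at hw
  | ih2 u v hu hv =>
    rw [ev_mul]
    by_cases h : 3 ≤ v.length
    · exact lie_ev_mem M _ hM u _ (hv h)
    by_cases h' : 3 ≤ u.length
    · rw [← lie_skew]
      exact neg_mem (lie_ev_mem M _ hM v _ (hu h'))
    rw [length_mul] at hw
    by_cases hu1 : u.length ≤ 1
    · obtain ⟨a, rfl⟩ := eq_of_of_length hu1
      exact key a v (by simp at hw; omega)
    by_cases hv1 : v.length ≤ 1
    · obtain ⟨a, rfl⟩ := eq_of_of_length hv1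
      rw [← lie_skew]
      exact neg_mem (key a u (by omega))
    obtain ⟨n, hn⟩ := ev_two_of_length_two x y (w := u) (by omega)
    obtain ⟨m, hm⟩ := ev_two_of_length_two x y (w := v) (by omega)
    rw [← hn, ← hm]
    change ⁅n • ⁅x, y⁆, m • ⁅x, y⁆⁆ ∈ M
    rw [lie_zsmul, zsmul_lie, lie_self]
    simp

end Words

section Star

variable {L L' : Type*} [LieRing L] [LieAlgebra ℝ L] [LieRing L'] [LieAlgebra ℝ L'] (s : ℕ)

/-- naturality of `star` -/
theorem map_star (g : L →ₗ⁅ℝ⁆ L') (x y : L) : g (star s x y) = star s (g x) (g y) := by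
  simp only [star, map_add, map_sum, map_smul, map_ev g g.map_lie, map_two]

/-- filtration jumps: `x * y - x - y` lies in every submodule that contains `[x,y]` and is stable
under `ad x` and `ad y` -/
theorem star_sub_mem (M : Submodule ℝ L) {x y : L} (hx : ∀ m ∈ M, ⁅x, m⁆ ∈ M)
    (hy : ∀ m ∈ M, ⁅y, m⁆ ∈ M) (h : ⁅x, y⁆ ∈ M) : star s x y - (x + y) ∈ M := by
  rw [star, add_sub_cancel_left]
  exact M.sum_mem fun w hw =>
    M.smul_mem _ (ev_two_mem M.toAddSubgroup hx hy h (tail_length hw).1)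

theorem star_of_lie_eq_zero {x y : L} (h : ⁅x, y⁆ = 0) : star s x y = x + y := by
  have := star_sub_mem s ⊥ (x := x) (y := y) (by simp) (by simp) (by simp [h])
  rwa [Submodule.mem_bot, sub_eq_zero] at this

@[simp] theorem star_zero (x : L) : star s x 0 = x := by
  rw [star_of_lie_eq_zero s (lie_zero x), add_zero]

@[simp] theorem zero_star (x : L) : star s 0 x = x := by
  rw [star_of_lie_eq_zero s (zero_lie x), zero_add]

@[simp] theorem star_neg_self (x : L) : star s x (-x) = 0 := by
  rw [star_of_lie_eq_zero s (by simp), add_neg_cancel]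

@[simp] theorem neg_star_self (x : L) : star s (-x) x = 0 := by
  rw [star_of_lie_eq_zero s (by simp), neg_add_cancel]

theorem star_smul_smul (a b : ℝ) (x : L) : star s (a • x) (b • x) = (a + b) • x := by
  rw [star_of_lie_eq_zero s (by simp), add_smul]

theorem star_mem (H : LieSubalgebra ℝ L) {x y : L} (hx : x ∈ H) (hy : y ∈ H) :
    star s x y ∈ H := by
  have := star_sub_mem s H.toSubmodule (x := x) (y := y) (fun _ h => H.lie_mem hx h)
    (fun _ h => H.lie_mem hy h) (H.lie_mem hx hy)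
  simpa using add_mem this (add_mem hx hy)

/-- for an ideal `I` and `y ∈ I` : `x * y ≡ x` -/
theorem star_sub_mem_ideal_right (I : LieIdeal ℝ L) (x : L) {y : L} (hy : y ∈ I) :
    star s x y - x ∈ I := by
  have := star_sub_mem s I.toSubmodule (x := x) (y := y) (fun _ h => I.lie_mem h)
    (fun _ h => I.lie_mem h) (I.lie_mem hy)
  have h2 := add_mem this hy
  rwa [show star s x y - (x + y) + y = star s x y - x by abel] at h2

/-- for an ideal `I` and `x ∈ I` : `x * y ≡ y` -/
theorem star_sub_mem_ideal_left (I : LieIdeal ℝ L) {x : L} (hx : x ∈ I) (y : L) :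
    star s x y - y ∈ I := by
  have := star_sub_mem s I.toSubmodule (x := x) (y := y) (fun _ h => I.lie_mem h)
    (fun _ h => I.lie_mem h) (lie_mem_left ℝ L I x y hx)
  have h2 := add_mem this hx
  rwa [show star s x y - (x + y) + x = star s x y - y by abel] at h2

/-- multiplicative antitone filtrations: `x ∈ F i`, `y ∈ F j` give `x * y - x - y ∈ F (i+j)` -/
theorem star_sub_mem_filtration (F : ℕ → Submodule ℝ L) (hanti : Antitone F)
    (hF : ∀ i j a b, a ∈ F i → b ∈ F j → ⁅a, b⁆ ∈ F (i + j)) {i j : ℕ} {x y : L} (hx : x ∈ F i)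
    (hy : y ∈ F j) : star s x y - (x + y) ∈ F (i + j) :=
  star_sub_mem s _ (fun _ h => hanti (by omega) (hF _ _ _ _ hx h))
    (fun _ h => hanti (by omega) (hF _ _ _ _ hy h)) (hF _ _ _ _ hx hy)

end Star

end Crest.Agent.T49.Bch
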