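import Crest.Agent.T49.NilA_65
import Crest.Agent.T49.BchDef_16
import Crest.Agent.T49.GonSub_60
import Crest.Agent.T49.TorA_46

/-!
# Row 49 (helper65): nilmanifold data, functions on them, nilsequences, and the statement `LT`

The group of a datum `N : ND ι` is `N.L = ι → ℝ` with the product `star S`, the lattice is the set
of integer points `IsInt`, a polynomial sequence is `n ↦ N.evZ n P` with `P ∈ N.poly σ`.
-/

set_option autoImplicit false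

noncomputable section

namespace Crest.Agent.T49.Nil

open Finset ND
open Crest.Agent.T49.Bch (star)

variable {ι : Type} [Fintype ι]

namespace ND

variable {N : ND ι}

theorem nil {S : ℕ} (hS : ∀ k, N.wt k ≤ S) (A : Type) [CommRing A] [Algebra ℝ A] :
    Bch.Nil S (N.pts A) :=
  Bch.Nil.of_filtration (fun i => (N.FA A i : Set (N.pts A))) (fun _ _ _ _ ha hb => lie_mem_FA ha hb)
    mem_FA_one fun _ hi _ ha => eq_zero_of_mem_FA hS (FA_anti hi ha)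

/-- coordinates -/
def co (N : ND ι) : N.L ≃ₗ[ℝ] (ι → ℝ) where
  toFun x := x
  invFun x := x
  map_add' _ _ := rfl
  map_smul' _ _ := rfl
  left_inv _ := rfl
  right_inv _ := rfl

@[simp] theorem co_apply (x : N.L) (k : ι) : N.co x k = x k := rfl
@[simp] theorem co_symm_apply (x : ι → ℝ) (k : ι) : N.co.symm x k = x k := rfl

/-- the sup norm of the coordinates -/
instance : NormedAddCommGroup N.L := NormedAddCommGroup.induced N.L (ι → ℝ) N.co N.co.injective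
instance : NormedSpace ℝ N.L := NormedSpace.induced ℝ N.L (ι → ℝ) N.co

theorem norm_eq (x : N.L) : ‖x‖ = ‖N.co x‖ := rfl

theorem abs_apply_le (x : N.L) (k : ι) : |x k| ≤ ‖x‖ := norm_le_pi_norm (N.co x) k

theorem norm_le_iff {x : N.L} {r : ℝ} (hr : 0 ≤ r) : ‖x‖ ≤ r ↔ ∀ k, |x k| ≤ r :=
  pi_norm_le_iff_of_nonneg (x := N.co x) hr

/-- step `≤ S`, structure constants `≤ M`, and the integer points form a group -/
structure Good (N : ND ι) (S : ℕ) (M : ℝ) : Prop where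
  wt_le : ∀ k, N.wt k ≤ S
  c_le : ∀ i j k, |(N.c i j k : ℝ)| ≤ M
  lat : ∀ x y : N.L, IsInt x → IsInt y → IsInt (star S x y)

theorem Good.nil {S : ℕ} {M : ℝ} (h : N.Good S M) (A : Type) [CommRing A] [Algebra ℝ A] :
    Bch.Nil S (N.pts A) := ND.nil h.wt_le A

theorem Good.mono {S : ℕ} {M M' : ℝ} (h : N.Good S M) (hM : M ≤ M') : N.Good S M' :=
  ⟨h.wt_le, fun i j k => (h.c_le i j k).trans hM, h.lat⟩

/-- the integer functional `η` -/
def fn (N : ND ι) (η : ι → ℤ) : N.L →ₗ[ℝ] ℝ where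
  toFun x := Tor.dot η (N.co x)
  map_add' x y := by rw [map_add, Tor.dot_add]
  map_smul' r x := by simp [Tor.dot, mul_sum, mul_left_comm]

theorem fn_apply (η : ι → ℤ) (x : N.L) : N.fn η x = ∑ k, (η k : ℝ) * x k := rfl

/-- `U` is spanned by its integer vectors of sup norm `≤ H` (this is `Gon.IsRat`). -/
def RatS (N : ND ι) (H : ℝ) (U : Submodule ℝ N.L) : Prop := Gon.IsRat (ι := ι) H U

/-- `q • x` is an integer point (this is `Gon.IsDen`). -/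
def Den (N : ND ι) (q : ℕ) (x : N.L) : Prop := Gon.IsDen (ι := ι) q x

theorem den_iff {q : ℕ} {x : N.L} : N.Den q x ↔ ∀ k, ∃ z : ℤ, (q : ℝ) * x k = z :=
  Gon.IsDen.iff_coord

/-- all coefficients have denominator `q` -/
def RatP (N : ND ι) {σ : Type} (q : ℕ) (P : N.PS σ) : Prop := ∀ α, N.Den q (N.cv α P)

/-- smooth at scale `T`: the coefficient of `t^α` is at most `M T^(-|α|)` -/
def Sm (N : ND ι) {σ : Type} (T M : ℝ) (P : N.PS σ) : Prop :=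
  ∀ α : σ →₀ ℕ, ‖N.cv α P‖ * T ^ α.degree ≤ M

/-- a linear map with an integer matrix of height `≤ M` -/
def IntMap {ι' : Type} [Fintype ι'] (N : ND ι) (N' : ND ι') (M : ℝ) (f : N.L →ₗ[ℝ] N'.L) : Prop :=
  ∀ i k, ∃ z : ℤ, f (N.e i) k = z ∧ |(z : ℝ)| ≤ M

/-- a family `F (i+1) ≤ H i ≤ F i` closed under brackets (a graded subalgebra of the associated
graded algebra; `H 0 = ⊤`) -/
structure GrSub (N : ND ι) (H : ℕ → Submodule ℝ N.L) : Prop where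
  le : ∀ i, H i ≤ N.F i
  ge : ∀ i, N.F (i + 1) ≤ H i
  lie : ∀ i j, ∀ x ∈ H i, ∀ y ∈ H j, ⁅x, y⁆ ∈ H (i + j)

/-- `P = ε * h * γ` with `ε` smooth, `h` in `H`, `γ` rational with denominator `q` -/
def FactQ (N : ND ι) {σ : Type} (S : ℕ) (T M : ℝ) (q : ℕ) (H : ℕ → Submodule ℝ N.L)
    (P : N.PS σ) : Prop :=
  ∃ ε ∈ N.poly σ, ∃ h ∈ cf σ H, ∃ γ ∈ N.poly σ,
    N.Sm T M ε ∧ N.RatP q γ ∧ P = star S ε (star S h γ)

/-- `P = ε * h * γ` with `ε` smooth, `h` in `H`, `γ` rational -/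
def Fact (N : ND ι) {σ : Type} (S : ℕ) (T M : ℝ) (H : ℕ → Submodule ℝ N.L) (P : N.PS σ) : Prop :=
  ∃ q : ℕ, 1 ≤ q ∧ (q : ℝ) ≤ M ∧ N.FactQ S T M q H P

/-- bounded, right lattice periodic, Lipschitz for the right invariant metric -/
structure LipFn (N : ND ι) (S : ℕ) (M : ℝ) (F : N.L → ℂ) : Prop where
  bdd : ∀ x, ‖F x‖ ≤ 1
  per : ∀ x γ, IsInt γ → F (star S x γ) = F x
  lip : ∀ Z x, ‖F (star S Z x) - F x‖ ≤ M * ‖Z‖

/-- a function of degree `≤ s`: invariant under `exp (F (s+1))` -/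
structure NFn (N : ND ι) (S s : ℕ) (M : ℝ) (F : N.L → ℂ) : Prop extends N.LipFn S M F where
  inv : ∀ Z ∈ N.F (s + 1), ∀ x, F (star S Z x) = F x

/-- a function of degree `≤ s` with vertical frequency `η` -/
structure NChar (N : ND ι) (S s : ℕ) (M : ℝ) (η : ι → ℤ) (F : N.L → ℂ) : Prop
    extends N.LipFn S M F where
  supp : ∀ k, N.wt k ≠ s → η k = 0
  η_le : ∀ k, |(η k : ℝ)| ≤ M
  vert : ∀ Z ∈ N.F s, ∀ x, F (star S Z x) = Tor.e (N.fn η Z) * F x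

theorem fn_eq_zero {s : ℕ} {η : ι → ℤ} (h : ∀ k, N.wt k ≠ s → η k = 0) {Z : N.L}
    (hZ : Z ∈ N.F (s + 1)) : N.fn η Z = 0 := by
  rw [fn_apply]
  refine sum_eq_zero fun k _ => ?_
  by_cases hk : N.wt k = s
  · rw [hZ k (by omega), mul_zero]
  · simp [h k hk]

theorem LipFn.mono {S : ℕ} {M M' : ℝ} {F : N.L → ℂ} (h : N.LipFn S M F) (hM : M ≤ M') :
    N.LipFn S M' F :=
  ⟨h.bdd, h.per, fun Z x => (h.lip Z x).trans (mul_le_mul_of_nonneg_right hM (norm_nonneg _))⟩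

theorem NFn.mono {S s : ℕ} {M M' : ℝ} {F : N.L → ℂ} (h : N.NFn S s M F) (hM : M ≤ M') :
    N.NFn S s M' F := ⟨h.toLipFn.mono hM, h.inv⟩

theorem NChar.mono {S s : ℕ} {M M' : ℝ} {η : ι → ℤ} {F : N.L → ℂ} (h : N.NChar S s M η F)
    (hM : M ≤ M') : N.NChar S s M' η F :=
  ⟨h.toLipFn.mono hM, h.supp, fun k => (h.η_le k).trans hM, h.vert⟩

theorem NChar.nfn {S s : ℕ} {M : ℝ} {η : ι → ℤ} {F : N.L → ℂ} (h : N.NChar S s M η F) :
    N.NFn S s M F :=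
  ⟨h.toLipFn, fun Z hZ x => by
    rw [h.vert Z (FA_anti (Nat.le_succ s) hZ), fn_eq_zero h.supp hZ]; simp⟩

theorem LipFn.nfn {S : ℕ} {M : ℝ} {F : N.L → ℂ} (h : N.LipFn S M F) (hS : ∀ k, N.wt k ≤ S) :
    N.NFn S S M F :=
  ⟨h, fun Z hZ x => by
    rw [eq_zero_of_mem_FA hS hZ, Bch.star_of_lie_eq_zero S (by simp), zero_add]⟩

theorem Sm.mono {σ : Type} {T M M' : ℝ} {P : N.PS σ} (h : N.Sm T M P) (hM : M ≤ M') :
    N.Sm T M' P := fun α => (h α).trans hM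

theorem RatP.of_dvd {σ : Type} {q q' : ℕ} {P : N.PS σ} (h : N.RatP q P) (hq : q ∣ q') :
    N.RatP q' P := fun α => Gon.IsDen.of_dvd (h α) hq

theorem RatS.mono {H H' : ℝ} {U : Submodule ℝ N.L} (h : N.RatS H U) (hH : H ≤ H') :
    N.RatS H' U := Gon.IsRat.mono h hH

theorem FactQ.mono {σ : Type} {S : ℕ} {T M M' : ℝ} {q q' : ℕ} {H : ℕ → Submodule ℝ N.L}
    {P : N.PS σ} (h : N.FactQ S T M q H P) (hM : M ≤ M') (hq : q ∣ q') : N.FactQ S T M' q' H P := by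
  obtain ⟨ε, h1, g, h2, γ, h3, h4, h5, h6⟩ := h
  exact ⟨ε, h1, g, h2, γ, h3, h4.mono hM, h5.of_dvd hq, h6⟩

theorem Fact.mono {σ : Type} {S : ℕ} {T M M' : ℝ} {H : ℕ → Submodule ℝ N.L}
    {P : N.PS σ} (h : N.Fact S T M H P) (hM : M ≤ M') : N.Fact S T M' H P := by
  obtain ⟨q, h1, h2, h3⟩ := h
  exact ⟨q, h1, h2.trans hM, h3.mono hM dvd_rfl⟩

theorem GrSub.zero {H : ℕ → Submodule ℝ N.L} (h : N.GrSub H) (x : N.L) : x ∈ H 0 :=
  h.ge 0 (mem_FA_one x)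

theorem GrSub.anti {H : ℕ → Submodule ℝ N.L} (h : N.GrSub H) : Antitone H :=
  antitone_nat_of_succ_le fun i => (h.le (i + 1)).trans (h.ge i)

theorem grSub_F : N.GrSub N.F :=
  ⟨fun _ => le_rfl, fun i => FA_anti (Nat.le_succ i), fun _ _ _ hx _ hy => lie_mem_FA hx hy⟩

theorem grSub_succ : N.GrSub fun i => N.F (i + 1) :=
  ⟨fun i => FA_anti (Nat.le_succ i), fun _ => le_rfl,
    fun _ _ _ hx _ hy => FA_anti (by omega) (lie_mem_FA hx hy)⟩

end ND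

/-- nilsequences of degree `≤ s` and complexity `≤ m` on `ℤ^σ` -/
def IsNil {σ : Type} (s : ℕ) (m : ℝ) (f : (σ → ℤ) → ℂ) : Prop :=
  ∃ (ι : Type) (_ : Fintype ι) (N : ND ι) (F : N.L → ℂ) (P : N.PS σ),
    (Fintype.card ι : ℝ) ≤ m ∧ N.Good s (Real.exp m) ∧ N.LipFn s (Real.exp m) F ∧
      P ∈ N.poly σ ∧ ∀ n, f n = F (N.evZ n P)

/-- nilsequences on `ℤ` -/
def IsNil1 (s : ℕ) (m : ℝ) (f : ℤ → ℂ) : Prop := IsNil s m fun n : Unit → ℤ => f (n ())

/-- the box `∏ [lo v, hi v]` -/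
def ibox {σ : Type} [Fintype σ] [DecidableEq σ] (lo hi : σ → ℤ) : Finset (σ → ℤ) :=
  Fintype.piFinset fun v => Icc (lo v) (hi v)

theorem mem_ibox {σ : Type} [Fintype σ] [DecidableEq σ] {lo hi n : σ → ℤ} :
    n ∈ ibox lo hi ↔ ∀ v, lo v ≤ n v ∧ n v ≤ hi v := by
  simp [ibox]

/-- **Efficient equidistribution** (the form of Leng's theorem used in this project): a nilcharacter
of degree `s` that is biased along `P` on a box inside `[-T,T]^σ` forces a factorisation of `P`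
through a rational graded subalgebra whose degree `s` part is killed by the frequency. -/
def LT (S s D : ℕ) : Prop :=
  ∃ C : ℕ, ∀ (m : ℝ), 2 ≤ m → ∀ (ι σ : Type) [Fintype ι] [Fintype σ] [DecidableEq σ]
    (N : ND ι) (η : ι → ℤ) (F : N.L → ℂ) (P : N.PS σ) (T : ℝ) (lo hi : σ → ℤ),
    Fintype.card σ ≤ D → (Fintype.card ι : ℝ) ≤ m → N.Good S (Real.exp m) →
    N.NChar S s (Real.exp m) η F → P ∈ N.poly σ → Real.exp (m ^ C) ≤ T →
    (∀ v, |(lo v : ℝ)| ≤ T ∧ |(hi v : ℝ)| ≤ T) →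
    Real.exp (-m) * T ^ Fintype.card σ ≤ ‖∑ n ∈ ibox lo hi, F (N.evZ n P)‖ →
    ∃ H : ℕ → Submodule ℝ N.L, N.GrSub H ∧ (∀ i, N.RatS (Real.exp (m ^ C)) (H i)) ∧
      (∀ x ∈ H s, N.fn η x = 0) ∧ N.Fact S T (Real.exp (m ^ C)) H P

/-- the theorem to be proved by block (A) -/
def LTStmt : Prop := ∀ S s D, 1 ≤ s → LT S s D

end Crest.Agent.T49.Nil
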