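import Crest.Agent.T49.WinCube_56
import Crest.Agent.T49.NilDef_65

/-!
Row 49 (helper56).  Boxes `ibox lo hi` inside `[-T,T]^σ`: small sub-boxes keep bias, linear phases.
-/

set_option autoImplicit false
set_option linter.unusedSectionVars false

noncomputable section

namespace Crest.Agent.T49.Win
open Finset Tor Nil

variable {σ : Type} [Fintype σ] [DecidableEq σ]

theorem card_ibox_le {lo hi : σ → ℤ} {R : ℝ} (hR : 0 ≤ R) (h : ∀ v, (hi v : ℝ) + 1 - lo v ≤ R) :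
    (#(ibox lo hi) : ℝ) ≤ R ^ Fintype.card σ := by
  rw [ibox, Fintype.card_piFinset, Nat.cast_prod, ← card_univ, ← prod_const]
  refine prod_le_prod (fun _ _ => Nat.cast_nonneg _) fun v _ => ?_
  rw [Int.card_Icc]
  rcases le_total 0 (hi v + 1 - lo v) with h0 | h0
  · have : (((hi v + 1 - lo v).toNat : ℤ) : ℝ) = ((hi v + 1 - lo v : ℤ) : ℝ) := by
      rw [Int.toNat_of_nonneg h0]
    push_cast at this
    rw [this]; exact h v
  · rw [Int.toNat_of_nonpos h0]; simpa using hR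

theorem card_ibox_le_T {lo hi : σ → ℤ} {T : ℝ} (hT : 1 ≤ T)
    (h : ∀ v, |(lo v : ℝ)| ≤ T ∧ |(hi v : ℝ)| ≤ T) : (#(ibox lo hi) : ℝ) ≤ (3 * T) ^ Fintype.card σ :=
  card_ibox_le (by positivity) fun v => by
    have h1 := abs_le.1 (h v).1
    have h2 := abs_le.1 (h v).2
    linarith

theorem abs_le_of_mem_ibox {lo hi y : σ → ℤ} {T : ℝ} (h : ∀ v, |(lo v : ℝ)| ≤ T ∧ |(hi v : ℝ)| ≤ T)
    (hy : y ∈ ibox lo hi) (v : σ) : |(y v : ℝ)| ≤ T := by
  have h1 := abs_le.1 (h v).1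
  have h2 := abs_le.1 (h v).2
  have h3 : (lo v : ℝ) ≤ y v := by exact_mod_cast (mem_ibox.1 hy v).1
  have h4 : (y v : ℝ) ≤ hi v := by exact_mod_cast (mem_ibox.1 hy v).2
  rw [abs_le]; constructor <;> linarith

/-- bias on a box passes to a sub-box of diameter `< n` -/
theorem exists_subbox {lo hi : σ → ℤ} {T : ℝ} (hT : 1 ≤ T)
    (h : ∀ v, |(lo v : ℝ)| ≤ T ∧ |(hi v : ℝ)| ≤ T) {Φ : (σ → ℤ) → ℂ} (hΦ : ∀ y, ‖Φ y‖ ≤ 1) {δ : ℝ}
    (hδ0 : 0 < δ) (hδ : δ * T ^ Fintype.card σ ≤ ‖∑ y ∈ ibox lo hi, Φ y‖) (n : ℕ) (hn0 : 0 < n)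
    (hn : 4 * (Fintype.card σ * n : ℝ) ≤ δ / 3 ^ Fintype.card σ * T) :
    ∃ lo' hi' : σ → ℤ, (∀ v, |(lo' v : ℝ)| ≤ T ∧ |(hi' v : ℝ)| ≤ T) ∧ (∀ v, hi' v + 1 - lo' v ≤ n) ∧
      δ / 3 ^ Fintype.card σ / 2 * (n : ℝ) ^ Fintype.card σ ≤ ‖∑ y ∈ ibox lo' hi', Φ y‖ := by
  set K : ℕ := ⌊T⌋₊ with hK
  have hK1 : (K : ℝ) ≤ T := Nat.floor_le (by linarith)
  have hK2 : T < K + 1 := Nat.lt_floor_add_one T
  have hK3 : (1 : ℝ) ≤ K := by exact_mod_cast (Nat.one_le_floor_iff T).2 hT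
  let Φ' : (σ → ℤ) → ℂ := fun y => if y ∈ ibox lo hi then Φ y else 0
  have hΦ' : ∀ y, ‖Φ' y‖ ≤ 1 := fun y => by
    simp only [Φ']; split_ifs
    · exact hΦ y
    · simp
  have hsub : ibox lo hi ⊆ cb (fun _ => -(K : ℤ)) (2 * K + 1) := fun y hy => by
    refine mem_cb.2 fun v => ?_
    have h1 := abs_le.1 (abs_le_of_mem_ibox h hy v)
    have h2 : (-(K : ℝ) - 1) < y v := by linarith
    have h3 : (y v : ℝ) < K + 1 := by linarith
    have h4 : (-(K : ℤ) - 1) < y v := by exact_mod_cast h2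
    have h5 : y v < (K : ℤ) + 1 := by exact_mod_cast h3
    push_cast; omega
  have hs : ∑ y ∈ cb (fun _ => -(K : ℤ)) (2 * K + 1), Φ' y = ∑ y ∈ ibox lo hi, Φ y := by
    simp only [Φ']
    rw [← sum_filter, filter_mem_eq_inter, inter_eq_right.2 hsub]
  have h3 : (0 : ℝ) < 3 ^ Fintype.card σ := by positivity
  obtain ⟨x, -, hx⟩ := exists_subcube (fun _ : σ => -(K : ℤ)) (n := 2 * K + 1) (by omega) n hΦ'
    (δ := δ / 3 ^ Fintype.card σ) (by
      rw [hs]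
      refine le_trans ?_ hδ
      have : ((2 * K + 1 : ℕ) : ℝ) ^ Fintype.card σ ≤ (3 * T) ^ Fintype.card σ :=
        pow_le_pow_left₀ (by positivity) (by push_cast; linarith) _
      calc _ ≤ δ / 3 ^ Fintype.card σ * (3 * T) ^ Fintype.card σ :=
            mul_le_mul_of_nonneg_left this (by positivity)
        _ = _ := by rw [mul_pow]; field_simp)
    (hn.trans (mul_le_mul_of_nonneg_left (by push_cast; linarith) (by positivity)))
  have he : ∑ y ∈ cb x n, Φ' y =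
      ∑ y ∈ ibox (fun v => max (lo v) (x v)) (fun v => min (hi v) (x v + n - 1)), Φ y := by
    simp only [Φ']
    rw [← sum_filter]
    refine sum_congr ?_ fun _ _ => rfl
    ext y
    simp only [mem_filter, mem_cb, mem_ibox, ← forall_and]
    exact forall_congr' fun v => by omega
  rw [he] at hx
  have hne : (ibox (fun v => max (lo v) (x v)) (fun v => min (hi v) (x v + n - 1))).Nonempty := by
    rw [nonempty_iff_ne_empty]
    intro h0
    rw [h0, sum_empty, norm_zero] at hx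
    have : (0 : ℝ) < δ / 3 ^ Fintype.card σ / 2 * (n : ℝ) ^ Fintype.card σ := by positivity
    linarith
  obtain ⟨y, hy⟩ := hne
  refine ⟨_, _, fun v => ?_, fun v => by omega, hx⟩
  have h1 := abs_le.1 (h v).1
  have h2 := abs_le.1 (h v).2
  have h4 := mem_ibox.1 hy v
  have a1 : (lo v : ℝ) ≤ (max (lo v) (x v) : ℤ) := by exact_mod_cast le_max_left _ _
  have a2 : ((min (hi v) (x v + n - 1) : ℤ) : ℝ) ≤ hi v := by exact_mod_cast min_le_left _ _
  have a3 : ((max (lo v) (x v) : ℤ) : ℝ) ≤ (min (hi v) (x v + n - 1) : ℤ) := by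
    exact_mod_cast h4.1.trans h4.2
  constructor <;> rw [abs_le] <;> constructor <;> linarith

theorem norm_sum_Icc_mul_nz (a b : ℤ) (u : ℝ) : ‖∑ n ∈ Icc a b, e (n * u)‖ * (2 * nz u) ≤ 1 := by
  rcases lt_or_ge b a with h | h
  · rw [Icc_eq_empty_of_lt h]; simp
  obtain ⟨N, hN⟩ := Int.eq_ofNat_of_zero_le (show 0 ≤ b + 1 - a by omega)
  have h1 : ∑ n ∈ Icc a b, e (n * u) = e (a * u) * ∑ n ∈ Ico (0 : ℤ) N, e (n * u) := by
    rw [mul_sum]
    symm
    refine sum_bij (fun t _ => a + t) (fun t ht => ?_) (fun _ _ _ _ h => add_left_cancel h)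
      (fun y hy => ⟨y - a, ?_, by simp⟩) fun t _ => ?_
    · simp only [mem_Ico, mem_Icc] at ht ⊢; omega
    · simp only [mem_Ico, mem_Icc] at hy ⊢; omega
    · rw [← e_add]; push_cast; ring_nf
  have h2 := congrArg norm (geom_e N u)
  rw [norm_mul] at h2
  have h6 : ‖e (N * u) - 1‖ ≤ 2 := (norm_sub_le _ _).trans (by rw [norm_e, norm_one]; norm_num)
  rw [h1, norm_mul, norm_e, one_mul]
  have h7 := mul_le_mul_of_nonneg_left (four_nz_le u) (norm_nonneg (∑ n ∈ Ico (0 : ℤ) N, e (n * u)))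
  linarith

/-- a biased linear phase on a box inside `[-T,T]^σ` has small frequencies -/
theorem nz_le_of_ibox {lo hi : σ → ℤ} {T : ℝ} (hT : 1 ≤ T)
    (h : ∀ v, |(lo v : ℝ)| ≤ T ∧ |(hi v : ℝ)| ≤ T) (θ : σ → ℝ) {δ : ℝ}
    (hδ : δ * T ^ Fintype.card σ ≤ ‖∑ y ∈ ibox lo hi, e (dot y θ)‖) (i : σ) :
    δ * T * nz (θ i) ≤ 3 ^ Fintype.card σ := by
  have h1 : ∑ y ∈ ibox lo hi, e (dot y θ) = ∏ v, ∑ n ∈ Icc (lo v) (hi v), e (n * θ v) := by
    rw [prod_univ_sum]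
    simp only [ibox, dot, e_sum]
  have h2 : ∀ v, ‖∑ n ∈ Icc (lo v) (hi v), e (n * θ v)‖ ≤ 3 * T := fun v => by
    refine (norm_sum_le _ _).trans ?_
    simp only [norm_e, sum_const, nsmul_eq_mul, mul_one]
    have := card_ibox_le_T (σ := Unit) (lo := fun _ => lo v) (hi := fun _ => hi v) hT fun _ => h v
    simpa [ibox, Fintype.card_piFinset] using this
  obtain ⟨d, hd⟩ : ∃ d, Fintype.card σ = d + 1 := ⟨_, (Nat.succ_pred_eq_of_pos
    (Fintype.card_pos_iff.2 ⟨i⟩)).symm⟩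
  have h3 : ‖∏ v ∈ univ.erase i, ∑ n ∈ Icc (lo v) (hi v), e (n * θ v)‖ ≤ (3 * T) ^ d := by
    rw [norm_prod]
    refine (prod_le_prod (fun _ _ => norm_nonneg _) fun v _ => h2 v).trans (le_of_eq ?_)
    rw [prod_const, card_erase_of_mem (mem_univ i), card_univ, hd, Nat.add_sub_cancel]
  rw [h1, ← mul_prod_erase _ _ (mem_univ i), norm_mul, hd] at hδ
  have h4 := norm_sum_Icc_mul_nz (lo i) (hi i) (θ i)
  have h5 := nz_nonneg (θ i)
  have hp : (0 : ℝ) < T ^ d := by positivity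
  have h6 : δ * T ^ (d + 1) * nz (θ i) ≤ (3 * T) ^ d :=
    calc _ ≤ ‖∑ n ∈ Icc (lo i) (hi i), e (n * θ i)‖ * (3 * T) ^ d * nz (θ i) :=
          mul_le_mul_of_nonneg_right
            (hδ.trans (mul_le_mul_of_nonneg_left h3 (norm_nonneg _))) h5
      _ = (‖∑ n ∈ Icc (lo i) (hi i), e (n * θ i)‖ * (2 * nz (θ i))) * ((3 * T) ^ d / 2) := by ring
      _ ≤ 1 * ((3 * T) ^ d / 2) := mul_le_mul_of_nonneg_right h4 (by positivity)
      _ ≤ _ := by have : (0 : ℝ) ≤ (3 * T) ^ d := by positivity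
                  linarith
  rw [hd]
  have h7 : δ * T * nz (θ i) * T ^ d ≤ 3 ^ (d + 1) * T ^ d := by
    rw [mul_pow] at h6
    have : (0 : ℝ) ≤ 3 ^ d * T ^ d := by positivity
    calc _ = δ * T ^ (d + 1) * nz (θ i) := by ring
      _ ≤ 3 ^ d * T ^ d := h6
      _ ≤ _ := by rw [pow_succ]; nlinarith
  exact le_of_mul_le_mul_right h7 hp

end Crest.Agent.T49.Win
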