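import Crest.Agent.T49.WinSub_56
import Crest.Agent.T49.WinBox_56
import Crest.Agent.T49.NilFn_73
import Crest.Agent.T49.NilCls_67

/-!
Row 49 (helper56).  A linear phase that correlates with a nilsequence is almost constant on pairs
of close points of the orbit.
-/

set_option autoImplicit false
set_option linter.unusedSectionVars false

noncomputable section

namespace Crest.Agent.T49.Win
open Finset Nil Nil.ND Tor GI
open Crest.Agent.T49.Bch (star)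
open Real (exp)

variable {ι σ : Type} [Fintype ι] [Fintype σ] {N : ND ι}

/-- the phase `θ` is almost constant on pairs of close points -/
def Out (N : ND ι) (S : ℕ) (T : ℝ) (P : N.PS σ) (θ : σ → ℝ) (a b : ℝ) : Prop :=
  ∃ q : ℕ, 1 ≤ q ∧ (q : ℝ) ≤ exp a ∧ ∀ y y' : σ → ℤ, (∀ v, |(y v : ℝ)| ≤ T) →
    (∀ v, |(y' v : ℝ)| ≤ T) → (∀ v, |(y v : ℝ) - y' v| ≤ exp (-a) * T) →
    (∀ v, (q : ℤ) ∣ y v - y' v) → Close N S (exp (-a)) q (N.evZ y P) (N.evZ y' P) →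
    ‖e (dot y θ) - e (dot y' θ)‖ ≤ exp (-b)

theorem Out.mono {S : ℕ} {T : ℝ} {P : N.PS σ} {θ : σ → ℝ} {a b a' b' : ℝ} (h : Out N S T P θ a b)
    (hT : 0 ≤ T) (ha : a ≤ a') (hb : b' ≤ b) : Out N S T P θ a' b' := by
  obtain ⟨q, h1, h2, h3⟩ := h
  have h4 : exp (-a') ≤ exp (-a) := Real.exp_le_exp.2 (by linarith)
  exact ⟨q, h1, h2.trans (Real.exp_le_exp.2 ha), fun y y' c1 c2 c3 c4 c5 =>
    (h3 y y' c1 c2 (fun v => (c3 v).trans (mul_le_mul_of_nonneg_right h4 hT)) c4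
      (c5.mono h4 dvd_rfl)).trans (Real.exp_le_exp.2 (by linarith))⟩

/-- the statement for functions of degree `≤ s` -/
def N2 (S s D : ℕ) : Prop :=
  ∃ C : ℕ, ∀ (m : ℝ), 2 ≤ m → ∀ (ι σ : Type) [Fintype ι] [Fintype σ] [DecidableEq σ] (N : ND ι)
    (F : N.L → ℂ) (P : N.PS σ) (T : ℝ) (lo hi : σ → ℤ) (θ : σ → ℝ), Fintype.card σ ≤ D →
    (Fintype.card ι : ℝ) ≤ m → N.Good S (exp m) → N.NFn S s (exp m) F → P ∈ N.poly σ →
    exp (m ^ C) ≤ T → (∀ v, |(lo v : ℝ)| ≤ T ∧ |(hi v : ℝ)| ≤ T) →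
    exp (-m) * T ^ Fintype.card σ ≤ ‖∑ y ∈ ibox lo hi, F (N.evZ y P) * e (dot y θ)‖ →
    Out N S T P θ (m ^ C) m

/-- the statement for nilcharacters -/
def N2c (S s D : ℕ) : Prop :=
  ∃ C : ℕ, ∀ (m : ℝ), 2 ≤ m → ∀ (ι σ : Type) [Fintype ι] [Fintype σ] [DecidableEq σ] (N : ND ι)
    (η : ι → ℤ) (F : N.L → ℂ) (P : N.PS σ) (T : ℝ) (lo hi : σ → ℤ) (θ : σ → ℝ),
    Fintype.card σ ≤ D →
    (Fintype.card ι : ℝ) ≤ m → N.Good S (exp m) → N.NChar S s (exp m) η F → P ∈ N.poly σ →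
    exp (m ^ C) ≤ T → (∀ v, |(lo v : ℝ)| ≤ T ∧ |(hi v : ℝ)| ≤ T) →
    exp (-m) * T ^ Fintype.card σ ≤ ‖∑ y ∈ ibox lo hi, F (N.evZ y P) * e (dot y θ)‖ →
    Out N S T P θ (m ^ C) m

/-- vertical expansion with weights -/
theorem exists_char (D : ℕ) : ∃ C : ℕ, ∀ (m : ℝ), 2 ≤ m → ∀ (ι σ : Type) [Fintype ι] [Fintype σ]
    [DecidableEq σ] (N : ND ι) (S s : ℕ) (F : N.L → ℂ) (x : (σ → ℤ) → N.L) (w : (σ → ℤ) → ℂ) (T : ℝ)
    (lo hi : σ → ℤ), Fintype.card σ ≤ D → (Fintype.card ι : ℝ) ≤ m → (∀ k, N.wt k ≤ S) →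
    N.NFn S s (exp m) F → (∀ y, ‖w y‖ ≤ 1) → 1 ≤ T → (∀ v, |(lo v : ℝ)| ≤ T ∧ |(hi v : ℝ)| ≤ T) →
    exp (-m) * T ^ Fintype.card σ ≤ ‖∑ y ∈ ibox lo hi, F (x y) * w y‖ →
    m ≤ m ^ C ∧ ∃ η G, N.NChar S s (exp (m ^ C)) η G ∧
      exp (-m ^ C) * T ^ Fintype.card σ ≤ ‖∑ y ∈ ibox lo hi, G (x y) * w y‖ := by
  obtain ⟨C, hC⟩ : ∃ C : ℕ, ∀ m : ℝ, 2 ≤ m → m ≤ m ^ C ∧ 7 * (m + 2 * D) ≤ m ^ C ∧
      exp (-m ^ C) ≤ exp (-m) / 4 / exp ((m + 2 * D) ^ 5) := by qp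
  refine ⟨C, fun m hm ι σ _ _ _ N S s F x w T lo hi hD hι hS hF hw hT hb h => ?_⟩
  obtain ⟨b1, b2, b3⟩ := hC m hm
  have hD0 : (0 : ℝ) ≤ D := Nat.cast_nonneg _
  obtain ⟨n, η, G, hn, hG, hap⟩ := NFn.expand_exp (m := m + 2 * D) (by linarith) (by linarith) hS
    (hF.mono (Real.exp_le_exp.2 (by linarith)))
  refine ⟨b1, ?_⟩
  by_contra hc
  push Not at hc
  have hTp : 0 < T ^ Fintype.card σ := by positivity
  have h1 : ‖∑ y ∈ ibox lo hi, (F (x y) - ∑ j, G j (x y)) * w y‖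
      ≤ exp (-m) / 2 * T ^ Fintype.card σ := by
    refine (norm_sum_le_of_le _ (n := fun _ => exp (-(m + 2 * D)) / 2) fun y _ => ?_).trans ?_
    · rw [norm_mul]
      exact (mul_le_of_le_one_right (norm_nonneg _) (hw y)).trans (hap _)
    · rw [sum_const, nsmul_eq_mul]
      refine (mul_le_mul_of_nonneg_right (card_ibox_le_T hT hb) (by positivity)).trans ?_
      have h3 : (3 : ℝ) ^ Fintype.card σ ≤ exp (2 * D) := by
        rw [mul_comm, Real.exp_nat_mul]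
        refine (pow_le_pow_right₀ (by norm_num) hD).trans (pow_le_pow_left₀ (by norm_num) ?_ _)
        linarith [Real.add_one_le_exp 2]
      have h4 : exp (-m) = exp (2 * D) * exp (-(m + 2 * D)) := by rw [← Real.exp_add]; ring_nf
      rw [mul_pow, h4]
      calc _ ≤ exp (2 * D) * T ^ Fintype.card σ * (exp (-(m + 2 * D)) / 2) := by gcongr
        _ = _ := by ring
  have h2 : ‖∑ y ∈ ibox lo hi, (∑ j, G j (x y)) * w y‖
      ≤ n * (exp (-m ^ C) * T ^ Fintype.card σ) := by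
    simp only [sum_mul]
    rw [sum_comm]
    refine (norm_sum_le_of_le _ (n := fun _ => exp (-m ^ C) * T ^ Fintype.card σ)
      fun j _ => (hc _ _ ((hG j).mono (Real.exp_le_exp.2 b2))).le).trans (by simp)
  have h3 : ∑ y ∈ ibox lo hi, F (x y) * w y = ∑ y ∈ ibox lo hi, (F (x y) - ∑ j, G j (x y)) * w y
      + ∑ y ∈ ibox lo hi, (∑ j, G j (x y)) * w y := by
    rw [← sum_add_distrib]; exact sum_congr rfl fun _ _ => by ring
  have h4 := norm_add_le (∑ y ∈ ibox lo hi, (F (x y) - ∑ j, G j (x y)) * w y)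
    (∑ y ∈ ibox lo hi, (∑ j, G j (x y)) * w y)
  rw [← h3] at h4
  have h6 : (n : ℝ) * exp (-m ^ C) ≤ exp (-m) / 4 := by
    refine (mul_le_mul hn b3 (by positivity) (by positivity)).trans (le_of_eq ?_)
    field_simp
  have h7 := mul_le_mul_of_nonneg_right h6 hTp.le
  rw [mul_assoc] at h7
  have : 0 < exp (-m) * T ^ Fintype.card σ := by positivity
  linarith

theorem n2_of_n2c {S s D : ℕ} (h : N2c S s D) : N2 S s D := by
  obtain ⟨C1, h1⟩ := exists_char D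
  obtain ⟨C2, h2⟩ := h
  refine ⟨C1 * C2, fun m hm ι σ _ _ _ N F P T lo hi θ hD hι hG hF hP hT hb h => ?_⟩
  have hT1 : 1 ≤ T := (Real.one_le_exp (by positivity)).trans hT
  obtain ⟨b, η, G, h3, h4⟩ := h1 m hm ι σ N S s F (fun y => N.evZ y P) (fun y => e (dot y θ)) T lo hi
    hD hι hG.wt_le hF (fun _ => by simp) hT1 hb h
  rw [pow_mul] at hT ⊢
  exact (h2 (m ^ C1) (hm.trans b) ι σ N η G P T lo hi θ hD (hι.trans b)
    (hG.mono (Real.exp_le_exp.2 b)) h3 hP hT hb h4).mono (by linarith) le_rfl b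

theorem fn_star_one {η : ι → ℤ} (h : ∀ k, N.wt k ≠ 1 → η k = 0) (S : ℕ) (x y : N.L) :
    N.fn η (star S x y) = N.fn η x + N.fn η y := by
  rw [← map_add, ← sub_eq_zero, ← map_sub]
  exact fn_eq_zero h (star_sub_add_left S (mem_FA_one x) y)

theorem eq_affine [DecidableEq σ] {p : MvPolynomial σ ℝ} (hp : ∀ α : σ →₀ ℕ, 1 < α.degree → p.coeff α = 0) :
    p = MvPolynomial.C (p.coeff 0) +
      ∑ v, MvPolynomial.C (p.coeff (Finsupp.single v 1)) * MvPolynomial.X v := by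
  ext α
  simp only [MvPolynomial.coeff_add, MvPolynomial.coeff_C, MvPolynomial.coeff_sum,
    MvPolynomial.coeff_C_mul, MvPolynomial.coeff_X, mul_ite, mul_one, mul_zero]
  rcases Nat.lt_trichotomy α.degree 1 with h | h | h
  · obtain rfl : α = 0 := (Finsupp.degree_eq_zero_iff α).1 (by omega)
    simp
  · obtain ⟨v, rfl⟩ : ∃ v, Finsupp.single v 1 = α := by
      have : α ∈ Set.range fun a : σ => Finsupp.single a 1 := by
        rw [Finsupp.range_single_one]; exact h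
      exact this
    rw [if_neg (Finsupp.single_ne_zero.2 one_ne_zero).symm, zero_add, sum_eq_single v, if_pos rfl]
    · exact fun b _ hb => if_neg fun e => hb (Finsupp.single_left_injective one_ne_zero e)
    · simp
  · rw [hp α h, if_neg (by rintro rfl; simp at h), zero_add]
    exact (sum_eq_zero fun v _ => if_neg (by rintro rfl; simp at h)).symm

theorem fn_evZ_affine {η : ι → ℤ} (h : ∀ k, N.wt k ≠ 1 → η k = 0) {P : N.PS σ} (hP : P ∈ N.poly σ) :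
    ∃ (a : σ → ℝ) (c : ℝ), ∀ y, N.fn η (N.evZ y P) = dot y a + c := by
  classical
  let p : MvPolynomial σ ℝ := ∑ k, (η k : ℝ) • P k
  have hp : ∀ α : σ →₀ ℕ, 1 < α.degree → p.coeff α = 0 := fun α hα => by
    have := fn_eq_zero h (FA_anti hα (hP α))
    rw [fn_apply] at this
    simpa [p, MvPolynomial.coeff_sum] using this
  refine ⟨fun v => p.coeff (Finsupp.single v 1), p.coeff 0, fun y => ?_⟩
  have h1 : N.fn η (N.evZ y P) = MvPolynomial.aeval (fun v => (y v : ℝ)) p := by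
    simp only [p, map_sum, map_smul, fn_apply]; rfl
  rw [h1]
  conv_lhs => rw [eq_affine hp]
  simp [dot, add_comm, mul_comm]

theorem nz_dot_le (y : σ → ℤ) (θ : σ → ℝ) : nz (dot y θ) ≤ ∑ v, |(y v : ℝ)| * nz (θ v) :=
  (nz_sum_le _ _).trans (sum_le_sum fun _ _ => nz_int_mul_le _ _)

theorem n2c_one (S D : ℕ) : N2c S 1 D := by
  obtain ⟨C, hC⟩ : ∃ C : ℕ, ∀ (m : ℝ) (d k : ℕ), 2 ≤ m → d ≤ D → (k : ℝ) ≤ m →
      7 * (d * (3 ^ d * exp m) + k * exp m) * exp (-m ^ C) ≤ exp (-m) := by qp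
  refine ⟨C, fun m hm ι σ _ _ _ N η F P T lo hi θ hD hι hG hF hP hT hb h => ⟨1, le_rfl, ?_, ?_⟩⟩
  · simpa using (by positivity : 0 ≤ m ^ C)
  have := hG.nil ℝ
  have hT1 : 1 ≤ T := (Real.one_le_exp (by positivity)).trans hT
  obtain ⟨a, c, hac⟩ := fn_evZ_affine hF.supp hP
  have h1 : ∀ x, F x = e (N.fn η x) * F 0 := fun x => by
    rw [← hF.vert x (mem_FA_one x), Bch.star_zero]
  have h2 : ∑ y ∈ ibox lo hi, F (N.evZ y P) * e (dot y θ)
      = (e c * F 0) * ∑ y ∈ ibox lo hi, e (dot y (a + θ)) := by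
    rw [mul_sum]
    exact sum_congr rfl fun y _ => by rw [h1, hac, dot_add, e_add, e_add]; ring
  have h3 : exp (-m) * T ^ Fintype.card σ ≤ ‖∑ y ∈ ibox lo hi, e (dot y (a + θ))‖ := by
    rw [h2, norm_mul, norm_mul, norm_e, one_mul] at h
    exact h.trans (mul_le_of_le_one_left (norm_nonneg _) (hF.bdd 0))
  have h4 := nz_le_of_ibox hT1 hb _ h3
  rintro y y' - - hyy - ⟨z, l, hz, hl, e1⟩
  obtain ⟨n, hn⟩ := fn_int67 η (InL.isInt (by simpa using hl))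
  have h5 := congrArg (N.fn η) e1
  rw [fn_star_one hF.supp, fn_star_one hF.supp, hac, hac, hn] at h5
  have h6 : dot y θ - dot y' θ = dot (y - y') (a + θ) + N.fn η z + n := by
    rw [sub_dot, dot_add, dot_add]; linarith
  refine (norm_e_sub_e_le_nz _ _).trans (le_trans ?_ (hC m _ _ hm hD hι))
  rw [h6, nz_add_int, mul_assoc, add_mul]
  refine mul_le_mul_of_nonneg_left ((nz_add_le _ _).trans (add_le_add ?_ ?_)) (by norm_num)
  · refine (nz_dot_le _ _).trans ((sum_le_card_nsmul _ _ (3 ^ Fintype.card σ * exp m * exp (-m ^ C))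
      fun v _ => ?_).trans (by simp [mul_assoc]))
    have h7 : T * nz ((a + θ) v) ≤ 3 ^ Fintype.card σ * exp m := by
      have h8 := mul_le_mul_of_nonneg_right (h4 v) (Real.exp_pos m).le
      have h9 : exp (-m) * exp m = 1 := by rw [← Real.exp_add]; simp
      calc _ = (exp (-m) * exp m) * (T * nz ((a + θ) v)) := by rw [h9, one_mul]
        _ = _ := by ring
        _ ≤ _ := h8
    calc _ ≤ exp (-m ^ C) * T * nz ((a + θ) v) :=
          mul_le_mul_of_nonneg_right (by simpa using hyy v) (nz_nonneg _)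
      _ ≤ _ := by rw [mul_assoc, mul_comm]; exact mul_le_mul_of_nonneg_right h7 (Real.exp_pos _).le
  · exact (nz_le_abs _).trans ((abs_fn_le67 hF.η_le z).trans
      (mul_le_mul_of_nonneg_left hz (by positivity)))

/-- the circle -/
abbrev Ab (κ : Type) [Fintype κ] : ND κ := ND.ab (fun _ => 1) fun _ => le_rfl

theorem ab_nFn (S : ℕ) {s : ℕ} (hs : 1 ≤ s) : (Ab Unit).NFn S s 7 fun x => e (x ()) :=
  ⟨lipFn_ab (Φ := fun x => e (x ())) (fun _ => by simp) (fun t n => e_add_int _ _) fun x y =>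
    (norm_e_sub_e_le' _ _).trans (mul_le_mul_of_nonneg_left (norm_le_pi_norm (x - y) ())
      (by norm_num)), fun Z hZ x => by
    rw [eq_zero_of_mem_FA (S := s) (fun _ => hs) hZ, ab_star, zero_add]⟩

/-- the linear phase as a sequence on the circle -/
def linP (θ : σ → ℝ) : (Ab Unit).PS σ := fun _ => ∑ v, MvPolynomial.C (θ v) * MvPolynomial.X v

theorem linP_mem (θ : σ → ℝ) : linP θ ∈ (Ab Unit).poly σ :=
  mem_poly_iff67.2 fun _ => Submodule.sum_mem _ fun v _ => C_mul_X_mem_degLt67 _ v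

theorem evZ_linP (θ : σ → ℝ) (y : σ → ℤ) : (Ab Unit).evZ y (linP θ) () = dot y θ := by
  change MvPolynomial.aeval (fun v => (y v : ℝ)) (∑ v, MvPolynomial.C (θ v) * MvPolynomial.X v) = _
  simp [dot, mul_comm]

theorem grSub_map_fst {ι' : Type} [Fintype ι'] {N' : ND ι'} {H : ℕ → Submodule ℝ (pd N N').L}
    (h : (pd N N').GrSub H) : N.GrSub fun i => (H i).map (fst N N' ℝ).toLinearMap :=
  ⟨fun i _ ⟨_, hx, e0⟩ => e0 ▸ fHom_fst.filt i _ (h.le i hx),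
    fun i x hx => ⟨pair x 0, h.ge i (pair_mem_FA hx (zero_mem _)), rfl⟩,
    fun i j _ ⟨a, ha, e1⟩ _ ⟨b, hb, e2⟩ => ⟨⁅a, b⁆, h.lie i j a ha b hb, by
      rw [← e1, ← e2]; exact (fst N N' ℝ).map_lie a b⟩⟩

/-- `LT` in the presence of a linear phase -/
theorem lt_phase {S s D : ℕ} (hS : 1 ≤ S) (hs : 1 ≤ s) (h : LT S (s + 1) D) :
    ∃ C : ℕ, ∀ (m : ℝ), 2 ≤ m → ∀ (ι σ : Type) [Fintype ι] [Fintype σ] [DecidableEq σ]
    (N : ND ι) (η : ι → ℤ) (F : N.L → ℂ) (P : N.PS σ) (T : ℝ) (lo hi : σ → ℤ) (θ : σ → ℝ),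
    Fintype.card σ ≤ D → (Fintype.card ι : ℝ) ≤ m → N.Good S (exp m) →
    N.NChar S (s + 1) (exp m) η F → P ∈ N.poly σ → exp (m ^ C) ≤ T →
    (∀ v, |(lo v : ℝ)| ≤ T ∧ |(hi v : ℝ)| ≤ T) →
    exp (-m) * T ^ Fintype.card σ ≤ ‖∑ n ∈ ibox lo hi, F (N.evZ n P) * e (dot n θ)‖ →
    m ≤ m ^ C ∧ ∃ H : ℕ → Submodule ℝ N.L, N.GrSub H ∧ (∀ i, N.RatS (exp (m ^ C)) (H i)) ∧
      (∀ x ∈ H (s + 1), N.fn η x = 0) ∧ N.Fact S T (exp (m ^ C)) H P := by
  obtain ⟨C1, h1⟩ := h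
  obtain ⟨C, hC⟩ : ∃ C : ℕ, ∀ m : ℝ, 2 ≤ m → m ≤ m ^ C ∧ (m + 3) ^ C1 ≤ m ^ C := by qp
  refine ⟨C, fun m hm ι σ _ _ _ N η F P T lo hi θ hD hι hG hF hP hT hb h => ?_⟩
  obtain ⟨b1, b2⟩ := hC m hm
  have b3 := Real.exp_le_exp.2 b2
  have hT0 : 0 ≤ T := (Real.exp_pos _).le.trans hT
  have e0 := (Real.exp_pos m).le
  have e1 : exp m + 7 ≤ exp (m + 3) := by
    have h3 := seven_le_exp_two67.trans (Real.exp_le_exp.2 hm)
    have h4 := Real.add_one_le_exp 3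
    rw [Real.exp_add]; nlinarith
  have h2 := (nChar_fst (g' := Ab Unit) e0 hF).mul ((nFn_snd (g := N) (by norm_num)
    (ab_nFn S hs)).nChar_zero (by norm_num) (Nat.lt_succ_self s))
  obtain ⟨H, c1, c2, c3, q, c4, c5, c6⟩ := h1 (m + 3) (by linarith) (ι ⊕ Unit) σ (pd N (Ab Unit)) _ _
    (pair P (linP θ)) T lo hi hD (by simp; linarith)
    ((good_pd hG (good_ab (fun _ => hS) e0) e0).mono (by linarith)) (h2.mono e1)
    (pair_mem_poly hP (linP_mem θ)) (b3.trans hT) hb (by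
      simp only [evZ_pair, fst_pair, snd_pair, evZ_linP]
      exact le_trans (mul_le_mul_of_nonneg_right (Real.exp_le_exp.2 (by linarith))
        (by positivity)) h)
  refine ⟨b1, _, grSub_map_fst c1, fun i => ?_, ?_, q, c4, c5.trans b3, ?_⟩
  · simpa using (fHom_fst.ratS_map zero_le_one (Real.exp_pos _).le (c2 i)).mono
      (by rw [one_mul]; exact b3)
  · rintro _ ⟨x, hx, rfl⟩
    simpa [fn_apply] using c3 x hx
  · have := fHom_fst.factQ zero_le_one hT0 (fun i x hx => Submodule.mem_map_of_mem hx) c6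
    rw [bc_fst, fst_pair, one_mul] at this
    exact this.mono b3 dvd_rfl

set_option maxHeartbeats 800000 in
theorem n2c_succ {S s D : ℕ} (hS : 1 ≤ S) (hs : 1 ≤ s) (hL : LT S (s + 1) D) (ih : N2 S s D) :
    N2c S (s + 1) D := by
  obtain ⟨C1, h1⟩ := lt_phase hS hs hL
  obtain ⟨C2, h2⟩ := clt hS D
  obtain ⟨C4, h4⟩ := ih
  obtain ⟨C3, h3⟩ : ∃ C : ℕ, ∀ (m E : ℝ) (d : ℕ), 2 ≤ m → d ≤ D → 0 < E → E ≤ exp ((m ^ C1) ^ C2) →
      m ≤ m ^ C ∧ E ≤ exp (m ^ C) ∧ exp (-m ^ C) ≤ exp (-m) / 3 ^ d / 4 * (exp (-m) / 3 ^ d / 2 *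
        (exp (-m) / 3 ^ d / (4 * (d + 1) * E) / 2) ^ d) / E ^ d := by qp
  obtain ⟨C, hC⟩ : ∃ C : ℕ, ∀ (m E T : ℝ) (d : ℕ), 2 ≤ m → d ≤ D → 0 < E → E ≤ exp ((m ^ C1) ^ C2) →
      exp (m ^ C) ≤ T → m ^ C1 ≤ m ^ C ∧ (m ^ C3) ^ C4 ≤ m ^ C ∧
      E * exp ((m ^ C3) ^ C4) ≤ exp (m ^ C) ∧ E * exp (-m ^ C) ≤ exp (-(m ^ C3) ^ C4) ∧
      1 ≤ exp (-m) / 3 ^ d / (4 * (d + 1) * E) * T := by qp
  refine ⟨C, fun m hm ι σ _ _ _ N η F P T lo hi θ hD hι hG hF hP hT hb h => ?_⟩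
  obtain ⟨a1, a2, a3⟩ := h3 m _ _ hm hD (Real.exp_pos _) le_rfl
  obtain ⟨b1, b2, b3, b4, b5⟩ := hC m _ T _ hm hD (Real.exp_pos _) le_rfl hT
  have hT1 : 1 ≤ T := (Real.one_le_exp (by positivity)).trans hT
  obtain ⟨c0, H, c1, c2, c3, c4⟩ := h1 m hm ι σ N η F P T lo hi θ hD hι hG hF hP
    ((Real.exp_le_exp.2 b1).trans hT) hb h
  have c5 := Real.exp_le_exp.2 c0
  obtain ⟨r, N', P', q, d1, d2, d3, d4, d5, ⟨F', d6⟩, d7⟩ := h2 (m ^ C1) (hm.trans c0) ι σ N s η F P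
    T H hD (hι.trans c0) (hG.mono c5) (hF.mono c5) (by linarith) c1 c2 c3 c4
  set E := exp ((m ^ C1) ^ C2) with hE
  set d := Fintype.card σ with hd
  have hE1 : 1 ≤ E := Real.one_le_exp (by positivity)
  set δ := exp (-m) / 3 ^ d with hδ
  have hδ0 : 0 < δ := by positivity
  set ρ := δ / (4 * (d + 1) * E) with hρ
  have hρ0 : 0 < ρ := by positivity
  have hd0 : (0 : ℝ) ≤ d := Nat.cast_nonneg _
  have f1 : (⌊ρ * T⌋₊ : ℝ) ≤ ρ * T := Nat.floor_le (by linarith)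
  have f2 : 0 < ⌊ρ * T⌋₊ := Nat.floor_pos.2 b5
  have f3 : ρ / 2 * T ≤ ⌊ρ * T⌋₊ := by
    have := Nat.lt_floor_add_one (ρ * T)
    have : (1 : ℝ) ≤ ⌊ρ * T⌋₊ := by exact_mod_cast f2
    linarith
  have f4 : E * ρ * (4 * (d + 1)) = δ := by rw [hρ]; field_simp
  have f5 : E * ρ ≤ δ / 4 := by nlinarith [mul_pos (by linarith : 0 < E) hρ0]
  obtain ⟨lo', hi', g1, g2, g3⟩ := exists_subbox hT1 hb (Φ := fun y => F (N.evZ y P) * e (dot y θ))
    (fun y => by simpa using hF.bdd _) (Real.exp_pos _) h _ f2 (by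
      rw [← hd, ← hδ, ← f4]
      calc _ ≤ 4 * (d * (ρ * T)) := by gcongr
        _ = 1 * ρ * (4 * d) * T := by ring
        _ ≤ _ := by gcongr; linarith)
  rw [← hd, ← hδ] at g3
  have g4 : (#(ibox lo' hi') : ℝ) ≤ (⌊ρ * T⌋₊ : ℝ) ^ d :=
    card_ibox_le (Nat.cast_nonneg _) fun v => by exact_mod_cast g2 v
  have g5 : δ / 2 * (⌊ρ * T⌋₊ : ℝ) ^ d ≤ #(ibox lo' hi') :=
    g3.trans ((norm_sum_le_of_le _ (n := fun _ => 1) fun y _ => by simpa using hF.bdd _).trans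
      (by simp))
  have g6 : (ibox lo' hi').Nonempty := by
    rw [← card_pos, ← Nat.cast_pos (α := ℝ)]
    exact lt_of_lt_of_le (by positivity) g5
  obtain ⟨y0, hy0, b, g7⟩ := exists_class_char _ g6 d4 (fun y => F (N.evZ y P) * e (dot y θ))
    (fun y0 y => F' y0 (N'.evZ y P') * e (dot y θ)) (η := δ / 4) (fun y0 hy0 y hy hq => by
      rw [← sub_mul, norm_mul, norm_e, mul_one]
      refine ((d6 y0 (abs_le_of_mem_ibox g1 hy0)).2 y ρ hρ0.le (abs_le_of_mem_ibox g1 hy)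
        (fun v => le_trans ?_ f1) hq).trans f5
      have k1 := mem_ibox.1 hy0 v
      have k2 := mem_ibox.1 hy v
      have k3 := g2 v
      have : |y v - y0 v| ≤ (⌊ρ * T⌋₊ : ℤ) := by rw [abs_le]; omega
      exact_mod_cast this) (le_trans (by
        calc _ ≤ 2 * (δ / 4) * (⌊ρ * T⌋₊ : ℝ) ^ d := by gcongr
          _ = _ := by ring) g3)
  obtain ⟨q', k1, k2, k3⟩ := h4 (m ^ C3) (hm.trans a1) (Fin r) σ N' (F' y0) P' T lo' hi'
    (θ + fun i => (b i : ℝ) / q) hD (by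
      refine le_trans ?_ (hι.trans a1)
      simpa using d1) (d2.mono a2) ((d6 y0 (abs_le_of_mem_ibox g1 hy0)).1.mono a2) d3
    ((Real.exp_le_exp.2 b2).trans hT) g1 (by
      simp only [dot_add, e_add, ← mul_assoc]
      refine le_trans ?_ g7
      rw [← hd]
      have hq0 : (0 : ℝ) < q := by exact_mod_cast d4
      calc _ ≤ δ / 4 * (δ / 2 * (ρ / 2) ^ d) / E ^ d * T ^ d := by gcongr
        _ = δ / 4 * (δ / 2 * (ρ / 2 * T) ^ d) / E ^ d := by rw [mul_pow]; ring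
        _ ≤ _ := by gcongr; exact le_trans (by gcongr) g5)
  have hρ' : exp (-m ^ C) ≤ exp (-(m ^ C3) ^ C4) := Real.exp_le_exp.2 (by linarith)
  refine ⟨q * q', Nat.mul_pos d4 k1, ?_, fun y y' l1 l2 l3 l4 l5 => ?_⟩
  · push_cast
    exact (mul_le_mul d5 k2 (Nat.cast_nonneg _) (by linarith)).trans b3
  have l6 := k3 y y' l1 l2 (fun v => (l3 v).trans (mul_le_mul_of_nonneg_right hρ' (by linarith)))
    (fun v => (Dvd.intro_left q (by push_cast; rfl) : (q' : ℤ) ∣ (q * q' : ℕ)).trans (l4 v))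
    ((d7 q' _ y y' (Real.exp_pos _).le (b4.trans_lt (Real.exp_lt_one_iff.2 (by
      have : 0 < (m ^ C3) ^ C4 := by positivity
      linarith))) l1 l2 l3 l4 l5).mono b4 dvd_rfl)
  have l7 : e (dot y fun i => (b i : ℝ) / q) = e (dot y' fun i => (b i : ℝ) / q) := by
    choose t ht using fun v => (Dvd.intro q' (by push_cast; rfl) : (q : ℤ) ∣ (q * q' : ℕ)).trans (l4 v)
    have hq0 : (q : ℝ) ≠ 0 := by positivity
    have : (dot y fun i => (b i : ℝ) / q) = (dot y' fun i => (b i : ℝ) / q) + (∑ v, t v * b v : ℤ) := by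
      rw [← sub_eq_iff_eq_add', ← sub_dot, dot]
      push_cast
      refine sum_congr rfl fun v _ => ?_
      rw [Pi.sub_apply, ht v]; push_cast; field_simp
    rw [this, e_add_int]
  rw [dot_add, dot_add, e_add, e_add, l7, ← sub_mul, norm_mul, norm_e, mul_one] at l6
  exact l6.trans (Real.exp_le_exp.2 (by linarith))

theorem n2_of_lt (h : LTStmt) {S : ℕ} (hS : 1 ≤ S) (D s : ℕ) : N2 S (s + 1) D := by
  induction s with
  | zero => exact n2_of_n2c (n2c_one S D)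
  | succ s ih => exact n2_of_n2c (n2c_succ hS (by omega) (h _ _ _ (by omega)) ih)

end Crest.Agent.T49.Win
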