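import Crest.Agent.T49.Weyl2_14

/-!
# Row 49, Weyl block, part 3 (helper14): the multi-variable theorems.
`exists_small`: a polynomial of total degree `≤ s` in `d` variables that is `ε`-close to integers on
a dense subset of a box has all coefficients close to rationals with one denominator;
`exists_bias`: the same from a large exponential sum over a box.  Exponent `(d + 2) ^ C`.
-/

set_option autoImplicit false
set_option linter.unusedSectionVars false

open Finset MvPolynomial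

namespace Crest.Agent.T49.Weyl

open Crest.Agent.N41.Exp

universe u

variable {σ : Type u} [Fintype σ] [DecidableEq σ]

variable (σ) in
/-- all coefficients of a polynomial that is almost integral on a dense subset of a box -/
def Small (s E : ℕ) : Prop :=
  ∀ (P : MvPolynomial σ ℝ), P.totalDegree ≤ s →
    ∀ (S : Finset (σ → ℤ)) (N : σ → ℝ) (D ε : ℝ), 2 ≤ D → 0 ≤ ε →
    (∀ k, D ^ E ≤ N k) → ε * D ^ E ≤ 1 → (∀ n ∈ S, ∀ k, |(n k : ℝ)| ≤ N k) →
    ∏ k, N k ≤ D * S.card → (∀ n ∈ S, ∃ r : ℤ, |ev P n - r| ≤ ε) →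
    ∃ q : ℕ, 1 ≤ q ∧ (q : ℝ) ≤ D ^ E ∧
      ∀ α, ∃ r : ℤ, |(q : ℝ) * coeff α P - r| ≤ D ^ E * ε / mpow N α

lemma Small.mono {s E E' : ℕ} (h : Small σ s E) (hE : E ≤ E') : Small σ s E' := by
  intro P hP S N D ε hD hε hN hεD hS hc hr
  have hD1 : (1 : ℝ) ≤ D := by linarith
  have hle : D ^ E ≤ D ^ E' := pow_le_pow_right₀ hD1 hE
  obtain ⟨q, h1, h2, h3⟩ := h P hP S N D ε hD hε (fun k => hle.trans (hN k))
    (le_trans (by gcongr) hεD) hS hc hr
  refine ⟨q, h1, h2.trans hle, fun α => ?_⟩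
  obtain ⟨r, hr⟩ := h3 α
  have hpos := mpow_pos (N := N) (fun k => lt_of_lt_of_le (by positivity) (hN k)) α
  exact ⟨r, hr.trans (by gcongr)⟩

lemma small_zero : Small σ 0 0 := by
  intro P hP S N D ε hD hε hN _ _ hc hr
  have hN0 : ∀ k, 0 < N k := fun k => lt_of_lt_of_le (by positivity) (hN k)
  obtain ⟨n, hn⟩ := nonempty_of_dense hN0 hc
  obtain ⟨r, hr⟩ := hr n hn
  rw [ev_const hP] at hr
  refine ⟨1, le_rfl, by simp, fun α => ?_⟩
  by_cases hα : α = 0
  · subst hα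
    exact ⟨r, by simpa [mpow] using hr⟩
  · refine ⟨0, ?_⟩
    rw [totalDegree_eq_zero_iff_eq_C.1 (Nat.le_zero.1 hP), coeff_C, if_neg (Ne.symm hα)]
    have := mpow_pos hN0 α
    simp; positivity

/-- the number of monomials of a given degree -/
lemma card_degree_le (T : Finset (σ →₀ ℕ)) {n : ℕ} (h : ∀ α ∈ T, α.degree = n) :
    T.card ≤ (Fintype.card σ + n) ^ n := by
  have h1 : T ⊆ finsuppAntidiag univ n := fun α hα => by
    rw [mem_finsuppAntidiag]
    refine ⟨?_, subset_univ _⟩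
    rw [← h α hα, Finsupp.degree_eq_sum]
  refine (card_le_card h1).trans ?_
  rw [card_finsuppAntidiag_nat_eq_choose, card_univ]
  exact (Nat.choose_le_pow _ _).trans (Nat.pow_le_pow_left (by omega) _)

lemma card_support_le_degree (α : σ →₀ ℕ) : α.support.card ≤ α.degree := by
  rw [card_eq_sum_ones]
  exact sum_le_sum fun i hi => Nat.one_le_iff_ne_zero.2 (Finsupp.mem_support_iff.1 hi)

lemma totalDegree_drop {P : MvPolynomial σ ℝ} {k : ℕ} (hP : P.totalDegree ≤ k + 1) :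
    (P - homogeneousComponent (k + 1) P).totalDegree ≤ k := by
  refine Finset.sup_le fun α hα => ?_
  rw [mem_support_iff, coeff_sub, coeff_homogeneousComponent] at hα
  split_ifs at hα with h
  · simp at hα
  · rw [sub_zero] at hα
    have h1 := degree_le_of_mem (mem_support_iff.2 hα)
    have h2 : (α.sum fun _ e => e) = α.degree := rfl
    omega

lemma small_succ {k E E₀ M : ℕ} (h0 : Top σ (k + 1) (k + 1) E₀) (ih : Small σ k E)
    (hM : (Fintype.card σ + (k + 1)) ^ (k + 1) ≤ M) :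
    Small σ (k + 1) (E₀ * (M + 1) + (M + 1) + E) := by
  intro P hP S N D ε hD hε hN hεD hS hc hr
  have hD1 : (1 : ℝ) ≤ D := by linarith
  have hN0 : ∀ k, 0 < N k := fun k => lt_of_lt_of_le (by positivity) (hN k)
  set B := E₀ * (M + 1) with hB
  have hle : ∀ j, j ≤ B + (M + 1) + E → D ^ j ≤ D ^ (B + (M + 1) + E) := fun j hj =>
    pow_le_pow_right₀ hD1 hj
  have hE₀ : E₀ ≤ B := by rw [hB]; nlinarith
  set T := P.support.filter (fun α => α.degree = k + 1) with hT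
  have hTM : T.card ≤ M := (card_degree_le T fun α hα => (mem_filter.1 hα).2).trans hM
  have htop : ∀ α ∈ T, Appr (coeff α P) (D ^ E₀) (D ^ E₀ * ε / mpow N α) := fun α hα => by
    have h1 := (mem_filter.1 hα).2
    exact h0 P α ((card_support_le_degree α).trans h1.le) h1.le (by omega) S N D ε hD hε
      (fun k => (hle _ (by omega)).trans (hN k)) (le_trans (by gcongr; omega) hεD) hS hc hr
  choose! qq hq1 hq2 hq3 using htop
  obtain ⟨q₀, hp1, hp2, hp3⟩ := common_den T qq hq1 hq2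
  have hp2' : (q₀ : ℝ) ≤ D ^ (E₀ * M) := by
    rw [pow_mul]; exact hp2.trans (pow_le_pow_right₀ (one_le_pow₀ hD1) hTM)
  have hBe : D ^ B = D ^ (E₀ * M) * D ^ E₀ := by rw [hB, mul_add, mul_one, pow_add]
  have hq₀B : (q₀ : ℝ) ≤ D ^ B := hp2'.trans (pow_le_pow_right₀ hD1 (by rw [hB]; nlinarith))
  have hall : ∀ α ∈ T, ∃ r : ℤ, |(q₀ : ℝ) * coeff α P - r| ≤ D ^ B * ε / mpow N α := fun α hα => by
    obtain ⟨r, hr⟩ := hq3 α hα
    obtain ⟨r', hr'⟩ := mul_up (hq1 α hα) (hp3 α hα) hp2' hr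
    exact ⟨r', hr'.trans (le_of_eq (by rw [hBe]; ring))⟩
  choose! rr hrr using hall
  have hsm : ∀ n ∈ S, ∃ r : ℤ,
      |ev (C (q₀ : ℝ) * (P - homogeneousComponent (k + 1) P)) n - r| ≤ D ^ (B + (M + 1)) * ε := by
    intro n hn
    obtain ⟨r, hr⟩ := hr n hn
    refine ⟨q₀ * r - ∑ α ∈ T, rr α * ∏ i, n i ^ α i, ?_⟩
    have e1 : ev (C (q₀ : ℝ) * (P - homogeneousComponent (k + 1) P)) n -
        ((q₀ * r - ∑ α ∈ T, rr α * ∏ i, n i ^ α i : ℤ) : ℝ) = q₀ * (ev P n - r) -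
        ∑ α ∈ T, ((q₀ : ℝ) * coeff α P - rr α) * mpow (fun i => (n i : ℝ)) α := by
      rw [ev_C_mul, ev, map_sub, homogeneousComponent_apply, map_sum, ← hT, ← ev]
      simp_rw [eval_monomial', sub_mul, sum_sub_distrib, mul_assoc, ← mul_sum]
      unfold mpow
      push_cast; ring
    rw [e1]
    have h1 : |(q₀ : ℝ) * (ev P n - r)| ≤ D ^ B * ε := by
      rw [abs_mul, Nat.abs_cast]; gcongr
    have h2 : |∑ α ∈ T, ((q₀ : ℝ) * coeff α P - rr α) * mpow (fun i => (n i : ℝ)) α| ≤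
        M * (D ^ B * ε) := by
      refine (abs_sum_le_sum_abs _ _).trans ?_
      calc _ ≤ ∑ _α ∈ T, D ^ B * ε := sum_le_sum fun α hα => by
            have hpos := mpow_pos hN0 α
            rw [abs_mul]
            calc _ ≤ D ^ B * ε / mpow N α * mpow N α :=
                  mul_le_mul (hrr α hα) (abs_mpow_le (hS n hn) α) (abs_nonneg _) (by positivity)
              _ = _ := by field_simp
        _ ≤ _ := by rw [sum_const, nsmul_eq_mul]; gcongr
    have h3 := succ_le_pow hD M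
    push_cast at h3
    refine (abs_sub _ _).trans ?_
    calc _ ≤ ((M : ℝ) + 1) * (D ^ B * ε) := by linarith
      _ ≤ D ^ (M + 1) * (D ^ B * ε) := by gcongr
      _ = _ := by ring
  obtain ⟨q₁, hs1, hs2, hs3⟩ := ih _ ((totalDegree_C_mul_le _ _).trans (totalDegree_drop hP)) S N D
    (D ^ (B + (M + 1)) * ε) hD (by positivity) (fun k => (hle _ (by omega)).trans (hN k))
    (by rw [pow_add D (B + (M + 1))] at hεD; linarith) hS hc hsm
  refine ⟨q₀ * q₁, Nat.mul_pos hp1 hs1, le_trans ?_ (hle (B + E) (by omega)), fun α => ?_⟩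
  · push_cast; rw [pow_add]; gcongr
  have hpos := mpow_pos hN0 α
  by_cases hα : α.degree = k + 1
  · by_cases hα0 : coeff α P = 0
    · exact ⟨0, by rw [hα0]; simp; positivity⟩
    refine ⟨q₁ * rr α, ?_⟩
    have e1 : ((q₀ * q₁ : ℕ) : ℝ) * coeff α P - ((q₁ * rr α : ℤ) : ℝ) =
        q₁ * ((q₀ : ℝ) * coeff α P - rr α) := by push_cast; ring
    have h1 := hrr α (mem_filter.2 ⟨mem_support_iff.2 hα0, hα⟩)
    rw [e1, abs_mul, Nat.abs_cast]
    calc _ ≤ D ^ E * (D ^ B * ε / mpow N α) := by gcongr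
      _ = D ^ (B + E) * ε / mpow N α := by rw [pow_add]; ring
      _ ≤ _ := by gcongr; omega
  · obtain ⟨r, hr⟩ := hs3 α
    refine ⟨r, ?_⟩
    rw [coeff_C_mul, coeff_sub, coeff_homogeneousComponent, if_neg hα, sub_zero] at hr
    have e1 : ((q₀ * q₁ : ℕ) : ℝ) * coeff α P = q₁ * (q₀ * coeff α P) := by push_cast; ring
    rw [e1]
    refine hr.trans (le_of_eq ?_)
    rw [pow_add D (B + (M + 1))]; ring

lemma add_le_pow (d n : ℕ) : d + n ≤ (d + 2) ^ (n + 1) := by
  have h1 : n + 1 ≤ 2 ^ n := Nat.lt_two_pow_self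
  have h2 : 2 ^ n ≤ (d + 2) ^ n := Nat.pow_le_pow_left (by omega) _
  calc d + n ≤ (n + 1) * (d + 2) := by nlinarith
    _ ≤ (d + 2) ^ n * (d + 2) := by gcongr; exact h1.trans h2
    _ = _ := by ring

lemma pow_add_pow_le (d a b : ℕ) : (d + 2) ^ a + (d + 2) ^ b ≤ (d + 2) ^ (a + b + 1) := by
  have h1 : (d + 2) ^ a ≤ (d + 2) ^ (a + b) := Nat.pow_le_pow_right (by omega) (by omega)
  have h2 : (d + 2) ^ b ≤ (d + 2) ^ (a + b) := Nat.pow_le_pow_right (by omega) (by omega)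
  calc _ ≤ (d + 2) ^ (a + b) * 2 := by omega
    _ ≤ (d + 2) ^ (a + b) * (d + 2) := by gcongr; omega
    _ = _ := by rw [pow_succ]

/-- **(W3)** almost integral on a dense subset of a box -/
theorem exists_small (s : ℕ) : ∃ C : ℕ, ∀ (σ : Type u) [Fintype σ] [DecidableEq σ],
    Small σ s ((Fintype.card σ + 2) ^ C) := by
  induction s with
  | zero => exact ⟨0, fun σ _ _ => small_zero.mono (Nat.zero_le _)⟩
  | succ k ih =>
    obtain ⟨C, hC⟩ := ih
    obtain ⟨C₀, h0⟩ := exists_top.{u} (k + 1) (k + 1)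
    set m := (k + 1 + 1) * (k + 1) with hm
    refine ⟨(C₀ + (m + 1) + (m + 1) + 1) + C + 1, fun σ _ _ =>
      (small_succ (M := (Fintype.card σ + 2) ^ m) (h0 σ) (hC σ) ?_).mono ?_⟩
    · rw [hm, pow_mul]; exact Nat.pow_le_pow_left (add_le_pow _ _) _
    · refine le_trans (Nat.add_le_add_right ?_ _) (pow_add_pow_le _ _ _)
      refine le_trans ?_ (pow_add_pow_le _ _ _)
      have := pow_add_one_le (Fintype.card σ) m
      rw [pow_add _ C₀]
      gcongr

variable (σ) in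
/-- all non-constant coefficients of a polynomial phase biased on a box -/
def Bias (s E : ℕ) : Prop :=
  ∀ (P : MvPolynomial σ ℝ), P.totalDegree ≤ s → ∀ (a b : σ → ℤ) (N : σ → ℝ) (D : ℝ), 2 ≤ D →
    (∀ k, D ^ E ≤ N k) → (∀ k, |(a k : ℝ)| ≤ N k) → (∀ k, |(b k : ℝ)| ≤ N k) →
    ∏ k, N k ≤ D * ‖∑ n ∈ Fintype.piFinset (fun k => Ioc (a k) (b k)), e (ev P n)‖ →
    ∃ q : ℕ, 1 ≤ q ∧ (q : ℝ) ≤ D ^ E ∧
      ∀ α, α ≠ 0 → ∃ r : ℤ, |(q : ℝ) * coeff α P - r| ≤ D ^ E / mpow N α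

lemma Bias.mono {s E E' : ℕ} (h : Bias σ s E) (hE : E ≤ E') : Bias σ s E' := by
  intro P hP a b N D hD hN ha hb hc
  have hD1 : (1 : ℝ) ≤ D := by linarith
  have hle : D ^ E ≤ D ^ E' := pow_le_pow_right₀ hD1 hE
  obtain ⟨q, h1, h2, h3⟩ := h P hP a b N D hD (fun k => hle.trans (hN k)) ha hb hc
  refine ⟨q, h1, h2.trans hle, fun α hα => ?_⟩
  obtain ⟨r, hr⟩ := h3 α hα
  have hpos := mpow_pos (N := N) (fun k => lt_of_lt_of_le (by positivity) (hN k)) α
  exact ⟨r, hr.trans (by gcongr)⟩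

/-- averaging over lines of a product set -/
lemma sum_lines (I : σ → Finset ℤ) (f : (σ → ℤ) → ℂ) (i : σ) :
    ((I i).card : ℂ) * ∑ n ∈ Fintype.piFinset I, f n =
      ∑ n ∈ Fintype.piFinset I, ∑ t ∈ I i, f (Function.update n i t) := by
  have h1 : ((I i).card : ℂ) * ∑ n ∈ Fintype.piFinset I, f n =
      ∑ n ∈ Fintype.piFinset I, ∑ _t ∈ I i, f n := by
    simp_rw [sum_const, nsmul_eq_mul, mul_sum]
  have hmem : ∀ p : (σ → ℤ) × ℤ, p ∈ Fintype.piFinset I ×ˢ I i →
      (Function.update p.1 i p.2, p.1 i) ∈ Fintype.piFinset I ×ˢ I i := by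
    intro p hp
    rw [mem_product, Fintype.mem_piFinset] at hp ⊢
    refine ⟨fun k => ?_, hp.1 i⟩
    by_cases hk : k = i
    · subst hk; simpa using hp.2
    · simpa [Function.update_of_ne hk] using hp.1 k
  rw [h1, ← sum_product', ← sum_product']
  refine sum_nbij' (fun p => (Function.update p.1 i p.2, p.1 i))
    (fun p => (Function.update p.1 i p.2, p.1 i)) hmem hmem ?_ ?_ ?_
  · intro p _; simp
  · intro p _; simp
  · intro p _; simp

lemma bias_step {s C : ℕ} (h : Bias1 s C) {P : MvPolynomial σ ℝ} (hP : P.totalDegree ≤ s)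
    (a b : σ → ℤ) {N : σ → ℝ} {D : ℝ} (hD : 2 ≤ D) (hN : ∀ k, 1 ≤ N k)
    (ha : ∀ k, |(a k : ℝ)| ≤ N k) (hb : ∀ k, |(b k : ℝ)| ≤ N k)
    (hc : ∏ k, N k ≤ D * ‖∑ n ∈ Fintype.piFinset (fun k => Ioc (a k) (b k)), e (ev P n)‖)
    (i : σ) :
    ∃ q : ℕ, 1 ≤ q ∧ (q : ℝ) ≤ D ^ ((2 * Fintype.card σ + 4) * C) ∧
      ∃ S' ⊆ Fintype.piFinset (fun k => Ioc (a k) (b k)),
      ∏ k, N k ≤ D ^ ((2 * Fintype.card σ + 4) * (C + 1)) * S'.card ∧
      ∀ n ∈ S', ∀ j, 1 ≤ j → j ≤ s → ∃ r : ℤ,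
        |(q : ℝ) * ev (cf i j P) n - r| ≤ D ^ ((2 * Fintype.card σ + 4) * C) / N i ^ j := by
  have hD1 : (1 : ℝ) ≤ D := by linarith
  have hNi : 0 < N i := by linarith [hN i]
  have hprod : 0 < ∏ k, N k := prod_pos fun k _ => by linarith [hN k]
  set d := Fintype.card σ with hd
  set I : σ → Finset ℤ := fun k => Ioc (a k) (b k) with hI
  set box := Fintype.piFinset I with hbox
  set PN := ∏ k, N k with hPN
  have hIc : ∀ k, ((I k).card : ℝ) ≤ 2 * N k := fun k =>
    card_Ioc_le (by linarith [hN k]) (by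
      have := abs_le.1 (ha k); have := abs_le.1 (hb k); linarith)
  have h2d : (2 : ℝ) ^ d ≤ D ^ d := by gcongr
  have hprod2 : ∏ k, (2 * N k) = 2 ^ d * PN := by rw [prod_mul_distrib, prod_const, card_univ]
  have hboxc : (box.card : ℝ) ≤ D ^ d * PN := by
    rw [hbox, Fintype.card_piFinset]
    push_cast
    calc _ ≤ ∏ k, (2 * N k) := prod_le_prod (fun _ _ => by positivity) fun k _ => hIc k
      _ ≤ _ := by rw [hprod2]; gcongr
  have hboxi : (box.card : ℝ) * N i ≤ (I i).card * (D ^ d * PN) := by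
    rw [hbox, Fintype.card_piFinset]
    push_cast
    rw [← mul_prod_erase univ _ (mem_univ i), mul_assoc]
    refine mul_le_mul_of_nonneg_left ?_ (by positivity)
    calc _ ≤ (∏ k ∈ univ.erase i, (2 * N k)) * (2 * N i) :=
          mul_le_mul (prod_le_prod (fun _ _ => by positivity) fun k _ => hIc k) (by linarith)
            hNi.le (prod_nonneg fun k _ => by linarith [hN k])
      _ = 2 ^ d * PN := by rw [prod_erase_mul _ _ (mem_univ i), hprod2]
      _ ≤ _ := by gcongr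
  have hIi : N i ≤ D ^ (d + 1) * (I i).card := by
    have h1 : PN ≤ D * box.card := hc.trans (by gcongr; exact norm_sum_e_le _ _)
    have h2 : PN * N i ≤ PN * (D ^ (d + 1) * (I i).card) := by
      calc PN * N i ≤ D * box.card * N i := by gcongr
        _ = D * (box.card * N i) := by ring
        _ ≤ D * ((I i).card * (D ^ d * PN)) := by gcongr
        _ = _ := by ring
    exact le_of_mul_le_mul_left h2 hprod
  set T : (σ → ℤ) → ℝ := fun n => ‖∑ t ∈ I i, e (ev P (Function.update n i t))‖ with hT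
  have hA : N i * PN / D ^ (d + 2) ≤ ∑ n ∈ box, T n := by
    have h1 := congrArg norm (sum_lines I (fun n => e (ev P n)) i)
    rw [norm_mul, Complex.norm_natCast] at h1
    refine le_trans ?_ (h1.le.trans (norm_sum_le _ _))
    rw [div_le_iff₀ (by positivity)]
    calc N i * PN ≤ (D ^ (d + 1) * (I i).card) * (D * ‖∑ n ∈ box, e (ev P n)‖) :=
          mul_le_mul hIi hc hprod.le (by positivity)
      _ = _ := by ring
  have hpop := popular box T (t := N i / (2 * D ^ (2 * d + 2))) (by positivity) hA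
    (fun n _ => (norm_sum_e_le _ _).trans (hIc i)) hboxc (le_of_eq (by field_simp; ring))
  set S₁ := box.filter (fun n => N i / (2 * D ^ (2 * d + 2)) ≤ T n) with hS₁
  rw [pow_mul, pow_mul]
  set D₁ := D ^ (2 * d + 4) with hD₁
  have hD₁2 : 2 ≤ D₁ := hD.trans (le_self_pow₀ hD1 (by omega))
  obtain ⟨q, hq1, hq2, S', hS', hc', hp⟩ := den_pigeon S₁ (fun n q => ∀ j, 1 ≤ j → j ≤ s →
      ∃ r : ℤ, |(q : ℝ) * ev (cf i j P) n - r| ≤ D₁ ^ C / N i ^ j) (Q := D₁ ^ C)
      (one_le_pow₀ (by linarith)) (by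
    intro n hn
    obtain ⟨q, hq1, hq2, hq3⟩ := h (line s i P n) (natDegree_line s i P n) (a i) (b i) (N i) D₁
      hD₁2 (hN i) (ha i) (hb i) (by
        simp_rw [eval_line i hP]
        have h1 := (mem_filter.1 hn).2
        rw [div_le_iff₀ (by positivity)] at h1
        have h2 : 2 * D ^ (2 * d + 2) ≤ D₁ := const_mul_pow_le hD 1 (by norm_num) (by omega)
        calc N i ≤ T n * (2 * D ^ (2 * d + 2)) := h1
          _ ≤ T n * D₁ := by gcongr
          _ = _ := mul_comm _ _)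
    refine ⟨q, hq1, hq2, fun j hj1 hj => ?_⟩
    rw [← coeff_line i P n hj]
    exact hq3 j hj1)
  refine ⟨q, hq1, hq2, S', hS'.trans (filter_subset _ _), ?_, hp⟩
  have h1 : PN ≤ 4 * D ^ (d + 2) * S₁.card := by
    rw [div_div, div_le_iff₀ (by positivity)] at hpop
    have h2 : N i * PN ≤ N i * (4 * D ^ (d + 2) * S₁.card) := hpop.trans (le_of_eq (by ring))
    exact le_of_mul_le_mul_left h2 hNi
  have h2 : 4 * D ^ (d + 2) ≤ D₁ := const_mul_pow_le hD 2 (by norm_num) (by omega)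
  calc PN ≤ D₁ * (D₁ ^ C * S'.card) := h1.trans (by gcongr)
    _ = _ := by ring

lemma bias_of {s C E : ℕ} (h1 : Bias1 s C) (h2 : Small σ s E) :
    Bias σ s ((2 * Fintype.card σ + 4) * (C + 1) * (E + 1) * (Fintype.card σ * s + 1)) := by
  intro P hP a b N D hD hN ha hb hc
  have hD1 : (1 : ℝ) ≤ D := by linarith
  have hN1 : ∀ k, 1 ≤ N k := fun k => (one_le_pow₀ hD1).trans (hN k)
  set d := Fintype.card σ with hd
  rw [pow_mul, pow_mul] at hN ⊢
  set D₂ := D ^ ((2 * d + 4) * (C + 1)) with hD₂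
  have hD₂2 : 2 ≤ D₂ := hD.trans (le_self_pow₀ hD1 (by positivity))
  set Q := D₂ ^ (E + 1) with hQ
  have hQ1 : 1 ≤ Q := one_le_pow₀ (by linarith)
  have hQN : ∀ k, Q ≤ N k := fun k => (le_self_pow₀ hQ1 (by omega)).trans (hN k)
  have hAD : D ^ ((2 * d + 4) * C) ≤ D₂ := pow_le_pow_right₀ hD1 (by nlinarith)
  have key : ∀ p : σ × ℕ, p ∈ univ ×ˢ Icc 1 s → ∃ q : ℕ, 1 ≤ q ∧ (q : ℝ) ≤ Q ∧
      ∀ α : σ →₀ ℕ, α p.1 = p.2 → ∃ r : ℤ, |(q : ℝ) * coeff α P - r| ≤ Q / mpow N α := by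
    rintro ⟨i, j⟩ hp
    have hj := mem_Icc.1 (mem_product.1 hp).2
    obtain ⟨q, hq1, hq2, S', hS', hc', hp⟩ := bias_step h1 hP a b hD hN1 ha hb hc i
    have hNij : N i ≤ N i ^ j := le_self_pow₀ (hN1 i) (by omega)
    have hNi : 0 < N i := by linarith [hN1 i]
    obtain ⟨q', hr1, hr2, hr3⟩ := h2 (MvPolynomial.C (q : ℝ) * cf i j P)
      ((totalDegree_C_mul_le _ _).trans ((totalDegree_cf _ _ _).trans (by omega))) S' N D₂
      (D₂ / N i ^ j) hD₂2 (by positivity)
      (fun k => (pow_le_pow_right₀ (by linarith) (by omega)).trans (hQN k))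
      (by
        rw [div_mul_eq_mul_div, div_le_one (by positivity), ← pow_succ']
        exact (hQN i).trans hNij)
      (fun n hn k => by
        have h3 := mem_Ioc.1 (Fintype.mem_piFinset.1 (hS' hn) k)
        have h4 : (a k : ℝ) < n k := by exact_mod_cast h3.1
        have h5 : (n k : ℝ) ≤ b k := by exact_mod_cast h3.2
        have := abs_le.1 (ha k); have := abs_le.1 (hb k)
        rw [abs_le]; constructor <;> linarith) hc'
      (fun n hn => by
        obtain ⟨r, hr⟩ := hp n hn j hj.1 hj.2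
        exact ⟨r, by rw [ev_C_mul]; exact hr.trans (by gcongr)⟩)
    refine ⟨q * q', Nat.mul_pos hq1 hr1, ?_, fun α hα => ?_⟩
    · push_cast; rw [hQ, pow_succ']
      exact mul_le_mul (hq2.trans hAD) hr2 (by positivity) (by positivity)
    · obtain ⟨r, hr⟩ := hr3 (α.erase i)
      simp only at hα
      subst hα
      rw [coeff_C_mul, coeff_cf] at hr
      refine ⟨r, ?_⟩
      have e1 : ((q * q' : ℕ) : ℝ) * coeff α P = q' * (q * coeff α P) := by push_cast; ring
      have hpos := mpow_pos (N := N) (fun k => by linarith [hN1 k]) (α.erase i)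
      rw [e1, mpow_erase N α i]
      refine hr.trans (le_of_eq ?_)
      rw [hQ, pow_succ]; field_simp
  choose! qq hq1 hq2 hq3 using key
  obtain ⟨q, hp1, hp2, hp3⟩ := common_den _ qq hq1 hq2
  rw [card_product, card_univ, Nat.card_Icc, Nat.add_sub_cancel, ← hd] at hp2
  refine ⟨q, hp1, hp2.trans (pow_le_pow_right₀ hQ1 (by omega)), fun α hα => ?_⟩
  have hpos := mpow_pos (N := N) (fun k => by linarith [hN1 k]) α
  by_cases h0 : coeff α P = 0
  · exact ⟨0, by rw [h0]; simp; positivity⟩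
  obtain ⟨i, hi⟩ := Finsupp.support_nonempty_iff.2 hα
  have hmem : (i, α i) ∈ univ ×ˢ Icc 1 s := by
    have h3 := degree_erase α i
    have h4 := degree_le_of_mem (mem_support_iff.2 h0)
    have h5 := Finsupp.mem_support_iff.1 hi
    exact mem_product.2 ⟨mem_univ _, mem_Icc.2 ⟨by simp only; omega, by simp only; omega⟩⟩
  obtain ⟨r, hr⟩ := hq3 _ hmem α rfl
  obtain ⟨r', hr'⟩ := mul_up (hq1 _ hmem) (hp3 _ hmem) hp2 hr
  exact ⟨r', hr'.trans (le_of_eq (by rw [pow_succ]; ring))⟩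

/-- **(W2)** a polynomial phase biased on a box -/
theorem exists_bias (s : ℕ) : ∃ C : ℕ, ∀ (σ : Type u) [Fintype σ] [DecidableEq σ],
    Bias σ s ((Fintype.card σ + 2) ^ C) := by
  obtain ⟨C, hC⟩ := exists_bias1 s
  obtain ⟨C', hC'⟩ := exists_small.{u} s
  refine ⟨(C + 2) + (C' + 1) + (s + 1), fun σ _ _ => (bias_of hC (hC' σ)).mono ?_⟩
  set d := Fintype.card σ
  have h1 : (2 * d + 4) * (C + 1) ≤ (d + 2) ^ (C + 2) := by
    have h2 : C + 1 ≤ 2 ^ C := Nat.lt_two_pow_self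
    have h3 : 2 ^ C ≤ (d + 2) ^ C := Nat.pow_le_pow_left (by omega) _
    calc (2 * d + 4) * (C + 1) ≤ ((d + 2) * (d + 2)) * (d + 2) ^ C := by
          gcongr
          · nlinarith
          · exact h2.trans h3
      _ = _ := by ring
  have h2 : d * s + 1 ≤ (d + 2) ^ (s + 1) := by
    have h2 : s + 1 ≤ 2 ^ s := Nat.lt_two_pow_self
    have h3 : 2 ^ s ≤ (d + 2) ^ s := Nat.pow_le_pow_left (by omega) _
    calc d * s + 1 ≤ (s + 1) * (d + 2) := by nlinarith
      _ ≤ (d + 2) ^ s * (d + 2) := by gcongr; exact h2.trans h3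
      _ = _ := by ring
  rw [pow_add, pow_add]
  exact Nat.mul_le_mul (Nat.mul_le_mul h1 (pow_add_one_le _ _)) h2

end Crest.Agent.T49.Weyl
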