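import Crest.Agent.T49.NilSt_61
import Crest.Agent.T49.Weyl3_14

/-!
# Row 49 (helper89): affine integer substitutions in polynomial sequences
-/

set_option autoImplicit false

noncomputable section

namespace Crest.Agent.T49.Zo

open Finset MvPolynomial Crest.Agent.T49.Nil Crest.Agent.T49.Nil.ND
open Crest.Agent.T49.Bch (star)

section Poly
variable {σ τ : Type}

/-- weighted `ℓ¹` norm -/
def nw (T : ℝ) (p : MvPolynomial τ ℝ) : ℝ := ∑ α ∈ p.support, |coeff α p| * T ^ α.degree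

theorem nw_eq {T : ℝ} (p : MvPolynomial τ ℝ) {s : Finset (τ →₀ ℕ)} (h : p.support ⊆ s) :
    nw T p = ∑ α ∈ s, |coeff α p| * T ^ α.degree :=
  sum_subset h fun α _ hα => by rw [notMem_support_iff.1 hα]; simp

theorem nw_nonneg {T : ℝ} (hT : 0 ≤ T) (p : MvPolynomial τ ℝ) : 0 ≤ nw T p :=
  sum_nonneg fun _ _ => by positivity

theorem coeff_le_nw {T : ℝ} (hT : 0 ≤ T) (p : MvPolynomial τ ℝ) (α : τ →₀ ℕ) :
    |coeff α p| * T ^ α.degree ≤ nw T p := by
  by_cases h : α ∈ p.support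
  · exact single_le_sum (f := fun α => |coeff α p| * T ^ α.degree) (fun _ _ => by positivity) h
  · rw [notMem_support_iff.1 h]; simpa using nw_nonneg hT p

theorem nw_add_le {T : ℝ} (hT : 0 ≤ T) (p q : MvPolynomial τ ℝ) :
    nw T (p + q) ≤ nw T p + nw T q := by
  classical
  rw [nw_eq (p + q) support_add, nw_eq p subset_union_left, nw_eq q subset_union_right,
    ← sum_add_distrib]
  refine sum_le_sum fun α _ => ?_
  rw [coeff_add, ← add_mul]
  exact mul_le_mul_of_nonneg_right (abs_add_le _ _) (by positivity)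

theorem nw_zero (T : ℝ) : nw T (0 : MvPolynomial τ ℝ) = 0 := by simp [nw]

theorem nw_sum_le {β : Type*} {T : ℝ} (hT : 0 ≤ T) (s : Finset β) (p : β → MvPolynomial τ ℝ) :
    nw T (∑ b ∈ s, p b) ≤ ∑ b ∈ s, nw T (p b) := by
  classical
  induction s using Finset.induction_on with
  | empty => simp [nw_zero]
  | insert a s ha ih =>
    rw [sum_insert ha, sum_insert ha]
    exact (nw_add_le hT _ _).trans (by linarith)

theorem nw_monomial (T : ℝ) (α : τ →₀ ℕ) (c : ℝ) :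
    nw T (monomial α c) = |c| * T ^ α.degree := by
  classical
  rw [nw_eq _ support_monomial_subset, sum_singleton, coeff_monomial, if_pos rfl]

theorem nw_mul_le {T : ℝ} (hT : 0 ≤ T) (p q : MvPolynomial τ ℝ) :
    nw T (p * q) ≤ nw T p * nw T q := by
  conv_lhs => rw [p.as_sum, q.as_sum, sum_mul_sum]
  refine (nw_sum_le hT _ _).trans ?_
  rw [nw, nw, sum_mul_sum]
  refine sum_le_sum fun α _ => (nw_sum_le hT _ _).trans (le_of_eq (sum_congr rfl fun β _ => ?_))
  rw [monomial_mul, nw_monomial, map_add, pow_add, abs_mul]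
  ring

theorem nw_C (T c : ℝ) : nw T (C c : MvPolynomial τ ℝ) = |c| := by
  rw [C_apply, nw_monomial]; simp

theorem nw_C_mul_X (T c : ℝ) (k : τ) : nw T (C c * X k : MvPolynomial τ ℝ) = |c| * T := by
  rw [C_mul_X_eq_monomial, nw_monomial]; simp

theorem nw_pow_le {T B : ℝ} (hT : 0 ≤ T) {p : MvPolynomial τ ℝ} (h : nw T p ≤ B) (n : ℕ) :
    nw T (p ^ n) ≤ B ^ n := by
  have hB : 0 ≤ B := (nw_nonneg hT p).trans h
  induction n with
  | zero => rw [pow_zero, ← C_1, nw_C]; simp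
  | succ n ih =>
    rw [pow_succ, pow_succ]
    exact (nw_mul_le hT _ _).trans (mul_le_mul ih h (nw_nonneg hT p) (by positivity))

/-- the image of the monomial `t ^ β` -/
def fp (f : σ → MvPolynomial τ ℝ) (β : σ →₀ ℕ) : MvPolynomial τ ℝ := aeval f (monomial β (1 : ℝ))

theorem fp_zero (f : σ → MvPolynomial τ ℝ) : fp f 0 = 1 := by simp [fp]

theorem fp_add (f : σ → MvPolynomial τ ℝ) (β γ : σ →₀ ℕ) : fp f (β + γ) = fp f β * fp f γ := by
  rw [fp, fp, fp, ← map_mul, monomial_mul, one_mul]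

theorem fp_single (f : σ → MvPolynomial τ ℝ) (v : σ) (n : ℕ) :
    fp f (Finsupp.single v n) = f v ^ n := by
  rw [fp, ← X_pow_eq_monomial, map_pow, aeval_X]

theorem nw_fp_le {T B : ℝ} (hT : 0 ≤ T) (hB : 0 ≤ B) {f : σ → MvPolynomial τ ℝ}
    (h : ∀ v, nw T (f v) ≤ B) (β : σ →₀ ℕ) : nw T (fp f β) ≤ B ^ β.degree := by
  induction β using Finsupp.induction_linear with
  | zero => rw [fp_zero, ← C_1, nw_C]; simp
  | add β γ h1 h2 =>
    rw [fp_add, map_add, pow_add]
    exact (nw_mul_le hT _ _).trans (mul_le_mul h1 h2 (nw_nonneg hT _) (by positivity))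
  | single v n => rw [fp_single, Finsupp.degree_single]; exact nw_pow_le hT (h v) n

theorem totalDegree_fp {f : σ → MvPolynomial τ ℝ} (h : ∀ v, (f v).totalDegree ≤ 1) (β : σ →₀ ℕ) :
    (fp f β).totalDegree ≤ β.degree := by
  induction β using Finsupp.induction_linear with
  | zero => simp [fp_zero]
  | add β γ h1 h2 =>
    rw [fp_add, map_add]
    exact (totalDegree_mul _ _).trans (add_le_add h1 h2)
  | single v n =>
    rw [fp_single, Finsupp.degree_single]
    exact (totalDegree_pow _ _).trans (by nlinarith [h v])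

theorem coeff_eq_zero_of_lt {p : MvPolynomial τ ℝ} {n : ℕ} (h : p.totalDegree ≤ n) {α : τ →₀ ℕ}
    (hα : n < α.degree) : coeff α p = 0 :=
  coeff_eq_zero_of_totalDegree_lt (lt_of_le_of_lt h hα)

theorem coeff_fp_eq_zero {f : σ → MvPolynomial τ ℝ} (h : ∀ v, (f v).totalDegree ≤ 1)
    {β : σ →₀ ℕ} {α : τ →₀ ℕ} (hα : β.degree < α.degree) : coeff α (fp f β) = 0 :=
  coeff_eq_zero_of_lt (totalDegree_fp h β) hα

theorem coeff_top_mul {p q : MvPolynomial τ ℝ} {a b : ℕ} (hp : p.totalDegree ≤ a)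
    (hq : q.totalDegree ≤ b) (k : τ) :
    coeff (Finsupp.single k (a + b)) (p * q) =
      coeff (Finsupp.single k a) p * coeff (Finsupp.single k b) q := by
  classical
  rw [coeff_mul, Finsupp.antidiagonal_single, sum_map, sum_eq_single (a, b)]
  · rfl
  · rintro ⟨x, y⟩ hxy hne
    rw [HasAntidiagonal.mem_antidiagonal] at hxy
    simp only [Function.Embedding.coe_prodMap, Function.Embedding.coeFn_mk, Prod.map_fst,
      Prod.map_snd]
    by_cases h : a < x
    · rw [coeff_eq_zero_of_lt hp (by simpa using h), zero_mul]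
    · have : b < y := by
        have : ¬(x = a ∧ y = b) := fun h => hne (by rw [h.1, h.2])
        simp only at hxy
        omega
      rw [coeff_eq_zero_of_lt hq (by simpa using this), mul_zero]
  · intro h
    exact (h (HasAntidiagonal.mem_antidiagonal.2 rfl)).elim

theorem coeff_top_fp {f : σ → MvPolynomial τ ℝ} (h : ∀ v, (f v).totalDegree ≤ 1) (k : τ)
    (β : σ →₀ ℕ) : coeff (Finsupp.single k β.degree) (fp f β) =
      eval (fun v => coeff (Finsupp.single k 1) (f v)) (monomial β (1 : ℝ)) := by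
  induction β using Finsupp.induction_linear with
  | zero => simp [fp_zero]
  | add β γ h1 h2 =>
    rw [fp_add, map_add, coeff_top_mul (totalDegree_fp h β) (totalDegree_fp h γ), h1, h2,
      ← map_mul, monomial_mul, one_mul]
  | single v n =>
    rw [fp_single, Finsupp.degree_single, ← X_pow_eq_monomial, map_pow, eval_X]
    induction n with
    | zero => simp
    | succ n ih =>
      rw [pow_succ, coeff_top_mul ((totalDegree_pow _ _).trans (by nlinarith [h v])) (h v), ih,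
        pow_succ]

/-- integer coefficients -/
def IntP (p : MvPolynomial τ ℝ) : Prop :=
  ∃ g : MvPolynomial τ ℤ, p = MvPolynomial.map (Int.castRingHom ℝ) g

theorem IntP.coeff {p : MvPolynomial τ ℝ} (h : IntP p) (α : τ →₀ ℕ) : ∃ z : ℤ, coeff α p = z := by
  obtain ⟨g, rfl⟩ := h
  exact ⟨g.coeff α, by rw [coeff_map]; rfl⟩

theorem intP_fp {f : σ → MvPolynomial τ ℝ} (h : ∀ v, IntP (f v)) (β : σ →₀ ℕ) : IntP (fp f β) := by
  induction β using Finsupp.induction_linear with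
  | zero => exact ⟨1, by simp [fp_zero]⟩
  | add β γ h1 h2 =>
    obtain ⟨g1, e1⟩ := h1
    obtain ⟨g2, e2⟩ := h2
    exact ⟨g1 * g2, by rw [fp_add, e1, e2, map_mul]⟩
  | single v n =>
    obtain ⟨g, e⟩ := h v
    exact ⟨g ^ n, by rw [fp_single, e, map_pow]⟩

/-- admissible substitutions: affine, integral, mapping the scale `T₁` into the scale `T` -/
structure Sub (T₁ T : ℝ) (f : σ → MvPolynomial τ ℝ) : Prop where
  deg : ∀ v, (f v).totalDegree ≤ 1
  int : ∀ v, IntP (f v)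
  nw_le : ∀ v, nw T₁ (f v) ≤ T

variable [Fintype τ]

/-- the affine map `s ↦ a + ∑ k, s k • E k` -/
def apt (a : σ → ℤ) (E : τ → σ → ℤ) (s : τ → ℤ) : σ → ℤ := fun v => a v + ∑ k, s k * E k v

/-- the affine map `s ↦ a + ∑ k, s k • E k` as a substitution -/
def aff (a : σ → ℤ) (E : τ → σ → ℤ) : σ → MvPolynomial τ ℝ :=
  fun v => C (a v : ℝ) + ∑ k, C (E k v : ℝ) * X k

theorem aff_deg (a : σ → ℤ) (E : τ → σ → ℤ) (v : σ) : (aff a E v).totalDegree ≤ 1 := by
  refine (totalDegree_add _ _).trans (max_le (by rw [totalDegree_C]; omega)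
    (totalDegree_finsetSum_le fun k _ => ?_))
  exact (totalDegree_mul _ _).trans (by rw [totalDegree_C, totalDegree_X])

theorem aff_int (a : σ → ℤ) (E : τ → σ → ℤ) (v : σ) : IntP (aff a E v) :=
  ⟨C (a v) + ∑ k, C (E k v) * X k, by simp [aff]⟩

theorem nw_aff {T : ℝ} (hT : 0 ≤ T) (a : σ → ℤ) (E : τ → σ → ℤ) (v : σ) :
    nw T (aff a E v) ≤ |(a v : ℝ)| + ∑ k, |(E k v : ℝ)| * T := by
  refine (nw_add_le hT _ _).trans (add_le_add (nw_C _ _).le ((nw_sum_le hT _ _).trans ?_))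
  simp only [nw_C_mul_X, le_refl]

theorem sub_aff {T₁ T : ℝ} (hT : 0 ≤ T₁) {a : σ → ℤ} {E : τ → σ → ℤ}
    (h : ∀ v, |(a v : ℝ)| + ∑ k, |(E k v : ℝ)| * T₁ ≤ T) : Sub T₁ T (aff a E) :=
  ⟨aff_deg a E, aff_int a E, fun v => (nw_aff hT a E v).trans (h v)⟩

theorem coeff_aff (a : σ → ℤ) (E : τ → σ → ℤ) (k : τ) (v : σ) :
    coeff (Finsupp.single k 1) (aff a E v) = E k v := by
  classical
  rw [aff, coeff_add, coeff_C, if_neg (by simp [eq_comm]), zero_add, coeff_sum, sum_eq_single k]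
  · rw [coeff_C_mul, coeff_X, if_pos rfl, mul_one]
  · intro l _ hl
    rw [coeff_C_mul, coeff_X, if_neg, mul_zero]
    intro h
    exact hl (Finsupp.single_left_injective one_ne_zero h)
  · simp

theorem aeval_aff (a : σ → ℤ) (E : τ → σ → ℤ) (s : τ → ℤ) (v : σ) :
    aeval (fun k => (s k : ℝ)) (aff a E v) = (apt a E s v : ℝ) := by
  simp [aff, apt, mul_comm]

end Poly

variable {ι : Type} [Fintype ι] {N : ND ι} {σ τ : Type}

theorem evZ_aff [Fintype τ] (a : σ → ℤ) (E : τ → σ → ℤ) (s : τ → ℤ) (P : N.PS σ) :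
    N.evZ s (N.subst (aff a E) P) = N.evZ (apt a E s) P := by
  unfold ND.evZ
  rw [ev_subst]
  simp only [aeval_aff]

theorem cv_subst (f : σ → MvPolynomial τ ℝ) (P : N.PS σ) {B : Finset (σ →₀ ℕ)}
    (hB : ∀ β, N.cv β P ≠ 0 → β ∈ B) (α : τ →₀ ℕ) :
    N.cv α (N.subst f P) = ∑ β ∈ B, coeff α (fp f β) • N.cv β P := by
  refine pts_ext fun k => ?_
  have h1 : P k = ∑ β ∈ B, monomial β (coeff β (P k)) := by
    conv_lhs => rw [(P k).as_sum]
    refine sum_subset (fun β hβ => hB β fun h => mem_support_iff.1 hβ (congrFun h k)) ?_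
    intro β _ hβ
    rw [notMem_support_iff.1 hβ, map_zero]
  have h2 : N.cv α (N.subst f P) k = coeff α (aeval f (P k)) := rfl
  rw [h2, ND.sum_apply]
  conv_lhs => rw [h1]
  rw [map_sum, coeff_sum]
  refine sum_congr rfl fun β _ => ?_
  have : (monomial β (coeff β (P k)) : MvPolynomial σ ℝ) = coeff β (P k) • monomial β 1 := by
    rw [smul_monomial, smul_eq_mul, mul_one]
  rw [this, map_smul, coeff_smul, ND.smul_apply, cv_apply, smul_eq_mul, smul_eq_mul, mul_comm]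
  rfl

theorem exists_supp (P : N.PS σ) : ∃ B : Finset (σ →₀ ℕ), ∀ β, β ∈ B ↔ N.cv β P ≠ 0 :=
  ⟨(St.finite_cv P).toFinset, fun β => by simp⟩

theorem subst_mem_cf {H : ℕ → Submodule ℝ N.L} (hH : Antitone H) {f : σ → MvPolynomial τ ℝ}
    (hf : ∀ v, (f v).totalDegree ≤ 1) {P : N.PS σ} (hP : P ∈ cf σ H) : N.subst f P ∈ cf τ H := by
  obtain ⟨B, hB⟩ := exists_supp P
  intro α
  rw [cv_subst f P fun β h => (hB β).2 h]
  refine Submodule.sum_mem _ fun β _ => ?_
  by_cases h : β.degree < α.degree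
  · rw [coeff_fp_eq_zero hf h, zero_smul]; exact zero_mem _
  · exact Submodule.smul_mem _ _ (hH (not_lt.1 h) (hP β))

theorem subst_mem_poly {f : σ → MvPolynomial τ ℝ} (hf : ∀ v, (f v).totalDegree ≤ 1) {P : N.PS σ}
    (hP : P ∈ N.poly σ) : N.subst f P ∈ N.poly τ := subst_mem_cf grSub_F.anti hf hP

theorem subst_ratP {f : σ → MvPolynomial τ ℝ} (hf : ∀ v, IntP (f v)) {q : ℕ} {P : N.PS σ}
    (hP : N.RatP q P) : N.RatP q (N.subst f P) := by
  obtain ⟨B, hB⟩ := exists_supp P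
  intro α
  rw [cv_subst f P fun β h => (hB β).2 h]
  refine Gon.IsDen.sum B fun β _ => ?_
  obtain ⟨z, hz⟩ := (intP_fp hf β).coeff α
  rw [hz]
  exact Gon.IsDen.zsmul (hP β) z

/-- the number of monomials of degree `≤ S` in `D` variables is at most `nm D S` -/
def nm (D S : ℕ) : ℕ := (S + 1) * (D + S) ^ S

theorem card_le_nm [Fintype σ] {D S : ℕ} (hD : Fintype.card σ ≤ D) (B : Finset (σ →₀ ℕ))
    (h : ∀ β ∈ B, β.degree ≤ S) : #B ≤ nm D S := by
  classical
  rw [card_eq_sum_card_fiberwise (f := fun β => β.degree) (t := range (S + 1))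
    fun β hβ => by simpa [Nat.lt_succ_iff] using h β hβ]
  refine (sum_le_card_nsmul _ _ ((D + S) ^ S) fun n hn => ?_).trans (by simp [nm])
  have hn' : n ≤ S := by simpa [Nat.lt_succ_iff] using hn
  refine (Weyl.card_degree_le _ fun α hα => (mem_filter.1 hα).2).trans ?_
  rcases Nat.eq_zero_or_pos S with rfl | hS
  · obtain rfl : n = 0 := by omega
    simp
  · exact (Nat.pow_le_pow_left (by omega) n).trans (Nat.pow_le_pow_right (by omega) hn')

theorem subst_sm [Fintype σ] {D S : ℕ} (hD : Fintype.card σ ≤ D) (hS : ∀ k, N.wt k ≤ S)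
    {T₁ T K M : ℝ} (hT₁ : 0 ≤ T₁) (hT : 0 ≤ T) (hK : 1 ≤ K) {f : σ → MvPolynomial τ ℝ}
    (hf : ∀ v, nw T₁ (f v) ≤ K * T) {P : N.PS σ} (hP : P ∈ N.poly σ) (h : N.Sm T M P) :
    N.Sm T₁ (nm D S * K ^ S * M) (N.subst f P) := by
  obtain ⟨B, hB⟩ := exists_supp P
  have hM := St.Sm_nonneg h
  have hdeg : ∀ β ∈ B, β.degree ≤ S := fun β hβ => by
    by_contra hc
    exact (hB β).1 hβ (St.cv_eq_zero hS hP (not_le.1 hc))
  intro α
  rw [cv_subst f P fun β h => (hB β).2 h]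
  calc _ ≤ (∑ β ∈ B, |coeff α (fp f β)| * ‖N.cv β P‖) * T₁ ^ α.degree := by
        refine mul_le_mul_of_nonneg_right ((norm_sum_le _ _).trans (le_of_eq ?_)) (by positivity)
        simp only [norm_smul, Real.norm_eq_abs]
    _ ≤ ∑ β ∈ B, K ^ S * M := by
        rw [sum_mul]
        refine sum_le_sum fun β hβ => ?_
        have h1 := (coeff_le_nw hT₁ (fp f β) α).trans (nw_fp_le hT₁ (by positivity) hf β)
        have h2 : K ^ β.degree ≤ K ^ S := pow_le_pow_right₀ hK (hdeg β hβ)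
        calc _ = |coeff α (fp f β)| * T₁ ^ α.degree * ‖N.cv β P‖ := by ring
          _ ≤ (K * T) ^ β.degree * ‖N.cv β P‖ := mul_le_mul_of_nonneg_right h1 (norm_nonneg _)
          _ = K ^ β.degree * (‖N.cv β P‖ * T ^ β.degree) := by ring
          _ ≤ K ^ S * M := mul_le_mul h2 (h β) (by positivity) (by positivity)
    _ ≤ _ := by
        rw [sum_const, nsmul_eq_mul, mul_assoc]
        refine mul_le_mul_of_nonneg_right ?_ (by positivity)
        exact_mod_cast card_le_nm hD B hdeg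

/-- a factorisation survives an affine integer substitution -/
theorem factQ_subst [Fintype σ] {D S S' : ℕ} (hD : Fintype.card σ ≤ D) (hS : ∀ k, N.wt k ≤ S')
    {T₁ T K M : ℝ} (hT₁ : 0 ≤ T₁) (hT : 0 ≤ T) (hK : 1 ≤ K) {f : σ → MvPolynomial τ ℝ}
    (hf : Sub T₁ (K * T) f) {q : ℕ} {H : ℕ → Submodule ℝ N.L} (hH : N.GrSub H) {P : N.PS σ}
    (h : N.FactQ S T M q H P) : N.FactQ S T₁ (nm D S' * K ^ S' * M) q H (N.subst f P) := by
  obtain ⟨ε, h1, g, h2, γ, h3, h4, h5, rfl⟩ := h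
  exact ⟨_, subst_mem_poly hf.deg h1, _, subst_mem_cf hH.anti hf.deg h2, _,
    subst_mem_poly hf.deg h3, subst_sm hD hS hT₁ hT hK hf.nw_le h1 h4, subst_ratP hf.int h5,
    by rw [Bch.map_star, Bch.map_star]⟩

/-- change of scale -/
theorem sm_scale {S : ℕ} (hS : ∀ k, N.wt k ≤ S) {T₁ T K M : ℝ} (hT₁ : 0 ≤ T₁) (hT : 0 ≤ T)
    (hK : 1 ≤ K) (hle : T₁ ≤ K * T) {P : N.PS σ} (hP : P ∈ N.poly σ) (h : N.Sm T M P) :
    N.Sm T₁ (K ^ S * M) P := by
  intro α
  have hM := St.Sm_nonneg h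
  by_cases hα : S < α.degree
  · rw [St.cv_eq_zero hS hP hα, norm_zero, zero_mul]; positivity
  · calc _ ≤ ‖N.cv α P‖ * (K * T) ^ α.degree := by gcongr
      _ = K ^ α.degree * (‖N.cv α P‖ * T ^ α.degree) := by ring
      _ ≤ _ := mul_le_mul (pow_le_pow_right₀ hK (not_lt.1 hα)) (h α) (by positivity)
          (by positivity)

theorem factQ_scale {S S' : ℕ} (hS : ∀ k, N.wt k ≤ S') {T₁ T K M : ℝ} (hT₁ : 0 ≤ T₁) (hT : 0 ≤ T)
    (hK : 1 ≤ K) (hle : T₁ ≤ K * T) {q : ℕ} {H : ℕ → Submodule ℝ N.L} {P : N.PS σ}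
    (h : N.FactQ S T M q H P) : N.FactQ S T₁ (K ^ S' * M) q H P := by
  obtain ⟨ε, h1, g, h2, γ, h3, h4, h5, h6⟩ := h
  exact ⟨ε, h1, g, h2, γ, h3, sm_scale hS hT₁ hT hK hle h1 h4, h5, h6⟩

end Crest.Agent.T49.Zo
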