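import Crest.Agent.T49.GlDef_99
import Crest.Agent.T49.DlLoc_51
import Crest.Agent.T49.WinN2_56
import Crest.Agent.T49.LrA_84
import Crest.Agent.T49.ZoAff_89
import Crest.Agent.T49.NilCnt_14
import Crest.Agent.T49.NilPd_67
import Crest.Agent.T49.TwPoly_91
import Crest.Agent.T49.Qp_85

/-!
# Row 49 (helper27): `BackStmt`
-/

set_option autoImplicit false

noncomputable section

namespace Crest.Agent.T49.Gl

open MvPolynomial Finset Crest.Agent.T49.Tw Crest.Agent.T49.Nil Crest.Agent.T49.Nil.ND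
open Crest.Agent.T49.GI (pd pair fst snd)
open Crest.Agent.T49.Gf (wcf)
open Crest.Agent.T49.Dl.D51 (bx cells mem_bx card_bx)

namespace Back27

variable {σ : Type} [Fintype σ] [DecidableEq σ]

/-- a cell on which a slowly varying phase can be dropped -/
theorem exists_cell {L b l : ℕ} (hb : 1 ≤ b) (hl : 1 ≤ l) (hL : 0 < L) {δ ρ K : ℝ} (hδ : 0 < δ)
    (hbl : (b * l : ℝ) ≤ ρ * L) (h1 : Fintype.card σ * ρ ≤ δ / 2) (h2 : K * ρ ≤ δ / 4)
    (a ψ : (σ → ℤ) → ℂ) (ha : ∀ t, ‖a t‖ ≤ 1) (hψ : ∀ t, ‖ψ t‖ ≤ 1)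
    (hlip : ∀ t ∈ bx σ L, ∀ t' ∈ bx σ L, (∀ v, (b : ℤ) ∣ t v - t' v) →
      (∀ v, |(t v : ℝ) - t' v| ≤ ρ * L) → ‖ψ t - ψ t'‖ ≤ K * ρ)
    (h : δ * (L : ℝ) ^ Fintype.card σ ≤ ‖∑ t ∈ bx σ L, a t * ψ t‖) :
    ∃ y ∈ bx σ L, δ / 4 * (l : ℝ) ^ Fintype.card σ ≤ ‖∑ u ∈ bx σ l, a (y + (b : ℤ) • u)‖ := by
  obtain ⟨c, hc, hc'⟩ := Complex.exists_norm_eq_mul_self (∑ t ∈ bx σ L, a t * ψ t)
  have hbl0 : 0 < b * l := Nat.mul_pos hb hl
  set n := L / (b * l) with hn
  have hn1 : n * (b * l) ≤ L := Nat.div_mul_le_self _ _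
  have hn2 : L < n * (b * l) + b * l := by
    have := Nat.div_add_mod' L (b * l)
    have := Nat.mod_lt L hbl0
    rw [← hn] at *
    omega
  have hL' : (0 : ℝ) < L := by exact_mod_cast hL
  let f : (σ → ℤ) → ℝ := fun t => (c * (a t * ψ t)).re
  have hf : ∀ t, f t ≤ 1 := fun t => (Complex.re_le_norm _).trans (by
    rw [norm_mul, hc, one_mul, norm_mul]
    exact mul_le_one₀ (ha t) (norm_nonneg _) (hψ t))
  have e1 : ∑ t ∈ bx σ L, f t = ‖∑ t ∈ bx σ L, a t * ψ t‖ := by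
    rw [← Complex.re_sum, ← mul_sum, ← hc', Complex.ofReal_re]
  have e2 := Dl.D51.sum_bx_le hn1 hL hf (ε := δ / 2) (by
    have h3 : (L : ℝ) ≤ (n * (b * l) : ℕ) + b * l := by exact_mod_cast hn2.le
    have h4 : (0 : ℝ) ≤ Fintype.card σ := Nat.cast_nonneg _
    calc _ ≤ Fintype.card σ * (ρ * L) := mul_le_mul_of_nonneg_left (by linarith) h4
      _ ≤ _ := by rw [← mul_assoc]; exact mul_le_mul_of_nonneg_right h1 hL'.le)
  rw [Dl.D51.sum_cells hb hl, e1] at e2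
  have e3 := Dl.D51.card_cells (σ := σ) hb hl n
  have e4 : (n * (b * l) : ℝ) ^ Fintype.card σ ≤ (L : ℝ) ^ Fintype.card σ :=
    pow_le_pow_left₀ (by positivity) (by exact_mod_cast hn1) _
  have hP : 0 < (L : ℝ) ^ Fintype.card σ := by positivity
  have hne : (cells σ b l n).Nonempty := by
    rw [nonempty_iff_ne_empty]
    intro h0
    rw [h0, sum_empty] at e2
    nlinarith
  obtain ⟨y, hy, hy'⟩ := exists_le_of_sum_le hne
    (f := fun _ => δ / 2 * (l : ℝ) ^ Fintype.card σ)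
    (g := fun y => ∑ u ∈ bx σ l, f (y + (b : ℤ) • u)) (by
      rw [sum_const, nsmul_eq_mul, mul_left_comm, e3]
      nlinarith)
  have hsub : ∀ u ∈ bx σ l, y + (b : ℤ) • u ∈ bx σ L := fun u hu => mem_bx.2 fun v =>
    ⟨(mem_bx.1 (Dl.D51.add_mem_bx hb hy hu) v).1,
      (mem_bx.1 (Dl.D51.add_mem_bx hb hy hu) v).2.trans_le (by exact_mod_cast hn1)⟩
  have hy0 : y ∈ bx σ L := by
    simpa using hsub 0 (mem_bx.2 fun v => ⟨le_rfl, by simp only [Pi.zero_apply]; omega⟩)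
  refine ⟨y, hy0, ?_⟩
  have e5 : ∀ u ∈ bx σ l, f (y + (b : ℤ) • u) ≤ (c * ψ y * a (y + (b : ℤ) • u)).re + δ / 4 := by
    intro u hu
    have h3 := hlip _ (hsub u hu) _ hy0 (fun v => by simp) fun v => by
      have h4 := mem_bx.1 hu v
      have h5 : (0 : ℝ) ≤ u v := by exact_mod_cast h4.1
      have h6 : (u v : ℝ) ≤ l := by exact_mod_cast h4.2.le
      have h7 : (0 : ℝ) ≤ b := Nat.cast_nonneg _
      simp only [Pi.add_apply, Pi.smul_apply, smul_eq_mul, Int.cast_add, Int.cast_mul,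
        Int.cast_natCast, add_sub_cancel_left]
      rw [abs_of_nonneg (by positivity)]
      nlinarith
    have h4 : (c * a (y + (b : ℤ) • u) * (ψ (y + (b : ℤ) • u) - ψ y)).re ≤ δ / 4 := by
      refine (Complex.re_le_norm _).trans ?_
      rw [norm_mul, norm_mul, hc, one_mul]
      exact (mul_le_of_le_one_left (norm_nonneg _) (ha _)).trans (h3.trans h2)
    have h5 : c * (a (y + (b : ℤ) • u) * ψ (y + (b : ℤ) • u)) = c * ψ y * a (y + (b : ℤ) • u) +
        c * a (y + (b : ℤ) • u) * (ψ (y + (b : ℤ) • u) - ψ y) := by ring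
    simp only [f]
    rw [h5, Complex.add_re]
    linarith
  have e6 := sum_le_sum e5
  replace e6 := hy'.trans e6
  rw [sum_add_distrib, sum_const, card_bx, nsmul_eq_mul, ← Complex.re_sum, ← mul_sum] at e6
  have e7 : (c * ψ y * ∑ u ∈ bx σ l, a (y + (b : ℤ) • u)).re ≤
      ‖∑ u ∈ bx σ l, a (y + (b : ℤ) • u)‖ := by
    refine (Complex.re_le_norm _).trans ?_
    rw [norm_mul, norm_mul, hc, one_mul]
    exact mul_le_of_le_one_left (norm_nonneg _) (hψ _)
  push_cast at e6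
  linarith

variable {ι : Type} [Fintype ι] {N : ND ι}

/-- the substitution `u ↦ y + b u` -/
def fw' (y : σ → ℤ) (b : ℕ) : σ → Pl σ := fun v => C (y v : ℝ) + C (b : ℝ) * X v

/-- the substitution `t ↦ (t - y) / b` -/
def bw' (y : σ → ℤ) (b : ℕ) : σ → Pl σ := fun v => C (b : ℝ)⁻¹ * (X v - C (y v : ℝ))

omit [Fintype σ] [DecidableEq σ] in
theorem fw'_deg (y : σ → ℤ) (b : ℕ) (v : σ) : (fw' y b v).totalDegree ≤ 1 :=
  (totalDegree_add _ _).trans (max_le (by rw [totalDegree_C]; omega)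
    ((totalDegree_mul _ _).trans (by rw [totalDegree_C, totalDegree_X])))

omit [Fintype σ] [DecidableEq σ] in
theorem bw'_deg (y : σ → ℤ) (b : ℕ) (v : σ) : (bw' y b v).totalDegree ≤ 1 :=
  (totalDegree_mul _ _).trans (by
    rw [totalDegree_C, zero_add]
    exact (totalDegree_sub _ _).trans (max_le (by rw [totalDegree_X])
      (by rw [totalDegree_C]; omega)))

omit [Fintype σ] [DecidableEq σ] in
theorem evZ_fw' (y : σ → ℤ) (b : ℕ) (u : σ → ℤ) (P : N.PS σ) :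
    N.evZ u (N.subst (fw' y b) P) = N.evZ (y + (b : ℤ) • u) P := by
  unfold ND.evZ
  rw [ev_subst]
  congr 2
  funext v
  simp [fw']

omit [Fintype σ] [DecidableEq σ] in
theorem bw'_fw' (y : σ → ℤ) {b : ℕ} (hb : 1 ≤ b) (P : N.PS σ) :
    N.subst (bw' y b) (N.subst (fw' y b) P) = P := by
  have hb' : (b : ℝ) ≠ 0 := by positivity
  refine pts_ext fun k => ?_
  have : (aeval (bw' y b)).comp (aeval (fw' y b)) = AlgHom.id ℝ (Pl σ) := by
    refine MvPolynomial.algHom_ext fun v => ?_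
    simp only [AlgHom.comp_apply, aeval_X, fw', map_add, map_mul, aeval_C, bw', algebraMap_eq,
      AlgHom.id_apply]
    rw [← mul_assoc, ← map_mul, mul_inv_cancel₀ hb', map_one]
    ring
  exact DFunLike.congr_fun this (P k)

omit [Fintype σ] [DecidableEq σ] in
theorem fp_C_mul (r : ℝ) (g : σ → Pl σ) (β : σ →₀ ℕ) :
    Zo.fp (fun v => C r * g v) β = C (r ^ β.degree) * Zo.fp g β := by
  induction β using Finsupp.induction_linear with
  | zero => simp [Zo.fp_zero]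
  | add β γ h1 h2 => rw [Zo.fp_add, Zo.fp_add, h1, h2, map_add, pow_add, map_mul]; ring
  | single v n => rw [Zo.fp_single, Zo.fp_single, Finsupp.degree_single, mul_pow, map_pow]

omit [Fintype σ] [DecidableEq σ] in
theorem ratP_bw' {S : ℕ} (hS : ∀ k, N.wt k ≤ S) (y : σ → ℤ) {b : ℕ} (hb : 1 ≤ b) {q : ℕ}
    {P : N.PS σ} (hP : P ∈ N.poly σ) (h : N.RatP q P) :
    N.RatP (q * b ^ S) (N.subst (bw' y b) P) := by
  obtain ⟨B, hB⟩ := Zo.exists_supp P
  have hb' : (b : ℝ) ≠ 0 := by positivity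
  intro α
  rw [Zo.cv_subst _ P fun β h => (hB β).2 h]
  refine Gon.IsDen.sum B fun β hβ => den_iff.2 fun k => ?_
  have hd : β.degree ≤ S := by
    by_contra hc
    exact (hB β).1 hβ (St.cv_eq_zero hS hP (not_le.1 hc))
  obtain ⟨z, hz⟩ := (Zo.intP_fp (f := fun v => (X v - C (y v : ℝ) : Pl σ))
    (fun v => ⟨X v - C (y v), by simp⟩) β).coeff α
  obtain ⟨w, hw⟩ := den_iff.1 (h β) k
  obtain ⟨e, rfl⟩ := Nat.exists_eq_add_of_le hd
  refine ⟨z * w * b ^ e, ?_⟩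
  have e1 := fp_C_mul (b : ℝ)⁻¹ (fun v => (X v - C (y v : ℝ) : Pl σ)) β
  change _ * (coeff α (Zo.fp (fun v => C (b : ℝ)⁻¹ * (X v - C (y v : ℝ))) β) * N.cv β P k) = _
  rw [e1, coeff_C_mul, hz]
  push_cast
  rw [← hw, inv_pow]
  field_simp
  ring

omit [DecidableEq σ] in
theorem unaff {S D : ℕ} (hD : Fintype.card σ ≤ D) (hS : ∀ k, N.wt k ≤ S) {y : σ → ℤ} {b : ℕ}
    (hb : 1 ≤ b) {L l K M : ℝ} (hl : 0 ≤ l) (hL : 0 ≤ L) (hy : ∀ v, |(y v : ℝ)| ≤ L) (hK : 1 ≤ K)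
    (hKl : 2 * L ≤ K * l) {q : ℕ} {H : ℕ → Submodule ℝ N.L} (hH : N.GrSub H) {P : N.PS σ}
    (h : N.FactQ S l M q H (N.subst (fw' y b) P)) :
    N.FactQ S L (Zo.nm D S * K ^ S * M) (q * b ^ S) H P := by
  obtain ⟨ε, h1, g, h2, γ, h3, h4, h5, h6⟩ := h
  refine ⟨_, Zo.subst_mem_poly (bw'_deg y b) h1, _, Zo.subst_mem_cf hH.anti (bw'_deg y b) h2, _,
    Zo.subst_mem_poly (bw'_deg y b) h3, Zo.subst_sm hD hS hL hl hK (fun v => ?_) h1 h4,
    ratP_bw' hS y hb h3 h5, ?_⟩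
  · have hb' : (1 : ℝ) ≤ b := by exact_mod_cast hb
    have e : (X v - C (y v : ℝ) : Pl σ) = C 1 * X v + C (-(y v : ℝ)) := by simp [sub_eq_add_neg]
    have h7 : Zo.nw L (X v - C (y v : ℝ) : Pl σ) ≤ 2 * L := by
      rw [e]
      refine (Zo.nw_add_le hL _ _).trans ?_
      rw [Zo.nw_C_mul_X, Zo.nw_C, abs_neg, abs_one]
      linarith [hy v]
    refine (Zo.nw_mul_le hL _ _).trans ?_
    rw [Zo.nw_C, abs_of_pos (by positivity)]
    exact (mul_le_of_le_one_left (Zo.nw_nonneg hL _) (inv_le_one_of_one_le₀ hb')).trans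
      (h7.trans hKl)
  · rw [← Bch.map_star, ← Bch.map_star, ← h6, bw'_fw' y hb]

set_option maxHeartbeats 1000000 in
/-- one frame -/
theorem one (hLT : LTStmt) (s D j : ℕ) (hj : 1 ≤ j) : ∃ C : ℕ, ∀ (m : ℝ), 2 ≤ m →
    m ≤ m ^ C ∧ ∀ (κ κ' : Type) [Fintype κ] [Fintype κ'] (N : ND κ) (N' : ND κ') (η : κ → ℤ)
    (F : N.L → ℂ) (F' : N'.L → ℂ) (P : N.PS (Fin D)) (Q : N'.PS (Fin D)) (L b : ℕ)
    (ψ : (Fin D → ℤ) → ℂ), (Fintype.card κ : ℝ) ≤ m → (Fintype.card κ' : ℝ) ≤ m →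
    Real.exp (m ^ C) ≤ L → N.Good s (Real.exp m) → N'.Good s (Real.exp m) →
    N.NChar s j (Real.exp m) η F → N'.NFn s j (Real.exp m) F' → P ∈ N.poly (Fin D) →
    Q ∈ N'.poly (Fin D) → 1 ≤ b → (b : ℝ) ≤ Real.exp m → (∀ t, ‖ψ t‖ ≤ 1) →
    (∀ ρ : ℝ, ∀ t ∈ pos D L, ∀ t' ∈ pos D L, (∀ v, (b : ℤ) ∣ t v - t' v) →
      (∀ v, |(t v : ℝ) - t' v| ≤ ρ * L) → 0 ≤ ρ → ‖ψ t - ψ t'‖ ≤ Real.exp m * ρ) →
    Real.exp (-m) * (L : ℝ) ^ D ≤ ‖∑ t ∈ pos D L, F (N.evZ t P) * (ψ t * F' (N'.evZ t Q))‖ →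
    ∃ (H : ℕ → Submodule ℝ (pd N N').L) (q : ℕ), (pd N N').GrSub H ∧
      (∀ i, (pd N N').RatS (Real.exp (m ^ C)) (H i)) ∧
      (∀ x : N.L, pair x 0 ∈ H j → N.fn η x = 0) ∧ 1 ≤ q ∧ (q : ℝ) ≤ Real.exp (m ^ C) ∧
      (pd N N').FactQ s L (Real.exp (m ^ C)) q H (pair P Q) := by
  obtain ⟨C1, h1⟩ := Win.exists_char D
  obtain ⟨C2, h2⟩ := hLT s j D hj
  obtain ⟨C, hC⟩ : ∃ C : ℕ, ∀ m : ℝ, 2 ≤ m → m ≤ m ^ C ∧
      (2 * (m + 2) ^ C1) ^ C2 ≤ m ^ C ∧
      (Real.exp ((2 * (m + 2) ^ C1) ^ C2) + 1) * (Real.exp m * (4 * (D + 1) * Real.exp m ^ 2)) ≤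
        Real.exp (m ^ C) ∧
      Real.exp ((2 * (m + 2) ^ C1) ^ C2) * Real.exp m ^ s ≤ Real.exp (m ^ C) ∧
      Zo.nm D s * (4 * (Real.exp m * (4 * (D + 1) * Real.exp m ^ 2))) ^ s *
        Real.exp ((2 * (m + 2) ^ C1) ^ C2) ≤ Real.exp (m ^ C) := by qp
  refine ⟨C, fun m hm => ?_⟩
  obtain ⟨a0, a1, a2, a3, a4⟩ := hC m hm
  refine ⟨a0, ?_⟩
  intro κ κ' _ _ N N' η F F' P Q L b ψ hκ hκ' hL hN hN' hF hF' hP hQ hb hbm hψ hlip h
  have hE : 1 ≤ Real.exp m := Real.one_le_exp (by linarith)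
  have hE' : Real.exp (-m) * Real.exp m = 1 := by rw [← Real.exp_add]; simp
  have hD : (0 : ℝ) ≤ D := Nat.cast_nonneg _
  have hb' : (1 : ℝ) ≤ b := by exact_mod_cast hb
  set W : ℝ := 4 * (D + 1) * Real.exp m ^ 2 with hW
  have hW1 : 1 ≤ W := by nlinarith
  set X := Real.exp ((2 * (m + 2) ^ C1) ^ C2) with hX
  have hX1 : 1 ≤ X := Real.one_le_exp (by positivity)
  have hL' : (0 : ℝ) < L := (Real.exp_pos _).trans_le hL
  set l := ⌊(L : ℝ) / (b * W)⌋₊ with hl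
  have hbW : 0 < b * W := by positivity
  have hl1 : (l : ℝ) ≤ L / (b * W) := Nat.floor_le (by positivity)
  have hl2 : L / (b * W) < l + 1 := Nat.lt_floor_add_one _
  have hl3 : X + 1 ≤ L / (b * W) := by
    rw [le_div_iff₀ hbW]
    refine le_trans ?_ (a2.trans hL)
    gcongr
  have hl4 : X ≤ l := by linarith
  have hl5 : (1 : ℝ) ≤ l := by linarith
  have hcard : Fintype.card (Fin D) = D := Fintype.card_fin D
  have hWi : W⁻¹ * W = 1 := inv_mul_cancel₀ (by positivity)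
  have hWi0 : 0 < W⁻¹ := by positivity
  have hkey : (D + 1) * Real.exp m * W⁻¹ = Real.exp (-m) / 4 := by
    rw [hW, Real.exp_neg]; field_simp
  obtain ⟨y, hy, hy'⟩ := exists_cell (σ := Fin D) (L := L) (b := b) (l := l) (ρ := W⁻¹)
    (K := Real.exp m) (δ := Real.exp (-m)) hb (by exact_mod_cast hl5) (by exact_mod_cast hL')
    (Real.exp_pos _)
    (by
      rw [le_div_iff₀ hbW] at hl1
      rw [inv_mul_eq_div, le_div_iff₀ (by positivity)]
      linarith)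
    (by
      rw [hcard]
      have : D * W⁻¹ ≤ (D + 1) * Real.exp m * W⁻¹ :=
        mul_le_mul_of_nonneg_right (by nlinarith) hWi0.le
      linarith [Real.exp_pos (-m)])
    (by
      have : Real.exp m * W⁻¹ ≤ (D + 1) * Real.exp m * W⁻¹ :=
        mul_le_mul_of_nonneg_right (by nlinarith) hWi0.le
      linarith)
    (fun t => F' (N'.evZ t Q) * F (N.evZ t P)) ψ
    (fun t => by rw [norm_mul]; exact mul_le_one₀ (hF'.bdd _) (norm_nonneg _) (hF.bdd _)) hψ
    (fun t ht t' ht' e1 e2 => hlip _ t ht t' ht' e1 e2 hWi0.le)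
    (by
      rw [hcard]
      refine h.trans (le_of_eq (congrArg _ (sum_congr rfl fun t _ => by ring))))
  have hbox : bx (Fin D) l = ibox 0 fun _ => (l : ℤ) - 1 := by
    ext u
    rw [mem_bx, mem_ibox]
    exact forall_congr' fun v => by simp only [Pi.zero_apply]; omega
  have hlo : ∀ v : Fin D, |(((0 : Fin D → ℤ) v : ℤ) : ℝ)| ≤ l ∧ |(((l : ℤ) - 1 : ℤ) : ℝ)| ≤ l :=
    fun v => ⟨by simp, by push_cast; rw [abs_of_nonneg (by linarith)]; linarith⟩
  rw [hbox] at hy'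
  have hm2 := Real.exp_le_exp.2 (show m ≤ m + 2 by linarith)
  obtain ⟨b1, η', G, hG, hG'⟩ := h1 (m + 2) (by linarith) κ' (Fin D) N' s j F'
    (fun u => N'.evZ (y + (b : ℤ) • u) Q) (fun u => F (N.evZ (y + (b : ℤ) • u) P)) l 0
    (fun _ => (l : ℤ) - 1) hcard.le (by linarith) hN'.wt_le (hF'.mono hm2) (fun _ => hF.bdd _) hl5
    hlo (le_trans (mul_le_mul_of_nonneg_right (by
      rw [neg_add, Real.exp_add, div_eq_mul_inv]
      refine mul_le_mul_of_nonneg_left ?_ (Real.exp_pos _).le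
      rw [Real.exp_neg]
      refine inv_anti₀ (by norm_num) ?_
      have := Real.add_one_le_exp (1 : ℝ)
      rw [show (2 : ℝ) = 1 + 1 by norm_num, Real.exp_add]
      nlinarith) (by positivity)) hy')
  set m1 := (m + 2) ^ C1 with hm1
  have hE1 : Real.exp m + Real.exp m1 ≤ Real.exp (2 * m1) := by
    have e1 := Real.exp_le_exp.2 (show m ≤ m1 by linarith)
    have e2 := Real.add_one_le_exp m1
    rw [two_mul, Real.exp_add]
    nlinarith [Real.exp_pos m1]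
  have hm3 := Real.exp_le_exp.2 (show m ≤ 2 * m1 by linarith)
  have hGd := good_pd (hN.mono hm3) (hN'.mono hm3) (Real.exp_pos _).le
  have hPQ := pair_mem_poly hP hQ
  obtain ⟨H, c1, c2, c3, q, c4, c5, c6⟩ := h2 (2 * m1) (by linarith) (κ ⊕ κ') (Fin D) (pd N N') _ _
    ((pd N N').subst (fw' y b) (pair P Q)) l 0 (fun _ => (l : ℤ) - 1) hcard.le
    (by rw [Fintype.card_sum]; push_cast; linarith) hGd
    ((nChar_pd (Real.exp_pos _).le (Real.exp_pos _).le hF hG).mono hE1)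
    (Zo.subst_mem_poly (fw'_deg y b) hPQ) hl4 hlo
    (le_trans (mul_le_mul_of_nonneg_right (Real.exp_le_exp.2 (by linarith)) (by positivity))
      (hG'.trans (le_of_eq (congrArg _ (sum_congr rfl fun u _ => by
        rw [evZ_fw', evZ_pair, GI.fst_pair, GI.snd_pair, mul_comm])))))
  have hK : 2 * (L : ℝ) ≤ 4 * (Real.exp m * W) * l := by
    rw [div_lt_iff₀ hbW] at hl2
    have : b * W ≤ Real.exp m * W := by gcongr
    nlinarith
  refine ⟨H, q * b ^ s, c1, fun i => (c2 i).mono (Real.exp_le_exp.2 a1), fun x hx => ?_,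
    Nat.mul_pos c4 (by positivity), le_trans ?_ a3, ?_⟩
  · simpa [GI.fn_pd] using c3 _ hx
  · push_cast
    gcongr
  · refine (unaff hcard.le hGd.wt_le hb (by linarith) hL'.le (fun v => ?_) (by nlinarith) hK c1
      c6).mono a4 dvd_rfl
    have e1 := mem_bx.1 hy v
    have e2 : (0 : ℝ) ≤ y v := by exact_mod_cast e1.1
    rw [abs_of_nonneg e2]
    exact_mod_cast e1.2.le

variable {D : ℕ}

omit [Fintype ι] in
theorem rl_deg {lev : ι → ℕ} (V : Frm D lev) (c : ι) : DegLe (fun _ => 1) (V.rl c) (lev c) := by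
  intro m hm
  have h1 : m.degree ≤ lev c :=
    le_trans (le_totalDegree (support_map_subset _ _ hm)) (V.deg c)
  rwa [Finsupp.degree_eq_weight_one] at h1

omit [Fintype ι] in
theorem ev_rl {lev : ι → ℕ} (V : Frm D lev) (t : Fin D → ℤ) (c : ι) :
    Tw.ev t (V.rl c) = V.pt t c := by
  unfold Tw.ev
  rw [Frm.rl, Frm.pt, eval_map]
  exact (eval₂_comp (Int.castRingHom ℝ) t (V.W c)).symm

omit [Fintype ι] in
theorem dvd_pt {lev : ι → ℕ} (V : Frm D lev) {b : ℤ} {t t' : Fin D → ℤ}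
    (h : ∀ v, b ∣ t v - t' v) (c : ι) : b ∣ V.pt t c - V.pt t' c := by
  unfold Frm.pt
  induction V.W c using MvPolynomial.induction_on with
  | C a => simp
  | add p q h1 h2 =>
    rw [map_add, map_add, add_sub_add_comm]
    exact dvd_add h1 h2
  | mul_X p v h1 =>
    rw [map_mul, map_mul, eval_X, eval_X, show eval t p * t v - eval t' p * t' v =
      (eval t p - eval t' p) * t v + eval t' p * (t v - t' v) by ring]
    exact dvd_add (h1.mul_right _) ((h v).mul_left _)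

theorem fq_nonneg (T : Cell ι) (σ : ℝ) (V : Frm D T.lev) : 0 ≤ fq T σ V :=
  sum_nonneg fun _ _ => sum_nonneg fun _ _ => sq_nonneg _

/-- the windows vary slowly along a frame -/
theorem th_lip (T : Cell ι) {s L : ℕ} (hs : ∀ c, T.lev c ≤ s) {σ ρ B : ℝ} (hσ : 0 < σ)
    (hσL : σ * L ≤ 1) (hL : 0 < L) (hρ : 0 ≤ ρ) (V : Frm D T.lev) (hB : 1 ≤ B) (hV : fq T σ V ≤ B)
    {t t' : Fin D → ℤ} (ht : t ∈ pos D L) (ht' : t' ∈ pos D L)
    (h : ∀ v, |(t v : ℝ) - t' v| ≤ ρ * L) (c : ι) :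
    |Tw.ev (V.pt t) (T.th c) - Tw.ev (V.pt t') (T.th c)| ≤ Zo.nm D s * (B * (s * ρ)) := by
  have hL' : (0 : ℝ) < L := by exact_mod_cast hL
  have hbx : ∀ u ∈ pos D L, ∀ v, |(u v : ℝ)| ≤ L := fun u hu v => by
    have e1 := (mem_bx (σ := Fin D)).1 hu v
    have e2 : (0 : ℝ) ≤ u v := by exact_mod_cast e1.1
    rw [abs_of_nonneg e2]
    exact_mod_cast e1.2.le
  set p := bind₁ V.rl (T.th c) with hp
  have hdeg : ∀ α ∈ p.support, α.degree ≤ s := fun α hα => by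
    have := (DegLe.bind (rl_deg V) (T.th_degLe c)) α hα
    rw [← Finsupp.degree_eq_weight_one] at this
    exact this.trans (hs c)
  rw [← ev_bind_of_eq (ev_rl V t), ← ev_bind_of_eq (ev_rl V t'), ← hp]
  unfold Tw.ev
  rw [eval_eq', eval_eq', ← sum_sub_distrib]
  refine (abs_sum_le_sum_abs _ _).trans ((sum_le_card_nsmul _ _ (B * (s * ρ)) fun α hα => ?_).trans ?_)
  · have e1 : (coeff α p / σ ^ α.degree) ^ 2 ≤ B :=
      (single_le_sum (f := fun α => (coeff α p / σ ^ α.degree) ^ 2) (fun _ _ => sq_nonneg _)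
        hα).trans ((single_le_sum (f := fun c => q2 σ (bind₁ V.rl (T.th c)))
          (fun _ _ => sum_nonneg fun _ _ => sq_nonneg _) (mem_univ c)).trans hV)
    have e2 : |coeff α p / σ ^ α.degree| ≤ B := abs_le_of_sq_le_sq' (by nlinarith) (by linarith)
      |> abs_le.2
    rw [abs_div, abs_of_pos (pow_pos hσ _), div_le_iff₀ (pow_pos hσ _)] at e2
    have e3 := Lr.abs_mono_sub_le' hL' (hbx t ht) (hbx t' ht') h α
    have e4 : (σ * L) ^ α.degree ≤ 1 := pow_le_one₀ (by positivity) hσL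
    have e5 : (α.degree : ℝ) ≤ s := by exact_mod_cast hdeg α hα
    rw [← mul_sub, abs_mul]
    calc _ ≤ B * σ ^ α.degree * (α.degree * ρ * (L : ℝ) ^ α.degree) :=
          mul_le_mul e2 e3 (abs_nonneg _) (by positivity)
      _ = B * (α.degree * ρ) * (σ * L) ^ α.degree := by ring
      _ ≤ B * (s * ρ) * 1 := by gcongr
      _ = _ := mul_one _
  · rw [nsmul_eq_mul]
    refine mul_le_mul_of_nonneg_right ?_ (by positivity)
    exact_mod_cast Zo.card_le_nm (Fintype.card_fin D).le _ hdeg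

end Back27

set_option maxHeartbeats 1000000 in
open Back27 in
theorem backStmt (hLT : LTStmt) : BackStmt := by
  classical
  intro s D j hj
  obtain ⟨C1, h1⟩ := one hLT s D j hj
  obtain ⟨C0, h0⟩ : ∃ C : ℕ, ∀ R : ℝ, 2 ≤ R → 2 * R + 2 ≤ R ^ C ∧
      2 * Real.pi * (R * (Real.exp R * (Zo.nm D s * ((2 * R + 2) * s)))) ≤ Real.exp (R ^ C) := by
    qp
  obtain ⟨C, hC⟩ : ∃ C : ℕ, ∀ R : ℝ, 2 ≤ R → (R ^ C0) ^ C1 ≤ R ^ C ∧
      Real.exp (-R ^ C) ≤ Real.exp (-R) / 2 /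
        (Real.exp ((2 * (R ^ C0) ^ C1) ^ (s + 5)) * Real.exp ((R ^ C0) ^ C1)) := by qp
  refine ⟨C, ?_⟩
  intro R ι κ κ' _ _ _ T σ L N N' η Z F P F' G ψ hR hι hκ hκ' hs hL hσ hσL hFB hN hN' hZ hF' hG hψ h
  obtain ⟨a1, a2⟩ := h0 R hR
  obtain ⟨a3, a4⟩ := hC R hR
  obtain ⟨a5, h1⟩ := h1 (R ^ C0) (by linarith)
  generalize R ^ C0 = m at *
  generalize m ^ C1 = m1 at *
  have hRm := Real.exp_le_exp.2 (show R ≤ m by linarith)
  have hL' : (0 : ℝ) < L := (Real.exp_pos _).trans_le hL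
  have hP : (0 : ℝ) < (L : ℝ) ^ D := by positivity
  have hmu : 0 < fmu T D σ := prod_pos fun c _ => prod_pos fun α _ =>
    mul_pos (pow_pos hσ _) (inv_pos.2 (abs_pos.2 (T.a_ne c)))
  obtain ⟨ξ, a, b, hξ, hb1, hb2, rfl⟩ := hψ
  set I : Frm D T.lev → ℝ := fun V => ‖∑ t ∈ pos D L, F V (N.evZ t (P V)) *
    (chp T ξ a b (V.pt t) * F' (N'.evZ (V.pt t) G))‖ with hI
  have hw : ∀ V : Frm D T.lev, 0 ≤ fw T σ V := fun V => (Real.exp_pos _).le
  have hI1 : ∀ V ∈ Z, I V ≤ (L : ℝ) ^ D := fun V hV => by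
    refine (norm_sum_le _ _).trans ((sum_le_card_nsmul _ _ 1 fun t _ => ?_).trans ?_)
    · rw [norm_mul, norm_mul, chp, norm_ee, one_mul]
      exact mul_le_one₀ ((hZ V hV).1.bdd _) (norm_nonneg _) (hF'.bdd _)
    · rw [show pos D L = bx (Fin D) L from rfl, card_bx, Fintype.card_fin]
      simp
  set Z1 := Z.filter fun V => fq T σ V ≤ 2 * R + 2 ∧ Real.exp (-(2 * R + 2)) * (L : ℝ) ^ D ≤ I V
    with hZ1
  have hmass : Real.exp (-R) / 2 * fmu T D σ ≤ fm T σ Z1 := by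
    have e1 := hFB 0 Z fun V _ => fq_nonneg T σ V
    have e2 := hFB (2 * R + 2) (Z.filter fun V => 2 * R + 2 ≤ fq T σ V)
      fun V hV => (mem_filter.1 hV).2
    have e3 : ∑ V ∈ Z, fw T σ V * I V ≤ (fm T σ Z1 + fm T σ (Z.filter fun V => 2 * R + 2 ≤ fq T σ V) +
        Real.exp (-(2 * R + 2)) * fm T σ Z) * (L : ℝ) ^ D := by
      rw [fm, fm, fm, hZ1, sum_filter, sum_filter, mul_sum, ← sum_add_distrib, ← sum_add_distrib,
        sum_mul]
      refine sum_le_sum fun V hV => ?_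
      have f1 := mul_le_mul_of_nonneg_left (hI1 V hV) (hw V)
      have f2 : 0 ≤ Real.exp (-(2 * R + 2)) * fw T σ V * (L : ℝ) ^ D := by
        have := hw V; positivity
      have f3 : 0 ≤ fw T σ V * (L : ℝ) ^ D := by have := hw V; positivity
      split_ifs with g1 g2 g2
      · nlinarith
      · nlinarith
      · nlinarith
      · have g3 : I V ≤ Real.exp (-(2 * R + 2)) * (L : ℝ) ^ D := by
          by_contra g3
          exact g1 ⟨(not_le.1 g2).le, (not_le.1 g3).le⟩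
        have := mul_le_mul_of_nonneg_left g3 (hw V)
        nlinarith
    have e4 := le_of_mul_le_mul_right ((mul_assoc _ _ _).trans_le (h.trans e3)) hP
    have e5 : Real.exp (R - (2 * R + 2)) ≤ Real.exp (-R) / 4 := by
      rw [show R - (2 * R + 2) = -R - (1 + 1) by ring, Real.exp_sub, Real.exp_add]
      have := Real.add_one_le_exp (1 : ℝ)
      exact div_le_div_of_nonneg_left (Real.exp_pos _).le (by norm_num) (by nlinarith)
    have e6 : Real.exp (-(2 * R + 2)) * fm T σ Z ≤ Real.exp (R - (2 * R + 2)) * fmu T D σ := by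
      refine (mul_le_mul_of_nonneg_left e1 (Real.exp_pos _).le).trans (le_of_eq ?_)
      rw [← mul_assoc, ← Real.exp_add]
      congr 2
      ring
    have e7 := mul_le_mul_of_nonneg_right e5 hmu.le
    linarith
  have hne : Z1.Nonempty := by
    rw [nonempty_iff_ne_empty]
    intro h0
    rw [h0, fm, sum_empty] at hmass
    have : 0 < Real.exp (-R) / 2 * fmu T D σ := by positivity
    linarith
  have hGd := good_pd hN hN' (Real.exp_pos _).le
  obtain ⟨⟨H, q⟩, ⟨⟨c1, c2⟩, c3, c4⟩, Z', c5, ⟨V0, hV0⟩, c6, c7⟩ :=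
    ((cnt_grSub_exp (m := 2 * m1) (pd N N') hGd.wt_le (by linarith)
      (by rw [Fintype.card_sum]; push_cast; linarith)).prod
      (cnt_nat (Real.exp_pos m1).le)).pigeon_wt hne (fw T σ) (fun V _ => hw V)
      (fun V x => (∀ i, (pd N N').RatS (Real.exp m1) (x.1 i)) ∧
        (∀ z : N.L, pair z 0 ∈ x.1 j → N.fn η z = 0) ∧
        (pd N N').FactQ s L (Real.exp m1) x.2 x.1 (pair (P V) (N'.subst V.rl G)))
      fun V hV => by
        obtain ⟨g0, g1, g2⟩ := mem_filter.1 hV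
        obtain ⟨H, q, d1, d2, d3, d4, d5, d6⟩ := h1 κ κ' N N' η (F V) F' (P V) (N'.subst V.rl G) L b
          (fun t => chp T ξ a b (V.pt t)) (by linarith) (by linarith)
          ((Real.exp_le_exp.2 a3).trans hL) (hN.mono hRm) (hN'.mono hRm) ((hZ V g0).1.mono hRm)
          (hF'.mono hRm) (hZ V g0).2 (Gf.subst_mem_cf (rl_deg V) grSub_F.anti hG) hb1
          (hb2.trans hRm) (fun t => (norm_ee _).le)
          (fun ρ t ht t' ht' e1 e2 hρ => by
            have e3 : ∀ c, ∃ k : ℤ, V.pt t c - V.pt t' c = b * k := fun c => dvd_pt V e1 c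
            choose k hk using e3
            have hb0 : (b : ℝ) ≠ 0 := by positivity
            have e4 : (∑ c, (a c : ℝ) * V.pt t c) / b =
                (∑ c, (a c : ℝ) * V.pt t' c) / b + (∑ c, a c * k c : ℤ) := by
              rw [div_add' _ _ _ hb0]
              congr 1
              push_cast
              rw [sum_mul, ← sum_add_distrib]
              refine sum_congr rfl fun c _ => ?_
              have : (V.pt t c : ℝ) - V.pt t' c = b * k c := by exact_mod_cast hk c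
              linear_combination (a c : ℝ) * this
            simp only [chp]
            rw [e4, ← add_assoc, ee_add_int]
            refine (norm_ee_sub_ee_le _ _).trans (le_trans ?_ (mul_le_mul_of_nonneg_right a2 hρ))
            rw [add_sub_add_right_eq_sub, ← sum_sub_distrib, mul_assoc (2 * Real.pi)]
            refine mul_le_mul_of_nonneg_left ((abs_sum_le_sum_abs _ _).trans
              ((sum_le_card_nsmul _ _ (Real.exp R * (Zo.nm D s * ((2 * R + 2) * (s * ρ))))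
                fun c _ => ?_).trans ?_)) (by positivity)
            · rw [← mul_sub, abs_mul]
              exact mul_le_mul (hξ c) (th_lip T hs hσ hσL (by exact_mod_cast hL') hρ V
                (by linarith) g1 ht ht' e2 c) (abs_nonneg _) (Real.exp_pos _).le
            · rw [nsmul_eq_mul, card_univ]
              refine (mul_le_mul_of_nonneg_right hι (by positivity)).trans (le_of_eq (by ring)))
          (le_trans (mul_le_mul_of_nonneg_right (Real.exp_le_exp.2 (by linarith)) hP.le)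
            (g2.trans (le_of_eq (by
              simp only [hI, Lr.evZ_subst, ev_rl]
              rfl))))
        exact ⟨(H, q), ⟨⟨d1, fun i => (d2 i).mono (Real.exp_le_exp.2 (by linarith))⟩, d4, d5⟩,
          d2, d3, d6⟩
  have hm1 := Real.exp_le_exp.2 a3
  refine ⟨H, q, Z', c1, fun i => ((c7 V0 hV0).1 i).mono hm1, (c7 V0 hV0).2.1, c3, c4.trans hm1,
    c5.trans (filter_subset _ _), ?_, fun V hV => ⟨?_, (c7 V hV).2.2.mono hm1 dvd_rfl⟩⟩
  · refine (mul_le_mul_of_nonneg_right a4 hmu.le).trans ?_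
    rw [div_mul_eq_mul_div, div_le_iff₀' (by positivity)]
    exact hmass.trans c6
  · exact (mem_filter.1 (c5 hV)).2.1.trans (by linarith)

end Crest.Agent.T49.Gl
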