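import Crest.Agent.T49.NilFn_73
import Crest.Agent.T49.GowConv_73

/-!
# Row 49 (helper73): the converse to the inverse theorem (DER)
-/

set_option autoImplicit false

noncomputable section

namespace Crest.Agent.T49.Nil

open Finset ND
open scoped ComplexConjugate Pointwise Classical

theorem IsNil.mono73 {σ : Type} {s : ℕ} {m m' : ℝ} {f : (σ → ℤ) → ℂ} (h : IsNil s m f)
    (hm : m ≤ m') : IsNil s m' f := by
  obtain ⟨ι, _, N, F, P, h1, h2, h3, h4, h5⟩ := h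
  exact ⟨ι, _, N, F, P, h1.trans hm, h2.mono (Real.exp_le_exp.2 hm),
    h3.mono (Real.exp_le_exp.2 hm), h4, h5⟩

theorem IsNil.const_of_zero73 {σ : Type} {m : ℝ} {f : (σ → ℤ) → ℂ} (h : IsNil 0 m f) :
    ∃ c : ℂ, ‖c‖ ≤ 1 ∧ ∀ n, f n = c := by
  obtain ⟨ι, _, N, F, P, -, h2, h3, -, h5⟩ := h
  refine ⟨F 0, h3.bdd 0, fun n => ?_⟩
  rw [h5, eq_zero_of_mem_FA h2.wt_le (mem_FA_one (N.evZ n P))]

theorem lin_le_pow73 (a : ℕ) {m : ℝ} (hm : 2 ≤ m) : (a : ℝ) * m ≤ m ^ (a + 1) := by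
  rw [pow_succ]
  refine mul_le_mul_of_nonneg_right ?_ (by linarith)
  calc (a : ℝ) ≤ 2 ^ a := by exact_mod_cast (Nat.lt_two_pow_self (n := a)).le
    _ ≤ _ := pow_le_pow_left₀ (by norm_num) hm a

/-- a nilsequence of degree `t+1` is a short sum of functions whose derivatives have degree `t` -/
theorem IsNil.expand_deriv (t : ℕ) {σ : Type} {m : ℝ} (hm : 2 ≤ m) {f : (σ → ℤ) → ℂ}
    (h : IsNil (t + 1) m f) : ∃ (n : ℕ) (φ : Fin n → (σ → ℤ) → ℂ),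
      (n : ℝ) ≤ Real.exp (m ^ (63 * t + 78)) ∧ (∀ x, ‖f x - ∑ j, φ j x‖ ≤ Real.exp (-m) / 2) ∧
      (∀ j x, ‖φ j x‖ ≤ 1) ∧
      ∀ j k, IsNil t (m ^ (63 * t + 78)) fun x => φ j (x + k) * conj (φ j x) := by
  obtain ⟨ι, _, N, F, P, h1, h2, h3, h4, h5⟩ := h
  obtain ⟨n, η, G, hn, hG, hap⟩ := (h3.nfn h2.wt_le).expand_exp hm h1 h2.wt_le
  refine ⟨n, fun j x => G j (N.evZ x P), hn.trans (Real.exp_le_exp.2
    (pow_le_pow_right₀ (by linarith) (by omega))), fun x => by rw [h5]; exact hap _,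
    fun j x => (hG j).bdd _, fun j k => ?_⟩
  refine ((hG j).isNil_deriv (m := 7 * m) (by linarith) (by linarith)
    (h2.mono (Real.exp_le_exp.2 (by linarith))) h4 k).mono73 ?_
  refine le_trans (le_of_eq ?_) (lin_le_pow73 (63 * t + 77) hm)
  push_cast; ring

/-- **DER**, pulled back along any map `π` that is compatible with translations -/
theorem der_gen (d : ℕ) : ∃ C : ℕ, ∀ (G σ : Type) [AddCommGroup G] (π : G → σ → ℤ),
    (∀ x k, π (x + k) = π x + π k) → ∀ (S : Finset G) (m : ℝ) (f : (σ → ℤ) → ℂ), 2 ≤ m →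
      ((S - S).card : ℝ) ≤ Real.exp m * S.card → IsNil d m f →
      Gow.Conv (d + 1) S (fun x => f (π x)) (Real.exp (-m)) (Real.exp (-m ^ C)) := by
  obtain ⟨C, hC⟩ := Gow.conv_tower (fun t => 63 * t + 78) d
  refine ⟨C, fun G σ _ π hπ S m f hm hS hf => ?_⟩
  refine hC G S (fun t m ψ => ∃ f : (σ → ℤ) → ℂ, IsNil t m f ∧ ψ = fun x => f (π x))
    (fun t m m' ψ hm ⟨f, h1, h2⟩ => ⟨f, h1.mono73 hm, h2⟩) ?_ ?_ m _ hm hS ⟨f, hf, rfl⟩
  · rintro m ψ - ⟨f, h1, rfl⟩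
    obtain ⟨c, hc, h⟩ := h1.const_of_zero73
    exact ⟨c, hc, fun x _ => h _⟩
  · rintro t - m ψ hm ⟨f, h1, rfl⟩
    obtain ⟨n, φ, h2, h3, h4, h5⟩ := h1.expand_deriv t hm
    exact ⟨n, fun j x => φ j (π x), h2, fun x _ => h3 _, fun j x _ => h4 j _,
      fun j k _ => ⟨_, h5 j (π k), by funext x; simp only [Gow.D, hπ]⟩⟩

/-- **DER** on `ℤ^σ` -/
theorem der (d : ℕ) : ∃ C : ℕ, ∀ (σ : Type) (S : Finset (σ → ℤ)) (m : ℝ) (f : (σ → ℤ) → ℂ),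
    2 ≤ m → ((S - S).card : ℝ) ≤ Real.exp m * S.card → IsNil d m f →
      Gow.Conv (d + 1) S f (Real.exp (-m)) (Real.exp (-m ^ C)) := by
  obtain ⟨C, hC⟩ := der_gen d
  exact ⟨C, fun σ S m f hm hS hf => hC (σ → ℤ) σ id (fun _ _ => rfl) S m f hm hS hf⟩

/-- **DER** on `ℤ` -/
theorem der1 (d : ℕ) : ∃ C : ℕ, ∀ (S : Finset ℤ) (m : ℝ) (f : ℤ → ℂ),
    2 ≤ m → ((S - S).card : ℝ) ≤ Real.exp m * S.card → IsNil1 d m f →
      Gow.Conv (d + 1) S f (Real.exp (-m)) (Real.exp (-m ^ C)) := by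
  obtain ⟨C, hC⟩ := der_gen d
  exact ⟨C, fun S m f hm hS hf => hC ℤ Unit (fun x _ => x) (fun _ _ => rfl) S m
    (fun n => f (n ())) hm (by convert hS; rfl) hf⟩

theorem card_Ico_sub_Ico (a b : ℤ) :
    ((Ico a b - Ico a b : Finset ℤ).card : ℝ) ≤ 2 * (Ico a b).card := by
  have h : (Ico a b - Ico a b : Finset ℤ) ⊆ Ioo (a - b) (b - a) := by
    intro x hx
    obtain ⟨y, hy, z, hz, rfl⟩ := mem_sub.1 hx
    rw [mem_Ico] at hy hz
    rw [mem_Ioo]; omega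
  have h2 := card_le_card h
  rw [Int.card_Ioo] at h2
  have h3 : (Ico a b - Ico a b : Finset ℤ).card ≤ 2 * (Ico a b).card := by
    rw [Int.card_Ico]; omega
  exact_mod_cast h3

/-- **DER** on an interval `[0, L)` -/
theorem der_Ico (d : ℕ) : ∃ C : ℕ, ∀ (L : ℕ) (m : ℝ) (ψ a : ℤ → ℂ), 2 ≤ m → IsNil1 d m ψ →
    Gow.Supp a (Ico (0 : ℤ) L) → (∀ x, ‖a x‖ ≤ 1) →
    Real.exp (-m) * L ≤ ‖∑ x ∈ Ico (0 : ℤ) L, a x * conj (ψ x)‖ →
    Real.exp (-m ^ C) * (L : ℝ) ^ (d + 2) ≤ Gow.U (d + 1) a := by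
  obtain ⟨C, hC⟩ := der1 d
  refine ⟨C, fun L m ψ a hm hψ ha hb h => ?_⟩
  have h1 := hC (Ico (0 : ℤ) L) m ψ hm (le_trans (card_Ico_sub_Ico 0 L)
    (mul_le_mul_of_nonneg_right (by linarith [Real.add_one_le_exp m]) (by positivity))) hψ a ha hb
  simpa using h1 (by simpa using h)

end Crest.Agent.T49.Nil
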