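import Crest.Agent.T49.GlDef_99
import Crest.Agent.T49.NilDer_73
import Crest.Agent.T49.NilWin_58
import Crest.Agent.T49.Qp_85

/-!
# Row 49 (helper56): `BoxDStmt`, converse of the inverse theorem for box averages
-/

set_option autoImplicit false

noncomputable section

namespace Crest.Agent.T49.Gl

open Finset Function Crest.Agent.T49.Nil Crest.Agent.T49.Box
open scoped ComplexConjugate

namespace B56

variable {κ X : Type*} [Fintype κ] [DecidableEq κ] {A : κ → Finset X} {p : κ → X → ℝ}

theorem norm_W_le (hp : IsW A p) {g : (κ → X) → ℂ} {B : ℝ} (hg : ∀ x, ‖g x‖ ≤ B) :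
    ‖W A p g‖ ≤ B := by
  refine (norm_sum_le_of_le _ (n := fun x => (∏ j, p j (x j)) * B) fun x hx => ?_).trans ?_
  · rw [norm_mul, Complex.norm_real, Real.norm_of_nonneg (wt_nonneg hp hx)]
    exact mul_le_mul_of_nonneg_left (hg x) (wt_nonneg hp hx)
  · rw [← sum_mul, wt_sum hp, one_mul]

theorem W_update' (hp : IsW A p) (i : κ) (g : (κ → X) → ℂ) :
    W A p g = ∑ u ∈ A i, (p i u : ℂ) * W A p fun x => g (update x i u) := by
  rw [W_update hp i, W_sum]

theorem bx_update (hp : IsW A p) {K : Finset κ} {i : κ} (hi : i ∉ K) (g : (κ → X) → ℂ) :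
    bx A p K g = ∑ u ∈ A i, (p i u : ℂ) * bx A p K fun x => g (update x i u) := by
  rw [bx, W_update' hp i]
  refine sum_congr rfl fun u _ => congrArg _ (W_congr fun x _ => W_congr fun x' _ =>
    prod_congr rfl fun S hS => ?_)
  beta_reduce
  rw [update_piecewise_of_notMem _ _ _ fun h => hi (mem_powerset.1 hS h)]

theorem box (j D : ℕ) : ∃ C : ℕ, ∀ (m : ℝ) (A : Fin D → Finset ℤ) (p : Fin D → ℤ → ℝ)
    (K : Finset (Fin D)) (g ψ : (Fin D → ℤ) → ℂ), 2 ≤ m → IsW A p → #K = j + 1 → IsNil j m ψ →
    (∀ t, ‖g t‖ ≤ 1) → Real.exp (-m) ≤ ‖W A p fun t => ψ t * g t‖ →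
    Real.exp (-m ^ C) ≤ (bx A p K g).re := by
  induction j with
  | zero =>
    refine ⟨2, fun m A p K g ψ hm hp hK hψ hg h => ?_⟩
    obtain ⟨c, hc⟩ := hψ.const_of_zero
    have h1 := box_ineq hp K (card_pos.1 (by omega)) (fun t => g t) (fun _ => ψ)
      (fun _ _ x _ => hψ.bdd x) fun _ _ x y => by rw [hc, hc]
    simp only [prod_const, hK, zero_add, pow_one, mul_comm (g _)] at h1
    refine le_trans ?_ ((pow_le_pow_left₀ (Real.exp_pos _).le h 2).trans h1)
    rw [← Real.exp_nat_mul, Real.exp_le_exp]
    push_cast; nlinarith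
  | succ j ih =>
    obtain ⟨C1, ih⟩ := ih
    obtain ⟨C2, h2⟩ : ∃ C : ℕ, ∀ m : ℝ, 2 ≤ m → m ≤ m ^ C ∧ m ^ (63 * j + 78) ≤ m ^ C ∧
        Real.exp (-m ^ C) ≤ (Real.exp (-m) / 4 / Real.exp (m ^ (63 * j + 78))) ^ 2 / 2 := by qp
    obtain ⟨C, hC⟩ : ∃ C : ℕ, ∀ m : ℝ, 2 ≤ m →
        Real.exp (-m ^ C) ≤ Real.exp (-m ^ C2) / Real.exp ((m ^ C2) ^ C1) := by qp
    refine ⟨C, fun m A p K g ψ hm hp hK hψ hg h => ?_⟩
    obtain ⟨a1, a2, a3⟩ := h2 m hm
    obtain ⟨i, hi⟩ : K.Nonempty := card_pos.1 (by omega)
    have hK' : #(K.erase i) = j + 1 := by rw [card_erase_of_mem hi, hK]; rfl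
    obtain ⟨n, φ, b1, b2, b3, b4⟩ := hψ.expand_deriv j hm
    set δ := Real.exp (-m) / 4 / Real.exp (m ^ (63 * j + 78)) with hδ
    obtain ⟨l, hl⟩ : ∃ l, δ ≤ ‖W A p fun t => φ l t * g t‖ := by
      by_contra hc
      push Not at hc
      have e : (W A p fun t => ψ t * g t) = (W A p fun t => (ψ t - ∑ l, φ l t) * g t) +
          ∑ l, 1 * W A p fun t => φ l t * g t := by
        rw [← W_sum, W, W, W, ← sum_add_distrib]
        refine sum_congr rfl fun t _ => ?_
        simp only [one_mul, ← sum_mul]
        ring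
      have c1 := norm_W_le hp (g := fun t => (ψ t - ∑ l, φ l t) * g t) fun t => by
        rw [norm_mul]; exact (mul_le_of_le_one_right (norm_nonneg _) (hg t)).trans (b2 t)
      have c2 : ‖∑ l, 1 * W A p fun t => φ l t * g t‖ ≤ n * δ :=
        (norm_sum_le_of_le _ (n := fun _ => δ) fun l _ => by simpa using (hc l).le).trans (by simp)
      have c3 : n * δ ≤ Real.exp (-m) / 4 := by
        refine (mul_le_mul_of_nonneg_right b1 (by positivity)).trans (le_of_eq ?_)
        rw [hδ]; field_simp
      rw [e] at h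
      linarith [norm_add_le (W A p fun t => (ψ t - ∑ l, φ l t) * g t)
        (∑ l, 1 * W A p fun t => φ l t * g t), Real.exp_pos (-m)]
    have c1 := W_cs hp i (fun _ => 1) (fun t => φ l t * g t) (by simp) (by simp)
    simp only [one_mul] at c1
    set E := Real.exp ((m ^ C2) ^ C1) with hE
    have hE0 : 0 < E := Real.exp_pos _
    have key : ∀ y u, (W A p fun x => φ l (update x i u) * g (update x i u) *
        conj (φ l (update x i y) * g (update x i y))).re ≤ Real.exp (-m ^ C2) +
        E * (bx A p (K.erase i) fun x => g (update x i u) * conj (g (update x i y))).re := by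
      intro y u
      have e : (fun x => φ l (update x i u) * g (update x i u) *
          conj (φ l (update x i y) * g (update x i y))) = fun x =>
          (φ l (update x i u) * conj (φ l (update x i y))) *
            (g (update x i u) * conj (g (update x i y))) := by
        funext x; rw [map_mul]; ring
      have hg' : ∀ x, ‖g (update x i u) * conj (g (update x i y))‖ ≤ 1 := fun x => by
        rw [norm_mul, Complex.norm_conj]; exact mul_le_one₀ (hg _) (norm_nonneg _) (hg _)
      have hn : IsNil j (m ^ C2) fun x => φ l (update x i u) * conj (φ l (update x i y)) := by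
        let π : (Fin D → ℤ) →+ (Fin D → ℤ) :=
          { toFun := fun x => update x i 0
            map_zero' := by simp
            map_add' := fun x x' => by rw [← update_add]; simp }
        have hπ : ∀ x v, π x + Pi.single i v = update x i v := fun x v => by
          funext k
          by_cases hk : k = i
          · subst hk; simp [π]
          · simp [π, hk]
        refine (((b4 l (Pi.single i (u - y))).comp_hom π (Pi.single i y)).mono a2).congr fun x => ?_
        rw [add_assoc, ← Pi.single_add, hπ, hπ, add_sub_cancel]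
      have h0 := bx_re_nonneg hp (K := K.erase i) (card_pos.1 (by omega))
        fun x => g (update x i u) * conj (g (update x i y))
      rw [e]
      refine (Complex.re_le_norm _).trans ?_
      rcases le_total (Real.exp (-m ^ C2)) ‖W A p fun x =>
          (φ l (update x i u) * conj (φ l (update x i y))) *
            (g (update x i u) * conj (g (update x i y)))‖ with h' | h'
      · have d1 := mul_le_mul_of_nonneg_left (ih _ A p _ _ _ (hm.trans a1) hp hK' hn hg' h') hE0.le
        rw [hE, ← Real.exp_add, add_neg_cancel, Real.exp_zero, ← hE] at d1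
        refine (norm_W_le hp (B := 1) fun x => ?_).trans (by linarith [Real.exp_pos (-m ^ C2)])
        rw [norm_mul]; exact mul_le_one₀ (hn.bdd x) (norm_nonneg _) (hg' x)
      · exact h'.trans (le_add_of_nonneg_right (by positivity))
    have c2 : δ ^ 2 ≤ Real.exp (-m ^ C2) + E * (bx A p K g).re := by
      refine (pow_le_pow_left₀ (by positivity) hl 2).trans (c1.trans ?_)
      have e1 : Real.exp (-m ^ C2) = ∑ y ∈ A i, p i y * ∑ u ∈ A i, p i u * Real.exp (-m ^ C2) := by
        simp only [← sum_mul, hp.sum, one_mul]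
      rw [← insert_erase hi, bx_insert hp (notMem_erase i K), e1, Complex.re_sum, Complex.re_sum,
        mul_sum, ← sum_add_distrib]
      refine sum_le_sum fun y hy => ?_
      rw [Complex.re_ofReal_mul, Complex.re_ofReal_mul, mul_left_comm, ← mul_add]
      refine mul_le_mul_of_nonneg_left ?_ (hp.nn i y hy)
      rw [W_update' hp i, bx_update hp (notMem_erase i K), Complex.re_sum, Complex.re_sum, mul_sum,
        ← sum_add_distrib]
      refine sum_le_sum fun u hu => ?_
      rw [Complex.re_ofReal_mul, Complex.re_ofReal_mul, mul_left_comm, ← mul_add]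
      refine mul_le_mul_of_nonneg_left ?_ (hp.nn i u hu)
      simpa only [update_idem] using key y u
    refine (hC m hm).trans ?_
    rw [div_le_iff₀' hE0]
    linarith

end B56

theorem boxDStmt : BoxDStmt := fun j D => by
  obtain ⟨C, hC⟩ := B56.box j D
  refine ⟨C, fun m L K g ψ hm hL hK hψ hg h => hC m _ _ K g ψ hm
    (isW_unif fun _ => nonempty_Ico.2 (by exact_mod_cast hL)) hK hψ hg ?_⟩
  have hL' : (0 : ℝ) < (L : ℝ) ^ D := by positivity
  have e : (#(Fintype.piFinset fun _ : Fin D => Ico (0 : ℤ) L) : ℝ) = (L : ℝ) ^ D := by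
    simp [Fintype.card_piFinset]
  rw [W_unif, e, norm_mul, Complex.norm_real, Real.norm_of_nonneg (by positivity),
    le_inv_mul_iff₀ hL', mul_comm]
  exact h

end Crest.Agent.T49.Gl
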