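import Crest.Agent.T49.LtGnA_60
import Crest.Agent.T49.LTCj_65
import Crest.Agent.T49.Qp_85

/-! # Row 49 (helper60): the leaf `GN` of the proof of `LT` -/

set_option autoImplicit false

noncomputable section

namespace Crest.Agent.T49.Nil

open Finset ND

variable {ι : Type} [Fintype ι] {N : ND ι} {σ : Type}

theorem exists_Sm_gn (T : ℝ) (P : N.PS σ) : ∃ M, N.Sm T M P := by
  have h : (Set.range fun α : σ →₀ ℕ => ‖N.cv α P‖ * T ^ α.degree).Finite := by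
    refine (((St.finite_cv P).image fun α => ‖N.cv α P‖ * T ^ α.degree).insert 0).subset ?_
    rintro _ ⟨α, rfl⟩
    by_cases hα : N.cv α P = 0
    · left; simp [hα]
    · right; exact ⟨α, hα, rfl⟩
  obtain ⟨M, hM⟩ := h.bddAbove
  exact ⟨M, fun α => hM ⟨α, rfl⟩⟩

theorem balls_Sm {T : ℝ} (hT : 0 ≤ T) : Gon.Balls (N.Sm (σ := σ) T) :=
  ⟨fun h hM => h.mono hM, fun h h' => St.Sm_add hT h h', fun r _ _ h => St.Sm_smul r h,
    exists_Sm_gn T, St.Sm_nonneg⟩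

/-- the maps with denominator `q` -/
def ratSub (N : ND ι) (σ : Type) (q : ℕ) : AddSubgroup (N.PS σ) where
  carrier := {P | N.RatP q P}
  add_mem' := St.RatP_add
  zero_mem' := St.RatP_zero q
  neg_mem' := St.RatP_neg

theorem gnStmt : GnStmt := by
  intro S D
  obtain ⟨C, hC⟩ : ∃ C : ℕ, ∀ (m T : ℝ) (q : ℕ), 2 ≤ m → Real.exp (m ^ C) ≤ T →
      (q : ℝ) ≤ Real.exp m →
      1 ≤ T ∧ 2 ≤ Real.exp (-m) / (4 * 5 ^ D) * 4 * T ∧
      q * (4 / (Real.exp (-m) / (4 * 5 ^ D))) ^ D ≤ Real.exp (m ^ C) ∧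
      3 * Real.exp m / (Real.exp (-m) / (4 * 5 ^ D)) ≤ Real.exp (m ^ C) ∧
      201 * Real.exp m / (Real.exp (-m) / (4 * 5 ^ D)) ≤ Real.exp (m ^ C) := by qp
  refine ⟨C, fun m hm ι σ _ _ _ N H K g c T q W hD hS hK hg hT hq1 hq hW hcard hDen => ?_⟩
  obtain ⟨hT1, h2, hb1, hb2, hb3⟩ := hC m T q hm hT hq
  have := ND.nil hS (MvPolynomial σ ℝ)
  set δ : ℝ := Real.exp (-m) / (4 * 5 ^ D) with hδdef
  have hδ : 0 < δ := by positivity
  have hδ1 : δ ≤ 1 := by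
    rw [hδdef, div_le_one (by positivity)]
    have h1 : Real.exp (-m) ≤ 1 := Real.exp_le_one_iff.2 (by linarith)
    have h3 : (1 : ℝ) ≤ 5 ^ D := one_le_pow₀ (by norm_num)
    linarith
  have hgp := hK.mem_poly hg
  have key : ∀ v : σ, ∃ n : ℕ, 1 ≤ n ∧ (n : ℝ) ≤ 4 / δ ∧ ∃ a ∈ N.pm σ, ∃ b ∈ N.pm σ,
      N.Sm T (3 * Real.exp m / δ / T) a ∧ N.RatP q b ∧
      N.rho S g (Pi.single v 1) - cj S (-g) a - (n : ℝ)⁻¹ • b ∈ N.sh σ K ⊔
        Submodule.span ℝ (N.Gen S T (201 * Real.exp m / δ) q K g) := by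
    intro v
    obtain ⟨u, Z, hZ, hZW⟩ := Gon.exists_dense_fibre W hT1 hW hcard v
    have h := Gon.gn_dir (PM := N.pm σ) (SH := N.sh σ K)
      (balls_Sm (N := N) (σ := σ) (T := T) (by linarith))
      (Bch.Ad S g).toLinearMap (Bch.Ad S (-g)).toLinearMap (fun x => by simp) (fun x => by simp)
      (fun x hx => by simpa only [cj_eq_Ad, LieHom.coe_toLinearMap] using cj_mem_pm S hgp hx)
      (fun x hx => by simpa only [cj_eq_Ad, LieHom.coe_toLinearMap] using hK.cj_sh S hg hx)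
      (fun x hx => by
        simpa only [cj_eq_Ad, LieHom.coe_toLinearMap] using hK.cj_sh S (neg_mem hg) hx)
      (ratSub N σ q) (rho_mem_pm S hgp (Pi.single v 1)) (c - N.rho S g u) (Real.exp_pos m)
      (by linarith : 0 < T) hδ hδ1 (by linarith) Z (fun t ht => (hZW t ht).2) ?_ ?_
    · simp only [ND.Gen, cj_eq_Ad]
      exact h
    · refine le_trans ?_ hZ
      have h5 : (5 : ℝ) ^ Fintype.card σ ≤ 5 ^ D := pow_le_pow_right₀ (by norm_num) hD
      calc δ * (4 * T) = Real.exp (-m) * T / 5 ^ D := by rw [hδdef]; field_simp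
        _ ≤ _ := by gcongr
    · intro t ht
      obtain ⟨a, ha, b, hb, h1, h3, h4⟩ := hDen _ (hZW t ht).1
      refine ⟨a, ha, b, hb, h1, h3, ?_⟩
      have h5 := sub_mem h4 (hK.pmm_le (rho_line S hgp u (Pi.single v 1) t))
      rw [cj_eq_Ad] at h5
      convert h5 using 1
      simp only [LieHom.coe_toLinearMap]
      abel
  choose n hn1 hn a ha b hb hSm hR hmem using key
  have hprod : ((∏ v, n v : ℕ) : ℝ) ≤ (4 / δ) ^ D := by
    have h4 : 1 ≤ 4 / δ := by rw [le_div_iff₀ hδ]; linarith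
    calc ((∏ v, n v : ℕ) : ℝ) = ∏ v, (n v : ℝ) := by push_cast; rfl
      _ ≤ ∏ _v : σ, 4 / δ := prod_le_prod (fun _ _ => by positivity) fun v _ => hn v
      _ = (4 / δ) ^ Fintype.card σ := by rw [prod_const, card_univ]
      _ ≤ _ := pow_le_pow_right₀ h4 hD
  refine ⟨(∏ v, n v) * q, Nat.mul_pos (prod_pos fun v _ => hn1 v) hq1, ?_, fun v => ?_⟩
  · refine le_trans ?_ hb1
    rw [Nat.cast_mul, mul_comm]
    gcongr
  · refine ⟨a v, ha v, (n v : ℝ)⁻¹ • b v, Submodule.smul_mem _ _ (hb v),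
      (hSm v).mono (by gcongr), fun α => ?_, ?_⟩
    · rw [map_smul]
      exact (Gon.IsDen.inv_smul (hR v α) (hn1 v)).of_dvd
        (Nat.mul_dvd_mul_right (dvd_prod_of_mem _ (mem_univ v)) q)
    · refine (sup_le_sup_left (Submodule.span_mono ?_) _ : _ ≤ N.sh σ K ⊔ _) (hmem v)
      rintro x ⟨h1, h3, y, hy, h4, h5⟩
      exact ⟨h1, h3.of_dvd (Dvd.intro_left _ rfl), y, hy, h4.mono hb3, h5⟩

end Crest.Agent.T49.Nil
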