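import Crest.Agent.T49.NilDef_65
import Crest.Agent.T49.Bch_16
import Crest.Agent.T49.GonGr_60
import Crest.Agent.T49.Weyl3_14

/-!
# Row 49 (helper14): the base case `s = 1` of `LT`
-/

set_option autoImplicit false

noncomputable section

namespace Crest.Agent.T49.Nil

open Finset ND
open Crest.Agent.T49.Bch (star)

variable {ι : Type} [Fintype ι] {N : ND ι} {σ : Type}

/-- the polynomial map with prescribed coefficients on a finite set of exponents -/
def ND.ofCoef (N : ND ι) (A : Finset (σ →₀ ℕ)) (y : (σ →₀ ℕ) → N.L) : N.PS σ :=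
  ∑ α ∈ A, N.mono α (y α)

theorem cv_ofCoef [DecidableEq σ] (A : Finset (σ →₀ ℕ)) (y : (σ →₀ ℕ) → N.L) (β : σ →₀ ℕ) :
    N.cv β (N.ofCoef A y) = if β ∈ A then y β else 0 := by
  rw [ND.ofCoef, map_sum]
  simp_rw [cv_mono]
  rw [sum_ite_eq']

theorem star_mem_poly14 (S : ℕ) {P Q : N.PS σ} (hP : P ∈ N.poly σ) (hQ : Q ∈ N.poly σ) :
    star S P Q ∈ N.poly σ := by
  have := Bch.star_sub_mem S (N.poly σ) (x := P) (y := Q) (fun _ h => lie_mem_poly hP h)
    (fun _ h => lie_mem_poly hQ h) (lie_mem_poly hP hQ)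
  simpa using add_mem this (add_mem hP hQ)

theorem star_sub_mem_two14 (S : ℕ) {A : Type} [CommRing A] [Algebra ℝ A] (P Q : N.pts A) :
    star S P Q - (P + Q) ∈ N.FA A 2 :=
  Bch.star_sub_mem S _ (fun _ h => FA_anti (by omega) (lie_mem_FA_succ P h))
    (fun _ h => FA_anti (by omega) (lie_mem_FA_succ Q h)) (lie_mem_FA (mem_FA_one P) (mem_FA_one Q))

theorem ratS_F14 {H : ℝ} (hH : 1 ≤ H) (i : ℕ) : N.RatS H (N.F i) :=
  Gon.isRat_coord (fun k => ¬ N.wt k < i) hH _ fun _ =>
    ⟨fun h k hk => h k (not_not.1 hk), fun h k hk => h k (not_not.2 hk)⟩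

theorem exp_pow_le14 {m : ℝ} (hm : 2 ≤ m) (K : ℕ) : Real.exp m ^ K ≤ Real.exp (m ^ (K + 1)) := by
  rw [← Real.exp_nat_mul]
  refine Real.exp_le_exp.2 ?_
  have h1 : (K : ℝ) ≤ 2 ^ K := by exact_mod_cast Nat.lt_two_pow_self.le
  rw [pow_succ]
  gcongr
  exact h1.trans (by gcongr)

/-- the scalar polynomial `η ∘ P` -/
def ND.fnP (N : ND ι) (η : ι → ℤ) (P : N.PS σ) : MvPolynomial σ ℝ :=
  ∑ k, MvPolynomial.C (η k : ℝ) * P k

theorem coeff_fnP (η : ι → ℤ) (P : N.PS σ) (α : σ →₀ ℕ) :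
    (N.fnP η P).coeff α = N.fn η (N.cv α P) := by
  rw [ND.fnP, MvPolynomial.coeff_sum, fn_apply]
  exact sum_congr rfl fun k _ => by rw [MvPolynomial.coeff_C_mul, cv_apply]

theorem ev_fnP (η : ι → ℤ) (P : N.PS σ) (n : σ → ℤ) :
    Weyl.ev (N.fnP η P) n = N.fn η (N.evZ n P) := by
  rw [ND.fnP, Weyl.ev, map_sum, fn_apply]
  exact sum_congr rfl fun k _ => by rw [map_mul, MvPolynomial.eval_C]; rfl

theorem totalDegree_fnP {s : ℕ} {η : ι → ℤ} (h : ∀ k, N.wt k ≠ s → η k = 0) {P : N.PS σ}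
    (hP : P ∈ N.poly σ) : (N.fnP η P).totalDegree ≤ s := by
  refine Finset.sup_le fun α hα => ?_
  by_contra hlt
  have h2 : (α.sum fun _ e => e) = α.degree := rfl
  rw [MvPolynomial.mem_support_iff, coeff_fnP] at hα
  exact hα (fn_eq_zero h (FA_anti (by omega) (hP α)))

theorem lt_one (S D : ℕ) : LT S 1 D := by
  obtain ⟨C₀, hC₀⟩ := Weyl.exists_bias.{0} 1
  set E := (D + 2) ^ C₀ with hE
  refine ⟨(D + 1) * E + 6 + 1, fun m hm ι σ _ _ _ N η F P T lo hi hσ _ hG hF hP hT hbox hsum => ?_⟩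
  have hnil := hG.nil (MvPolynomial σ ℝ)
  set M := Real.exp m with hM
  have hM2 : 2 ≤ M := le_trans (by linarith) (Real.add_one_le_exp m)
  have hM1 : 1 ≤ M := by linarith
  have hbig := exp_pow_le14 hm ((D + 1) * E + 6)
  rw [← hM] at hbig
  set B := Real.exp (m ^ ((D + 1) * E + 6 + 1)) with hB
  have hbl : Gon.bl 1 M ≤ M ^ 6 := by
    unfold Gon.bl
    calc _ ≤ (M * M) ^ (1 + 2) := by gcongr; norm_num; exact hM2
      _ = _ := by ring
  have hDE : (M ^ (D + 1)) ^ E ≤ B :=
    le_trans (by rw [← pow_mul]; exact pow_le_pow_right₀ hM1 (by omega)) hbig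
  have hprod : Gon.bl 1 M * (M ^ (D + 1)) ^ E ≤ B := by
    refine le_trans ?_ hbig
    rw [← pow_mul, pow_add, mul_comm]; gcongr
  have hB1 : 1 ≤ B := (one_le_pow₀ hM1).trans hbig
  have hT1 : 1 ≤ T := hB1.trans hT
  have hFx : ∀ x, F x = Tor.e (N.fn η x) * F 0 := fun x => by
    rw [← hF.vert x (mem_FA_one x) 0, Bch.star_zero]
  obtain ⟨q, hq1, hq2, hq3⟩ := ((hC₀ σ).mono (E' := E) (Nat.pow_le_pow_left (by omega) _))
    (N.fnP η P) (totalDegree_fnP hF.supp hP) (fun v => lo v - 1) hi (fun _ => T + 1) (M ^ (D + 1))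
    (hM2.trans (le_self_pow₀ hM1 (by omega))) (fun _ => by linarith)
    (fun v => by
      have := abs_le.1 (hbox v).1
      push_cast; rw [abs_le]; constructor <;> linarith)
    (fun v => by linarith [(hbox v).2])
    (by
      have h1 : Fintype.piFinset (fun v => Ioc (lo v - 1) (hi v)) = ibox lo hi := by
        unfold ibox; congr 1; funext v; ext x; simp only [mem_Ioc, mem_Icc]; omega
      have h2 : ‖∑ n ∈ ibox lo hi, F (N.evZ n P)‖ ≤
          ‖∑ n ∈ ibox lo hi, N41.Exp.e (Weyl.ev (N.fnP η P) n)‖ := by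
        simp_rw [hFx (N.evZ _ P), ev_fnP]
        rw [← sum_mul, norm_mul]
        exact mul_le_of_le_one_right (norm_nonneg _) (hF.bdd 0)
      rw [h1, prod_const, card_univ]
      have h3 := hsum.trans h2
      rw [Real.exp_neg, ← hM, inv_mul_le_iff₀ (by linarith)] at h3
      calc (T + 1) ^ Fintype.card σ ≤ (M * T) ^ Fintype.card σ := by gcongr; nlinarith
        _ = M ^ Fintype.card σ * T ^ Fintype.card σ := mul_pow _ _ _
        _ ≤ M ^ D * (M * _) := mul_le_mul (pow_le_pow_right₀ hM1 hσ) h3 (by positivity)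
            (by positivity)
        _ = _ := by ring)
  choose! r hr using hq3
  have hq0 : (0 : ℝ) < q := by exact_mod_cast hq1
  set A : Matrix Unit ι ℤ := Matrix.of fun _ k => η k with hA
  have hlin : ∀ x : N.L, Gon.lin A x = fun _ => N.fn η x := fun x => by
    funext u; rw [Gon.lin_apply, fn_apply]; rfl
  obtain ⟨q', Bm, hq'1, hq'2, he, hrat, hsp⟩ := Gon.exists_split A hM1 (fun _ k => hF.η_le k)
    (d := 1) (Or.inr (by simp))
  set A1 : Finset (σ →₀ ℕ) := finsuppAntidiag univ 1 with hA1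
  have hmem : ∀ α, α ∈ A1 ↔ α.degree = 1 := fun α => by
    rw [hA1, mem_finsuppAntidiag, Finsupp.degree_eq_sum]; simp
  set ee : (σ →₀ ℕ) → Unit → ℝ := fun α _ => N.fn η (N.cv α P) - r α / q with hee
  set rr : (σ →₀ ℕ) → Unit → ℝ := fun α _ => (r α : ℝ) / q with hrr
  set ε : N.PS σ := N.ofCoef A1 fun α => (q' : ℝ)⁻¹ • Gon.lin Bm (ee α) with hε
  set γ : N.PS σ := N.ofCoef A1 fun α => (q' : ℝ)⁻¹ • Gon.lin Bm (rr α) with hγ
  have hpoly : ∀ y, N.ofCoef A1 y ∈ N.poly σ := fun y α => by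
    rw [cv_ofCoef]
    split_ifs with h
    · rw [(hmem α).1 h]; exact mem_FA_one _
    · exact zero_mem _
  have hker : N.F 2 ≤ LinearMap.ker (N.fn η) := fun x hx => fn_eq_zero hF.supp hx
  refine ⟨fun i => if i = 1 then LinearMap.ker (N.fn η) else N.F i, ⟨fun i => ?_, fun i => ?_,
    fun i j x hx y hy => ?_⟩, fun i => ?_, fun x hx => by simpa using hx, q' * q,
    Nat.mul_pos hq'1 hq1, ?_, ε, hpoly _, star S (star S (-ε) P) (-γ), fun α => ?_, γ, hpoly _,
    fun α => ?_, fun α => ?_, ?_⟩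
  · split_ifs with h
    · rw [h]; exact fun x _ => mem_FA_one x
    · exact le_rfl
  · split_ifs with h
    · rw [h]; exact hker
    · exact FA_anti (Nat.le_succ i)
  · split_ifs with h
    · exact hker (lie_mem_FA (mem_FA_one x) (mem_FA_one y))
    · refine lie_mem_FA (i := i) (j := j) ?_ ?_
      · split_ifs at hx with h1
        · rw [h1]; exact mem_FA_one x
        · exact hx
      · split_ifs at hy with h1
        · rw [h1]; exact mem_FA_one y
        · exact hy
  · beta_reduce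
    split_ifs with h
    · have h1 := Gon.isRat_ker A hM1 (fun _ k => hF.η_le k) (d := 1) (Or.inr (by simp))
      have h2 : LinearMap.ker (Gon.lin A) = LinearMap.ker (N.fn η) := by
        ext x
        exact ⟨fun hx => congrFun ((hlin x).symm.trans hx) (), fun hx =>
          (hlin x).trans (funext fun _ => hx)⟩
      rw [h2] at h1
      refine Gon.IsRat.mono h1 (le_trans ?_ hprod)
      exact le_mul_of_one_le_right (by linarith [Gon.one_le_bl 1 hM1])
        (one_le_pow₀ (one_le_pow₀ hM1))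
    · exact ratS_F14 hB1 i
  · push_cast
    exact le_trans (mul_le_mul hq'2 hq2 hq0.le (by linarith [Gon.one_le_bl 1 hM1])) hprod
  · have h1 := star_mem_poly14 S (star_mem_poly14 S (neg_mem (hpoly _ : ε ∈ _)) hP)
      (neg_mem (hpoly _ : γ ∈ _))
    beta_reduce
    split_ifs with h
    · have h2 : star S (star S (-ε) P) (-γ) - (P - ε - γ) ∈ N.FA _ 2 := by
        have := add_mem (star_sub_mem_two14 S (star S (-ε) P) (-γ)) (star_sub_mem_two14 S (-ε) P)
        convert this using 1; abel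
      have h3 : N.cv α (star S (star S (-ε) P) (-γ) - (P - ε - γ)) ∈ N.F 2 := fun k hk => by
        rw [cv_apply, h2 k hk, MvPolynomial.coeff_zero]
      have h4 : N.cv α (P - ε - γ) ∈ LinearMap.ker (N.fn η) := by
        rw [map_sub, map_sub, hε, hγ, cv_ofCoef, cv_ofCoef, if_pos ((hmem α).2 h),
          if_pos ((hmem α).2 h)]
        have := hsp (N.cv α P) (ee α) (rr α) ((hlin _).trans (funext fun _ => by simp [hee, hrr]))
        exact congrFun ((hlin _).symm.trans this) ()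
      have h5 := add_mem (hker h3) h4
      rwa [← map_add, sub_add_cancel] at h5
    · exact h1 α
  · rw [hε, cv_ofCoef]
    split_ifs with h
    · have hα := (hmem α).1 h
      have hα0 : α ≠ 0 := by rintro rfl; simp at hα
      have h1 := hr α hα0
      have h2 : Weyl.mpow (fun _ : σ => T + 1) α = T + 1 := by
        rw [Weyl.mpow, prod_pow_eq_pow_sum, ← Finsupp.degree_eq_sum, hα, pow_one]
      rw [h2, coeff_fnP, le_div_iff₀ (by linarith)] at h1
      have h3 : ‖ee α‖ * T ≤ (M ^ (D + 1)) ^ E := by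
        have h4 : ‖ee α‖ ≤ |(q : ℝ) * N.fn η (N.cv α P) - r α| := by
          refine (pi_norm_le_iff_of_nonneg (abs_nonneg _)).2 fun _ => ?_
          have h5 : (q : ℝ) * N.fn η (N.cv α P) - r α = q * (N.fn η (N.cv α P) - r α / q) := by
            field_simp
          rw [h5, abs_mul, abs_of_pos hq0]
          exact le_mul_of_one_le_left (abs_nonneg _) (by exact_mod_cast hq1)
        exact le_trans (mul_le_mul h4 (by linarith) (by linarith) (abs_nonneg _)) h1
      rw [hα, pow_one]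
      calc _ ≤ Gon.bl 1 M * ‖ee α‖ * T := mul_le_mul_of_nonneg_right (he _) (by linarith)
        _ ≤ Gon.bl 1 M * (M ^ (D + 1)) ^ E := by
            rw [mul_assoc]
            exact mul_le_mul_of_nonneg_left h3 (by linarith [Gon.one_le_bl 1 hM1])
        _ ≤ B := hprod
    · simp; linarith
  · rw [hγ, cv_ofCoef]
    split_ifs with h
    · exact hrat q _ ⟨fun _ => r α, funext fun _ => by simp [hrr]; field_simp⟩
    · exact Gon.IsDen.zero _
  · simp

end Crest.Agent.T49.Nil
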