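import Crest.Agent.T49.LTDef_65
import Crest.Agent.T49.LtOne_14

/-!
# Row 49 (helper14): the leaf `INIT` of `LT`
-/

set_option autoImplicit false

noncomputable section

namespace Crest.Agent.T49.Nil

open Finset ND
open Crest.Agent.T49.Bch (star)

variable {ι : Type} [Fintype ι] {N : ND ι} {H K : ℕ → Submodule ℝ N.L} {U : Submodule ℝ N.L}

theorem F_succ_le_Kh (h : N.KSys H K) (hU : N.F 2 ≤ U) (i : ℕ) : N.F (i + 1) ≤ N.Kh K U i := by
  unfold ND.Kh
  split_ifs with hi
  · rw [hi]; exact hU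
  · exact h.ge i

theorem F_succ_le_Hc (h : N.KSys H K) (hU : N.F 2 ≤ U) (i : ℕ) : N.F (i + 1) ≤ N.Hc H K U i :=
  fun _ hx => ⟨⟨h.gr.ge i hx, F_succ_le_Kh h hU i hx⟩,
    fun u _ => h.ge (i + 1) (lie_mem_FA hx (mem_FA_one u))⟩

theorem Hc_zero (h : N.KSys H K) (hU : N.F 2 ≤ U) (x : N.L) : x ∈ N.Hc H K U 0 :=
  F_succ_le_Hc h hU 0 (mem_FA_one x)

theorem grSub_Hc (h : N.KSys H K) (hU : N.F 2 ≤ U) : N.GrSub (N.Hc H K U) := by
  refine ⟨fun i x hx => h.gr.le i hx.1.1, F_succ_le_Hc h hU, fun i j x hx y hy =>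
    ⟨⟨h.gr.lie i j x hx.1.1 y hy.1.1, ?_⟩, fun u hu => ?_⟩⟩
  · have hx2 : x ∈ N.Kh K U i := hx.1.2
    have hy2 : y ∈ N.Kh K U j := hy.1.2
    change _ ∈ N.Kh K U (i + j)
    unfold ND.Kh at hx2 hy2 ⊢
    split_ifs with hij
    · exact hU (lie_mem_FA (mem_FA_one x) (mem_FA_one y))
    by_cases hj : j = 1
    · by_cases hi : i = 1
      · rw [if_pos hj] at hy2
        subst hi hj
        exact hx.2 y hy2
      · rw [if_neg hi] at hx2
        rw [← lie_skew, add_comm]
        exact neg_mem (h.lie j i y hy.1.1 x hx2)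
    · rw [if_neg hj] at hy2
      exact h.lie i j x hx.1.1 y hy2
  · rw [lie_lie]
    refine sub_mem (h.lie i (j + 1) x hx.1.1 _ (hy.2 u hu)) ?_
    have := h.lie j (i + 1) y hy.1.1 _ (hx.2 u hu)
    rwa [← add_assoc, add_comm j i] at this

theorem cj_sub_mem_two (S : ℕ) {A : Type} [CommRing A] [Algebra ℝ A] (g b : N.pts A) :
    cj S g b - b ∈ N.FA A 2 := by
  have := add_mem (star_sub_mem_two14 S (star S g b) (-g)) (star_sub_mem_two14 S g b)
  convert this using 1
  unfold cj; abel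

/-- centraliser conditions are rational -/
theorem ratS_inf_cent {R : ℝ} (hR : 1 ≤ R) (hc : ∀ i j k, |(N.c i j k : ℝ)| ≤ R) {d : ℕ}
    (hd : Fintype.card ι ≤ d) {W V : Submodule ℝ N.L} (hW : N.RatS R W) (hU : N.RatS R U)
    (hV : N.RatS R V) :
    N.RatS (Gon.bl d (Gon.bl d (Gon.bl d (Gon.bl d (Gon.bl d ((d + 1) * R ^ 2))))))
      (W ⊓ N.cent U V) := by
  obtain ⟨r, z, -, hz, -, hsp⟩ := Gon.IsRat.exists_basis hU
  have hd0 : (0 : ℝ) ≤ d := Nat.cast_nonneg d
  have hRR : R ≤ (d + 1) * R ^ 2 := by nlinarith [mul_nonneg hd0 (sq_nonneg R)]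
  set A : Fin r → Matrix ι ι ℤ := fun a => Matrix.of fun k i => ∑ j, N.c i j k * z a j with hA
  have hlin : ∀ a (x : N.L), Gon.lin (A a) x = ⁅x, N.ofInt (z a)⁆ := fun a x => by
    funext k
    rw [Gon.lin_apply, lie_apply]
    refine sum_congr rfl fun i _ => ?_
    simp only [hA, Matrix.of_apply, Int.cast_sum, Int.cast_mul, sum_mul, ofInt_apply]
    exact sum_congr rfl fun j _ => by ring
  have key := Gon.IsRat.cond (Gon.IsRat.mono hW hRR) A (fun _ => V)
    (fun _ => Gon.IsRat.mono hV hRR) (fun a k i => by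
      simp only [hA, Matrix.of_apply, Int.cast_sum, Int.cast_mul]
      refine (abs_sum_le_sum_abs _ _).trans ?_
      calc _ ≤ ∑ _j : ι, R * R := sum_le_sum fun j _ => by
            rw [abs_mul]; exact mul_le_mul (hc _ _ _) (hz _ _) (abs_nonneg _) (by linarith)
        _ = Fintype.card ι * (R * R) := by simp
        _ ≤ _ := by
            have : (Fintype.card ι : ℝ) ≤ d + 1 := by exact_mod_cast hd.trans (Nat.le_succ d)
            rw [pow_two]; gcongr) (hR.trans hRR) hd hd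
  have h1 : N.cent U V = ⨅ a, V.comap (Gon.lin (A a)) := by
    ext x
    rw [mem_cent]
    refine ⟨fun h => (Submodule.mem_iInf _).2 fun a => ?_, fun h u hu => ?_⟩
    · change Gon.lin (A a) x ∈ V
      rw [hlin]
      exact h _ (hsp ▸ Submodule.subset_span ⟨a, rfl⟩)
    · rw [← hsp] at hu
      induction hu using Submodule.span_induction with
      | mem u hu =>
        obtain ⟨a, rfl⟩ := hu
        have h2 : Gon.lin (A a) x ∈ V := (Submodule.mem_iInf _).1 h a
        rwa [hlin] at h2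
      | zero => exact (lie_zero (M := N.L) x).symm ▸ zero_mem V
      | add u u' _ _ h1 h2 => exact (lie_add x u u').symm ▸ add_mem h1 h2
      | smul c u _ h1 => exact (lie_smul c x u).symm ▸ V.smul_mem c h1
  rw [h1]
  exact key

theorem bl_le_exp_pow {m X : ℝ} {d k : ℕ} (hm : 2 ≤ m) (hd : (d : ℝ) ≤ m) (hk : 1 ≤ k)
    (hX0 : 0 ≤ X) (hX : X ≤ Real.exp (m ^ k)) : Gon.bl d X ≤ Real.exp (m ^ (k * 4)) := by
  have h1 : m ≤ m ^ k := le_self_pow₀ (by linarith) (by omega)
  rw [pow_mul]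
  exact Gon.bl_le_exp (by linarith) (hd.trans h1) hX0 hX

theorem initStmt : InitStmt := by
  refine ⟨34 * 4 * 4 * 4 * 4 * 4, fun m hm S ι σ _ _ _ N H K g T q hι hG hK hrat hg hq1 hq2 hsl => ?_⟩
  set M := Real.exp m with hM
  have hM1 : 1 ≤ M := Real.one_le_exp (by linarith)
  have hm1 : 1 ≤ m := by linarith
  have hmono : ∀ {a b : ℕ}, a ≤ b → Real.exp (m ^ a) ≤ Real.exp (m ^ b) := fun h =>
    Real.exp_le_exp.2 (pow_le_pow_right₀ hm1 h)
  have hone : ∀ a : ℕ, 1 ≤ Real.exp (m ^ a) := fun a => Real.one_le_exp (by positivity)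
  have hM2 : ∀ a : ℕ, 1 ≤ a → M ≤ Real.exp (m ^ a) := fun a ha =>
    Real.exp_le_exp.2 (le_self_pow₀ hm1 (by omega))
  set G := N.Gen S T M q K g with hGen
  set U := Submodule.span ℝ (N.cv 0 '' G) ⊔ N.F 2 with hUdef
  have hU : N.F 2 ≤ U := le_sup_right
  have hGU : N.GenU S T M q K U g = G := by
    ext b
    exact ⟨fun h => h.1, fun h => ⟨h, Submodule.mem_sup_left (Submodule.subset_span ⟨b, h, rfl⟩)⟩⟩
  have hratU : N.RatS (Real.exp (m ^ 2)) U := by
    set p : ι → Prop := fun k => N.wt k = 1 with hp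
    set pr : N.L → N.L := fun x => Gon.prj p x with hpr
    have hprj : ∀ x : N.L, x - pr x ∈ N.F 2 := fun x k hk => by
      have h1 : p k := by have := N.wt_pos k; simp only [hp]; omega
      have h2 : pr x k = x k := Gon.prj_pos x h1
      rw [ND.sub_apply, h2, sub_self]
    have h1 : U = Submodule.span ℝ ((fun b => pr (N.cv 0 b)) '' G) ⊔ N.F 2 := by
      refine le_antisymm (sup_le (Submodule.span_le.2 ?_) le_sup_right)
        (sup_le (Submodule.span_le.2 ?_) le_sup_right)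
      · rintro _ ⟨b, hb, rfl⟩
        rw [← sub_add_cancel (N.cv 0 b) (pr (N.cv 0 b))]
        exact add_mem (Submodule.mem_sup_right (hprj _))
          (Submodule.mem_sup_left (Submodule.subset_span ⟨b, hb, rfl⟩))
      · rintro _ ⟨b, hb, rfl⟩
        beta_reduce
        rw [← sub_sub_cancel (N.cv 0 b) (pr (N.cv 0 b))]
        exact sub_mem (Submodule.mem_sup_left (Submodule.subset_span ⟨b, hb, rfl⟩)) (hU (hprj _))
    rw [h1]
    refine Gon.IsRat.sup (Gon.IsRat.mono (Gon.IsRat.span_den (R := M) hq1 _ ?_) ?_)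
      (ratS_F14 (hone 2) 2)
    · rintro _ ⟨b, ⟨-, hb2, a, -, ha2, ha3⟩, rfl⟩
      refine ⟨Gon.IsDen.prj (hb2 0) p, (Gon.norm_prj_le_iff (by linarith)).2 fun k hk => ?_⟩
      have hk2 : N.wt k < 2 := by simp only [hp] at hk; omega
      have h2 : N.cv 0 (cj S g b - a) k = 0 := hK.one (ha3 0) k hk2
      have h3 : N.cv 0 (cj S g b - b) k = 0 := by
        rw [cv_apply, cj_sub_mem_two S g b k hk2, MvPolynomial.coeff_zero]
      rw [map_sub, ND.sub_apply] at h2 h3
      have h4 : N.cv 0 b k = N.cv 0 a k := by linarith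
      have h5 := ha2 0
      rw [map_zero, pow_zero, mul_one] at h5
      rw [h4]
      exact (abs_apply_le _ k).trans h5
    · calc (q : ℝ) * M ≤ M * M := by gcongr
        _ = Real.exp (m + m) := (Real.exp_add _ _).symm
        _ ≤ _ := Real.exp_le_exp.2 (by nlinarith)
  refine ⟨U, ⟨hK, fun i => (hrat i).1.mono (hM2 _ (by norm_num)),
    fun i => (hrat i).2.mono (hM2 _ (by norm_num)), hratU.mono (hmono (by norm_num)), hU⟩,
    ⟨fun α => ?_, ?_, ?_⟩, grSub_Hc hK hU, fun i => ?_⟩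
  · unfold ND.upto
    split_ifs with h
    · rw [Nat.lt_one_iff.1 h]; exact Hc_zero hK hU _
    · exact hg α
  · rw [hGU]
  · rw [hGU]; exact hsl
  · have h1 : N.RatS (Real.exp (m ^ 2)) (N.Kh K U i) := by
      unfold ND.Kh
      split_ifs
      · exact hratU
      · exact (hrat i).2.mono (hM2 _ (by norm_num))
    have h2 : N.RatS (Real.exp (m ^ 32)) (H i ⊓ N.Kh K U i) :=
      Gon.IsRat.mono (Gon.IsRat.inf ((hrat i).1.mono (hM2 2 (by norm_num))) h1 (hone 2) le_rfl)
        (bl_le_exp_pow hm hι (k := 8) (by norm_num) (zero_le_one.trans (Gon.one_le_bl _ (hone 2)))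
          (bl_le_exp_pow hm hι (k := 2) (by norm_num) (Real.exp_pos _).le le_rfl))
    refine (ratS_inf_cent (hone 32) (fun i j k => (hG.c_le i j k).trans (hM2 _ (by norm_num)))
      le_rfl h2 (hratU.mono (hmono (by norm_num)))
      ((hrat (i + 1)).2.mono (hM2 _ (by norm_num)))).mono ?_
    have h3 : ((Fintype.card ι : ℝ) + 1) * Real.exp (m ^ 32) ^ 2 ≤ Real.exp (m ^ 34) := by
      have h4 : (Fintype.card ι : ℝ) + 1 ≤ Real.exp (m ^ 32) :=
        le_trans (by linarith) ((Real.add_one_le_exp m).trans (hM2 _ (by norm_num)))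
      calc _ ≤ Real.exp (m ^ 32) * Real.exp (m ^ 32) ^ 2 := by gcongr
        _ = Real.exp (3 * m ^ 32) := by
            rw [← pow_succ', ← Real.exp_nat_mul]; norm_num
        _ ≤ _ := Real.exp_le_exp.2 (by
            rw [show m ^ 34 = m ^ 2 * m ^ 32 by ring]; gcongr; nlinarith)
    have h5 : (1 : ℝ) ≤ ((Fintype.card ι : ℝ) + 1) * Real.exp (m ^ 32) ^ 2 :=
      one_le_mul_of_one_le_of_one_le (by linarith [Nat.cast_nonneg (α := ℝ) (Fintype.card ι)])
        (one_le_pow₀ (hone 32))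
    have h6 := Gon.one_le_bl (Fintype.card ι) h5
    have h7 := Gon.one_le_bl (Fintype.card ι) h6
    have h8 := Gon.one_le_bl (Fintype.card ι) h7
    have h9 := Gon.one_le_bl (Fintype.card ι) h8
    exact bl_le_exp_pow hm hι (by norm_num) (by linarith) (bl_le_exp_pow hm hι (by norm_num)
      (by linarith) (bl_le_exp_pow hm hι (by norm_num) (by linarith) (bl_le_exp_pow hm hι
      (by norm_num) (by linarith) (bl_le_exp_pow hm hι (by norm_num) (by linarith) h3))))

end Crest.Agent.T49.Nil
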