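import Crest.Agent.T49.PigA_7
import Crest.Agent.T49.NilFn_73
import Crest.Agent.T49.NilCnt_14
import Crest.Agent.T49.GowConv_73

/-!
# Row 49 (helper7): the leaf `PIG` of `LT S s D → LT S (s+1) D`
-/

set_option autoImplicit false

noncomputable section

namespace Crest.Agent.T49.Nil

open Finset ND
open Crest.Agent.T49.Bch (star)
open scoped ComplexConjugate

namespace Pig7

section vdc

variable {σ : Type} [Fintype σ] [DecidableEq σ]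

theorem card_ibox_le {lo hi : σ → ℤ} {R : ℝ} (hR : 0 ≤ R) (h : ∀ v, (hi v : ℝ) + 1 - lo v ≤ R) :
    (#(ibox lo hi) : ℝ) ≤ R ^ Fintype.card σ := by
  rw [ibox, Fintype.card_piFinset, Nat.cast_prod, ← card_univ, ← prod_const]
  refine prod_le_prod (fun _ _ => Nat.cast_nonneg _) fun v _ => ?_
  rw [Int.card_Icc]
  rcases le_total 0 (hi v + 1 - lo v) with h1 | h1
  · have h2 : (((hi v + 1 - lo v).toNat : ℤ) : ℝ) = ((hi v + 1 - lo v : ℤ) : ℝ) := by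
      rw [Int.toNat_of_nonneg h1]
    push_cast at h2
    rw [h2]; exact h v
  · rw [Int.toNat_of_nonpos h1]; simpa using hR

theorem normSq_sum_ibox (lo hi : σ → ℤ) (f : (σ → ℤ) → ℂ) :
    ‖∑ n ∈ ibox lo hi, f n‖ ^ 2 ≤ ∑ w ∈ ibox (lo - hi) (hi - lo),
      ‖∑ n ∈ ibox (lo ⊔ (lo - w)) (hi ⊓ (hi - w)), f (n + w) * conj (f n)‖ := by
  have key : ∑ n' ∈ ibox lo hi, ∑ n ∈ ibox lo hi, f n' * conj (f n) =
      ∑ w ∈ ibox (lo - hi) (hi - lo),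
        ∑ n ∈ ibox (lo ⊔ (lo - w)) (hi ⊓ (hi - w)), f (n + w) * conj (f n) := by
    rw [sum_sigma', sum_sigma']
    refine sum_nbij' (fun p => ⟨p.1 - p.2, p.2⟩) (fun p => ⟨p.2 + p.1, p.2⟩) ?_ ?_ ?_ ?_ ?_
    · rintro ⟨a, b⟩ hp
      simp only [mem_sigma, mem_ibox, Pi.sub_apply, Pi.sup_apply, Pi.inf_apply] at hp ⊢
      refine ⟨fun v => ?_, fun v => ?_⟩ <;> have h1 := hp.1 v <;> have h2 := hp.2 v <;> omega
    · rintro ⟨a, b⟩ hp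
      simp only [mem_sigma, mem_ibox, Pi.sub_apply, Pi.add_apply, Pi.sup_apply, Pi.inf_apply]
        at hp ⊢
      refine ⟨fun v => ?_, fun v => ?_⟩ <;> have h1 := hp.1 v <;> have h2 := hp.2 v <;> omega
    · rintro ⟨a, b⟩ _; simp
    · rintro ⟨a, b⟩ _; simp
    · rintro ⟨a, b⟩ _; simp
  refine le_trans (le_of_eq ?_) (norm_sum_le _ _)
  rw [← key, ← sum_mul_sum, ← map_sum, norm_mul, RCLike.norm_conj, sq]

/-- van der Corput on a box: many shifts have a large derivative sum -/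
theorem vdc_ibox {lo hi : σ → ℤ} {T δ : ℝ} (hT : 1 ≤ T) (hδ : 0 ≤ δ)
    (hb : ∀ v, |(lo v : ℝ)| ≤ T ∧ |(hi v : ℝ)| ≤ T) {f : (σ → ℤ) → ℂ} (hf : ∀ n, ‖f n‖ ≤ 1)
    (h : δ * T ^ Fintype.card σ ≤ ‖∑ n ∈ ibox lo hi, f n‖) :
    ∃ W : Finset (σ → ℤ), δ ^ 2 / (2 * 3 ^ Fintype.card σ) * T ^ Fintype.card σ ≤ #W ∧
      ∀ w ∈ W, (∀ v, |(w v : ℝ)| ≤ 2 * T) ∧ ∃ lo' hi' : σ → ℤ,
        (∀ v, |(lo' v : ℝ)| ≤ T ∧ |(hi' v : ℝ)| ≤ T) ∧
        δ ^ 2 / (2 * 5 ^ Fintype.card σ) * T ^ Fintype.card σ ≤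
          ‖∑ n ∈ ibox lo' hi', f (n + w) * conj (f n)‖ := by
  set d := Fintype.card σ
  have hb' : ∀ w ∈ ibox (lo - hi) (hi - lo), ∀ v, |(w v : ℝ)| ≤ 2 * T ∧
      |((lo ⊔ (lo - w)) v : ℝ)| ≤ T ∧ |((hi ⊓ (hi - w)) v : ℝ)| ≤ T := by
    intro w hw v
    obtain ⟨h1, h2⟩ := mem_ibox.1 hw v
    obtain ⟨h3, h4⟩ := hb v
    have h1' : (lo v : ℝ) - hi v ≤ w v := by exact_mod_cast h1
    have h2' : (w v : ℝ) ≤ hi v - lo v := by exact_mod_cast h2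
    simp only [Pi.sub_apply, Pi.sup_apply, Pi.inf_apply, Int.cast_max, Int.cast_min, Int.cast_sub,
      abs_le, le_max_iff, max_le_iff, le_min_iff, min_le_iff] at h3 h4 ⊢
    refine ⟨⟨by linarith, by linarith⟩, ⟨Or.inl h3.1, h3.2, by linarith⟩,
      ⟨h4.1, by linarith⟩, Or.inl h4.2⟩
  have hc : ∀ lo' hi' : σ → ℤ, (∀ v, |(lo' v : ℝ)| ≤ T ∧ |(hi' v : ℝ)| ≤ T) →
      (#(ibox lo' hi') : ℝ) ≤ 3 ^ d * T ^ d := fun lo' hi' h' => by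
    rw [← mul_pow]
    exact card_ibox_le (by linarith) fun v => by
      linarith [(abs_le.1 (h' v).1).1, (abs_le.1 (h' v).2).2]
  have hc' : (#(ibox (lo - hi) (hi - lo)) : ℝ) ≤ 5 ^ d * T ^ d := by
    rw [← mul_pow]
    refine card_ibox_le (by linarith) fun v => ?_
    simp only [Pi.sub_apply, Int.cast_sub]
    linarith [(abs_le.1 (hb v).1).1, (abs_le.1 (hb v).2).2]
  have hX : 0 < T ^ d := by positivity
  have h1 := Gow.card_popular (ibox (lo - hi) (hi - lo))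
    (fun w => ‖∑ n ∈ ibox (lo ⊔ (lo - w)) (hi ⊓ (hi - w)), f (n + w) * conj (f n)‖)
    (M := 3 ^ d * T ^ d) (t := δ ^ 2 / (2 * 5 ^ d) * T ^ d) (by positivity) fun w hw =>
      (norm_sum_le _ _).trans ((sum_le_card_nsmul _ _ 1 fun n _ => by
        rw [norm_mul, RCLike.norm_conj]
        exact mul_le_one₀ (hf _) (norm_nonneg _) (hf _)).trans (by
          rw [nsmul_eq_mul, mul_one]
          exact hc _ _ fun v => (hb' w hw v).2))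
  have h2 := ((pow_le_pow_left₀ (by positivity) h 2).trans (normSq_sum_ibox lo hi f)).trans h1
  refine ⟨_, ?_, fun w hw => ⟨fun v => (hb' w (mem_filter.1 hw).1 v).1, _, _,
    fun v => (hb' w (mem_filter.1 hw).1 v).2, (mem_filter.1 hw).2⟩⟩
  have h3 : δ ^ 2 / (2 * 5 ^ d) * T ^ d * #(ibox (lo - hi) (hi - lo)) ≤
      δ ^ 2 / 2 * T ^ d * T ^ d := by
    refine (mul_le_mul_of_nonneg_left hc' (by positivity)).trans (le_of_eq ?_)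
    field_simp
  refine le_of_mul_le_mul_left (a := 3 ^ d * T ^ d) ?_ (by positivity)
  have h4 : 3 ^ d * T ^ d * (δ ^ 2 / (2 * 3 ^ d) * T ^ d) = δ ^ 2 / 2 * T ^ d * T ^ d := by
    field_simp
  rw [h4]
  nlinarith

end vdc

/-- one shift: box datum, vertical expansion, induction hypothesis -/
theorem one_shift {S s D : ℕ} (hs : 1 ≤ s) (hLT : LT S s D) :
    ∃ C : ℕ, ∀ (m : ℝ), 2 ≤ m → ∀ (ι σ : Type) [Fintype ι] [Fintype σ] [DecidableEq σ]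
    (N : ND ι) (η : ι → ℤ) (F : N.L → ℂ) (P : N.PS σ) (T : ℝ) (lo hi w : σ → ℤ),
    Fintype.card σ ≤ D → (Fintype.card ι : ℝ) ≤ m → N.Good S (Real.exp m) →
    N.NChar S (s + 1) (Real.exp m) η F → P ∈ N.poly σ → Real.exp (m ^ C) ≤ T →
    (∀ v, |(lo v : ℝ)| ≤ T ∧ |(hi v : ℝ)| ≤ T) →
    Real.exp (-m) * T ^ Fintype.card σ ≤
      ‖∑ n ∈ ibox lo hi, F (N.evZ (n + w) P) * conj (F (N.evZ n P))‖ →
    ∃ (H' : ℕ → Submodule ℝ N.box.L) (q : ℕ),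
      N.box.GrSub H' ∧ (∀ i, N.box.RatS (Real.exp (m ^ C)) (H' i)) ∧ 1 ≤ q ∧
      (q : ℝ) ≤ Real.exp (m ^ C) ∧ (∀ X ∈ N.F (s + 1), N.tin X ∈ H' s → N.fn η X = 0) ∧
      N.BoxFact S T (Real.exp (m ^ C)) q H' P w := by
  obtain ⟨C3, h3⟩ := hLT
  obtain ⟨C2, h2⟩ := exists_vert
  obtain ⟨C1, h1⟩ : ∃ C : ℕ, ∀ (m : ℝ) (d : ℕ), 2 ≤ m → d ≤ D →
      (9 * S + 2) * m ≤ m ^ C ∧ 2 * m ≤ m ^ C ∧
      Real.exp (-m ^ C) ≤ Real.exp (-m) / 3 ^ d := by qp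
  obtain ⟨C, hC⟩ : ∃ C : ℕ, ∀ m : ℝ, 2 ≤ m →
      ((m ^ C1) ^ C2 + m ^ C1) ^ C3 ≤ m ^ C ∧ 0 ≤ m ^ C := by qp
  refine ⟨C, fun m hm ι σ _ _ _ N η F P T lo hi w hD hι hN hF hP hT hb hbias => ?_⟩
  obtain ⟨a1, a2, a3⟩ := h1 m _ hm hD
  obtain ⟨a4, a5⟩ := hC m hm
  have a4' := Real.exp_le_exp.2 a4
  have hT1 : 1 ≤ T := (Real.one_le_exp a5).trans hT
  have hm1 : 2 ≤ m ^ C1 := by linarith
  have hm2 : 0 ≤ (m ^ C1) ^ C2 := by positivity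
  have he := (Real.exp_pos m).le
  obtain ⟨u, z, hu, hz, hw, hG, hQ, hev⟩ := hF.exists_box hN he he hP w
  have hw' : N.ev (fun v => (w v : ℝ)) P - N.ev 0 P - (u + z) ∈ N.F 2 := by
    rw [hw, sub_self]; exact zero_mem _
  have hιb : (Fintype.card (ι ⊕ N.I2) : ℝ) ≤ m ^ C1 := by
    have : (Fintype.card (ι ⊕ N.I2) : ℝ) ≤ 2 * Fintype.card ι := by exact_mod_cast card_box N
    linarith
  have hNb := hN.box he
  have hcard : (#(ibox lo hi) : ℝ) ≤ 3 ^ Fintype.card σ * T ^ Fintype.card σ := by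
    rw [← mul_pow]
    exact card_ibox_le (by linarith) fun v => by
      linarith [(abs_le.1 (hb v).1).1, (abs_le.1 (hb v).2).2]
  have hX : 0 < T ^ Fintype.card σ := by positivity
  obtain ⟨η', G', hG', hb', hin⟩ := h2 (m ^ C1) hm1 _ N.box S s (N.boxFn S F u) _ (ibox lo hi)
    (fun _ => 1) (fun n => N.box.evZ n (N.boxP S P (fun v => (w v : ℝ)) u z))
    (3 ^ Fintype.card σ * T ^ Fintype.card σ) hιb hNb.wt_le
    (hG.mono ((box_bound S hm (Nat.cast_nonneg _) hι).trans (Real.exp_le_exp.2 a1)))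
    (by simpa using hcard) (by
      simp only [one_mul, hev]
      refine le_trans ?_ hbias
      rw [← mul_assoc]
      exact mul_le_mul_of_nonneg_right ((le_div_iff₀ (by positivity)).1 a3) hX.le)
  simp only [one_mul] at hb'
  have hb'' : Real.exp (-((m ^ C1) ^ C2 + m ^ C1)) * T ^ Fintype.card σ ≤
      ‖∑ n ∈ ibox lo hi, G' (N.box.evZ n (N.boxP S P (fun v => (w v : ℝ)) u z))‖ := by
    refine le_trans (mul_le_mul (Real.exp_le_exp.2 (by linarith))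
      (le_mul_of_one_le_left hX.le (one_le_pow₀ (by norm_num))) hX.le (Real.exp_pos _).le) hb'
  obtain ⟨H', hH1, hH2, hH3, q, hq1, hq2, hq3⟩ := h3 ((m ^ C1) ^ C2 + m ^ C1) (by linarith) _ σ
    N.box η' G' _ T lo hi hD (by linarith) (hNb.mono (Real.exp_le_exp.2 (by linarith)))
    (hG'.mono (Real.exp_le_exp.2 (by linarith))) hQ (a4'.trans hT) hb hb''
  refine ⟨H', q, hH1, fun i => (hH2 i).mono a4', hq1, hq2.trans a4', fun X hX1 hX2 => ?_,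
    u, z, hu, hz, _, p2_boxP P _ u z, p1_boxP hP _ hw', hq3.mono a4' dvd_rfl⟩
  obtain ⟨x, hx⟩ : ∃ x, G' x ≠ 0 := by
    by_contra hc
    push Not at hc
    simp only [hc, sum_const_zero, norm_zero] at hb''
    exact absurd hb'' (not_le.2 (by positivity))
  rw [← hH3 _ hX2]
  refine eq_of_e_eq fun t => mul_right_cancel₀ hx ?_
  have hL := nchar_left he he hN hF hu
  have e1 := hin (N.tin (t • X)) _ (box_tin hL
    (hF.mono (le_mul_of_one_le_left he (one_le_cA S he))) hs (Submodule.smul_mem _ t hX1)) x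
  rw [hG'.vert _ (tin_mem (Submodule.smul_mem _ t hX1))] at e1
  simpa only [map_smul, smul_eq_mul] using e1.symm

end Pig7

open Pig7 in
/-- task PIG -/
theorem pigStmt : PigStmt := by
  intro S s D hs hLT
  obtain ⟨C2, h2⟩ := one_shift hs hLT
  obtain ⟨C1, h1⟩ : ∃ C : ℕ, ∀ (m : ℝ) (d : ℕ), 2 ≤ m → d ≤ D →
      2 * m ≤ m ^ C ∧ Real.exp (-m ^ C) ≤ Real.exp (-m) ^ 2 / (2 * 5 ^ d) ∧
      Real.exp (-m ^ C) ≤ Real.exp (-m) ^ 2 / (2 * 3 ^ d) := by qp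
  obtain ⟨C, hC⟩ : ∃ C : ℕ, ∀ m : ℝ, 2 ≤ m → (m ^ C1) ^ C2 + m ^ C1 ≤ m ^ C ∧
      m ^ C1 + (((m ^ C1) ^ C2 + m ^ C1) ^ (S + 5) + ((m ^ C1) ^ C2 + m ^ C1)) ≤ m ^ C := by qp
  refine ⟨C, fun m hm ι σ _ _ _ N η F P T lo hi hD hι hN hF hP hT hb hbias => ?_⟩
  obtain ⟨a1, a2, a3⟩ := h1 m _ hm hD
  obtain ⟨a4, a5⟩ := hC m hm
  have hm1 : 2 ≤ m ^ C1 := by linarith
  have hm2 : 0 ≤ (m ^ C1) ^ C2 := by positivity
  have a4' := Real.exp_le_exp.2 a4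
  have a6 : Real.exp ((m ^ C1) ^ C2) ≤ Real.exp ((m ^ C1) ^ C2 + m ^ C1) :=
    Real.exp_le_exp.2 (by linarith)
  have a7 : Real.exp m ≤ Real.exp (m ^ C1) := Real.exp_le_exp.2 (by linarith)
  have hT1 : 1 ≤ T := (Real.one_le_exp (by linarith)).trans hT
  have hX : 0 < T ^ Fintype.card σ := by positivity
  obtain ⟨W₀, hW₀, hW⟩ := vdc_ibox hT1 (Real.exp_pos _).le hb (fun n => hF.bdd _) hbias
  have hιb : (Fintype.card (ι ⊕ N.I2) : ℝ) ≤ (m ^ C1) ^ C2 + m ^ C1 := by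
    have : (Fintype.card (ι ⊕ N.I2) : ℝ) ≤ 2 * Fintype.card ι := by exact_mod_cast card_box N
    linarith
  have hcnt := ((cnt_grSub_exp N.box (hN.box (Real.exp_pos _).le).wt_le (by linarith) hιb).prod
    (cnt_nat (Real.exp_pos ((m ^ C1) ^ C2 + m ^ C1)).le)).mono
    (p' := fun x : (ℕ → Submodule ℝ N.box.L) × ℕ =>
      ((N.box.GrSub x.1 ∧ ∀ i, N.box.RatS (Real.exp ((m ^ C1) ^ C2 + m ^ C1)) (x.1 i)) ∧
        1 ≤ x.2 ∧ (x.2 : ℝ) ≤ Real.exp ((m ^ C1) ^ C2 + m ^ C1)) ∧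
      ∀ X ∈ N.F (s + 1), N.tin X ∈ x.1 s → N.fn η X = 0)
    (fun _ h => h.1) (Real.exp_add _ _).ge
  obtain ⟨⟨H', q⟩, ⟨⟨⟨b1, b2⟩, b3, b4⟩, b5⟩, W, hWW, b6, b7⟩ := hcnt.pigeon_exp hX
    ((mul_le_mul_of_nonneg_right a3 hX.le).trans hW₀)
    (fun w x => N.BoxFact S T (Real.exp ((m ^ C1) ^ C2)) x.2 x.1 P w) fun w hw => by
      obtain ⟨-, lo', hi', c1, c2⟩ := hW w hw
      obtain ⟨H', q, d1, d2, d3, d4, d5, d6⟩ := h2 (m ^ C1) hm1 ι σ N η F P T lo' hi' w hD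
        (by linarith) (hN.mono a7) (hF.mono a7) hP ((a6.trans a4').trans hT) c1
        ((mul_le_mul_of_nonneg_right a2 hX.le).trans c2)
      exact ⟨(H', q), ⟨⟨⟨d1, fun i => (d2 i).mono a6⟩, d3, d4.trans a6⟩, d5⟩, d6⟩
  refine ⟨H', q, W, b1, fun i => (b2 i).mono a4', b3, b4.trans a4', b5,
    (mul_le_mul_of_nonneg_right (Real.exp_le_exp.2 (neg_le_neg a5)) hX.le).trans b6,
    fun w hw => ⟨(hW w (hWW hw)).1, ?_⟩⟩
  obtain ⟨u, z, e1, e2, Q, e3, e4, e5⟩ := b7 w hw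
  exact ⟨u, z, e1, e2, Q, e3, e4, e5.mono (a6.trans a4') dvd_rfl⟩

end Crest.Agent.T49.Nil
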