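import Crest.Agent.T49.LTDef_65
import Crest.Agent.T49.NilSt_61
import Crest.Agent.T49.Qp_85

/-!
# Row 49 (helper85): the leaf `REDK` of `LT`
-/

set_option autoImplicit false

noncomputable section

namespace Crest.Agent.T49.Nil

open Finset ND

namespace RedK85

variable {ι : Type} [Fintype ι] {N : ND ι}

theorem p2_tin (x : N.L) : N.p2 ℝ (N.tin x) = 0 := rfl

theorem p1_tin {x : N.L} (hx : x ∈ N.F 2) : N.p1 ℝ (N.tin x) = x :=
  p1_mk2 (by simpa using hx)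

theorem tin_mem_F {i : ℕ} {x : N.L} (hx : x ∈ N.F (i + 1)) : N.tin x ∈ N.box.F i :=
  mk2_mem_FA (zero_mem _) (by simpa using hx)

theorem tin_lie (z : N.box.L) {y : N.L} (hy : y ∈ N.F 2) :
    N.tin ⁅N.p1 ℝ z, y⁆ = ⁅z, N.tin y⁆ := by
  refine box_ext ?_ ?_
  · rw [p1_tin (FA_anti (by omega) (lie_mem_FA_succ _ hy)), LieHom.map_lie, p1_tin hy]
  · rw [p2_tin, LieHom.map_lie, p2_tin, lie_zero]

theorem grSub_redH {H' : ℕ → Submodule ℝ N.box.L} (h : N.box.GrSub H') : N.GrSub (N.redH H') where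
  le i := by
    rintro _ ⟨z, hz, rfl⟩
    exact p2_mem_FA (h.le i hz)
  ge i x hx := ⟨N.mk2 x x, h.ge i (mk2_mem_FA hx (by simp)), rfl⟩
  lie i j := by
    rintro _ ⟨z, hz, rfl⟩ _ ⟨w, hw, rfl⟩
    exact ⟨⁅z, w⁆, h.lie i j z hz w hw, (N.p2 ℝ).map_lie z w⟩

theorem redK_ge {H' : ℕ → Submodule ℝ N.box.L} (h : N.box.GrSub H') (i : ℕ) :
    N.F (i + 1) ≤ N.redK H' i := by
  cases i with
  | zero => exact le_top
  | succ i =>
    intro x hx
    exact ⟨⟨FA_anti (by omega) hx, FA_anti (by omega) hx⟩, h.ge i (tin_mem_F hx)⟩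

theorem kSys {H' : ℕ → Submodule ℝ N.box.L} (h : N.box.GrSub H') :
    N.KSys (N.redH H') (N.redK H') where
  gr := grSub_redH h
  le i := by
    cases i with
    | zero => exact fun x _ => mem_FA_zero x
    | succ i => exact fun x hx => hx.1.1
  ge := redK_ge h
  one x hx := hx.1.2
  lie i j x hx y hy := by
    have hxF := (grSub_redH h).le i hx
    cases j with
    | zero => exact redK_ge h i (lie_mem_FA hxF (mem_FA_one y))
    | succ j =>
      obtain ⟨z, hz, rfl⟩ := hx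
      obtain ⟨⟨hy1, hy2⟩, hy3⟩ := hy
      refine ⟨⟨lie_mem_FA (j := j + 1) hxF hy1, FA_anti (by omega) (lie_mem_FA_succ _ hy2)⟩, ?_⟩
      have h1 : N.tin ⁅N.p1 ℝ z, y⁆ ∈ H' (i + j) := by
        rw [tin_lie z hy2]; exact h.lie i j z hz _ hy3
      have h2 : N.tin ⁅N.off z, y⁆ ∈ H' (i + j) :=
        h.ge _ (tin_mem_F (FA_anti (by omega) (lie_mem_FA (mem_box_FA.1 (h.le i hz)).2 hy1)))
      have h3 := sub_mem h1 h2
      rw [← map_sub, ← sub_lie, p1_eq, add_sub_cancel_right] at h3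
      exact h3

theorem intMap_p2 {M : ℝ} (hM : 1 ≤ M) : N.box.IntMap N M (N.p2 ℝ).toLinearMap := by
  classical
  intro i k
  change ∃ z : ℤ, N.box.e i (.inl k) = z ∧ _
  rw [e_apply]
  split_ifs
  · exact ⟨1, by simp, by simpa using hM⟩
  · exact ⟨0, by simp, by simp; linarith⟩

theorem intMap_tin {M : ℝ} (hM : 1 ≤ M) : N.IntMap N.box M N.tin := by
  classical
  rintro i (k | k)
  · exact ⟨0, by simp [tin_apply], by simp; linarith⟩
  · rw [tin_apply, mk2_inr, ND.zero_apply, sub_zero, e_apply]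
    split_ifs
    · exact ⟨1, by simp, by simpa using hM⟩
    · exact ⟨0, by simp, by simp; linarith⟩

theorem card_box : Fintype.card (ι ⊕ N.I2) ≤ 2 * Fintype.card ι := by
  rw [Fintype.card_sum, two_mul]
  exact Nat.add_le_add_left (Fintype.card_subtype_le _) _

section generic

variable {ι' : Type} [Fintype ι'] {N' : ND ι'} {f : N.L →ₗ[ℝ] N'.L} {H : ℝ} {d : ℕ}

theorem ratS_map (hf : N.IntMap N' H f) (hH : 0 ≤ H) (hd : Fintype.card ι ≤ d)
    {U : Submodule ℝ N.L} (hU : N.RatS H U) : N'.RatS (d * H * H) (U.map f) := by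
  obtain ⟨A, hA, hAf⟩ := St.exists_matrix hf
  have h1 : Gon.lin A = f := LinearMap.ext hAf
  have := Gon.IsRat.map' hU A hA hH hH hd
  rw [h1] at this
  exact this

theorem ratS_comap (hf : N.IntMap N' H f) (hH : 1 ≤ H) (hd : Fintype.card ι' ≤ d)
    {U : Submodule ℝ N'.L} (hU : N'.RatS H U) :
    N.RatS (Gon.bl d (Gon.bl d (Gon.bl d H))) (U.comap f) := by
  obtain ⟨A, hA, hAf⟩ := St.exists_matrix hf
  have h1 : Gon.lin A = f := LinearMap.ext hAf
  have := Gon.IsRat.comap hU A hA hH hd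
  rw [h1] at this
  exact this

theorem exists_lift (hf : N.IntMap N' H f) (hH : 1 ≤ H) (hd : Fintype.card ι ≤ d)
    {U : Submodule ℝ N.L} (hU : N.RatS H U) :
    ∃ (q : ℕ) (l : N'.L →ₗ[ℝ] N.L), 1 ≤ q ∧ (q : ℝ) ≤ Gon.bl d (Gon.bl d H) ∧
      (∀ x, l x ∈ U) ∧ (∀ x ∈ U.map f, f (l x) = x) ∧
      (∀ x, ‖l x‖ ≤ Gon.bl d H * Gon.bl d (Gon.bl d H) * ‖x‖) ∧
      ∀ r x, N'.Den r x → N.Den (q * r) (l x) := by
  obtain ⟨A, hA, hAf⟩ := St.exists_matrix hf
  obtain ⟨q, B, hq1, hq, hB, hBU, hs⟩ := Gon.IsRat.exists_lift hU A hA hH hd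
  have hq0 : (1 : ℝ) ≤ q := by exact_mod_cast hq1
  let l : N'.L →ₗ[ℝ] N.L := (q : ℝ)⁻¹ • (N.co.symm.toLinearMap ∘ₗ Gon.lin B ∘ₗ N'.co.toLinearMap)
  have hl : ∀ x, l x = (q : ℝ)⁻¹ • (show N.L from Gon.lin B x) := fun x => rfl
  refine ⟨q, l, hq1, hq, fun x => U.smul_mem _ (hBU x), ?_, fun x => ?_, fun r x hx => ?_⟩
  · rintro _ ⟨x, hx, rfl⟩
    have h1 := hs x hx
    rw [hAf x, hAf] at h1
    rw [hl, map_smul]
    change (q : ℝ)⁻¹ • f (Gon.lin B (f x)) = f x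
    rw [h1]
    change (q : ℝ)⁻¹ • (q : ℝ) • f x = f x
    rw [smul_smul, inv_mul_cancel₀ (by positivity), one_smul]
  · rw [hl, norm_smul, mul_assoc]
    have h1 : ‖(q : ℝ)⁻¹‖ ≤ 1 := by
      rw [Real.norm_eq_abs, abs_of_nonneg (by positivity)]; exact inv_le_one_of_one_le₀ hq0
    exact (mul_le_of_le_one_left (norm_nonneg _) h1).trans (hB x)
  · exact Gon.IsDen.inv_smul (Gon.IsDen.lin hx B) hq1

end generic

end RedK85

open RedK85 in
theorem redKStmt : RedKStmt := by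
  obtain ⟨C, hC⟩ : ∃ C : ℕ, ∀ (m : ℝ) (d : ℕ), 2 ≤ m → (d : ℝ) ≤ 2 * m →
      d * Real.exp m * Real.exp m ≤ Real.exp (m ^ C) ∧
      Gon.bl d (Gon.bl d (Gon.bl d (Gon.bl d (Gon.bl d (Real.exp m))))) ≤ Real.exp (m ^ C) ∧
      Gon.bl d (Gon.bl d (Real.exp m)) ≤ Real.exp (m ^ C) ∧
      Gon.bl d (Real.exp m) * Gon.bl d (Gon.bl d (Real.exp m)) ≤ Real.exp (m ^ C) ∧
      1 ≤ Real.exp (m ^ C) := by
    unfold Gon.bl; qp
  refine ⟨C, fun m hm ι _ N H' hι hH hR => ?_⟩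
  have hd : Fintype.card (ι ⊕ N.I2) ≤ 2 * Fintype.card ι := card_box
  have hd' : Fintype.card ι ≤ 2 * Fintype.card ι := by omega
  obtain ⟨c1, c2, c3, c4, c5⟩ := hC m (2 * Fintype.card ι) hm (by push_cast; linarith)
  have he : 1 ≤ Real.exp m := Real.one_le_exp (by linarith)
  refine ⟨kSys hH, fun i => ⟨(ratS_map (intMap_p2 he) (by linarith) hd (hR i)).mono c1, ?_⟩,
    fun i => ?_⟩
  · cases i with
    | zero => exact Gon.IsRat.top c5
    | succ i =>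
      have h3 := Gon.one_le_bl (2 * Fintype.card ι) (Gon.one_le_bl (2 * Fintype.card ι)
        (Gon.one_le_bl (2 * Fintype.card ι) he))
      have h1 : N.F (i + 1) ⊓ N.F 2 = N.F (max (i + 1) 2) := by
        rcases le_total (i + 1) 2 with h | h
        · rw [max_eq_right h, inf_eq_right.2 (FA_anti h)]
        · rw [max_eq_left h, inf_eq_left.2 (FA_anti h)]
      rw [redK, h1]
      exact RatS.mono (Gon.IsRat.inf (St.ratS_F h3 _) (ratS_comap (intMap_tin he) he hd (hR i))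
        h3 hd') c2
  · obtain ⟨q, l, h1, h2, h3, h4, h5, h6⟩ := exists_lift (intMap_p2 he) he hd (hR i)
    exact ⟨q, l, h1, h2.trans c3, h3, h4,
      fun x => (h5 x).trans (mul_le_mul_of_nonneg_right c4 (norm_nonneg _)), h6⟩

end Crest.Agent.T49.Nil
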