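import Crest.Agent.T49.LTCj_65
import Crest.Agent.T49.Qp_85

/-!
# Row 49 (helper13): the leaf `RED` of `LT`

From factorisations of the pairs `(u⁻¹ P(t+w) z⁻¹, P(t))` through one graded subalgebra of the box
datum to an affine relation between the multiplicative differences.
-/

set_option autoImplicit false

noncomputable section

namespace Crest.Agent.T49.Nil.Red13

open Finset ND MvPolynomial
open Crest.Agent.T49.Bch (star)

variable {ι σ : Type} [Fintype ι] {N : ND ι}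

/-! ### translation -/

theorem tr_ind (h : σ → ℝ) (Pr : ℕ → MvPolynomial σ ℝ → Prop) (h0 : Pr 0 1)
    (hs : ∀ n p v, Pr n p → Pr (n + 1) (p * (X v + C (h v)))) (α : σ →₀ ℕ) :
    Pr α.degree (aeval (fun v => X v + C (h v)) (monomial α (1 : ℝ))) := by
  classical
  obtain ⟨n, hn⟩ : ∃ n, α.degree = n := ⟨_, rfl⟩
  induction n generalizing α with
  | zero =>
    obtain rfl : α = 0 := (Finsupp.degree_eq_zero_iff α).1 hn
    simpa using h0
  | succ n ih =>
    obtain ⟨v, hv⟩ : ∃ v, α v ≠ 0 := by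
      by_contra hc
      push Not at hc
      obtain rfl : α = 0 := Finsupp.ext hc
      simp at hn
    obtain ⟨β, rfl⟩ : ∃ β, α = β + Finsupp.single v 1 :=
      ⟨α - Finsupp.single v 1, (tsub_add_cancel_of_le (Finsupp.single_le_iff.2 (by omega))).symm⟩
    have hβ : β.degree = n := by simpa using hn
    have e : (monomial (β + Finsupp.single v 1) (1 : ℝ) : MvPolynomial σ ℝ) =
        monomial β 1 * X v := by rw [monomial_add_single, pow_one]
    rw [hn, e, map_mul, aeval_X]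
    exact hs n _ v (hβ ▸ ih β hβ)

theorem coeff_tr_le {T : ℝ} (hT : 0 ≤ T) {h : σ → ℝ} (hh : ∀ v, |h v| ≤ 2 * T) (α β : σ →₀ ℕ) :
    |coeff β (aeval (fun v => X v + C (h v)) (monomial α (1 : ℝ)))| * T ^ β.degree ≤
      (3 * T) ^ α.degree := by
  classical
  refine tr_ind h (fun n p => ∀ β : σ →₀ ℕ, |coeff β p| * T ^ β.degree ≤ (3 * T) ^ n) ?_ ?_ α β
  · intro β
    rw [coeff_one]
    split_ifs with hβ
    · subst hβ; simp
    · simp
  · intro n p v ih β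
    have h1 : |coeff β (p * X v)| * T ^ β.degree ≤ T * (3 * T) ^ n := by
      rw [coeff_mul_X']
      split_ifs with hv
      · have hle : Finsupp.single v 1 ≤ β :=
          Finsupp.single_le_iff.2 (Nat.one_le_iff_ne_zero.2 (Finsupp.mem_support_iff.1 hv))
        have hd : β.degree = (β - Finsupp.single v 1).degree + 1 := by
          conv_lhs => rw [← tsub_add_cancel_of_le hle]
          simp
        rw [hd, pow_succ, ← mul_assoc, mul_comm]
        exact mul_le_mul_of_nonneg_left (ih _) hT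
      · simp only [abs_zero, zero_mul]; positivity
    have h2 : |coeff β (p * C (h v))| * T ^ β.degree ≤ 2 * T * (3 * T) ^ n := by
      rw [mul_comm p, coeff_C_mul, abs_mul, mul_assoc]
      exact mul_le_mul (hh v) (ih β) (by positivity) (by positivity)
    rw [mul_add, coeff_add, pow_succ]
    have h3 := mul_le_mul_of_nonneg_right (abs_add_le (coeff β (p * X v)) (coeff β (p * C (h v))))
      (pow_nonneg hT β.degree)
    nlinarith

theorem coeff_tr_int (w : σ → ℤ) (α β : σ →₀ ℕ) :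
    ∃ z : ℤ, (coeff β (aeval (fun v => X v + C (w v : ℝ)) (monomial α (1 : ℝ))) : ℝ) = z := by
  classical
  refine tr_ind (fun v => (w v : ℝ)) (fun _ p => ∀ β : σ →₀ ℕ, ∃ z : ℤ, coeff β p = z) ?_ ?_ α β
  · intro β
    rw [coeff_one]
    split_ifs
    exacts [⟨1, by simp⟩, ⟨0, by simp⟩]
  · intro n p v ih β
    obtain ⟨a, ha⟩ := ih β
    obtain ⟨b, hb⟩ := ih (β - Finsupp.single v 1)
    rw [mul_add, coeff_add, coeff_mul_X', mul_comm p, coeff_C_mul, ha, hb]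
    split_ifs
    exacts [⟨b + w v * a, by push_cast; ring⟩, ⟨w v * a, by push_cast; ring⟩]

theorem cv_tr_mono (h : σ → ℝ) (α β : σ →₀ ℕ) (x : N.L) :
    N.cv β (N.tr h (N.mono α x)) =
      coeff β (aeval (fun v => X v + C (h v)) (monomial α (1 : ℝ))) • x := by
  rw [mono_eq_asm, ND.tr, ND.subst, map_asm, map_cst, cv_asm_cst]

theorem card_deg_le [Fintype σ] (S : ℕ) (A : Finset (σ →₀ ℕ)) (hA : ∀ α ∈ A, α.degree ≤ S) :
    #A ≤ (S + 1) ^ Fintype.card σ := by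
  classical
  have : #(Fintype.piFinset fun _ : σ => range (S + 1)) = (S + 1) ^ Fintype.card σ := by
    simp [Fintype.card_piFinset]
  rw [← this]
  refine card_le_card_of_injOn (fun α v => α v) (fun α hα => ?_) fun α _ β _ h => Finsupp.ext
    fun v => congrFun h v
  exact mem_coe.2 (Fintype.mem_piFinset.2 fun v =>
    mem_range.2 (Nat.lt_succ_of_le ((Finsupp.le_degree v α).trans (hA α hα))))

/-- the constant of `Sm_tr` -/
def cT (S D : ℕ) : ℝ := ((S : ℝ) + 1) ^ D * 3 ^ S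

theorem one_le_cT (S D : ℕ) : 1 ≤ cT S D :=
  one_le_mul_of_one_le_of_one_le (one_le_pow₀ (by linarith [Nat.cast_nonneg (α := ℝ) S]))
    (one_le_pow₀ (by norm_num))

/-- translation by a vector of size `≤ 2T` preserves smoothness -/
theorem Sm_tr [Fintype σ] {S D : ℕ} (hS : ∀ k, N.wt k ≤ S) (hD : Fintype.card σ ≤ D) {T M : ℝ}
    (hT : 0 ≤ T) {h : σ → ℝ} (hh : ∀ v, |h v| ≤ 2 * T) {P : N.PS σ} (hP : P ∈ N.poly σ)
    (hs : N.Sm T M P) : N.Sm T (cT S D * M) (N.tr h P) := by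
  classical
  obtain ⟨A, -, hA⟩ := exists_sum_mono P
  have hM := St.Sm_nonneg hs
  have hA' : P = ∑ α ∈ A.filter fun α => α.degree ≤ S, N.mono α (N.cv α P) := by
    conv_lhs => rw [hA]
    refine (sum_subset (filter_subset _ _) fun α hα h => ?_).symm
    rw [St.cv_eq_zero hS hP (by simpa [hα] using h), map_zero]
  have h1 := St.Sm_sum (N := N) hT (A.filter fun α => α.degree ≤ S) (M := fun _ => 3 ^ S * M)
    (P := fun α => N.tr h (N.mono α (N.cv α P))) fun α hα β => by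
      rw [cv_tr_mono, norm_smul, Real.norm_eq_abs, mul_right_comm]
      calc _ ≤ (3 * T) ^ α.degree * ‖N.cv α P‖ :=
            mul_le_mul_of_nonneg_right (coeff_tr_le hT hh α β) (norm_nonneg _)
        _ = 3 ^ α.degree * (‖N.cv α P‖ * T ^ α.degree) := by rw [mul_pow]; ring
        _ ≤ 3 ^ S * M := mul_le_mul (pow_le_pow_right₀ (by norm_num) (mem_filter.1 hα).2) (hs α)
            (by positivity) (by positivity)
  rw [← map_sum, ← hA'] at h1
  refine h1.mono ?_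
  rw [sum_const, nsmul_eq_mul, cT, mul_assoc]
  refine mul_le_mul_of_nonneg_right ?_ (by positivity)
  have h2 := (card_deg_le S _ fun α hα => (mem_filter.1 hα).2 :
    #(A.filter fun α => α.degree ≤ S) ≤ _).trans (Nat.pow_le_pow_right (Nat.succ_pos S) hD)
  exact_mod_cast h2

/-- integer translations preserve denominators -/
theorem RatP_trZ {q : ℕ} (w : σ → ℤ) {P : N.PS σ} (hr : N.RatP q P) : N.RatP q (N.trZ w P) := by
  obtain ⟨A, -, hA⟩ := exists_sum_mono P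
  rw [hA, map_sum]
  refine St.RatP_sum A fun α _ β => ?_
  obtain ⟨z, hz⟩ := coeff_tr_int w α β
  rw [cv_tr_mono, hz, den_iff]
  intro k
  obtain ⟨y, hy⟩ := den_iff.1 (hr α) k
  exact ⟨z * y, by rw [ND.smul_apply, smul_eq_mul, mul_left_comm, hy]; push_cast; ring⟩

theorem Sm_cst {T M : ℝ} {x : N.L} (hx : ‖x‖ ≤ M) : N.Sm T M (N.cst (MvPolynomial σ ℝ) x) := by
  classical
  intro α
  rw [cv_cst]
  split_ifs with h
  · subst h; simpa using hx
  · simpa using (norm_nonneg _).trans hx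

theorem RatP_cst (q : ℕ) {x : N.L} (hx : IsInt x) : N.RatP q (N.cst (MvPolynomial σ ℝ) x) := by
  classical
  intro α
  rw [cv_cst]
  split_ifs
  · refine den_iff.2 fun k => ?_
    obtain ⟨z, hz⟩ := hx k
    exact ⟨q * z, by rw [hz]; push_cast; ring⟩
  · exact Gon.IsDen.zero q

/-! ### the two projections of the box datum -/

theorem cv_p2 (α : σ →₀ ℕ) (Q : N.box.PS σ) : N.cv α (N.p2 _ Q) = N.p2 ℝ (N.box.cv α Q) := rfl

theorem cv_off (α : σ →₀ ℕ) (Q : N.box.PS σ) : N.cv α (N.off Q) = N.off (N.box.cv α Q) := by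
  ext k
  by_cases hk : 2 ≤ N.wt k
  · rw [cv_apply, off_apply _ ⟨k, hk⟩, off_apply _ ⟨k, hk⟩, cv_apply]
  · rw [cv_apply, off_apply_of_not _ hk, off_apply_of_not _ hk, coeff_zero]

theorem cv_p1 (α : σ →₀ ℕ) (Q : N.box.PS σ) : N.cv α (N.p1 _ Q) = N.p1 ℝ (N.box.cv α Q) := by
  rw [p1_eq, p1_eq, map_add, cv_p2, cv_off]

theorem p2_poly {Q : N.box.PS σ} (hQ : Q ∈ N.box.poly σ) : N.p2 _ Q ∈ N.poly σ :=
  fun α => p2_mem_FA (hQ α)

theorem p1_sub_pm {Q : N.box.PS σ} (hQ : Q ∈ N.box.poly σ) : N.p1 _ Q - N.p2 _ Q ∈ N.pm σ :=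
  fun α => by
    rw [p1_eq, add_sub_cancel_left, cv_off]
    exact (mem_box_FA.1 (hQ α)).2

theorem p1_poly {Q : N.box.PS σ} (hQ : Q ∈ N.box.poly σ) : N.p1 _ Q ∈ N.poly σ := by
  simpa using add_mem (pm_le_poly (p1_sub_pm hQ)) (p2_poly hQ)

theorem norm_p2_le (x : N.box.L) : ‖N.p2 ℝ x‖ ≤ ‖x‖ :=
  (norm_le_iff (norm_nonneg _)).2 fun k => abs_apply_le x (.inl k)

theorem norm_p1_le (x : N.box.L) : ‖N.p1 ℝ x‖ ≤ 2 * ‖x‖ :=
  (norm_le_iff (by positivity)).2 fun k => by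
    have h1 := abs_apply_le x (.inl k)
    have h2 : |N.off x k| ≤ ‖x‖ := by
      by_cases hk : 2 ≤ N.wt k
      · rw [off_apply _ ⟨k, hk⟩]; exact abs_apply_le x _
      · rw [off_apply_of_not _ hk, abs_zero]; exact norm_nonneg _
    rw [p1_apply]
    linarith [abs_add_le (x (.inl k)) (N.off x k)]

theorem Sm_p2 {T M : ℝ} (hT : 0 ≤ T) {Q : N.box.PS σ} (h : N.box.Sm T M Q) :
    N.Sm T M (N.p2 _ Q) := fun α => by
  rw [cv_p2]
  exact (mul_le_mul_of_nonneg_right (norm_p2_le _) (pow_nonneg hT _)).trans (h α)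

theorem Sm_p1 {T M : ℝ} (hT : 0 ≤ T) {Q : N.box.PS σ} (h : N.box.Sm T M Q) :
    N.Sm T (2 * M) (N.p1 _ Q) := fun α => by
  rw [cv_p1]
  refine (mul_le_mul_of_nonneg_right (norm_p1_le _) (pow_nonneg hT _)).trans ?_
  rw [mul_assoc]
  exact mul_le_mul_of_nonneg_left (h α) zero_le_two

theorem RatP_p2 {q : ℕ} {Q : N.box.PS σ} (h : N.box.RatP q Q) : N.RatP q (N.p2 _ Q) := fun α =>
  den_iff.2 fun k => den_iff.1 (h α) (.inl k)

theorem RatP_p1 {q : ℕ} {Q : N.box.PS σ} (h : N.box.RatP q Q) : N.RatP q (N.p1 _ Q) := fun α =>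
  den_iff.2 fun k => by
    obtain ⟨a, ha⟩ := den_iff.1 (h α) (.inl k)
    rw [cv_p1, p1_apply, mul_add, ha]
    by_cases hk : 2 ≤ N.wt k
    · obtain ⟨b, hb⟩ := den_iff.1 (h α) (.inr ⟨k, hk⟩)
      exact ⟨a + b, by rw [off_apply _ ⟨k, hk⟩, hb]; push_cast; ring⟩
    · exact ⟨a, by rw [off_apply_of_not _ hk]; ring⟩

theorem box_wt_le {S : ℕ} (hS : ∀ k, N.wt k ≤ S) : ∀ k, N.box.wt k ≤ S
  | .inl k => hS k
  | .inr k => (Nat.sub_le _ _).trans (hS k)

theorem p2_redH {H' : ℕ → Submodule ℝ N.box.L} {Q : N.box.PS σ} (hQ : Q ∈ cf σ H') :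
    N.p2 _ Q ∈ cf σ (N.redH H') := fun α => ⟨_, hQ α, rfl⟩

theorem p1_redK {H' : ℕ → Submodule ℝ N.box.L} (hH : N.box.GrSub H') {Q : N.box.PS σ}
    (hQ : Q ∈ cf σ H') (h0 : N.p2 _ Q = 0) : N.p1 _ Q ∈ N.sh σ (N.redK H') := fun α => by
  have h2 : N.p2 ℝ (N.box.cv α Q) = 0 := by rw [← cv_p2, h0, map_zero]
  have h1 : N.p1 ℝ (N.box.cv α Q) = N.off (N.box.cv α Q) := by rw [p1_eq, h2, zero_add]
  rw [cv_p1]
  refine ⟨⟨?_, ?_⟩, ?_⟩
  · rw [h1]; exact (mem_box_FA.1 (hH.le _ (hQ α))).2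
  · rw [h1]; exact off_mem _
  · change N.mk2 _ 0 ∈ H' _
    rw [← h2, mk2_p1_p2]
    exact hQ α

/-- degreewise lifting along `p2` -/
theorem exists_lift {S : ℕ} (hS : ∀ k, N.wt k ≤ S) {H' : ℕ → Submodule ℝ N.box.L} {R : ℝ}
    (qs : ℕ → ℕ) (l : ℕ → N.L →ₗ[ℝ] N.box.L) (h1 : ∀ i x, l i x ∈ H' i)
    (h2 : ∀ i, ∀ x ∈ N.redH H' i, N.p2 ℝ (l i x) = x) (h3 : ∀ i x, ‖l i x‖ ≤ R * ‖x‖)
    (h4 : ∀ i r x, N.Den r x → N.box.Den (qs i * r) (l i x)) (hR : 0 ≤ R) {a : N.PS σ}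
    (ha : a ∈ cf σ (N.redH H')) (hp : a ∈ N.poly σ) :
    ∃ b ∈ cf σ H', N.p2 _ b = a ∧ (∀ T M, 0 ≤ T → N.Sm T M a → N.box.Sm T (R * M) b) ∧
      ∀ r, N.RatP r a → N.box.RatP ((∏ i ∈ range (S + 1), qs i) * r) b := by
  obtain ⟨b, hb⟩ := St.exists_ps (N := N.box) (fun α : σ →₀ ℕ => l α.degree (N.cv α a))
    ((St.finite_cv a).subset fun α hα h => hα (by simp [h]))
  refine ⟨b, fun α => hb α ▸ h1 _ _, ps_ext fun α => ?_, fun T M hT h α => ?_, fun r h α => ?_⟩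
  · rw [cv_p2, hb, h2 _ _ (ha α)]
  · rw [hb]
    refine (mul_le_mul_of_nonneg_right (h3 _ _) (pow_nonneg hT _)).trans ?_
    rw [mul_assoc]
    exact mul_le_mul_of_nonneg_left (h α) hR
  · rw [hb]
    by_cases hα : α.degree ≤ S
    · exact Gon.IsDen.of_dvd (h4 _ _ _ (h α))
        (Nat.mul_dvd_mul_right (dvd_prod_of_mem _ (mem_range.2 (by omega))) r)
    · rw [St.cv_eq_zero hS hp (by omega), map_zero]
      exact Gon.IsDen.zero _

/-! ### the algebra -/

theorem rel {S : ℕ} (hS : ∀ k, N.wt k ≤ S) {H' : ℕ → Submodule ℝ N.box.L} (hH : N.box.GrSub H')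
    (hK : N.KSys (N.redH H') (N.redK H')) (w : σ → ℤ) {k0 e k c a b : N.box.PS σ}
    {ε γ u z : N.PS σ} (hk0 : k0 ∈ cf σ H') (hk : k ∈ cf σ H') (ha : a ∈ cf σ H')
    (hb : b ∈ cf σ H') (he : e ∈ N.box.poly σ) (hc : c ∈ N.box.poly σ) (hε : ε ∈ N.poly σ)
    (hγ : γ ∈ N.poly σ) (hu : u ∈ N.pm σ) (hz : z ∈ N.pm σ)
    (ea : N.p2 _ a = star S (-N.p2 _ e) ε) (eb : N.p2 _ b = star S γ (-N.p2 _ c))
    (e2 : N.p2 _ (star S e (star S k c)) = star S ε (star S (N.p2 _ k0) γ))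
    (e1 : N.p1 _ (star S e (star S k c)) =
      star S u (star S (N.trZ w (star S ε (star S (N.p2 _ k0) γ))) z)) :
    star S (star S (-N.p1 _ a) (-N.p1 _ e)) (star S u (N.trZ w ε)) ∈ N.pm σ ∧
    star S (star S (N.trZ w γ) z) (star S (-N.p1 _ c) (-N.p1 _ b)) ∈ N.pm σ ∧
    N.rho S (N.p2 _ k0) w -
      cj S (-N.p2 _ k0) (-star S (star S (-N.p1 _ a) (-N.p1 _ e)) (star S u (N.trZ w ε))) -
      -star S (star S (N.trZ w γ) z) (star S (-N.p1 _ c) (-N.p1 _ b)) -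
      star S (-N.p2 _ k0) (N.p1 _ k0) ∈ N.sh σ (N.redK H') := by
  have : Bch.Nil S (N.PS σ) := ND.nil hS _
  have : Bch.Nil S (N.box.PS σ) := ND.nil (box_wt_le hS) _
  have hk0' := St.cf_le_poly hH hk0
  have ha' := St.cf_le_poly hH ha
  have hb' := St.cf_le_poly hH hb
  have neg_sub : ∀ {x : N.box.PS σ}, x ∈ N.box.poly σ → -N.p1 _ x - -N.p2 _ x ∈ N.pm σ :=
    fun {x} hx => by
      rw [← neg_sub']; exact neg_mem (p1_sub_pm hx)
  have hA : star S (star S (-N.p1 _ a) (-N.p1 _ e)) (star S u (N.trZ w ε)) ∈ N.pm σ := by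
    have h := star_congr_pm S
      (St.star_mem_poly S (neg_mem (p2_poly ha')) (neg_mem (p2_poly he))) hε
      (star_congr_pm S (neg_mem (p2_poly ha')) (neg_mem (p2_poly he)) (neg_sub ha') (neg_sub he))
      (y := star S u (N.trZ w ε)) (by
        have := add_mem (star_sub_right_mem_pm S hu (tr_mem_poly hε fun v => (w v : ℝ)))
          (tr_sub_mem_pm hε fun v => (w v : ℝ))
        simpa using this)
    rwa [Bch.star_assoc S (-N.p2 _ a), ← ea, Bch.neg_star_self, sub_zero] at h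
  have hB : star S (star S (N.trZ w γ) z) (star S (-N.p1 _ c) (-N.p1 _ b)) ∈ N.pm σ := by
    have h := star_congr_pm S hγ
      (St.star_mem_poly S (neg_mem (p2_poly hc)) (neg_mem (p2_poly hb')))
      (x := star S (N.trZ w γ) z) (by
        have := add_mem (star_sub_left_mem_pm S (tr_mem_poly hγ fun v => (w v : ℝ)) hz)
          (tr_sub_mem_pm hγ fun v => (w v : ℝ))
        simpa using this)
      (star_congr_pm S (neg_mem (p2_poly hc)) (neg_mem (p2_poly hb')) (neg_sub hc) (neg_sub hb'))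
    rwa [← Bch.star_assoc S γ, ← eb, Bch.star_neg_self, sub_zero] at h
  refine ⟨hA, hB, ?_⟩
  set A := star S (star S (-N.p1 _ a) (-N.p1 _ e)) (star S u (N.trZ w ε)) with hAd
  set B := star S (star S (N.trZ w γ) z) (star S (-N.p1 _ c) (-N.p1 _ b)) with hBd
  set g := N.p2 _ k0 with hg
  have hgp : g ∈ N.poly σ := p2_poly hk0'
  have hc0 : star S (-g) (N.p1 _ k0) ∈ N.pm σ := neg_star_mem_pm S hgp (p1_sub_pm hk0')
  have hZ : star S (-k0) (star S (-a) (star S k (-b))) ∈ cf σ H' :=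
    St.star_mem_cf S hH (neg_mem hk0) (St.star_mem_cf S hH (neg_mem ha)
      (St.star_mem_cf S hH hk (neg_mem hb)))
  simp only [Bch.map_star] at e1 e2
  have f2 : N.p2 _ k = star S (star S (-N.p2 _ e) (star S ε (star S g γ))) (-N.p2 _ c) := by
    rw [← e2, Bch.neg_star_star, Bch.star_star_neg]
  have f1 : N.p1 _ k = star S (star S (-N.p1 _ e) (star S u (star S (star S (N.trZ w ε)
      (star S (N.trZ w g) (N.trZ w γ))) z))) (-N.p1 _ c) := by
    rw [← e1, Bch.neg_star_star, Bch.star_star_neg]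
  have hY := p1_redK hH hZ (by
    simp only [Bch.map_star, map_neg, ea, eb, f2, ← hg, Bch.neg_star, neg_neg, Bch.star_assoc,
      Bch.star_neg_star, Bch.neg_star_star, Bch.star_neg_self, Bch.neg_star_self, Bch.star_zero])
  have eY : N.p1 _ (star S (-k0) (star S (-a) (star S k (-b)))) =
      star S (star S (-star S (-g) (N.p1 _ k0)) (cj S (-g) A)) (star S (N.rho S g w) B) := by
    simp only [Bch.map_star, map_neg, f1, hAd, hBd, cj, ND.rho, Bch.neg_star, neg_neg,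
      Bch.star_assoc, Bch.star_neg_star]
  rw [eY] at hY
  have hcj := cj_mem_pm S (neg_mem hgp) hA
  have hrho := rho_mem_pm S hgp w
  have m1 := star_sub_mem_pmm S (star_mem_pm S (neg_mem hc0) hcj) (star_mem_pm S hrho hB)
  have m2 := star_sub_mem_pmm S (neg_mem hc0) hcj
  have m3 := star_sub_mem_pmm S hrho hB
  have h := sub_mem hY (hK.pmm_le (add_mem (add_mem m1 m2) m3))
  convert h using 1
  rw [cj_neg]
  abel

/-- the smoothness bound of a product -/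
def fM (S d : ℕ) (B M : ℝ) : ℝ := St.cS S * (St.kB S d B * M) ^ (S + 1)

theorem one_le_fM (S d : ℕ) {B M : ℝ} (hB : 1 ≤ B) (hM : 1 ≤ M) : 1 ≤ fM S d B M :=
  one_le_mul_of_one_le_of_one_le (one_le_two.trans (St.two_le_cS S))
    (one_le_pow₀ (one_le_mul_of_one_le_of_one_le (St.one_le_kB S d hB) hM))

/-- the denominator of a product -/
def fq (S q : ℕ) : ℕ := St.dS S * q ^ (S + 1)

theorem one_le_fq (S : ℕ) {q : ℕ} (hq : 1 ≤ q) : 1 ≤ fq S q :=
  Nat.mul_pos (St.one_le_dS S) (Nat.pow_pos hq)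

theorem dvd_fq (S q : ℕ) : q ∣ fq S q := Dvd.dvd.mul_left (dvd_pow_self q (by omega)) _

theorem consts (S D C0 : ℕ) : ∃ C : ℕ, ∀ (m : ℝ) (d q Q : ℕ), 2 ≤ m → (d : ℝ) ≤ m →
    (q : ℝ) ≤ Real.exp m → (Q : ℝ) ≤ Real.exp (m ^ C0) ^ (S + 1) →
    (fq S q : ℝ) * (Gon.bl d (Real.exp (m ^ C0)) * fM S d (Real.exp m) (Real.exp m)) <
      Real.exp (m ^ C) ∧
    fM S d (Real.exp m) (fM S d (Real.exp m) (cT S D * Real.exp m + 2 * Real.exp m +
      2 * (Real.exp (m ^ C0) * fM S d (Real.exp m) (Real.exp m)))) ≤ Real.exp (m ^ C) ∧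
    (fq S (fq S (Q * fq S q)) : ℝ) ≤ Real.exp (m ^ C) := by
  have h1 := St.two_le_cS S
  have h2 := one_le_cT S D
  unfold fq fM Gon.bl St.kB
  generalize St.cS S = c1 at h1
  generalize cT S D = c2 at h2
  generalize St.dS S = c3
  qp

end Crest.Agent.T49.Nil.Red13

namespace Crest.Agent.T49.Nil

open Finset ND Red13
open Crest.Agent.T49.Bch (star)

/-- **RED** -/
theorem redStmt (h : RedKStmt) : RedStmt := by
  intro S D
  obtain ⟨C0, h0⟩ := h
  obtain ⟨C, hC⟩ := consts S D C0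
  refine ⟨C, fun m hm ι σ _ _ _ N P T H' q W hD hd hN _ hT hH hR hq1 hq hW hw => ?_⟩
  obtain ⟨hK, hRat, hl⟩ := h0 m hm ι N H' hd hH hR
  choose qs l hqs1 hqs hl1 hl2 hl3 hl4 using hl
  have hS := hN.wt_le
  have : Bch.Nil S (N.PS σ) := ND.nil hS _
  have hQ : ((∏ i ∈ range (S + 1), qs i : ℕ) : ℝ) ≤ Real.exp (m ^ C0) ^ (S + 1) := by
    rw [Nat.cast_prod]
    refine (prod_le_prod (fun _ _ => Nat.cast_nonneg _) fun i _ => hqs i).trans ?_
    rw [prod_const, card_range]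
  have hQ1 : 1 ≤ ∏ i ∈ range (S + 1), qs i := Nat.succ_le_of_lt (prod_pos fun i _ => hqs1 i)
  obtain ⟨c1, c2, c3⟩ := hC m _ q _ hm hd hq hQ
  have hE : 1 ≤ Real.exp m := Real.one_le_exp (by linarith)
  have hE0 : 1 ≤ Real.exp (m ^ C0) := Real.one_le_exp (by positivity)
  have hT1 : 1 ≤ T := (Real.one_le_exp (by positivity)).trans hT
  have hT0 : 0 ≤ T := zero_le_one.trans hT1
  obtain ⟨w0, hw0⟩ := hW
  obtain ⟨-, u0, z0, -, -, Q0, p20, -, e0, he0, k0, hk0, c0, hc0, s0, r0, rfl⟩ := hw w0 hw0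
  simp only [Bch.map_star] at p20
  have hε := p2_poly he0
  have hγ := p2_poly hc0
  have sε := Sm_p2 hT0 s0
  have rγ := RatP_p2 r0
  refine ⟨N.p2 _ k0, N.p2 _ e0, N.p2 _ c0, star S (-N.p2 _ k0) (N.p1 _ k0),
    fq S (fq S ((∏ i ∈ range (S + 1), qs i) * fq S q)), p2_redH hk0, hε, hγ, sε, rγ, p20.symm,
    one_le_fq S (one_le_fq S (Nat.mul_pos hQ1 (one_le_fq S hq1))), c3, fun w hwW => ?_⟩
  obtain ⟨hw2, u, z, hu, hz, Q, p2Q, p1Q, e, he, k, hk, c, hc, s, r, rfl⟩ := hw w hwW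
  rw [← p20] at p2Q p1Q
  have ha := St.star_mem_poly S (neg_mem (p2_poly he)) hε
  have hb := St.star_mem_poly S hγ (neg_mem (p2_poly hc))
  have sa : N.Sm T (fM S _ (Real.exp m) (Real.exp m)) _ := St.Sm_star hS hN.c_le hE le_rfl hT0 hE
    (neg_mem (p2_poly he)) hε (St.Sm_neg (Sm_p2 hT0 s)) sε
  have rb : N.RatP (fq S q) _ := St.RatP_star S rγ (St.RatP_neg (RatP_p2 r))
  obtain ⟨ha', hb'⟩ := St.uniq S hK.gr hE0 (fun i => (hRat i).1) le_rfl (one_le_fq S hq1) hT1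
    (c1.trans_le hT) ha hb sa rb (p2_redH hk0) (by
      have e2 := p2Q
      simp only [Bch.map_star] at e2
      have f2 : N.p2 _ k = star S (star S (-N.p2 _ e) (star S (N.p2 _ e0) (star S (N.p2 _ k0)
          (N.p2 _ c0)))) (-N.p2 _ c) := by rw [← e2, Bch.neg_star_star, Bch.star_star_neg]
      have := p2_redH hk
      rw [f2] at this
      simpa only [Bch.star_assoc] using this)
  have hR0 := zero_le_one.trans hE0
  obtain ⟨a, ha1, ha2, ha3, -⟩ := exists_lift hS qs l hl1 hl2 hl3 hl4 hR0 ha' ha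
  obtain ⟨b, hb1, hb2, -, hb4⟩ := exists_lift hS qs l hl1 hl2 hl3 hl4 hR0 hb' hb
  obtain ⟨hA, hB, hrel⟩ := rel hS hH hK w hk0 hk ha1 hb1 he hc hε hγ (cst_mem_pm (-u))
    (cst_mem_pm (-z)) ha2 hb2 p2Q p1Q
  refine ⟨_, neg_mem hA, _, neg_mem hB, St.Sm_neg (Sm.mono ?_ c2), St.RatP_neg ?_, hrel⟩
  · have hf := one_le_fM S (Fintype.card ι) hE hE
    have hcT := one_le_cT S D
    have b1 : 0 ≤ cT S D * Real.exp m := by positivity
    have b2 : 0 ≤ Real.exp (m ^ C0) * fM S (Fintype.card ι) (Real.exp m) (Real.exp m) := by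
      positivity
    have hM : 1 ≤ cT S D * Real.exp m + 2 * Real.exp m +
        2 * (Real.exp (m ^ C0) * fM S (Fintype.card ι) (Real.exp m) (Real.exp m)) := by linarith
    have pa := p1_poly (St.cf_le_poly hH ha1)
    have pe := p1_poly he
    have pu := cst_mem_poly (σ := σ) (-u)
    have pt := tr_mem_poly hε fun v => (w v : ℝ)
    refine St.Sm_star hS hN.c_le hE le_rfl hT0 (one_le_fM S _ hE hM)
      (St.star_mem_poly S (neg_mem pa) (neg_mem pe)) (St.star_mem_poly S pu pt)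
      (St.Sm_star hS hN.c_le hE le_rfl hT0 hM (neg_mem pa) (neg_mem pe)
        ((St.Sm_neg (Sm_p1 hT0 (ha3 T _ hT0 sa))).mono (by linarith))
        ((St.Sm_neg (Sm_p1 hT0 s)).mono (by linarith)))
      (St.Sm_star hS hN.c_le hE le_rfl hT0 hM pu pt
        (Sm_cst (by rw [norm_neg]; linarith))
        ((Sm_tr hS hD hT0 hw2 hε sε).mono (by linarith)))
  · have hd' : q ∣ (∏ i ∈ range (S + 1), qs i) * fq S q := Dvd.dvd.mul_left (dvd_fq S q) _
    refine St.RatP_star S (St.RatP_star S ((RatP_trZ w rγ).of_dvd hd') (RatP_cst _ fun k => ?_))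
      (St.RatP_star S ((St.RatP_neg (RatP_p1 r)).of_dvd hd') (St.RatP_neg (RatP_p1 (hb4 _ rb))))
    obtain ⟨y, hy⟩ := hz k
    exact ⟨-y, by rw [ND.neg_apply, hy]; simp⟩

end Crest.Agent.T49.Nil
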