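import Crest.Agent.T49.LTDef_65
import Crest.Agent.T49.Bch_16

/-!
# Row 49 (helper46): the leaf `STA` of `LT` (conditions on the coefficients of degree `j`)
-/

set_option autoImplicit false

noncomputable section

namespace Crest.Agent.T49.Nil

open Finset ND
open Crest.Agent.T49.Bch (star)

namespace Sta46

section lie

variable {L : Type*} [LieRing L] [LieAlgebra ℝ L]

theorem cj_sub_mem (S : ℕ) [Bch.Nil S L] (M : Submodule ℝ L) {x y : L}
    (hx : ∀ m ∈ M, ⁅x, m⁆ ∈ M) (hy : ⁅x, y⁆ ∈ M) : cj S x y - y ∈ M := by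
  rw [cj, ← Bch.Ad_eq_star]
  exact Bch.Ad_sub_mem S M hx hy

theorem cj_sub_lie_mem (S : ℕ) [Bch.Nil S L] (M : Submodule ℝ L) {x y : L}
    (hx : ∀ m ∈ M, ⁅x, m⁆ ∈ M) (hy : ⁅x, ⁅x, y⁆⁆ ∈ M) : cj S x y - y - ⁅x, y⁆ ∈ M := by
  have : Bch.Nil (S + 2) L := Bch.Nil.mono (s := S) inferInstance (by omega)
  have h0 : cj S x y = Bch.Ad (S + 2) x y := by
    rw [cj, Bch.Ad_eq_star, Bch.star_eq_of_le (s := S) (t := S + 2) (by omega),
      Bch.star_eq_of_le (s := S) (t := S + 2) (by omega)]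
  rw [h0, Bch.Ad_apply, sum_range_succ', sum_range_succ']
  have h1 : ∑ k ∈ range S, (((k + 1 + 1).factorial : ℝ))⁻¹ • (LieAlgebra.ad ℝ L x ^ (k + 1 + 1)) y ∈
      M := by
    refine M.sum_mem fun k _ => M.smul_mem _ ?_
    rw [Bch.ad_pow_succ_apply', Bch.ad_pow_succ_apply']
    exact Bch.ad_pow_mem M hx hy k
  convert h1 using 1
  simp

end lie

section poly

open MvPolynomial

variable {σ : Type}

theorem tr_monomial_sub2 [DecidableEq σ] (v : σ) (d : ℕ) : ∀ β : σ →₀ ℕ, β.degree = d →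
    aeval (fun w => X w + C ((Pi.single v 1 : σ → ℝ) w)) (monomial β (1 : ℝ)) - monomial β (1 : ℝ) -
      pderiv v (monomial β (1 : ℝ)) ∈ degLt σ (d - 1) := by
  induction d with
  | zero =>
    intro β hβ
    rw [Finsupp.degree_eq_zero_iff] at hβ
    subst hβ
    change aeval _ (C (1 : ℝ)) - C (1 : ℝ) - pderiv v (C (1 : ℝ) : MvPolynomial σ ℝ) ∈ _
    simp
  | succ d ih =>
    intro β hβ
    have hne : β ≠ 0 := by rintro rfl; simp at hβ
    obtain ⟨w, hw⟩ := Finsupp.ne_iff.1 hne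
    obtain ⟨β', rfl⟩ : ∃ β', β = β' + Finsupp.single w 1 :=
      ⟨β - Finsupp.single w 1, (tsub_add_cancel_of_le (Finsupp.single_le_iff.2
        (Nat.one_le_iff_ne_zero.2 hw))).symm⟩
    have hd : β'.degree = d := by simpa using hβ
    have h1 := ih β' hd
    have h2 := tr_monomial_sub (Pi.single v 1 : σ → ℝ) β'
    rw [hd] at h2
    have hX : (X w : MvPolynomial σ ℝ) ∈ degLt σ (1 + 1) := by
      simpa [X] using monomial_mem_degLt (Finsupp.single w 1) (1 : ℝ)
    have hC : (C ((Pi.single v 1 : σ → ℝ) w) : MvPolynomial σ ℝ) ∈ degLt σ (0 + 1) := by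
      simpa using monomial_mem_degLt (0 : σ →₀ ℕ) ((Pi.single v 1 : σ → ℝ) w)
    have h3 : (aeval (fun w => X w + C ((Pi.single v 1 : σ → ℝ) w)) (monomial β' (1 : ℝ)) -
        monomial β' (1 : ℝ) - pderiv v (monomial β' (1 : ℝ))) * X w ∈ degLt σ d := by
      rcases d with _ | d
      · have : aeval (fun w => X w + C ((Pi.single v 1 : σ → ℝ) w)) (monomial β' (1 : ℝ)) -
            monomial β' (1 : ℝ) - pderiv v (monomial β' (1 : ℝ)) = 0 :=
          MvPolynomial.ext _ _ fun γ => h1 γ (Nat.zero_le _)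
        rw [this, zero_mul]
        exact zero_mem _
      · exact mul_mem_degLt h1 hX
    have h4 := add_mem h3 (mul_mem_degLt h2 hC)
    have h5 : pderiv v (X w : MvPolynomial σ ℝ) = C ((Pi.single v 1 : σ → ℝ) w) := by
      rw [pderiv_X]
      by_cases h : w = v
      · subst h; simp
      · simp [h]
    have h6 : (monomial (β' + Finsupp.single w 1) (1 : ℝ) : MvPolynomial σ ℝ) =
        monomial β' 1 * X w := by
      rw [X, monomial_mul, mul_one]
    rw [h6, map_mul, aeval_X, pderiv_mul, h5, Nat.add_sub_cancel]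
    convert h4 using 1
    ring

variable {ι : Type} [Fintype ι] {N : ND ι}

theorem cv_tr_sub [DecidableEq σ] (v : σ) {P : N.PS σ} (hP : P ∈ N.poly σ) (γ : σ →₀ ℕ) :
    N.cv γ (N.trZ (Pi.single v 1) P - P) - ((γ v : ℝ) + 1) • N.cv (γ + Finsupp.single v 1) P ∈
      N.F (γ.degree + 2) := by
  have hh : (fun w => ((Pi.single v 1 : σ → ℤ) w : ℝ)) = (Pi.single v 1 : σ → ℝ) := by
    funext w
    by_cases h : w = v
    · subst h; simp
    · simp [h]
  obtain ⟨S, -, hS⟩ := exists_sum_mono P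
  rw [ND.trZ, hh, hS, map_sum, ← sum_sub_distrib, map_sum, map_sum, smul_sum, ← sum_sub_distrib]
  refine Submodule.sum_mem _ fun α _ => ?_
  rw [mono_eq_asm, ND.tr, ND.subst, map_asm, map_cst, map_sub, cv_asm_cst, cv_asm_cst, cv_asm_cst,
    smul_smul, mul_comm, ← coeff_pderiv, ← sub_smul, ← sub_smul, ← coeff_sub, ← coeff_sub]
  by_cases hβ : α.degree - 1 ≤ γ.degree
  · rw [tr_monomial_sub2 v _ α rfl γ hβ, zero_smul]; exact zero_mem _
  · exact Submodule.smul_mem _ _ (FA_anti (by omega) (hP α))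

end poly

variable {ι : Type} [Fintype ι] {N : ND ι} {σ : Type}

/-- coefficients of degree `l < i` in `A (l+1)`, the others in `F (l+1)` -/
def W (N : ND ι) (σ : Type) (A : ℕ → Submodule ℝ N.L) (i : ℕ) : Submodule ℝ (N.PS σ) :=
  cf σ fun l => upto (i + 1) A N.F (l + 1)

theorem mem_W {A : ℕ → Submodule ℝ N.L} (hA : ∀ l, A l ≤ N.F l) {i : ℕ} {x : N.PS σ} :
    x ∈ W N σ A i ↔ x ∈ N.pm σ ∧ ∀ α : σ →₀ ℕ, α.degree < i → N.cv α x ∈ A (α.degree + 1) := by
  refine ⟨fun h => ⟨fun α => ?_, fun α hα => ?_⟩, fun h α => ?_⟩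
  · have := h α
    simp only [upto] at this
    split_ifs at this
    exacts [hA _ this, this]
  · have := h α
    simp only [upto] at this
    rwa [if_pos (by omega)] at this
  · simp only [upto]
    split_ifs with hα
    exacts [h.2 α (by omega), h.1 α]

theorem W_mono {A A' : ℕ → Submodule ℝ N.L} (hA : ∀ l, A l ≤ N.F l) (hA' : ∀ l, A' l ≤ N.F l)
    (h : ∀ l, A l ≤ A' l) {i i' : ℕ} (hi : i' ≤ i) : W N σ A i ≤ W N σ A' i' := fun _ hx =>
  (mem_W hA').2 ⟨((mem_W hA).1 hx).1, fun α hα => h _ (((mem_W hA).1 hx).2 α (by omega))⟩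

theorem mem_W_succ {A : ℕ → Submodule ℝ N.L} (hA : ∀ l, A l ≤ N.F l) {i : ℕ} {x : N.PS σ}
    (hx : x ∈ W N σ A i) (h : ∀ α : σ →₀ ℕ, α.degree = i → N.cv α x ∈ A (i + 1)) :
    x ∈ W N σ A (i + 1) := by
  refine (mem_W hA).2 ⟨((mem_W hA).1 hx).1, fun α hα => ?_⟩
  rcases Nat.lt_succ_iff_lt_or_eq.1 hα with h1 | h1
  · exact ((mem_W hA).1 hx).2 α h1
  · rw [h1]; exact h α h1

variable {H K : ℕ → Submodule ℝ N.L} {U : Submodule ℝ N.L}

theorem Kh_le (hK : N.KSys H K) (l : ℕ) : N.Kh K U l ≤ N.F l := by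
  unfold Kh
  split_ifs with h
  · subst h; exact fun x _ => mem_FA_one x
  · exact hK.le l

theorem le_Kh (hK : N.KSys H K) (hU : N.F 2 ≤ U) (l : ℕ) : K l ≤ N.Kh K U l := by
  unfold Kh
  split_ifs with h
  · subst h; exact hK.one.trans hU
  · exact le_rfl

theorem Kh_ne {l : ℕ} (h : l ≠ 1) : N.Kh K U l = K l := if_neg h

theorem sh_le_W (hK : N.KSys H K) (i : ℕ) : N.sh σ K ≤ W N σ K i := fun _ hx =>
  (mem_W hK.le).2 ⟨fun α => hK.le _ (hx α), fun α _ => hx α⟩

theorem lie_mem_pm (hK : N.KSys H K) {g x : N.PS σ} (hg : g ∈ cf σ H) (hx : x ∈ N.pm σ) :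
    ⁅g, x⁆ ∈ N.pm σ :=
  lie_mem_cf (W' := fun i => N.F (i + 1)) (W'' := fun i => N.F (i + 1))
    (fun i j _ ha _ hb => lie_mem_FA (i := i) (j := j + 1) (hK.gr.le i ha) hb) hg hx

/-- the coefficient of a bracket with an element of `W i` -/
theorem cv_lie_sub (hK : N.KSys H K) {g x : N.PS σ} (hg : g ∈ cf σ H) {i : ℕ}
    (hx : x ∈ W N σ (N.Kh K U) i) {α : σ →₀ ℕ} (hα : α.degree ≤ i) :
    N.cv α ⁅g, x⁆ - ⁅N.cv α g, N.cv 0 x⁆ ∈ K (α.degree + 1) := by
  classical
  obtain ⟨h1, h2⟩ := (mem_W (Kh_le hK)).1 hx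
  rw [cv_lie, ← add_sum_erase _ _ (a := (α, 0)) (by simp), add_sub_cancel_left]
  refine Submodule.sum_mem _ fun p hp => ?_
  obtain ⟨hne, hp⟩ := mem_erase.1 hp
  have hs := mem_antidiagonal.1 hp
  have hd : p.1.degree + p.2.degree = α.degree := by rw [← hs, map_add]
  have h0 : p.2.degree ≠ 0 := fun h => hne (by
    rw [Finsupp.degree_eq_zero_iff] at h
    rw [h, add_zero] at hs
    exact Prod.ext hs h)
  by_cases hp1 : p.1.degree = 0
  · refine hK.ge _ ?_
    have := lie_mem_FA_succ (N.cv p.1 g) (h1 p.2)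
    rwa [show p.2.degree = α.degree by omega] at this
  · have h3 := h2 p.2 (by omega)
    rw [Kh_ne (by omega)] at h3
    have := hK.lie _ _ _ (hg p.1) _ h3
    rwa [← add_assoc, hd] at this

theorem lie_mem_W' (hK : N.KSys H K) (hU : N.F 2 ≤ U) {g x : N.PS σ} (hg : g ∈ cf σ H) {i : ℕ}
    (hx : x ∈ W N σ K i) : ⁅g, x⁆ ∈ W N σ K (i + 1) := by
  obtain ⟨h1, h2⟩ := (mem_W hK.le).1 hx
  refine (mem_W hK.le).2 ⟨lie_mem_pm hK hg h1, fun α hα => ?_⟩
  have h3 := cv_lie_sub (U := U) hK hg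
    (W_mono hK.le (Kh_le hK) (le_Kh hK hU) le_rfl hx) (α := α) (by omega)
  have h4 : ⁅N.cv α g, N.cv 0 x⁆ ∈ K (α.degree + 1) := by
    rcases Nat.eq_zero_or_pos i with rfl | hi
    · have h5 : α.degree = 0 := by omega
      rw [h5]
      exact hK.ge _ (lie_mem_FA (mem_FA_one _) (mem_FA_one _))
    · have := h2 0 (by simpa using hi)
      rw [map_zero] at this
      exact hK.lie _ _ _ (hg α) _ this
  simpa using add_mem h3 h4

theorem stab_W' (hK : N.KSys H K) (hU : N.F 2 ≤ U) {g : N.PS σ} (hg : g ∈ cf σ H) (i : ℕ) :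
    ∀ x ∈ W N σ K i, ⁅g, x⁆ ∈ W N σ K i := fun _ hx =>
  W_mono hK.le hK.le (fun _ => le_rfl) (Nat.le_succ i) (lie_mem_W' hK hU hg hx)

theorem upto_le {j : ℕ} (l : ℕ) : upto j (N.Hc H K U) H l ≤ H l := by
  unfold upto
  split_ifs
  · exact inf_le_left.trans inf_le_left
  · exact le_rfl

theorem lie_mem_W (hK : N.KSys H K) {j : ℕ} {g x : N.PS σ}
    (hg : g ∈ cf σ (upto j (N.Hc H K U) H)) {i : ℕ} (hi : i < j)
    (hx : x ∈ W N σ (N.Kh K U) i) : ⁅g, x⁆ ∈ W N σ K (i + 1) := by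
  have hg' : g ∈ cf σ H := cf_mono upto_le hg
  obtain ⟨h1, h2⟩ := (mem_W (Kh_le hK)).1 hx
  refine (mem_W hK.le).2 ⟨lie_mem_pm hK hg' h1, fun α hα => ?_⟩
  have h3 := cv_lie_sub hK hg' hx (α := α) (by omega)
  have h4 : ⁅N.cv α g, N.cv 0 x⁆ ∈ K (α.degree + 1) := by
    rcases Nat.eq_zero_or_pos i with rfl | hi
    · have h5 : α.degree = 0 := by omega
      rw [h5]
      exact hK.ge _ (lie_mem_FA (mem_FA_one _) (mem_FA_one _))
    · have h5 := h2 0 (by simpa using hi)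
      have h6 := hg α
      simp only [upto] at h6
      rw [if_pos (by omega)] at h6
      exact h6.2 _ (by simpa [Kh] using h5)
  simpa using add_mem h3 h4

theorem cj_sub_W (S : ℕ) (hS : ∀ k, N.wt k ≤ S) (hK : N.KSys H K) (hU : N.F 2 ≤ U) {j : ℕ}
    {g x : N.PS σ} (hg : g ∈ cf σ (upto j (N.Hc H K U) H)) {i : ℕ} (hi : i < j)
    (hx : x ∈ W N σ (N.Kh K U) i) : cj S g x - x ∈ W N σ K (i + 1) := by
  have := ND.nil hS (MvPolynomial σ ℝ)
  exact cj_sub_mem S _ (stab_W' hK hU (cf_mono upto_le hg) _) (lie_mem_W hK hg hi hx)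

theorem tiny {m T : ℝ} (hm : 2 ≤ m) (hι : (Fintype.card ι : ℝ) ≤ m) (hT : Real.exp (m ^ 6) ≤ T)
    {q : ℕ} (hq : 1 ≤ q) (hqm : (q : ℝ) ≤ Real.exp m) {V : Submodule ℝ N.L}
    (hV : N.RatS (Real.exp m) V) {e r : N.L} (he : ‖e‖ * T ≤ Real.exp m) (hr : N.Den q r)
    (h : e + r ∈ V) : e ∈ V ∧ r ∈ V := by
  have hT0 : 0 < T := (Real.exp_pos _).trans_le hT
  have h1 : 1 ≤ Real.exp m := Real.one_le_exp (by linarith)
  refine Gon.IsRat.tiny_rat hV h1 le_rfl hq hr (lt_of_mul_lt_mul_right ?_ hT0.le) h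
  have h2 := Gon.bl_le_exp hm hι (Real.exp_pos m).le le_rfl
  have h3 := Gon.one_le_bl (Fintype.card ι) h1
  have h4 : m + (m ^ 4 + m) < m ^ 6 := by
    have h5 : 8 ≤ m ^ 3 := by nlinarith [pow_le_pow_left₀ (by norm_num) hm 3]
    have h6 : 4 ≤ m ^ 2 := by nlinarith
    have h7 : 8 * m ≤ m ^ 4 := by nlinarith
    have h8 : 4 * m ^ 4 ≤ m ^ 6 := by nlinarith
    nlinarith
  calc (q : ℝ) * (Gon.bl (Fintype.card ι) (Real.exp m) * ‖e‖) * T
      = q * (Gon.bl (Fintype.card ι) (Real.exp m) * (‖e‖ * T)) := by ring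
    _ ≤ Real.exp m * (Real.exp (m ^ 4) * Real.exp m) := by gcongr
    _ < Real.exp (m ^ 6) := by rw [← Real.exp_add, ← Real.exp_add]; exact Real.exp_lt_exp.2 h4
    _ ≤ 1 * T := by rwa [one_mul]

end Sta46

open Sta46 in
/-- **task STA** -/
theorem staStmt : StaStmt := by
  refine ⟨6, fun m hm S ι σ _ _ _ N H K U g T q j hι hS hC hT hq hqm hj hSt => ?_⟩
  have := ND.nil hS (MvPolynomial σ ℝ)
  have hK := hC.ks
  have hU := hC.leU
  have hg := hSt.mem
  have hg' : g ∈ cf σ H := cf_mono upto_le hg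
  have hT1 : 1 ≤ T := (Real.one_le_exp (by positivity)).trans hT
  have hT0 : 0 < T := by linarith
  have hKK : ∀ i, W N σ K i ≤ W N σ (N.Kh K U) i := fun i =>
    W_mono hK.le (Kh_le hK) (le_Kh hK hU) le_rfl
  have hanti : ∀ {i i'}, i' ≤ i → W N σ (N.Kh K U) i ≤ W N σ (N.Kh K U) i' := fun h =>
    W_mono (Kh_le hK) (Kh_le hK) (fun _ => le_rfl) h
  have hratKh : ∀ i, N.RatS (Real.exp m) (N.Kh K U i) := fun i => by
    unfold Kh
    split_ifs
    exacts [hC.ratU, hC.ratK i]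
  -- TR1
  have TR1 : ∀ b ∈ N.GenU S T (Real.exp m) q K U g, b ∈ W N σ (N.Kh K U) j := by
    rintro b ⟨⟨hb, hbq, a, -, haS, hab⟩, hb0⟩
    have key : ∀ i, i + 1 ≤ j → b ∈ W N σ (N.Kh K U) (i + 1) := by
      intro i
      induction i with
      | zero =>
        intro _
        refine mem_W_succ (Kh_le hK) ((mem_W (Kh_le hK)).2 ⟨hb, fun α hα => absurd hα (by omega)⟩)
          fun α hα => ?_
        rw [Finsupp.degree_eq_zero_iff] at hα
        subst hα
        exact hb0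
      | succ i ih =>
        intro hi
        have h1 := ih (by omega)
        refine mem_W_succ (Kh_le hK) h1 fun α hα => ?_
        have h2 := sub_mem (cj_sub_W S hS hK hU hg (by omega) h1) (sh_le_W hK _ hab)
        have h3 := ((mem_W hK.le).1 h2).2 α (by omega)
        rw [Kh_ne (by omega), ← hα]
        have h4 : N.cv α a + -N.cv α b ∈ K (α.degree + 1) := by
          convert h3 using 1
          simp only [map_sub]
          abel
        have h5 : ‖N.cv α a‖ * T ≤ Real.exp m := le_trans (mul_le_mul_of_nonneg_left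
          (le_self_pow₀ hT1 (by omega)) (norm_nonneg _)) (haS α)
        exact neg_mem_iff.1 (tiny hm hι hT hq hqm (hC.ratK _) h5 (Gon.IsDen.neg (hbq α)) h4).2
    obtain ⟨i, rfl⟩ : ∃ i, j = i + 1 := ⟨j - 1, by omega⟩
    exact key i le_rfl
  refine ⟨?_, fun α hα => ⟨?_, ?_⟩⟩
  · intro b hb k hk
    have h1 := hanti (Nat.zero_le j) (TR1 b hb)
    obtain ⟨⟨-, -, a, -, haS, hab⟩, -⟩ := hb
    have h2 := sub_mem (cj_sub_W S hS hK hU hg (by omega) h1) (sh_le_W hK _ hab)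
    have h3 := hK.one (by simpa using ((mem_W hK.le).1 h2).2 0 (by simp)) k (by omega)
    have h4 : N.cv 0 b k = N.cv 0 a k := by
      simp only [ND.sub_apply, cv_apply] at h3 ⊢
      linarith
    rw [h4]
    exact (abs_apply_le _ k).trans (by simpa using haS 0)
  · intro b hb
    have h1 := TR1 b hb
    obtain ⟨⟨-, hbq, a, -, haS, hab⟩, -⟩ := hb
    obtain ⟨i, rfl⟩ : ∃ i, j = i + 1 := ⟨j - 1, by omega⟩
    have h2 := cj_sub_lie_mem S (W N σ K (i + 1 + 1)) (stab_W' hK hU hg' _)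
      (lie_mem_W' hK hU hg' (lie_mem_W hK hg (Nat.lt_succ_self i) (hanti (Nat.le_succ i) h1)))
    have h3 := ((mem_W hK.le).1 (sub_mem (sh_le_W hK _ hab) h2)).2 α (by omega)
    have h4 := cv_lie_sub hK hg' h1 (α := α) hα.le
    refine ⟨N.cv α a, -N.cv α b, ?_, Gon.IsDen.neg (hbq α), ?_⟩
    · rw [le_div_iff₀ (by positivity), ← hα]
      exact haS α
    · rw [← hα]
      convert sub_mem h3 h4 using 1
      simp only [map_sub]
      abel
  · obtain ⟨i, rfl⟩ : ∃ i, j = i + 1 := ⟨j - 1, by omega⟩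
    have hne : α ≠ 0 := by rintro rfl; simp at hα
    obtain ⟨v, hv⟩ := Finsupp.ne_iff.1 hne
    obtain ⟨γ, rfl⟩ : ∃ γ, α = γ + Finsupp.single v 1 :=
      ⟨α - Finsupp.single v 1, (tsub_add_cancel_of_le (Finsupp.single_le_iff.2
        (Nat.one_le_iff_ne_zero.2 hv))).symm⟩
    have hγ : γ.degree = i := by simpa using hα
    obtain ⟨a, ha, b, hb, haS, hbq, hab⟩ := hSt.slope v
    have hW : N.rho S g (Pi.single v 1) - cj S (-g) a - b ∈ W N σ (N.Kh K U) (i + 1) :=
      (sup_le ((sh_le_W hK _).trans (hKK _)) (Submodule.span_le.2 TR1) :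
        _ ≤ W N σ (N.Kh K U) (i + 1)) hab
    -- the additive difference
    have hG1 : ∀ l, upto (i + 1) (N.Kh K U) N.F l ≤ N.F l := fun l => by
      unfold upto
      split_ifs
      exacts [Kh_le hK l, le_rfl]
    have hG2 : ∀ l, N.F (l + 1) ≤ upto (i + 1) (N.Kh K U) N.F l := fun l => by
      unfold upto
      split_ifs
      exacts [(hK.ge l).trans (le_Kh hK hU l), FA_anti (Nat.le_succ l)]
    have hgG : g ∈ cf σ (upto (i + 1) (N.Kh K U) N.F) := cf_mono (fun l => by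
      unfold upto
      split_ifs
      exacts [inf_le_left.trans inf_le_right, hK.gr.le l]) hg
    have hΔ : N.trZ (Pi.single v 1) g - g ∈ W N σ (N.Kh K U) i :=
      tr_sub_mem_cf (antitone_nat_of_succ_le fun l => (hG1 _).trans (hG2 l)) hgG _
    have hρ : N.rho S g (Pi.single v 1) - (N.trZ (Pi.single v 1) g - g) ∈ W N σ K (i + 1) := by
      have h1 := Bch.star_sub_mem S (W N σ K (i + 1)) (x := -g) (y := N.trZ (Pi.single v 1) g)
        (stab_W' hK hU (neg_mem hg') _) (stab_W' hK hU (tr_mem_cf hK.gr.anti hg' _) _) (by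
          have := lie_mem_W hK (neg_mem hg) (Nat.lt_succ_self i) hΔ
          simpa using this)
      rwa [neg_add_eq_sub] at h1
    have hW2 : N.trZ (Pi.single v 1) g - g - cj S (-g) a - b ∈ W N σ (N.Kh K U) (i + 1) := by
      convert sub_mem hW (hKK _ hρ) using 1
      abel
    have haW : ∀ l, l ≤ i → a ∈ W N σ (N.Kh K U) l := by
      intro l
      induction l with
      | zero => exact fun _ => (mem_W (Kh_le hK)).2 ⟨ha, fun α hα => absurd hα (by omega)⟩
      | succ l ih =>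
        intro hl
        have h1 := ih (by omega)
        refine mem_W_succ (Kh_le hK) h1 fun β hβ => ?_
        have h2 := sub_mem (sub_mem (hanti hl hΔ) (hanti (by omega) hW2))
          (hKK _ (cj_sub_W S hS hK hU (neg_mem hg) (by omega) h1))
        have h3 := ((mem_W (Kh_le hK)).1 h2).2 β (by omega)
        have h4 : N.cv β a + N.cv β b ∈ N.Kh K U (β.degree + 1) := by
          convert h3 using 1
          simp only [map_sub]
          abel
        have h5 : ‖N.cv β a‖ * T ≤ Real.exp m := by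
          rw [← le_div_iff₀ hT0]
          exact le_trans (le_mul_of_one_le_right (norm_nonneg _) (one_le_pow₀ hT1)) (haS β)
        rw [← hβ]
        exact (tiny hm hι hT hq hqm (hratKh _) h5 (hbq β) h4).1
    have h1 := add_mem hW2 (hKK _ (cj_sub_W S hS hK hU (neg_mem hg) (Nat.lt_succ_self i)
      (haW i le_rfl)))
    have h2 := ((mem_W (Kh_le hK)).1 h1).2 γ (by omega)
    have h3 := (hK.ge _).trans (le_Kh hK hU _) (cv_tr_sub v (cf_mono hK.gr.le hg') γ)
    have hn : (0 : ℝ) < (γ v : ℝ) + 1 := by positivity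
    have hn1 : ((γ v : ℝ) + 1)⁻¹ ≤ 1 := inv_le_one_of_one_le₀ (by linarith [Nat.cast_nonneg (α := ℝ) (γ v)])
    refine ⟨((γ v : ℝ) + 1)⁻¹ • N.cv γ a, ((γ v : ℝ) + 1)⁻¹ • N.cv γ b, ?_, ?_, ?_⟩
    · have h4 := haS γ
      rw [hγ, le_div_iff₀ hT0] at h4
      rw [le_div_iff₀ (by positivity), norm_smul, Real.norm_of_nonneg (by positivity), pow_succ,
        ← mul_assoc]
      refine le_trans ?_ h4
      gcongr
      exact mul_le_of_le_one_left (norm_nonneg _) hn1
    · have h4 := Gon.IsDen.inv_smul (hbq γ) (r := γ v + 1) (by omega)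
      push_cast at h4
      refine Gon.IsDen.of_dvd h4 (Nat.mul_dvd_mul_right (Nat.dvd_factorial (by omega) ?_) q)
      have := Finsupp.le_degree v γ
      omega
    · rw [← hγ]
      convert Submodule.smul_mem _ ((γ v : ℝ) + 1)⁻¹ (sub_mem h2 h3) using 1
      simp only [map_sub, map_add, smul_sub, smul_add, smul_smul, inv_mul_cancel₀ hn.ne', one_smul]
      abel

end Crest.Agent.T49.Nil
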