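import Crest.Agent.T49.LTDef_65
import Crest.Agent.T49.GonGr_60

/-!
# Row 49 (helper54): the leaf `STB` (linear algebra in one degree)
-/

set_option autoImplicit false

noncomputable section

open Finset

namespace Crest.Agent.T49.Gon

/-- simultaneous splitting for finitely many conditions `A a x ∈ e a + r a + U a`. -/
theorem int_maps {α ι : Type*} [Fintype α] [Fintype ι] {H : ℝ} (U : α → Submodule ℝ (ι → ℝ))
    (A : α → Matrix ι ι ℤ) (h : ∀ a, IsRat H (U a)) (hA : ∀ a i j, |(A a i j : ℝ)| ≤ H)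
    (hH : 1 ≤ H) {d : ℕ} (hd : Fintype.card ι ≤ d) :
    ∃ q' : ℕ, 1 ≤ q' ∧ (q' : ℝ) ≤ bl d (bl d (bl d H)) ∧
      ∀ (x : ι → ℝ) (e r : α → ι → ℝ) (q : ℕ) (ε : ℝ), 0 ≤ ε → (∀ a, ‖e a‖ ≤ ε) →
        (∀ a, IsDen q (r a)) → (∀ a, lin (A a) x - e a - r a ∈ U a) →
        ∃ e' r' : ι → ℝ, ‖e'‖ ≤ bl d (bl d (bl d H)) * (bl d H * ε) ∧ IsDen (q' * q) r' ∧
          ∀ a, lin (A a) (x - e' - r') ∈ U a := by
  choose q0 P _ _ hP hPn hU _ using fun a => (h a).exists_proj hH hd
  have h1 := one_le_bl d hH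
  have h2 := one_le_bl d h1
  have hPA : ∀ a i j, |((P a * A a) i j : ℝ)| ≤ bl d (bl d H) := by
    intro a i j
    refine (abs_mul_entry_le _ _ _ _).trans ?_
    have hd' : (Fintype.card ι : ℝ) ≤ d := by exact_mod_cast hd
    calc ∑ k, |(P a i k : ℝ)| * |(A a k j : ℝ)| ≤ ∑ _k : ι, bl d H * bl d H :=
          sum_le_sum fun k _ => mul_le_mul (hP _ _ _) ((hA _ _ _).trans (le_bl d hH))
            (abs_nonneg _) (by linarith)
      _ = Fintype.card ι * (bl d H * bl d H) := by simp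
      _ ≤ (((d : ℝ) + 1) * bl d H) ^ 2 := by
          have h0 : (0 : ℝ) ≤ d := Nat.cast_nonneg d
          have h3 : 0 ≤ bl d H * bl d H := by positivity
          nlinarith [mul_le_mul_of_nonneg_right hd' h3, mul_nonneg h0 h3,
            mul_nonneg (mul_nonneg h0 h0) h3]
      _ ≤ bl d (bl d H) :=
          pow_le_pow_right₀ (by nlinarith [Nat.cast_nonneg (α := ℝ) d]) (by omega)
  obtain ⟨q', B, hq1, hq, he, hr, hs⟩ :=
    exists_split (Matrix.of fun (p : α × ι) j => (P p.1 * A p.1) p.2 j) h2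
      (fun p j => hPA _ _ _) (Or.inl hd)
  refine ⟨q', hq1, hq, fun x e r q ε hε hee hrr hx => ?_⟩
  let E : α × ι → ℝ := fun p => lin (P p.1) (e p.1) p.2
  let R : α × ι → ℝ := fun p => lin (P p.1) (r p.1) p.2
  have hE : ‖E‖ ≤ bl d H * ε := by
    refine (pi_norm_le_iff_of_nonneg (by positivity)).2 fun p => ?_
    exact (norm_le_pi_norm (lin (P p.1) (e p.1)) p.2).trans
      ((hPn _ _).trans (mul_le_mul_of_nonneg_left (hee _) (by linarith)))
  have hR : IsDen q R := IsDen.iff_coord.2 fun p => IsDen.iff_coord.1 ((hrr p.1).lin (P p.1)) p.2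
  refine ⟨_, _, (he E).trans (mul_le_mul_of_nonneg_left hE (by linarith [one_le_bl d h2])),
    hr q R hR, fun a => (hU a _).2 ?_⟩
  have := hs x E R (by
    ext p
    have h2 := (hU p.1 _).1 (hx p.1)
    rw [map_sub, map_sub, ← lin_mul] at h2
    have h3 := congrFun h2 p.2
    simp only [Pi.sub_apply, Pi.zero_apply] at h3
    simp only [Pi.add_apply, E, R]
    have h4 : lin (Matrix.of fun (p : α × ι) j => (P p.1 * A p.1) p.2 j) x p =
      lin (P p.1 * A p.1) x p.2 := rfl
    linarith)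
  rw [← lin_mul]
  ext i
  exact congrFun this (a, i)

end Crest.Agent.T49.Gon

namespace Crest.Agent.T49.Nil

open ND

variable {ι : Type} [Fintype ι]

/-- the integer matrix of `x ↦ ⁅x, z⁆` -/
def ND.adM (N : ND ι) (z : ι → ℤ) : Matrix ι ι ℤ := fun k i => ∑ j, N.c i j k * z j

theorem lin_adM (N : ND ι) (z : ι → ℤ) (x : N.L) :
    Gon.lin (N.adM z) (N.co x) = N.co ⁅x, N.ofInt z⁆ := by
  ext k
  rw [Gon.lin_apply, co_apply, lie_apply]
  refine sum_congr rfl fun i _ => ?_
  simp only [ND.adM, Int.cast_sum, Int.cast_mul, sum_mul, co_apply, ofInt_apply]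
  exact sum_congr rfl fun j _ => by ring

theorem abs_adM_le (N : ND ι) {z : ι → ℤ} {M Z : ℝ} (hM : 0 ≤ M)
    (hc : ∀ i j k, |(N.c i j k : ℝ)| ≤ M) (hz : ∀ k, |(z k : ℝ)| ≤ Z) (k i : ι) :
    |(N.adM z k i : ℝ)| ≤ Fintype.card ι * (M * Z) := by
  simp only [ND.adM, Int.cast_sum, Int.cast_mul]
  refine (abs_sum_le_sum_abs _ _).trans ?_
  calc ∑ j, |(N.c i j k : ℝ) * z j| ≤ ∑ _j : ι, M * Z := sum_le_sum fun j _ => by
        rw [abs_mul]; exact mul_le_mul (hc _ _ _) (hz _) (abs_nonneg _) hM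
    _ = _ := by simp

/-- the weight one part of `q • u` as an integer vector -/
theorem exists_int_one (N : ND ι) {q : ℕ} {u : N.L} (hu : N.Den q u) {M : ℝ} (hM : 0 ≤ M)
    (h : ∀ k, N.wt k = 1 → |u k| ≤ M) :
    ∃ z : ι → ℤ, (∀ k, |(z k : ℝ)| ≤ q * M) ∧ (q : ℝ) • u - N.ofInt z ∈ N.F 2 := by
  classical
  choose z hz using den_iff.1 hu
  refine ⟨fun k => if N.wt k = 1 then z k else 0, fun k => ?_, fun k hk => ?_⟩
  · by_cases hk : N.wt k = 1
    · simp only [hk, if_true]
      rw [← hz, abs_mul, Nat.abs_cast]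
      exact mul_le_mul_of_nonneg_left (h k hk) (Nat.cast_nonneg _)
    · simp only [hk, if_false, Int.cast_zero, abs_zero]; positivity
  · have h1 : N.wt k = 1 := by have := N.wt_pos k; omega
    simp [h1, hz]

theorem exp_pow_aux {m : ℝ} (hm : 2 ≤ m) (a : ℕ) : 2 * m ^ a ≤ m ^ (a + 1) := by
  rw [pow_succ, mul_comm]
  exact mul_le_mul_of_nonneg_left hm (by positivity)

theorem stbStmt : StbStmt := by
  classical
  refine ⟨200, fun m hm ι _ N H K U G q j hι hc hD hq1 hq hj hG hUG => ?_⟩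
  have hm0 : 0 < m := by linarith
  have hm1 : 1 ≤ m := by linarith
  have hpow : ∀ a b : ℕ, a ≤ b → m ^ a ≤ m ^ b := fun a b hab => pow_le_pow_right₀ hm1 hab
  have h2 := exp_pow_aux hm
  have hq0 : (q : ℝ) ≠ 0 := by positivity
  set d := Fintype.card ι with hd
  -- the finite set of integer vectors
  let Zs : Set (ι → ℤ) := {z | (∀ k, |(z k : ℝ)| ≤ q * Real.exp m) ∧
    ∃ u ∈ G, (q : ℝ) • u - N.ofInt z ∈ N.F 2}
  have hfin : Zs.Finite := by
    refine (Set.Finite.pi' (fun _ : ι => Set.finite_Icc (-⌈q * Real.exp m⌉) ⌈q * Real.exp m⌉)).subset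
      fun z hz k => ?_
    have h1 := abs_le.1 ((hz.1 k).trans (Int.le_ceil _))
    constructor
    · exact_mod_cast h1.1
    · exact_mod_cast h1.2
  have : Fintype Zs := hfin.fintype
  choose uz huG huz using fun z : Zs => z.2.2
  let V : Option (Option Zs) → Submodule ℝ (ι → ℝ) := fun a =>
    match a with
    | none => H j
    | some none => N.Kh K U j
    | some (some _) => K (j + 1)
  let A : Option (Option Zs) → Matrix ι ι ℤ := fun a =>
    match a with
    | none => 1
    | some none => 1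
    | some (some z) => N.adM z
  have hm3 : 4 * m ≤ m ^ 3 := by
    have a1 : 2 * m ^ 1 ≤ m ^ 2 := h2 1
    have a2 : 2 * m ^ 2 ≤ m ^ 3 := h2 2
    rw [pow_one] at a1
    linarith
  have hE : Real.exp m ≤ Real.exp (m ^ 3) := Real.exp_le_exp.2 (by linarith)
  have hE1 : 1 ≤ Real.exp (m ^ 3) := Real.one_le_exp (by positivity)
  have hme : m ≤ Real.exp m := by linarith [Real.add_one_le_exp m]
  have hV : ∀ a, Gon.IsRat (Real.exp (m ^ 3)) (V a) := by
    rintro (_ | _ | z)
    · exact Gon.IsRat.mono (hD.ratH j) hE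
    · change Gon.IsRat _ (N.Kh K U j)
      unfold ND.Kh
      split_ifs
      · exact Gon.IsRat.mono hD.ratU hE
      · exact Gon.IsRat.mono (hD.ratK j) hE
    · exact Gon.IsRat.mono (hD.ratK (j + 1)) hE
  have hone : ∀ i k : ι, |(((1 : Matrix ι ι ℤ) i k : ℤ) : ℝ)| ≤ Real.exp (m ^ 3) := by
    intro i k
    rw [Matrix.one_apply]
    split_ifs <;> simp [hE1, (Real.exp_pos _).le]
  have hA : ∀ a i k, |(A a i k : ℝ)| ≤ Real.exp (m ^ 3) := by
    rintro (_ | _ | z) i k
    · exact hone i k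
    · exact hone i k
    · refine (abs_adM_le N (Real.exp_pos m).le hc z.2.1 i k).trans ?_
      calc (Fintype.card ι : ℝ) * (Real.exp m * (q * Real.exp m))
          ≤ Real.exp m * (Real.exp m * (Real.exp m * Real.exp m)) := by
            gcongr
            exact hι.trans hme
        _ = Real.exp (4 * m) := by simp only [← Real.exp_add]; ring_nf
        _ ≤ _ := Real.exp_le_exp.2 hm3
  obtain ⟨q', hq'1, hq', hs⟩ := Gon.int_maps V A hV hA hE1 (d := d) le_rfl
  have hdm : ∀ a : ℕ, 1 ≤ a → (d : ℝ) ≤ m ^ a := fun a ha =>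
    hι.trans (le_self_pow₀ hm1 (by omega))
  have h2m : ∀ a : ℕ, 1 ≤ a → 2 ≤ m ^ a := fun a ha => hm.trans (le_self_pow₀ hm1 (by omega))
  have hb1 : Gon.bl d (Real.exp (m ^ 3)) ≤ Real.exp (m ^ 12) := by
    have := Gon.bl_le_exp (h2m 3 (by norm_num)) (hdm 3 (by norm_num)) (Real.exp_pos _).le le_rfl
    rwa [← pow_mul] at this
  have hb1' := Gon.one_le_bl d hE1
  have hb2 : Gon.bl d (Gon.bl d (Real.exp (m ^ 3))) ≤ Real.exp (m ^ 48) := by
    have := Gon.bl_le_exp (h2m 12 (by norm_num)) (hdm 12 (by norm_num)) (by linarith) hb1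
    rwa [← pow_mul] at this
  have hb2' := Gon.one_le_bl d hb1'
  have hb3 : Gon.bl d (Gon.bl d (Gon.bl d (Real.exp (m ^ 3)))) ≤ Real.exp (m ^ 192) := by
    have := Gon.bl_le_exp (h2m 48 (by norm_num)) (hdm 48 (by norm_num)) (by linarith) hb2
    rwa [← pow_mul] at this
  have hqq : ((q' * q : ℕ) : ℝ) ≤ Real.exp (m ^ 193) := by
    push_cast
    calc (q' : ℝ) * q ≤ Real.exp (m ^ 192) * Real.exp m := by
          gcongr
          exact hq'.trans hb3
      _ = Real.exp (m ^ 192 + m) := (Real.exp_add _ _).symm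
      _ ≤ _ := Real.exp_le_exp.2 (by
          have a1 := hpow 1 192 (by norm_num)
          have a2 : 2 * m ^ 192 ≤ m ^ 193 := h2 192
          rw [pow_one] at a1
          linarith)
  refine ⟨q' * q, Nat.mul_pos hq'1 hq1, hqq.trans (Real.exp_le_exp.2 (hpow _ _ (by norm_num))),
    fun τ hτ0 hτ x hx hxG hxK => ?_⟩
  have hF2 : ∀ y ∈ H j, ∀ w ∈ N.F 2, ⁅y, w⁆ ∈ K (j + 1) := fun y hy w hw =>
    hD.ks.ge (j + 1) (lie_mem_FA (i := j) (j := 2) (hD.ks.gr.le j hy) hw)
  obtain ⟨e0, r0, he0, hr0, h0⟩ := hxK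
  choose ez rz hez hrz hz using fun z : Zs => hxG (uz z) (huG z)
  let e : Option (Option Zs) → ι → ℝ := fun a =>
    match a with
    | none => 0
    | some none => N.co e0
    | some (some z) => N.co ((q : ℝ) • ez z)
  let r : Option (Option Zs) → ι → ℝ := fun a =>
    match a with
    | none => 0
    | some none => N.co r0
    | some (some z) => N.co ((q : ℝ) • rz z)
  have hq1' : (1 : ℝ) ≤ q := by exact_mod_cast hq1
  have hqτ : τ ≤ q * τ := le_mul_of_one_le_left hτ0 hq1'
  obtain ⟨e', r', he', hr', hy⟩ := hs (N.co x) e r q (q * τ) (by positivity)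
    (by
      rintro (_ | _ | z)
      · simp only [e, norm_zero]; positivity
      · exact he0.trans hqτ
      · change ‖(q : ℝ) • ez z‖ ≤ _
        rw [norm_smul, Real.norm_natCast]
        exact mul_le_mul_of_nonneg_left (hez z) (Nat.cast_nonneg _))
    (by
      rintro (_ | _ | z)
      · exact Gon.IsDen.zero q
      · exact hr0
      · have := Gon.IsDen.zsmul (hrz z) (q : ℤ)
        rw [Int.cast_natCast] at this
        exact this)
    (by
      rintro (_ | _ | z)
      · simp only [A, e, r, Gon.lin_one, sub_zero]; exact hx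
      · simp only [A, e, r, Gon.lin_one]; exact h0
      · simp only [A, e, r, lin_adM, ← map_sub]
        change ⁅x, N.ofInt z⁆ - (q : ℝ) • ez z - (q : ℝ) • rz z ∈ K (j + 1)
        have h1 : ⁅x, N.ofInt z⁆ - (q : ℝ) • ez z - (q : ℝ) • rz z =
            (q : ℝ) • (⁅x, uz z⁆ - ez z - rz z) - ⁅x, (q : ℝ) • uz z - N.ofInt z⁆ := by
          rw [lie_sub, lie_smul, smul_sub, smul_sub]; abel
        rw [h1]
        exact sub_mem (Submodule.smul_mem _ _ (hz z)) (hF2 x hx _ (huz z)))
  set ee : N.L := N.co.symm e' with hee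
  set rr : N.L := N.co.symm r' with hrr
  have hyH : x - ee - rr ∈ H j := by
    have := hy none
    simp only [A, Gon.lin_one] at this
    exact this
  have hyK : x - ee - rr ∈ N.Kh K U j := by
    have := hy (some none)
    simp only [A, Gon.lin_one] at this
    exact this
  have hyZ : ∀ z : Zs, ⁅x - ee - rr, N.ofInt z⁆ ∈ K (j + 1) := by
    intro z
    have := hy (some (some z))
    have h1 : N.co x - e' - r' = N.co (x - ee - rr) := rfl
    simp only [A, h1, lin_adM] at this
    exact this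
  have hyC : x - ee - rr ∈ N.cent U (K (j + 1)) := by
    intro u hu
    have hle : Submodule.span ℝ G ⊔ N.F 2 ≤
        (K (j + 1)).comap (LieAlgebra.ad ℝ N.L (x - ee - rr)) := by
      refine sup_le (Submodule.span_le.2 fun w hw => ?_) fun w hw => hF2 _ hyH w hw
      obtain ⟨z, hz1, hz2⟩ := exists_int_one N (hG w hw).1 (Real.exp_pos m).le (hG w hw).2
      have h1 := hyZ ⟨z, hz1, w, hw, hz2⟩
      have h3 := add_mem h1 (hF2 _ hyH _ hz2)
      rw [← lie_add, add_sub_cancel, lie_smul] at h3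
      exact (Submodule.smul_mem_iff (K (j + 1)) hq0).1 h3
    exact hle (hUG hu)
  have hne : ‖e'‖ ≤ Real.exp (m ^ 194) * τ := by
    refine he'.trans ?_
    calc _ ≤ Real.exp (m ^ 192) * (Real.exp (m ^ 12) * (Real.exp m * τ)) := by gcongr
      _ = Real.exp (m ^ 192 + m ^ 12 + m) * τ := by simp only [Real.exp_add]; ring
      _ ≤ _ := mul_le_mul_of_nonneg_right (Real.exp_le_exp.2 (by
          have a1 := hpow 1 192 (by norm_num)
          have a3 := hpow 12 192 (by norm_num)
          have a2 : 2 * m ^ 192 ≤ m ^ 193 := h2 192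
          have a4 : 2 * m ^ 193 ≤ m ^ 194 := h2 193
          have a5 : 0 ≤ m ^ 192 := by positivity
          rw [pow_one] at a1
          linarith)) hτ0
  have hsum : e' + r' ∈ (show Submodule ℝ (ι → ℝ) from H j) := by
    have := sub_mem hx hyH
    rw [sub_sub, sub_sub_cancel] at this
    exact this
  obtain ⟨h1, h3⟩ := Gon.IsRat.tiny_rat (hV none) hE1 (d := d) le_rfl (Nat.mul_pos hq'1 hq1) hr'
    (by
      calc ((q' * q : ℕ) : ℝ) * (Gon.bl d (Real.exp (m ^ 3)) * ‖e'‖)
          ≤ Real.exp (m ^ 193) * (Real.exp (m ^ 12) *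
            (Real.exp (m ^ 194) * Real.exp (-m ^ 200))) := by
            gcongr
            exact hne.trans (by gcongr)
        _ = Real.exp (m ^ 193 + m ^ 12 + m ^ 194 - m ^ 200) := by
            simp only [← Real.exp_add]; ring_nf
        _ < 1 := Real.exp_lt_one_iff.2 (by
          have a1 := hpow 193 194 (by norm_num)
          have a3 := hpow 12 194 (by norm_num)
          have a2 : 2 * m ^ 194 ≤ m ^ 195 := h2 194
          have a4 : 2 * m ^ 195 ≤ m ^ 196 := h2 195
          have a6 := hpow 196 200 (by norm_num)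
          have a5 : 0 < m ^ 194 := by positivity
          linarith)) hsum
  refine ⟨ee, h1, rr, h3, hne.trans ?_, hr', ⟨hyH, hyK⟩, hyC⟩
  exact mul_le_mul_of_nonneg_right (Real.exp_le_exp.2 (hpow _ _ (by norm_num))) hτ0

end Crest.Agent.T49.Nil
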