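import Crest.Agent.T49.Bch_16

/-!
# Row 49 (helper16): denominators and size bounds for the BCH product

* `dn s` clears the denominators of `star s`, `Ad s`, `psiAd s`; lattice closure;
* `Gauge L B` : an abstract submultiplicative size; bounds and Lipschitz bounds.
-/

set_option autoImplicit false

noncomputable section

namespace Crest.Agent.T49.Bch

open Finset
open scoped Nat
open LieAlgebra (ad)

variable {L : Type*} [LieRing L] [LieAlgebra ℝ L]

/-! ### denominators -/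

/-- a common denominator -/
def dn (s : ℕ) : ℕ := s ! * ∏ w ∈ (tail s).support, (tail s w).den

theorem dn_pos (s : ℕ) : 0 < dn s :=
  Nat.mul_pos s.factorial_pos (prod_pos fun w _ => (tail s w).den_pos)

theorem dn_mul_tail (s : ℕ) {w : FreeMagma Bool} (hw : w ∈ (tail s).support) :
    ∃ z : ℤ, (dn s : ℝ) * ((tail s w : ℚ) : ℝ) = z := by
  obtain ⟨c, hc⟩ : (tail s w).den ∣ dn s :=
    Dvd.dvd.mul_left (dvd_prod_of_mem (fun w => (tail s w).den) hw) _
  refine ⟨c * (tail s w).num, ?_⟩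
  have h : ((tail s w).den : ℚ) * tail s w = (tail s w).num := Rat.den_mul_eq_num _
  have h' : ((tail s w).den : ℝ) * ((tail s w : ℚ) : ℝ) = (tail s w).num := by exact_mod_cast h
  rw [hc]
  push_cast
  rw [← h']
  ring

theorem dn_mul_inv_factorial {s k : ℕ} (hk : k ≤ s) : ∃ z : ℤ, (dn s : ℝ) * (k ! : ℝ)⁻¹ = z := by
  obtain ⟨c, hc⟩ : k ! ∣ dn s := Dvd.dvd.mul_right (Nat.factorial_dvd_factorial hk) _
  refine ⟨c, ?_⟩
  have : (k ! : ℝ) ≠ 0 := by positivity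
  rw [hc]
  push_cast
  field_simp

theorem dn_smul_star_sub_mem (s : ℕ) (M : AddSubgroup L) {x y : L}
    (h : ∀ w : FreeMagma Bool, 2 ≤ w.length → w.length ≤ s → ev (two x y) w ∈ M) :
    (dn s : ℝ) • (star s x y - (x + y)) ∈ M := by
  rw [star, add_sub_cancel_left, smul_sum]
  refine sum_mem fun w hw => ?_
  obtain ⟨z, hz⟩ := dn_mul_tail s hw
  rw [smul_smul, hz, Int.cast_smul_eq_zsmul]
  exact zsmul_mem (h w (tail_length hw).1 (tail_length hw).2) z

theorem ev_smul {α : Type*} (c : ℝ) (f : α → L) (w : FreeMagma α) :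
    ev (fun a => c • f a) w = c ^ w.length • ev f w := by
  induction w using FreeMagma.recOnMul with
  | ih1 a => simp
  | ih2 u v hu hv => rw [ev_mul, ev_mul, hu, hv, smul_lie, lie_smul, smul_smul, length_mul, pow_add]

omit [LieAlgebra ℝ L] in
theorem ev_mem_of_lie_mem {α : Type*} (Λ : AddSubgroup L) (hΛ : ∀ a ∈ Λ, ∀ b ∈ Λ, ⁅a, b⁆ ∈ Λ)
    (f : α → L) (hf : ∀ a, f a ∈ Λ) (w : FreeMagma α) : ev f w ∈ Λ :=
  ev_mem_filtration (fun _ => (Λ : Set L)) (fun _ _ a b ha hb => hΛ a ha b hb) f hf w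

theorem natCast_smul_mem (Λ : AddSubgroup L) {x : L} (hx : x ∈ Λ) (n : ℕ) : (n : ℝ) • x ∈ Λ := by
  rw [Nat.cast_smul_eq_nsmul]
  exact nsmul_mem hx n

/-- **Lattice closure**: if all brackets of `Λ` are divisible by `dn s` in `Λ`, then `Λ` is closed
under `star s`. -/
theorem star_mem_lattice (s : ℕ) (Λ : AddSubgroup L)
    (hΛ : ∀ a ∈ Λ, ∀ b ∈ Λ, ∃ z ∈ Λ, ⁅a, b⁆ = (dn s : ℝ) • z) {x y : L} (hx : x ∈ Λ) (hy : y ∈ Λ) :
    star s x y ∈ Λ := by
  have hl : ∀ a ∈ Λ, ∀ b ∈ Λ, ⁅a, b⁆ ∈ Λ := fun a ha b hb => by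
    obtain ⟨z, hz, e⟩ := hΛ a ha b hb
    rw [e]
    exact natCast_smul_mem Λ hz _
  let M : AddSubgroup L := Λ.map (DistribSMul.toAddMonoidHom L (dn s : ℝ))
  have hM : ∀ a ∈ Λ, ∀ m ∈ M, ⁅a, m⁆ ∈ M := by
    rintro a ha _ ⟨z, hz, rfl⟩
    exact ⟨⁅a, z⁆, hl a ha z hz, (lie_smul (dn s : ℝ) a z).symm⟩
  obtain ⟨z, hz, e⟩ := dn_smul_star_sub_mem s M (x := x) (y := y) fun w hw _ =>
    ev_two_mem M (hM x hx) (hM y hy) (by
      obtain ⟨z, hz, e⟩ := hΛ x hx y hy
      exact ⟨z, hz, e.symm⟩) hw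
  have h0 : (dn s : ℝ) ≠ 0 := by have := dn_pos s; positivity
  have e' : z = star s x y - (x + y) := smul_right_injective L h0 e
  have h1 : star s x y - (x + y) ∈ Λ := e' ▸ hz
  have h2 := add_mem h1 (add_mem hx hy)
  rwa [sub_add_cancel] at h2

theorem pow_smul_ev_mem {α : Type*} (Λ : AddSubgroup L) (hΛ : ∀ a ∈ Λ, ∀ b ∈ Λ, ⁅a, b⁆ ∈ Λ)
    {q n : ℕ} (f : α → L) (hf : ∀ a, (q : ℝ) • f a ∈ Λ) {w : FreeMagma α} (hw : w.length ≤ n) :
    (q : ℝ) ^ n • ev f w ∈ Λ := by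
  obtain ⟨d, rfl⟩ := Nat.exists_eq_add_of_le hw
  rw [add_comm, pow_add, mul_smul, ← ev_smul, ← Nat.cast_pow]
  exact natCast_smul_mem Λ (ev_mem_of_lie_mem Λ hΛ _ hf w) _

/-- **Denominators** of a product -/
theorem den_star_mem (s : ℕ) (Λ : AddSubgroup L) (hΛ : ∀ a ∈ Λ, ∀ b ∈ Λ, ⁅a, b⁆ ∈ Λ) {q n : ℕ}
    (hn : s ≤ n) (hn1 : 1 ≤ n) {x y : L} (hx : (q : ℝ) • x ∈ Λ) (hy : (q : ℝ) • y ∈ Λ) :
    ((dn s * q ^ n : ℕ) : ℝ) • star s x y ∈ Λ := by
  have hf : ∀ b, (q : ℝ) • two x y b ∈ Λ := fun b => by cases b; exacts [hy, hx]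
  have h1 := dn_smul_star_sub_mem s (Λ.comap (DistribSMul.toAddMonoidHom L ((q : ℝ) ^ n)))
    (x := x) (y := y) fun w _ hw => pow_smul_ev_mem Λ hΛ _ hf (hw.trans hn)
  have h2 : (q : ℝ) ^ n • x ∈ Λ := pow_smul_ev_mem Λ hΛ _ hf (w := .of true) hn1
  have h3 : (q : ℝ) ^ n • y ∈ Λ := pow_smul_ev_mem Λ hΛ _ hf (w := .of false) hn1
  have h4 := add_mem (show (q : ℝ) ^ n • ((dn s : ℝ) • (star s x y - (x + y))) ∈ Λ from h1)
    (natCast_smul_mem Λ (add_mem h2 h3) (dn s))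
  convert h4 using 1
  push_cast
  module

/-- **Denominators** of `∑ a_k (ad x)^k y` -/
theorem den_adS_mem (s : ℕ) {a : ℕ → ℝ} (ha : ∀ k < s, ∃ z : ℤ, (dn s : ℝ) * a k = z)
    (Λ : AddSubgroup L) (hΛ : ∀ a ∈ Λ, ∀ b ∈ Λ, ⁅a, b⁆ ∈ Λ) {q n : ℕ}
    (hn : s ≤ n) {x y : L} (hx : (q : ℝ) • x ∈ Λ) (hy : (q : ℝ) • y ∈ Λ) :
    ((dn s * q ^ n : ℕ) : ℝ) • adS a s x y ∈ Λ := by
  have hf : ∀ b, (q : ℝ) • two x y b ∈ Λ := fun b => by cases b; exacts [hy, hx]
  rw [adS_apply, smul_sum]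
  refine sum_mem fun k hk => ?_
  obtain ⟨z, hz⟩ := ha k (mem_range.1 hk)
  have h := pow_smul_ev_mem Λ hΛ _ hf (w := adw k) (n := n)
    (by rw [length_adw]; exact (mem_range.1 hk).trans_le hn)
  rw [ev_adw] at h
  convert zsmul_mem h z using 1
  rw [← Int.cast_smul_eq_zsmul ℝ, ← hz]
  push_cast
  module

theorem den_Ad_mem (s : ℕ) [Nil s L] (Λ : AddSubgroup L) (hΛ : ∀ a ∈ Λ, ∀ b ∈ Λ, ⁅a, b⁆ ∈ Λ)
    {q n : ℕ} (hn : s ≤ n) {x y : L} (hx : (q : ℝ) • x ∈ Λ) (hy : (q : ℝ) • y ∈ Λ) :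
    ((dn s * q ^ n : ℕ) : ℝ) • Ad s x y ∈ Λ :=
  den_adS_mem s (fun _ hk => dn_mul_inv_factorial hk.le) Λ hΛ hn hx hy

theorem den_psiAd_mem (s : ℕ) (Λ : AddSubgroup L) (hΛ : ∀ a ∈ Λ, ∀ b ∈ Λ, ⁅a, b⁆ ∈ Λ)
    {q n : ℕ} (hn : s ≤ n) {x y : L} (hx : (q : ℝ) • x ∈ Λ) (hy : (q : ℝ) • y ∈ Λ) :
    ((dn s * q ^ n : ℕ) : ℝ) • psiAd s x y ∈ Λ :=
  den_adS_mem s (fun _ hk => dn_mul_inv_factorial hk) Λ hΛ hn hx hy

/-! ### size bounds -/

/-- an abstract submultiplicative size: `le x a` reads "`x` has size at most `a`" -/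
structure Gauge (L : Type*) [LieRing L] [LieAlgebra ℝ L] (B : ℝ) where
  le : L → ℝ → Prop
  nonneg : ∀ {x : L} {a : ℝ}, le x a → 0 ≤ a
  zero : le 0 0
  mono : ∀ {x : L} {a b : ℝ}, le x a → a ≤ b → le x b
  add : ∀ {x y : L} {a b : ℝ}, le x a → le y b → le (x + y) (a + b)
  smul : ∀ (c : ℝ) {x : L} {a : ℝ}, le x a → le (c • x) (|c| * a)
  lie : ∀ {x y : L} {a b : ℝ}, le x a → le y b → le ⁅x, y⁆ (B * a * b)

/-- the size attached to a submultiplicative seminorm -/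
def Gauge.ofSeminorm (ν : Seminorm ℝ L) {B : ℝ} (hB : 0 ≤ B)
    (h : ∀ x y, ν ⁅x, y⁆ ≤ B * ν x * ν y) : Gauge L B where
  le x a := ν x ≤ a
  nonneg h := (apply_nonneg ν _).trans h
  zero := (map_zero ν).le
  mono := le_trans
  add hx hy := (map_add_le_add ν _ _).trans (add_le_add hx hy)
  smul c _ _ hx := by
    rw [map_smul_eq_mul, Real.norm_eq_abs]
    exact mul_le_mul_of_nonneg_left hx (abs_nonneg c)
  lie hx hy := (h _ _).trans (mul_le_mul (mul_le_mul_of_nonneg_left hx hB) hy (apply_nonneg ν _)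
    (mul_nonneg hB ((apply_nonneg ν _).trans hx)))

/-- the constant in the bounds -/
def cb (s : ℕ) : ℝ := 2 + (s + 1) * (s + ∑ w ∈ (tail s).support, |((tail s w : ℚ) : ℝ)|)

theorem tailsum_nonneg (s : ℕ) : 0 ≤ ∑ w ∈ (tail s).support, |((tail s w : ℚ) : ℝ)| :=
  sum_nonneg fun _ _ => abs_nonneg _

theorem two_le_cb (s : ℕ) : 2 ≤ cb s := by
  have := tailsum_nonneg s
  rw [cb, le_add_iff_nonneg_right]
  positivity

namespace Gauge

variable {B K : ℝ} (G : Gauge L B)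

theorem zero_le {a : ℝ} (ha : 0 ≤ a) : G.le 0 a := G.mono G.zero ha

theorem neg {x : L} {a : ℝ} (h : G.le x a) : G.le (-x) a := by simpa using G.smul (-1) h

theorem sub {x y : L} {a b : ℝ} (hx : G.le x a) (hy : G.le y b) : G.le (x - y) (a + b) := by
  rw [sub_eq_add_neg]
  exact G.add hx (G.neg hy)

theorem sub_comm {x y : L} {a : ℝ} (h : G.le (x - y) a) : G.le (y - x) a := by
  simpa using G.neg h

theorem sum {β : Type*} (t : Finset β) {f : β → L} {a : β → ℝ} (h : ∀ i ∈ t, G.le (f i) (a i)) :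
    G.le (∑ i ∈ t, f i) (∑ i ∈ t, a i) := by
  classical
  induction t using Finset.induction_on with
  | empty => simpa using G.zero
  | insert i t hi ih =>
    rw [sum_insert hi, sum_insert hi]
    exact G.add (h i (mem_insert_self _ _)) (ih fun j hj => h j (mem_insert_of_mem hj))

theorem sum_smul {β : Type*} (t : Finset β) (c : β → ℝ) {f : β → L} {a : ℝ}
    (h : ∀ i ∈ t, G.le (f i) a) : G.le (∑ i ∈ t, c i • f i) ((∑ i ∈ t, |c i|) * a) := by
  rw [sum_mul]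
  exact G.sum t fun i hi => G.smul (c i) (h i hi)

theorem lie' (hB : B ≤ K) {x y : L} {a b : ℝ} (hx : G.le x a) (hy : G.le y b) :
    G.le ⁅x, y⁆ (K * a * b) :=
  G.mono (G.lie hx hy) (mul_le_mul_of_nonneg_right (mul_le_mul_of_nonneg_right hB (G.nonneg hx))
    (G.nonneg hy))

theorem exists_length {α : Type*} (w : FreeMagma α) : ∃ n, w.length = n + 1 :=
  ⟨w.length - 1, by have := w.length_pos; omega⟩

theorem ev_le' (hB : B ≤ K) {α : Type*} {f : α → L} (hf : ∀ a, G.le (f a) K) (w : FreeMagma α) :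
    ∀ n, w.length = n + 1 → G.le (ev f w) (K ^ (2 * n + 1)) := by
  induction w using FreeMagma.recOnMul with
  | ih1 a =>
    intro n hn
    obtain rfl : n = 0 := by simpa using hn
    simpa using hf a
  | ih2 u v hu hv =>
    intro n hn
    obtain ⟨i, hi⟩ := exists_length u
    obtain ⟨j, hj⟩ := exists_length v
    obtain rfl : n = i + j + 1 := by rw [length_mul] at hn; omega
    rw [ev_mul]
    convert G.lie' hB (hu i hi) (hv j hj) using 1
    ring

theorem ev_sub_le' (hB : B ≤ K) {α : Type*} {f f' : α → L} {δ : ℝ} (hf : ∀ a, G.le (f a) K)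
    (hf' : ∀ a, G.le (f' a) K) (hδ : ∀ a, G.le (f a - f' a) δ) (w : FreeMagma α) :
    ∀ n, w.length = n + 1 → G.le (ev f w - ev f' w) ((n + 1) * K ^ (2 * n) * δ) := by
  induction w using FreeMagma.recOnMul with
  | ih1 a =>
    intro n hn
    obtain rfl : n = 0 := by simpa using hn
    simpa using hδ a
  | ih2 u v hu hv =>
    intro n hn
    obtain ⟨i, hi⟩ := exists_length u
    obtain ⟨j, hj⟩ := exists_length v
    obtain rfl : n = i + j + 1 := by rw [length_mul] at hn; omega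
    convert G.add (G.lie' hB (hu i hi) (G.ev_le' hB hf v j hj))
      (G.lie' hB (G.ev_le' hB hf' u i hi) (hv j hj)) using 1
    · rw [ev_mul, ev_mul, sub_lie, lie_sub]
      abel
    · push_cast
      ring

theorem ev_two_le' (hB : B ≤ K) {x y : L} {c : ℝ} (hx : G.le x K) (hy : G.le y K)
    (hc : G.le ⁅x, y⁆ c) (w : FreeMagma Bool) :
    ∀ n, w.length = n + 2 → G.le (ev (two x y) w) (K ^ (2 * n) * c) := by
  have hf : ∀ b, G.le (two x y b) K := fun b => by cases b; exacts [hy, hx]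
  induction w using FreeMagma.recOnMul with
  | ih1 a => intro n hn; simp at hn
  | ih2 u v hu hv =>
    intro n hn
    obtain ⟨i, hi⟩ := exists_length u
    obtain ⟨j, hj⟩ := exists_length v
    rw [length_mul] at hn
    rw [ev_mul]
    rcases j with _ | j
    · rcases i with _ | i
      · obtain ⟨a, rfl⟩ := eq_of_of_length (w := u) (by omega)
        obtain ⟨b, rfl⟩ := eq_of_of_length (w := v) (by omega)
        obtain rfl : n = 0 := by omega
        rw [mul_zero, pow_zero, one_mul, ev_of, ev_of]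
        cases a <;> cases b
        · simpa using G.zero_le (G.nonneg hc)
        · rw [two_true, two_false, ← lie_skew]; exact G.neg hc
        · exact hc
        · simpa using G.zero_le (G.nonneg hc)
      · obtain rfl : n = i + 1 := by omega
        convert G.lie' hB (hu i hi) (G.ev_le' hB hf v 0 hj) using 1
        ring
    · obtain rfl : n = i + j + 1 := by omega
      convert G.lie' hB (G.ev_le' hB hf u i hi) (hv j hj) using 1
      ring

/-- the second order part of a product is bounded by the bracket -/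
theorem star_sub_add_le (s : ℕ) (hB : B ≤ K) (hK : 1 ≤ K) {x y : L} {c : ℝ} (hx : G.le x K)
    (hy : G.le y K) (hc : G.le ⁅x, y⁆ c) : G.le (star s x y - (x + y)) (cb s * K ^ (2 * s) * c) := by
  have hc0 := G.nonneg hc
  rw [star, add_sub_cancel_left]
  refine G.mono (G.sum_smul _ _ (a := K ^ (2 * s) * c) fun w hw => ?_) ?_
  · obtain ⟨h2, hs⟩ := tail_length hw
    refine G.mono (G.ev_two_le' hB hx hy hc w (w.length - 2) (by omega)) ?_
    exact mul_le_mul_of_nonneg_right (pow_le_pow_right₀ hK (by omega)) hc0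
  · rw [mul_assoc]
    refine mul_le_mul_of_nonneg_right ?_ (by positivity)
    have := tailsum_nonneg s
    have h0 : (0 : ℝ) ≤ s := Nat.cast_nonneg s
    rw [cb]
    nlinarith

/-- **Lipschitz bound** for the product -/
theorem star_sub_star_le (s : ℕ) (hB : B ≤ K) (hK : 1 ≤ K) {x x' y y' : L} {δ : ℝ}
    (hx : G.le x K) (hx' : G.le x' K) (hy : G.le y K) (hy' : G.le y' K) (hδx : G.le (x - x') δ)
    (hδy : G.le (y - y') δ) : G.le (star s x y - star s x' y') (cb s * K ^ (2 * s) * δ) := by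
  have hδ := G.nonneg hδx
  have hK' : 1 ≤ K ^ (2 * s) := one_le_pow₀ hK
  have e : star s x y - star s x' y' = (x - x') + (y - y') + ∑ w ∈ (tail s).support,
      ((tail s w : ℚ) : ℝ) • (ev (two x y) w - ev (two x' y') w) := by
    simp only [star, smul_sub, sum_sub_distrib]
    abel
  rw [e]
  refine G.mono (G.add (G.add hδx hδy) (G.sum_smul _ _ (a := s * K ^ (2 * s) * δ) fun w hw => ?_)) ?_
  · obtain ⟨h2, hs⟩ := tail_length hw
    obtain ⟨n, hn⟩ := exists_length w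
    refine G.mono (G.ev_sub_le' hB (fun b => by cases b; exacts [hy, hx])
      (fun b => by cases b; exacts [hy', hx']) (fun b => by cases b; exacts [hδy, hδx]) w n hn) ?_
    refine mul_le_mul_of_nonneg_right (mul_le_mul ?_ (pow_le_pow_right₀ hK (by omega))
      (by positivity) (by positivity)) hδ
    exact_mod_cast (by omega : n + 1 ≤ s)
  · have h1 := tailsum_nonneg s
    have h0 : (0 : ℝ) ≤ s := Nat.cast_nonneg s
    set t := ∑ w ∈ (tail s).support, |((tail s w : ℚ) : ℝ)| with ht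
    have h2 : δ ≤ K ^ (2 * s) * δ := le_mul_of_one_le_left hδ hK'
    have h3 : 0 ≤ K ^ (2 * s) * δ := by positivity
    have h4 : 2 + t * s ≤ cb s := by rw [cb, ← ht]; nlinarith
    calc δ + δ + t * (s * K ^ (2 * s) * δ) ≤ (2 + t * s) * (K ^ (2 * s) * δ) := by nlinarith
      _ ≤ cb s * (K ^ (2 * s) * δ) := mul_le_mul_of_nonneg_right h4 h3
      _ = _ := by ring

theorem star_le' (s : ℕ) (hB : B ≤ K) (hK : 1 ≤ K) {x y : L} {δ : ℝ} (hδ : δ ≤ K) (hx : G.le x δ)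
    (hy : G.le y δ) : G.le (star s x y) (cb s * K ^ (2 * s) * δ) := by
  have h0 : G.le 0 K := G.zero_le (by linarith)
  simpa using G.star_sub_star_le s hB hK (G.mono hx hδ) h0 (G.mono hy hδ) h0 (by simpa using hx)
    (by simpa using hy)

/-- **Size** of a product -/
theorem star_le (s : ℕ) (hB : B ≤ K) (hK : 1 ≤ K) {x y : L} (hx : G.le x K) (hy : G.le y K) :
    G.le (star s x y) (cb s * K ^ (2 * s + 1)) := by
  rw [pow_succ, ← mul_assoc]
  exact G.star_le' s hB hK le_rfl hx hy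

theorem star_sub_right_le (s : ℕ) (hB : B ≤ K) (hK : 1 ≤ K) {x y : L} {δ : ℝ} (hx : G.le x K)
    (hδ : G.le x δ) (hy : G.le y K) : G.le (star s x y - y) (cb s * K ^ (2 * s) * δ) := by
  simpa using G.star_sub_star_le s hB hK hx (G.zero_le (by linarith)) hy hy (by simpa using hδ)
    (by simpa using G.zero_le (G.nonneg hδ))

theorem star_sub_left_le (s : ℕ) (hB : B ≤ K) (hK : 1 ≤ K) {x y : L} {δ : ℝ} (hx : G.le x K)
    (hy : G.le y K) (hδ : G.le y δ) : G.le (star s x y - x) (cb s * K ^ (2 * s) * δ) := by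
  simpa using G.star_sub_star_le s hB hK hx hx hy (G.zero_le (by linarith))
    (by simpa using G.zero_le (G.nonneg hδ)) (by simpa using hδ)

/-- close bounded points are close in the right invariant metric -/
theorem star_neg_le (s : ℕ) (hB : B ≤ K) (hK : 1 ≤ K) {x x' : L} {δ : ℝ} (hx : G.le x K)
    (hx' : G.le x' K) (hδ : G.le (x' - x) δ) : G.le (star s x' (-x)) (cb s * K ^ (2 * s) * δ) := by
  simpa using G.star_sub_star_le s hB hK hx' hx (G.neg hx) (G.neg hx) hδ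
    (by simpa using G.zero_le (G.nonneg hδ))

/-- close bounded points are close in the left invariant metric -/
theorem neg_star_le (s : ℕ) (hB : B ≤ K) (hK : 1 ≤ K) {x x' : L} {δ : ℝ} (hx : G.le x K)
    (hx' : G.le x' K) (hδ : G.le (x' - x) δ) : G.le (star s (-x) x') (cb s * K ^ (2 * s) * δ) := by
  simpa using G.star_sub_star_le s hB hK (G.neg hx) (G.neg hx) hx' hx
    (by simpa using G.zero_le (G.nonneg hδ)) hδ

theorem ad_pow_le (hB : B ≤ K) {x y : L} {b : ℝ} (hx : G.le x K) (hy : G.le y b) (k : ℕ) :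
    G.le ((ad ℝ L x ^ k) y) (K ^ (2 * k) * b) := by
  induction k with
  | zero => simpa using hy
  | succ k ih =>
    rw [ad_pow_succ_apply]
    convert G.lie' hB hx ih using 1
    ring

theorem ad_pow_sub_le (hB : B ≤ K) (hK : 1 ≤ K) {x x' y : L} {b δ : ℝ} (hx : G.le x K)
    (hx' : G.le x' K) (hδ : G.le (x - x') δ) (hy : G.le y b) (k : ℕ) :
    G.le ((ad ℝ L x ^ k) y - (ad ℝ L x' ^ k) y) (k * K ^ (2 * k) * δ * b) := by
  induction k with
  | zero => simpa using G.zero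
  | succ k ih =>
    have h1 := G.nonneg hδ
    have h2 := G.nonneg hy
    rw [ad_pow_succ_apply, ad_pow_succ_apply, show ⁅x, (ad ℝ L x ^ k) y⁆ - ⁅x', (ad ℝ L x' ^ k) y⁆ =
      ⁅x, (ad ℝ L x ^ k) y - (ad ℝ L x' ^ k) y⁆ + ⁅x - x', (ad ℝ L x' ^ k) y⁆ by
        rw [lie_sub, sub_lie]; abel]
    refine G.mono (G.add (G.lie' hB hx ih) (G.lie' hB hδ (G.ad_pow_le hB hx' hy k))) ?_
    have h3 : K * (K ^ (2 * k) * δ * b) ≤ K * K * (K ^ (2 * k) * δ * b) :=
      mul_le_mul_of_nonneg_right (by nlinarith) (by positivity)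
    push_cast
    calc _ = k * (K * K * (K ^ (2 * k) * δ * b)) + K * (K ^ (2 * k) * δ * b) := by ring
      _ ≤ k * (K * K * (K ^ (2 * k) * δ * b)) + K * K * (K ^ (2 * k) * δ * b) := by linarith
      _ = _ := by ring

theorem sum_abs_le {a : ℕ → ℝ} (ha : ∀ k, |a k| ≤ 1) (s : ℕ) : ∑ k ∈ range s, |a k| ≤ s := by
  simpa using sum_le_card_nsmul (range s) (fun k => |a k|) 1 fun k _ => ha k

theorem le_cb (s : ℕ) : (s : ℝ) * (s + 1) ≤ cb s := by
  have := tailsum_nonneg s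
  have h0 : (0 : ℝ) ≤ s := Nat.cast_nonneg s
  rw [cb]
  nlinarith

theorem adS_le {a : ℕ → ℝ} (ha : ∀ k, |a k| ≤ 1) (s : ℕ) (hB : B ≤ K) (hK : 1 ≤ K) {x y : L}
    {b : ℝ} (hx : G.le x K) (hy : G.le y b) : G.le (adS a s x y) (cb s * K ^ (2 * s) * b) := by
  have h2 := G.nonneg hy
  rw [adS_apply]
  refine G.mono (G.sum_smul _ _ (a := K ^ (2 * s) * b) fun k hk => G.mono (G.ad_pow_le hB hx hy k)
    (mul_le_mul_of_nonneg_right (pow_le_pow_right₀ hK (by have := mem_range.1 hk; omega)) h2)) ?_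
  rw [mul_assoc]
  refine mul_le_mul_of_nonneg_right ((sum_abs_le ha s).trans ?_) (by positivity)
  have := le_cb s
  have h0 : (0 : ℝ) ≤ s := Nat.cast_nonneg s
  nlinarith

theorem adS_sub_adS_le {a : ℕ → ℝ} (ha : ∀ k, |a k| ≤ 1) (s : ℕ) (hB : B ≤ K) (hK : 1 ≤ K)
    {x x' y : L} {b δ : ℝ} (hx : G.le x K) (hx' : G.le x' K) (hδ : G.le (x - x') δ)
    (hy : G.le y b) : G.le (adS a s x y - adS a s x' y) (cb s * K ^ (2 * s) * δ * b) := by
  have h1 := G.nonneg hδ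
  have h2 := G.nonneg hy
  have h0 : (0 : ℝ) ≤ s := Nat.cast_nonneg s
  rw [adS_apply, adS_apply, ← sum_sub_distrib]
  simp only [← smul_sub]
  refine G.mono (G.sum_smul _ _ (a := s * K ^ (2 * s) * δ * b) fun k hk =>
    G.mono (G.ad_pow_sub_le hB hK hx hx' hδ hy k) ?_) ?_
  · have hk' := mem_range.1 hk
    refine mul_le_mul_of_nonneg_right (mul_le_mul_of_nonneg_right (mul_le_mul ?_
      (pow_le_pow_right₀ hK (by omega)) (by positivity) h0) h1) h2
    exact_mod_cast hk'.le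
  · have h3 := sum_abs_le ha s
    have h4 := le_cb s
    have h5 : 0 ≤ K ^ (2 * s) * δ * b := by positivity
    calc _ = ((∑ k ∈ range s, |a k|) * s) * (K ^ (2 * s) * δ * b) := by ring
      _ ≤ cb s * (K ^ (2 * s) * δ * b) := mul_le_mul_of_nonneg_right (by nlinarith) h5
      _ = _ := by ring

theorem abs_inv_factorial_le (k : ℕ) : |(k ! : ℝ)⁻¹| ≤ 1 := by
  rw [abs_of_nonneg (by positivity)]
  exact inv_le_one_of_one_le₀ (by exact_mod_cast k.factorial_pos)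

theorem Ad_le (s : ℕ) [Nil s L] (hB : B ≤ K) (hK : 1 ≤ K) {x y : L} {b : ℝ} (hx : G.le x K)
    (hy : G.le y b) : G.le (Ad s x y) (cb s * K ^ (2 * s) * b) :=
  G.adS_le abs_inv_factorial_le s hB hK hx hy

theorem psiAd_le (s : ℕ) (hB : B ≤ K) (hK : 1 ≤ K) {x y : L} {b : ℝ} (hx : G.le x K)
    (hy : G.le y b) : G.le (psiAd s x y) (cb s * K ^ (2 * s) * b) :=
  G.adS_le (fun k => abs_inv_factorial_le (k + 1)) s hB hK hx hy

theorem Ad_sub_Ad_le (s : ℕ) [Nil s L] (hB : B ≤ K) (hK : 1 ≤ K) {x x' y : L} {b δ : ℝ}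
    (hx : G.le x K) (hx' : G.le x' K) (hδ : G.le (x - x') δ) (hy : G.le y b) :
    G.le (Ad s x y - Ad s x' y) (cb s * K ^ (2 * s) * δ * b) :=
  G.adS_sub_adS_le abs_inv_factorial_le s hB hK hx hx' hδ hy

theorem Ad_sub_le (s : ℕ) [Nil s L] (hB : B ≤ K) (hK : 1 ≤ K) {x y : L} {b δ : ℝ}
    (hx : G.le x K) (hδ : G.le x δ) (hy : G.le y b) :
    G.le (Ad s x y - y) (cb s * K ^ (2 * s) * δ * b) := by
  simpa using G.Ad_sub_Ad_le s hB hK hx (G.zero_le (by linarith)) (by simpa using hδ) hy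

end Gauge

end Crest.Agent.T49.Bch
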