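import Crest.Agent.T49.LTDef_65
import Crest.Agent.T49.NilSt_61
import Crest.Agent.T49.BchN_16
import Crest.Agent.T49.Qp_85

/-!
# Row 49 (helper59): the leaf `STC` of `LT` (renormalisation `g ↦ ε⁻¹ g γ⁻¹`)
-/

set_option autoImplicit false

noncomputable section

namespace Crest.Agent.T49.Nil

open Finset ND MvPolynomial
open Crest.Agent.T49.Bch (star Ad)

namespace Stc59

variable {ι : Type} [Fintype ι] {N : ND ι} {σ : Type}

/-- coefficients of a translated monomial -/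
theorem coeff_tr (w : σ → ℤ) (hw : ∀ v, |w v| ≤ 1) (α : σ →₀ ℕ) :
    ∀ β : σ →₀ ℕ, ∃ z : ℤ, coeff β (aeval (fun v => X v + C (w v : ℝ)) (monomial α (1 : ℝ)) :
      MvPolynomial σ ℝ) = z ∧ |z| ≤ 2 ^ α.degree := by
  classical
  have step : ∀ (p : MvPolynomial σ ℝ) (n : ℕ) (v : σ),
      (∀ β, ∃ z : ℤ, coeff β p = (z : ℝ) ∧ |z| ≤ 2 ^ n) →
      ∀ β, ∃ z : ℤ, coeff β (p * (X v + C (w v : ℝ))) = (z : ℝ) ∧ |z| ≤ 2 ^ (n + 1) := by
    intro p n v hp β
    obtain ⟨z1, h1, h1'⟩ := hp β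
    obtain ⟨z2, h2, h2'⟩ := hp (β - Finsupp.single v 1)
    have hwz : |w v * z1| ≤ 2 ^ n := by
      rw [abs_mul]
      calc |w v| * |z1| ≤ 1 * 2 ^ n := mul_le_mul (hw v) h1' (abs_nonneg _) zero_le_one
        _ = _ := one_mul _
    rw [mul_add, coeff_add, coeff_mul_X', mul_comm p, coeff_C_mul, h1]
    split_ifs with h
    · refine ⟨z2 + w v * z1, by rw [h2]; push_cast; ring, (abs_add_le _ _).trans ?_⟩
      rw [pow_succ]; linarith
    · refine ⟨w v * z1, by push_cast; ring, hwz.trans ?_⟩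
      exact pow_le_pow_right₀ (by norm_num) (Nat.le_succ n)
  have key : ∀ (n : ℕ) (α : σ →₀ ℕ), α.degree = n → ∀ β : σ →₀ ℕ, ∃ z : ℤ,
      coeff β (aeval (fun v => X v + C (w v : ℝ)) (monomial α (1 : ℝ)) : MvPolynomial σ ℝ) = z ∧
        |z| ≤ 2 ^ n := by
    intro n
    induction n with
    | zero =>
      intro α hα β
      obtain rfl : α = 0 := (Finsupp.degree_eq_zero_iff α).1 hα
      rw [monomial_zero', C_1, map_one, coeff_one]
      split_ifs
      · exact ⟨1, by simp, by simp⟩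
      · exact ⟨0, by simp, by simp⟩
    | succ n ih =>
      intro α hα
      have h0 : α ≠ 0 := by rintro rfl; simp at hα
      obtain ⟨v, hv⟩ := Finsupp.ne_iff.1 h0
      have hle : Finsupp.single v 1 ≤ α := by
        rw [Finsupp.single_le_iff]; exact Nat.one_le_iff_ne_zero.2 (by simpa using hv)
      have e : α = (α - Finsupp.single v 1) + Finsupp.single v 1 := (tsub_add_cancel_of_le hle).symm
      have hd : (α - Finsupp.single v 1).degree = n := by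
        have := congrArg Finsupp.degree e
        rw [map_add, Finsupp.degree_single, hα] at this
        omega
      have e2 : (monomial α (1 : ℝ) : MvPolynomial σ ℝ) =
          monomial (α - Finsupp.single v 1) 1 * X v := by
        conv_lhs => rw [e]
        rw [X, monomial_mul, mul_one]
      rw [e2, map_mul, aeval_X]
      exact step _ n v (ih _ hd)
  exact key _ α rfl

theorem card_deg_le [Fintype σ] {S D : ℕ} (hD : Fintype.card σ ≤ D) (A : Finset (σ →₀ ℕ))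
    (hA : ∀ α ∈ A, α.degree ≤ S) : #A ≤ (S + 1) ^ D := by
  classical
  have h1 : #A ≤ #(Fintype.piFinset fun _ : σ => range (S + 1)) := by
    refine card_le_card_of_injOn (fun α v => α v) (fun α hα => ?_) fun α _ β _ h => ?_
    · rw [mem_coe, Fintype.mem_piFinset]
      intro v
      exact mem_range.2 (Nat.lt_succ_of_le ((Finsupp.le_degree v α).trans (hA α hα)))
    · exact Finsupp.ext fun v => congrFun h v
  refine h1.trans ?_
  rw [Fintype.card_piFinset]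
  simp only [card_range, prod_const, card_univ]
  exact Nat.pow_le_pow_right (Nat.succ_pos S) hD

theorem cv_trZ (w : σ → ℤ) (P : N.PS σ) {A : Finset (σ →₀ ℕ)}
    (hA : P = ∑ α ∈ A, N.mono α (N.cv α P)) (β : σ →₀ ℕ) :
    N.cv β (N.trZ w P) = ∑ α ∈ A, coeff β (aeval (fun v => X v + C (w v : ℝ)) (monomial α (1 : ℝ)) :
      MvPolynomial σ ℝ) • N.cv α P := by
  conv_lhs => rw [hA]
  rw [map_sum, map_sum]
  refine sum_congr rfl fun α _ => ?_
  rw [mono_eq_asm, ND.trZ, ND.tr, ND.subst, map_asm, map_cst, cv_asm_cst]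

theorem RatP_trZ (w : σ → ℤ) (hw : ∀ v, |w v| ≤ 1) {q : ℕ} {P : N.PS σ} (h : N.RatP q P) :
    N.RatP q (N.trZ w P) := by
  intro β
  obtain ⟨A, -, hA⟩ := exists_sum_mono P
  rw [cv_trZ w P hA]
  refine Gon.IsDen.sum A fun α _ => ?_
  obtain ⟨z, hz, -⟩ := coeff_tr w hw α β
  rw [hz]
  exact Gon.IsDen.zsmul (h α) z

theorem Sm_trZ_sub [Fintype σ] {S D : ℕ} (hS : ∀ k, N.wt k ≤ S) (hD : Fintype.card σ ≤ D)
    (w : σ → ℤ) (hw : ∀ v, |w v| ≤ 1) {T M : ℝ} (hT : 1 ≤ T) {P : N.PS σ} (hP : P ∈ N.poly σ)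
    (h : N.Sm T M P) : N.Sm T (((S : ℝ) + 1) ^ D * 2 ^ S * (M / T)) (N.trZ w P - P) := by
  classical
  intro β
  have hM := St.Sm_nonneg h
  have hT0 : 0 < T := by linarith
  obtain ⟨A0, -, hA0⟩ := exists_sum_mono P
  set A := A0.filter fun α => α.degree ≤ S with hAdef
  have hA : P = ∑ α ∈ A, N.mono α (N.cv α P) := by
    conv_lhs => rw [hA0]
    rw [hAdef, sum_filter]
    refine sum_congr rfl fun α _ => ?_
    split_ifs with hα
    · rfl
    · rw [St.cv_eq_zero hS hP (by omega), map_zero]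
  have e : N.cv β (N.trZ w P - P) = ∑ α ∈ A, coeff β ((aeval (fun v => X v + C (w v : ℝ))
      (monomial α (1 : ℝ)) : MvPolynomial σ ℝ) - monomial α 1) • N.cv α P := by
    rw [map_sub, cv_trZ w P hA]
    have : N.cv β P = ∑ α ∈ A, coeff β (monomial α (1 : ℝ) : MvPolynomial σ ℝ) • N.cv α P := by
      conv_lhs => rw [hA]
      rw [map_sum]
      exact sum_congr rfl fun α _ => by rw [mono_eq_asm, cv_asm_cst]
    rw [this, ← sum_sub_distrib]
    exact sum_congr rfl fun α _ => by rw [coeff_sub, sub_smul]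
  rw [e]
  refine (mul_le_mul_of_nonneg_right (norm_sum_le _ _) (by positivity)).trans ?_
  rw [sum_mul]
  have hb : ∀ α ∈ A, ‖coeff β ((aeval (fun v => X v + C (w v : ℝ))
      (monomial α (1 : ℝ)) : MvPolynomial σ ℝ) - monomial α 1) • N.cv α P‖ * T ^ β.degree ≤
      2 ^ S * (M / T) := by
    intro α hα
    have hαS : α.degree ≤ S := (mem_filter.1 hα).2
    by_cases hβ : α.degree ≤ β.degree
    · rw [tr_monomial_sub (fun v => (w v : ℝ)) α β hβ, zero_smul, norm_zero, zero_mul]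
      positivity
    · obtain ⟨z, hz, hz'⟩ := coeff_tr w hw α β
      have hne : α ≠ β := by rintro rfl; exact hβ le_rfl
      rw [coeff_sub, hz, coeff_monomial, if_neg hne, sub_zero, norm_smul, Real.norm_eq_abs,
        mul_assoc]
      have h1 : |(z : ℝ)| ≤ 2 ^ S := by
        have : (|z| : ℝ) ≤ 2 ^ α.degree := by exact_mod_cast hz'
        exact this.trans (pow_le_pow_right₀ (by norm_num) hαS)
      refine mul_le_mul h1 ?_ (by positivity) (by positivity)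
      rw [le_div_iff₀ hT0, mul_assoc, ← pow_succ]
      exact (mul_le_mul_of_nonneg_left (pow_le_pow_right₀ hT (by omega)) (norm_nonneg _)).trans (h α)
  refine (sum_le_sum hb).trans ?_
  rw [sum_const, nsmul_eq_mul, mul_assoc]
  refine mul_le_mul_of_nonneg_right ?_ (by positivity)
  exact_mod_cast card_deg_le hD A fun α hα => (mem_filter.1 hα).2

/-- the gauge `Sm` on polynomial sequences -/
def gP {S d : ℕ} {B T : ℝ} (hS : ∀ k, N.wt k ≤ S) (hB : ∀ i j k, |(N.c i j k : ℝ)| ≤ B)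
    (hB0 : 0 ≤ B) (hd : Fintype.card ι ≤ d) (hT : 0 ≤ T) : Bch.Gauge (N.PS σ) (St.kB S d B) where
  le P M := P ∈ N.poly σ ∧ N.Sm T M P
  nonneg h := St.Sm_nonneg h.2
  zero := ⟨zero_mem _, St.Sm_zero le_rfl⟩
  mono h h' := ⟨h.1, h.2.mono h'⟩
  add h h' := ⟨add_mem h.1 h'.1, St.Sm_add hT h.2 h'.2⟩
  smul c _ _ h := ⟨Submodule.smul_mem _ c h.1, St.Sm_smul c h.2⟩
  lie h h' := ⟨lie_mem_poly h.1 h'.1, St.Sm_lie hS hB hB0 hd hT h.1 h'.1 h.2 h'.2⟩

theorem pm_le_poly : N.pm σ ≤ N.poly σ := cf_mono fun i => FA_anti (Nat.le_succ i)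

theorem lie_mem_pm : ∀ P ∈ N.poly σ, ∀ Q ∈ N.pm σ, ⁅P, Q⁆ ∈ N.pm σ := fun _ hP _ hQ =>
  lie_mem_cf (W'' := fun i => N.F (i + 1)) (fun _ j _ hx _ hy => lie_mem_FA (j := j + 1) hx hy) hP hQ

theorem lie_mem_pmm : ∀ P ∈ N.poly σ, ∀ Q ∈ N.pmm σ, ⁅P, Q⁆ ∈ N.pmm σ := fun _ hP _ hQ =>
  lie_mem_cf (W'' := fun i => N.F (i + 2)) (fun _ j _ hx _ hy => lie_mem_FA (j := j + 2) hx hy) hP hQ

theorem lie_pm_pm {P Q : N.PS σ} (hP : P ∈ N.pm σ) (hQ : Q ∈ N.pm σ) : ⁅P, Q⁆ ∈ N.pmm σ :=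
  lie_mem_cf (W'' := fun i => N.F (i + 2))
    (fun i j _ hx _ hy => FA_anti (by omega) (lie_mem_FA (i := i + 1) (j := j + 1) hx hy)) hP hQ

theorem star_sub_pmm (S : ℕ) {P Q : N.PS σ} (hP : P ∈ N.pm σ) (hQ : Q ∈ N.pm σ) :
    star S P Q - (P + Q) ∈ N.pmm σ :=
  Bch.star_sub_mem S _ (lie_mem_pmm _ (pm_le_poly hP)) (lie_mem_pmm _ (pm_le_poly hQ))
    (lie_pm_pm hP hQ)

theorem star_mem_pm (S : ℕ) {P Q : N.PS σ} (hP : P ∈ N.poly σ) (hQ : Q ∈ N.poly σ)
    (h : P + Q ∈ N.pm σ) : star S P Q ∈ N.pm σ := by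
  have h1 := St.star_cong S (N.poly σ) (N.pm σ) (N.pm σ) (fun _ ha _ hb => lie_mem_poly ha hb)
    lie_mem_pm le_rfl (x := P) (y := -P) (x' := P) (y' := Q) hP (neg_mem hP) hP hQ (by simp)
    (by rw [sub_neg_eq_add, add_comm]; exact h)
  rw [Bch.star_neg_self, sub_zero, sub_self, zero_add, sub_neg_eq_add, add_comm Q] at h1
  simpa using add_mem h1 h

theorem trZ_sub_mem_pm (w : σ → ℤ) {P : N.PS σ} (hP : P ∈ N.poly σ) : N.trZ w P - P ∈ N.pm σ :=
  tr_sub_mem_cf (fun _ _ => FA_anti) hP _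

theorem lie_mem_sh {H K : ℕ → Submodule ℝ N.L} (h : N.KSys H K) :
    ∀ P ∈ cf σ H, ∀ Q ∈ N.sh σ K, ⁅P, Q⁆ ∈ N.sh σ K := fun _ hP _ hQ =>
  lie_mem_cf (W'' := fun i => K (i + 1)) (fun i j _ hx _ hy => h.lie i (j + 1) _ hx _ hy) hP hQ

theorem pmm_le_sh {H K : ℕ → Submodule ℝ N.L} (h : N.KSys H K) : N.pmm σ ≤ N.sh σ K :=
  cf_mono fun i => h.ge (i + 1)

theorem F_succ_le_Hc {H K : ℕ → Submodule ℝ N.L} {U : Submodule ℝ N.L} (h : N.KSys H K)
    (hU : N.F 2 ≤ U) (i : ℕ) : N.F (i + 1) ≤ N.Hc H K U i := by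
  refine le_inf (le_inf (h.gr.ge i) ?_) fun x hx u _ => ?_
  · unfold Kh
    split_ifs with hi
    · rw [hi]; exact hU
    · exact h.ge i
  · exact h.ge (i + 1) (lie_mem_FA (i := i + 1) (j := 1) hx (mem_FA_one u))

theorem cj_eq (S : ℕ) {L : Type*} [LieRing L] [LieAlgebra ℝ L] [Bch.Nil S L] (g x : L) :
    cj S g x = Ad S g x := (Bch.Ad_eq_star S g x).symm

theorem RatP_cj (S : ℕ) {q : ℕ} {P Q : N.PS σ} (h : N.RatP q P) (h' : N.RatP q Q) :
    N.RatP (St.dS S * (St.dS S * q ^ (S + 1)) ^ (S + 1)) (cj S P Q) :=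
  St.RatP_star S (St.RatP_star S h h')
    ((St.RatP_neg h).of_dvd (Dvd.dvd.mul_left (dvd_pow_self q (by omega)) _))

end Stc59

open Stc59

theorem stcStmt : StcStmt := by
  intro S D
  obtain ⟨C, hC⟩ : ∃ C : ℕ, ∀ (m : ℝ) (d q : ℕ), 2 ≤ m → (d : ℝ) ≤ m → (q : ℝ) ≤ Real.exp m →
      ((St.dS S : ℝ) * ((St.dS S : ℝ) * (q : ℝ) ^ (S + 1)) ^ (S + 1) ≤ Real.exp (m ^ C)) ∧
      (Bch.cb S * (2 ^ S * ((d : ℝ) + 1) ^ 2 * Real.exp m +
          (((S : ℝ) + 1) ^ D * 2 ^ S + 1) * Real.exp m) ^ (2 * S) *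
        ((Bch.cb S * (2 ^ S * ((d : ℝ) + 1) ^ 2 * Real.exp m +
          (((S : ℝ) + 1) ^ D * 2 ^ S + 1) * Real.exp m) ^ (2 * S) * (((S : ℝ) + 1) ^ D * 2 ^ S) + 1) *
          Real.exp m) ≤ Real.exp (m ^ C)) := by qp
  refine ⟨C, fun m hm ι σ _ _ _ N H K U g ε γ T q j hD hι hG hK hU hT hq1 hq hj hSt hε hγ hdeg hSm
    hRat hc => ?_⟩
  obtain ⟨hC1, hC2⟩ := hC m (Fintype.card ι) q hm hι hq
  have := hG.nil (MvPolynomial σ ℝ)
  have := hG.nil ℝ
  set q' := St.dS S * (St.dS S * q ^ (S + 1)) ^ (S + 1) with hq'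
  have hT0 : 0 < T := by linarith
  have hE := Real.exp_pos m
  have hE1 : 1 ≤ Real.exp m := Real.one_le_exp (by linarith)
  set c0 : ℝ := ((S : ℝ) + 1) ^ D * 2 ^ S with hc0
  have hc0' : 0 ≤ c0 := by positivity
  set Kc : ℝ := 2 ^ S * ((Fintype.card ι : ℝ) + 1) ^ 2 * Real.exp m + (c0 + 1) * Real.exp m with hKc
  have hk1 := St.one_le_kB S (Fintype.card ι) hE1
  have hkB : St.kB S (Fintype.card ι) (Real.exp m) ≤ Kc := by
    rw [hKc, St.kB]; nlinarith
  have hK1 : 1 ≤ Kc := hk1.trans hkB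
  have hKE : (c0 + 1) * Real.exp m ≤ Kc := by
    rw [hKc]
    have : 0 ≤ 2 ^ S * ((Fintype.card ι : ℝ) + 1) ^ 2 * Real.exp m := by positivity
    linarith
  set c1 : ℝ := Bch.cb S * Kc ^ (2 * S) with hc1
  have hc1' : 0 ≤ c1 := by have := Bch.two_le_cb S; positivity
  let G : Bch.Gauge (N.PS σ) _ := gP (T := T) hG.wt_le hG.c_le hE.le le_rfl hT0.le
  have hgH : g ∈ cf σ H := cf_mono (fun i => by
    unfold upto; split_ifs
    · exact inf_le_left.trans inf_le_left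
    · exact le_rfl) hSt.mem
  have hgP : g ∈ N.poly σ := St.cf_le_poly hK.gr hgH
  have hεP : ε ∈ N.poly σ := St.cf_le_poly hK.gr hε
  have hγP : γ ∈ N.poly σ := St.cf_le_poly hK.gr hγ
  have hεG : G.le ε Kc := ⟨hεP, hSm.mono (by nlinarith)⟩
  set gt := star S (-ε) (star S g (-γ)) with hgt
  have hAd : ∀ x, Ad S gt x = Ad S (-ε) (Ad S g (Ad S (-γ) x)) := fun x => by
    rw [hgt, Bch.Ad_star, Bch.Ad_star]
  have hAd' : ∀ x, Ad S (-gt) x = Ad S γ (Ad S (-g) (Ad S ε x)) := fun x => by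
    rw [hgt, Bch.neg_star, Bch.neg_star, neg_neg, neg_neg, Bch.Ad_star, Bch.Ad_star]
  have hq'q : St.dS S * q ^ (S + 1) ∣ q' := Dvd.dvd.mul_left (dvd_pow_self _ (by omega)) _
  -- generators
  have hgen : ∀ b ∈ N.GenU S T (Real.exp m) q K U g,
      Ad S γ b ∈ N.GenU S T (Real.exp (m ^ C)) q' K U gt ∧ N.cv 0 (Ad S γ b) = N.cv 0 b := by
    rintro b ⟨⟨hb, hbq, a, ha, haS, hab⟩, hbU⟩
    have h0 : N.cv 0 (Ad S γ b) = N.cv 0 b := by
      have hγ0 : N.ev 0 γ = 0 := by rw [← cv_zero_eq]; exact (hdeg 0 (by simp; omega)).2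
      rw [cv_zero_eq, cv_zero_eq, Bch.map_Ad, hγ0, Bch.Ad_zero]
    refine ⟨⟨⟨Bch.Ad_mem S _ (lie_mem_pm _ hγP) hb, ?_, Ad S (-ε) a,
      Bch.Ad_mem S _ (lie_mem_pm _ (neg_mem hεP)) ha, ?_, ?_⟩, by rw [h0]; exact hbU⟩, h0⟩
    · rw [← cj_eq]; exact RatP_cj S hRat hbq
    · refine (G.Ad_le S hkB hK1 (G.neg hεG) (y := a) ⟨pm_le_poly ha, haS⟩).2.mono (le_trans ?_ hC2)
      refine mul_le_mul_of_nonneg_left ?_ hc1'
      nlinarith [mul_nonneg hc1' hc0']
    · rw [cj_eq, hAd, Bch.Ad_neg_Ad, ← map_sub, ← cj_eq S g]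
      exact Bch.Ad_mem S _ (lie_mem_sh hK _ (neg_mem hε)) hab
  refine ⟨q', ?_, ?_, ?_, ?_, ?_⟩
  · exact Nat.mul_pos (St.one_le_dS S) (pow_pos (Nat.mul_pos (St.one_le_dS S) (pow_pos hq1 _)) _)
  · rw [hq']; push_cast; exact hC1
  · intro α
    unfold upto
    split_ifs with hα
    · have hz : ∀ P ∈ N.poly σ, (∀ β : σ →₀ ℕ, β.degree ≠ j → N.cv β P = 0) →
          -P - 0 ∈ St.Zj N σ j := fun P hP h => by
        rw [sub_zero]
        exact neg_mem (St.mem_Zj_of_hom hP fun β hβ => h β hβ.ne)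
      have h1 := St.cong3 S j (zero_mem _) (zero_mem _) (neg_mem hεP) (neg_mem hγP) hgP
        (hz ε hεP fun β hβ => (hdeg β hβ).1) (hz γ hγP fun β hβ => (hdeg β hβ).2) α
      rw [St.trunc_lt _ hα, Bch.zero_star, Bch.star_zero] at h1
      have h2 : N.cv α (g - ε - γ) ∈ N.Hc H K U α.degree := by
        by_cases hαj : α.degree = j
        · rw [hαj]; exact hc α hαj
        · have h3 := hSt.mem α
          rw [upto, if_pos (by omega)] at h3
          rwa [map_sub, map_sub, (hdeg α hαj).1, (hdeg α hαj).2, sub_zero, sub_zero]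
      have h3 := add_mem (F_succ_le_Hc hK hU _ h1) h2
      rw [← map_add] at h3
      convert h3 using 2
      abel
    · exact St.star_mem_cf S hK.gr (neg_mem hε) (St.star_mem_cf S hK.gr hgH (neg_mem hγ)) α
  · refine hSt.span.trans (sup_le_sup_right (Submodule.span_mono ?_) _)
    rintro _ ⟨b, hb, rfl⟩
    exact ⟨_, (hgen b hb).1, (hgen b hb).2⟩
  · intro v
    obtain ⟨a, ha, b, hb, haS, hbq, hab⟩ := hSt.slope v
    set w : σ → ℤ := Pi.single v 1 with hw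
    have hw1 : ∀ u, |w u| ≤ 1 := fun u => by
      rw [hw, Pi.single_apply]; split_ifs <;> simp
    have htr : ∀ P ∈ N.poly σ, N.trZ w P ∈ N.poly σ := fun P hP => tr_mem_poly hP _
    have hd : ∀ P ∈ N.poly σ, star S P (-N.trZ w P) ∈ N.pm σ := fun P hP =>
      star_mem_pm S hP (neg_mem (htr P hP)) (by
        have := neg_mem (trZ_sub_mem_pm w hP)
        rwa [neg_sub, sub_eq_add_neg] at this)
    set de := star S ε (-N.trZ w ε) with hde
    set dg := star S γ (-N.trZ w γ) with hdg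
    have hρ : N.rho S g w ∈ N.pm σ := star_mem_pm S (neg_mem hgP) (htr g hgP) (by
      have := trZ_sub_mem_pm w hgP
      rwa [sub_eq_neg_add] at this)
    have hδ := Sm_trZ_sub hG.wt_le hD w hw1 hT hεP hSm
    have hET : Real.exp m / T ≤ Real.exp m := div_le_self hE.le hT
    have hET0 : 0 ≤ Real.exp m / T := by positivity
    have hδG : G.le (ε - N.trZ w ε) (c0 * (Real.exp m / T)) :=
      G.sub_comm ⟨pm_le_poly (trZ_sub_mem_pm w hεP), hδ⟩
    have hτG : G.le (N.trZ w ε) Kc := by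
      have := G.add (G.sub_comm hδG) (y := ε) ⟨hεP, hSm⟩
      rw [sub_add_cancel] at this
      exact G.mono this (le_trans (by nlinarith) hKE)
    have hdeG : G.le de (c1 * (c0 * (Real.exp m / T))) := G.star_neg_le S hkB hK1 hτG hεG hδG
    have hρt : N.rho S gt w = star S (Ad S γ (star S (Ad S (-g) de) (N.rho S g w))) dg := by
      simp only [ND.rho, hgt, hde, hdg, Bch.map_star, Bch.neg_star, neg_neg, Bch.Ad_eq_star,
        Bch.star_assoc, Bch.neg_star_star, Bch.star_neg_star, map_neg]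
    have hAde : Ad S (-g) de ∈ N.pm σ := Bch.Ad_mem S _ (lie_mem_pm _ (neg_mem hgP)) (hd ε hεP)
    have h1 := star_sub_pmm S hAde hρ
    have h1' : star S (Ad S (-g) de) (N.rho S g w) ∈ N.pm σ :=
      star_mem_pm S (pm_le_poly hAde) (pm_le_poly hρ) (add_mem hAde hρ)
    have h2 := star_sub_pmm S (Bch.Ad_mem S _ (lie_mem_pm _ hγP) h1') (hd γ hγP)
    have h3 := Bch.Ad_mem S _ (lie_mem_pmm _ hγP) h1
    refine ⟨Ad S (-ε) (de + a), Bch.Ad_mem S _ (lie_mem_pm _ (neg_mem hεP)) (add_mem (hd ε hεP) ha),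
      Ad S γ b + dg, add_mem (Bch.Ad_mem S _ (lie_mem_pm _ hγP) hb) (hd γ hγP), ?_, ?_, ?_⟩
    · refine (G.Ad_le S hkB hK1 (G.neg hεG) (G.add hdeG (y := a) ⟨pm_le_poly ha, haS⟩)).2.mono ?_
      rw [le_div_iff₀ hT0]
      refine le_trans (le_of_eq ?_) hC2
      rw [← hc1]
      field_simp
    · refine St.RatP_add ?_ ((St.RatP_star S hRat (St.RatP_neg (RatP_trZ w hw1 hRat))).of_dvd hq'q)
      rw [← cj_eq]; exact RatP_cj S hRat hbq
    · have h4 : Ad S γ (N.rho S g w - cj S (-g) a - b) ∈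
          N.sh σ K ⊔ Submodule.span ℝ (N.GenU S T (Real.exp (m ^ C)) q' K U gt) := by
        obtain ⟨k, hk, s, hs, e⟩ := Submodule.mem_sup.1 hab
        rw [← e, map_add]
        refine Submodule.add_mem_sup (Bch.Ad_mem S _ (lie_mem_sh hK _ hγ) hk) ?_
        have h5 := Submodule.mem_map_of_mem (f := (Ad S γ).toLinearMap) hs
        rw [Submodule.map_span] at h5
        refine Submodule.span_mono ?_ h5
        rintro _ ⟨b', hb', rfl⟩
        exact (hgen b' hb').1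
      have h5 := add_mem (Submodule.mem_sup_left (pmm_le_sh hK (add_mem h2 h3))) h4
      rw [hρt, cj_eq, hAd', Bch.Ad_Ad_neg]
      convert h5 using 1
      simp only [cj_eq, map_sub, map_add]
      abel

end Crest.Agent.T49.Nil
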