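import Crest.Agent.T49.LTCore_65
import Crest.Agent.T49.LtOne_14
import Crest.Agent.T49.LtPig_7
import Crest.Agent.T49.LtRedK_85
import Crest.Agent.T49.LtRed_13
import Crest.Agent.T49.LtGn_60
import Crest.Agent.T49.LtInit_14
import Crest.Agent.T49.LtSta_46
import Crest.Agent.T49.LtStb_54
import Crest.Agent.T49.LtStc_59

/-! # Row 49 (helper65): the efficient equidistribution theorem -/

namespace Crest.Agent.T49.Nil

theorem ltStmt : LTStmt :=
  ltStmt_of lt_one pigStmt redKStmt (redStmt redKStmt) gnStmt initStmt staStmt stbStmt stcStmt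

end Crest.Agent.T49.Nil
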