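import Crest.Agent.T49.GiB_40
import Crest.Agent.T49.NilSt_61
import Crest.Agent.T49.BchN_16
import Crest.Agent.T49.Qp_85

/-!
# Row 49 (helper33): the graded subquotient datum `⊕ H i / K i`
-/

set_option autoImplicit false

noncomputable section

namespace Crest.Agent.T49.Dim

open Finset Crest.Agent.T49.Nil Crest.Agent.T49.Nil.ND Crest.Agent.T49.GI
open Crest.Agent.T49.Bch (star)

variable {ι : Type} [Fintype ι]

/-- bases `v` of the quotients `H i / K i`, coordinates `p i`, integer structure constants -/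
structure SQ (N : ND ι) (H K : ℕ → Submodule ℝ N.L) (κ : Type) [Fintype κ] [DecidableEq κ] where
  hH : N.GrSub H
  hK : N.GrSub K
  le : ∀ i, K i ≤ H i
  ideal : ∀ i j, ∀ x ∈ H i, ∀ y ∈ K j, ⁅x, y⁆ ∈ K (i + j)
  w : κ → ℕ
  v : κ → N.L
  p : ℕ → N.L →ₗ[ℝ] (κ → ℝ)
  w_pos : ∀ b, 1 ≤ w b
  v_mem : ∀ b, v b ∈ H (w b)
  p_ne : ∀ i x b, w b ≠ i → p i x b = 0
  p_v : ∀ b, p (w b) (v b) = Pi.single b 1
  dec : ∀ i, ∀ x ∈ H i, x - ∑ b, p i x b • v b ∈ K i
  p_K : ∀ i, ∀ x ∈ K i, p i x = 0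
  c : κ → κ → κ → ℤ
  c_eq : ∀ a b k, (c a b k : ℝ) = p (w a + w b) ⁅v a, v b⁆ k

namespace SQ

variable {N : ND ι} {H K : ℕ → Submodule ℝ N.L} {κ : Type} [Fintype κ] [DecidableEq κ]
  (Q : SQ N H K κ)

theorem sum_mem {i : ℕ} {y : κ → ℝ} (hy : ∀ b, Q.w b ≠ i → y b = 0) : ∑ b, y b • Q.v b ∈ H i :=
  Submodule.sum_mem _ fun b _ => by
    by_cases h : Q.w b = i
    · exact Submodule.smul_mem _ _ (h ▸ Q.v_mem b)
    · simp [hy b h]

theorem p_sum {i : ℕ} {y : κ → ℝ} (hy : ∀ b, Q.w b ≠ i → y b = 0) :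
    Q.p i (∑ b, y b • Q.v b) = y := by
  rw [map_sum]
  conv_rhs => rw [← Finset.univ_sum_single y]
  refine sum_congr rfl fun b _ => ?_
  by_cases h : Q.w b = i
  · rw [map_smul, ← h, Q.p_v, ← Pi.single_smul, smul_eq_mul, mul_one]
  · simp [hy b h]

theorem p_lie' {i j : ℕ} {x y : N.L} (hx : x ∈ H i) (hy : y ∈ H j) (k : κ) :
    Q.p (i + j) ⁅x, y⁆ k = ∑ a, ∑ b, (Q.c a b k : ℝ) * Q.p i x a * Q.p j y b := by
  have h1 := Q.dec i x hx
  have h2 := Q.dec j y hy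
  have hu := Q.sum_mem (Q.p_ne i x)
  set u := ∑ b, Q.p i x b • Q.v b with hu0
  set u' := ∑ b, Q.p j y b • Q.v b with hu1
  have e : ⁅x, y⁆ = ⁅u, u'⁆ + ⁅u, y - u'⁆ - ⁅y, x - u⁆ := by
    rw [← lie_add, add_sub_cancel, ← lie_skew y, sub_neg_eq_add, ← add_lie, add_sub_cancel]
  have k1 := Q.p_K _ _ (Q.ideal i j u hu _ h2)
  have k2 := Q.p_K _ _ (Q.ideal j i y hy _ h1)
  rw [add_comm j i] at k2
  rw [e, map_sub, map_add, k1, k2, add_zero, sub_zero, hu0, hu1]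
  simp only [sum_lie, lie_sum, smul_lie, lie_smul, map_sum, map_smul, Finset.sum_apply,
    Pi.smul_apply, smul_eq_mul, mul_sum]
  rw [sum_comm]
  refine sum_congr rfl fun a _ => sum_congr rfl fun b _ => ?_
  by_cases ha : Q.w a = i
  · by_cases hb : Q.w b = j
    · rw [Q.c_eq, ha, hb]; ring
    · simp [Q.p_ne j y b hb]
  · simp [Q.p_ne i x a ha]

theorem p_lie_left (a : κ) {j : ℕ} {y : N.L} (hy : y ∈ H j) (k : κ) :
    Q.p (Q.w a + j) ⁅Q.v a, y⁆ k = ∑ b, Q.p j y b * (Q.c a b k : ℝ) := by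
  rw [Q.p_lie' (Q.v_mem a) hy, Q.p_v, sum_eq_single a]
  · simp [mul_comm]
  · intro b _ hb; simp [hb]
  · simp

theorem p_lie_right (b : κ) {i : ℕ} {x : N.L} (hx : x ∈ H i) (k : κ) :
    Q.p (i + Q.w b) ⁅x, Q.v b⁆ k = ∑ a, Q.p i x a * (Q.c a b k : ℝ) := by
  rw [Q.p_lie' hx (Q.v_mem b), Q.p_v]
  refine sum_congr rfl fun a _ => ?_
  rw [sum_eq_single b]
  · simp [mul_comm]
  · intro b' _ hb; simp [hb]
  · simp

theorem c_wt {a b k : κ} (h : Q.c a b k ≠ 0) : Q.w a + Q.w b = Q.w k := by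
  by_contra h1
  apply h
  have := Q.c_eq a b k
  rw [Q.p_ne _ _ _ (Ne.symm h1)] at this
  exact_mod_cast this

/-- the subquotient datum -/
def nd : ND κ where
  wt := Q.w
  c := Q.c
  wt_pos := Q.w_pos
  c_wt _ _ _ h := (Q.c_wt h).le
  anti i j k := by
    have : (Q.c j i k : ℝ) = -(Q.c i j k : ℝ) := by
      rw [Q.c_eq, Q.c_eq, ← lie_skew, map_neg, add_comm]; rfl
    exact_mod_cast this
  jac i j k m := by
    have hl := fun a b => Q.hH.lie _ _ _ (Q.v_mem a) _ (Q.v_mem b)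
    have h1 := Q.p_lie_left i (hl j k) m
    have h2 := Q.p_lie_right k (hl i j) m
    have h3 := Q.p_lie_left j (hl i k) m
    simp only [← Q.c_eq] at h1 h2 h3
    rw [leibniz_lie, map_add, Pi.add_apply, ← add_assoc, h2,
      show Q.w i + Q.w j + Q.w k = Q.w j + (Q.w i + Q.w k) by ring, h3] at h1
    exact_mod_cast h1.symm

theorem graded : Graded Q.nd := fun _ _ _ h => Q.c_wt h

/-- the projection `H i → H i / K i` -/
def pL (i : ℕ) : N.L →ₗ[ℝ] Q.nd.L := Q.p i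

theorem pL_apply (i : ℕ) (x : N.L) (b : κ) : Q.pL i x b = Q.p i x b := rfl

theorem pL_lie {i j : ℕ} {x y : N.L} (hx : x ∈ H i) (hy : y ∈ H j) :
    Q.pL (i + j) ⁅x, y⁆ = ⁅Q.pL i x, Q.pL j y⁆ := funext fun k => Q.p_lie' hx hy k

theorem pL_mem (i : ℕ) (x : N.L) : Q.pL i x ∈ Q.nd.F i := fun k hk => Q.p_ne i x k hk.ne

theorem pL_K {i : ℕ} {x : N.L} (hx : x ∈ K i) : Q.pL i x = 0 := Q.p_K i x hx

theorem mem_K {i : ℕ} {x : N.L} (hx : x ∈ H i) (h : Q.pL i x ∈ Q.nd.F (i + 1)) : x ∈ K i := by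
  have h0 : ∀ b, Q.p i x b = 0 := fun b => by
    by_cases hb : Q.w b = i
    · exact h b (show Q.w b < i + 1 by omega)
    · exact Q.p_ne i x b hb
  simpa [h0] using Q.dec i x hx

/-- the graph of the projection -/
def Gam (i : ℕ) : Submodule ℝ (pd N Q.nd).L where
  carrier := {z | fst N Q.nd ℝ z ∈ H i ∧ snd N Q.nd ℝ z - Q.pL i (fst N Q.nd ℝ z) ∈ Q.nd.F (i + 1)}
  add_mem' {a b} ha hb := ⟨by rw [map_add]; exact add_mem ha.1 hb.1, by
    have := add_mem ha.2 hb.2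
    simp only [map_add]
    convert this using 1
    abel⟩
  zero_mem' := ⟨by rw [map_zero]; exact zero_mem _, by simp⟩
  smul_mem' r a ha := ⟨by rw [map_smul]; exact Submodule.smul_mem _ _ ha.1, by
    have := Submodule.smul_mem _ r ha.2
    simp only [map_smul]
    rwa [smul_sub] at this⟩

theorem mem_Gam {i : ℕ} {z : (pd N Q.nd).L} : z ∈ Q.Gam i ↔
    fst N Q.nd ℝ z ∈ H i ∧ snd N Q.nd ℝ z - Q.pL i (fst N Q.nd ℝ z) ∈ Q.nd.F (i + 1) := Iff.rfl

theorem pair_mem_Gam {i : ℕ} {x : N.L} {y : Q.nd.L} :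
    pair x y ∈ Q.Gam i ↔ x ∈ H i ∧ y - Q.pL i x ∈ Q.nd.F (i + 1) := Iff.rfl

end SQ

theorem mem_pdF {ι' : Type} [Fintype ι'] {g : ND ι} {g' : ND ι'} {i : ℕ} {z : (pd g g').L} :
    z ∈ (pd g g').F i ↔ fst g g' ℝ z ∈ g.F i ∧ snd g g' ℝ z ∈ g'.F i :=
  ⟨fun h => ⟨fun k hk => h (.inl k) hk, fun k hk => h (.inr k) hk⟩, fun h p hp => by
    cases p with
    | inl k => exact h.1 k hp
    | inr k => exact h.2 k hp⟩

namespace SQ

variable {N : ND ι} {H K : ℕ → Submodule ℝ N.L} {κ : Type} [Fintype κ] [DecidableEq κ]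
  (Q : SQ N H K κ)

theorem snd_mem {i : ℕ} {z : (pd N Q.nd).L} (hz : z ∈ Q.Gam i) : snd N Q.nd ℝ z ∈ Q.nd.F i := by
  have := add_mem (FA_anti (Nat.le_succ i) hz.2) (Q.pL_mem i (fst N Q.nd ℝ z))
  rwa [sub_add_cancel] at this

theorem grSub_Gam : (pd N Q.nd).GrSub Q.Gam where
  le i z hz := mem_pdF.2 ⟨Q.hH.le i hz.1, Q.snd_mem hz⟩
  ge i z hz := by
    obtain ⟨h1, h2⟩ := mem_pdF.1 hz
    refine ⟨Q.hH.ge i h1, ?_⟩
    rwa [Q.pL_K (Q.hK.ge i h1), sub_zero]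
  lie i j z hz z' hz' := by
    refine ⟨by rw [LieHom.map_lie]; exact Q.hH.lie _ _ _ hz.1 _ hz'.1, ?_⟩
    rw [LieHom.map_lie, LieHom.map_lie, Q.pL_lie hz.1 hz'.1]
    have h1 := lie_mem_FA hz.2 (Q.snd_mem hz')
    have h2 := lie_mem_FA (Q.pL_mem i (fst N Q.nd ℝ z)) hz'.2
    rw [show i + 1 + j = i + j + 1 by ring] at h1
    have := add_mem h1 h2
    rwa [sub_lie, lie_sub, sub_add_sub_cancel] at this

theorem exists_lift {i : ℕ} {y : Q.nd.L} (hy : y ∈ Q.nd.F i) : ∃ x, pair x y ∈ Q.Gam i := by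
  have h0 : ∀ b, Q.w b ≠ i → (fun b => if Q.w b = i then y b else 0) b = 0 := fun b hb => if_neg hb
  refine ⟨∑ b, (if Q.w b = i then y b else 0) • Q.v b,
    Q.pair_mem_Gam.2 ⟨Q.sum_mem h0, fun k hk => ?_⟩⟩
  rw [ND.sub_apply, pL_apply, Q.p_sum h0]
  by_cases h : Q.w k = i
  · simp [h]
  · have : y k = 0 := hy k (lt_of_le_of_ne (Nat.le_of_lt_succ hk) h)
    simp [h, this]

theorem fst_mem_K_iff {i : ℕ} {z : (pd N Q.nd).L} (hz : z ∈ Q.Gam i) :
    fst N Q.nd ℝ z ∈ K i ↔ snd N Q.nd ℝ z ∈ Q.nd.F (i + 1) := by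
  constructor
  · intro h
    have := hz.2
    rwa [Q.pL_K h, sub_zero] at this
  · intro h
    refine Q.mem_K hz.1 ?_
    have := sub_mem h hz.2
    rwa [sub_sub_cancel] at this

theorem ratS_Gam {R : ℝ} (hR : 1 ≤ R) (hK : ∀ i, N.RatS R (K i))
    (hv : ∀ b, ∃ z : ι → ℤ, (∀ k, |(z k : ℝ)| ≤ R) ∧ Q.v b = N.ofInt z) (i : ℕ) :
    (pd N Q.nd).RatS R (Q.Gam i) := by
  intro z hz
  set W : Submodule ℝ (pd N Q.nd).L := Submodule.span ℝ
    {v | v ∈ Q.Gam i ∧ ∃ z : ι ⊕ κ → ℤ, (∀ i, |(z i : ℝ)| ≤ R) ∧ v = Gon.cst z} with hW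
  let l1 : N.L →ₗ[ℝ] (pd N Q.nd).L :=
    { toFun := fun x => pair x 0
      map_add' := fun x y => pd_ext (by simp) (by simp)
      map_smul' := fun r x => pd_ext (by simp) (by simp) }
  let l2 : Q.nd.L →ₗ[ℝ] (pd N Q.nd).L :=
    { toFun := fun x => pair 0 x
      map_add' := fun x y => pd_ext (by simp) (by simp)
      map_smul' := fun r x => pd_ext (by simp) (by simp) }
  have h1 : K i ≤ W.comap l1 := Gon.IsRat.le_of_forall (hK i) fun u hu hm =>
    Submodule.subset_span ⟨Q.pair_mem_Gam.2 ⟨Q.le i hm, by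
      rw [Q.pL_K hm, sub_zero]; exact zero_mem _⟩, Sum.elim u 0, fun p => by
        cases p with
        | inl k => exact hu k
        | inr k => simp; linarith, funext fun p => by cases p <;> simp [l1]⟩
  have h2 : Q.nd.F (i + 1) ≤ W.comap l2 := Gon.IsRat.le_of_forall (St.ratS_F hR (i + 1))
    fun u hu hm => Submodule.subset_span ⟨Q.pair_mem_Gam.2 ⟨zero_mem _, by
      rw [map_zero, sub_zero]; exact hm⟩, Sum.elim 0 u, fun p => by
        cases p with
        | inl k => simp; linarith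
        | inr k => exact hu k, funext fun p => by cases p <;> simp [l2]⟩
  have h3 : ∀ b, Q.w b = i → l1 (Q.v b) + l2 (Q.pL i (Q.v b)) ∈ W := by
    intro b hb
    obtain ⟨u, hu, e⟩ := hv b
    have e1 : l1 (Q.v b) + l2 (Q.pL i (Q.v b)) = pair (Q.v b) (Q.pL i (Q.v b)) :=
      pd_ext (by simp [l1, l2]) (by simp [l1, l2])
    rw [e1]
    refine Submodule.subset_span ⟨Q.pair_mem_Gam.2 ⟨hb ▸ Q.v_mem b, by simp⟩,
      Sum.elim u (Pi.single b 1), fun p => ?_, funext fun p => ?_⟩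
    · cases p with
      | inl k => exact hu k
      | inr k =>
        by_cases h : k = b
        · simpa [h] using hR
        · simp [h]; linarith
    · cases p with
      | inl k => simp [e]
      | inr k =>
        rw [pair_inr, pL_apply, ← hb, Q.p_v]
        by_cases h : k = b <;> simp [h]
  set x := fst N Q.nd ℝ z
  have h4 : ∑ b, Q.p i x b • (l1 (Q.v b) + l2 (Q.pL i (Q.v b))) ∈ W :=
    Submodule.sum_mem _ fun b _ => by
      by_cases hb : Q.w b = i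
      · exact Submodule.smul_mem _ _ (h3 b hb)
      · simp [Q.p_ne i x b hb]
  have h5 : Q.pL i (∑ b, Q.p i x b • Q.v b) = Q.pL i x := Q.p_sum (Q.p_ne i x)
  have e : z = l1 (x - ∑ b, Q.p i x b • Q.v b) + l2 (snd N Q.nd ℝ z - Q.pL i x) +
      ∑ b, Q.p i x b • (l1 (Q.v b) + l2 (Q.pL i (Q.v b))) := by
    simp only [smul_add, sum_add_distrib, ← map_smul, ← map_sum, h5]
    rw [add_add_add_comm, ← map_add, ← map_add, sub_add_cancel, sub_add_cancel]
    exact pd_ext (by simp [l1, l2, x]) (by simp [l1, l2])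
  rw [e]
  exact add_mem (add_mem (h1 (Q.dec i x hz.1)) (h2 hz.2)) h4

theorem fn_eq {s : ℕ} {η : ι → ℤ} (hη : ∀ x ∈ K s, N.fn η x = 0) {η' : κ → ℤ}
    (h : ∀ b, (η' b : ℝ) = if Q.w b = s then N.fn η (Q.v b) else 0) {z : (pd N Q.nd).L}
    (hz : z ∈ Q.Gam s) : Q.nd.fn η' (snd N Q.nd ℝ z) = N.fn η (fst N Q.nd ℝ z) := by
  have h0 : ∀ k, Q.nd.wt k ≠ s → η' k = 0 := fun k hk => by
    have := h k
    rw [if_neg (show ¬ Q.w k = s from hk)] at this
    exact_mod_cast this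
  have h1 := fn_eq_zero h0 hz.2
  have h2 := hη _ (Q.dec s _ hz.1)
  rw [map_sub, sub_eq_zero] at h1 h2
  rw [h1, h2, map_sum, fn_apply]
  refine sum_congr rfl fun b _ => ?_
  rw [h, map_smul, pL_apply]
  split_ifs with hb
  · rw [smul_eq_mul, mul_comm]
  · simp [Q.p_ne s _ b hb]

end SQ

theorem exists_basis_mod {N : ND ι} {H K : ℕ → Submodule ℝ N.L} {S d : ℕ} {R : ℝ}
    (hS : ∀ k, N.wt k ≤ S) (hH : N.GrSub H) (hK : N.GrSub K) (hle : ∀ i, K i ≤ H i) (hR : 1 ≤ R)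
    (hd : Fintype.card ι ≤ d) (rH : ∀ i, N.RatS R (H i)) (rK : ∀ i, N.RatS R (K i)) :
    ∃ (n : ℕ) (w : Fin n → ℕ) (z : Fin n → ι → ℤ) (Cm : Matrix (Fin n) ι ℤ) (q : ℕ),
      n ≤ Fintype.card ι ∧ (∀ b, 1 ≤ w b ∧ w b ≤ S) ∧ (∀ b k, |(z b k : ℝ)| ≤ R) ∧
      (∀ b, N.ofInt (z b) ∈ H (w b)) ∧ 1 ≤ q ∧ (q : ℝ) ≤ Gon.bl d R ∧
      (∀ a k, |(Cm a k : ℝ)| ≤ Gon.bl d R) ∧
      (∀ a b, Gon.lin Cm (N.ofInt (z b)) a = if a = b then (q : ℝ) else 0) ∧
      (∀ i, ∀ x ∈ H i, (q : ℝ) • x -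
        ∑ b, (if w b = i then Gon.lin Cm x b else 0) • N.ofInt (z b) ∈ K i) ∧
      ∀ i, ∀ x ∈ K i, ∀ b, w b = i → Gon.lin Cm x b = 0 := by
  classical
  let V : ℕ → Submodule ℝ N.L := fun j => if j % 2 = 1 then H ((j + 1) / 2) else K (j / 2)
  have V1 : ∀ i j, j + 1 = 2 * i → V j = H i := fun i j h => by
    simp only [V]
    rw [if_pos (by omega), show (j + 1) / 2 = i by omega]
  have V2 : ∀ i j, j = 2 * i → V j = K i := fun i j h => by
    simp only [V]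
    rw [if_neg (by omega), show j / 2 = i by omega]
  obtain ⟨r, wt, Z, C, q, h1, h2, h3, h4, h5, h6, h7, -, h9, -, h11⟩ :=
    Gon.exists_adapted' (ι := ι) V (2 * S) hR hd (fun j _ _ => by
      rcases Nat.even_or_odd' j with ⟨i, h | h⟩
      · rw [V1 (i + 1) (j + 1) (by omega), V2 i j h]
        exact (hH.le _).trans (hK.ge i)
      · rw [V2 (i + 1) (j + 1) (by omega), V1 (i + 1) j (by omega)]
        exact hle _) (fun j _ _ => by
      simp only [V]
      split_ifs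
      exacts [rH _, rK _])
  let e := (Fintype.equivFin {a : Fin r // wt a % 2 = 1}).symm
  have hw : ∀ b, wt (e b).1 + 1 = 2 * ((wt (e b).1 + 1) / 2) := fun b => by
    have := (e b).2
    omega
  have hCZ : ∀ a a', Gon.lin C (N.ofInt fun k => Z k a') a = if a = a' then (q : ℝ) else 0 := by
    intro a a'
    have := congrFun (h9 (Pi.single a' 1)) a
    rw [Gon.lin_single] at this
    refine this.trans ?_
    by_cases h : a = a' <;> simp [h]
  have hH1 : ∀ i, 1 ≤ i → H i ≤ V 1 := fun i hi => by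
    rw [V1 1 1 rfl]; exact hH.anti hi
  have hzm : ∀ b, (N.ofInt fun k => Z k (e b).1) ∈ H ((wt (e b).1 + 1) / 2) := fun b => by
    rw [← V1 _ _ (hw b)]; exact h4 _
  have hwb : ∀ b, 1 ≤ (wt (e b).1 + 1) / 2 ∧ (wt (e b).1 + 1) / 2 ≤ S := fun b => by
    have := h2 (e b).1
    have := (e b).2
    omega
  refine ⟨_, fun b => (wt (e b).1 + 1) / 2, fun b k => Z k (e b).1, fun b k => C (e b).1 k, q,
    (Fintype.card_subtype_le _).trans (by simpa using h1), hwb, fun b k => h3 _ _, hzm, h5, h6,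
    fun a k => h7 _ _, fun a b => ?_, fun i x hx => ?_, fun i x hx b hb => ?_⟩
  · refine (hCZ (e a).1 (e b).1).trans ?_
    simp [Subtype.val_inj]
  · rcases Nat.eq_zero_or_pos i with rfl | hi
    · exact hK.zero _
    by_cases hiS : S < i
    · have hx0 : x = 0 := eq_zero_of_mem_FA hS (FA_anti hiS (hH.le i hx))
      subst hx0
      have : Gon.lin (fun b k => C (e b).1 k : Matrix _ ι ℤ) (0 : N.L) = 0 := map_zero _
      simp [this]
    have hxV := hH1 i hi hx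
    rw [← V2 i (2 * i) rfl]
    refine (h11 (2 * i) (by omega) (by omega) _ (sub_mem (Submodule.smul_mem _ _ hxV)
      (Submodule.sum_mem _ fun b _ => Submodule.smul_mem _ _
        (hH1 _ (hwb b).1 (hzm b))))).2 fun a ha => ?_
    let L : N.L →ₗ[ℝ] (Fin r → ℝ) := Gon.lin C
    change L _ a = 0
    have hL : ∀ a', L (N.ofInt fun k => Z k a') a = if a = a' then (q : ℝ) else 0 := hCZ a
    have hL2 : ∀ b, Gon.lin (fun b k => C (e b).1 k : Matrix _ ι ℤ) x b = L x (e b).1 :=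
      fun _ => rfl
    simp only [map_sub, map_smul, map_sum, Pi.sub_apply, Pi.smul_apply, Finset.sum_apply, hL, hL2,
      smul_eq_mul]
    by_cases h : wt a + 1 = 2 * i
    · have ho : wt a % 2 = 1 := by omega
      rw [sum_eq_single (e.symm ⟨a, ho⟩)]
      · simp only [Equiv.apply_symm_apply]
        rw [if_pos (by omega), if_pos trivial]; ring
      · intro b _ hb
        rw [if_neg (c := a = (e b).1), mul_zero]
        rintro rfl
        exact hb (by simp)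
      · simp
    · have h0 : L x a = 0 := (h11 (2 * i - 1) (by omega) (by omega) x hxV).1
        (by rw [V1 i _ (by omega)]; exact hx) a (by omega)
      rw [h0, mul_zero, zero_sub, neg_eq_zero]
      refine sum_eq_zero fun b _ => ?_
      by_cases hb : a = (e b).1
      · rw [if_neg, zero_mul]
        have := hw b
        rw [← hb] at this ⊢
        omega
      · simp [hb]
  · have h0 := hwb b
    have h1 := hw b
    simp only at hb
    exact (h11 (2 * i) (by omega) (by omega) x (hH1 i (by omega) (hle i hx))).1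
      (by rw [V2 i _ rfl]; exact hx) _ (by omega)

/-- explicit form: the subquotient datum exists, with `v b = μ • z b`, `μ • q • p` integral -/
theorem exists_SQ {N : ND ι} {H K : ℕ → Submodule ℝ N.L} {S d : ℕ} {R : ℝ}
    (hN : N.Good S R) (hH : N.GrSub H) (hK : N.GrSub K) (hle : ∀ i, K i ≤ H i)
    (hid : ∀ i j, ∀ x ∈ H i, ∀ y ∈ K j, ⁅x, y⁆ ∈ K (i + j)) (hR : 1 ≤ R)
    (hd : Fintype.card ι ≤ d) (rH : ∀ i, N.RatS R (H i)) (rK : ∀ i, N.RatS R (K i)) :
    ∃ (n : ℕ) (Q : SQ N H K (Fin n)) (u : ℕ), n ≤ Fintype.card ι ∧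
      Q.nd.Good S (Bch.dn S * (d * Gon.bl d R * (d ^ 2 * R ^ 3))) ∧
      (∀ b, ∃ z : ι → ℤ, (∀ k, |(z k : ℝ)| ≤ Bch.dn S * Gon.bl d R * R) ∧ Q.v b = N.ofInt z) ∧
      1 ≤ u ∧ (u : ℝ) ≤ Bch.dn S * Gon.bl d R ^ 2 ∧
      ∀ i : ℕ, N.IntMap Q.nd (Gon.bl d R) ((u : ℝ) • Q.pL i) := by
  classical
  obtain ⟨n, w, z, Cm, q, h1, h2, h3, h4, h5, h6, h7, h8, h9, h10⟩ :=
    exists_basis_mod hN.wt_le hH hK hle hR hd rH rK
  have hq : (q : ℝ) ≠ 0 := by positivity
  have hD : (0 : ℝ) < Bch.dn S := by exact_mod_cast Bch.dn_pos S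
  have hbl := Gon.one_le_bl d hR
  let L : N.L →ₗ[ℝ] (Fin n → ℝ) := Gon.lin Cm
  let p : ℕ → N.L →ₗ[ℝ] (Fin n → ℝ) := fun i =>
    ((q : ℝ) * (Bch.dn S * q))⁻¹ • (Gon.prj fun b => w b = i) ∘ₗ L
  have hp : ∀ i x b, p i x b = ((q : ℝ) * (Bch.dn S * q))⁻¹ * if w b = i then L x b else 0 := by
    intro i x b
    change _ * Gon.prj (fun b => w b = i) (L x) b = _
    split_ifs with h
    · rw [Gon.prj_pos (p := fun b => w b = i) _ h]
    · rw [Gon.prj_neg (p := fun b => w b = i) _ h]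
  let br : Fin n → Fin n → ι → ℤ := fun a b k => ∑ i, ∑ j, N.c i j k * z a i * z b j
  have hbr : ∀ a b, ⁅N.ofInt (z a), N.ofInt (z b)⁆ = N.ofInt (br a b) := fun a b =>
    pts_ext fun k => by simp [lie_apply, br]
  have hLi : ∀ (y : ι → ℤ) k, L (N.ofInt y) k = (Cm.mulVec y k : ℤ) := fun y k =>
    congrFun (Gon.lin_cst Cm y) k
  let c0 : Fin n → Fin n → Fin n → ℤ := fun a b k =>
    if w k = w a + w b then Cm.mulVec (br a b) k else 0
  let Q : SQ N H K (Fin n) :=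
    { hH := hH, hK := hK, le := hle, ideal := hid, w := w
      v := fun b => ((Bch.dn S : ℝ) * q) • N.ofInt (z b)
      p := p
      w_pos := fun b => (h2 b).1
      v_mem := fun b => Submodule.smul_mem _ _ (h4 b)
      p_ne := fun i x b hb => by rw [hp, if_neg hb, mul_zero]
      p_v := fun b => funext fun a => by
        rw [hp, map_smul, Pi.smul_apply, show L (N.ofInt (z b)) a = _ from h8 a b]
        by_cases h : a = b
        · subst h
          simp only [if_true, smul_eq_mul, Pi.single_eq_same]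
          field_simp
        · simp [h]
      dec := fun i x hx => by
        have := Submodule.smul_mem _ (q : ℝ)⁻¹ (h9 i x hx)
        rw [smul_sub, smul_smul, inv_mul_cancel₀ hq, one_smul, smul_sum] at this
        convert this using 3 with b
        rw [hp, smul_smul, smul_smul]
        congr 1
        change _ = _ * if w b = i then L x b else 0
        field_simp
      p_K := fun i x hx => funext fun b => by
        rw [hp]
        split_ifs with h
        · rw [show L x b = 0 from h10 i x hx b h, mul_zero]; rfl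
        · rw [mul_zero]; rfl
      c := fun a b k => Bch.dn S * c0 a b k
      c_eq := fun a b k => by
        rw [hp, smul_lie, lie_smul, map_smul, map_smul, hbr, Pi.smul_apply, Pi.smul_apply, hLi]
        simp only [c0, smul_eq_mul]
        split_ifs
        · push_cast; field_simp
        · simp }
  have hd0 : (0 : ℝ) ≤ d := Nat.cast_nonneg d
  have hd' : (Fintype.card ι : ℝ) ≤ d := by exact_mod_cast hd
  have hb : ∀ a b k, |(br a b k : ℝ)| ≤ d ^ 2 * R ^ 3 := by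
    intro a b k
    have hn : ∀ a, ‖N.ofInt (z a)‖ ≤ R := fun a => (norm_le_iff (by linarith)).2 (h3 a)
    have := (abs_apply_le _ k).trans (St.norm_lie_le hN.c_le (by linarith) (N.ofInt (z a))
      (N.ofInt (z b)))
    rw [hbr, ofInt_apply] at this
    refine this.trans ?_
    calc _ ≤ (d : ℝ) ^ 2 * R * R * R := by
          have := hn a
          have := hn b
          gcongr
      _ = _ := by ring
  refine ⟨n, Q, q * (Bch.dn S * q), h1, ⟨fun b => (h2 b).2, fun a b k => ?_, fun x y hx hy => ?_⟩,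
    fun b => ⟨fun k => Bch.dn S * q * z b k, fun k => ?_, pts_ext fun k => by simp [Q]⟩,
    ?_, ?_, fun i k b => ?_⟩
  · change |((Bch.dn S * c0 a b k : ℤ) : ℝ)| ≤ _
    rw [Int.cast_mul, abs_mul, Int.cast_natCast, abs_of_pos hD]
    refine mul_le_mul_of_nonneg_left ?_ hD.le
    simp only [c0]
    split_ifs
    · rw [← hLi]
      refine (norm_le_pi_norm (L (N.ofInt (br a b))) k).trans
        ((Gon.norm_lin_le Cm (by linarith) h7 hd _).trans ?_)
      refine mul_le_mul_of_nonneg_left ?_ (by positivity)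
      exact (pi_norm_le_iff_of_nonneg (by positivity)).2 (hb a b)
    · simp only [Int.cast_zero, abs_zero]; positivity
  · let Λ : AddSubgroup Q.nd.L :=
      { carrier := {x | IsInt x}
        add_mem' := fun {a b} ha hb k => by
          obtain ⟨u, hu⟩ := ha k
          obtain ⟨u', hu'⟩ := hb k
          exact ⟨u + u', by simp [hu, hu']⟩
        zero_mem' := fun k => ⟨0, by simp⟩
        neg_mem' := fun {a} ha k => by
          obtain ⟨u, hu⟩ := ha k
          exact ⟨-u, by simp [hu]⟩ }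
    refine Bch.star_mem_lattice S Λ (fun a ha b hb => ?_) hx hy
    choose a' ha' using ha
    choose b' hb' using hb
    refine ⟨Q.nd.ofInt fun k => ∑ i, ∑ j, c0 i j k * a' i * b' j, isInt_ofInt _,
      pts_ext fun k => ?_⟩
    rw [lie_apply]
    simp only [ha', hb', ND.smul_apply, ofInt_apply, smul_eq_mul, Int.cast_sum, Int.cast_mul,
      mul_sum]
    refine sum_congr rfl fun i _ => sum_congr rfl fun j _ => ?_
    change ((Bch.dn S * c0 i j k : ℤ) : ℝ) * _ * _ = _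
    push_cast; ring
  · push_cast
    rw [abs_mul, abs_mul, abs_of_pos hD, Nat.abs_cast]
    have := h3 b k
    gcongr
  · exact Nat.mul_pos h5 (Nat.mul_pos (Bch.dn_pos S) h5)
  · push_cast
    calc (q : ℝ) * (Bch.dn S * q) = Bch.dn S * q ^ 2 := by ring
      _ ≤ _ := by gcongr
  · refine ⟨if w b = i then Cm b k else 0, ?_, ?_⟩
    · change ((q * (Bch.dn S * q) : ℕ) : ℝ) * p i (N.e k) b = _
      have : L (N.e k) b = Cm b k := by
        change ∑ j, (Cm b j : ℝ) * N.e k j = _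
        simp [e_apply]
      rw [hp, this]
      push_cast
      split_ifs
      · field_simp
      · simp
    · split_ifs
      · exact h7 _ _
      · simp only [Int.cast_zero, abs_zero]; linarith

/-- the subquotient datum (statement of helper89) -/
def SUBQ (S : ℕ) : Prop :=
  ∃ C : ℕ, ∀ (m : ℝ), 2 ≤ m → ∀ (ι : Type) [Fintype ι] (N : ND ι) (H K : ℕ → Submodule ℝ N.L),
    (Fintype.card ι : ℝ) ≤ m → N.Good S (Real.exp m) → N.GrSub H → N.GrSub K → (∀ i, K i ≤ H i) →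
    (∀ i j, ∀ x ∈ H i, ∀ y ∈ K j, ⁅x, y⁆ ∈ K (i + j)) →
    (∀ i, N.RatS (Real.exp m) (H i)) → (∀ i, N.RatS (Real.exp m) (K i)) →
    ∃ (d : ℕ) (Nb : ND (Fin d)) (Gam : ℕ → Submodule ℝ (pd N Nb).L),
      d ≤ Fintype.card ι ∧ Nb.Good S (Real.exp (m ^ C)) ∧ Graded Nb ∧ (pd N Nb).GrSub Gam ∧
      (∀ i, (pd N Nb).RatS (Real.exp (m ^ C)) (Gam i)) ∧
      (∀ i, ∀ x ∈ H i, ∃ y, pair x y ∈ Gam i) ∧ (∀ i, ∀ y ∈ Nb.F i, ∃ x, pair x y ∈ Gam i) ∧
      (∀ i, ∀ z ∈ Gam i, fst N Nb ℝ z ∈ H i ∧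
        (fst N Nb ℝ z ∈ K i ↔ snd N Nb ℝ z ∈ Nb.F (i + 1))) ∧
      ∀ (s : ℕ) (η : ι → ℤ), (∀ k, N.wt k ≠ s → η k = 0) → (∀ k, |(η k : ℝ)| ≤ Real.exp m) →
        (∀ x ∈ K s, N.fn η x = 0) →
        ∃ ηb : Fin d → ℤ, (∀ k, Nb.wt k ≠ s → ηb k = 0) ∧
          (∀ k, |(ηb k : ℝ)| ≤ Real.exp (m ^ C)) ∧
          ∀ z ∈ Gam s, Nb.fn ηb (snd N Nb ℝ z) = N.fn η (fst N Nb ℝ z)

theorem subq (S : ℕ) : SUBQ S := by
  obtain ⟨C, hC⟩ : ∃ C : ℕ, ∀ (m R : ℝ) (d : ℕ), 2 ≤ m → (d : ℝ) ≤ m → 0 ≤ R → R ≤ Real.exp m →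
      (Bch.dn S : ℝ) * (d * ((d + 1) * R) ^ (d + 2) * (d ^ 2 * R ^ 3)) ≤ Real.exp (m ^ C) ∧
      (Bch.dn S : ℝ) * ((d + 1) * R) ^ (d + 2) * R ≤ Real.exp (m ^ C) ∧
      d * (R * ((Bch.dn S : ℝ) * ((d + 1) * R) ^ (d + 2) * R)) ≤ Real.exp (m ^ C) ∧
      R ≤ Real.exp (m ^ C) := by qp
  refine ⟨C, fun m hm ι _ N H K hd hN hH hK hle hid rH rK => ?_⟩
  have hR : 1 ≤ Real.exp m := Real.one_le_exp (by linarith)
  obtain ⟨c1, c2, c3, c4⟩ := hC m (Real.exp m) _ hm hd (by linarith) le_rfl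
  obtain ⟨n, Q, u, h1, h2, h3, -⟩ := exists_SQ hN hH hK hle hid hR le_rfl rH rK
  refine ⟨n, Q.nd, Q.Gam, h1, h2.mono c1, Q.graded, Q.grSub_Gam,
    Q.ratS_Gam (hR.trans c4) (fun i => (rK i).mono c4) fun b => ?_,
    fun i x hx => ⟨Q.pL i x, Q.pair_mem_Gam.2 ⟨hx, by simp⟩⟩, fun i y hy => Q.exists_lift hy,
    fun i z hz => ⟨hz.1, Q.fst_mem_K_iff hz⟩, fun s η _ hη hK0 => ?_⟩
  · obtain ⟨z, hz, e⟩ := h3 b
    exact ⟨z, fun k => (hz k).trans c2, e⟩
  · choose z hz e using h3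
    refine ⟨fun b => if Q.w b = s then ∑ k, η k * z b k else 0, fun k hk => if_neg hk,
      fun b => ?_, fun x hx => Q.fn_eq hK0 (fun b => ?_) hx⟩
    · dsimp only
      split_ifs
      · refine le_trans ?_ c3
        push_cast
        refine (abs_sum_le_sum_abs _ _).trans ?_
        rw [← nsmul_eq_mul, ← card_univ]
        refine sum_le_card_nsmul _ _ _ fun k _ => ?_
        rw [abs_mul]
        exact mul_le_mul (hη k) (hz b k) (abs_nonneg _) (by linarith)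
      · simpa using (Real.exp_pos _).le
    · split_ifs
      · simp [e, fn_apply]
      · simp

end Crest.Agent.T49.Dim
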