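import Crest.Agent.T49.GowSym_71
import Crest.Agent.T49.RatDef_50

/-!
# Row 49 (helper89): Bessel references, first moment over translates, Markov for pairs
-/

set_option autoImplicit false

noncomputable section

namespace Crest.Agent.T49.Zo

open Finset
open scoped ComplexConjugate Classical

section Markov

variable {I : Type*}

/-- a weighted average of a bounded function is carried by its large values -/
theorem markov (T : Finset I) (w K : I → ℝ) (hw : ∀ i ∈ T, 0 ≤ w i) {B c : ℝ} (hB : 0 < B)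
    (hK : ∀ i ∈ T, K i ≤ B) (hc : 0 ≤ c) (h : 2 * c * B * ∑ i ∈ T, w i ≤ ∑ i ∈ T, w i * K i) :
    c * ∑ i ∈ T, w i ≤ ∑ i ∈ T with c * B ≤ K i, w i := by
  have h1 : ∑ i ∈ T, w i * K i ≤
      ∑ i ∈ T, (c * B * w i + B * if c * B ≤ K i then w i else 0) := by
    refine sum_le_sum fun i hi => ?_
    have := hw i hi
    split_ifs with h'
    · have : w i * K i ≤ w i * B := mul_le_mul_of_nonneg_left (hK i hi) this
      have : 0 ≤ c * B * w i := by positivity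
      linarith
    · have : w i * K i ≤ w i * (c * B) := mul_le_mul_of_nonneg_left (not_le.1 h').le this
      linarith
  rw [sum_add_distrib, ← mul_sum, ← mul_sum, ← sum_filter] at h1
  refine le_of_mul_le_mul_left ?_ hB
  linarith

end Markov

section Bessel

variable {β I 𝔄 : Type*}

theorem exists_unit (z : ℂ) : ∃ c : ℂ, ‖c‖ ≤ 1 ∧ c * z = ‖z‖ := by
  by_cases hz : z = 0
  · exact ⟨0, by simp, by simp [hz]⟩
  · have h0 : (‖z‖ : ℂ) ≠ 0 := by simpa using hz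
    refine ⟨conj z / ‖z‖, by simp [div_self (norm_ne_zero_iff.2 hz)], ?_⟩
    rw [div_mul_eq_mul_div, Complex.conj_mul', div_eq_iff h0, sq]

/-- the dual large sieve inequality -/
theorem bessel_sum (B : Finset β) (T : Finset I) (w : I → ℝ) (hw : ∀ i ∈ T, 0 ≤ w i) (φ : β → ℂ)
    (hφ : ∀ b ∈ B, ‖φ b‖ ≤ 1) (g : I → β → ℂ) :
    (∑ i ∈ T, w i * ‖∑ b ∈ B, φ b * g i b‖) ^ 2 ≤
      #B * ∑ j ∈ T, w j * ∑ i ∈ T, w i * ‖∑ b ∈ B, g i b * conj (g j b)‖ := by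
  choose c hc1 hc using fun i => exists_unit (∑ b ∈ B, φ b * g i b)
  set G : β → ℂ := fun b => ∑ i ∈ T, (w i * c i) * g i b with hG
  have h1 : ∑ i ∈ T, w i * ‖∑ b ∈ B, φ b * g i b‖ ≤ ∑ b ∈ B, ‖G b‖ := by
    have e : ((∑ i ∈ T, w i * ‖∑ b ∈ B, φ b * g i b‖ : ℝ) : ℂ) = ∑ b ∈ B, φ b * G b := by
      simp only [hG, mul_sum]
      rw [sum_comm]
      push_cast
      refine sum_congr rfl fun i _ => ?_
      rw [← hc i, mul_sum, mul_sum]
      exact sum_congr rfl fun b _ => by ring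
    calc _ ≤ ‖((∑ i ∈ T, w i * ‖∑ b ∈ B, φ b * g i b‖ : ℝ) : ℂ)‖ := by
          rw [Complex.norm_real]; exact le_abs_self _
      _ ≤ ∑ b ∈ B, ‖φ b * G b‖ := by rw [e]; exact norm_sum_le _ _
      _ ≤ _ := sum_le_sum fun b hb => by
          rw [norm_mul]; exact mul_le_of_le_one_left (norm_nonneg _) (hφ b hb)
  have h2 : ∑ b ∈ B, ‖G b‖ ^ 2 ≤
      ∑ j ∈ T, w j * ∑ i ∈ T, w i * ‖∑ b ∈ B, g i b * conj (g j b)‖ := by
    have e : ((∑ b ∈ B, ‖G b‖ ^ 2 : ℝ) : ℂ) = ∑ j ∈ T, ∑ i ∈ T,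
        (conj (w j * c j) * (w i * c i)) * ∑ b ∈ B, g i b * conj (g j b) := by
      push_cast
      have : ∀ b, (‖G b‖ : ℂ) ^ 2 = ∑ j ∈ T, ∑ i ∈ T,
          (conj (w j * c j) * (w i * c i)) * (g i b * conj (g j b)) := fun b => by
        rw [← Complex.conj_mul', hG]
        simp only [map_sum, sum_mul_sum]
        exact sum_congr rfl fun j _ => sum_congr rfl fun i _ => by rw [map_mul]; ring
      simp only [this, mul_sum]
      rw [sum_comm]
      exact sum_congr rfl fun j _ => sum_comm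
    calc _ ≤ ‖((∑ b ∈ B, ‖G b‖ ^ 2 : ℝ) : ℂ)‖ := by
          rw [Complex.norm_real]; exact le_abs_self _
      _ ≤ _ := by
          rw [e]
          refine (norm_sum_le _ _).trans (sum_le_sum fun j hj => ?_)
          rw [mul_sum]
          refine (norm_sum_le _ _).trans (sum_le_sum fun i hi => ?_)
          rw [norm_mul, ← mul_assoc (w j)]
          refine mul_le_mul_of_nonneg_right ?_ (norm_nonneg _)
          rw [norm_mul, Complex.norm_conj, norm_mul (w j : ℂ), norm_mul (w i : ℂ), Complex.norm_real,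
            Complex.norm_real, Real.norm_of_nonneg (hw j hj), Real.norm_of_nonneg (hw i hi)]
          exact mul_le_mul (mul_le_of_le_one_right (hw j hj) (hc1 j))
            (mul_le_of_le_one_right (hw i hi) (hc1 i))
            (mul_nonneg (hw i hi) (norm_nonneg (c i))) (hw j hj)
  calc _ ≤ (∑ b ∈ B, ‖G b‖) ^ 2 :=
        pow_le_pow_left₀ (sum_nonneg fun i hi => mul_nonneg (hw i hi) (norm_nonneg _)) h1 2
    _ ≤ #B * ∑ b ∈ B, ‖G b‖ ^ 2 := sq_sum_le_card_mul_sum_sq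
    _ ≤ _ := mul_le_mul_of_nonneg_left h2 (Nat.cast_nonneg _)

/-- **Bessel reference**: functions that correlate with one function correlate with one of them -/
theorem bessel (B : Finset β) (hB : B.Nonempty) (T : Finset I) (hT : T.Nonempty) (w : I → ℝ)
    (hw : ∀ i ∈ T, 0 ≤ w i) (φ : β → ℂ) (hφ : ∀ b ∈ B, ‖φ b‖ ≤ 1) (g : I → β → ℂ)
    (hg : ∀ i ∈ T, ∀ b ∈ B, ‖g i b‖ ≤ 1) {δ : ℝ} (h0 : 0 ≤ δ)
    (h : ∀ i ∈ T, δ * #B ≤ ‖∑ b ∈ B, φ b * g i b‖) :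
    ∃ j ∈ T, δ ^ 2 / 2 * ∑ i ∈ T, w i ≤
      ∑ i ∈ T with δ ^ 2 / 2 * #B ≤ ‖∑ b ∈ B, g i b * conj (g j b)‖, w i := by
  have hB0 : (0 : ℝ) < #B := by exact_mod_cast hB.card_pos
  have hW : 0 ≤ ∑ i ∈ T, w i := sum_nonneg hw
  rcases hW.eq_or_lt with hW | hW
  · obtain ⟨j, hj⟩ := hT
    exact ⟨j, hj, by rw [← hW, mul_zero]; exact sum_nonneg fun i hi => hw i (mem_filter.1 hi).1⟩
  have h1 := bessel_sum B T w hw φ hφ g
  have h2 : δ * #B * ∑ i ∈ T, w i ≤ ∑ i ∈ T, w i * ‖∑ b ∈ B, φ b * g i b‖ := by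
    rw [mul_sum]
    exact sum_le_sum fun i hi => by rw [mul_comm]; exact mul_le_mul_of_nonneg_left (h i hi) (hw i hi)
  have h3 := (pow_le_pow_left₀ (by positivity) h2 2).trans h1
  have h4 : ∑ j ∈ T, w j * (δ ^ 2 * #B * ∑ i ∈ T, w i) ≤
      ∑ j ∈ T, w j * ∑ i ∈ T, w i * ‖∑ b ∈ B, g i b * conj (g j b)‖ := by
    rw [← sum_mul]
    refine le_of_mul_le_mul_left (le_trans (le_of_eq (by ring)) h3) hB0
  obtain ⟨j, hj, h5⟩ : ∃ j ∈ T, δ ^ 2 * #B * ∑ i ∈ T, w i ≤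
      ∑ i ∈ T, w i * ‖∑ b ∈ B, g i b * conj (g j b)‖ := by
    by_contra hcon
    push Not at hcon
    obtain ⟨j, hj, hj0⟩ : ∃ j ∈ T, 0 < w j := by
      by_contra h6
      push Not at h6
      exact absurd (sum_nonpos h6) (not_le.2 hW)
    exact absurd h4 (not_le.2 (sum_lt_sum
      (fun i hi => mul_le_mul_of_nonneg_left (hcon i hi).le (hw i hi))
      ⟨j, hj, mul_lt_mul_of_pos_left (hcon j hj) hj0⟩))
  refine ⟨j, hj, markov T w _ hw hB0 (fun i hi => ?_) (by positivity) (by linarith)⟩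
  refine (norm_sum_le _ _).trans ?_
  rw [card_eq_sum_ones]
  push_cast
  refine sum_le_sum fun b hb => ?_
  rw [norm_mul, Complex.norm_conj]
  exact mul_le_one₀ (hg i hi b hb) (norm_nonneg _) (hg j hj b hb)

/-- Bessel references, one for every label -/
theorem bessel_fam (B : Finset β) (hB : B.Nonempty) (T : Finset I) (hT : T.Nonempty) (w : I → ℝ)
    (hw : ∀ i ∈ T, 0 ≤ w i) (fl : I → 𝔄) (φ : 𝔄 → β → ℂ) (hφ : ∀ i ∈ T, ∀ b ∈ B, ‖φ (fl i) b‖ ≤ 1)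
    (g : I → β → ℂ) (hg : ∀ i ∈ T, ∀ b ∈ B, ‖g i b‖ ≤ 1) {δ : ℝ} (h0 : 0 ≤ δ)
    (h : ∀ i ∈ T, δ * #B ≤ ‖∑ b ∈ B, φ (fl i) b * g i b‖) :
    ∃ (ref : 𝔄 → I) (T' : Finset I), T' ⊆ T ∧ δ ^ 2 / 2 * ∑ i ∈ T, w i ≤ ∑ i ∈ T', w i ∧
      ∀ i ∈ T', ref (fl i) ∈ T ∧
        δ ^ 2 / 2 * #B ≤ ‖∑ b ∈ B, g i b * conj (g (ref (fl i)) b)‖ := by
  have key : ∀ A : 𝔄, ∃ j ∈ T, δ ^ 2 / 2 * ∑ i ∈ T with fl i = A, w i ≤
      ∑ i ∈ T.filter (fun i => fl i = A) with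
        δ ^ 2 / 2 * #B ≤ ‖∑ b ∈ B, g i b * conj (g j b)‖, w i := fun A => by
    rcases (T.filter fun i => fl i = A).eq_empty_or_nonempty with hA | hA
    · obtain ⟨j, hj⟩ := hT
      exact ⟨j, hj, by simp [hA]⟩
    · obtain ⟨i₀, hi₀⟩ := id hA
      obtain ⟨j, hj, h1⟩ := bessel B hB _ hA w (fun i hi => hw i (mem_filter.1 hi).1) (φ A)
        (fun b hb => (mem_filter.1 hi₀).2 ▸ hφ i₀ (mem_filter.1 hi₀).1 b hb) g
        (fun i hi => hg i (mem_filter.1 hi).1) h0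
        (fun i hi => (mem_filter.1 hi).2 ▸ h i (mem_filter.1 hi).1)
      exact ⟨j, (mem_filter.1 hj).1, h1⟩
  choose ref hr1 hr2 using key
  refine ⟨ref, T.filter fun i => δ ^ 2 / 2 * #B ≤ ‖∑ b ∈ B, g i b * conj (g (ref (fl i)) b)‖,
    filter_subset _ _, ?_, fun i hi => ⟨hr1 _, (mem_filter.1 hi).2⟩⟩
  rw [← sum_fiberwise_of_maps_to (s := T) (t := T.image fl) (g := fl)
      (fun i hi => mem_image_of_mem _ hi),
    ← sum_fiberwise_of_maps_to (s := T.filter _) (t := T.image fl) (g := fl)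
      (fun i hi => mem_image_of_mem _ (mem_filter.1 hi).1), mul_sum]
  refine sum_le_sum fun A _ => (hr2 A).trans (le_of_eq (sum_congr ?_ fun _ _ => rfl))
  ext i
  simp only [mem_filter]
  constructor
  · rintro ⟨⟨h1, rfl⟩, h2⟩; exact ⟨⟨h1, h2⟩, rfl⟩
  · rintro ⟨⟨h1, h2⟩, rfl⟩; exact ⟨⟨h1, rfl⟩, h2⟩

end Bessel

section First

variable {G α : Type*} [AddCommGroup G]

/-- **first moment**: bias on a set gives bias on many translates of a small pattern -/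
theorem many_translates (B : Finset G) {Φ : G → ℂ} (hΦ : ∀ x, ‖Φ x‖ ≤ 1) (P : Finset α)
    (hP : P.Nonempty) (v : α → G) {δ : ℝ} (h0 : 0 ≤ δ) (hδ : δ * #B ≤ ‖∑ x ∈ B, Φ x‖)
    (hκ : ∀ a ∈ P, (#{x ∈ B | x + v a ∉ B} : ℝ) ≤ δ / 4 * #B) :
    δ / 4 * #B ≤ #{x ∈ B | δ / 4 * #P ≤ ‖∑ a ∈ P, Φ (x + v a)‖} := by
  have hP0 : (0 : ℝ) < #P := by exact_mod_cast hP.card_pos
  have h1 : ∀ a ∈ P, ‖∑ x ∈ B, Φ x - ∑ x ∈ B, Φ (x + v a)‖ ≤ δ / 2 * #B := fun a ha => by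
    have := Box.norm_sum_shift_sub B hΦ (v a)
    have h2 := hκ a ha
    refine le_trans ?_ (by linarith : 2 * (#{x ∈ B | x + v a ∉ B} : ℝ) ≤ _)
    convert this
  have h2 : δ / 2 * #B * #P ≤ ‖∑ x ∈ B, ∑ a ∈ P, Φ (x + v a)‖ := by
    rw [sum_comm]
    have h3 : ‖(#P : ℂ) * ∑ x ∈ B, Φ x - ∑ a ∈ P, ∑ x ∈ B, Φ (x + v a)‖ ≤ #P * (δ / 2 * #B) := by
      rw [← nsmul_eq_mul, ← sum_const, ← sum_sub_distrib, ← nsmul_eq_mul, ← sum_const]
      exact (norm_sum_le _ _).trans (sum_le_sum h1)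
    have h4 := norm_sub_norm_le ((#P : ℂ) * ∑ x ∈ B, Φ x) (∑ a ∈ P, ∑ x ∈ B, Φ (x + v a))
    rw [norm_mul, Complex.norm_natCast] at h4
    nlinarith
  have := markov B (fun _ => 1) (fun x => ‖∑ a ∈ P, Φ (x + v a)‖) (fun _ _ => zero_le_one) hP0
    (fun x _ => (norm_sum_le _ _).trans (by
      rw [card_eq_sum_ones]; push_cast; exact sum_le_sum fun a _ => hΦ _))
    (c := δ / 4) (by positivity) (by
      simp only [sum_const, nsmul_eq_mul, mul_one, one_mul]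
      exact le_trans (le_of_eq (by ring)) (h2.trans (norm_sum_le _ _)))
  simpa using this

variable {σ : Type*} [Fintype σ] [DecidableEq σ]

theorem card_box (L : ℕ) : #(Rat.box σ L) = (2 * L + 1) ^ Fintype.card σ := by
  rw [Rat.box, Fintype.card_piFinset, prod_const, card_univ, Int.card_Icc]
  congr 1
  omega

theorem mem_box {L : ℕ} {x : σ → ℤ} : x ∈ Rat.box σ L ↔ ∀ v, |x v| ≤ L := by
  simp [Rat.box, abs_le]

theorem box_nonempty (L : ℕ) : (Rat.box σ L).Nonempty := ⟨0, mem_box.2 fun _ => by simp⟩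

theorem card_box_shift (L R : ℕ) (v : σ → ℤ) (hv : ∀ i, |v i| ≤ R) :
    (#{x ∈ Rat.box σ L | x + v ∉ Rat.box σ L} : ℝ) ≤
      Fintype.card σ * R / (2 * L + 1) * #(Rat.box σ L) := by
  have e : Rat.box σ L =
      Fintype.piFinset fun _ : σ => Ico (-(L : ℤ)) (-(L : ℤ) + (2 * L + 1 : ℕ)) := by
    rw [Rat.box]
    congr 1
    funext i
    ext z
    simp only [mem_Icc, mem_Ico]
    omega
  have := Box.card_shift_notMem (fun _ : σ => -(L : ℤ)) (2 * L + 1) R (by omega) v hv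
  rw [e]
  convert this using 3
  push_cast
  rfl

end First

section Pairs

variable {I J : Type*}

/-- from a heavy set of pairs to a heavy set of first coordinates with dense fibres -/
theorem heavy_fibres (A : Finset I) (B : Finset J) (hB : B.Nonempty) (w : I → ℝ)
    (hw : ∀ i ∈ A, 0 ≤ w i) (T : Finset (I × J)) (hT : T ⊆ A ×ˢ B) {c : ℝ} (hc : 0 ≤ c)
    (h : 2 * c * #B * ∑ i ∈ A, w i ≤ ∑ z ∈ T, w z.1) :
    c * ∑ i ∈ A, w i ≤ ∑ i ∈ A with c * #B ≤ #{j ∈ B | (i, j) ∈ T}, w i := by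
  refine markov A w (fun i => #{j ∈ B | (i, j) ∈ T}) hw (by exact_mod_cast hB.card_pos)
    (fun i _ => by exact_mod_cast card_filter_le _ _) hc (h.trans (le_of_eq ?_))
  have e : ∑ z ∈ T, w z.1 = ∑ z ∈ A ×ˢ B with z ∈ T, w z.1 := by
    rw [filter_mem_eq_inter, inter_eq_right.2 hT]
  rw [e, sum_filter, sum_product]
  refine sum_congr rfl fun i _ => ?_
  rw [← sum_filter]
  simp only [sum_const, nsmul_eq_mul, mul_comm]

/-- the mass of a set of pairs with dense fibres -/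
theorem mass_pairs (A : Finset I) (B : Finset J) (w : J → ℝ) (hw : ∀ j ∈ B, 0 ≤ w j)
    (p : I → J → Prop) {c : ℝ} (h : ∀ j ∈ B, c ≤ #{i ∈ A | p i j}) :
    c * ∑ j ∈ B, w j ≤ ∑ z ∈ A ×ˢ B with p z.1 z.2, w z.2 := by
  rw [sum_filter, sum_product_right, mul_sum]
  refine sum_le_sum fun j hj => ?_
  rw [← sum_filter]
  simp only [sum_const, nsmul_eq_mul]
  exact mul_le_mul_of_nonneg_right (h j hj) (hw j hj)

end Pairs

end Crest.Agent.T49.Zo
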