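import Crest.Agent.T49.ZoSz_89
import Crest.Agent.T49.ZoBes_89
import Crest.Agent.T49.LT_65
import Crest.Agent.T49.NilCnt_14
import Crest.Agent.T49.Subq_33

/-!
# Row 49 (helper89): Z0 — nilcharacters on a family of frames agree on common flats

A family of frames `W` carries nilcharacters `F W (P W ·)` (one datum, one frequency) that correlate
with functions `f W`; the restriction of `f W` to the affine flat `(a, E)` only depends on a label.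
Then, after passing to a subquotient `Nb` of the datum, the restriction of the polynomial map to
the flat only depends on the label (modulo smooth and rational maps), for many `(W, a, E)`.
-/

set_option autoImplicit false

noncomputable section

namespace Crest.Agent.T49.Zo

open Finset Crest.Agent.T49.Nil Crest.Agent.T49.Nil.ND Crest.Agent.T49.GI
open Crest.Agent.T49.Bch (star)
open scoped ComplexConjugate Classical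

variable {ι ι₁ ι₂ ι₃ : Type} [Fintype ι] [Fintype ι₁] [Fintype ι₂] [Fintype ι₃] {σ κ : Type}
  {N : ND ι} {N₁ : ND ι₁} {N₂ : ND ι₂} {N₃ : ND ι₃}

/-! ### transposed and composed relations -/

/-- the flip -/
def flp (N₁ : ND ι₁) (N₂ : ND ι₂) : (pd N₁ N₂).L →ₗ⁅ℝ⁆ (pd N₂ N₁).L :=
  toPd (snd N₁ N₂ ℝ) (fst N₁ N₂ ℝ)

theorem fHom_flp : FHom 1 (flp N₁ N₂).toLinearMap := FHom.toPd fHom_snd fHom_fst

/-- the transposed relation -/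
def swp (R : ℕ → Submodule ℝ (pd N₁ N₂).L) (i : ℕ) : Submodule ℝ (pd N₂ N₁).L :=
  (R i).comap (flp N₂ N₁).toLinearMap

theorem pair_mem_swp {R : ℕ → Submodule ℝ (pd N₁ N₂).L} {i : ℕ} {x : N₁.L} {y : N₂.L} :
    pair y x ∈ swp R i ↔ pair x y ∈ R i := Iff.rfl

theorem grSub_swp {R : ℕ → Submodule ℝ (pd N₁ N₂).L} (h : (pd N₁ N₂).GrSub R) :
    (pd N₂ N₁).GrSub (swp R) where
  le i z hz := by
    have := mem_pd_FA.1 (h.le i hz)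
    exact mem_pd_FA.2 ⟨this.2, this.1⟩
  ge i z hz := h.ge i (fHom_flp.filt _ _ hz)
  lie i j x hx y hy := by
    change flp N₂ N₁ ⁅x, y⁆ ∈ R (i + j)
    rw [LieHom.map_lie]
    exact h.lie i j _ hx _ hy

theorem ratS_swp {R : ℕ → Submodule ℝ (pd N₁ N₂).L} {H : ℝ} (hH : 0 ≤ H) {i : ℕ}
    (h : (pd N₁ N₂).RatS H (R i)) : (pd N₂ N₁).RatS H (swp R i) := by
  have e : swp R i = (R i).map (flp N₁ N₂).toLinearMap := by
    ext z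
    constructor
    · exact fun hz => ⟨_, hz, pd_ext rfl rfl⟩
    · rintro ⟨w, hw, rfl⟩
      change flp N₂ N₁ (flp N₁ N₂ w) ∈ R i
      rwa [show flp N₂ N₁ (flp N₁ N₂ w) = w from pd_ext rfl rfl]
  rw [e]
  simpa using fHom_flp.ratS_map zero_le_one hH h

theorem Rel.swp {S : ℕ} {T M : ℝ} {R : ℕ → Submodule ℝ (pd N₁ N₂).L} {P : N₁.PS σ} {Q : N₂.PS σ}
    (hT : 0 ≤ T) (h : Rel S T M R P Q) : Rel S T M (swp R) Q P :=
  h.swap hT fun _ _ _ h => h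

/-- the composed relation -/
def cmp (R : ℕ → Submodule ℝ (pd N₁ N₂).L) (R' : ℕ → Submodule ℝ (pd N₂ N₃).L) (i : ℕ) :
    Submodule ℝ (pd N₁ N₃).L where
  carrier := {z | ∃ y, pair (fst N₁ N₃ ℝ z) y ∈ R i ∧ pair y (snd N₁ N₃ ℝ z) ∈ R' i}
  add_mem' := by
    rintro a b ⟨y, h1, h2⟩ ⟨y', h3, h4⟩
    exact ⟨y + y', by rw [map_add, pair_add]; exact add_mem h1 h3,
      by rw [map_add, pair_add]; exact add_mem h2 h4⟩
  zero_mem' := ⟨0, by rw [map_zero, pair_zero]; exact zero_mem _,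
    by rw [map_zero, pair_zero]; exact zero_mem _⟩
  smul_mem' := by
    rintro r a ⟨y, h1, h2⟩
    exact ⟨r • y, by rw [map_smul, pair_smul]; exact Submodule.smul_mem _ _ h1,
      by rw [map_smul, pair_smul]; exact Submodule.smul_mem _ _ h2⟩

theorem pair_mem_cmp {R : ℕ → Submodule ℝ (pd N₁ N₂).L} {R' : ℕ → Submodule ℝ (pd N₂ N₃).L} {i : ℕ}
    {x : N₁.L} {z : N₃.L} : pair x z ∈ cmp R R' i ↔ ∃ y, pair x y ∈ R i ∧ pair y z ∈ R' i :=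
  Iff.rfl

theorem grSub_cmp {R : ℕ → Submodule ℝ (pd N₁ N₂).L} {R' : ℕ → Submodule ℝ (pd N₂ N₃).L}
    (h : (pd N₁ N₂).GrSub R) (h' : (pd N₂ N₃).GrSub R') : (pd N₁ N₃).GrSub (cmp R R') where
  le i := by
    rintro z ⟨y, h1, h2⟩
    exact mem_pd_FA.2 ⟨(mem_pd_FA.1 (h.le i h1)).1, (mem_pd_FA.1 (h'.le i h2)).2⟩
  ge i z hz := ⟨0, h.ge i (pair_mem_FA (mem_pd_FA.1 hz).1 (zero_mem _)),
    h'.ge i (pair_mem_FA (zero_mem _) (mem_pd_FA.1 hz).2)⟩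
  lie i j := by
    rintro x ⟨y, h1, h2⟩ x' ⟨y', h3, h4⟩
    exact ⟨⁅y, y'⁆, by rw [LieHom.map_lie, ← lie_pair]; exact h.lie i j _ h1 _ h3,
      by rw [LieHom.map_lie, ← lie_pair]; exact h'.lie i j _ h2 _ h4⟩

theorem ratS_cmp (S : ℕ) : ∃ C : ℕ, ∀ m : ℝ, 2 ≤ m → ∀ (ι₁ ι₂ ι₃ : Type) [Fintype ι₁]
    [Fintype ι₂] [Fintype ι₃] (N₁ : ND ι₁) (N₂ : ND ι₂) (N₃ : ND ι₃)
    (R : ℕ → Submodule ℝ (pd N₁ N₂).L) (R' : ℕ → Submodule ℝ (pd N₂ N₃).L),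
    Sz N₁ S m → Sz N₂ S m → Sz N₃ S m → (pd N₁ N₂).GrSub R → (pd N₂ N₃).GrSub R' →
    (∀ i, (pd N₁ N₂).RatS (Real.exp m) (R i)) → (∀ i, (pd N₂ N₃).RatS (Real.exp m) (R' i)) →
    ∀ i, (pd N₁ N₃).RatS (Real.exp (m ^ C)) (cmp R R' i) := by
  obtain ⟨C₁, hC₁⟩ := St.pull1 S
  obtain ⟨C₂, hC₂⟩ := St.int S
  obtain ⟨C, hC⟩ : ∃ C : ℕ, ∀ m : ℝ, 2 ≤ m → ((3 * m) ^ C₁ + 3 * m) ^ C₂ ≤ m ^ C := by qp
  refine ⟨C, fun m hm ι₁ ι₂ ι₃ _ _ _ N₁ N₂ N₃ R R' s₁ s₂ s₃ gR gR' rR rR' i => ?_⟩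
  have hm3 : (2 : ℝ) ≤ 3 * m := by linarith
  have e3 : Real.exp m ≤ Real.exp (3 * m) := Real.exp_le_exp.2 (by linarith)
  have s12 : Sz (pd N₁ N₂) S (3 * m) := s₁.pd s₂ (by linarith)
  have s23 : Sz (pd N₂ N₃) S (3 * m) := s₂.pd s₃ (by linarith)
  have s123 : Sz (pd (pd N₁ N₂) N₃) S (3 * m) := (s₁.pd s₂ le_rfl).pd s₃ (by linarith)
  have one3 : (1 : ℝ) ≤ Real.exp (3 * m) := Real.one_le_exp (by linarith)
  set φ₁ := fst (pd N₁ N₂) N₃ ℝ with hφ₁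
  set φ₂ : (pd (pd N₁ N₂) N₃).L →ₗ⁅ℝ⁆ (pd N₂ N₃).L :=
    toPd ((snd N₁ N₂ ℝ).comp (fst (pd N₁ N₂) N₃ ℝ)) (snd (pd N₁ N₂) N₃ ℝ) with hφ₂
  set φ₃ : (pd (pd N₁ N₂) N₃).L →ₗ⁅ℝ⁆ (pd N₁ N₃).L :=
    toPd ((fst N₁ N₂ ℝ).comp (fst (pd N₁ N₂) N₃ ℝ)) (snd (pd N₁ N₂) N₃ ℝ) with hφ₃
  have f₁ : FHom 1 φ₁.toLinearMap := fHom_fst
  have f₂ : FHom 1 φ₂.toLinearMap := FHom.toPd
    (by simpa using FHom.comp (fHom_snd (g := N₁) (g' := N₂)) f₁ zero_le_one) fHom_snd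
  have f₃ : FHom 1 φ₃.toLinearMap := FHom.toPd
    (by simpa using FHom.comp (fHom_fst (g := N₁) (g' := N₂)) f₁ zero_le_one) fHom_snd
  obtain ⟨g₁, r₁, -⟩ := hC₁ (3 * m) hm3 _ _ _ _ φ₁ R s123.card s12.card s123.wt s12.wt s123.c s12.c
    ((f₁.mono one3).intMap (by linarith)) f₁.filt gR fun i => (rR i).mono e3
  obtain ⟨g₂, r₂, -⟩ := hC₁ (3 * m) hm3 _ _ _ _ φ₂ R' s123.card s23.card s123.wt s23.wt s123.c
    s23.c ((f₂.mono one3).intMap (by linarith)) f₂.filt gR' fun i => (rR' i).mono e3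
  set m' : ℝ := (3 * m) ^ C₁ + 3 * m with hm'
  have p0 : 0 ≤ (3 * m) ^ C₁ := by positivity
  have e4 : Real.exp ((3 * m) ^ C₁) ≤ Real.exp m' := Real.exp_le_exp.2 (by linarith)
  have s' : Sz (pd (pd N₁ N₂) N₃) S m' := s123.mono (by linarith)
  obtain ⟨-, r₃, -⟩ := hC₂ m' (by linarith) _ Bool (pd (pd N₁ N₂) N₃)
    (fun b => cond b (fun i => (pd (pd N₁ N₂) N₃).F i ⊓ (R i).comap φ₁.toLinearMap)
      fun i => (pd (pd N₁ N₂) N₃).F i ⊓ (R' i).comap φ₂.toLinearMap) s'.card s'.wt s'.c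
    (fun b => by cases b; exacts [g₂, g₁])
    (fun b i => by cases b; exacts [(r₂ i).mono e4, (r₁ i).mono e4])
  have := f₃.ratS_map zero_le_one (Real.exp_pos _).le (r₃ i)
  rw [one_mul] at this
  refine RatS.mono ?_ (Real.exp_le_exp.2 (hC m hm))
  convert this using 1
  ext z
  constructor
  · rintro ⟨y, h1, h2⟩
    have hF : pair (pair (fst N₁ N₃ ℝ z) y) (snd N₁ N₃ ℝ z) ∈ (pd (pd N₁ N₂) N₃).F i :=
      pair_mem_FA (gR.le i h1) (mem_pd_FA.1 (gR'.le i h2)).2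
    refine ⟨pair (pair (fst N₁ N₃ ℝ z) y) (snd N₁ N₃ ℝ z),
      ⟨hF, (Submodule.mem_iInf _).2 fun b => ?_⟩, pd_ext rfl rfl⟩
    cases b
    exacts [⟨hF, h2⟩, ⟨hF, h1⟩]
  · rintro ⟨w, hw, rfl⟩
    have h2 := (Submodule.mem_iInf _).1 hw.2
    refine ⟨snd N₁ N₂ ℝ (fst _ _ ℝ w), ?_, (h2 false).2⟩
    have h3 : φ₁ w ∈ R i := (h2 true).2
    rwa [← pair_fst_snd (φ₁ w)] at h3

/-! ### the quotient datum -/

/-- `Nb` is a graded subquotient of `N` with graph `Γ`; `η` descends to `ηb` -/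
structure QD (N : ND ι) {d : ℕ} (Nb : ND (Fin d)) (S s : ℕ) (M : ℝ) (η : ι → ℤ) (ηb : Fin d → ℤ)
    (Γ : ℕ → Submodule ℝ (pd N Nb).L) : Prop where
  card : d ≤ Fintype.card ι
  good : Nb.Good S M
  graded : Graded Nb
  gr : (pd N Nb).GrSub Γ
  rat : ∀ i, (pd N Nb).RatS M (Γ i)
  onto : ∀ i, ∀ y ∈ Nb.F i, ∃ x, pair x y ∈ Γ i
  fnl : ∀ i y, pair 0 y ∈ Γ i → y ∈ Nb.F (i + 1)
  supp : ∀ k, Nb.wt k ≠ s → ηb k = 0
  η_le : ∀ k, |(ηb k : ℝ)| ≤ M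
  fn : ∀ x y, pair x y ∈ Γ s → Nb.fn ηb y = N.fn η x

theorem QD.mono {d : ℕ} {Nb : ND (Fin d)} {S s : ℕ} {M M' : ℝ} {η : ι → ℤ} {ηb : Fin d → ℤ}
    {Γ : ℕ → Submodule ℝ (pd N Nb).L} (h : QD N Nb S s M η ηb Γ) (hM : M ≤ M') :
    QD N Nb S s M' η ηb Γ :=
  ⟨h.card, h.good.mono hM, h.graded, h.gr, fun i => (h.rat i).mono hM, h.onto, h.fnl, h.supp,
    fun k => (h.η_le k).trans hM, h.fn⟩

/-- **Goursat**: the quotient of the first projection of `H` by the kernel of the second one -/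
theorem exists_qd (S : ℕ) : ∃ C : ℕ, ∀ m : ℝ, 2 ≤ m → ∀ (ι ι' : Type) [Fintype ι] [Fintype ι']
    (N : ND ι) (N' : ND ι') (H : ℕ → Submodule ℝ (pd N N').L) (s : ℕ) (η : ι → ℤ),
    (Fintype.card ι : ℝ) ≤ m → N.Good S (Real.exp m) → Sz N' S m → (pd N N').GrSub H →
    (∀ i, (pd N N').RatS (Real.exp m) (H i)) → (∀ k, N.wt k ≠ s → η k = 0) →
    (∀ k, |(η k : ℝ)| ≤ Real.exp m) → (∀ x, pair x 0 ∈ H s → N.fn η x = 0) →
    ∃ (d : ℕ) (Nb : ND (Fin d)) (Γ : ℕ → Submodule ℝ (pd N Nb).L) (ηb : Fin d → ℤ)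
      (H₁ : ℕ → Submodule ℝ N.L), QD N Nb S s (Real.exp (m ^ C)) η ηb Γ ∧ N.GrSub H₁ ∧
      (∀ i, N.RatS (Real.exp m) (H₁ i)) ∧ (∀ i, ∀ z ∈ H i, fst N N' ℝ z ∈ H₁ i) ∧
      (∀ i, ∀ x ∈ H₁ i, ∃ y, pair x y ∈ Γ i) ∧
      (∀ i x y, pair x y ∈ Γ i → (pair x 0 ∈ H i ↔ y ∈ Nb.F (i + 1))) := by
  obtain ⟨C₁, hC₁⟩ := St.pull1 S
  obtain ⟨C₂, hC₂⟩ := Dim.subq S
  obtain ⟨C, hC⟩ : ∃ C : ℕ, ∀ m : ℝ, 2 ≤ m → ((2 * m) ^ C₁ + m) ^ C₂ ≤ m ^ C := by qp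
  refine ⟨C, fun m hm ι ι' _ _ N N' H s η hd hN hN' hH hR hη1 hη2 hη3 => ?_⟩
  have sN : Sz N S m := Sz.of_good hN hd
  have e2 : Real.exp m ≤ Real.exp (2 * m) := Real.exp_le_exp.2 (by linarith)
  have s2 : Sz (pd N N') S (2 * m) := sN.pd hN' (by linarith)
  have sN2 : Sz N S (2 * m) := sN.mono (by linarith)
  obtain ⟨gK, rK, -⟩ := hC₁ (2 * m) (by linarith) _ _ N (pd N N') (pinl N N' ℝ) H sN2.card s2.card
    sN2.wt s2.wt sN2.c s2.c ((fHom_pinl.mono (Real.one_le_exp (by linarith))).intMap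
      (Real.exp_pos _).le) fHom_pinl.filt hH fun i => (hR i).mono e2
  set H₁ : ℕ → Submodule ℝ N.L := fun i => (H i).map (fst N N' ℝ).toLinearMap with hH₁
  have gH : N.GrSub H₁ := by
    refine ⟨fun i => ?_, fun i x hx => ⟨pair x 0, hH.ge i (pair_mem_FA hx (zero_mem _)), rfl⟩, ?_⟩
    · rintro _ ⟨z, hz, rfl⟩
      exact (mem_pd_FA.1 (hH.le i hz)).1
    · rintro i j _ ⟨z, hz, rfl⟩ _ ⟨w, hw, rfl⟩
      exact ⟨⁅z, w⁆, hH.lie i j _ hz _ hw, LieHom.map_lie _ _ _⟩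
  have rH : ∀ i, N.RatS (Real.exp m) (H₁ i) := fun i => by
    simpa using fHom_fst.ratS_map zero_le_one (Real.exp_pos _).le (hR i)
  set m' : ℝ := (2 * m) ^ C₁ + m with hm'
  have p0 : 0 ≤ (2 * m) ^ C₁ := by positivity
  have e3 : Real.exp m ≤ Real.exp m' := Real.exp_le_exp.2 (by linarith)
  obtain ⟨d, Nb, Γ, a1, a2, a3, a4, a5, a6, a7, a8, a9⟩ := hC₂ m' (by linarith) ι N H₁ _
    (by linarith) (hN.mono e3) gH gK (fun i x hx => ⟨pair x 0, hx.2, rfl⟩)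
    (by
      rintro i j _ ⟨z, hz, rfl⟩ y hy
      refine ⟨lie_mem_FA (mem_pd_FA.1 (hH.le i hz)).1 hy.1, ?_⟩
      have := hH.lie i j _ hz _ hy.2
      rw [← pair_fst_snd z] at this
      change ⁅_, pair y 0⁆ ∈ _ at this
      rwa [lie_pair, lie_zero] at this)
    (fun i => (rH i).mono e3) fun i => (rK i).mono (Real.exp_le_exp.2 (by linarith))
  obtain ⟨ηb, c1, c2, c3⟩ := a9 s η hη1 (fun k => (hη2 k).trans e3) fun x hx => hη3 x hx.2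
  have e4 : Real.exp (m' ^ C₂) ≤ Real.exp (m ^ C) := Real.exp_le_exp.2 (hC m hm)
  refine ⟨d, Nb, Γ, ηb, H₁, QD.mono ⟨a1, a2, a3, a4, a5, a7,
    fun i y hy => (a8 i _ hy).2.1 (zero_mem _), c1, c2, fun x y h => c3 _ h⟩ e4, gH, rH,
    fun i z hz => ⟨z, hz, rfl⟩, a6, fun i x y h => ?_⟩
  exact ⟨fun h' => (a8 i _ h).2.1 ⟨(mem_pd_FA.1 (a4.le i h)).1, h'⟩, fun h' => ((a8 i _ h).2.2 h').2⟩

end Crest.Agent.T49.Zo
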