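import Crest.Agent.T49.GlDef_99
import Crest.Agent.T49.Zo0_89
import Crest.Agent.T49.LrA_84

/-!
# Row 49 (helper51): DIMRED, global factorisation and Goursat
-/

set_option autoImplicit false

noncomputable section

namespace Crest.Agent.T49.Gl

open MvPolynomial Finset Crest.Agent.T49.Tw Crest.Agent.T49.Nil Crest.Agent.T49.Nil.ND
open Crest.Agent.T49.GI Crest.Agent.T49.Zo
open Crest.Agent.T49.Gf (wcf Orc nrmL)
open Crest.Agent.T49.Bch (star)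

namespace Dim51

/-- composition of relations with a denominator that does not depend on the maps -/
theorem rel_compQ (S : ℕ) : ∃ C : ℕ, ∀ m : ℝ, 2 ≤ m → ∀ (ι₁ ι₂ ι₃ σ : Type) [Fintype ι₁]
    [Fintype ι₂] [Fintype ι₃] (N₁ : ND ι₁) (N₂ : ND ι₂) (N₃ : ND ι₃)
    (R : ℕ → Submodule ℝ (pd N₁ N₂).L) (R' : ℕ → Submodule ℝ (pd N₂ N₃).L)
    (G : ℕ → Submodule ℝ (pd N₁ N₃).L) (q q' : ℕ),
    Sz N₁ S m → Sz N₂ S m → Sz N₃ S m → (pd N₁ N₂).GrSub R → (pd N₂ N₃).GrSub R' →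
    (∀ i, (pd N₁ N₂).RatS (Real.exp m) (R i)) → (∀ i, (pd N₂ N₃).RatS (Real.exp m) (R' i)) →
    (∀ i x y z, pair x y ∈ R i → pair y z ∈ R' i → pair x z ∈ G i) →
    1 ≤ q → (q : ℝ) ≤ Real.exp m → 1 ≤ q' → (q' : ℝ) ≤ Real.exp m →
    ∃ q₃ : ℕ, 1 ≤ q₃ ∧ (q₃ : ℝ) ≤ Real.exp (m ^ C) ∧
      ∀ (T : ℝ) (P : N₁.PS σ) (Q : N₂.PS σ) (P' : N₃.PS σ), Real.exp (m ^ C) ≤ T →
        (pd N₁ N₂).FactQ S T (Real.exp m) q R (pair P Q) →
        (pd N₂ N₃).FactQ S T (Real.exp m) q' R' (pair Q P') →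
        (pd N₁ N₃).FactQ S T (Real.exp (m ^ C)) q₃ G (pair P P') := by
  obtain ⟨C₁, hC₁⟩ := St.pull1 S
  obtain ⟨C₂, hC₂⟩ := St.int S
  obtain ⟨C, hC⟩ : ∃ C : ℕ, ∀ m : ℝ, 2 ≤ m →
      (3 * m) ^ C₁ ≤ m ^ C ∧ (2 * (3 * m) ^ C₁ + 3 * m) ^ C₂ ≤ m ^ C := by qp
  refine ⟨C, fun m hm ι₁ ι₂ ι₃ σ _ _ _ N₁ N₂ N₃ R R' G q q' s₁ s₂ s₃ gR gR' rR rR' hG hq1 hq2 hq1'
    hq2' => ?_⟩
  obtain ⟨b1, b2⟩ := hC m hm
  have hm3 : (2 : ℝ) ≤ 3 * m := by linarith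
  have e3 : Real.exp m ≤ Real.exp (3 * m) := Real.exp_le_exp.2 (by linarith)
  have s12 : Sz (pd N₁ N₂) S (3 * m) := s₁.pd s₂ (by linarith)
  have s23 : Sz (pd N₂ N₃) S (3 * m) := s₂.pd s₃ (by linarith)
  have s123 : Sz (pd (pd N₁ N₂) N₃) S (3 * m) := (s₁.pd s₂ le_rfl).pd s₃ (by linarith)
  have one3 : (1 : ℝ) ≤ Real.exp (3 * m) := Real.one_le_exp (by linarith)
  set φ₁ := fst (pd N₁ N₂) N₃ ℝ with hφ₁
  set φ₂ : (pd (pd N₁ N₂) N₃).L →ₗ⁅ℝ⁆ (pd N₂ N₃).L :=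
    toPd ((snd N₁ N₂ ℝ).comp (fst (pd N₁ N₂) N₃ ℝ)) (snd (pd N₁ N₂) N₃ ℝ) with hφ₂
  set φ₃ : (pd (pd N₁ N₂) N₃).L →ₗ⁅ℝ⁆ (pd N₁ N₃).L :=
    toPd ((fst N₁ N₂ ℝ).comp (fst (pd N₁ N₂) N₃ ℝ)) (snd (pd N₁ N₂) N₃ ℝ) with hφ₃
  have f₁ : FHom 1 φ₁.toLinearMap := fHom_fst
  have f₂ : FHom 1 φ₂.toLinearMap := FHom.toPd
    (by simpa using FHom.comp (fHom_snd (g := N₁) (g' := N₂)) f₁ zero_le_one) fHom_snd
  have f₃ : FHom 1 φ₃.toLinearMap := FHom.toPd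
    (by simpa using FHom.comp (fHom_fst (g := N₁) (g' := N₂)) f₁ zero_le_one) fHom_snd
  obtain ⟨g₁, r₁, p₁⟩ := hC₁ (3 * m) hm3 _ _ _ _ φ₁ R s123.card s12.card s123.wt s12.wt s123.c s12.c
    ((f₁.mono one3).intMap (by linarith)) f₁.filt gR fun i => (rR i).mono e3
  obtain ⟨g₂, r₂, p₂⟩ := hC₁ (3 * m) hm3 _ _ _ _ φ₂ R' s123.card s23.card s123.wt s23.wt s123.c s23.c
    ((f₂.mono one3).intMap (by linarith)) f₂.filt gR' fun i => (rR' i).mono e3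
  obtain ⟨q₁, a1, a2, -, a4⟩ := p₁ q hq1 (hq2.trans e3)
  obtain ⟨q₂, c1, c2, -, c4⟩ := p₂ q' hq1' (hq2'.trans e3)
  set m' : ℝ := 2 * (3 * m) ^ C₁ + 3 * m with hm'
  have p0 : 0 ≤ (3 * m) ^ C₁ := by positivity
  have e4 : Real.exp ((3 * m) ^ C₁) ≤ Real.exp m' := Real.exp_le_exp.2 (by linarith)
  have s' : Sz (pd (pd N₁ N₂) N₃) S m' := s123.mono (by linarith)
  obtain ⟨-, -, p₃⟩ := hC₂ m' (by linarith) _ Bool (pd (pd N₁ N₂) N₃)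
    (fun b => cond b (fun i => (pd (pd N₁ N₂) N₃).F i ⊓ (R i).comap φ₁.toLinearMap)
      fun i => (pd (pd N₁ N₂) N₃).F i ⊓ (R' i).comap φ₂.toLinearMap) s'.card s'.wt s'.c
    (fun b => by cases b; exacts [g₂, g₁])
    (fun b i => by cases b; exacts [(r₂ i).mono e4, (r₁ i).mono e4])
  obtain ⟨q₃, d1, d2, -, d4⟩ := p₃ (q₁ * q₂) (Nat.mul_pos a1 c1) (by
    push_cast
    calc (q₁ : ℝ) * q₂ ≤ Real.exp ((3 * m) ^ C₁) * Real.exp ((3 * m) ^ C₁) :=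
          mul_le_mul a2 c2 (Nat.cast_nonneg _) (Real.exp_pos _).le
      _ ≤ _ := by rw [← Real.exp_add]; exact Real.exp_le_exp.2 (by linarith))
  have e5 : Real.exp (m' ^ C₂) ≤ Real.exp (m ^ C) := Real.exp_le_exp.2 b2
  refine ⟨q₃, d1, d2.trans e5, fun T P Q P' hT hq hq' => ?_⟩
  have hT0 : 0 ≤ T := (Real.exp_pos _).le.trans hT
  have hPQ := mem_pd_poly.1 (factQ_poly gR hq)
  have hQP := mem_pd_poly.1 (factQ_poly gR' hq')
  set X : (pd (pd N₁ N₂) N₃).PS σ := pair (pair P Q) P' with hX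
  have hXp : X ∈ (pd (pd N₁ N₂) N₃).poly σ := pair_mem_poly (pair_mem_poly hPQ.1 hPQ.2) hQP.2
  have hT1 : Real.exp ((3 * m) ^ C₁) ≤ T := (Real.exp_le_exp.2 b1).trans hT
  have x₁ := a4 σ T X hT1 hXp (by
    rw [bc_eq_of_cv (Q := pair P Q) _ fun α => rfl]; exact hq.mono e3 dvd_rfl)
  have x₂ := c4 σ T X hT1 hXp (by
    rw [bc_eq_of_cv (Q := pair Q P') _ fun α => pd_ext rfl rfl]; exact hq'.mono e3 dvd_rfl)
  have x₃ := d4 σ T X (e5.trans hT) hXp fun b => by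
    cases b
    · exact x₂.mono e4 (dvd_mul_left _ _)
    · exact x₁.mono e4 (dvd_mul_right _ _)
  have x₄ := f₃.factQ zero_le_one hT0 (H' := G) (fun i z hz => by
    have h2 := (Submodule.mem_iInf _).1 hz.2
    exact hG i (fst N₁ N₂ ℝ (fst _ _ ℝ z)) (snd N₁ N₂ ℝ (fst _ _ ℝ z)) _
      (by rw [pair_fst_snd]; exact (h2 true).2) (h2 false).2) x₃
  rw [bc_eq_of_cv (Q := pair P P') _ fun α => pd_ext rfl rfl, one_mul] at x₄
  exact x₄.mono e5 dvd_rfl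

variable {ι : Type} {D : ℕ}

theorem whc_one (d : ℕ) (p : Pl (Fin D)) :
    weightedHomogeneousComponent (fun _ => 1) d p = homogeneousComponent d p := rfl

theorem rl_degLe {lev : ι → ℕ} (V : Frm D lev) (c : ι) : DegLe (fun _ => 1) (V.rl c) (lev c) :=
  fun m hm => by
    rw [weight_one]
    exact (le_totalDegree (support_map_subset _ _ hm)).trans (V.deg c)

theorem rl_isInt {lev : ι → ℕ} (V : Frm D lev) (c : ι) : Tw.IsInt (V.rl c) := fun m =>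
  ⟨coeff m (V.W c), by rw [Frm.rl, coeff_map]; rfl⟩

theorem tp_hom {lev : ι → ℕ} (V : Frm D lev) (c : ι) :
    IsWeightedHomogeneous (fun _ => 1) (V.tp c) (lev c) :=
  weightedHomogeneousComponent_isWeightedHomogeneous _ _

theorem tp_isInt {lev : ι → ℕ} (V : Frm D lev) (c : ι) : Tw.IsInt (V.tp c) :=
  (rl_isInt V c).whc (fun _ => 1) (lev c)

theorem bind_tp (T : Cell ι) (V : Frm D T.lev) (c : ι) :
    bind₁ V.tp (T.tth c) =
      weightedHomogeneousComponent (fun _ => 1) (T.lev c) (bind₁ V.rl (T.th c)) :=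
  (whc_bind_degLe (rl_degLe V) (T.th_degLe c)).symm

theorem coeff_le_of_q2 {σ L R : ℝ} (hσ : 0 < σ) (hL : 0 ≤ L) (hσL : σ * L ≤ 1) (hR : 1 ≤ R)
    {p : Pl (Fin D)} (h : q2 σ p ≤ R) (α : Fin D →₀ ℕ) : |coeff α p| * L ^ α.degree ≤ R := by
  by_cases hα : α ∈ p.support
  · have h1 : (coeff α p / σ ^ α.degree) ^ 2 ≤ R :=
      (single_le_sum (f := fun α => (coeff α p / σ ^ α.degree) ^ 2) (fun _ _ => sq_nonneg _)
        hα).trans h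
    have h2 : |coeff α p / σ ^ α.degree| ≤ R := abs_le_of_sq_le_sq (by nlinarith) (by linarith)
    rw [abs_div, abs_of_pos (pow_pos hσ _), div_le_iff₀ (pow_pos hσ _)] at h2
    calc _ ≤ R * σ ^ α.degree * L ^ α.degree := by gcongr
      _ = R * (σ * L) ^ α.degree := by rw [mul_pow]; ring
      _ ≤ R * 1 := by gcongr; exact pow_le_one₀ (by positivity) hσL
      _ = R := mul_one R
  · rw [notMem_support_iff.1 hα, abs_zero, zero_mul]; linarith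

variable [Fintype ι]

theorem coeff_th_le (T : Cell ι) {σ L R : ℝ} (hσ : 0 < σ) (hL : 0 ≤ L) (hσL : σ * L ≤ 1)
    (hR : 1 ≤ R) {V : Frm D T.lev} (h : fq T σ V ≤ R) (c : ι) (α : Fin D →₀ ℕ) :
    |coeff α (bind₁ V.rl (T.th c))| * L ^ α.degree ≤ R :=
  coeff_le_of_q2 hσ hL hσL hR ((single_le_sum (f := fun c => q2 σ (bind₁ V.rl (T.th c)))
    (fun _ _ => sum_nonneg fun _ _ => sq_nonneg _) (mem_univ c)).trans h) α

theorem nrmL_le_of_degLe {p : Pl (Fin D)} {d s : ℕ} (hp : DegLe (fun _ => 1) p d) (hd : d ≤ s)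
    {L R : ℝ} (hL : 0 ≤ L) (hR : 0 ≤ R) (h : ∀ α, |coeff α p| * L ^ α.degree ≤ R) :
    nrmL L p ≤ nm D s * R := by
  refine (Gf.nrmL_le hL Subset.rfl fun α _ => h α).trans (mul_le_mul_of_nonneg_right ?_ hR)
  exact_mod_cast card_le_nm (by simp) _ fun β hβ => by
    have := hp β hβ
    rw [weight_one] at this
    omega

theorem nrmL_th (T : Cell ι) {s : ℕ} (hs : ∀ c, T.lev c ≤ s) {σ L R : ℝ} (hσ : 0 < σ) (hL : 0 ≤ L)
    (hσL : σ * L ≤ 1) (hR : 1 ≤ R) {V : Frm D T.lev} (h : fq T σ V ≤ R) (c : ι) :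
    nrmL L (bind₁ V.rl (T.th c)) ≤ nm D s * R :=
  nrmL_le_of_degLe (DegLe.bind (rl_degLe V) (T.th_degLe c)) (hs c) hL (by linarith)
    (coeff_th_le T hσ hL hσL hR h c)

theorem nrmL_tth (T : Cell ι) {s : ℕ} (hs : ∀ c, T.lev c ≤ s) {σ L R : ℝ} (hσ : 0 < σ) (hL : 0 ≤ L)
    (hσL : σ * L ≤ 1) (hR : 1 ≤ R) {V : Frm D T.lev} (h : fq T σ V ≤ R) (c : ι) :
    nrmL L (bind₁ V.tp (T.tth c)) ≤ nm D s * R := by
  classical
  rw [bind_tp]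
  refine nrmL_le_of_degLe (DegLe.of_hom (weightedHomogeneousComponent_isWeightedHomogeneous _ _))
    (hs c) hL (by linarith) fun α => ?_
  rw [coeff_weightedHomogeneousComponent]
  split_ifs
  · exact coeff_th_le T hσ hL hσL hR h c α
  · rw [abs_zero, zero_mul]; linarith

omit [Fintype ι] in
/-- a weighted map into the first projection of a relation has a partner -/
theorem exists_partner {κ₁ κ₂ : Type} [Fintype κ₁] [Fintype κ₂] {N₁ : ND κ₁} {N₂ : ND κ₂}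
    {lev : ι → ℕ} {H : ℕ → Submodule ℝ N₁.L} {R : ℕ → Submodule ℝ (pd N₁ N₂).L}
    (hH : ∀ i, ∀ x ∈ H i, ∃ y, pair x y ∈ R i) {h : N₁.PS ι} (hh : h ∈ wcf lev H) :
    ∃ g : N₂.PS ι, pair h g ∈ wcf lev R := by
  have : ∀ α : ι →₀ ℕ, ∃ y, pair (N₁.cv α h) y ∈ R (Finsupp.weight lev α) ∧
      (N₁.cv α h = 0 → y = 0) := by
    intro α
    by_cases h0 : N₁.cv α h = 0
    · exact ⟨0, by rw [h0, pair_zero]; exact zero_mem _, fun _ => rfl⟩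
    · obtain ⟨y, hy⟩ := hH _ _ (hh α)
      exact ⟨y, hy, fun h => absurd h h0⟩
  choose y hy hy0 using this
  obtain ⟨Q, hQ⟩ := St.exists_ps (N := N₂) y
    ((St.finite_cv h).subset fun α hα h0 => hα (hy0 α h0))
  exact ⟨Q, fun α => by rw [cv_pair, hQ]; exact hy α⟩

end Dim51

open Dim51

/-- **DIMRED** -/
theorem dimredStmt : DimredStmt := by
  intro s D j C0
  obtain ⟨Cq, hCq⟩ := exists_qd s
  obtain ⟨Cc, hCc⟩ := ratS_cmp s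
  obtain ⟨Cg, hCg⟩ := Gf.gfact s C0
  obtain ⟨Cr, hCr⟩ := rel_compQ s
  obtain ⟨C1, hC1⟩ : ∃ C : ℕ, ∀ R : ℝ, 2 ≤ R →
      R ≤ R ^ C ∧ R ^ Cq ≤ R ^ C ∧ (nm D s : ℝ) * R + 1 ≤ Real.exp (R ^ C) := by qp
  obtain ⟨C2, hC2⟩ : ∃ C : ℕ, ∀ (R : ℝ) (d : ℕ), 2 ≤ R → (d : ℝ) ≤ R →
      R ≤ R ^ C ∧ R ^ C1 ≤ R ^ C ∧ (R ^ C1) ^ Cc ≤ R ^ C ∧ (R ^ C1) ^ Cg ≤ R ^ C ∧
      ((s : ℝ) + 1) ^ d * Real.exp ((R ^ C1) ^ Cg) * Real.exp (R ^ C1) ^ s ≤ Real.exp (R ^ C) := by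
    qp
  obtain ⟨C, hC⟩ : ∃ C : ℕ, ∀ R : ℝ, 2 ≤ R →
      (R ^ C2) ^ Cr ≤ R ^ C ∧ (R ^ C1) ^ Cg ≤ R ^ C ∧ R ^ Cq ≤ R ^ C := by qp
  refine ⟨C, fun R ι κ κ' _ _ _ T σ L N N' η Z P G Hh q hR hι hκ hκ' hlev hL hσ hσL hN hN' hη hG gH
    rH hker hq1 hq hO hZ => ?_⟩
  obtain ⟨a1, a2, a3⟩ := hC1 R hR
  obtain ⟨b1, b0, b2, b3, b4⟩ := hC2 R _ hR hι
  obtain ⟨c1, c2, c3⟩ := hC R hR
  have ex : ∀ {x y : ℝ}, x ≤ y → Real.exp x ≤ Real.exp y := fun h => Real.exp_le_exp.2 h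
  have hL0 : (0 : ℝ) ≤ L := Nat.cast_nonneg L
  have hnm : (0 : ℝ) ≤ nm D s * R := by positivity
  have sN : Sz N s R := Sz.of_good hN hκ
  have sN' : Sz N' s R := Sz.of_good hN' hκ'
  obtain ⟨d, Nb, Γ, ηb, H₁, qd, -, -, h1, h2, h3⟩ := hCq R hR κ κ' N N' Hh j 0 hκ hN sN' gH rH
    (fun _ _ => rfl) (fun _ => by simpa using (Real.exp_pos R).le) fun x _ => by simp [fn_apply]
  have sNb : Sz Nb s (R ^ C1) := Sz.of_good (qd.good.mono (ex a2))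
    (by rw [Fintype.card_fin]; exact le_trans (by exact_mod_cast qd.card) (hκ.trans a1))
  have gΓ' := grSub_cmp (grSub_swp gH) qd.gr
  have rΓ' := hCc (R ^ C1) (hR.trans a1) κ' κ (Fin d) N' N Nb (swp Hh) Γ (sN'.mono a1) (sN.mono a1)
    sNb (grSub_swp gH) qd.gr (fun i => (ratS_swp (Real.exp_pos R).le (rH i)).mono (ex a1))
    fun i => (qd.rat i).mono (ex a2)
  set H₂ : ℕ → Submodule ℝ N'.L := fun i => (Hh i).map (snd N N' ℝ).toLinearMap with hH₂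
  have gH₂ : N'.GrSub H₂ := by
    refine ⟨fun i => ?_, fun i x hx => ⟨pair 0 x, gH.ge i (pair_mem_FA (zero_mem _) hx), rfl⟩, ?_⟩
    · rintro _ ⟨z, hz, rfl⟩
      exact (mem_pd_FA.1 (gH.le i hz)).2
    · rintro i j _ ⟨z, hz, rfl⟩ _ ⟨w, hw, rfl⟩
      exact ⟨⁅z, w⁆, gH.lie i j _ hz _ hw, LieHom.map_lie _ _ _⟩
  have rH₂ : ∀ i, N'.RatS (Real.exp R) (H₂ i) := fun i => by
    simpa using fHom_snd.ratS_map zero_le_one (Real.exp_pos _).le (rH i)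
  -- global factorisation
  obtain ⟨q', hq1', hq', hW⟩ := hCg (R ^ C1) (hR.trans a1) κ' ι (Fin D) Z N' T.lev T.tth
    (fun V : Z => V.1.tp) H₂ L q G (hκ'.trans a1) hN'.wt_le (fun i j k => (hN'.c_le i j k).trans (ex a1))
    gH₂ (fun i => (rH₂ i).mono (ex a1)) T.lev_pos T.tth_hom (fun V c => tp_isInt V.1 c)
    (fun V c => DegLe.of_hom (tp_hom V.1 c))
    (fun V c => (nrmL_tth T hlev hσ hL0 hσL (by linarith) (hZ V.1 V.2).1 c).trans (by linarith))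
    ((ex c2).trans hL) (fun u h1 h2 => hO u (a1.trans h1) (h2.trans c2)) hq1 (hq.trans (ex a1)) hG
    fun V => by
      have x1 := fHom_snd.factQ (f := snd N N' ℝ) zero_le_one hL0 (H' := H₂)
        (fun i z hz => ⟨z, hz, rfl⟩) (hZ V.1 V.2).2
      rw [bc_snd, snd_pair, one_mul] at x1
      refine Lr.factQ_congr hN'.wt_le gH₂ (x1.mono (ex a1) dvd_rfl) ?_
      have x2 := Lr.subst_sub_mem (lev' := fun _ => 1) (fun c => DegLe.of_hom (tp_hom V.1 c))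
        (rl_degLe V.1) (fun c => whc_of_hom (tp_hom V.1 c)) grSub_F.anti hG
      rwa [Gf.wcf_one] at x2
  obtain ⟨ε, hε, h, hh, γ, hγ, hεs, hγr, hGe, -⟩ := Lr.fact_th hN'.wt_le gH₂ T
    (M := Real.exp ((R ^ C1) ^ Cg)) (q := q') (X := G) (p := fun _ => True) (by
      obtain ⟨ε, hε, h, hh, γ, hγ, x1, x2, x3⟩ := hW
      exact ⟨ε, hε, h, hh, γ, hγ, x1, x2, x3, trivial⟩)
  obtain ⟨g, hg⟩ := exists_partner (R := cmp (swp Hh) Γ) (by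
    rintro i _ ⟨z, hz, rfl⟩
    obtain ⟨y, hy⟩ := h2 i _ (h1 i z hz)
    exact ⟨y, pair_mem_cmp.2 ⟨_, pair_mem_swp.2 (by rwa [← pair_fst_snd z] at hz), hy⟩⟩) hh
  obtain ⟨q₃, d1, d2, d3⟩ := hCr (R ^ C2) (hR.trans b1) κ κ' (Fin d) (Fin D) N N' Nb Hh
    (cmp (swp Hh) Γ) Γ q q' (sN.mono b1) (sN'.mono b1)
    (sNb.mono b0) gH gΓ' (fun i => (rH i).mono (ex b1)) (fun i => (rΓ' i).mono (ex b2))
    (fun i x y z hxy hyz => by
      obtain ⟨x', e1, e2⟩ := pair_mem_cmp.1 hyz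
      have e3 : pair (x - x') (0 : N'.L) ∈ Hh i := by
        have := sub_mem hxy (pair_mem_swp.1 e1)
        rwa [← pair_sub, sub_self] at this
      obtain ⟨w, hw⟩ := h2 i _ (h1 i _ e3)
      have e4 : pair (0 : N.L) w ∈ Γ i :=
        qd.gr.ge i (pair_mem_FA (zero_mem _) ((h3 i _ _ hw).1 e3))
      have := add_mem (sub_mem hw e4) e2
      rw [← pair_sub, ← pair_add] at this
      simpa using this)
    hq1 (hq.trans (ex b1)) hq1' (hq'.trans (ex b3))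
  refine ⟨d, Nb, g, Γ, q₃, qd.card, qd.good.mono (ex c3),
    fun α => (mem_pd_FA.1 (gΓ'.le _ (hg α))).2, qd.gr, fun i => (qd.rat i).mono (ex c3),
    fun x hx => hker x ((h3 j x 0 hx).2 (zero_mem _)), d1, d2.trans (ex c1), fun V hV => ?_⟩
  refine (d3 L _ (N'.subst V.rl G) _ ((ex c1).trans hL) ((hZ V hV).2.mono (ex b1) dvd_rfl) ?_).mono
    (ex c1) dvd_rfl
  have e1 : N'.subst V.rl (N'.subst T.th ε) ∈ N'.poly (Fin D) :=
    Gf.subst_mem_cf (rl_degLe V) grSub_F.anti (Gf.subst_mem_wcf T.th_degLe grSub_F.anti hε)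
  have e2 : N'.subst V.rl γ ∈ N'.poly (Fin D) := Gf.subst_mem_cf (rl_degLe V) grSub_F.anti hγ
  have e3 := Gf.subst_mem_cf (rl_degLe V) gΓ'.anti hg
  rw [ND.subst, map_pair] at e3
  refine ⟨pair (N'.subst V.rl (N'.subst T.th ε)) 0, pair_mem_poly e1 (zero_mem _), _, e3,
    pair (N'.subst V.rl γ) 0, pair_mem_poly e2 (zero_mem _),
    (sm_pd hL0).2 ⟨?_, St.Sm_zero (Real.exp_pos _).le⟩,
    ratP_pd.2 ⟨Gf.ratP_subst (rl_isInt V) hγr, St.RatP_zero q'⟩, ?_⟩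
  · refine Gf.sm_of_nrmL hL0 (Real.exp_pos _).le fun k => ?_
    rw [fst_pair, Gf.subst_subst, Gf.subst_apply]
    have e4 : DegLe T.lev (ε k) s := fun m hm => by
      by_contra hlt
      exact mem_support_iff.1 hm (hε m k (by have := hN'.wt_le k; omega))
    refine (Gf.nrmL_bind_le T.lev_pos (Real.one_le_exp (by positivity) : 1 ≤ Real.exp (R ^ C1))
      (fun c => (nrmL_th T hlev hσ hL0 hσL (by linarith) (hZ V hV).1 c).trans (by linarith))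
      e4).trans (le_trans (mul_le_mul_of_nonneg_right ?_ (by positivity)) b4)
    refine (nrm_le_card_mul Subset.rfl (K := Real.exp ((R ^ C1) ^ Cg)) fun α _ => ?_).trans
      (mul_le_mul_of_nonneg_right ?_ (Real.exp_pos _).le)
    · have := hεs α
      rw [one_pow, mul_one] at this
      exact (abs_apply_le (N'.cv α ε) k).trans this
    · exact_mod_cast Win.card_support_le hN'.wt_le (Gf.wcf_le_poly T.lev_pos hε) k
  · rw [star_pair, star_pair, Bch.star_zero, Bch.zero_star, hGe, Bch.map_star, Bch.map_star]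
    rfl

end Crest.Agent.T49.Gl
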