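import Mathlib

/-! Row 49 (helper71): Cauchy-Schwarz steps and the group-free complex box inequality. -/

set_option autoImplicit false

open Finset Function
open scoped ComplexConjugate BigOperators

namespace Crest.Agent.T49.Box

/-- conjugate `n` times -/
noncomputable def cj (n : ℕ) (z : ℂ) : ℂ := if Even n then z else conj z

@[simp] lemma cj_zero (z : ℂ) : cj 0 z = z := by simp [cj]

lemma cj_succ (n : ℕ) (z : ℂ) : cj (n + 1) z = cj n (conj z) := by
  unfold cj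
  by_cases h : Even n <;> simp [h, Nat.even_add_one]

lemma cj_succ' (n : ℕ) (z : ℂ) : cj (n + 1) z = conj (cj n z) := by
  unfold cj
  by_cases h : Even n <;> simp [h, Nat.even_add_one]

lemma cj_mul (n : ℕ) (z w : ℂ) : cj n (z * w) = cj n z * cj n w := by
  unfold cj; split_ifs <;> simp

@[simp] lemma cj_one (n : ℕ) : cj n 1 = 1 := by unfold cj; split_ifs <;> simp

@[simp] lemma cj_zero' (n : ℕ) : cj n 0 = 0 := by unfold cj; split_ifs <;> simp

@[simp] lemma norm_cj (n : ℕ) (z : ℂ) : ‖cj n z‖ = ‖z‖ := by unfold cj; split_ifs <;> simp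

@[simp] lemma cj_ofReal (n : ℕ) (r : ℝ) : cj n (r : ℂ) = r := by unfold cj; split_ifs <;> simp

lemma cj_prod {α : Type*} (n : ℕ) (s : Finset α) (f : α → ℂ) :
    cj n (∏ a ∈ s, f a) = ∏ a ∈ s, cj n (f a) := by
  unfold cj; split_ifs <;> simp [map_prod]

lemma cj_sum {α : Type*} (n : ℕ) (s : Finset α) (f : α → ℂ) :
    cj n (∑ a ∈ s, f a) = ∑ a ∈ s, cj n (f a) := by
  unfold cj; split_ifs <;> simp [map_sum]

section CS
variable {α β : Type*}

/-- `|∑ g|²` as a double sum -/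
lemma normSq_sum (B : Finset β) (g : β → ℂ) :
    ((‖∑ y ∈ B, g y‖ ^ 2 : ℝ) : ℂ) = ∑ y ∈ B, ∑ y' ∈ B, g y * conj (g y') := by
  rw [← Finset.sum_mul_sum, ← map_sum, Complex.mul_conj, Complex.normSq_eq_norm_sq]

lemma normSq_sum_re (B : Finset β) (g : β → ℂ) :
    ‖∑ y ∈ B, g y‖ ^ 2 = (∑ y ∈ B, ∑ y' ∈ B, g y * conj (g y')).re := by
  rw [← normSq_sum, Complex.ofReal_re]

/-- complex Cauchy-Schwarz -/
lemma cs (A : Finset α) (b G : α → ℂ) :
    ‖∑ x ∈ A, b x * G x‖ ^ 2 ≤ (∑ x ∈ A, ‖b x‖ ^ 2) * ∑ x ∈ A, ‖G x‖ ^ 2 := by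
  refine le_trans ?_ (Finset.sum_mul_sq_le_sq_mul_sq A (fun x => ‖b x‖) fun x => ‖G x‖)
  refine pow_le_pow_left₀ (norm_nonneg _) ((norm_sum_le _ _).trans (le_of_eq ?_)) 2
  simp only [norm_mul]

/-- weighted Cauchy-Schwarz with a `1`-bounded factor -/
lemma cs_wt (A : Finset α) (w : α → ℝ) (hw : ∀ x ∈ A, 0 ≤ w x) (b G : α → ℂ)
    (hb : ∀ x ∈ A, ‖b x‖ ≤ 1) :
    ‖∑ x ∈ A, (w x : ℂ) * (b x * G x)‖ ^ 2 ≤ (∑ x ∈ A, w x) * ∑ x ∈ A, w x * ‖G x‖ ^ 2 := by
  have h := cs A (fun x => (Real.sqrt (w x) : ℂ) * b x) (fun x => (Real.sqrt (w x) : ℂ) * G x)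
  have e : ∑ x ∈ A, (Real.sqrt (w x) : ℂ) * b x * ((Real.sqrt (w x) : ℂ) * G x)
      = ∑ x ∈ A, (w x : ℂ) * (b x * G x) := sum_congr rfl fun x hx => by
    have : ((Real.sqrt (w x) : ℝ) : ℂ) * (Real.sqrt (w x) : ℂ) = w x := by
      rw [← Complex.ofReal_mul, Real.mul_self_sqrt (hw x hx)]
    rw [← this]; ring
  have n : ∀ x ∈ A, ∀ z : ℂ, ‖(Real.sqrt (w x) : ℂ) * z‖ ^ 2 = w x * ‖z‖ ^ 2 := fun x hx z => by
    rw [norm_mul, mul_pow, Complex.norm_real, Real.norm_eq_abs, sq_abs, Real.sq_sqrt (hw x hx)]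
  rw [e, sum_congr rfl fun x hx => n x hx (b x), sum_congr rfl fun x hx => n x hx (G x)] at h
  refine h.trans (mul_le_mul_of_nonneg_right (sum_le_sum fun x hx => ?_)
    (sum_nonneg fun x hx => mul_nonneg (hw x hx) (sq_nonneg _)))
  exact mul_le_of_le_one_right (hw x hx) (pow_le_one₀ (norm_nonneg _) (hb x hx))

/-- one Cauchy-Schwarz step: the factor `b x` is removed, the inner variable is doubled -/
lemma cs_step (A : Finset α) (B : α → Finset β) (b : α → ℂ) (g : α → β → ℂ) :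
    ‖∑ x ∈ A, b x * ∑ y ∈ B x, g x y‖ ^ 2 ≤ (∑ x ∈ A, ‖b x‖ ^ 2) *
      (∑ x ∈ A, ∑ y ∈ B x, ∑ y' ∈ B x, g x y * conj (g x y')).re := by
  refine (cs A b _).trans (le_of_eq ?_)
  rw [Complex.re_sum]
  simp only [normSq_sum_re]

lemma sum_normSq_le_card (A : Finset α) (b : α → ℂ) (hb : ∀ x ∈ A, ‖b x‖ ≤ 1) :
    ∑ x ∈ A, ‖b x‖ ^ 2 ≤ #A := by
  calc _ ≤ ∑ _x ∈ A, (1 : ℝ) := sum_le_sum fun x hx => pow_le_one₀ (norm_nonneg _) (hb x hx)
    _ = _ := by simp

/-- the same with a `1`-bounded factor -/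
lemma cs_step_one (A : Finset α) (B : α → Finset β) (b : α → ℂ) (g : α → β → ℂ)
    (hb : ∀ x ∈ A, ‖b x‖ ≤ 1) :
    ‖∑ x ∈ A, b x * ∑ y ∈ B x, g x y‖ ^ 2 ≤ #A *
      (∑ x ∈ A, ∑ y ∈ B x, ∑ y' ∈ B x, g x y * conj (g x y')).re := by
  refine (cs_step A B b g).trans (mul_le_mul_of_nonneg_right (sum_normSq_le_card A b hb) ?_)
  rw [Complex.re_sum]
  exact sum_nonneg fun x _ => by rw [← normSq_sum_re]; positivity

/-- sums of absolute values: unimodular coefficients -/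
lemma exists_unit (z : ℂ) : ∃ c : ℂ, ‖c‖ = 1 ∧ c * z = (‖z‖ : ℝ) := by
  by_cases h : z = 0
  · exact ⟨1, by simp, by simp [h]⟩
  · refine ⟨conj z / ‖z‖, ?_, ?_⟩
    · rw [norm_div, Complex.norm_conj, Complex.norm_real, norm_norm, div_self (norm_ne_zero_iff.2 h)]
    · have hz : ((‖z‖ : ℝ) : ℂ) ≠ 0 := by exact_mod_cast norm_ne_zero_iff.2 h
      rw [div_mul_eq_mul_div, div_eq_iff hz, mul_comm, Complex.mul_conj, Complex.normSq_eq_norm_sq]
      push_cast; ring

lemma exists_units (A : Finset α) (z : α → ℂ) :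
    ∃ c : α → ℂ, (∀ x, ‖c x‖ = 1) ∧ ∑ x ∈ A, c x * z x = ((∑ x ∈ A, ‖z x‖ : ℝ) : ℂ) := by
  choose c h1 h2 using fun x => exists_unit (z x)
  exact ⟨c, h1, by simp only [h2]; push_cast; rfl⟩

/-- Cauchy-Schwarz step for a sum of absolute values -/
lemma cs_step_abs (A : Finset α) (B : α → Finset β) (g : α → β → ℂ) :
    (∑ x ∈ A, ‖∑ y ∈ B x, g x y‖) ^ 2 ≤ #A *
      (∑ x ∈ A, ∑ y ∈ B x, ∑ y' ∈ B x, g x y * conj (g x y')).re := by
  obtain ⟨c, h1, h2⟩ := exists_units A fun x => ∑ y ∈ B x, g x y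
  have h := cs_step_one A B c g fun x _ => (h1 x).le
  rwa [h2, Complex.norm_real, Real.norm_eq_abs, sq_abs] at h

/-- the two-variable box inequality -/
lemma box_two (A : Finset α) (B : Finset β) (f : α → ℂ) (g : β → ℂ) (F : α → β → ℂ) :
    ‖∑ x ∈ A, ∑ y ∈ B, f x * g y * F x y‖ ^ 4 ≤ (∑ x ∈ A, ‖f x‖ ^ 2) ^ 2 *
      ((∑ y ∈ B, ‖g y‖ ^ 2) ^ 2 * (∑ x ∈ A, ∑ x' ∈ A, ∑ y ∈ B, ∑ y' ∈ B,
        F x y * conj (F x' y) * conj (F x y') * F x' y').re) := by
  classical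
  have h1 := cs_step A (fun _ => B) f (fun x y => g y * F x y)
  have e1 : ∑ x ∈ A, f x * ∑ y ∈ B, g y * F x y = ∑ x ∈ A, ∑ y ∈ B, f x * g y * F x y := by
    simp only [mul_sum, mul_assoc]
  have e2 : ∑ x ∈ A, ∑ y ∈ B, ∑ y' ∈ B, g y * F x y * conj (g y' * F x y')
      = ∑ p ∈ B ×ˢ B, (g p.1 * conj (g p.2)) * ∑ x ∈ A, F x p.1 * conj (F x p.2) := by
    rw [sum_product, sum_comm]
    refine sum_congr rfl fun y _ => ?_
    rw [sum_comm]
    refine sum_congr rfl fun y' _ => ?_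
    rw [mul_sum]
    exact sum_congr rfl fun x _ => by rw [map_mul]; ring
  rw [e1, e2] at h1
  have h2 := cs_step (B ×ˢ B) (fun _ => A) (fun p => g p.1 * conj (g p.2))
    (fun p x => F x p.1 * conj (F x p.2))
  have e3 : ∑ p ∈ B ×ˢ B, ‖g p.1 * conj (g p.2)‖ ^ 2 = (∑ y ∈ B, ‖g y‖ ^ 2) ^ 2 := by
    rw [sum_product, sq (∑ y ∈ B, ‖g y‖ ^ 2), sum_mul_sum]
    simp only [norm_mul, mul_pow, Complex.norm_conj]
  have e4 : ∑ p ∈ B ×ˢ B, ∑ x ∈ A, ∑ x' ∈ A,
      F x p.1 * conj (F x p.2) * conj (F x' p.1 * conj (F x' p.2))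
      = ∑ x ∈ A, ∑ x' ∈ A, ∑ y ∈ B, ∑ y' ∈ B,
        F x y * conj (F x' y) * conj (F x y') * F x' y' := by
    rw [sum_comm]
    refine sum_congr rfl fun x _ => ?_
    rw [sum_comm]
    refine sum_congr rfl fun x' _ => ?_
    rw [sum_product]
    refine sum_congr rfl fun y _ => sum_congr rfl fun y' _ => ?_
    simp only [map_mul, Complex.conj_conj]; ring
  rw [e3, e4] at h2
  have h3 := h1.trans (mul_le_mul_of_nonneg_left
    ((Complex.re_le_norm _)) (sum_nonneg fun x _ => sq_nonneg _))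
  calc _ = (‖∑ x ∈ A, ∑ y ∈ B, f x * g y * F x y‖ ^ 2) ^ 2 := by ring
    _ ≤ _ := pow_le_pow_left₀ (sq_nonneg _) h3 2
    _ ≤ _ := by
      rw [mul_pow]
      exact mul_le_mul_of_nonneg_left h2 (sq_nonneg _)

/-- weighted power mean inequality -/
lemma pow_wt (A : Finset α) (w z : α → ℝ) (hw : ∀ x ∈ A, 0 ≤ w x) (hw1 : ∑ x ∈ A, w x = 1)
    (hz : ∀ x ∈ A, 0 ≤ z x) (n : ℕ) : (∑ x ∈ A, w x * z x) ^ n ≤ ∑ x ∈ A, w x * z x ^ n :=
  Real.pow_arith_mean_le_arith_mean_pow A w z hw hw1 hz n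

/-- unnormalised power mean inequality -/
lemma pow_sum_le (A : Finset α) (z : α → ℝ) (hz : ∀ x ∈ A, 0 ≤ z x) (n : ℕ) :
    (∑ x ∈ A, z x) ^ (n + 1) ≤ (#A : ℝ) ^ n * ∑ x ∈ A, z x ^ (n + 1) :=
  pow_sum_le_card_mul_sum_pow hz n

/-- popularity: many terms are large -/
lemma popular (A : Finset α) (z : α → ℝ) {M t : ℝ} (ht : 0 ≤ t) (hz : ∀ x ∈ A, z x ≤ M)
    [DecidablePred fun x => t ≤ z x] :
    ∑ x ∈ A, z x ≤ M * #{x ∈ A | t ≤ z x} + t * #A := by
  rw [← sum_filter_add_sum_filter_not A fun x => t ≤ z x]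
  refine add_le_add ?_ ?_
  · calc _ ≤ ∑ _x ∈ {x ∈ A | t ≤ z x}, M := sum_le_sum fun x hx => hz x (mem_filter.1 hx).1
      _ = _ := by rw [sum_const, nsmul_eq_mul, mul_comm]
  · calc _ ≤ ∑ _x ∈ {x ∈ A | ¬ t ≤ z x}, t :=
          sum_le_sum fun x hx => (not_le.1 (mem_filter.1 hx).2).le
      _ = t * #{x ∈ A | ¬ t ≤ z x} := by rw [sum_const, nsmul_eq_mul, mul_comm]
      _ ≤ _ := by
          refine mul_le_mul_of_nonneg_left ?_ ht
          exact_mod_cast card_filter_le _ _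

end CS

section Box
variable {κ X : Type*} [Fintype κ] [DecidableEq κ]

/-- complex expectation for a product weight on the finite product `∏ A j` -/
noncomputable def W (A : κ → Finset X) (p : κ → X → ℝ) (g : (κ → X) → ℂ) : ℂ :=
  ∑ x ∈ Fintype.piFinset A, ((∏ j, p j (x j) : ℝ) : ℂ) * g x

/-- every `p j` is a probability weight on `A j` -/
structure IsW (A : κ → Finset X) (p : κ → X → ℝ) : Prop where
  nn : ∀ j, ∀ x ∈ A j, 0 ≤ p j x
  sum : ∀ j, ∑ x ∈ A j, p j x = 1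

variable {A : κ → Finset X} {p : κ → X → ℝ}

lemma wt_nonneg (hp : IsW A p) {x : κ → X} (hx : x ∈ Fintype.piFinset A) :
    0 ≤ ∏ j, p j (x j) := prod_nonneg fun j _ => hp.nn j _ (Fintype.mem_piFinset.1 hx j)

lemma wt_sum (hp : IsW A p) : ∑ x ∈ Fintype.piFinset A, ∏ j, p j (x j) = 1 := by
  rw [← Finset.prod_univ_sum]; simp [hp.sum]

lemma W_congr {g h : (κ → X) → ℂ} (H : ∀ x ∈ Fintype.piFinset A, g x = h x) :
    W A p g = W A p h := sum_congr rfl fun x hx => by rw [H x hx]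

lemma W_sum {α : Type*} (s : Finset α) (c : α → ℂ) (g : α → (κ → X) → ℂ) :
    W A p (fun x => ∑ a ∈ s, c a * g a x) = ∑ a ∈ s, c a * W A p (g a) := by
  simp only [W, mul_sum]
  rw [sum_comm]
  exact sum_congr rfl fun a _ => sum_congr rfl fun x _ => by ring

lemma W_comm (g : (κ → X) → (κ → X) → ℂ) :
    W A p (fun x => W A p (fun y => g x y)) = W A p (fun y => W A p (fun x => g x y)) := by
  simp only [W, mul_sum]
  rw [sum_comm]
  exact sum_congr rfl fun a _ => sum_congr rfl fun x _ => by ring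

/-- resampling one coordinate -/
lemma W_update (hp : IsW A p) (i : κ) (g : (κ → X) → ℂ) :
    W A p g = W A p (fun x => ∑ y ∈ A i, (p i y : ℂ) * g (update x i y)) := by
  have key : ∀ (x : κ → X) (y : X), (∏ j, p j (x j)) * p i y
      = (∏ j, p j (update x i y j)) * p i (x i) := by
    intro x y
    rw [← mul_prod_erase _ _ (mem_univ i),
      ← mul_prod_erase _ (fun j => p j (update x i y j)) (mem_univ i)]
    have : ∏ j ∈ univ.erase i, p j (update x i y j) = ∏ j ∈ univ.erase i, p j (x j) :=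
      prod_congr rfl fun j hj => by rw [update_of_ne (ne_of_mem_erase hj)]
    rw [this, update_self]; ring
  have hm : ∀ z ∈ Fintype.piFinset A ×ˢ A i,
      (update z.1 i z.2, z.1 i) ∈ Fintype.piFinset A ×ˢ A i := by
    intro z hz
    obtain ⟨h1, h2⟩ := mem_product.1 hz
    refine mem_product.2 ⟨Fintype.mem_piFinset.2 fun j => ?_, Fintype.mem_piFinset.1 h1 i⟩
    by_cases h : j = i
    · subst h; simpa using h2
    · simpa [update_of_ne h] using Fintype.mem_piFinset.1 h1 j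
  have h1 : W A p (fun x => ∑ y ∈ A i, (p i y : ℂ) * g (update x i y))
      = ∑ z ∈ Fintype.piFinset A ×ˢ A i,
        (((∏ j, p j (z.1 j)) * p i z.2 : ℝ) : ℂ) * g (update z.1 i z.2) := by
    unfold W
    rw [sum_product]
    refine sum_congr rfl fun x _ => ?_
    rw [mul_sum]
    exact sum_congr rfl fun y _ => by rw [← mul_assoc, ← Complex.ofReal_mul]
  have h2 : W A p g = ∑ z ∈ Fintype.piFinset A ×ˢ A i,
        (((∏ j, p j (z.1 j)) * p i z.2 : ℝ) : ℂ) * g z.1 := by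
    unfold W
    rw [sum_product]
    refine sum_congr rfl fun x _ => ?_
    dsimp only
    rw [← sum_mul, ← Complex.ofReal_sum, ← mul_sum, hp.sum, mul_one]
  rw [h1, h2]
  refine sum_nbij' (fun z => (update z.1 i z.2, z.1 i)) (fun z => (update z.1 i z.2, z.1 i))
    hm hm (fun z _ => by simp) (fun z _ => by simp) fun z _ => ?_
  dsimp only
  rw [key z.1 z.2]; simp

/-- one Cauchy-Schwarz step in the coordinate `i` -/
lemma W_cs (hp : IsW A p) (i : κ) (b G : (κ → X) → ℂ)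
    (hb : ∀ x ∈ Fintype.piFinset A, ‖b x‖ ≤ 1) (hbi : ∀ x y, b (update x i y) = b x) :
    ‖W A p (fun x => b x * G x)‖ ^ 2 ≤
      (∑ y ∈ A i, (p i y : ℂ) * W A p (fun x => G x * conj (G (update x i y)))).re := by
  rw [W_update hp i]
  have e : ∀ x, ∑ y ∈ A i, (p i y : ℂ) * (b (update x i y) * G (update x i y))
      = b x * ∑ y ∈ A i, (p i y : ℂ) * G (update x i y) := fun x => by
    rw [mul_sum]; exact sum_congr rfl fun y _ => by rw [hbi]; ring
  simp only [e]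
  refine (cs_wt _ _ (fun x hx => wt_nonneg hp hx) b _ hb).trans (le_of_eq ?_)
  rw [wt_sum hp, one_mul, ← W_sum, W_update hp i]
  simp only [update_idem]
  unfold W
  rw [Complex.re_sum]
  refine sum_congr rfl fun x _ => ?_
  rw [Complex.re_ofReal_mul, normSq_sum_re]
  congr 2
  refine sum_congr rfl fun y _ => ?_
  rw [mul_sum]
  refine sum_congr rfl fun y' _ => ?_
  rw [map_mul, Complex.conj_ofReal]; ring

/-- the box average in the directions `K` (the other coordinates are common) -/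
noncomputable def bx (A : κ → Finset X) (p : κ → X → ℝ) (K : Finset κ) (F : (κ → X) → ℂ) : ℂ :=
  W A p fun x => W A p fun x' => ∏ S ∈ K.powerset, cj #S (F (S.piecewise x' x))

lemma bx_insert (hp : IsW A p) {K : Finset κ} {i : κ} (hi : i ∉ K) (F : (κ → X) → ℂ) :
    bx A p (insert i K) F =
      ∑ y ∈ A i, (p i y : ℂ) * bx A p K (fun x => F x * conj (F (update x i y))) := by
  unfold bx
  rw [← W_sum]
  refine W_congr fun x _ => ?_
  rw [← W_sum, W_update hp i]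
  refine W_congr fun x' _ => sum_congr rfl fun y _ => ?_
  congr 1
  rw [prod_powerset_insert hi, ← prod_mul_distrib]
  refine prod_congr rfl fun S hS => ?_
  have hiS : i ∉ S := fun h => hi (mem_powerset.1 hS h)
  rw [cj_mul, card_insert_of_notMem hiS, cj_succ]
  have e1 : S.piecewise (update x' i y) x = S.piecewise x' x := by
    funext j
    by_cases hj : j ∈ S
    · rw [piecewise_eq_of_mem _ _ _ hj, piecewise_eq_of_mem _ _ _ hj,
        update_of_ne (ne_of_mem_of_not_mem hj hiS)]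
    · rw [piecewise_eq_of_notMem _ _ _ hj, piecewise_eq_of_notMem _ _ _ hj]
  have e2 : (insert i S).piecewise (update x' i y) x = update (S.piecewise x' x) i y := by
    rw [piecewise_insert, update_self, e1]
  rw [e1, e2]

lemma W_const (hp : IsW A p) (c : ℂ) : W A p (fun _ => c) = c := by
  unfold W
  rw [← sum_mul, ← Complex.ofReal_sum, wt_sum hp]; simp

lemma bx_empty (hp : IsW A p) (F : (κ → X) → ℂ) : bx A p ∅ F = W A p F := by
  unfold bx
  refine W_congr fun x _ => ?_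
  simp [W_const hp]

lemma update_mem {x : κ → X} (hx : x ∈ Fintype.piFinset A) {i : κ} {y : X} (hy : y ∈ A i) :
    update x i y ∈ Fintype.piFinset A := Fintype.mem_piFinset.2 fun j => by
  by_cases h : j = i
  · subst h; simpa using hy
  · simpa [update_of_ne h] using Fintype.mem_piFinset.1 hx j

/-- **box inequality**: `1`-bounded factors that miss one of the coordinates in `K` are removed -/
theorem box_ineq (hp : IsW A p) (K : Finset κ) : K.Nonempty →
    ∀ (F : (κ → X) → ℂ) (b : κ → (κ → X) → ℂ),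
    (∀ i ∈ K, ∀ x ∈ Fintype.piFinset A, ‖b i x‖ ≤ 1) →
    (∀ i ∈ K, ∀ x y, b i (update x i y) = b i x) →
    ‖W A p (fun x => F x * ∏ i ∈ K, b i x)‖ ^ 2 ^ #K ≤ (bx A p K F).re := by
  induction K using Finset.induction_on with
  | empty => intro h; exact absurd h not_nonempty_empty
  | insert i K hi ih =>
    intro _ F b hb hbi
    have h1 := W_cs hp i (b i) (fun x => F x * ∏ j ∈ K, b j x) (hb i (mem_insert_self _ _))
      (hbi i (mem_insert_self _ _))
    have e0 : W A p (fun x => F x * ∏ j ∈ insert i K, b j x)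
        = W A p (fun x => b i x * (F x * ∏ j ∈ K, b j x)) :=
      W_congr fun x _ => by rw [prod_insert hi]; ring
    have e1 : ∀ y, W A p (fun x => (F x * ∏ j ∈ K, b j x) *
        conj (F (update x i y) * ∏ j ∈ K, b j (update x i y)))
        = W A p (fun x => (F x * conj (F (update x i y))) *
          ∏ j ∈ K, (b j x * conj (b j (update x i y)))) := fun y =>
      W_congr fun x _ => by rw [map_mul, map_prod, prod_mul_distrib]; ring
    simp only [e1] at h1
    rw [e0, bx_insert hp hi, card_insert_of_notMem hi]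
    rcases K.eq_empty_or_nonempty with rfl | hK
    · simpa only [bx_empty hp, prod_empty, mul_one, card_empty, zero_add, pow_one] using h1
    have h2 : ∀ y ∈ A i, ‖W A p (fun x => (F x * conj (F (update x i y))) *
          ∏ j ∈ K, (b j x * conj (b j (update x i y))))‖ ^ 2 ^ #K ≤
        (bx A p K (fun x => F x * conj (F (update x i y)))).re := fun y hy => by
      refine ih hK _ _ (fun j hj x hx => ?_) fun j hj x z => ?_
      · rw [norm_mul, Complex.norm_conj]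
        exact mul_le_one₀ (hb j (mem_insert_of_mem hj) x hx) (norm_nonneg _)
          (hb j (mem_insert_of_mem hj) _ (update_mem hx hy))
      · rw [update_comm (ne_of_mem_of_not_mem hj hi), hbi j (mem_insert_of_mem hj),
          hbi j (mem_insert_of_mem hj)]
    have h3 := h1.trans ((Complex.re_le_norm _).trans (norm_sum_le _ _))
    have h4 : ∀ y ∈ A i, ∀ z : ℂ, ‖(p i y : ℂ) * z‖ = p i y * ‖z‖ := fun y hy z => by
      rw [norm_mul, Complex.norm_real, Real.norm_of_nonneg (hp.nn i y hy)]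
    rw [sum_congr rfl fun y hy => h4 y hy _] at h3
    rw [pow_succ' 2, pow_mul]
    refine (pow_le_pow_left₀ (sq_nonneg _) h3 _).trans
      ((pow_wt _ _ _ (hp.nn i) (hp.sum i) (fun y _ => norm_nonneg _) _).trans ?_)
    rw [Complex.re_sum]
    refine sum_le_sum fun y hy => ?_
    rw [Complex.re_ofReal_mul]
    exact mul_le_mul_of_nonneg_left (h2 y hy) (hp.nn i y hy)

theorem box_ineq_norm (hp : IsW A p) (K : Finset κ) (F : (κ → X) → ℂ) (b : κ → (κ → X) → ℂ)
    (hb : ∀ i ∈ K, ∀ x ∈ Fintype.piFinset A, ‖b i x‖ ≤ 1)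
    (hbi : ∀ i ∈ K, ∀ x y, b i (update x i y) = b i x) :
    ‖W A p (fun x => F x * ∏ i ∈ K, b i x)‖ ^ 2 ^ #K ≤ ‖bx A p K F‖ := by
  rcases K.eq_empty_or_nonempty with rfl | hK
  · simp [bx_empty hp]
  · exact (box_ineq hp K hK F b hb hbi).trans (Complex.re_le_norm _)

lemma bx_re_nonneg (hp : IsW A p) {K : Finset κ} (hK : K.Nonempty) (F : (κ → X) → ℂ) :
    0 ≤ (bx A p K F).re :=
  le_trans (by positivity) (box_ineq hp K hK F (fun _ _ => 1) (by simp) (by simp))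

omit [Fintype κ] [DecidableEq κ] in
/-- the uniform weight -/
lemma isW_unif (hA : ∀ j, (A j).Nonempty) : IsW A (fun j _ => ((#(A j) : ℝ))⁻¹) where
  nn := fun _ _ _ => by positivity
  sum := fun j => by
    rw [sum_const, nsmul_eq_mul, mul_inv_cancel₀]
    exact_mod_cast (card_pos.2 (hA j)).ne'

lemma W_unif (g : (κ → X) → ℂ) : W A (fun j _ => ((#(A j) : ℝ))⁻¹) g =
    (((#(Fintype.piFinset A) : ℝ)⁻¹ : ℝ) : ℂ) * ∑ x ∈ Fintype.piFinset A, g x := by
  unfold W
  rw [mul_sum, Fintype.card_piFinset, Nat.cast_prod, ← prod_inv_distrib]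

/-- **box inequality, unnormalised**: with `P = ∏ A j`,
`|∑_P F ∏ b_i| ^ (2^k) * |P|^2 ≤ |P|^(2^k) * ∑_{x,x' ∈ P} ∏_{S ⊆ K} C^{|S|} F(x^S)`. -/
theorem box_ineq_sum (A : κ → Finset X) (K : Finset κ) (hK : K.Nonempty) (F : (κ → X) → ℂ)
    (b : κ → (κ → X) → ℂ) (hb : ∀ i ∈ K, ∀ x ∈ Fintype.piFinset A, ‖b i x‖ ≤ 1)
    (hbi : ∀ i ∈ K, ∀ x y, b i (update x i y) = b i x) :
    ‖∑ x ∈ Fintype.piFinset A, F x * ∏ i ∈ K, b i x‖ ^ 2 ^ #K * (#(Fintype.piFinset A) : ℝ) ^ 2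
      ≤ (#(Fintype.piFinset A) : ℝ) ^ 2 ^ #K * (∑ x ∈ Fintype.piFinset A,
        ∑ x' ∈ Fintype.piFinset A, ∏ S ∈ K.powerset, cj #S (F (S.piecewise x' x))).re := by
  rcases (Fintype.piFinset A).eq_empty_or_nonempty with h | h
  · simp [h]
  have hP : (0 : ℝ) < #(Fintype.piFinset A) := by exact_mod_cast card_pos.2 h
  have h1 := box_ineq (isW_unif (Fintype.piFinset_nonempty.1 h)) K hK F b hb hbi
  unfold bx at h1
  simp only [W_unif] at h1
  rw [← mul_sum, norm_mul, Complex.re_ofReal_mul, Complex.re_ofReal_mul, Complex.norm_real,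
    Real.norm_of_nonneg (by positivity), mul_pow, inv_pow, ← div_eq_inv_mul,
    div_le_iff₀ (by positivity)] at h1
  calc _ ≤ _ := mul_le_mul_of_nonneg_right h1 (by positivity)
    _ = _ := by field_simp

end Box

end Crest.Agent.T49.Box
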