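import Crest.Agent.T49.GowSym_71

/-!
# Row 49 (helper67): Host-Kra cubes and Gowers norms on a filtered abelian group, definitions

`G` an abelian group, `F : ℕ → AddSubgroup G` a filtration.  A cube of dimension `κ` is
`A ω = ∑_{β ≤ ω} u β` with `u β ∈ F |β|`.  Weights are absorbed into the (summable) functions.
-/

set_option autoImplicit false

noncomputable section

namespace Crest.Agent.T49.Hk

open Finset
open Crest.Agent.T49.Box (cz sb)
open scoped ComplexConjugate

variable {G : Type*} [AddCommGroup G] {κ κ' : Type} [Fintype κ] [DecidableEq κ] [Fintype κ']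
  [DecidableEq κ']

/-- number of `true` entries -/
def wt (β : κ → Bool) : ℕ := ∑ i, (β i).toNat

/-- the sign of a vertex: `(-1) ^ (number of false entries)` (for `κ = Fin t` this is `Box.sw`) -/
def sg (ω : κ → Bool) : ℤˣ := ∏ i, sb (!ω i)

open Classical in
/-- `zeta u ω = ∑_{β ≤ ω} u β` -/
def zeta (κ : Type) [Fintype κ] [DecidableEq κ] (G : Type*) [AddCommGroup G] :
    ((κ → Bool) → G) →+ ((κ → Bool) → G) where
  toFun u ω := ∑ β, if β ≤ ω then u β else 0
  map_zero' := by funext ω; simp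
  map_add' u v := by
    funext ω
    simp only [Pi.add_apply, ← sum_add_distrib]
    exact sum_congr rfl fun β _ => by split_ifs <;> simp

open Classical in
theorem zeta_apply (u : (κ → Bool) → G) (ω : κ → Bool) :
    zeta κ G u ω = ∑ β, if β ≤ ω then u β else 0 := rfl

/-- the parameters of cubes -/
def Par (F : ℕ → AddSubgroup G) (κ : Type) [Fintype κ] : AddSubgroup ((κ → Bool) → G) where
  carrier := {u | ∀ β, u β ∈ F (wt β)}
  add_mem' hu hv β := add_mem (hu β) (hv β)
  zero_mem' _ := zero_mem _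
  neg_mem' hu β := neg_mem (hu β)

omit [DecidableEq κ] in
theorem mem_Par {F : ℕ → AddSubgroup G} {u : (κ → Bool) → G} :
    u ∈ Par F κ ↔ ∀ β, u β ∈ F (wt β) := Iff.rfl

/-- the Host-Kra cubes -/
def Cu (F : ℕ → AddSubgroup G) (κ : Type) [Fintype κ] [DecidableEq κ] :
    AddSubgroup ((κ → Bool) → G) := (Par F κ).map (zeta κ G)

theorem mem_Cu {F : ℕ → AddSubgroup G} {A : (κ → Bool) → G} :
    A ∈ Cu F κ ↔ ∃ u : (κ → Bool) → G, (∀ β, u β ∈ F (wt β)) ∧ zeta κ G u = A := Iff.rfl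

/-- the shifted filtration -/
def sh (F : ℕ → AddSubgroup G) (k : ℕ) : ℕ → AddSubgroup G := fun i => F (i + k)

/-- the signed product over the vertices -/
def vp (f : (κ → Bool) → G → ℂ) (A : (κ → Bool) → G) : ℂ := ∏ ω, cz (sg ω) (f ω (A ω))

/-- the Gowers inner product -/
def gip (F : ℕ → AddSubgroup G) (f : (κ → Bool) → G → ℂ) : ℂ := ∑' A : Cu F κ, vp f A

/-- the `2 ^ s`-th power of the (unnormalised) Gowers-Host-Kra norm -/
def UK (F : ℕ → AddSubgroup G) (s : ℕ) (f : G → ℂ) : ℝ :=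
  ‖gip F (fun _ : Fin s → Bool => f)‖

/-- the mass of the cubes of dimension `s` for the vertex weight `w` -/
def Zm (F : ℕ → AddSubgroup G) (s : ℕ) (w : G → ℝ) : ℝ :=
  ∑' A : Cu F (Fin s), ∏ ω, w (A.1 ω)

/-- the filtration of `ι → ℤ` by levels -/
def lvl {ι : Type} (lev : ι → ℕ) (i : ℕ) : AddSubgroup (ι → ℤ) where
  carrier := {z | ∀ c, lev c < i → z c = 0}
  add_mem' hx hy c hc := by simp [hx c hc, hy c hc]
  zero_mem' _ _ := rfl
  neg_mem' hx c hc := by simp [hx c hc]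

theorem mem_lvl {ι : Type} {lev : ι → ℕ} {i : ℕ} {z : ι → ℤ} :
    z ∈ lvl lev i ↔ ∀ c, lev c < i → z c = 0 := Iff.rfl

/-- insertion of a direction -/
def ins (e : Option κ' ≃ κ) (b : Bool) (w : κ' → Bool) : κ → Bool := fun j => (e.symm j).elim b w

/-- `(G', F')` with `x, y : G' → G` and offsets `o h` parametrises the pairs of points of `G`:
`G' = G ×_{F 2} G` with the filtration `F i ×_{F (i+1)} F i`, and `o` is a section of `F 1 / F 2` -/
structure Pair (F : ℕ → AddSubgroup G) {G' : Type*} [AddCommGroup G'] (F' : ℕ → AddSubgroup G')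
    (x y : G' →+ G) {H : Type*} (o : H → G) : Prop where
  inj : ∀ c, x c = 0 → y c = 0 → c = 0
  zero : ∀ a b, (a ∈ F 0 ∧ b - a ∈ F 2) ↔ ∃ c ∈ F' 0, x c = a ∧ y c = b
  succ : ∀ i a b, (a ∈ F (i + 1) ∧ b - a ∈ F (i + 2)) ↔ ∃ c ∈ F' (i + 1), x c = a ∧ y c = b
  mem : ∀ h, o h ∈ F 1
  sec : ∀ d ∈ F 1, ∃! h, d - o h ∈ F 2

end Crest.Agent.T49.Hk
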