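import Crest.Agent.T49.FmReb_17
import Crest.Agent.T49.GlDef_99
import Crest.Agent.T49.Qp_85

/-!
# Row 49 (helper29): the dual function of a family of functions on frames (`DualStmt`)
-/

set_option autoImplicit false

noncomputable section

namespace Crest.Agent.T49.Gl

open MvPolynomial Finset Crest.Agent.T49.Tw Crest.Agent.T49.Fm

theorem dualStmt29 : DualStmt := by
  classical
  intro s D
  obtain ⟨C, hC, hb⟩ : ∃ C : ℕ, 1 ≤ C ∧ ∀ m : ℝ, 2 ≤ m →
      ((s + 5) * ((s + 1) ^ (D + 1) * ((s + 1) * (s * (2 * m)) + s ^ 2 + 1)) + 1 ≤ m ^ C ∧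
        (s + 1) ^ D * m * m ≤ m ^ C) ∧ 2 * ((s + 1) ^ D * m * m + m + 2) ≤ m ^ C := by
    have h1 : ∀ᶠ C : ℕ in Filter.atTop, ∀ m : ℝ, 2 ≤ m →
      (s + 5) * ((s + 1) ^ (D + 1) * ((s + 1) * (s * (2 * m)) + s ^ 2 + 1)) + 1 ≤ m ^ C := by qp
    have h2 : ∀ᶠ C : ℕ in Filter.atTop, ∀ m : ℝ, 2 ≤ m → (s + 1) ^ D * m * m ≤ m ^ C := by qp
    have h3 : ∀ᶠ C : ℕ in Filter.atTop, ∀ m : ℝ, 2 ≤ m →
      2 * ((s + 1) ^ D * m * m + m + 2) ≤ m ^ C := by qp
    obtain ⟨C, hC, ⟨a, b⟩, c⟩ := ((Filter.eventually_ge_atTop 1).and ((h1.and h2).and h3)).exists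
    exact ⟨C, hC, fun m hm => ⟨⟨a m hm, b m hm⟩, c m hm⟩⟩
  have hrc := one_le_rc D s
  refine ⟨C, (1 + rc D s)⁻¹, by positivity, fun ι _ T σ L R y r hr Z a h hr1 hr2 ha => ?_⟩
  have hR := h.two
  have hy : 2 ≤ y := hR.trans h.le
  have r0 : 0 < r := (Real.exp_pos _).trans_le hr1
  have r1 : (1 + rc D s) * |r| ≤ 1 := by
    rw [abs_of_pos r0, ← le_div_iff₀' (by positivity), one_div]; exact hr2
  have r2 : |r| ≤ 1 := by nlinarith [abs_nonneg r]
  have hσL : 0 < σ * L := (Real.exp_pos _).trans_le h.lo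
  have hσ : 0 < σ := by
    by_contra h0
    nlinarith [(Nat.cast_nonneg L : (0 : ℝ) ≤ L)]
  have hL : (0 : ℝ) < L := (mul_pos_iff_of_pos_left hσ).1 hσL
  have hσv : σ⁻¹ ≤ Real.exp (2 * y) := by
    rw [inv_le_comm₀ hσ (Real.exp_pos _), ← Real.exp_neg]
    refine le_of_mul_le_mul_right (le_trans ?_ h.lo) hL
    refine (mul_le_mul_of_nonneg_left h.Lle (Real.exp_pos _).le).trans ?_
    rw [← Real.exp_add]
    exact Real.exp_le_exp.2 (by linarith [h.le])
  have hyC : 0 ≤ y ^ C := by positivity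
  have hη : Real.exp (-y ^ C) ≤ 1 := Real.exp_le_one_iff.2 (by linarith)
  have hA := scl_allPC T hr h.lev r2 h.pc (y := y ^ C - 1) (by linarith)
  have hmu : 0 < (scl T r hr).mu := Finset.prod_pos fun c _ => inv_pos.2 (abs_pos.2 ((scl T r hr).a_ne c))
  refine ⟨?_, ?_⟩
  · have h1 := h.pc ι (scl T r hr) id (scl_pc T hr (u := 0) le_rfl (by simpa using r2) h.lev
      (by nlinarith [(hb y hy).2, sq_nonneg y, show (0 : ℝ) ≤ (s + 1) ^ D * y * y by positivity])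
      (by simpa using hyC))
    rw [← div_le_iff₀ hmu]
    linarith [(abs_le.1 h1).2]
  set T' := scl T r hr
  let φ : Frm D T.lev → (Fin D → ℤ) → ℂ := fun W t => if W ∈ Z then fw T σ W * a W t else 0
  let b : Frm D T.lev → ℂ := fun V =>
    (∑ t ∈ pos D L, φ (reb V (-t)) t) / (((L : ℝ) ^ D * fw T' σ V : ℝ) : ℂ)
  have hcard : (#(pos D L) : ℝ) = (L : ℝ) ^ D := by simp [pos, Fintype.card_piFinset]
  have hb1 : ∀ V, ‖b V‖ ≤ 1 := fun V => by
    have hp : 0 < (L : ℝ) ^ D * fw T' σ V := mul_pos (by positivity) (fw_pos T' σ V)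
    rw [norm_div, Complex.norm_real, Real.norm_of_nonneg hp.le, div_le_one hp, ← hcard,
      ← nsmul_eq_mul]
    refine (norm_sum_le _ _).trans (sum_le_card_nsmul _ _ _ fun t ht => ?_)
    have h1 := fw_le_reb T hr h.lev hσ (t := t)
      (fun i => (abs_mul_le_of_mem_pos hσ ht i).trans h.hi) r1 (reb V (-t))
    have h2 : reb (reb V (-t)) t = V := by rw [reb_reb, neg_add_cancel, reb_zero]
    replace h1 := h1.trans_eq (congrArg (fw T' σ) h2)
    simp only [φ]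
    split_ifs
    · rw [norm_mul, Complex.norm_real, Real.norm_of_nonneg (fw_pos T σ _).le]
      exact (mul_le_of_le_one_right (fw_pos T σ _).le (ha _ _)).trans h1
    · rw [norm_zero]; exact (fw_pos T' σ V).le
  obtain ⟨Dl, hD1, hD2⟩ := fw_cond (D := D) T' h.lev hσ (v := 2 * y) (by linarith) hσv hA
    (by rw [fl]; linarith [(hb y hy).1.1]) hη hb1
  set n := Fintype.card (FI D T.lev)
  have hn : (n : ℝ) ≤ (s + 1) ^ D * R := by
    refine le_trans ?_ (mul_le_mul_of_nonneg_left h.card (by positivity))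
    exact_mod_cast card_FI_le (D := D) T h.lev
  have hK : |r|⁻¹ ^ n ≤ Real.exp ((s + 1) ^ D * R * R) := by
    have h1 : |r|⁻¹ ≤ Real.exp R := by
      rw [abs_of_pos r0, inv_le_comm₀ r0 (Real.exp_pos _), ← Real.exp_neg]; exact hr1
    refine (pow_le_pow_left₀ (by positivity) h1 n).trans ?_
    rw [← Real.exp_nat_mul]
    exact Real.exp_le_exp.2 (mul_le_mul_of_nonneg_right hn (by linarith))
  refine ⟨|r|⁻¹ ^ n, Dl, one_le_pow₀ ((one_le_inv₀ (abs_pos.2 hr)).2 r2),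
    hK.trans (Real.exp_le_exp.2 (hb R hR).1.2), hD1, fun G hG => ?_⟩
  have key : HasSum (fun V => ∑ t ∈ pos D L, φ (reb V (-t)) t * G (V.pt 0))
      (∑ t ∈ pos D L, ∑ W ∈ Z, φ W t * G (W.pt t)) := by
    refine hasSum_sum fun t _ => (rebE T.lev t).hasSum_iff.1 ?_
    have : ((fun V : Frm D T.lev => φ (reb V (-t)) t * G (V.pt 0)) ∘ rebE T.lev t) =
        fun W => φ W t * G (W.pt t) := by
      funext W
      simp only [Function.comp, rebE_apply, reb_reb, add_neg_cancel, reb_zero, reb_pt_zero]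
    rw [this]
    exact hasSum_sum_of_ne_finset_zero fun W hW => by simp [φ, hW]
  have e1 : (∑' V, (fw T' σ V : ℂ) * (b V * G (V.pt 0))) =
      (∑ V ∈ Z, (fw T σ V : ℂ) * ∑ t ∈ pos D L, a V t * G (V.pt t)) / ((L : ℂ) ^ D) := by
    have h0 : ((L : ℂ) ^ D) ≠ 0 := pow_ne_zero _ (by exact_mod_cast hL.ne')
    have h1 : ∀ V : Frm D T.lev, (fw T' σ V : ℂ) * (b V * G (V.pt 0)) =
        (∑ t ∈ pos D L, φ (reb V (-t)) t * G (V.pt 0)) / (L : ℂ) ^ D := fun V => by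
      have h2 : (fw T' σ V : ℂ) ≠ 0 := by exact_mod_cast (fw_pos T' σ V).ne'
      simp only [b, ← sum_mul]
      push_cast
      field_simp
    refine (tsum_congr h1).trans ((key.div_const _).tsum_eq.trans ?_)
    rw [sum_comm]
    congr 1
    refine sum_congr rfl fun W hW => ?_
    rw [mul_sum]
    exact sum_congr rfl fun t _ => by simp only [φ, if_pos hW, mul_assoc]
  have h3 := hD2 G hG
  rw [e1, fmu_scl] at h3
  have hf : (fmu T D σ : ℂ) ≠ 0 := by exact_mod_cast (fmu_pos T D hσ).ne'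
  have hK0 : 0 < |r|⁻¹ ^ n := by have := abs_pos.2 hr; positivity
  have hK1 : ((|r|⁻¹ ^ n : ℝ) : ℂ) ≠ 0 := by exact_mod_cast hK0.ne'
  have h4 := mul_le_mul_of_nonneg_left h3 hK0.le
  rw [← Real.norm_of_nonneg hK0.le, ← Complex.norm_real, ← norm_mul, mul_sub,
    Complex.norm_real, Real.norm_of_nonneg hK0.le] at h4
  refine le_trans (le_of_eq ?_) (h4.trans ?_)
  · congr 2
    rw [Complex.ofReal_mul, Complex.ofReal_mul, Complex.ofReal_pow (L : ℝ), Complex.ofReal_natCast]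
    have h0 : ((L : ℂ) ^ D) ≠ 0 := pow_ne_zero _ (by exact_mod_cast hL.ne')
    change _ = _ * (_ / _ / (((|r|⁻¹ ^ n : ℝ) : ℂ) * _))
    generalize ((|r|⁻¹ ^ n : ℝ) : ℂ) = K at hK1 ⊢
    field_simp
  · have h5 : √(Real.exp (-y ^ C)) = Real.exp (-y ^ C / 2) := by
      rw [Real.sqrt_eq_iff_mul_self_eq (Real.exp_pos _).le (Real.exp_pos _).le, ← Real.exp_add]
      congr 1; ring
    have h6 : (3 : ℝ) ≤ Real.exp 2 := by linarith [Real.add_one_le_exp 2]
    rw [h5]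
    refine (mul_le_mul hK (mul_le_mul_of_nonneg_right h6 (Real.exp_pos _).le) (by positivity)
      (Real.exp_pos _).le).trans ?_
    rw [← Real.exp_add, ← Real.exp_add]
    have h7 : (s + 1) ^ D * R * R ≤ (s + 1 : ℝ) ^ D * y * y := by
      have := h.le
      gcongr
    exact Real.exp_le_exp.2 (by linarith [(hb y hy).2])

end Crest.Agent.T49.Gl
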