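import Crest.Agent.T49.FmFib_17

/-!
# Row 49 (helper17): rebasing of frames, domination
-/

set_option autoImplicit false
set_option linter.unusedSectionVars false

noncomputable section

namespace Crest.Agent.T49.Fm

open MvPolynomial Crest.Agent.T49.Tw Crest.Agent.T49.Gl

variable {ι : Type} {D : ℕ}

/-- translation of the variables -/
def tr {R : Type} [CommRing R] (t : Fin D → R) :
    MvPolynomial (Fin D) R →ₐ[R] MvPolynomial (Fin D) R := bind₁ fun i => X i + C (t i)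

theorem tr_tr {R : Type} [CommRing R] (t t' : Fin D → R) (p : MvPolynomial (Fin D) R) :
    tr t' (tr t p) = tr (t + t') p := by
  rw [tr, tr, tr, bind₁_bind₁]
  congr 2
  funext i
  simp only [map_add, bind₁_X_right, bind₁_C_right, Pi.add_apply]
  ring

theorem tr_zero {R : Type} [CommRing R] (p : MvPolynomial (Fin D) R) : tr 0 p = p := by
  simp [tr]

theorem eval_tr {R : Type} [CommRing R] (t u : Fin D → R) (p : MvPolynomial (Fin D) R) :
    eval u (tr t p) = eval (u + t) p := by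
  induction p using MvPolynomial.induction_on with
  | C a => simp [tr]
  | add p q hp hq => simp only [map_add, hp, hq]
  | mul_X p i hp => rw [map_mul, map_mul, hp, map_mul]; simp [tr]

theorem td_tr_le {R : Type} [CommRing R] (t : Fin D → R) (p : MvPolynomial (Fin D) R) :
    (tr t p).totalDegree ≤ p.totalDegree := by
  conv_lhs => rw [p.as_sum, map_sum]
  refine (totalDegree_finsetSum _ _).trans (Finset.sup_le fun m hm => ?_)
  rw [tr, bind₁_monomial]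
  refine (totalDegree_mul _ _).trans ?_
  rw [totalDegree_C, zero_add]
  refine (totalDegree_finsetProd _ _).trans (le_trans ?_ (le_totalDegree hm))
  refine Finset.sum_le_sum fun v _ => (totalDegree_pow _ _).trans ?_
  have : (X v + C (t v) : MvPolynomial (Fin D) R).totalDegree ≤ 1 :=
    (totalDegree_add _ _).trans (max_le ((totalDegree_monomial_le _ _).trans (by simp))
      (by rw [totalDegree_C]; exact zero_le_one))
  simpa using Nat.mul_le_mul_left (m v) this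

theorem map_tr (t : Fin D → ℤ) (p : MvPolynomial (Fin D) ℤ) :
    map (Int.castRingHom ℝ) (tr t p) = tr (fun i => (t i : ℝ)) (map (Int.castRingHom ℝ) p) := by
  rw [tr, tr, map_bind₁]
  simp

/-- the frame `u ↦ V (u + t)` -/
def reb {lev : ι → ℕ} (V : Frm D lev) (t : Fin D → ℤ) : Frm D lev :=
  ⟨fun c => tr t (V.W c), fun c => (td_tr_le t _).trans (V.deg c)⟩

section reb
variable {lev : ι → ℕ} (V : Frm D lev)

theorem reb_W (t : Fin D → ℤ) (c : ι) : (reb V t).W c = tr t (V.W c) := rfl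

theorem reb_pt (t u : Fin D → ℤ) : (reb V t).pt u = V.pt (u + t) :=
  funext fun c => eval_tr t u (V.W c)

theorem reb_pt_zero (t : Fin D → ℤ) : (reb V t).pt 0 = V.pt t := by rw [reb_pt, zero_add]

theorem reb_reb (t t' : Fin D → ℤ) : reb (reb V t) t' = reb V (t + t') :=
  Frm.ext' (funext fun c => by rw [reb_W, reb_W, reb_W, tr_tr])

theorem reb_zero : reb V 0 = V := Frm.ext' (funext fun c => by rw [reb_W, tr_zero])

/-- rebasing is a bijection of the frames -/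
def rebE (lev : ι → ℕ) (t : Fin D → ℤ) : Frm D lev ≃ Frm D lev where
  toFun V := reb V t
  invFun V := reb V (-t)
  left_inv V := by simp only [reb_reb, add_neg_cancel, reb_zero]
  right_inv V := by simp only [reb_reb, neg_add_cancel, reb_zero]

theorem rebE_apply (t : Fin D → ℤ) : rebE lev t V = reb V t := rfl

theorem reb_injective (t : Fin D → ℤ) : Function.Injective fun V : Frm D lev => reb V t :=
  (rebE lev t).injective

theorem reb_rl (t : Fin D → ℤ) (c : ι) : (reb V t).rl c = tr (fun i => (t i : ℝ)) (V.rl c) :=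
  map_tr t (V.W c)

theorem bind_reb (t : Fin D → ℤ) (f : Pl ι) :
    bind₁ (reb V t).rl f = tr (fun i => (t i : ℝ)) (bind₁ V.rl f) := by
  rw [tr, bind₁_bind₁]
  congr 2
  exact funext fun c => reb_rl V t c

end reb

/-! ### norm bounds -/

theorem nrm_mul_sub {σ : Type} {f f0 g g0 : Pl σ} {a b : ℝ} (hf0 : nrm f0 ≤ 1) (hg0 : nrm g0 ≤ 1)
    (hf : nrm (f - f0) ≤ a - 1) (hg : nrm (g - g0) ≤ b - 1) :
    nrm (f0 * g0) ≤ 1 ∧ nrm (f * g - f0 * g0) ≤ a * b - 1 := by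
  have n1 := Ch4.nrm_nonneg (f - f0)
  have n2 := Ch4.nrm_nonneg (g - g0)
  have n3 := Ch4.nrm_nonneg f0
  have n4 := Ch4.nrm_nonneg g0
  refine ⟨(Ch4.nrm_mul_le _ _).trans (mul_le_one₀ hf0 n4 hg0), ?_⟩
  have e : f * g - f0 * g0 = (f - f0) * (g - g0) + ((f - f0) * g0 + f0 * (g - g0)) := by ring
  rw [e]
  have h1 := (Ch4.nrm_mul_le (f - f0) (g - g0)).trans (mul_le_mul hf hg n2 (n1.trans hf))
  have h2 := (Ch4.nrm_mul_le (f - f0) g0).trans (mul_le_mul hf hg0 n4 (n1.trans hf))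
  have h3 := (Ch4.nrm_mul_le f0 (g - g0)).trans (mul_le_mul hf0 hg n2 zero_le_one)
  have h4 := Ch4.nrm_add_le ((f - f0) * (g - g0)) ((f - f0) * g0 + f0 * (g - g0))
  have h5 := Ch4.nrm_add_le ((f - f0) * g0) (f0 * (g - g0))
  nlinarith

theorem nrm_one' {σ : Type} : nrm (1 : Pl σ) = 1 := by
  have := Ch4.nrm_C (ι := σ) 1
  rwa [C_1, abs_one] at this

theorem nrm_tr_sub {t : Fin D → ℝ} {ε : ℝ} (hε : 0 ≤ ε) (ht : ∀ i, |t i| ≤ ε) {p : Pl (Fin D)}
    {l : ℕ} (hp : ∀ m ∈ p.support, m.degree ≤ l) :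
    nrm (tr t p - p) ≤ ((1 + ε) ^ l - 1) * nrm p := by
  classical
  have hpow : ∀ i (k : ℕ), nrm ((X i : Pl (Fin D)) ^ k) ≤ 1 ∧
      nrm ((X i + C (t i) : Pl (Fin D)) ^ k - X i ^ k) ≤ (1 + ε) ^ k - 1 := by
    intro i k
    induction k with
    | zero => simp [nrm_one', Ch4.nrm_zero]
    | succ k ih =>
      rw [pow_succ, pow_succ, pow_succ]
      exact nrm_mul_sub ih.1 (Ch4.nrm_X i).le ih.2 (by
        rw [add_sub_cancel_left, Ch4.nrm_C]; linarith [ht i])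
  have hprod : ∀ (m : Fin D →₀ ℕ) (s : Finset (Fin D)),
      nrm (∏ i ∈ s, (X i : Pl (Fin D)) ^ m i) ≤ 1 ∧
      nrm (∏ i ∈ s, (X i + C (t i) : Pl (Fin D)) ^ m i - ∏ i ∈ s, X i ^ m i) ≤
        (1 + ε) ^ (∑ i ∈ s, m i) - 1 := by
    intro m s
    induction s using Finset.induction_on with
    | empty => simp [nrm_one', Ch4.nrm_zero]
    | insert i s hi ih =>
      rw [Finset.prod_insert hi, Finset.prod_insert hi, Finset.sum_insert hi, pow_add]
      exact nrm_mul_sub (hpow i _).1 ih.1 (hpow i _).2 ih.2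
  have e : tr t p - p = ∑ m ∈ p.support, C (coeff m p) *
      (∏ i ∈ m.support, (X i + C (t i) : Pl (Fin D)) ^ m i - ∏ i ∈ m.support, X i ^ m i) := by
    conv_lhs => rw [p.as_sum, map_sum, ← Finset.sum_sub_distrib]
    refine Finset.sum_congr rfl fun m _ => ?_
    rw [tr, bind₁_monomial, monomial_eq, Finsupp.prod, mul_sub]
  rw [e, nrm.eq_1 p, Finset.mul_sum]
  refine (Ch4.nrm_sum_le _ _).trans (Finset.sum_le_sum fun m hm => (Ch4.nrm_mul_le _ _).trans ?_)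
  rw [Ch4.nrm_C, mul_comm]
  refine mul_le_mul_of_nonneg_right ((hprod m _).2.trans ?_) (abs_nonneg _)
  have : (1 + ε) ^ (∑ i ∈ m.support, m i) ≤ (1 + ε) ^ l :=
    pow_le_pow_right₀ (by linarith) (hp m hm)
  linarith

theorem sum_sq_tr {t : Fin D → ℝ} {ε ρ : ℝ} (hε : 0 ≤ ε) (ht : ∀ i, |t i| ≤ ε) {p : Pl (Fin D)}
    {l : ℕ} (hp : p.support ⊆ mi D l) (hρ : 0 < ρ)
    (h : ((1 + ε) ^ l - 1) ^ 2 * (mi D l).card ≤ ρ ^ 2) :
    ∑ α ∈ mi D l, coeff α (tr t p) ^ 2 ≤ (1 + ρ) ^ 2 * ∑ α ∈ mi D l, coeff α p ^ 2 := by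
  have hp' : ∀ m ∈ p.support, m.degree ≤ l := fun m hm => mem_mi.1 (hp hm)
  have h1 := nrm_tr_sub hε ht hp'
  set A := ∑ α ∈ mi D l, coeff α p ^ 2 with hA
  have hA0 : 0 ≤ A := Finset.sum_nonneg fun _ _ => sq_nonneg _
  have h2 : nrm p ^ 2 ≤ (mi D l).card * A := by
    rw [Ch4.nrm_eq_of_subset hp, hA]
    simpa only [sq_abs] using sq_sum_le_card_mul_sum_sq (s := mi D l) (f := fun α => |coeff α p|)
  have h3 : ∑ α ∈ mi D l, coeff α (tr t p - p) ^ 2 ≤ nrm (tr t p - p) ^ 2 := by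
    have hs : (tr t p - p).support ⊆ mi D l := fun m hm => mem_mi.2
      (degree_le_of_totalDegree ((totalDegree_sub _ _).trans (max_le ((td_tr_le t p).trans
        (totalDegree_le_of_degree hp')) (totalDegree_le_of_degree hp'))) hm)
    rw [Ch4.nrm_eq_of_subset hs]
    simpa only [sq_abs] using Finset.sum_sq_le_sq_sum_of_nonneg (s := mi D l)
      (f := fun α => |coeff α (tr t p - p)|) fun _ _ => abs_nonneg _
  have h4 : ∑ α ∈ mi D l, coeff α (tr t p - p) ^ 2 ≤ ρ ^ 2 * A := by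
    refine h3.trans ((pow_le_pow_left₀ (Ch4.nrm_nonneg _) h1 2).trans ?_)
    rw [mul_pow]
    calc _ ≤ ((1 + ε) ^ l - 1) ^ 2 * ((mi D l).card * A) :=
          mul_le_mul_of_nonneg_left h2 (sq_nonneg _)
      _ ≤ _ := by rw [← mul_assoc]; exact mul_le_mul_of_nonneg_right h hA0
  have h5 : ∀ α, ρ * coeff α (tr t p) ^ 2 ≤
      ρ * (1 + ρ) * coeff α p ^ 2 + (1 + ρ) * coeff α (tr t p - p) ^ 2 := fun α => by
    rw [coeff_sub]
    nlinarith [sq_nonneg (ρ * coeff α p - (coeff α (tr t p) - coeff α p))]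
  have h6 := Finset.sum_le_sum fun α (_ : α ∈ mi D l) => h5 α
  rw [Finset.sum_add_distrib, ← Finset.mul_sum, ← Finset.mul_sum, ← Finset.mul_sum, ← hA] at h6
  refine le_of_mul_le_mul_left (h6.trans ?_) hρ
  nlinarith [mul_le_mul_of_nonneg_left h4 (show 0 ≤ 1 + ρ by linarith)]

/-- dilation of the variables -/
def dl (a : ℝ) : Pl (Fin D) →ₐ[ℝ] Pl (Fin D) := bind₁ fun i => C a * X i

theorem coeff_dl (a : ℝ) (p : Pl (Fin D)) (α : Fin D →₀ ℕ) :
    coeff α (dl a p) = coeff α p * a ^ α.degree := by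
  classical
  have h : ∀ (m : Fin D →₀ ℕ) (r : ℝ), dl a (monomial m r) = monomial m (r * a ^ m.degree) := by
    intro m r
    rw [dl, bind₁_monomial, monomial_eq, Finsupp.prod]
    simp only [mul_pow, Finset.prod_mul_distrib, ← C_pow, ← map_prod, Finset.prod_pow_eq_pow_sum]
    rw [C_mul, mul_assoc]
    rfl
  conv_lhs => rw [p.as_sum, map_sum, coeff_sum]
  simp only [h, coeff_monomial, Finset.sum_ite_eq', mem_support_iff]
  split_ifs with h0
  · rfl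
  · rw [not_not.1 h0, zero_mul]

theorem dl_tr {σ : ℝ} (hσ : σ ≠ 0) (t : Fin D → ℝ) (p : Pl (Fin D)) :
    dl σ⁻¹ (tr t p) = tr (fun i => σ * t i) (dl σ⁻¹ p) := by
  rw [dl, tr, tr, bind₁_bind₁, bind₁_bind₁]
  congr 2
  funext i
  simp only [map_add, map_mul, bind₁_X_right, bind₁_C_right, mul_add]
  rw [← mul_assoc, ← C_mul, inv_mul_cancel₀ hσ, C_1, one_mul]

theorem q2_eq (σ : ℝ) {p : Pl (Fin D)} {l : ℕ} (hp : p.support ⊆ mi D l) :
    q2 σ p = ∑ α ∈ mi D l, coeff α (dl σ⁻¹ p) ^ 2 := by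
  simp only [coeff_dl, inv_pow, ← div_eq_mul_inv]
  refine Finset.sum_subset hp fun α _ hα => ?_
  rw [notMem_support_iff.1 hα]
  simp

/-- the constant of the rebasing bound -/
def rc (D s : ℕ) : ℝ := 2 ^ s * (s + 1) ^ D

theorem one_le_rc (D s : ℕ) : 1 ≤ rc D s :=
  one_le_mul_of_one_le_of_one_le (one_le_pow₀ (by norm_num))
    (one_le_pow₀ (by linarith [show (0 : ℝ) ≤ s from Nat.cast_nonneg s]))

theorem pow_sub_one_le {ε : ℝ} (h0 : 0 ≤ ε) (h1 : ε ≤ 1) (l : ℕ) :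
    (1 + ε) ^ l - 1 ≤ (2 ^ l - 1) * ε := by
  induction l with
  | zero => simp
  | succ l ih =>
    have : (1 : ℝ) ≤ 2 ^ l := one_le_pow₀ (by norm_num)
    have h2 := mul_le_mul_of_nonneg_left ih (show 0 ≤ 1 + ε by linarith)
    rw [pow_succ, pow_succ]
    nlinarith [mul_le_mul_of_nonneg_left h1 (mul_nonneg (sub_nonneg.2 this) h0)]

theorem q2_tr_le {σ ε ρ : ℝ} (hσ : 0 < σ) {t : Fin D → ℝ} (ht : ∀ i, |t i| * σ ≤ ε) (h0 : 0 ≤ ε)
    (h1 : ε ≤ 1) {s l : ℕ} (hl : l ≤ s) (hρ : 0 < ρ) (h : rc D s * ε ≤ ρ) {p : Pl (Fin D)}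
    (hp : p.support ⊆ mi D l) : q2 σ (tr t p) ≤ (1 + ρ) ^ 2 * q2 σ p := by
  have hp' : ∀ m ∈ p.support, m.degree ≤ l := fun m hm => mem_mi.1 (hp hm)
  have hs : (tr t p).support ⊆ mi D l := fun m hm => mem_mi.2
    (degree_le_of_totalDegree ((td_tr_le t p).trans (totalDegree_le_of_degree hp')) hm)
  rw [q2_eq σ hs, q2_eq σ hp, dl_tr hσ.ne']
  refine sum_sq_tr h0 (fun i => by rw [abs_mul, abs_of_pos hσ, mul_comm]; exact ht i)
    (fun m hm => hp ?_) hρ ?_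
  · rw [mem_support_iff, coeff_dl] at hm
    exact mem_support_iff.2 (left_ne_zero_of_mul hm)
  · have a0 : 0 ≤ (1 + ε) ^ l - 1 := sub_nonneg.2 (one_le_pow₀ (by linarith))
    have a1 : (1 + ε) ^ l - 1 ≤ 2 ^ s * ε := (pow_sub_one_le h0 h1 l).trans
      (mul_le_mul_of_nonneg_right (by
        linarith [pow_le_pow_right₀ (show (1 : ℝ) ≤ 2 by norm_num) hl]) h0)
    have a2 : ((mi D l).card : ℝ) ≤ (s + 1) ^ D := by
      exact_mod_cast (Finset.card_le_card (mi_mono hl)).trans (card_mi_le D s)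
    have a3 : (1 : ℝ) ≤ (s + 1) ^ D :=
      one_le_pow₀ (by linarith [show (0 : ℝ) ≤ s from Nat.cast_nonneg s])
    calc _ ≤ (2 ^ s * ε) ^ 2 * ((s + 1) ^ D) ^ 2 :=
          mul_le_mul (pow_le_pow_left₀ a0 a1 2) (a2.trans (le_self_pow₀ a3 two_ne_zero))
            (Nat.cast_nonneg _) (sq_nonneg _)
      _ = (rc D s * ε) ^ 2 := by rw [rc]; ring
      _ ≤ _ := pow_le_pow_left₀ (mul_nonneg (by linarith [one_le_rc D s]) h0) h 2

variable [Fintype ι] (T : Cell ι)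

theorem fq_nonneg (σ : ℝ) (V : Frm D T.lev) : 0 ≤ fq T σ V :=
  Finset.sum_nonneg fun _ _ => Finset.sum_nonneg fun _ _ => sq_nonneg _

/-- **REBASE**, sharp form -/
theorem fq_reb_le {s : ℕ} (hs : ∀ c, T.lev c ≤ s) {σ ε ρ : ℝ} (hσ : 0 < σ) {t : Fin D → ℤ}
    (ht : ∀ i, |(t i : ℝ)| * σ ≤ ε) (h0 : 0 ≤ ε) (h1 : ε ≤ 1) (hρ : 0 < ρ) (h : rc D s * ε ≤ ρ)
    (V : Frm D T.lev) : fq T σ (reb V t) ≤ (1 + ρ) ^ 2 * fq T σ V := by
  rw [fq, fq, Finset.mul_sum]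
  refine Finset.sum_le_sum fun c _ => ?_
  rw [bind_reb]
  exact q2_tr_le hσ ht h0 h1 (hs c) hρ h (support_bind_th T V c)

theorem fq_reb_le' {s : ℕ} (hs : ∀ c, T.lev c ≤ s) {σ ρ : ℝ} (hσ : 0 < σ) {t : Fin D → ℤ}
    (ht : ∀ i, |(t i : ℝ)| * σ * rc D s ≤ ρ) (hρ : 0 < ρ) (h1 : ρ ≤ 1) (V : Frm D T.lev) :
    fq T σ (reb V t) ≤ (1 + ρ) ^ 2 * fq T σ V := by
  have h2 := one_le_rc D s
  have h3 : 0 < rc D s := by linarith
  exact fq_reb_le T hs hσ (ε := ρ / rc D s) (fun i => (le_div_iff₀ h3).2 (ht i)) (by positivity)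
    ((div_le_one h3).2 (by linarith)) hρ (by rw [mul_div_cancel₀ _ h3.ne']) V

theorem abs_mul_le_of_mem_pos {σ : ℝ} (hσ : 0 < σ) {L : ℕ} {t : Fin D → ℤ} (ht : t ∈ pos D L)
    (i : Fin D) : |(t i : ℝ)| * σ ≤ σ * L := by
  obtain ⟨h1, h2⟩ := Finset.mem_Ico.1 (Fintype.mem_piFinset.1 ht i)
  have h3 : (0 : ℝ) ≤ t i := by exact_mod_cast h1
  have h4 : (t i : ℝ) ≤ L := by exact_mod_cast h2.le
  rw [abs_of_nonneg h3, mul_comm]
  exact mul_le_mul_of_nonneg_left h4 hσ.le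

/-- **REBASE**, crude form -/
theorem fq_reb_crude {s : ℕ} (hs : ∀ c, T.lev c ≤ s) {σ : ℝ} (hσ : 0 < σ) {t : Fin D → ℤ}
    (ht : ∀ i, |(t i : ℝ)| * σ ≤ 1) (V : Frm D T.lev) :
    fq T σ (reb V t) ≤ (1 + rc D s) ^ 2 * fq T σ V :=
  fq_reb_le T hs hσ ht zero_le_one le_rfl (by linarith [one_le_rc D s]) (mul_one _).le V

/-! ### rescaled cells -/

variable {r : ℝ} (hr : r ≠ 0)

theorem scl_th (c : ι) : (scl T r hr).th c = C r * T.th c := by
  show C (r * T.a c) * X c + C r * T.B c = _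
  rw [Tri.th, C_mul]; ring

theorem scl_tth (c : ι) : (scl T r hr).tth c = C r * T.tth c := by
  rw [Cell.tth, scl_th, Cell.top, Ch4.top_C_mul]
  rfl

theorem scl_wgt (y : ι → ℤ) :
    (scl T r hr).wgt y = Real.exp (-Real.pi * (r ^ 2 * ∑ c, ev y (T.th c) ^ 2)) := by
  rw [Tri.wgt, Finset.mul_sum Finset.univ _ (r ^ 2)]
  congr 2
  refine Finset.sum_congr rfl fun c _ => ?_
  rw [scl_th]; simp [ev, mul_pow]

theorem scl_mu : (scl T r hr).mu = |r|⁻¹ ^ Fintype.card ι * T.mu := by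
  rw [Tri.mu, Tri.mu, ← Finset.card_univ, ← Finset.prod_const, ← Finset.prod_mul_distrib]
  refine Finset.prod_congr rfl fun c _ => ?_
  show |r * T.a c|⁻¹ = _
  rw [abs_mul, mul_inv]

theorem scl_isMC {cl : ι → ℕ} (h : T.IsMC cl) : (scl T r hr).IsMC cl :=
  Cell.isMC_of h.pos fun c => (h.B c).C_mul _

theorem scl_pc {u x : ℝ} (hu : 0 ≤ u) (h : |r| ≤ Real.exp u) {s : ℕ} (hs : ∀ c, T.lev c ≤ s)
    (h1 : 1 + u ≤ x) (h2 : (s + 1) * u ≤ x) : T.PC x (scl T r hr) id :=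
  pc_congr (Cell.pc_aff (r := fun _ => r) (hr := fun _ => hr) (sh := 0) T hu (fun _ => h) hs h1 h2)
    rfl (fun c => by rw [scl_tth, Cell.aff_tth]) (fun _ => rfl) fun _ hm => scl_isMC T hr hm

theorem scl_allPC {s : ℕ} (hs : ∀ c, T.lev c ≤ s) (h : |r| ≤ 1) {x y η : ℝ} (hA : T.AllPC x η)
    (hy : y + 1 ≤ x) : (scl T r hr).AllPC y η :=
  Cell.allPC_pc hA (scl_pc T hr (u := 0) (x := 1) le_rfl (by simpa using h) hs (by simp) (by simp))
    (by linarith) (by linarith)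

theorem fq_scl (σ : ℝ) (V : Frm D T.lev) : fq (scl T r hr) σ V = r ^ 2 * fq T σ V := by
  rw [fq, fq, Finset.mul_sum]
  refine Finset.sum_congr rfl fun c _ => ?_
  have h1 := support_bind_th T V c
  have h2 : (bind₁ V.rl ((scl T r hr).th c)).support ⊆ mi D (T.lev c) :=
    support_bind_th (scl T r hr) V c
  show q2 σ (bind₁ V.rl ((scl T r hr).th c)) = _
  rw [q2_eq σ h1, q2_eq σ h2, Finset.mul_sum]
  refine Finset.sum_congr rfl fun α _ => ?_
  rw [scl_th, map_mul, bind₁_C_right, coeff_dl, coeff_dl, coeff_C_mul]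
  ring

theorem fmu_scl (D : ℕ) (σ : ℝ) :
    fmu (scl T r hr) D σ = |r|⁻¹ ^ Fintype.card (FI D T.lev) * fmu T D σ := by
  rw [Fintype.card_sigma, ← Finset.prod_pow_eq_pow_sum, fmu, fmu, ← Finset.prod_mul_distrib]
  refine Finset.prod_congr rfl fun c _ => ?_
  rw [Fintype.card_coe, ← Finset.prod_const, ← Finset.prod_mul_distrib]
  refine Finset.prod_congr rfl fun α _ => ?_
  show _ * |r * T.a c|⁻¹ = _
  rw [abs_mul, mul_inv]; ring

theorem fq_scl_reb {s : ℕ} (hs : ∀ c, T.lev c ≤ s) {σ k : ℝ} (hσ : 0 < σ) {t : Fin D → ℤ}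
    (ht : ∀ i, |(t i : ℝ)| * σ ≤ 1) (h : |k| * ((1 + rc D s) * |r|) ≤ 1) (V : Frm D T.lev) :
    fq (scl T r hr) σ (reb V t) * k ^ 2 ≤ fq T σ V := by
  have h1 := fq_reb_crude T hs hσ ht V
  have h2 : (|k| * ((1 + rc D s) * |r|)) ^ 2 ≤ 1 :=
    pow_le_one₀ (mul_nonneg (abs_nonneg _) (mul_nonneg (by linarith [one_le_rc D s])
      (abs_nonneg _))) h
  rw [mul_pow, mul_pow, sq_abs, sq_abs] at h2
  rw [fq_scl]
  calc r ^ 2 * fq T σ (reb V t) * k ^ 2 ≤ r ^ 2 * ((1 + rc D s) ^ 2 * fq T σ V) * k ^ 2 :=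
        mul_le_mul_of_nonneg_right (mul_le_mul_of_nonneg_left h1 (sq_nonneg _)) (sq_nonneg _)
    _ = k ^ 2 * ((1 + rc D s) ^ 2 * r ^ 2) * fq T σ V := by ring
    _ ≤ _ := mul_le_of_le_one_left (fq_nonneg T σ V) h2

/-- the weight of a frame is dominated by the weight of the rebased frame of a wider cell -/
theorem fw_le_reb {s : ℕ} (hs : ∀ c, T.lev c ≤ s) {σ : ℝ} (hσ : 0 < σ) {t : Fin D → ℤ}
    (ht : ∀ i, |(t i : ℝ)| * σ ≤ 1) (h : (1 + rc D s) * |r| ≤ 1) (V : Frm D T.lev) :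
    fw T σ V ≤ fw (scl T r hr) σ (reb V t) := by
  have h1 := fq_scl_reb T hr hs hσ ht (k := 1) (by simpa using h) V
  rw [fw, fw, Real.exp_le_exp]
  nlinarith [Real.pi_pos]

/-- **DOM** -/
theorem dom {s : ℕ} (hs : ∀ c, T.lev c ≤ s) {σ v x η : ℝ} (hσ : 0 < σ) (hv : 0 ≤ v)
    (hσv : σ⁻¹ ≤ Real.exp v) (hA : T.AllPC x η) (hx : (s + 5) * fl D s (s * v) + 1 ≤ x)
    (hη : η ≤ 1) (h : (1 + rc D s) * |r| ≤ 1) {t : Fin D → ℤ} (ht : ∀ i, |(t i : ℝ)| * σ ≤ 1)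
    {g : (ι → ℤ) → ℝ} (hg : ∀ y, 0 ≤ g y ∧ g y ≤ 1) :
    ∑' V : Frm D T.lev, fw T σ V * g (V.pt t) ≤ fmu (scl T r hr) D σ *
      ((∑' y, (scl T r hr).wgt y * g y) / (scl T r hr).mu + 3 * √η) := by
  have hg' : ∀ y, |g y| ≤ 1 := fun y => by rw [abs_of_nonneg (hg y).1]; exact (hg y).2
  have hr1 : |r| ≤ 1 := by nlinarith [one_le_rc D s, abs_nonneg r]
  have h1 := (abs_le.1 (fw_fibR (D := D) (scl T r hr) hs hσ hv hσv (scl_allPC T hr hs hr1 hA hx)
    le_rfl hη hg')).2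
  have h2 : ∑' V : Frm D T.lev, fw T σ V * g (V.pt t) ≤
      ∑' V : Frm D T.lev, fw (scl T r hr) σ V * g (V.pt 0) := by
    rw [← (rebE T.lev t).tsum_eq fun V => fw (scl T r hr) σ V * g (V.pt 0)]
    refine Summable.tsum_le_tsum (fun V => ?_) (summable_fw_mul T hσ fun V => hg' _)
      ((rebE T.lev t).summable_iff.2
        (summable_fw_mul (scl T r hr) hσ (f := fun V => g (V.pt 0)) fun V => hg' _))
    rw [rebE_apply, reb_pt_zero]
    exact mul_le_mul_of_nonneg_right (fw_le_reb T hr hs hσ ht h V) (hg _).1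
  rw [sub_le_iff_le_add', div_le_iff₀' (fmu_pos (scl T r hr) D hσ)] at h1
  exact h2.trans h1

end Crest.Agent.T49.Fm
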