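import Crest.Agent.T49.TorA_46

/-!
# Row 49 (helper31): splitting tools

Gaussian factors, differences of quadratic forms and indicators of subgroups are mixtures of
characters; so inside a summable series they can be replaced by one character.
-/

set_option autoImplicit false

open MeasureTheory Finset Complex
open scoped Real

namespace Crest.Agent.T49.Spl
open Tor

variable {X : Type*}

theorem summable_mul {F : X → ℂ} (hF : Summable fun x => ‖F x‖) {k : X → ℂ}
    (hk : ∀ x, ‖k x‖ ≤ 1) : Summable fun x => ‖F x * k x‖ :=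
  hF.of_nonneg_of_le (fun _ => norm_nonneg _) fun x => by
    rw [norm_mul]; exact mul_le_of_le_one_right (norm_nonneg _) (hk x)

theorem tsum_norm_mul_le {F : X → ℂ} (hF : Summable fun x => ‖F x‖) {k : X → ℂ}
    (hk : ∀ x, ‖k x‖ ≤ 1) : ∑' x, ‖F x * k x‖ ≤ ∑' x, ‖F x‖ :=
  (summable_mul hF hk).tsum_le_tsum (fun x => by
    rw [norm_mul]; exact mul_le_of_le_one_right (norm_nonneg _) (hk x)) hF

theorem norm_tsum_mul_le {F : X → ℂ} (hF : Summable fun x => ‖F x‖) {k : X → ℂ}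
    (hk : ∀ x, ‖k x‖ ≤ 1) : ‖∑' x, F x * k x‖ ≤ ∑' x, ‖F x‖ :=
  (norm_tsum_le_tsum_norm (summable_mul hF hk)).trans (tsum_norm_mul_le hF hk)

theorem continuous_tsum_e {F : X → ℂ} (hF : Summable fun x => ‖F x‖) (l : X → ℝ) :
    Continuous fun t : ℝ => ∑' x, F x * e (t * l x) :=
  continuous_tsum (fun x => by fun_prop) hF fun x t => by rw [norm_mul, norm_e, mul_one]

/-- mixtures of characters -/
theorem mix [Countable X] {F : X → ℂ} (hF : Summable fun x => ‖F x‖) (l : X → ℝ) {w : ℝ → ℝ}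
    (hw0 : ∀ t, 0 ≤ w t) (hw : Integrable w) {K : X → ℂ}
    (hK : ∀ x, K x = ∫ t, (w t : ℂ) * e (t * l x)) :
    ‖∑' x, F x * K x‖ ≤ ∫ t, w t * ‖∑' x, F x * e (t * l x)‖ := by
  have hi : ∀ x, Integrable fun t : ℝ => F x * ((w t : ℂ) * e (t * l x)) := fun x =>
    (hw.ofReal.mul_bdd (c := 1) (by fun_prop)
      (Filter.Eventually.of_forall fun t => (norm_e _).le)).const_mul _
  have hn : ∀ x, ∫ t : ℝ, ‖F x * ((w t : ℂ) * e (t * l x))‖ = ‖F x‖ * ∫ t, w t := fun x => by
    rw [← integral_const_mul]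
    congr 1
    funext t
    rw [norm_mul, norm_mul, norm_e, mul_one, Complex.norm_real, Real.norm_of_nonneg (hw0 t)]
  have hs : Summable fun x => ∫ t : ℝ, ‖F x * ((w t : ℂ) * e (t * l x))‖ := by
    simp only [hn]; exact hF.mul_right _
  have h1 := integral_tsum_of_summable_integral_norm hi hs
  have h2 : ∑' x, F x * K x = ∑' x, ∫ t : ℝ, F x * ((w t : ℂ) * e (t * l x)) :=
    tsum_congr fun x => by rw [hK, integral_const_mul]
  rw [h2, h1]
  refine (norm_integral_le_integral_norm _).trans (le_of_eq ?_)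
  congr 1
  funext t
  have : ∑' x, F x * ((w t : ℂ) * e (t * l x)) = (w t : ℂ) * ∑' x, F x * e (t * l x) := by
    rw [← tsum_mul_left]
    exact tsum_congr fun x => by ring
  rw [this, norm_mul, Complex.norm_real, Real.norm_of_nonneg (hw0 t)]

theorem integral_gauss_e (y : ℝ) :
    ((Real.exp (-π * y ^ 2) : ℝ) : ℂ) = ∫ t : ℝ, ((Real.exp (-π * t ^ 2) : ℝ) : ℂ) * e (t * y) := by
  have h := fourierIntegral_gaussian (b := (π : ℂ)) (by simpa using Real.pi_pos)
    ((2 * π * y : ℝ) : ℂ)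
  have hp : (π : ℂ) ≠ 0 := by exact_mod_cast Real.pi_ne_zero
  rw [div_self hp, Complex.one_cpow, one_mul] at h
  have h2 : -((2 * π * y : ℝ) : ℂ) ^ 2 / (4 * π) = ((-π * y ^ 2 : ℝ) : ℂ) := by
    push_cast; field_simp; ring
  rw [h2, ← Complex.ofReal_exp] at h
  rw [← h]
  congr 1
  funext t
  rw [mul_comm, e, Complex.ofReal_exp]
  congr 2 <;> push_cast <;> ring

/-- one Gaussian factor -/
theorem gauss1 [Countable X] {F : X → ℂ} (hF : Summable fun x => ‖F x‖) (l : X → ℝ) {R : ℝ}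
    (hR : 0 ≤ R) : ∃ t : ℝ, |t| ≤ R ∧ ‖∑' x, F x * (Real.exp (-π * l x ^ 2) : ℝ)‖ ≤
      ‖∑' x, F x * e (t * l x)‖ + √2 * Real.exp (-π * R ^ 2 / 2) * ∑' x, ‖F x‖ := by
  have hc := (continuous_tsum_e hF l).norm
  obtain ⟨t0, ht0, hmax⟩ := (isCompact_Icc (a := -R) (b := R)).exists_isMaxOn
    ⟨0, by simp [hR]⟩ hc.continuousOn
  refine ⟨t0, abs_le.2 ht0, ?_⟩
  have hg : Integrable fun t : ℝ => Real.exp (-π * t ^ 2) := integrable_exp_neg_mul_sq Real.pi_pos
  have hg2 : Integrable fun t : ℝ => Real.exp (-(π / 2) * t ^ 2) :=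
    integrable_exp_neg_mul_sq (by positivity)
  refine (mix hF l (fun t => (Real.exp_pos _).le) hg fun x => integral_gauss_e _).trans ?_
  set M := ∑' x, ‖F x‖
  have hM : 0 ≤ M := tsum_nonneg fun _ => norm_nonneg _
  set a := ‖∑' x, F x * e (t0 * l x)‖
  have h1 : ∫ t : ℝ, Real.exp (-π * t ^ 2) * ‖∑' x, F x * e (t * l x)‖ ≤
      ∫ t : ℝ, (a * Real.exp (-π * t ^ 2) +
        Real.exp (-π * R ^ 2 / 2) * M * Real.exp (-(π / 2) * t ^ 2)) := by
    refine integral_mono_of_nonneg (Filter.Eventually.of_forall fun t => by positivity)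
      ((hg.const_mul _).add (hg2.const_mul _)) (Filter.Eventually.of_forall fun t => ?_)
    have ha : 0 ≤ a := norm_nonneg _
    by_cases ht : |t| ≤ R
    · have := hmax (abs_le.1 ht)
      have h3 : Real.exp (-π * t ^ 2) * ‖∑' x, F x * e (t * l x)‖ ≤ Real.exp (-π * t ^ 2) * a :=
        mul_le_mul_of_nonneg_left this (Real.exp_pos _).le
      have h4 : 0 ≤ Real.exp (-π * R ^ 2 / 2) * M * Real.exp (-(π / 2) * t ^ 2) := by positivity
      dsimp only
      linarith
    · have h3 : ‖∑' x, F x * e (t * l x)‖ ≤ M := norm_tsum_mul_le hF fun x => (norm_e _).le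
      have h4 : R ^ 2 ≤ t ^ 2 := by
        rw [← sq_abs t]; exact pow_le_pow_left₀ hR (not_le.1 ht).le 2
      have h5 : Real.exp (-π * t ^ 2) ≤
          Real.exp (-π * R ^ 2 / 2) * Real.exp (-(π / 2) * t ^ 2) := by
        rw [← Real.exp_add]
        exact Real.exp_le_exp.2 (by nlinarith [Real.pi_pos])
      have h6 := mul_le_mul h5 h3 (norm_nonneg _) (by positivity)
      have h7 : 0 ≤ a * Real.exp (-π * t ^ 2) := by positivity
      dsimp only
      linarith
  refine h1.trans (le_of_eq ?_)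
  rw [integral_add (hg.const_mul _) (hg2.const_mul _), integral_const_mul, integral_const_mul,
    integral_gaussian, integral_gaussian, div_self Real.pi_ne_zero, Real.sqrt_one,
    show π / (π / 2) = 2 by field_simp]
  ring

theorem norm_exp_le_one {y : ℝ} (hy : 0 ≤ y) : ‖((Real.exp (-π * y) : ℝ) : ℂ)‖ ≤ 1 := by
  rw [Complex.norm_real, Real.norm_of_nonneg (Real.exp_pos _).le]
  exact Real.exp_le_one_iff.2 (by nlinarith [Real.pi_pos])

/-- finitely many Gaussian factors -/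
theorem gauss_finset [Countable X] {κ : Type*} (s : Finset κ) (l : κ → X → ℝ) {R : ℝ}
    (hR : 0 ≤ R) : ∀ {F : X → ℂ}, (Summable fun x => ‖F x‖) → ∃ t : κ → ℝ, (∀ k, |t k| ≤ R) ∧
      ‖∑' x, F x * (Real.exp (-π * ∑ k ∈ s, l k x ^ 2) : ℝ)‖ ≤
      ‖∑' x, F x * e (∑ k ∈ s, t k * l k x)‖ +
        #s * (√2 * Real.exp (-π * R ^ 2 / 2)) * ∑' x, ‖F x‖ := by
  classical
  induction s using Finset.induction_on with
  | empty => exact fun _ => ⟨0, fun _ => by simpa using hR, by simp⟩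
  | insert j s hj ih =>
    intro F hF
    have hk : ∀ x, ‖((Real.exp (-π * ∑ k ∈ s, l k x ^ 2) : ℝ) : ℂ)‖ ≤ 1 := fun x =>
      norm_exp_le_one (sum_nonneg fun _ _ => sq_nonneg _)
    obtain ⟨t0, ht0, h0⟩ := gauss1 (summable_mul hF hk) (l j) hR
    have he : ∀ x, ‖e (t0 * l j x)‖ ≤ 1 := fun x => (norm_e _).le
    obtain ⟨t, ht, h1⟩ := ih (summable_mul hF he)
    refine ⟨Function.update t j t0, fun k => ?_, ?_⟩
    · by_cases h : k = j
      · subst h; simpa using ht0
      · simpa [h] using ht k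
    · have e1 : ∀ x, F x * ((Real.exp (-π * ∑ k ∈ insert j s, l k x ^ 2) : ℝ) : ℂ) =
          F x * ((Real.exp (-π * ∑ k ∈ s, l k x ^ 2) : ℝ) : ℂ) *
            ((Real.exp (-π * l j x ^ 2) : ℝ) : ℂ) := fun x => by
        rw [sum_insert hj, mul_assoc, ← Complex.ofReal_mul, ← Real.exp_add]
        congr 3; ring
      have e2 : ∀ x, F x * e (∑ k ∈ insert j s, Function.update t j t0 k * l k x) =
          F x * e (t0 * l j x) * e (∑ k ∈ s, t k * l k x) := fun x => by
        rw [sum_insert hj, Function.update_self, e_add, mul_assoc]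
        congr 3
        exact sum_congr rfl fun k hk => by
          rw [Function.update_of_ne (ne_of_mem_of_not_mem hk hj)]
      have e3 : ∀ x, F x * ((Real.exp (-π * ∑ k ∈ s, l k x ^ 2) : ℝ) : ℂ) * e (t0 * l j x) =
          F x * e (t0 * l j x) * ((Real.exp (-π * ∑ k ∈ s, l k x ^ 2) : ℝ) : ℂ) := fun x => by
        ring
      simp only [e1, e2]
      simp only [e3] at h0
      have h2 := tsum_norm_mul_le hF hk
      have h3 := tsum_norm_mul_le hF he
      have hc : 0 ≤ √2 * Real.exp (-π * R ^ 2 / 2) := by positivity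
      have h4 := mul_le_mul_of_nonneg_left h2 hc
      have h5 := mul_le_mul_of_nonneg_left h3 (mul_nonneg (Nat.cast_nonneg #s) hc)
      rw [card_insert_of_notMem hj, Nat.cast_add, Nat.cast_one]
      nlinarith

/-- finitely many Gaussian factors -/
theorem gauss [Countable X] {κ : Type*} [Fintype κ] {F : X → ℂ} (hF : Summable fun x => ‖F x‖)
    (l : κ → X → ℝ) {R : ℝ} (hR : 0 ≤ R) : ∃ t : κ → ℝ, (∀ k, |t k| ≤ R) ∧
      ‖∑' x, F x * (Real.exp (-π * ∑ k, l k x ^ 2) : ℝ)‖ ≤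
      ‖∑' x, F x * e (∑ k, t k * l k x)‖ +
        Fintype.card κ * (√2 * Real.exp (-π * R ^ 2 / 2)) * ∑' x, ‖F x‖ :=
  gauss_finset univ l hR hF

/-- a non-negative difference of squared norms is a sum of `finrank` squares of linear forms -/
theorem exists_sq {E F₁ F₂ : Type*} [AddCommGroup E] [Module ℝ E] [FiniteDimensional ℝ E]
    [NormedAddCommGroup F₁] [InnerProductSpace ℝ F₁] [NormedAddCommGroup F₂]
    [InnerProductSpace ℝ F₂] (Q : E →ₗ[ℝ] F₁) (Q₀ : E →ₗ[ℝ] F₂) (h : ∀ y, ‖Q₀ y‖ ≤ ‖Q y‖) :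
    ∃ l : Fin (Module.finrank ℝ E) → E →ₗ[ℝ] ℝ,
      ∀ y, ‖Q y‖ ^ 2 = ‖Q₀ y‖ ^ 2 + ∑ k, l k y ^ 2 := by
  let B : LinearMap.BilinForm ℝ E :=
    (innerₗ F₁).compl₁₂ Q Q - (innerₗ F₂).compl₁₂ Q₀ Q₀
  have hB : ∀ x y, B x y = inner ℝ (Q x) (Q y) - inner ℝ (Q₀ x) (Q₀ y) := fun x y => rfl
  have hs : LinearMap.IsSymm B := ⟨fun x y => by
    rw [RingHom.id_apply, hB, hB, real_inner_comm (Q x), real_inner_comm (Q₀ x)]⟩
  have hq : ∀ y, B y y = ‖Q y‖ ^ 2 - ‖Q₀ y‖ ^ 2 := fun y => by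
    rw [hB, real_inner_self_eq_norm_sq, real_inner_self_eq_norm_sq]
  obtain ⟨b, hb⟩ := LinearMap.BilinForm.exists_orthogonal_basis (B := B) hs
  have h0 : ∀ k, 0 ≤ B (b k) (b k) := fun k => by
    rw [hq]; exact sub_nonneg.2 (pow_le_pow_left₀ (norm_nonneg _) (h _) 2)
  refine ⟨fun k => √(B (b k) (b k)) • b.coord k, fun y => ?_⟩
  have h1 : B y y = ∑ k, b.repr y k ^ 2 * B (b k) (b k) := by
    conv_lhs => rw [← b.sum_repr y]
    simp only [map_sum, map_smul, LinearMap.sum_apply, LinearMap.smul_apply, smul_eq_mul]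
    refine sum_congr rfl fun k _ => ?_
    rw [Finset.sum_eq_single k]
    · ring
    · intro j _ hj
      have : B (b j) (b k) = 0 := hb hj
      rw [this, mul_zero]
    · simp
  have h2 : ∑ k, ((√(B (b k) (b k)) • b.coord k) y) ^ 2 = B y y := by
    rw [h1]
    refine sum_congr rfl fun k _ => ?_
    simp only [LinearMap.smul_apply, Module.Basis.coord_apply, smul_eq_mul, mul_pow,
      Real.sq_sqrt (h0 k)]
    ring
  rw [h2, hq]; ring

/-- **a Gaussian form is a wider Gaussian form times a mixture of characters** -/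
theorem form [Countable X] {E F₁ F₂ : Type*} [AddCommGroup E] [Module ℝ E] [FiniteDimensional ℝ E]
    [NormedAddCommGroup F₁] [InnerProductSpace ℝ F₁] [NormedAddCommGroup F₂]
    [InnerProductSpace ℝ F₂] (Q : E →ₗ[ℝ] F₁) (Q₀ : E →ₗ[ℝ] F₂) (h : ∀ y, ‖Q₀ y‖ ≤ ‖Q y‖)
    (u : X → E) {F : X → ℂ}
    (hF : Summable fun x => ‖F x * (Real.exp (-π * ‖Q₀ (u x)‖ ^ 2) : ℝ)‖) {R : ℝ} (hR : 0 ≤ R) :
    ∃ ζ : E →ₗ[ℝ] ℝ, (∀ y, |ζ y| ≤ Module.finrank ℝ E * R * ‖Q y‖) ∧
      ‖∑' x, F x * (Real.exp (-π * ‖Q (u x)‖ ^ 2) : ℝ)‖ ≤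
      ‖∑' x, F x * (Real.exp (-π * ‖Q₀ (u x)‖ ^ 2) : ℝ) * e (ζ (u x))‖ +
        Module.finrank ℝ E * (√2 * Real.exp (-π * R ^ 2 / 2)) *
          ∑' x, ‖F x * (Real.exp (-π * ‖Q₀ (u x)‖ ^ 2) : ℝ)‖ := by
  obtain ⟨l, hl⟩ := exists_sq Q Q₀ h
  obtain ⟨t, ht, h1⟩ := gauss hF (fun k x => l k (u x)) hR
  refine ⟨∑ k, t k • l k, fun y => ?_, ?_⟩
  · have h2 : ∀ k, |l k y| ≤ ‖Q y‖ := fun k => by
      refine abs_le_of_sq_le_sq' ?_ (norm_nonneg _) |> abs_le.2
      have := single_le_sum (f := fun k => l k y ^ 2) (fun _ _ => sq_nonneg _) (mem_univ k)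
      nlinarith [hl y, sq_nonneg ‖Q₀ y‖]
    simp only [LinearMap.sum_apply, LinearMap.smul_apply, smul_eq_mul]
    refine (abs_sum_le_sum_abs _ _).trans ?_
    refine (sum_le_card_nsmul _ _ (R * ‖Q y‖) fun k _ => ?_).trans (le_of_eq ?_)
    · rw [abs_mul]; exact mul_le_mul (ht k) (h2 k) (abs_nonneg _) hR
    · simp [mul_assoc]
  · simp only [LinearMap.sum_apply, LinearMap.smul_apply, smul_eq_mul]
    rw [Fintype.card_fin] at h1
    refine le_trans (le_of_eq ?_) h1
    congr 1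
    refine tsum_congr fun x => ?_
    rw [mul_assoc, ← Complex.ofReal_mul, ← Real.exp_add, hl]
    congr 3; ring

theorem e_eq_one_iff (x : ℝ) : e x = 1 ↔ ∃ n : ℤ, x = n := by
  constructor
  · intro h
    have := four_dist_le_norm_e_sub_one x
    rw [h, sub_self, norm_zero] at this
    exact ⟨round x, sub_eq_zero.1 (abs_nonpos_iff.1 (by linarith))⟩
  · rintro ⟨n, rfl⟩; exact e_intCast n

theorem integral_ind_e (n : ℤ) : (if n = 0 then 1 else 0 : ℂ) =
    ∫ t : ℝ, (((Set.Ioc (0 : ℝ) 1).indicator (fun _ => (1 : ℝ)) t : ℝ) : ℂ) * e (t * n) := by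
  have h1 : (fun t : ℝ => (((Set.Ioc (0 : ℝ) 1).indicator (fun _ => (1 : ℝ)) t : ℝ) : ℂ) *
      e (t * n)) = (Set.Ioc (0 : ℝ) 1).indicator fun t => e (t * n) := by
    funext t
    by_cases h : t ∈ Set.Ioc (0 : ℝ) 1 <;> simp [h]
  rw [h1, integral_indicator measurableSet_Ioc, ← intervalIntegral.integral_of_le zero_le_one]
  split_ifs with h
  · simp [h]
  · have hc : (2 * π * I * n : ℂ) ≠ 0 := by
      simp [h, Real.pi_ne_zero]
    have h2 : (fun t : ℝ => e (t * n)) = fun t : ℝ => Complex.exp ((2 * π * I * n) * t) := by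
      funext t; rw [e]; congr 1; push_cast; ring
    rw [h2, integral_exp_mul_complex hc]
    have h3 : Complex.exp (2 * π * I * n * ((1 : ℝ) : ℂ)) = 1 := by
      have := Complex.exp_int_mul_two_pi_mul_I n
      rw [← this]; congr 1; push_cast; ring
    rw [h3]; simp

/-- the indicator of `a ∣ l x` (`a = 0` allowed) -/
theorem dvd1 [Countable X] {F : X → ℂ} (hF : Summable fun x => ‖F x‖) (l : X → ℤ) (a : ℤ) :
    ∃ t : ℝ, 0 ≤ t ∧ t ≤ 1 ∧ (∃ n : ℤ, t * a = n) ∧
      ‖∑' x, F x * (if a ∣ l x then 1 else 0)‖ ≤ ‖∑' x, F x * e (t * l x)‖ := by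
  by_cases ha : a = 0
  · subst ha
    have hc := (continuous_tsum_e hF fun x => (l x : ℝ)).norm
    obtain ⟨t0, ht0, hmax⟩ := (isCompact_Icc (a := (0 : ℝ)) (b := 1)).exists_isMaxOn
      ⟨0, by simp⟩ hc.continuousOn
    refine ⟨t0, ht0.1, ht0.2, ⟨0, by simp⟩, ?_⟩
    have hw : Integrable ((Set.Ioc (0 : ℝ) 1).indicator fun _ => (1 : ℝ)) :=
      (integrable_indicator_iff measurableSet_Ioc).2 (integrableOn_const (by simp))
    simp only [zero_dvd_iff]
    refine (mix hF (fun x => (l x : ℝ)) (fun t => Set.indicator_nonneg (fun _ _ => zero_le_one) t)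
      hw fun x => integral_ind_e _).trans ?_
    refine (integral_mono_of_nonneg (g := fun t => ‖∑' x, F x * e (t0 * l x)‖ *
        (Set.Ioc (0 : ℝ) 1).indicator (fun _ => (1 : ℝ)) t)
      (Filter.Eventually.of_forall fun t =>
        mul_nonneg (Set.indicator_nonneg (fun _ _ => zero_le_one) t) (norm_nonneg _))
      (hw.const_mul _) (Filter.Eventually.of_forall fun t => ?_)).trans (le_of_eq ?_)
    · by_cases h : t ∈ Set.Ioc (0 : ℝ) 1
      · simp only [Set.indicator_of_mem h, one_mul, mul_one]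
        exact hmax ⟨h.1.le, h.2⟩
      · simp [h]
    · rw [integral_const_mul, integral_indicator measurableSet_Ioc]; simp
  · obtain ⟨q, hq⟩ : ∃ q : ℕ, q = a.natAbs := ⟨_, rfl⟩
    have hq0 : 0 < q := hq ▸ Int.natAbs_pos.2 ha
    have hdv : ∀ n : ℤ, a ∣ n ↔ (q : ℤ) ∣ n := fun n => by rw [hq]; exact Int.natAbs_dvd.symm
    have hqR : (0 : ℝ) < q := by exact_mod_cast hq0
    have key : ∀ n : ℤ, (if a ∣ n then 1 else 0 : ℂ) =
        (q : ℂ)⁻¹ * ∑ j ∈ range q, e ((j : ℝ) / q * n) := fun n => by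
      have h1 : ∀ j : ℕ, e ((j : ℝ) / q * n) = e ((n : ℝ) / q) ^ j := fun j => by
        rw [← e_nat_mul]; congr 1; ring
      simp only [h1]
      split_ifs with h
      · obtain ⟨c, hc⟩ := (hdv n).1 h
        have : e ((n : ℝ) / q) = 1 := (e_eq_one_iff _).2 ⟨c, by
          rw [hc]; push_cast; field_simp⟩
        have hqC : (q : ℂ) ≠ 0 := by exact_mod_cast hq0.ne'
        simp [this, hqC]
      · have hne : e ((n : ℝ) / q) ≠ 1 := fun h1 => by
          obtain ⟨c, hc⟩ := (e_eq_one_iff _).1 h1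
          refine h ((hdv n).2 ⟨c, ?_⟩)
          rw [div_eq_iff hqR.ne'] at hc
          have : (n : ℝ) = ((q : ℤ) * c : ℤ) := by rw [hc]; push_cast; ring
          exact_mod_cast this
        rw [geom_sum_eq hne, ← e_nat_mul, mul_div_cancel₀ _ hqR.ne', e_intCast]
        simp
    obtain ⟨j, hj, hmax⟩ := exists_max_image (range q)
      (fun j : ℕ => ‖∑' x, F x * e ((j : ℝ) / q * l x)‖) ⟨0, mem_range.2 hq0⟩
    refine ⟨j / q, by positivity, (div_le_one hqR).2 (by exact_mod_cast (mem_range.1 hj).le),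
      ⟨j * a.sign, ?_⟩, ?_⟩
    · have : (a : ℝ) = (a.sign : ℝ) * q := by
        have := Int.sign_mul_natAbs a
        rw [← hq] at this
        exact_mod_cast this.symm
      rw [this]; push_cast; field_simp
    · have h1 : ∑' x, F x * (if a ∣ l x then 1 else 0) =
          (q : ℂ)⁻¹ * ∑ j ∈ range q, ∑' x, F x * e ((j : ℝ) / q * l x) := by
        rw [← Summable.tsum_finsetSum fun j _ =>
          (summable_mul hF fun x => (norm_e _).le).of_norm, ← tsum_mul_left]
        refine tsum_congr fun x => ?_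
        rw [key, ← mul_sum]; ring
      rw [h1, norm_mul, norm_inv, Complex.norm_natCast, inv_mul_le_iff₀ hqR]
      refine (norm_sum_le _ _).trans ((sum_le_card_nsmul _ _ _ hmax).trans (le_of_eq ?_))
      simp

/-- finitely many divisibility conditions -/
theorem dvd_finset [Countable X] {κ : Type*} (s : Finset κ) (l : κ → X → ℤ) (a : κ → ℤ) :
    ∀ {F : X → ℂ}, (Summable fun x => ‖F x‖) → ∃ t : κ → ℝ,
      (∀ k, 0 ≤ t k ∧ t k ≤ 1 ∧ ∃ n : ℤ, t k * a k = n) ∧
      ‖∑' x, F x * (if ∀ k ∈ s, a k ∣ l k x then 1 else 0)‖ ≤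
        ‖∑' x, F x * e (∑ k ∈ s, t k * l k x)‖ := by
  classical
  induction s using Finset.induction_on with
  | empty => exact fun _ => ⟨0, fun _ => ⟨le_rfl, zero_le_one, 0, by simp⟩, by simp⟩
  | insert j s hj ih =>
    intro F hF
    have hk : ∀ x, ‖(if ∀ k ∈ s, a k ∣ l k x then 1 else 0 : ℂ)‖ ≤ 1 := fun x => by
      split_ifs <;> simp
    obtain ⟨t0, ht0, ht1, ht2, h0⟩ := dvd1 (summable_mul hF hk) (l j) (a j)
    have he : ∀ x, ‖e (t0 * l j x)‖ ≤ 1 := fun x => (norm_e _).le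
    obtain ⟨t, ht, h1⟩ := ih (summable_mul hF he)
    refine ⟨Function.update t j t0, fun k => ?_, ?_⟩
    · by_cases h : k = j
      · subst h; simpa using ⟨ht0, ht1, ht2⟩
      · simpa [h] using ht k
    · have e1 : ∀ x, F x * (if ∀ k ∈ insert j s, a k ∣ l k x then 1 else 0 : ℂ) =
          F x * (if ∀ k ∈ s, a k ∣ l k x then 1 else 0 : ℂ) *
            (if a j ∣ l j x then 1 else 0 : ℂ) := fun x => by
        simp only [forall_mem_insert]
        by_cases h1 : a j ∣ l j x <;> by_cases h2 : ∀ k ∈ s, a k ∣ l k x <;> simp [h1, h2]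
      have e2 : ∀ x, F x * e (∑ k ∈ insert j s, Function.update t j t0 k * l k x) =
          F x * e (t0 * l j x) * e (∑ k ∈ s, t k * l k x) := fun x => by
        rw [sum_insert hj, Function.update_self, e_add, mul_assoc]
        congr 3
        exact sum_congr rfl fun k hk => by
          rw [Function.update_of_ne (ne_of_mem_of_not_mem hk hj)]
      have e3 : ∀ x, F x * (if ∀ k ∈ s, a k ∣ l k x then 1 else 0 : ℂ) * e (t0 * l j x) =
          F x * e (t0 * l j x) * (if ∀ k ∈ s, a k ∣ l k x then 1 else 0 : ℂ) := fun x => by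
        ring
      simp only [e1, e2]
      simp only [e3] at h0
      exact h0.trans h1

open Classical in
/-- **the indicator of a coset of any subgroup of a free module of finite rank is a mixture of
characters that are trivial on the subgroup** -/
theorem sub [Countable X] {M : Type*} [AddCommGroup M] [Module.Free ℤ M] [Module.Finite ℤ M]
    (B : Submodule ℤ M) (v : X → M) (r : M) {F : X → ℂ} (hF : Summable fun x => ‖F x‖) :
    ∃ χ : M →+ ℝ, (∀ b ∈ B, ∃ n : ℤ, χ b = n) ∧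
      ‖∑' x, F x * (if v x - r ∈ B then 1 else 0)‖ ≤ ‖∑' x, F x * e (χ (v x))‖ := by
  obtain ⟨n, snf⟩ := B.smithNormalForm (Module.Free.chooseBasis ℤ M)
  let a : Module.Free.ChooseBasisIndex ℤ M → ℤ := fun k =>
    if h : ∃ i, snf.f i = k then snf.a h.choose else 0
  have ha : ∀ i, a (snf.f i) = snf.a i := fun i => by
    have h : ∃ i', snf.f i' = snf.f i := ⟨i, rfl⟩
    simp only [a, dif_pos h]
    rw [snf.f.injective h.choose_spec]
  have ha0 : ∀ k, k ∉ Set.range snf.f → a k = 0 := fun k hk => dif_neg hk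
  have hmem : ∀ y : M, y ∈ B ↔ ∀ k ∈ univ, a k ∣ snf.bM.repr y k := fun y => by
    constructor
    · intro hy k _
      by_cases hk : k ∈ Set.range snf.f
      · obtain ⟨i, rfl⟩ := hk
        rw [ha, show y = ((⟨y, hy⟩ : B) : M) from rfl, snf.repr_apply_embedding_eq_repr_smul,
          map_smul]
        exact Dvd.intro _ rfl
      · rw [show y = ((⟨y, hy⟩ : B) : M) from rfl, snf.repr_eq_zero_of_notMem_range _ hk]
        exact dvd_zero _
    · intro h
      rw [← snf.bM.sum_repr y]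
      refine B.sum_mem fun k hk => ?_
      obtain ⟨c, hc⟩ := h k hk
      by_cases hk' : k ∈ Set.range snf.f
      · obtain ⟨i, rfl⟩ := hk'
        rw [hc, ha, mul_comm, mul_smul, ← snf.snf i]
        exact B.smul_mem _ (snf.bN i).2
      · rw [hc, ha0 k hk', zero_mul, zero_smul]; exact B.zero_mem
  obtain ⟨t, ht, h1⟩ := dvd_finset univ (fun k x => snf.bM.repr (v x - r) k) a hF
  let χ : M →+ ℝ :=
    { toFun := fun y => ∑ k, t k * (snf.bM.repr y k : ℝ)
      map_zero' := by simp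
      map_add' := fun y z => by simp [mul_add, sum_add_distrib] }
  have hχ : ∀ y, χ y = ∑ k, t k * (snf.bM.repr y k : ℝ) := fun _ => rfl
  refine ⟨χ, fun b hb => ?_, ?_⟩
  · choose c hc using fun k => (hmem b).1 hb k (mem_univ k)
    choose m hm using fun k => (ht k).2.2
    refine ⟨∑ k, m k * c k, ?_⟩
    rw [hχ]
    push_cast
    exact sum_congr rfl fun k _ => by rw [hc k, ← hm k]; push_cast; ring
  · simp only [← hmem, ← hχ] at h1
    refine h1.trans (le_of_eq ?_)
    have : ∀ x, F x * e (χ (v x - r)) = F x * e (χ (v x)) * e (-χ r) := fun x => by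
      rw [map_sub, sub_eq_add_neg, e_add, mul_assoc]
    simp only [this]
    rw [tsum_mul_right, norm_mul, norm_e, mul_one]

/-- additive maps `(κ → ℤ) →+ ℝ` are dot products with real vectors -/
theorem addHom_pi {κ : Type*} [Fintype κ] [DecidableEq κ] (χ : (κ → ℤ) →+ ℝ) (y : κ → ℤ) :
    χ y = ∑ k, χ (Pi.single k 1) * (y k : ℝ) := by
  conv_lhs => rw [← Finset.univ_sum_single y]
  rw [map_sum]
  refine sum_congr rfl fun k _ => ?_
  have : (Pi.single k (y k) : κ → ℤ) = y k • (Pi.single k 1 : κ → ℤ) := by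
    ext j; by_cases h : j = k <;> simp [h]
  rw [this, map_zsmul, zsmul_eq_mul, mul_comm]

/-- additive maps on a finite product split over the factors -/
theorem addHom_prod {κ G : Type*} [Fintype κ] [DecidableEq κ] [AddCommGroup G]
    (χ : (κ → G) →+ ℝ) : ∃ χ' : κ → G →+ ℝ, ∀ y, χ y = ∑ k, χ' k (y k) := by
  refine ⟨fun k => χ.comp (AddMonoidHom.single (fun _ => G) k), fun y => ?_⟩
  conv_lhs => rw [← Finset.univ_sum_single y]
  rw [map_sum]
  rfl

end Crest.Agent.T49.Spl
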