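import Crest.Agent.T49.NvCubA_31
import Crest.Agent.T49.Spl_31
import Crest.Agent.T49.FmReb_17
import Crest.Agent.T49.Qp_85

/-! # Row 49 (helper31): NV CUBE, splitting and Gowers-Cauchy-Schwarz -/

set_option autoImplicit false
set_option linter.unusedSectionVars false
set_option maxHeartbeats 400000

noncomputable section

namespace Crest.Agent.T49.Nv

open Tw Rng Gl Finset Hk Submodule
open Crest.Agent.T49.Box (cz)
open Crest.Agent.T49.Tor (e)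
open scoped Classical

namespace C31

variable {κ : Type} [Fintype κ] [DecidableEq κ] {ι : Type} [Fintype ι]

theorem aeval_fun {X : Type} (x : ι → X → ℝ) (P : Pl ι) (ω : X) :
    MvPolynomial.aeval x P ω = MvPolynomial.eval (fun c => x c ω) P := by
  induction P using MvPolynomial.induction_on <;> simp [*]

/-- the window coordinates of the vertices -/
def Th (T : Cell ι) (A : (κ → Bool) → ι → ℤ) (c : ι) : (κ → Bool) → ℝ :=
  fun ω => ev (A ω) (T.th c)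

theorem Th_mem (T : Cell ι) (A : Cu (lvl T.lev) κ) (c : ι) : Th T A.1 c ∈ Pd κ (T.lev c) :=
  mem_Pd (eval_mem_dF A.2 (Rng.degLe_th T c))

variable {s : ℕ} {F : Type} [NormedAddCommGroup F] [InnerProductSpace ℝ F]

/-- the families of vertices that are points of the pattern -/
def B0 (R : Rg s ((κ → Bool) → ℝ) F) (T : Cell ι) : Submodule ℤ ((κ → Bool) → ι → ℤ) where
  carrier := {A | ∀ c, (fun ω => (A ω c : ℝ)) ∈ R.L (T.lev c)}
  add_mem' hx hy c := by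
    convert add_mem (hx c) (hy c) using 1
    funext ω; simp
  zero_mem' c := by
    convert zero_mem (R.L (T.lev c)) using 1
    funext ω; simp
  smul_mem' n x hx c := by
    convert smul_mem _ n (hx c) using 1
    funext ω; simp

variable {R : Rg s ((κ → Bool) → ℝ) F} {T : Cell ι} {g : ℕ}

theorem exists_cube (h2 : ∀ l, R.L l ≤ Nz (cg κ) ^ l) (w : R.Pt T) :
    ∃ A ∈ Cu (lvl T.lev) κ, ∀ c, (w c : (κ → Bool) → ℝ) = fun ω => (A ω c : ℝ) := by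
  choose a ha hw using fun c => int_of_mem (h2 _ (w c).2)
  choose u hu hz using ha
  refine ⟨zeta κ _ fun β c => u c β, zeta_mem_Cu.2 fun β c hc => mem_dF.1 (hu c β) hc,
    fun c => ?_⟩
  rw [hw c, ← hz c]
  funext ω
  exact congrArg _ (map_zeta (Pi.evalAddMonoidHom (fun _ => ℤ) c) (fun β c => u c β) ω).symm

theorem B0_le (h2 : ∀ l, R.L l ≤ Nz (cg κ) ^ l) {A : (κ → Bool) → ι → ℤ} (hA : A ∈ B0 R T) :
    A ∈ Cu (lvl T.lev) κ := by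
  obtain ⟨A', h, e⟩ := exists_cube h2 (T := T) fun c => ⟨_, hA c⟩
  obtain rfl : A = A' := funext fun ω => funext fun c => Int.cast_injective (α := ℝ) (congrFun (e c) ω)
  exact h

/-- the sum over the points of the pattern as a sum over cubes -/
theorem tsum_pt (h2 : ∀ l, R.L l ≤ Nz (cg κ) ^ l) (G : (ι → (κ → Bool) → ℝ) → ℂ) :
    ∑' w : R.Pt T, G (fun c => w c) = ∑' A : Cu (lvl T.lev) κ,
      G (fun c ω => (A.1 ω c : ℝ)) * if A.1 ∈ B0 R T then 1 else 0 := by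
  let j : {A : Cu (lvl T.lev) κ | A.1 ∈ B0 R T} → R.Pt T := fun A c => ⟨_, A.2 c⟩
  have hj : Function.Bijective j := ⟨fun A A' h => Subtype.ext (Subtype.ext (funext fun ω =>
    funext fun c => Int.cast_injective (α := ℝ)
      (congrFun (congrArg Subtype.val (congrFun h c)) ω))), fun w => by
    obtain ⟨A, hA, e⟩ := exists_cube h2 w
    exact ⟨⟨⟨A, hA⟩, fun c => e c ▸ (w c).2⟩, funext fun c => Subtype.ext (e c).symm⟩⟩
  rw [← (Equiv.ofBijective j hj).tsum_eq]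
  refine (tsum_subtype {A : Cu (lvl T.lev) κ | A.1 ∈ B0 R T}
    fun A => G fun c ω => (A.1 ω c : ℝ)).trans (tsum_congr fun A => ?_)
  simp [Set.indicator]

/-- the saturation by `g ^ s` does not change the cubes -/
theorem mem_sup_iff (hs : ∀ c, T.lev c ≤ s)
    (h1 : ∀ l, Nz (fun j => (g : ℝ) • cg κ j) ^ l ≤ R.L l) (h2 : ∀ l, R.L l ≤ Nz (cg κ) ^ l)
    (A : Cu (lvl T.lev) κ) :
    A.1 - 0 ∈ B0 R T ⊔ LinearMap.range (((g : ℤ) ^ s) • LinearMap.id) ↔ A.1 ∈ B0 R T := by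
  rw [sub_zero]
  refine ⟨fun h => ?_, fun h => mem_sup_left h⟩
  obtain ⟨b, hb, _, ⟨y, rfl⟩, e⟩ := mem_sup.1 h
  obtain ⟨u, rfl⟩ := zeta_surj y
  have h3 : zeta κ _ ((g : ℤ) ^ s • u) ∈ Cu (lvl T.lev) κ := by
    have := sub_mem A.2 (B0_le h2 hb)
    rwa [← e, add_sub_cancel_left, LinearMap.smul_apply, LinearMap.id_apply, ← map_zsmul] at this
  rw [← e, LinearMap.smul_apply, LinearMap.id_apply, ← map_zsmul]
  refine add_mem hb fun c => ?_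
  rw [cast_zeta]
  refine sum_mem fun β _ => ?_
  by_cases h4 : wt β ≤ T.lev c
  · have h5 := smul_mem _ ((g : ℤ) ^ (s - T.lev c) * u β c) (h1 _ (smul_vb_mem g h4))
    rw [← Int.cast_smul_eq_zsmul ℝ, smul_smul] at h5
    convert h5 using 2
    simp only [Pi.smul_apply, smul_eq_mul]
    push_cast
    rw [mul_right_comm, pow_sub_mul_pow _ (hs c)]
  · rw [zeta_mem_Cu.1 h3 β c (not_le.1 h4)]
    simp

theorem vp_phase (φ : (κ → Bool) → (ι → ℤ) → ℝ) (A : (κ → Bool) → ι → ℤ) :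
    vp (fun ω z => e (((sg ω : ℤˣ) : ℤ) * φ ω z)) A = e (∑ ω, φ ω (A ω)) := by
  refine (vp_exp (fun ω z => ((sg ω : ℤˣ) : ℤ) * φ ω z) A).trans ?_
  rw [e]
  congr 3
  refine sum_congr rfl fun ω _ => ?_
  rcases Int.units_eq_one_or (sg ω) with h | h <;> simp [h]

theorem exists_l (hs : ∀ c, T.lev c ≤ s) (hE : ∀ l, R.E l = Pd κ l) {r K : ℝ} (hK : 0 ≤ K)
    (hlo : ∀ l ≤ s, ∀ x ∈ R.E l, r ^ 2 * ∑ ω, x ω ^ 2 ≤ ‖R.Q l x‖ ^ 2)
    (hhi : ∀ l ≤ s, ∀ β : κ → Bool, wt β ≤ l → ‖R.Q l (vb β)‖ ≤ K) :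
    ∃ l : ι → Fin (2 ^ Fintype.card κ) → ((κ → Bool) → ℝ) →ₗ[ℝ] ℝ,
      (∀ c j, |l c j (Pi.single (fun _ => true) 1)| ≤ K) ∧ ∀ c, ∀ x ∈ Pd κ (T.lev c),
        ‖R.Q (T.lev c) x‖ ^ 2 = r ^ 2 * ∑ ω, x ω ^ 2 + ∑ j, l c j x ^ 2 := by
  let Q0 : ((κ → Bool) → ℝ) →ₗ[ℝ] EuclideanSpace ℝ (κ → Bool) :=
    r • (WithLp.linearEquiv 2 ℝ ((κ → Bool) → ℝ)).symm.toLinearMap
  have hQ0 : ∀ x, ‖Q0 x‖ ^ 2 = r ^ 2 * ∑ ω, x ω ^ 2 := fun x => by
    simp [Q0, norm_smul, mul_pow, EuclideanSpace.norm_sq_eq]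
  have hd : Module.finrank ℝ ((κ → Bool) → ℝ) = 2 ^ Fintype.card κ := by simp
  rw [← hd]
  choose l hl using fun c => Spl.exists_sq ((R.Q (T.lev c)).comp (pj κ (T.lev c)))
    (Q0.comp (pj κ (T.lev c))) fun y => by
      refine abs_le_of_sq_le_sq' ?_ (norm_nonneg _) |>.2
      rw [LinearMap.comp_apply, hQ0]
      exact hlo _ (hs c) _ (hE _ ▸ pj_mem _ y)
  refine ⟨l, fun c j => ?_, fun c x hx => ?_⟩
  · rw [← vb_top]
    have h3 := hl c (vb fun _ => true)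
    have h4 := single_le_sum (f := fun j => l c j (vb fun _ => true) ^ 2)
      (fun _ _ => sq_nonneg _) (mem_univ j)
    have h5 : ‖(R.Q (T.lev c)).comp (pj κ (T.lev c)) (vb fun _ => true)‖ ≤ K := by
      rw [LinearMap.comp_apply, pj_vb]
      split_ifs with h
      exacts [hhi _ (hs c) _ h, by simpa using hK]
    refine le_trans (abs_le_of_sq_le_sq' ?_ (norm_nonneg _) |> abs_le.2) h5
    linarith [sq_nonneg ‖Q0.comp (pj κ (T.lev c)) (vb fun _ => true)‖]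
  · have := hl c x
    rwa [LinearMap.comp_apply, LinearMap.comp_apply, pj_of_mem hx, hQ0] at this

theorem wt_split {J : Type} [Fintype J] {r : ℝ} (hr : r ≠ 0)
    {l : ι → J → ((κ → Bool) → ℝ) →ₗ[ℝ] ℝ} (hl : ∀ c, ∀ x ∈ Pd κ (T.lev c),
      ‖R.Q (T.lev c) x‖ ^ 2 = r ^ 2 * ∑ ω, x ω ^ 2 + ∑ j, l c j x ^ 2) (A : Cu (lvl T.lev) κ) :
    Real.exp (-Real.pi * ∑ c, ‖R.Q (T.lev c) (Th T A.1 c)‖ ^ 2) =
      (∏ ω, (scl T r hr).wgt (A.1 ω)) *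
        Real.exp (-Real.pi * ∑ j : ι × J, l j.1 j.2 (Th T A.1 j.1) ^ 2) := by
  simp only [Fm.scl_wgt, fun c => hl c _ (Th_mem T A c)]
  rw [← Real.exp_sum, ← Real.exp_add, ← mul_sum, ← mul_add, sum_add_distrib,
    Fintype.sum_prod_type, ← mul_sum, ← mul_sum, sum_comm]
  rfl

theorem tsum_eq {J : Type} [Fintype J] (ht : R.t0 = 1) (h2 : ∀ l, R.L l ≤ Nz (cg κ) ^ l) {r : ℝ}
    (hr : r ≠ 0) {l : ι → J → ((κ → Bool) → ℝ) →ₗ[ℝ] ℝ} (hl : ∀ c, ∀ x ∈ Pd κ (T.lev c),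
      ‖R.Q (T.lev c) x‖ ^ 2 = r ^ 2 * ∑ ω, x ω ^ 2 + ∑ j, l c j x ^ 2) (f : (ι → ℤ) → ℂ) :
    ∑' w : R.Pt T, R.wt T (Off.zero ι _) w •
        ∏ ω, cz (sg ω) (f fun c => ⌊(w c : (κ → Bool) → ℝ) ω⌋) =
      ∑' A : Cu (lvl T.lev) κ, vp (fun _ z => ((scl T r hr).wgt z : ℂ) * f z) A.1 *
        (if A.1 ∈ B0 R T then 1 else 0) *
        (Real.exp (-Real.pi * ∑ j : ι × J, l j.1 j.2 (Th T A.1 j.1) ^ 2) : ℝ) := by
  refine Eq.trans (tsum_congr fun w => ?_) ((tsum_pt (R := R) (T := T) h2 fun x =>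
    Real.exp (-Real.pi * ∑ c, ‖R.Q (T.lev c) (MvPolynomial.aeval x (T.th c))‖ ^ 2) •
      ∏ ω, cz (sg ω) (f fun c => ⌊x c ω⌋)).trans (tsum_congr fun A => ?_))
  · simp only [Rg.wt, dv_zero R ht]
  · have h3 : ∀ c, MvPolynomial.aeval (fun c ω => (A.1 ω c : ℝ)) (T.th c) = Th T A.1 c :=
      fun c => funext fun ω => aeval_fun _ _ ω
    simp only [h3, Int.floor_intCast]
    rw [wt_split hr hl, vp_mul (fun _ z => ((scl T r hr).wgt z : ℂ)) fun _ => f,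
      vp_real fun _ => (scl T r hr).wgt, Complex.real_smul, Complex.ofReal_mul, vp]
    ring

theorem phase_eq {J : Type} [Fintype J] (hg : 1 ≤ g) (l : ι → J → ((κ → Bool) → ℝ) →ₗ[ℝ] ℝ)
    (t : ι × J → ℝ) (χ : ((κ → Bool) → ι → ℤ) →+ ℝ) (n : (κ → Bool) → ι → ℤ)
    (hn : ∀ ω c, χ (((g : ℤ) ^ s) • Pi.single ω (Pi.single c 1)) = n ω c)
    (A : (κ → Bool) → ι → ℤ) :
    ∑ ω, (∑ c, (∑ j, t (c, j) * l c j (Pi.single ω 1)) * ev (A ω) (T.th c) +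
      (∑ c, (n ω c : ℝ) * A ω c) / (g ^ s : ℕ)) = ∑ j, t j * l j.1 j.2 (Th T A j.1) + χ A := by
  rw [sum_add_distrib, sum_comm, Fintype.sum_prod_type]
  congr 1
  · refine sum_congr rfl fun c _ => ?_
    simp only [sum_mul]
    rw [sum_comm]
    refine sum_congr rfl fun j _ => ?_
    rw [LinearMap.pi_apply_eq_sum_univ (l c j) (Th T A c), mul_sum]
    refine sum_congr rfl fun ω _ => ?_
    rw [smul_eq_mul, Th, show (fun j => if ω = j then (1 : ℝ) else 0) = Pi.single ω 1 from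
      funext fun j => by simp [Pi.single_apply, eq_comm]]
    ring
  · conv_rhs => rw [← Finset.univ_sum_single A, map_sum]
    refine sum_congr rfl fun ω _ => ?_
    rw [show χ (Pi.single ω (A ω)) = (χ.comp (AddMonoidHom.single _ ω)) (A ω) from rfl,
      Spl.addHom_pi, sum_div]
    refine sum_congr rfl fun c _ => ?_
    have h4 := hn ω c
    rw [map_zsmul, zsmul_eq_mul] at h4
    have h5 : (0 : ℝ) < g := by exact_mod_cast hg
    rw [← h4]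
    simp only [AddMonoidHom.comp_apply, AddMonoidHom.single_apply]
    push_cast
    field_simp

theorem tsum_vp_le {G : Type} [AddCommGroup G] (Φ : ℕ → AddSubgroup G) {W : G → ℝ}
    (hW0 : ∀ z, 0 ≤ W z) (hW : Summable W) {f : G → ℂ} (hf : ∀ z, ‖f z‖ ≤ W z) :
    ∑' A : Cu Φ κ, ‖vp (fun _ => f) A.1‖ ≤ Zm Φ (Fintype.card κ) W := by
  have h3 := norm_gip_const (F := Φ) (κ := κ) fun z => (W z : ℂ)
  rw [UK_real hW0, gip_real fun _ => W, Complex.norm_real, Real.norm_of_nonneg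
    (tsum_nonneg fun A => prod_nonneg fun ω _ => hW0 _)] at h3
  rw [← h3]
  refine ((Sm.of_le (fun _ => hW) fun _ => hf).cu _).tsum_le_tsum (fun A => ?_)
    (summable_cu (fun _ => hW0) (fun _ => hW) _)
  rw [norm_vp]
  exact prod_le_prod (fun _ _ => norm_nonneg _) fun ω _ => hf _

theorem norm_wgt_mul (T : Cell ι) {ψ : (ι → ℤ) → ℂ} (h : ∀ z, ‖ψ z‖ ≤ 1) (z : ι → ℤ) :
    ‖(T.wgt z : ℂ) * ψ z‖ ≤ T.wgt z := by
  rw [norm_mul, Complex.norm_real, Real.norm_of_nonneg (T.wgt_nonneg z)]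
  exact mul_le_of_le_one_right (T.wgt_nonneg z) (h z)

set_option maxHeartbeats 400000 in
/-- **splitting** -/
theorem split (hg : 1 ≤ g) (hs : ∀ c, T.lev c ≤ s) (ht : R.t0 = 1)
    (h1 : ∀ l, Nz (fun j => (g : ℝ) • cg κ j) ^ l ≤ R.L l) (h2 : ∀ l, R.L l ≤ Nz (cg κ) ^ l)
    {r K ρ : ℝ} (hr : r ≠ 0) (hK : 0 ≤ K) (hρ : 0 ≤ ρ)
    (hlo : ∀ l ≤ s, ∀ x ∈ R.E l, r ^ 2 * ∑ ω, x ω ^ 2 ≤ ‖R.Q l x‖ ^ 2)
    (hhi : ∀ l ≤ s, ∀ β : κ → Bool, wt β ≤ l → ‖R.Q l (vb β)‖ ≤ K)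
    {f : (ι → ℤ) → ℂ} (hf : ∀ z, ‖f z‖ ≤ 1) :
    ∃ (ξ : ι → ℝ) (a : ι → ℤ) (ψ : (κ → Bool) → (ι → ℤ) → ℂ),
      (∀ c, |ξ c| ≤ 2 ^ Fintype.card κ * (ρ * K)) ∧ (∀ ω z, ‖ψ ω z‖ = 1) ∧
      ψ (fun _ => true) = chp T ξ a (g ^ s) ∧
      ‖∑' w : R.Pt T, R.wt T (Off.zero ι _) w •
        ∏ ω, cz (sg ω) (f fun c => ⌊(w c : (κ → Bool) → ℝ) ω⌋)‖ ≤
      ‖gip (lvl T.lev) fun ω z => ((scl T r hr).wgt z : ℂ) * (f z * ψ ω z)‖ +
        Fintype.card ι * 2 ^ Fintype.card κ * (√2 * Real.exp (-Real.pi * ρ ^ 2 / 2)) *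
          Zm (lvl T.lev) (Fintype.card κ) (scl T r hr).wgt := by
  obtain ⟨l, hl1, hl⟩ := exists_l hs (E_eq_Pd hg h1 h2) hK hlo hhi
  rw [tsum_eq ht h2 hr hl]
  have hF : Summable fun A : Cu (lvl T.lev) κ =>
      ‖vp (fun _ z => ((scl T r hr).wgt z : ℂ) * f z) A.1‖ :=
    (Sm.of_le (fun _ => (scl T r hr).summable_wgt) fun _ => norm_wgt_mul _ hf).cu _
  have hi : ∀ A : Cu (lvl T.lev) κ, ‖(if A.1 ∈ B0 R T then 1 else 0 : ℂ)‖ ≤ 1 := fun A => by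
    split_ifs <;> simp
  obtain ⟨t, ht1, ht2⟩ := Spl.gauss (Spl.summable_mul hF hi)
    (fun (j : ι × Fin (2 ^ Fintype.card κ)) A => l j.1 j.2 (Th T A.1 j.1)) hρ
  obtain ⟨χ, hχ, hχ2⟩ := Spl.sub (B0 R T ⊔ LinearMap.range (((g : ℤ) ^ s) • LinearMap.id))
    (fun A : Cu (lvl T.lev) κ => A.1) 0 (Spl.summable_mul hF
      (k := fun A => e (∑ j, t j * l j.1 j.2 (Th T A.1 j.1))) fun _ => (Tor.norm_e _).le)
  choose n hn using fun ω c => hχ (((g : ℤ) ^ s) • Pi.single ω (Pi.single c 1))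
    (mem_sup_right ⟨_, rfl⟩)
  refine ⟨fun c => ∑ j, t (c, j) * l c j (Pi.single (fun _ => true) 1), n fun _ => true,
    fun ω z => e (((sg ω : ℤˣ) : ℤ) * (∑ c, (∑ j, t (c, j) * l c j (Pi.single ω 1)) *
      ev z (T.th c) + (∑ c, (n ω c : ℝ) * z c) / (g ^ s : ℕ))),
    fun c => ?_, fun _ _ => Tor.norm_e _, funext fun z => ?_, ?_⟩
  · refine (abs_sum_le_sum_abs _ _).trans ((sum_le_card_nsmul _ _ (ρ * K) fun j _ => ?_).trans
      (by simp))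
    rw [abs_mul]
    exact mul_le_mul (ht1 _) (hl1 c j) (abs_nonneg _) hρ
  · have : sg (fun _ : κ => true) = 1 := by simp [sg, Box.sb]
    beta_reduce
    rw [this, Units.val_one, Int.cast_one, one_mul]
    rfl
  refine ht2.trans (add_le_add (le_trans (le_of_eq ?_) (hχ2.trans (le_of_eq ?_))) ?_)
  · refine congrArg norm (tsum_congr fun A => ?_)
    rw [if_congr (mem_sup_iff hs h1 h2 A) rfl rfl, mul_right_comm]
  · refine congrArg norm (tsum_congr fun A => ?_)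
    rw [mul_assoc, ← Tor.e_add, ← phase_eq hg l t χ n hn, ← vp_phase (fun ω z =>
      ∑ c, (∑ j, t (c, j) * l c j (Pi.single ω 1)) * ev z (T.th c) +
        (∑ c, (n ω c : ℝ) * z c) / (g ^ s : ℕ)), ← vp_mul]
    simp only [mul_assoc]
  · rw [Fintype.card_prod, Fintype.card_fin, Nat.cast_mul, Nat.cast_pow, Nat.cast_ofNat]
    exact mul_le_mul_of_nonneg_left ((Spl.tsum_norm_mul_le hF hi).trans (tsum_vp_le _
      (scl T r hr).wgt_nonneg (scl T r hr).summable_wgt (norm_wgt_mul _ hf))) (by positivity)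

end C31

open C31 in
theorem cubeStmt : CubeStmt := by
  intro s k
  obtain ⟨C0, hC0⟩ : ∃ C : ℕ, ∀ (u : ℝ) (n g : ℕ) (r : ℝ), 2 ≤ u → (n : ℝ) ≤ u →
      (g : ℝ) ≤ Real.exp u → 1 ≤ g → Real.exp (-u) ≤ r →
      Real.exp (-u ^ C) ≤ (r ^ 2 ^ k * ((2 * 2 ^ k + 1) ^ 2 ^ k *
        ((g : ℝ) ^ s * Real.exp u))⁻¹ ^ 2 ^ k) ^ n ∧
      2 * ((2 : ℝ) ^ k) ^ (2 ^ k * n) ≤ Real.exp (u ^ C) := by qp
  obtain ⟨C1, hC1⟩ : ∃ C : ℕ, ∀ (u : ℝ) (n : ℕ), 2 ≤ u → (n : ℝ) ≤ u →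
      2 * (n * 2 ^ k * √2 * Real.exp (u ^ C0)) * (Real.exp u * Real.exp (u ^ C0)) ≤
        Real.exp (u ^ C) := by qp
  obtain ⟨C, hC, hC2⟩ : ∃ C : ℕ, 1 ≤ C ∧ ∀ (u : ℝ) (g : ℕ), 2 ≤ u → (g : ℝ) ≤ Real.exp u →
      Ri.Zm10.kLoss k s + 1 ≤ u ^ C ∧ 2 ^ k * (u ^ C1 * Real.exp u) ≤ Real.exp (u ^ C) ∧
      (g : ℝ) ^ s ≤ Real.exp (u ^ C) ∧ Real.exp (-u ^ C) ≤
        (Real.exp (-u) * Real.exp (-u ^ C0) / 2) ^ 2 ^ k / Real.exp (u ^ C0) ^ (2 ^ k - 1) := by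
    have : ∀ᶠ C : ℕ in Filter.atTop, ∀ (u : ℝ) (g : ℕ), 2 ≤ u → (g : ℝ) ≤ Real.exp u →
      Ri.Zm10.kLoss k s + 1 ≤ u ^ C ∧ 2 ^ k * (u ^ C1 * Real.exp u) ≤ Real.exp (u ^ C) ∧
      (g : ℝ) ^ s ≤ Real.exp (u ^ C) ∧ Real.exp (-u ^ C) ≤
        (Real.exp (-u) * Real.exp (-u ^ C0) / 2) ^ 2 ^ k / Real.exp (u ^ C0) ^ (2 ^ k - 1) := by qp
    exact ((Filter.eventually_ge_atTop 1).and this).exists
  refine ⟨C, hC, fun κ _ _ ι _ T F _ _ R u r hr g f hk hu hι hs hA _ hr1 hr2 hg1 hg2 ht h1 h2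
    hlo hhi hf hb => ?_⟩
  subst hk
  set k := Fintype.card κ with hk
  obtain ⟨c1, c2⟩ := hC0 u _ g r hu hι hg2 hg1 hr1
  have c3 := hC1 u _ hu hι
  obtain ⟨c4, c5, c6, c7⟩ := hC2 u g hu hg2
  have hr0 : 0 < r := (Real.exp_pos _).trans_le hr1
  have hρ : 1 ≤ u ^ C1 := one_le_pow₀ (by linarith)
  obtain ⟨ξ, a, ψ, d1, d2, d3, d4⟩ := split hg1 hs ht h1 h2 hr (Real.exp_pos u).le
    (zero_le_one.trans hρ) hlo hhi hf
  have hμ := cmu_pos (scl T r hr) k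
  have d5 : Real.exp (-u ^ C0) * cmu (scl T r hr) k ≤ R.mu0 T :=
    (mul_le_mul_of_nonneg_right c1 hμ.le).trans (cmu_le hg1 h1 h2 rfl hr hr0 hr2 (by positivity)
      fun c => le_vol hg1 h1 h2 (hs c) (Real.one_le_exp (by linarith)) (hhi _ (hs c)))
  have d6 : Zm (lvl T.lev) k (scl T r hr).wgt ≤ Real.exp (u ^ C0) * cmu (scl T r hr) k :=
    (Zm_le (T := scl T r hr) hs (Fm.scl_allPC T hr hs (by rwa [abs_of_pos hr0]) hA c4)
      le_rfl).trans (mul_le_mul_of_nonneg_right c2 hμ.le)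
  have d7 : Real.exp (-Real.pi * (u ^ C1) ^ 2 / 2) ≤ (Real.exp (u ^ C1))⁻¹ := by
    rw [← Real.exp_neg]
    refine Real.exp_le_exp.2 ?_
    nlinarith [Real.pi_gt_three, mul_le_mul_of_nonneg_left hρ (zero_le_one.trans hρ)]
  have d8 : Fintype.card ι * 2 ^ k * (√2 * Real.exp (-Real.pi * (u ^ C1) ^ 2 / 2)) *
      Real.exp (u ^ C0) ≤ Real.exp (-u) * Real.exp (-u ^ C0) / 2 := by
    rw [Real.exp_neg, Real.exp_neg, ← mul_inv, le_div_iff₀ two_pos, inv_eq_one_div,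
      le_div_iff₀ (by positivity)]
    calc _ = 2 * (Fintype.card ι * 2 ^ k * √2 * Real.exp (u ^ C0)) *
          (Real.exp u * Real.exp (u ^ C0)) * Real.exp (-Real.pi * (u ^ C1) ^ 2 / 2) := by ring
      _ ≤ Real.exp (u ^ C1) * (Real.exp (u ^ C1))⁻¹ := by gcongr
      _ = 1 := mul_inv_cancel₀ (Real.exp_pos _).ne'
  have d9 : Real.exp (-u) * Real.exp (-u ^ C0) / 2 * cmu (scl T r hr) k ≤
      ‖gip (lvl T.lev) fun ω z => ((scl T r hr).wgt z : ℂ) * (f z * ψ ω z)‖ := by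
    have e1 := mul_le_mul_of_nonneg_left d6 (show 0 ≤ Fintype.card ι * 2 ^ k *
      (√2 * Real.exp (-Real.pi * (u ^ C1) ^ 2 / 2)) by positivity)
    have e2 := mul_le_mul_of_nonneg_right d8 hμ.le
    have e3 := mul_le_mul_of_nonneg_left d5 (Real.exp_pos (-u)).le
    linarith
  have d10 := gcs_vertex (lvl_anti (lev := T.lev)) (scl T r hr).summable_wgt
    (f := fun ω z => ((scl T r hr).wgt z : ℂ) * (f z * ψ ω z)) (fun ω => norm_wgt_mul _ fun z => by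
      rw [norm_mul, d2, mul_one]; exact hf z) fun _ => true
  refine ⟨_, ⟨ξ, a, g ^ s, fun c => (d1 c).trans c5, Nat.one_le_pow _ _ hg1,
    by rwa [Nat.cast_pow], rfl⟩, ?_⟩
  rw [← d3]
  have d11 := ((pow_le_pow_left₀ (by positivity) d9 _).trans d10).trans
    (mul_le_mul_of_nonneg_left (pow_le_pow_left₀ (Zm_nonneg (scl T r hr).wgt_nonneg) d6 _)
      (UK_nonneg _ _))
  refine (mul_le_mul_of_nonneg_right c7 hμ.le).trans ?_
  rw [div_mul_eq_mul_div, div_le_iff₀ (by positivity)]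
  refine le_of_mul_le_mul_right (le_trans (le_of_eq ?_) (d11.trans (le_of_eq ?_)))
    (pow_pos hμ (2 ^ k - 1))
  · rw [mul_pow _ (cmu _ _), mul_assoc, ← pow_succ', Nat.sub_add_cancel Nat.one_le_two_pow]
  · rw [mul_pow, ← mul_assoc]
    rfl

end Crest.Agent.T49.Nv
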