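import Crest.Agent.T49.NvE_74
import Crest.Agent.T49.NvCube_31
import Crest.Agent.T49.Qp_85

/-! # Row 49 (helper74): NV from the statement on the cube ring -/

set_option autoImplicit false

noncomputable section

namespace Crest.Agent.T49.Nv

open Tw Rng Gl Finset MvPolynomial Function
open Crest.Agent.T49.Box (cj cz bx W IsW)

variable {D : ℕ} {ι : Type} {K : Finset (Fin D)} {m a a' b : Fin D → ℤ} {L G : ℕ}

theorem nb_mem (j : K) : nb j ∈ Nz (cg K) := sub_mem (mem_Nz (cg K) none) (mem_Nz _ _)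

theorem evK_gn (o : Option (Fin D ⊕ Fin D)) : evK K b a' (gn K m o) ∈ Nz (cg K) := by
  have h1 : (1 : (K → Bool) → ℝ) ∈ Nz (cg K) := mem_Nz (cg K) none
  rcases o with _ | j | j
  · simpa [gn] using h1
  · by_cases h : j ∈ K
    · have := evK_zj (b := b) (a' := a') ⟨j, h⟩ 0
      rw [gn, this]
      exact add_mem (zsmul_mem h1 _) (zsmul_mem (nb_mem _) _)
    · rw [gn, evK_zj' h]; exact zsmul_mem h1 _
  · simp only [gn]
    split_ifs with h
    · have := evK_ej (b := b) (a' := a') ⟨j, h⟩ (m j)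
      rw [this]; exact zsmul_mem (nb_mem _) _
    · simp

theorem cg_mem {g : ℕ} (hg : ∀ j : K, Int.gcd (b j - m j) (a' j - m j) ∣ g) (o : Option K) :
    (g : ℝ) • cg K o ∈ Nz fun o => evK K b a' (gn K m o) := by
  have h0 : ∀ y ∈ Nz (gn K m), evK K b a' y ∈ Nz fun o => evK K b a' (gn K m o) := fun y hy => by
    rw [← pow_one (Nz _)] at hy ⊢
    exact map_Nz _ (fun j => mem_Nz (fun o => evK K b a' (gn K m o)) j) hy
  have h1 := h0 1 one_mem
  rw [map_one] at h1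
  rw [Nat.cast_smul_eq_nsmul]
  rcases o with _ | j
  · exact nsmul_mem h1 g
  · have h2 := h0 _ (zj_mem j (b j))
    have h3 := h0 _ (ej_mem j.2)
    rw [evK_zj, sub_self, zero_smul, zero_add] at h2
    rw [evK_ej] at h3
    have h4 := sub_mem h3 h2
    rw [← sub_smul, sub_sub_sub_cancel_left] at h4
    have h5 := add_mem (zsmul_mem h4 (Int.gcdA (b j - m j) (a' j - m j)))
      (zsmul_mem h3 (Int.gcdB (b j - m j) (a' j - m j)))
    rw [smul_smul, smul_smul, ← add_smul, mul_comm, mul_comm (Int.gcdB _ _), ← Int.gcd_eq_gcd_ab,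
      natCast_zsmul] at h5
    obtain ⟨n, rfl⟩ := hg j
    have h6 := sub_mem (nsmul_mem h1 (Int.gcd (b j - m j) (a' j - m j) * n)) (nsmul_mem h5 n)
    rwa [← mul_nsmul, ← smul_sub, nb, sub_sub_cancel] at h6

theorem vb_eq (hy : ∀ j ∈ K, a' j - m j ≠ 0) (β : K → Bool) :
    evK K b a' (∏ j ∈ univ.filter fun j => β j = true,
      (1 - ((a' j.1 - m j.1 : ℤ) : ℝ)⁻¹ • (ind j.1 * zj j.1 (m j)))) = vb β := by
  have h : ∀ j : K, evK K b a' (1 - ((a' j.1 - m j.1 : ℤ) : ℝ)⁻¹ • (ind j.1 * zj j.1 (m j))) =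
      cg K (some j) := fun j => by
    rw [map_sub, map_one, map_smul, evK_ej, ← Int.cast_smul_eq_zsmul ℝ, smul_smul,
      inv_mul_cancel₀ (Int.cast_ne_zero.2 (hy j j.2)), one_smul, nb, sub_sub_cancel]
  funext ω
  simp only [map_prod, h, Finset.prod_apply, vb]
  split_ifs with h1
  · refine prod_eq_one fun j hj => ?_
    have : ω j = true := top_le_iff.1 (((mem_filter.1 hj).2).ge.trans (h1 j))
    simp [cg, this]
  · obtain ⟨j, hj⟩ := not_forall.1 (fun h => h1 h)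
    have h2 : β j = true ∧ ω j = false := by
      revert hj; cases β j <;> cases ω j <;> simp
    exact prod_eq_zero (mem_filter.2 ⟨mem_univ _, h2.1⟩) (by simp [cg, h2.2])

variable [Fintype ι] {T : Cell ι} {s : ℕ} {σ B η : ℝ}

/-- **push-forward to the cube ring** -/
theorem St.fin (e : Env T D s σ L B η) (hσL : σ * L ≤ 1) {E : ℝ} (hE : σ⁻¹ ≤ E * L)
    {f : (ι → ℝ) → ℂ} (hf : ∀ x, ‖f x‖ ≤ 1) {δ : ℝ} (hδ : 6 * √η ≤ δ)
    (h : St T s σ L G f K ∅ δ) :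
    ∃ (F : Type) (_ : NormedAddCommGroup F) (_ : InnerProductSpace ℝ F)
      (R : Rg s ((K → Bool) → ℝ) F) (g : ℕ), R.Good T η ∧ 1 ≤ g ∧ g ≤ G ^ #K ∧ R.t0 = 1 ∧
      (∀ l, Nz (fun j => (g : ℝ) • cg K j) ^ l ≤ R.L l) ∧ (∀ l, R.L l ≤ Nz (cg K) ^ l) ∧
      (∀ l ≤ s, ∀ x ∈ R.E l, (2 ^ D * #(mi D s) : ℝ)⁻¹ * ∑ ω, x ω ^ 2 ≤ ‖R.Q l x‖ ^ 2) ∧
      (∀ l ≤ s, ∀ β : K → Bool, Hk.wt β ≤ l → ‖R.Q l (vb β)‖ ≤ 2 ^ D * (1 + G * (E + 1)) ^ s) ∧
      δ / 2 * R.mu0 T ≤ ‖∑' w : R.Pt T, R.wt T (Off.zero ι _) w •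
        ∏ ω, cz (Hk.sg ω) (f fun c => (w c : (K → Bool) → ℝ) ω)‖ := by
  obtain ⟨m, a, a', F, _, _, R, hg, hP, h⟩ := h
  have hp := isW (D := D) e.L1
  have hL1 : (1 : ℝ) ≤ L := by exact_mod_cast e.L1
  simp only [Box.bx_empty hp, W] at h
  rw [tsum_avg R e.lev R.offMem_zero _ _ fun t w => norm_FI_le hf _ _ _ _ t] at h
  obtain ⟨t, ht, h1⟩ := exists_ge_avg (fun _ hx => Box.wt_nonneg hp hx) (Box.wt_sum hp) _
  replace h := h.trans ((Complex.re_le_norm _).trans h1)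
  set b := K.piecewise a t with hb
  have hba : ∀ j ∈ K, b j = a j := fun j hj => piecewise_eq_of_mem _ _ _ hj
  have hbI : ∀ j, b j ∈ Ico (0 : ℤ) L := fun j => by
    by_cases hj : j ∈ K
    · rw [hba j hj]; exact (hg j hj).ha
    · rw [hb, piecewise_eq_of_notMem _ _ _ hj]; exact Fintype.mem_piFinset.1 ht j
  have ne : ∀ {x : ℤ}, (L : ℤ) ≤ G * |x| → x ≠ 0 := fun h h0 => by
    have := e.L1
    rw [h0] at h; simp at h; omega
  have hx : ∀ j ∈ K, b j - m j ≠ 0 := fun j hj => by rw [hba j hj]; exact ne (hg j hj).far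
  have hy : ∀ j ∈ K, a' j - m j ≠ 0 := fun j hj => ne (hg j hj).far'
  have hd : ∀ {x y : ℤ}, x ∈ Ico (0 : ℤ) L → y ∈ Ico (0 : ℤ) L → |((x - y : ℤ) : ℝ)| ≤ L :=
    fun hx hy => by
      have := mem_Ico.1 hx
      have := mem_Ico.1 hy
      exact_mod_cast abs_le.2 ⟨by omega, by omega⟩
  have hlat : ∀ l, IsLat (R.imL (evK K b a') l) := fun l =>
    isLat_of_int LinearMap.id (fun y hy ω => by
      obtain ⟨x, hx, rfl⟩ := (R.mem_imL _).1 hy
      rw [hP.L] at hx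
      exact (int_of hx _).ev _) fun _ _ h => h
  set S := R.quotSur (evK K b a') hlat with hS
  have hσ := inv_pos.2 e.pos
  have hB := e.hB
  let Gk := hP.gens (kg K m b a') kg_mem (kg_span hy) (e.one_le.1.trans e.one_le.2) (by
    have hm : ∀ j ∈ K, |(m j : ℝ)| ≤ L := fun j hj => abs_le_of_mem (hg j hj).hx
    rintro (_ | j | j) S
    · exact (nv_one σ).le.trans (e.one_le.1.trans e.one_le.2)
    · have k1 : nv σ (zj j (b j) S) ≤ B :=
        (nv_zj e.pos j _ S).trans (by linarith [abs_le_of_mem (hbI j)])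
      simp only [kg]
      split_ifs with hj
      · have k2 : nv σ ((ind j * zj j (m j)) S) ≤ B :=
          (nv_ej e.pos j _ S).trans (by linarith [hm j hj])
        rw [Pi.add_apply, Pi.smul_apply, Pi.smul_apply, ← Int.cast_smul_eq_zsmul ℝ,
          ← Int.cast_smul_eq_zsmul ℝ]
        refine (nv_add _ _ _).trans ?_
        rw [nv_smul, nv_smul]
        linarith [mul_le_mul (hd (hg j hj).ha' (hg j hj).hx) k1 (nrm_nonneg _) (by linarith),
          mul_le_mul (hd (hbI j) (hg j hj).ha') k2 (nrm_nonneg _) (by linarith)]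
      · exact k1.trans e.one_le.2
    · exact (gn_nv e.pos hL1 e.hB hm _ S).trans e.one_le.2)
  have hk : S.KGen Gk mk := ⟨fun _ => kg_ker, fun l _ _ y hy' h0 => kgen hx hy (by
    rw [E_eq hP.L] at hy'
    exact pow_le_pow_left' (kg_span hy) l hy') h0⟩
  obtain ⟨g1, g2, g3⟩ := S.good3 Gk hk e.lev (one_le_mul_of_one_le_of_one_le
    (one_le_pow₀ one_le_two) (one_le_pow₀ (e.one_le.1.trans e.one_le.2)))
    (le_of_eq (by simp [two_mul])) (Or.inl e.pc)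
  refine ⟨F, _, _, R.quot (evK K b a') hlat, ∏ j : K, Int.gcd (b j - m j) (a' j - m j), g2,
    Nat.succ_le_of_lt (prod_pos fun j _ => Int.gcd_pos_of_ne_zero_left _ (hx j j.2)), ?_, ?_,
    fun l y hy' => ?_, fun l y hy' => ?_, fun l hl x hx' => ?_, fun l hl β hβ => ?_, ?_⟩
  · refine (prod_le_pow_card _ _ G fun j _ => ?_).trans (by simp)
    rw [hba j j.2]; exact (hg j j.2).gcd
  · rw [Rg.quot_t0, hP.t0, map_one]
  · rw [Rg.quot_L, Rg.mem_imL, hP.L, ← map_pow_eq]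
    exact map_Nz (AlgHom.id ℝ _) (cg_mem fun j => dvd_prod_of_mem _ (mem_univ j)) hy'
  · obtain ⟨x, hx, rfl⟩ := (R.mem_imL _).1 hy'
    rw [hP.L] at hx
    exact map_Nz _ evK_gn hx
  · obtain ⟨y, hy1, rfl⟩ := S.onto_E hx'
    obtain ⟨y', k1, k2, -, k3⟩ := S.exists_min hl hy1
    rw [← k3, ← k2]
    refine le_trans ?_ (hP.Q l hl y' k1).1
    have c0 : (0 : ℝ) < #(mi D s) := by exact_mod_cast card_pos.2 ⟨_, Fm.zero_mem_mi D s⟩
    rw [sq2, mul_inv, mul_assoc]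
    refine mul_le_mul_of_nonneg_left ?_ (by positivity)
    rw [inv_mul_le_iff₀ c0]
    refine le_trans (sum_le_sum (g := fun ω => #(mi D s) * n2 σ s (y' (So K ω))) fun ω _ =>
      ev_sq_le e.pos ((deg_le (E_eq hP.L l ▸ k1) _).trans hl) fun j => ?_) ?_
    · refine le_trans (mul_le_mul_of_nonneg_right (abs_le_of_mem (L := L) ?_) e.pos.le)
        (by rwa [mul_comm])
      by_cases hj : j ∈ So K ω
      · rw [piecewise_eq_of_mem _ _ _ hj]; exact (hg j (So_subset _ hj)).ha'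
      · rw [piecewise_eq_of_notMem _ _ _ hj]; exact hbI j
    · rw [← mul_sum, ← sum_image (f := fun S => n2 σ s (y' S)) fun _ _ _ _ h => So_inj h]
      exact mul_le_mul_of_nonneg_left (sum_le_sum_of_subset_of_nonneg (subset_univ _)
        fun _ _ _ => n2_nonneg _ _ _) c0.le
  · have hc : #(univ.filter fun j => β j = true) ≤ l := by
      refine le_trans (le_of_eq ?_) hβ
      rw [Hk.wt, card_filter]
      exact sum_congr rfl fun j _ => by cases β j <;> simp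
    have hE0 : 0 ≤ E := nonneg_of_mul_nonneg_left (hσ.le.trans hE) (by linarith)
    have k1 : ∏ j ∈ univ.filter fun j : K => β j = true,
        (1 - ((a' j.1 - m j.1 : ℤ) : ℝ)⁻¹ • (ind j.1 * zj j.1 (m j))) ∈ R.E l := by
      rw [E_eq hP.L]
      refine prod_mem_pow' (mem_Nr _ none) (fun j _ => sub_mem (mem_Nr _ none)
        (Submodule.smul_mem _ _ ?_)) hc
      simpa [gn] using mem_Nr (gn K m) (some (Sum.inr j.1))
    rw [← vb_eq (b := b) hy β]
    refine (S.norm_le hl k1).1.trans (hP.norm_le hl k1 fun S' => (nv_prod _ (fun j _ S'' => ?_)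
      S').trans (pow_le_pow_right₀ (le_add_of_nonneg_right (by positivity)) (hc.trans hl)))
    rw [sub_eq_add_neg, ← neg_smul, Pi.add_apply, Pi.smul_apply]
    refine (nv_add _ _ _).trans (add_le_add (nv_one σ).le ?_)
    rw [nv_smul, abs_neg, abs_inv, inv_mul_le_iff₀ (abs_pos.2 (Int.cast_ne_zero.2 (hy j j.2)))]
    have k2 : (L : ℝ) ≤ G * |((a' j.1 - m j.1 : ℤ) : ℝ)| := by exact_mod_cast (hg j j.2).far'
    refine (nv_ej e.pos _ _ _).trans ?_
    nlinarith [abs_le_of_mem (hg j j.2).hx, mul_le_mul_of_nonneg_left k2 (by linarith : 0 ≤ E + 1)]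
  · have k := S.push e.lev e.e0 (by linarith [e.e1]) g1 g2 g3 R.offMem_zero
      (g := fun w => ∏ ω, cz (Hk.sg ω) (f fun c => (w c : (K → Bool) → ℝ) ω)) (B := 1)
      fun w => by
        rw [norm_prod]
        exact prod_le_one (fun _ _ => norm_nonneg _) fun _ _ => by rw [Box.norm_cz]; exact hf _
    have k1 : ∀ w : R.Pt T, FI f K a a' (fun c => w c) t =
        ∏ ω, cz (Hk.sg ω) (f fun c => (S.pt w c : (K → Bool) → ℝ) ω) := fun w => prod_So _
    simp only [k1] at h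
    have k2 := h.trans (norm_le_norm_add_norm_sub' _ _ |>.trans (add_le_add_right k _))
    have p1 := S.mu1_pos (T := T) e.lev
    have p2 := R.mu0_pos (T := T) e.lev
    rw [norm_smul, Real.norm_of_nonneg p1.le, map_zero_off] at k2
    refine le_of_mul_le_mul_left ?_ p1
    rw [mul_left_comm, ← S.mu0_eq e.lev]
    nlinarith

theorem nv_of_cube (hC : CubeStmt) : NVStmt := by
  intro s D k hk
  obtain ⟨C0, hC0, hC⟩ := hC s k
  obtain ⟨C1, h1⟩ : ∃ C : ℕ, ∀ R G : ℝ, 2 ≤ R → 0 ≤ G →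
      G ≤ 10 / (Real.exp (-R) / 4 / 4) ^ 2 ^ k + 1 → R ≤ R ^ C ∧ G ^ k ≤ Real.exp (R ^ C) ∧
      G ≤ Real.exp (R ^ C) ∧ 2 ^ D * (1 + G * (Real.exp R + 1)) ^ s ≤ Real.exp (R ^ C) ∧
      Real.exp (-R ^ C) ≤ 4 * (Real.exp (-R) / 4 / 4) ^ 2 ^ k / 2 ∧
      Real.exp (-R ^ C) ≤ (4 * (Real.exp (-R) / 4 / 4) ^ 2 ^ k / 6) ^ 2 := by qp
  obtain ⟨C2, h2⟩ : ∃ C : ℕ, ∀ y L : ℝ, 2 ≤ y → 1 ≤ L → L ≤ Real.exp y →
      (((3 * (2 * D + 1) + 2 : ℕ) : ℝ) ^ s + s + Real.log (2 * (2 ^ D * (2 * L *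
        (Real.exp y * L + L)) ^ s)) + 2) ^ 6 ≤ y ^ C ∧
      (s + 1) ^ (D + 1) * ((s + 1) * (s * (2 * y)) + s ^ 2 + 1) ≤ y ^ C := by qp
  have c0 : (1 : ℝ) ≤ 2 ^ D * #(mi D s) := one_le_mul_of_one_le_of_one_le (one_le_pow₀ one_le_two)
    (by exact_mod_cast card_pos.2 ⟨_, Fm.zero_mem_mi D s⟩)
  refine ⟨C1 * C0 + C2 + 1, (2 ^ D * #(mi D s) : ℝ)⁻¹, by positivity, ?_⟩
  intro ι _ T σ L R y r hr K Z f hS hRy hL hr0 hr1 hK hf h
  have hR := hS.two
  have hy : 2 ≤ y := hR.trans hS.le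
  have hL1 : (1 : ℝ) ≤ L := (Real.one_le_exp (by positivity)).trans hL
  have hσ : 0 < σ := (mul_pos_iff_of_pos_right (by linarith)).1 ((Real.exp_pos _).trans_le hS.lo)
  have hσR : σ⁻¹ ≤ Real.exp R * L := by
    rw [inv_le_iff_one_le_mul₀ hσ, mul_assoc, mul_comm _ σ, ← inv_le_iff_one_le_mul₀'
      (Real.exp_pos _), ← Real.exp_neg]
    exact hS.lo
  have hσy : σ⁻¹ ≤ Real.exp y * L :=
    hσR.trans (mul_le_mul_of_nonneg_right (Real.exp_le_exp.2 hS.le) (by linarith))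
  set δ := (Real.exp (-R) / 4 / 4) ^ 2 ^ k with hδ
  have hδ0 : 0 < δ := by positivity
  obtain ⟨a1, a2, a3, a4, a5, a6⟩ := h1 R ⌈10 / δ⌉₊ hR (Nat.cast_nonneg _)
    (Nat.ceil_lt_add_one (by positivity)).le
  obtain ⟨b1, b2⟩ := h2 y L hy hL1 hS.Lle
  have m1 : y ^ C2 ≤ y ^ (C1 * C0 + C2 + 1) := Qp.pw_mono hy (by omega)
  have m2 : R ^ (C1 * C0) ≤ R ^ (C1 * C0 + C2 + 1) := Qp.pw_mono hR (by omega)
  have m3 : R ^ C1 ≤ R ^ (C1 * C0) := Qp.pw_mono hR (Nat.le_mul_of_pos_right _ hC0)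
  have m4 : y ≤ y ^ (C1 * C0 + C2 + 1) := le_self_pow₀ (by linarith) (by omega)
  have hη : Real.exp (-y ^ (C1 * C0 + C2 + 1)) ≤ 1 / 2 := by
    rw [Real.exp_neg, one_div]
    exact inv_anti₀ two_pos (by linarith [Real.add_one_le_exp (y ^ (C1 * C0 + C2 + 1))])
  have e : Env T D s σ L (Real.exp y * L + L) (Real.exp (-y ^ (C1 * C0 + C2 + 1))) :=
    ⟨hS.lev, hσ, by exact_mod_cast hL1, by linarith,
      Cell.allPC_mono hS.pc (b1.trans m1) le_rfl, Real.exp_pos _, hη⟩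
  have hM := Fm.fw_mass_le (D := D) T hS.lev hσ (v := 2 * y) (by linarith) (hσy.trans (by
    rw [two_mul, Real.exp_add]
    exact mul_le_mul_of_nonneg_left hS.Lle (Real.exp_pos _).le)) hS.pc (b2.trans m1)
  have s0 := St.start e (hM.trans (mul_le_mul_of_nonneg_right (by linarith)
    (Fm.fmu_pos T D hσ).le)) hf ⌈10 / δ⌉₊ (card_pos.1 (by omega)) (Real.exp_pos _).le h
  have s1 := St.all e (fun _ => hf _) (G := ⌈10 / δ⌉₊)
    (by exact_mod_cast a3.trans ((Real.exp_le_exp.2 (m3.trans m2)).trans hL)) K ∅ _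
    (disjoint_empty_left _) (by positivity)
    (by linarith [Real.exp_le_one_iff.2 (show -R ≤ 0 by linarith)])
    (by rw [hK, ← hδ, ← div_le_iff₀ hδ0]; exact Nat.le_ceil _) s0
  rw [empty_union, hK, ← hδ] at s1
  obtain ⟨F, _, _, R0, g, g1, g2, g3, g4, g5, g6, g7, g8, g9⟩ := s1.fin e hS.hi hσR
    (fun _ => hf _) (by
      rw [← le_div_iff₀' (by norm_num)]
      exact Real.sqrt_le_iff.2 ⟨by positivity,
        (Real.exp_le_exp.2 (by linarith)).trans a6⟩)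
  have hr2 : r ≤ 1 := hr1.trans (inv_le_one_of_one_le₀ c0)
  have hr3 : 0 < r := (Real.exp_pos _).trans_le hr0
  obtain ⟨ψ, ⟨ξ, n, q, k1, k2, k3, k4⟩, k5⟩ := hC K ι T F R0 (R ^ C1) r hr g f (by simpa using hK)
    (hR.trans a1) (hS.card.trans a1) hS.lev
    (Cell.allPC_mono hS.pc (by rw [← pow_mul]; linarith) hη) (g1.mono hη)
    ((Real.exp_le_exp.2 (by linarith)).trans hr0) hr2 g2
    (le_trans (by rw [← hK]; exact_mod_cast g3) a2) g4 g5 g6
    (fun l hl x hx => le_trans (mul_le_mul_of_nonneg_right (by nlinarith)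
      (sum_nonneg fun _ _ => sq_nonneg _)) (g7 l hl x hx))
    (fun l hl β hβ => (g8 l hl β hβ).trans a4) hf
    ((mul_le_mul_of_nonneg_right a5 (R0.mu0_pos hS.lev).le).trans g9)
  rw [← pow_mul] at k1 k3 k5
  have m5 := Real.exp_le_exp.2 m2
  refine ⟨ψ, ⟨ξ, n, q, fun c => (k1 c).trans m5, k2, k3.trans m5, k4⟩, le_trans ?_ k5⟩
  exact mul_le_mul_of_nonneg_right (Real.exp_le_exp.2 (by linarith))
    (prod_nonneg fun _ _ => by positivity)

/-- **(NV)** -/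
theorem nvStmt : NVStmt := nv_of_cube cubeStmt

end Crest.Agent.T49.Nv
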