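import Crest.Agent.T49.RegDef_2

/-!
# Row 49 (helper81): `ZmStmt`, a zoom is an exact mixture
-/

set_option autoImplicit false

open MvPolynomial MeasureTheory ProbabilityTheory

noncomputable section

namespace Crest.Agent.T49.Rg

open Tw

variable {ι : Type}

theorem ev_dl (G : ι → ℕ+) (r z : ι → ℤ) (c : ι) :
    ev z (dl G r c) = ((r c + ((G c : ℕ) : ℤ) * z c : ℤ) : ℝ) := by
  rw [dl, ev_add, ev_mul, ev_C, ev_C, ev_X]
  push_cast
  rfl

theorem pt_dl (G : ι → ℕ+) (r z : ι → ℤ) :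
    pt (dl G r) z = fun c => r c + ((G c : ℕ) : ℤ) * z c := by
  funext c
  rw [pt, ev_dl, Int.floor_intCast]

theorem isInt_dl (G : ι → ℕ+) (r : ι → ℤ) (c : ι) : IsInt (dl G r c) :=
  (isInt_C_int _).add ((isInt_X c).nat_mul _)

theorem ev_bind_dl (G : ι → ℕ+) (r z : ι → ℤ) (f : Pl ι) :
    ev z (bind₁ (dl G r) f) = ev (pt (dl G r) z) f :=
  ev_bind_of_eq (fun c => by rw [ev_dl, pt_dl]) f

theorem zm_th (T : Cell ι) (G : ι → ℕ+) (u : ι → ℝ) (r : ι → ℤ) (t : ι → ℝ) (c : ι) :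
    (zm T G u r t).th c = C (Real.exp (u c)) * (bind₁ (dl G r) (T.th c) - C (t c)) := by
  simp only [Tri.th, zm, map_add, map_mul, map_sub, bind₁_C_right, bind₁_X_right, dl]
  ring

theorem ev_zm_th (T : Cell ι) (G : ι → ℕ+) (u : ι → ℝ) (r : ι → ℤ) (t : ι → ℝ) (z : ι → ℤ) (c : ι) :
    ev z ((zm T G u r t).th c) = Real.exp (u c) * (ev (pt (dl G r) z) (T.th c) - t c) := by
  rw [zm_th, ev_mul, ev_sub, ev_C, ev_C, ev_bind_dl]

theorem zm_wgt [Fintype ι] (T : Cell ι) (G : ι → ℕ+) (u : ι → ℝ) (r : ι → ℤ) (t : ι → ℝ)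
    (z : ι → ℤ) : (zm T G u r t).wgt z =
      ∏ c, Real.exp (-Real.pi * (Real.exp (u c) * (ev (pt (dl G r) z) (T.th c) - t c)) ^ 2) := by
  simp only [Tri.wgt, ev_zm_th, Finset.mul_sum, Real.exp_sum]

theorem zm_mu [Fintype ι] (T : Cell ι) (G : ι → ℕ+) (u : ι → ℝ) (r : ι → ℤ) (t : ι → ℝ) :
    (zm T G u r t).mu = T.mu / ((∏ c, ((G c : ℕ) : ℝ)) * ∏ c, Real.exp (u c)) := by
  simp only [Tri.mu, zm, abs_mul, mul_inv, Finset.prod_mul_distrib, Nat.abs_cast,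
    abs_of_pos (Real.exp_pos _), div_eq_mul_inv, Finset.prod_inv_distrib, mul_assoc]

namespace Z81

/-- a Gaussian is a mixture of narrower Gaussians -/
theorem mix {u : ℝ} (hu : 0 ≤ u) : ∃ v : NNReal, ∀ x : ℝ,
    ∫ t, Real.exp u * Real.exp (-Real.pi * (Real.exp u * (x - t)) ^ 2) ∂(gaussianReal 0 v) =
      Real.exp (-Real.pi * x ^ 2) := by
  rcases hu.eq_or_lt with rfl | hu
  · exact ⟨0, fun x => by simp⟩
  set E := Real.exp u with hE
  have hE1 : 1 < E := Real.one_lt_exp_iff.2 hu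
  have hE0 : 0 < E := by linarith
  have hE2 : 0 < E ^ 2 - 1 := by nlinarith
  have hp := Real.pi_pos
  have hv : 0 < (E ^ 2 - 1) / (E ^ 2 * (2 * Real.pi)) := by positivity
  have hw : 0 < (E ^ 2 - 1) / (E ^ 4 * (2 * Real.pi)) := by positivity
  obtain ⟨v, hv'⟩ : ∃ v : NNReal, (v : ℝ) = (E ^ 2 - 1) / (E ^ 2 * (2 * Real.pi)) :=
    ⟨⟨_, hv.le⟩, rfl⟩
  obtain ⟨w, hw'⟩ : ∃ w : NNReal, (w : ℝ) = (E ^ 2 - 1) / (E ^ 4 * (2 * Real.pi)) :=
    ⟨⟨_, hw.le⟩, rfl⟩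
  refine ⟨v, fun x => ?_⟩
  rw [integral_gaussianReal_eq_integral_smul (fun h => hv.ne' (by rw [← hv', h]; rfl))]
  have h1 := integral_gaussianPDFReal_eq_one ((E ^ 2 - 1) / E ^ 2 * x) (v := w)
    (fun h => hw.ne' (by rw [← hw', h]; rfl))
  rw [← mul_one (Real.exp (-Real.pi * x ^ 2)), ← h1, ← integral_const_mul]
  refine integral_congr_ae (Filter.Eventually.of_forall fun t => ?_)
  simp only [gaussianPDFReal, hv', hw', smul_eq_mul]
  have h2 : √(2 * Real.pi * ((E ^ 2 - 1) / (E ^ 2 * (2 * Real.pi)))) =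
      E * √(2 * Real.pi * ((E ^ 2 - 1) / (E ^ 4 * (2 * Real.pi)))) := by
    rw [← Real.sqrt_sq hE0.le, ← Real.sqrt_mul (sq_nonneg E), Real.sqrt_sq hE0.le]
    congr 1
    field_simp
  have h3 : 0 < √(2 * Real.pi * ((E ^ 2 - 1) / (E ^ 4 * (2 * Real.pi)))) :=
    Real.sqrt_pos.2 (by positivity)
  have h4 : Real.exp (-(t - 0) ^ 2 / (2 * ((E ^ 2 - 1) / (E ^ 2 * (2 * Real.pi))))) *
      Real.exp (-Real.pi * (E * (x - t)) ^ 2) = Real.exp (-Real.pi * x ^ 2) *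
      Real.exp (-(t - (E ^ 2 - 1) / E ^ 2 * x) ^ 2 /
        (2 * ((E ^ 2 - 1) / (E ^ 4 * (2 * Real.pi))))) := by
    rw [← Real.exp_add, ← Real.exp_add]
    congr 1
    field_simp
    ring
  rw [h2]
  generalize √(2 * Real.pi * ((E ^ 2 - 1) / (E ^ 4 * (2 * Real.pi)))) = q at h3
  calc _ = q⁻¹ * (Real.exp (-(t - 0) ^ 2 / (2 * ((E ^ 2 - 1) / (E ^ 2 * (2 * Real.pi))))) *
      Real.exp (-Real.pi * (E * (x - t)) ^ 2)) := by field_simp
    _ = _ := by rw [h4]; ring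

/-- residues and quotients -/
def grid (G : ι → ℕ+) : ((∀ c, Fin (G c)) × (ι → ℤ)) ≃ (ι → ℤ) :=
  ((Equiv.prodComm _ _).trans
    (Equiv.arrowProdEquivProdArrow ι (fun _ => ℤ) fun c => Fin (G c)).symm).trans
    (Equiv.piCongrRight fun c => (Int.divModEquiv (G c)).symm)

theorem grid_apply (G : ι → ℕ+) (p : (∀ c, Fin (G c)) × (ι → ℤ)) :
    grid G p = pt (dl G fun c => ((p.1 c : ℕ) : ℤ)) p.2 := by
  rw [pt_dl]
  funext c
  show p.2 c * ((G c : ℕ) : ℤ) + ((p.1 c : ℕ) : ℤ) = _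
  ring

/-- pigeonhole over the residue classes -/
theorem exists_class [Fintype ι] (G : ι → ℕ+) {f : (ι → ℤ) → ℝ} (hf : Summable f) :
    ∃ r : ι → ℤ, (∑' z, f z) / ∏ c, ((G c : ℕ) : ℝ) ≤ ∑' z, f (pt (dl G r) z) := by
  classical
  have h1 : ∑' z, f z =
      ∑ r : ∀ c, Fin (G c), ∑' z, f (pt (dl G fun c => ((r c : ℕ) : ℤ)) z) := by
    have := ((grid G).summable_iff.2 hf).tsum_prod
    simp only [Function.comp_apply] at this
    rw [← (grid G).tsum_eq, this, tsum_fintype]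
    simp only [grid_apply]
  have hpos : (0 : ℝ) < ∏ c, ((G c : ℕ) : ℝ) :=
    Finset.prod_pos fun c _ => Nat.cast_pos.2 (G c).pos
  obtain ⟨r, -, hr⟩ := Finset.exists_le_of_sum_le (s := (Finset.univ : Finset (∀ c, Fin (G c))))
    Finset.univ_nonempty (f := fun _ => (∑' z, f z) / ∏ c, ((G c : ℕ) : ℝ))
    (g := fun r => ∑' z, f (pt (dl G fun c => ((r c : ℕ) : ℤ)) z)) (by
      rw [← h1, Finset.sum_const, Finset.card_univ, Fintype.card_pi, nsmul_eq_mul]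
      simp only [Fintype.card_fin, Nat.cast_prod]
      rw [mul_div_cancel₀ _ hpos.ne'])
  exact ⟨_, hr⟩

theorem pt_one (z : ι → ℤ) : pt (dl (fun _ => 1) 0) z = z := by
  rw [pt_dl]; funext c; simp

/-- narrowing -/
theorem exists_centre [Fintype ι] (T : Cell ι) {u : ι → ℝ} (hu : ∀ c, 0 ≤ u c)
    {h : (ι → ℤ) → ℝ} {K : ℝ} (hh : ∀ z, |h z| ≤ K) (h0 : Sg T.toTri h ≠ 0) :
    ∃ t, Sg T.toTri h ≤ (∏ c, Real.exp (u c)) * Sg (zm T (fun _ => 1) u 0 t).toTri h := by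
  choose v hv using fun c => mix (hu c)
  set ν : Measure (ι → ℝ) := Measure.pi fun c => gaussianReal 0 (v c) with hν
  set k : (ι → ℤ) → ∀ _ : ι, ℝ → ℝ := fun z c t => Real.exp (u c) *
    Real.exp (-Real.pi * (Real.exp (u c) * (ev z (T.th c) - t)) ^ 2) with hk
  have hk0 : ∀ z c t, 0 < k z c t := fun z c t => by simp only [hk]; positivity
  have hint : ∀ z, ∫ t, ∏ c, k z c (t c) ∂ν = T.wgt z := fun z => by
    rw [hν, integral_fintype_prod_eq_prod, Tri.wgt, Finset.mul_sum, Real.exp_sum]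
    exact Finset.prod_congr rfl fun c _ => hv c _
  have hI : ∀ z, Integrable (fun t : ι → ℝ => ∏ c, k z c (t c)) ν := fun z =>
    Integrable.of_integral_ne_zero (by rw [hint]; exact (T.wgt_pos z).ne')
  have h1 := hasSum_integral_of_summable_integral_norm (μ := ν)
    (F := fun z t => (∏ c, k z c (t c)) * h z) (fun z => (hI z).mul_const _) (by
      refine (T.summable_mul_real (f := fun z => |h z|) (K := K)
        fun z => by simpa using hh z).congr fun z => ?_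
      rw [← hint, ← integral_mul_const]
      refine integral_congr_ae (Filter.Eventually.of_forall fun t => ?_)
      simp only [Real.norm_eq_abs, abs_mul,
        abs_of_pos (Finset.prod_pos fun c _ => hk0 z c (t c))])
  simp only [integral_mul_const, hint] at h1
  have h2 : Sg T.toTri h = ∫ t, ∑' z, (∏ c, k z c (t c)) * h z ∂ν := h1.tsum_eq
  obtain ⟨t, ht⟩ := exists_integral_le (μ := ν)
    (Integrable.of_integral_ne_zero (by rw [← h2]; exact h0))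
  refine ⟨t, h2.trans_le (ht.trans_eq ?_)⟩
  rw [Sg, ← tsum_mul_left]
  refine tsum_congr fun z => ?_
  rw [zm_wgt, pt_one, ← mul_assoc, ← Finset.prod_mul_distrib]

end Z81

theorem zmStmt : ZmStmt := by
  intro ι _ T G u h K κ hu hh hκ hS
  have h0 : 0 < Sg T.toTri h := (mul_pos hκ T.mu_pos).trans_le hS
  obtain ⟨t, ht⟩ := Z81.exists_centre T hu hh h0.ne'
  obtain ⟨r, hr⟩ := Z81.exists_class G
    ((zm T (fun _ => 1) u 0 t).summable_mul_real hh)
  refine ⟨r, t, le_trans ?_ (hr.trans_eq (tsum_congr fun z => ?_))⟩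
  · have p1 : (0 : ℝ) < ∏ c, ((G c : ℕ) : ℝ) :=
      Finset.prod_pos fun c _ => Nat.cast_pos.2 (G c).pos
    have p2 : (0 : ℝ) < ∏ c, Real.exp (u c) := Finset.prod_pos fun c _ => Real.exp_pos _
    rw [zm_mu, ← mul_div_assoc, mul_comm (∏ c, ((G c : ℕ) : ℝ)), ← div_div]
    refine div_le_div_of_nonneg_right ?_ p1.le
    rw [div_le_iff₀' p2]
    exact hS.trans ht
  · rw [zm_wgt, zm_wgt, Z81.pt_one]

end Crest.Agent.T49.Rg
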