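import Crest.Agent.T49.RegDemDef_4
import Crest.Agent.T49.MxCov_53

/-!
# Row 49 (helper33): regularisation, the loop and the constants: `DemStmt → RegStmt`
-/

set_option autoImplicit false

open MvPolynomial

noncomputable section

namespace Crest.Agent.T49.Rg

open Tw

variable {ι ι' : Type}

theorem Mor.isMC [Fintype ι] [Fintype ι'] {o s : ℕ} {T : Cell ι} {cl : ι → ℕ} {T' : Cell ι'}
    {cl' : ι' → ℕ} {φ : ι → Pl ι'} {v : ι' → ι} {G : ℕ+} {u Y : ℝ}
    (h : Mor o T cl T' cl' φ v G u Y) (hT : T.IsMC cl) (hS : St o s T' cl') : T'.IsMC cl' := by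
  classical
  refine Cell.isMC_of_th (fun c => ?_) fun c => ?_
  · by_cases hc : cl' c ≤ o
    · rw [h.old_cl c hc]; exact hT.pos _
    · omega
  · by_cases hc : cl' c ≤ o
    · obtain ⟨t, ht⟩ := h.old_th c hc
      have h1 := (h.v_old c).1 hc
      have h2 : T.th (v c) ∈ supported ℝ {c' | cl c' ≤ o} :=
        supported_mono (fun c' (hc' : cl c' ≤ cl (v c)) => hc'.trans h1) (hT.th (v c)).supp
      rw [ht, bind_congr_supp (g' := fun c' => if cl c' ≤ o then φ c' else 0)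
        (fun c' (hc' : cl c' ≤ o) => (if_pos hc').symm) h2, h.old_cl c hc]
      refine ((MCP.bind (fun c' => ?_) (hT.th (v c))).sub (MCP.C _)).C_mul _
      split_ifs with hc'
      · obtain ⟨c'', rfl⟩ := h.v_surj c' hc'
        have h3 := (h.v_old c'').2 hc'
        obtain ⟨r, hr⟩ := h.old_φ c'' h3
        rw [hr]
        exact (MCP.C _).add ((MCP.X' (h.old_cl c'' h3)).C_mul _)
      · exact MCP.zero
    · intro m hm c' hc'
      have h1 := hS.lev_eq (not_le.1 hc)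
      by_cases h2 : cl' c' ≤ o
      · exact Or.inl (by omega)
      · have h3 := hS.lev_eq (not_le.1 h2)
        rcases (Cell.isMC_lev T').th c m hm c' hc' with h4 | h4
        · exact Or.inl (by omega)
        · exact Or.inr ⟨by omega, h4.2⟩

theorem mor_same [Fintype ι] (o : ℕ) {T T' : Cell ι} (cl : ι → ℕ) (ha : T'.a = T.a)
    (hth : T'.th = T.th) (hl : T'.lev = T.lev) (Y : ℝ) : Mor o T cl T' cl X id 1 0 Y :=
  Mor.of_iso Y (fun c => isInt_X c) (fun c => hl ▸ degLe_X c)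
    (fun c _ => ⟨congrFun hl c, rfl, by rw [hth, bind_X_eq], congrFun ha c⟩)
    fun z z' _ => by rw [pt_X, pt_X]; simp only [Dj, hth]

theorem kapM_nonneg [Fintype ι] (T : Cell ι) (cl : ι → ℕ) (j : ℕ) : 0 ≤ T.kapM cl j :=
  add_nonneg zero_le_one (Finset.sum_nonneg fun _ _ => add_nonneg zero_le_one
    (Real.log_nonneg (le_add_of_nonneg_right (abs_nonneg _))))

theorem kt_nonneg' [Fintype ι] (T : Tri ι) : 0 ≤ kt T :=
  Finset.sum_nonneg fun _ _ => Real.log_nonneg (le_add_of_nonneg_right (abs_nonneg _))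

theorem pot_le [Fintype ι] {o s : ℕ} {T : Cell ι} (cl : ι → ℕ) (h : ∀ c, T.lev c ≤ s) :
    pot T cl o ≤ s * Fintype.card ι := by
  refine (Finset.sum_le_card_nsmul _ _ s fun c _ => ?_).trans_eq (by simp [mul_comm])
  split_ifs
  exacts [h c, Nat.zero_le _]

/-- the one step statement at fixed parameters -/
def Step (s A o : ℕ) (τ : ℕ → ℝ) (lam y n : ℝ) : Prop :=
  ∀ (ι : Type) [Fintype ι] (T : Cell ι) (cl : ι → ℕ) (X : ℝ) (h : (ι → ℤ) → ℝ) (j : ℕ) (d : ℕ+)
  (u' : ℝ) (r : ι → ℤ) (t : ι → ℝ),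
  St o s T cl → (Fintype.card ι : ℝ) + 2 ≤ n → 0 ≤ X →
  (∀ i, o < i → i ≤ o + s → T.kapM cl i ≤ τ i) →
  X + kt T.toTri + A * n * (τ (o + 1) + y + lam) ≤ Real.exp lam → (∀ z, |h z| ≤ 2) →
  Real.exp (-X) * T.mu ≤ Sg T.toTri h →
  o < j → j ≤ o + s → ((d : ℕ) : ℝ) ≤ Real.exp y → 0 ≤ u' → u' ≤ y →
  ¬ (zo T cl o d u' r t).RegAtM cl j (Real.exp (τ (j + 1) + lam)) (Real.exp (τ j)) →
  ∃ (ι' : Type) (_ : Fintype ι') (T' : Cell ι') (cl' : ι' → ℕ) (φ : ι → Pl ι') (v : ι' → ι)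
    (G : ℕ+) (u : ℝ), Mor o T cl T' cl' φ v G u (2 * (τ (o + 2) + lam)) ∧ St o s T' cl' ∧
    pot T' cl' o < pot T cl o ∧
    ((G : ℕ) : ℝ) ≤ Real.exp (A * (τ (o + 1) + y + lam)) ∧ u ≤ A * (τ (o + 1) + y + lam) ∧
    (∀ i, o < i → i ≤ o + s → T'.kapM cl' i ≤ T.kapM cl i + A * n * (τ (i + 1) + lam)) ∧
    lm T'.toTri cl' (o + 1) ≤ lm T.toTri cl (o + 1) + A * n * (τ (o + 2) + lam) ∧
    kt T'.toTri ≤ kt T.toTri + A * n * (τ (o + 1) + y + lam) ∧
    Real.exp (-(X + A * (τ (o + 1) + lam))) * T'.mu ≤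
      Sg T'.toTri fun z => h (pt φ z) + 2 * Real.exp (-(2 * lam))

theorem loop {s A o : ℕ} {τ : ℕ → ℝ} {lam y n : ℝ} (hD : Step s A o τ lam y n) (hs : 1 ≤ s)
    (hlam : 0 ≤ lam) (hy : 0 ≤ y) (hτ : ∀ i, o < i → i ≤ o + s + 1 → 0 ≤ τ i) (p : ℕ) :
    ∀ (ι : Type) [Fintype ι] (T : Cell ι) (cl : ι → ℕ) (X : ℝ) (h : (ι → ℤ) → ℝ),
    pot T cl o < p → St o s T cl → (Fintype.card ι : ℝ) + 2 ≤ n → 0 ≤ X →
    (∀ i, o < i → i ≤ o + s → T.kapM cl i + p * (A * n * (τ (i + 1) + lam)) ≤ τ i) →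
    X + kt T.toTri + p * (2 * (A * n * (τ (o + 1) + y + lam))) ≤ Real.exp lam →
    (∀ z, |h z| + p * (2 * Real.exp (-(2 * lam))) ≤ 2) → Real.exp (-X) * T.mu ≤ Sg T.toTri h →
    ∃ (ι' : Type) (_ : Fintype ι') (T' : Cell ι') (cl' : ι' → ℕ) (φ : ι → Pl ι') (v : ι' → ι)
      (G : ℕ+) (u : ℝ), Mor o T cl T' cl' φ v G u (2 * (τ (o + 2) + lam)) ∧ St o s T' cl' ∧
      ((G : ℕ) : ℝ) ≤ Real.exp (p * (A * (τ (o + 1) + y + lam))) ∧
      u ≤ p * (A * (τ (o + 1) + y + lam)) ∧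
      (∀ i, o < i → i ≤ o + s → T'.kapM cl' i ≤ T.kapM cl i + p * (A * n * (τ (i + 1) + lam))) ∧
      lm T'.toTri cl' (o + 1) ≤ lm T.toTri cl (o + 1) + p * (A * n * (τ (o + 2) + lam)) ∧
      (∀ j, o < j → j ≤ o + s → ∀ (d : ℕ+) (u' : ℝ) (r : ι' → ℤ) (t : ι' → ℝ),
        ((d : ℕ) : ℝ) ≤ Real.exp y → 0 ≤ u' → u' ≤ y →
        (zo T' cl' o d u' r t).RegAtM cl' j (Real.exp (τ (j + 1) + lam)) (Real.exp (τ j))) ∧
      Real.exp (-(X + p * (A * (τ (o + 1) + lam)))) * T'.mu ≤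
        Sg T'.toTri (fun z => h (pt φ z)) + p * (2 * Real.exp (-(2 * lam))) * T'.M := by
  have t1 := hτ (o + 1) (by omega) (by omega)
  have t2 := hτ (o + 2) (by omega) (by omega)
  have hA : (0 : ℝ) ≤ A := Nat.cast_nonneg A
  have hε := Real.exp_pos (-(2 * lam))
  induction p with
  | zero => exact fun _ _ _ _ _ _ h => absurd h (Nat.not_lt_zero _)
  | succ p ih =>
    intro ι _ T cl X h hp hS hn hX hk hb hh hg
    have hn1 : (1 : ℝ) ≤ n := by linarith [Nat.cast_nonneg (α := ℝ) (Fintype.card ι)]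
    have hp0 : (0 : ℝ) ≤ p := Nat.cast_nonneg p
    have hq : ∀ i, o < i → i ≤ o + s → 0 ≤ (A : ℝ) * n * (τ (i + 1) + lam) := fun i h1 h2 => by
      have := hτ (i + 1) (by omega) (by omega)
      positivity
    have hh2 : ∀ z, |h z| ≤ 2 := fun z => le_trans (le_add_of_nonneg_right (by positivity)) (hh z)
    push_cast at hk hb hh ⊢
    by_cases hR : ∀ j, o < j → j ≤ o + s → ∀ (d : ℕ+) (u' : ℝ) (r : ι → ℤ) (t : ι → ℝ),
        ((d : ℕ) : ℝ) ≤ Real.exp y → 0 ≤ u' → u' ≤ y →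
        (zo T cl o d u' r t).RegAtM cl j (Real.exp (τ (j + 1) + lam)) (Real.exp (τ j))
    · refine ⟨ι, inferInstance, T, cl, MvPolynomial.X, id, 1, 0, mor_same o cl rfl rfl rfl _, hS, ?_,
        by positivity, fun i h1 h2 => le_add_of_nonneg_right (mul_nonneg (by positivity)
          (hq i h1 h2)), le_add_of_nonneg_right (by positivity), hR, ?_⟩
      · simpa using Real.one_le_exp (x := (p + 1) * (A * (τ (o + 1) + y + lam))) (by positivity)
      · simp only [pt_X]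
        refine le_trans ?_ (hg.trans (le_add_of_nonneg_right (mul_nonneg (by positivity)
          T.M_pos.le)))
        refine mul_le_mul_of_nonneg_right (Real.exp_le_exp.2 (neg_le_neg ?_)) T.mu_pos.le
        exact le_add_of_nonneg_right (by positivity)
    · push Not at hR
      obtain ⟨j, j1, j2, d, u', r, t, d1, u1, u2, hv⟩ := hR
      have b0 : 0 ≤ (A : ℝ) * n * (τ (o + 1) + y + lam) := by positivity
      have b1 : (A : ℝ) * (τ (o + 1) + lam) ≤ A * n * (τ (o + 1) + y + lam) := by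
        rw [mul_assoc]
        exact mul_le_mul_of_nonneg_left (by nlinarith) hA
      obtain ⟨ι1, _, T1, cl1, φ1, v1, G1, w1, m1, s1, p1, g1, x1, k1, l1, c1, e1⟩ :=
        hD ι T cl X h j d u' r t hS hn hX (fun i h1 h2 => le_trans (le_add_of_nonneg_right
          (mul_nonneg (by positivity) (hq i h1 h2))) (hk i h1 h2)) (by nlinarith) hh2 hg
          j1 j2 d1 u1 u2 hv
      have hc : (Fintype.card ι1 : ℝ) ≤ Fintype.card ι := Nat.cast_le.2 m1.card_le
      obtain ⟨ι2, _, T2, cl2, φ2, v2, G2, w2, m2, s2, g2, x2, k2, l2, r2, e2⟩ :=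
        ih ι1 T1 cl1 (X + A * (τ (o + 1) + lam))
          (fun z => h (pt φ1 z) + 2 * Real.exp (-(2 * lam))) (by omega) s1 (by linarith)
          (by positivity) (fun i h1 h2 => by linarith [k1 i h1 h2, hk i h1 h2]) (by linarith)
          (fun z => by
            have := abs_add_le (h (pt φ1 z)) (2 * Real.exp (-(2 * lam)))
            rw [abs_of_pos (a := 2 * _) (by positivity)] at this
            linarith [hh (pt φ1 z)]) e1
      refine ⟨ι2, inferInstance, T2, cl2, _, _, _, _, m1.trans m2, s2, ?_, by linarith,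
        fun i h1 h2 => by linarith [k1 i h1 h2, k2 i h1 h2], by linarith, r2, ?_⟩
      · rw [PNat.mul_coe, Nat.cast_mul, add_mul, one_mul, add_comm, Real.exp_add]
        exact mul_le_mul g1 g2 (by positivity) (by positivity)
      · rw [Sg_add_const T2.toTri (g := fun z => h (pt φ1 (pt φ2 z))) (fun z => hh2 _)] at e2
        simp only [pt_comp m2.int]
        rw [show X + (p + 1) * (A * (τ (o + 1) + lam)) =
          X + A * (τ (o + 1) + lam) + p * (A * (τ (o + 1) + lam)) by ring]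
        linarith

theorem consts {s A c : ℕ} {n : ℝ} (hs : 1 ≤ s) (hn : (c : ℝ) + 2 ≤ n) :
    1 ≤ n ^ (2 * s * (A + 1) + 2) ∧ 2 * ((s * c + 1 : ℕ) : ℝ) ≤ n ^ (2 * s * (A + 1) + 2) ∧
    ∀ w : ℝ, 0 ≤ w → (s * c + 1 : ℕ) * (A * w) ≤ n ^ (2 * s * (A + 1) + 2) * w ∧
      (s * c + 1 : ℕ) * (A * n * w) ≤ n ^ (2 * s * (A + 1) + 2) * w ∧
      (s * c + 1 : ℕ) * (2 * (A * n * w)) ≤ n ^ (2 * s * (A + 1) + 2) * w := by
  have hc : (0 : ℝ) ≤ c := Nat.cast_nonneg _
  have hA0 : (0 : ℝ) ≤ A := Nat.cast_nonneg A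
  have hs1 : (1 : ℝ) ≤ s := Nat.one_le_cast.2 hs
  have hn2 : (2 : ℝ) ≤ n := by linarith
  have hP0 : 1 ≤ n ^ (2 * s * (A + 1) + 2) := one_le_pow₀ (by linarith)
  have hP1 : 2 * s * (A + 1) * n ^ 2 ≤ n ^ (2 * s * (A + 1) + 2) := by
    rw [pow_add]
    refine mul_le_mul_of_nonneg_right (le_trans ?_ (pow_le_pow_left₀ zero_le_two hn2 _))
      (by positivity)
    exact_mod_cast (Nat.lt_two_pow_self (n := 2 * s * (A + 1))).le
  have hp1 : ((s * c + 1 : ℕ) : ℝ) ≤ s * n := by push_cast; nlinarith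
  have hp0 : (0 : ℝ) ≤ (s * c + 1 : ℕ) := Nat.cast_nonneg _
  generalize n ^ (2 * s * (A + 1) + 2) = P at *
  generalize ((s * c + 1 : ℕ) : ℝ) = p at *
  have hp2 : 2 * (p * ((A + 1) * n)) ≤ P := le_trans (by
    have := mul_le_mul_of_nonneg_right hp1 (show 0 ≤ (A + 1 : ℝ) * n by positivity)
    linarith) hP1
  have hpA : 0 ≤ (p : ℝ) * A := by positivity
  have hp3 : (p : ℝ) * A ≤ p * A * n := le_mul_of_one_le_right hpA (by linarith)
  have hp6 : (p : ℝ) ≤ p * n := le_mul_of_one_le_right hp0 (by linarith)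
  have hp4 : 2 * ((p : ℝ) * A * n) ≤ P := by linarith
  refine ⟨hP0, by linarith, fun w hw => ?_⟩
  have a1 := mul_le_mul_of_nonneg_right hp3 hw
  have a2 := mul_le_mul_of_nonneg_right hp4 hw
  have a3 := mul_nonneg hpA hw
  refine ⟨?_, ?_, ?_⟩ <;> linarith

theorem regStmt_of (hD : DemStmt) : RegStmt := by
  intro s hs
  obtain ⟨A, hA⟩ := hD s hs
  refine ⟨2 * s * (A + 1) + 2, ?_⟩
  intro o ι _ T cl τ lam X y n g hT h1 h2 hn hlam hy hX h0 hk hb hg he
  obtain ⟨hP0, hp5, key⟩ := consts (A := A) hs hn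
  generalize n ^ (2 * s * (A + 1) + 2) = P at *
  obtain ⟨p, hp⟩ : ∃ p, p = s * Fintype.card ι + 1 := ⟨_, rfl⟩
  rw [← hp] at hp5 key
  have hp0 : (0 : ℝ) ≤ p := Nat.cast_nonneg p
  have hτ : ∀ k i, i + k = o + s + 1 → o < i → 0 ≤ τ i := fun k => by
    induction k with
    | zero => exact fun i hi _ => by rw [show i = o + s + 1 by omega]; exact h0
    | succ k ih =>
      intro i hi ho
      have := ih (i + 1) (by omega) (by omega)
      exact le_trans (add_nonneg (kapM_nonneg T cl i) (by positivity)) (hk i ho (by omega))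
  have hτ' : ∀ i, o < i → i ≤ o + s + 1 → 0 ≤ τ i := fun i h3 h4 =>
    hτ (o + s + 1 - i) i (by omega) h3
  have t1 := hτ' (o + 1) (by omega) (by omega)
  have t2 := hτ' (o + 2) (by omega) (by omega)
  have hmono : ∀ i, o < i → i ≤ o + s → τ (i + 1) ≤ τ i := fun i h3 h4 => by
    have := hτ' (i + 1) (by omega) (by omega)
    linarith [hk i h3 h4, kapM_nonneg T cl i,
      le_mul_of_one_le_left (show 0 ≤ τ (i + 1) + lam by linarith) hP0]
  have hS : Step s A o τ lam y n := fun ι _ T cl X h j d u' r t a1 a2 a3 a4 =>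
    hA o ι T cl τ lam X y n h j d u' r t a1 a2 hlam a3 h0 fun i h3 h4 => ⟨hmono i h3 h4, a4 i h3 h4⟩
  have hε : p * (2 * Real.exp (-(2 * lam))) ≤ Real.exp (-lam) := by
    have e1 : 2 * (p : ℝ) ≤ Real.exp lam := by
      linarith [kt_nonneg' T.toTri, le_mul_of_one_le_right (show 0 ≤ P by linarith)
        (show 1 ≤ τ (o + 1) + y + lam by linarith)]
    have e2 : Real.exp (-lam) = Real.exp lam * Real.exp (-(2 * lam)) := by
      rw [← Real.exp_add]; congr 1; ring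
    rw [e2]
    linarith [mul_le_mul_of_nonneg_right e1 (Real.exp_pos (-(2 * lam))).le]
  have hε1 : Real.exp (-lam) ≤ 1 := Real.exp_le_one_iff.2 (by linarith)
  obtain ⟨T0, s0, a0, th0, l0⟩ := exists_st hT h1 h2
  have k0 : ∀ j, T0.kapM cl j = T.kapM cl j := fun j => by simp only [Cell.kapM, a0]
  have m0 := mor_same o cl a0 th0 l0 (2 * (τ (o + 2) + lam))
  obtain ⟨ι', _, T', cl', φ, v, G, u, m, s', g', u', k', l', r', e'⟩ :=
    loop hS hs (by linarith) hy hτ' p ι T0 cl X g (hp ▸ Nat.lt_succ_of_le (pot_le cl s0.lev_le)) s0 hn hX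
      (fun i h3 h4 => by
        have := hτ' (i + 1) (by omega) (by omega)
        linarith [k0 i, hk i h3 h4, (key (τ (i + 1) + lam) (by linarith)).2.1])
      (by
        have : kt T0.toTri = kt T.toTri := by simp only [kt, a0]
        linarith [(key (τ (o + 1) + y + lam) (by linarith)).2.2])
      (fun z => by linarith [hg z])
      (by
        have e1 : T0.mu = T.mu := by simp only [Tri.mu, a0]
        have e2 : Sg T0.toTri g = Sg T.toTri g := by simp only [Sg, Tri.wgt, th0]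
        rwa [e1, e2])
  have m' := m0.trans m
  refine ⟨ι', inferInstance, T', cl', _, _, _, _, m', m'.isMC hT s', s'.cls, s'.lev_le, ?_, ?_,
    fun j h3 h4 => ?_, ?_, r', ?_⟩
  · rw [one_mul]
    exact g'.trans (Real.exp_le_exp.2 (key _ (by linarith)).1)
  · linarith [(key (τ (o + 1) + y + lam) (by linarith)).1]
  · have := hτ' (j + 1) (by omega) (by omega)
    linarith [k0 j, k' j h3 h4, (key (τ (j + 1) + lam) (by linarith)).2.1]
  · have : lm T0.toTri cl (o + 1) = lm T.toTri cl (o + 1) := by simp only [lm, a0]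
    linarith [(key (τ (o + 2) + lam) (by linarith)).2.1]
  · simp only [bind₁_X_right]
    refine le_trans (mul_le_mul_of_nonneg_right (Real.exp_le_exp.2 (neg_le_neg ?_)) T'.mu_pos.le)
      (e'.trans (add_le_add le_rfl (mul_le_mul_of_nonneg_right hε T'.M_pos.le)))
    linarith [(key (τ (o + 1) + lam) (by linarith)).1]

end Crest.Agent.T49.Rg
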