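import Crest.Agent.T49.RegDem_4
import Crest.Agent.T49.RegLoop_33
import Crest.Agent.T49.OReg_26

/-! Row 49: the regularisation statements, unconditional. -/

namespace Crest.Agent.T49

theorem Rg.regStmt : Rg.RegStmt := Rg.regStmt_of Rg.demStmt

theorem Fr.oRegStmt : Fr.ORegStmt := Fr.oRegStmt_of Rg.regStmt

end Crest.Agent.T49
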