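import Crest.Agent.T49.FmPC_17
import Crest.Agent.T49.StEq_57

/-!
# Row 49 (helper59): END, the statement of the robust sampler on frames
-/

set_option autoImplicit false

noncomputable section

namespace Crest.Agent.T49.End

open MvPolynomial Finset Crest.Agent.T49.Tw Crest.Agent.T49.Gl Crest.Agent.T49.Fm

variable {ι : Type} [Fintype ι] {D : ℕ}

/-- mean of `ψ` over the window of precision `q` with centre `c` and the class `r` modulo `d` -/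
def wm (T : Cell ι) (q : ℝ) (c : ι → ℝ) (d : ℕ) (r : ι → ℤ) (ψ : (ι → ℤ) → ℝ) : ℝ :=
  Samp.lm (fun z c => ev z (T.th c)) id (fun _ => q) c d r ψ

/-- admissible shapes: centred, unit base window, free Taylor coefficients of degree `≤ 1`;
the spread `exp (-y)` and the losses `x` -/
structure ShOK (S : Sh ι D) (lev : ι → ℕ) (L : ℕ) (x y : ℝ) : Prop where
  r : S.r = 0
  cen : S.cen = 0
  sc0 : ∀ c, S.sc c 0 = 1
  g1 : ∀ c α, α.degree ≤ 1 → S.g c α = 1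
  ok : S.Ok lev x
  sc_le : ∀ c α, S.sc c α * (L : ℝ) ^ α.degree ≤ 1
  spread : ∀ c i, Real.exp (-y) ≤ S.sc c (Finsupp.single i 1) * L
  uni : ∀ c c' α, S.sc c α = S.sc c' α ∧ S.g c α = S.g c' α

/-- **SAMPT**: a dense family of frames that all see an average `≥ δ` of `ψ` yields a fine window
and a class with mean almost `δ`; the range of windows and classes does not depend on `x` -/
def SampT (s D : ℕ) : Prop :=
  ∀ κ : ℝ, 0 < κ → ∃ C : ℕ, ∀ (ι : Type) [Fintype ι] (T : Cell ι) (S : Sh ι D) (L : ℕ)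
    (x y β δ : ℝ) (ψ : (ι → ℤ) → ℝ) (Z : Finset (FI D T.lev → ℤ)),
    (∀ c, T.lev c ≤ s) → (Fintype.card ι : ℝ) + 2 ≤ y → y ≤ x → ShOK S T.lev L x y →
    Real.exp (y ^ C) ≤ L → T.AllPC (x ^ C) (Real.exp (-x ^ C)) → (∀ z, |ψ z| ≤ 1) → 0 ≤ β →
    (∀ (q : ℝ) (c : ι → ℝ) (d : ℕ) (r : ι → ℤ), 4 ≤ q → q ≤ Real.exp (y ^ C) → 1 ≤ d →
      (d : ℝ) ≤ Real.exp (y ^ C) → |wm T q c d r ψ| ≤ β) →
    Real.exp (-y) * S.mu T ≤ ∑ z ∈ Z, (S.fc T).wgt z →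
    (∀ z ∈ Z, δ * (L : ℝ) ^ D ≤ ∑ u ∈ pos D L, ψ fun c => eval u (S.fr z c)) →
    ∃ (q : ℝ) (c : ι → ℝ) (d : ℕ) (r : ι → ℤ), 4 ≤ q ∧ q ≤ Real.exp (y ^ C) ∧ 1 ≤ d ∧
      (d : ℝ) ≤ Real.exp (y ^ C) ∧ δ - κ * β - Real.exp (-y) ≤ wm T q c d r ψ

/-- `SampT` holds for frames of all large dimensions -/
def SampTStmt : Prop := ∀ s, 1 ≤ s → ∃ D0 : ℕ, ∀ D, D0 ≤ D → SampT s D

end Crest.Agent.T49.End
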