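import Crest.Agent.T49.StFr_57
import Crest.Agent.T49.EndDef_59

/-!
# Row 49 (helper57): the robust sampler on frames
-/

set_option autoImplicit false

noncomputable section

namespace Crest.Agent.T49.Samp

open Tw Rng Gl Fm Finset End Real

variable {D s : ℕ} {ι : Type} [Fintype ι]

theorem cub_zero (D L : ℕ) : cub (0 : Fin D → ℤ) L = pos D L := by simp [cub, pos]

theorem four_le_exp_two : (4 : ℝ) ≤ exp 2 := by
  have := pow_le_pow_left₀ (by norm_num) (show (2 : ℝ) ≤ exp 1 by linarith [add_one_le_exp 1]) 2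
  rw [← exp_nat_mul] at this
  norm_num at this
  exact this

theorem loss_le {G L x : ℝ} (s n : ℕ) (G1 : 1 ≤ G) (G2 : G ≤ exp x) (L0 : 0 ≤ L) (L1 : L ≤ exp x) :
    loss s n (2 * ((G ^ s * (4 * (1 + L) ^ 2)) ^ s * exp x)) ≤
      (((3 * n + 2 : ℕ) : ℝ) ^ s + s + (s * (s * x + (2 * x + 4)) + x + 2) + 2) ^ 6 := by
  have x1 : 1 ≤ exp x := G1.trans G2
  have e0 := four_le_exp_two
  have e1 : 4 * (1 + L) ^ 2 ≤ exp (2 * x + 4) := by
    have h1 := pow_le_pow_left₀ (by positivity) (show 1 + L ≤ 2 * exp x by linarith) 2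
    have h2 : exp (2 * x + 4) = exp 2 * (exp 2 * exp x ^ 2) := by
      rw [← exp_nat_mul, ← exp_add, ← exp_add]; congr 1; push_cast; ring
    rw [h2]
    refine mul_le_mul e0 (h1.trans ?_) (by positivity) (by positivity)
    rw [mul_pow]
    exact mul_le_mul_of_nonneg_right (by linarith) (by positivity)
  have e2 : G ^ s ≤ exp (s * x) := by
    rw [exp_nat_mul]
    exact pow_le_pow_left₀ (by linarith) G2 s
  have e3 : 2 * (2 * ((G ^ s * (4 * (1 + L) ^ 2)) ^ s * exp x)) ≤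
      exp (s * (s * x + (2 * x + 4)) + x + 2) := by
    rw [exp_add, exp_add, exp_nat_mul, exp_add, mul_comm _ (exp 2), ← mul_assoc]
    exact mul_le_mul (by linarith) (mul_le_mul_of_nonneg_right (pow_le_pow_left₀ (by positivity)
      (mul_le_mul e2 e1 (by positivity) (exp_pos _).le) s) (exp_pos _).le) (by positivity)
      (exp_pos _).le
  have e4 : (1 : ℝ) ≤ 2 * (2 * ((G ^ s * (4 * (1 + L) ^ 2)) ^ s * exp x)) := by
    have := one_le_mul_of_one_le_of_one_le (one_le_pow₀ (n := s) (one_le_mul_of_one_le_of_one_le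
      (one_le_pow₀ (n := s) G1) (show (1 : ℝ) ≤ 4 * (1 + L) ^ 2 by nlinarith))) x1
    linarith
  have e5 := log_nonneg e4
  have e6 := (log_le_iff_le_exp (by linarith)).2 e3
  exact pow_le_pow_left₀ (by positivity) (by linarith) 6

/-- the relations between the sieve level `Q`, its inverse `t` and the accuracy `b⁻¹` -/
structure Num (Q t b n : ℝ) : Prop where
  b1 : 1 ≤ b
  Qb : 4096 * b ^ 3 ≤ Q
  Qn : 4 * (n + 7) ≤ Q
  n0 : 0 ≤ n
  ht : t = Q⁻¹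

namespace Num
variable {Q t b n : ℝ} (h : Num Q t b n)
include h

theorem Q1 : 4096 ≤ Q := by nlinarith [h.Qb, one_le_pow₀ (n := 3) h.b1]
theorem Q2 : 1 ≤ Q := by linarith [h.Q1]
theorem t0 : 0 < t := h.ht ▸ inv_pos.2 (by linarith [h.Q1])
theorem tQ : Q * t = 1 := h.ht ▸ mul_inv_cancel₀ (by linarith [h.Q1])
theorem tQ' (k : ℕ) : Q ^ k * t ^ k = 1 := by rw [← mul_pow, h.tQ, one_pow]
theorem t1 : 4096 * t ≤ 1 := h.tQ ▸ mul_le_mul_of_nonneg_right h.Q1 h.t0.le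
theorem tp {k l : ℕ} (hk : k ≤ l) : t ^ l ≤ t ^ k :=
  pow_le_pow_of_le_one h.t0.le (by linarith [h.t1, h.t0]) hk
theorem tp1 {l : ℕ} (hk : 1 ≤ l) : t ^ l ≤ t := by simpa using h.tp hk

theorem tb : 4096 * t * b ^ 2 ≤ b⁻¹ := by
  rw [← one_div, le_div_iff₀ (by linarith [h.b1]), ← h.tQ]
  linarith [mul_le_mul_of_nonneg_right h.Qb h.t0.le]

theorem sq {k : ℕ} : √(t ^ (k + 24)) ≤ t ^ 12 :=
  sqrt_le_iff.2 ⟨(pow_pos h.t0 _).le, by rw [← pow_mul]; exact h.tp (by omega)⟩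

theorem small (k : ℕ) : 2 * (Q * ((1 + Q ^ 2) ^ 2 * (256 * t ^ 6 +
    2 * √(8 * t ^ (k + 24) + n * t ^ 13 + 5 * √(t ^ (k + 24)))))) ≤ b⁻¹ * b⁻¹ ^ 2 := by
  have t0 := h.t0
  have i1 : √(8 * t ^ (k + 24) + n * t ^ 13 + 5 * √(t ^ (k + 24))) ≤ 4 * t ^ 6 := by
    refine sqrt_le_iff.2 ⟨by positivity, ?_⟩
    have i2 : n * t ≤ 1 := h.tQ ▸ mul_le_mul_of_nonneg_right (by linarith [h.Qn, h.n0]) t0.le
    have i3 : t ^ (k + 24) ≤ t ^ 12 := h.tp (by omega)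
    have i4 := mul_le_mul_of_nonneg_right i2 (pow_pos t0 12).le
    have i5 := h.sq (k := k)
    have i6 := pow_pos t0 12
    linarith
  have i2 : (1 + Q ^ 2) ^ 2 ≤ (2 * Q ^ 2) ^ 2 :=
    pow_le_pow_left₀ (by positivity) (by linarith [one_le_pow₀ (n := 2) h.Q2]) 2
  have i3 := mul_le_mul_of_nonneg_left (mul_le_mul i2 (show 256 * t ^ 6 +
    2 * √(8 * t ^ (k + 24) + n * t ^ 13 + 5 * √(t ^ (k + 24))) ≤ 264 * t ^ 6 by linarith)
    (by positivity) (by positivity)) (zero_le_one.trans h.Q2)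
  have i4 : Q * ((2 * Q ^ 2) ^ 2 * (264 * t ^ 6)) = 1056 * t := by
    linear_combination 1056 * t * h.tQ' 5
  have i5 : 4096 * t ≤ b⁻¹ * b⁻¹ ^ 2 := by
    rw [inv_pow, ← div_eq_mul_inv, le_div_iff₀ (pow_pos (by linarith [h.b1]) 2)]
    exact h.tb
  linarith

theorem err (k : ℕ) {w : ℝ} (w0 : 0 ≤ w) (hw : w ≤ t ^ (k + 5)) :
    6 * Q ^ 3 * √(4 * t ^ (k + 24)) + 8 * Q ^ k * (1 + Q ^ 2) *
      (4 * (2 * t ^ (k + 24) + (n + 7) * t ^ (k + 6)) + w) / b⁻¹ ≤ 2 * b⁻¹ := by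
  have t0 := h.t0
  have Q0 : 0 < Q := by linarith [h.Q1]
  have n0 := h.n0
  have b1 := h.b1
  have j0 := h.tb
  have j1 : t ≤ t * b ^ 2 := le_mul_of_one_le_right t0.le (one_le_pow₀ b1)
  have i1 : 6 * Q ^ 3 * √(4 * t ^ (k + 24)) ≤ b⁻¹ := by
    rw [sqrt_mul (by norm_num), show √4 = 2 by rw [sqrt_eq_iff_mul_self_eq] <;> norm_num]
    have := mul_le_mul_of_nonneg_left ((h.sq (k := k)).trans (h.tp (k := 4) (by norm_num)))
      (pow_pos Q0 3).le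
    have i2 : Q ^ 3 * t ^ 4 = t := by linear_combination t * h.tQ' 3
    linarith
  have i2 : 4 * (2 * t ^ (k + 24) + (n + 7) * t ^ (k + 6)) + w ≤ 3 * t ^ (k + 5) := by
    have j1 : t ^ (k + 24) ≤ t ^ (k + 5) * t := by rw [← pow_succ]; exact h.tp (by omega)
    have j2 : 4 * (n + 7) * t ≤ 1 := h.tQ ▸ mul_le_mul_of_nonneg_right h.Qn t0.le
    have j3 := mul_le_mul_of_nonneg_left j2 (pow_pos t0 (k + 5)).le
    have j4 := mul_le_mul_of_nonneg_left h.t1 (pow_pos t0 (k + 5)).le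
    have j5 := mul_pos (pow_pos t0 (k + 5)) t0
    rw [pow_succ t (k + 5)]
    linarith
  have i3 := mul_le_mul (mul_le_mul_of_nonneg_left
    (show 1 + Q ^ 2 ≤ 2 * Q ^ 2 by linarith [one_le_pow₀ (n := 2) h.Q2])
    (show 0 ≤ 8 * Q ^ k by positivity)) i2 (by positivity) (by positivity)
  have i4 : 8 * Q ^ k * (2 * Q ^ 2) * (3 * t ^ (k + 5)) = 48 * t ^ 3 := by
    linear_combination 48 * t ^ 3 * h.tQ' (k + 2)
  have i5 : 48 * t ^ 3 / b⁻¹ ≤ b⁻¹ := by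
    rw [div_inv_eq_mul]
    have j2 := mul_le_mul (h.tp1 (l := 3) (by norm_num)) (le_self_pow₀ b1 two_ne_zero)
      (by linarith) t0.le
    have j3 := mul_pos t0 (pow_pos (by linarith : 0 < b) 2)
    linarith
  have i6 := (div_le_div_of_nonneg_right (i3.trans i4.le) (inv_pos.2 (by linarith : 0 < b)).le).trans i5
  linarith

theorem nu {R L : ℝ} {k : ℕ} (hk : 7 ≤ k) (R0 : 0 ≤ R) (hR : Q * R ≤ L) (hL : Q ≤ L) :
    128 / Q ^ 6 + ((2 * R + 1) / L) ^ k ≤ 256 * t ^ 6 := by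
  have t0 := h.t0
  have t1 := h.t1
  have L0 : 0 < L := by linarith [h.Q1]
  have i1 : (2 * R + 1) / L ≤ 3 * t := by
    rw [div_le_iff₀ L0, h.ht, mul_assoc, mul_left_comm, le_inv_mul_iff₀ (by linarith [h.Q1])]
    linarith
  have i2 := (pow_le_pow_left₀ (by positivity) i1 _).trans
    (pow_le_pow_of_le_one (by positivity) (by linarith) hk)
  rw [div_eq_mul_inv, ← inv_pow, ← h.ht]
  linarith [mul_le_mul_of_nonneg_left t1 (pow_pos t0 6).le, mul_pos (pow_pos t0 6) t0]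

end Num

/-- the pair law for admissible shapes -/
theorem pairHyp_ok [Nonempty ι] {T : Cell ι} {S : Sh ι D} {L : ℕ} {x y X η V : ℝ}
    (hlev : ∀ c, T.lev c ≤ s) (h : ShOK S T.lev L x y) (hy : 0 ≤ y)
    (hX : (((3 * (2 * (D + 2)) + 2 : ℕ) : ℝ) ^ s + s + (s * (s * x + (2 * x + 4)) + x + 2) + 2) ^ 6
      ≤ X) (hA : T.AllPC X η) (hη : 0 < η) (hη1 : η ≤ 1 / 16) {t t' : Fin D → ℤ}
    (ht : t ∈ pos D L) (ht' : t' ∈ pos D L) {i : Fin D} (hi : (t' - t) i ≠ 0)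
    (hV : 2 * exp y * L ≤ V * |(((t' - t) i : ℤ) : ℝ)|) :
    PairHyp (thf T) id (lm (thf (S.fc T)) id (fun _ => 1) 0 1 0) (fpt S T.lev t) (fpt S T.lev t')
      (igcd (t' - t)) (V ^ 2) (5 * √η) := by
  classical
  obtain ⟨c0, hc0⟩ := Finite.exists_max T.lev
  obtain ⟨G, G0, G1, hG⟩ := h.ok
  have x0 := h.ok.nonneg
  have hb : ∀ {t : Fin D → ℤ}, t ∈ pos D L → ∀ i, |(t i : ℝ)| ≤ L := fun ht i => by
    have := mem_Ico.1 (Fintype.mem_piFinset.1 ht i)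
    rw [← Int.cast_abs, abs_of_nonneg this.1]
    exact_mod_cast this.2.le
  have m1 : Finsupp.single i 1 ∈ mi D (T.lev c0) := mem_mi.2 (by rw [Finsupp.degree_single]; exact T.lev_pos c0)
  have p1 := S.sc_pos c0 (Finsupp.single i 1)
  have L1 : (L : ℝ) ≤ exp x := by
    have := h.sc_le c0 (Finsupp.single i 1)
    rw [Finsupp.degree_single, pow_one, ← le_inv_mul_iff₀ p1, mul_one] at this
    exact this.trans (hG c0 _ m1).2
  refine pairHyp_fc (s := s) (sc := fun α => if α ∈ mi D (T.lev c0) then S.sc c0 α else 1)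
    (g := fun α => if α ∈ mi D (T.lev c0) then S.g c0 α else 1) S h.r h.cen
    (fun α => by split_ifs; exacts [S.sc_pos _ _, one_pos])
    (fun α => by split_ifs; exacts [S.g_pos _ _, one_pos])
    (fun c α hα => by simp only [if_pos (mi_mono (hc0 c) hα)]; exact h.uni c c0 α) hlev
    (pairHyp_frP _ _ (fun α hα => by split_ifs; exacts [h.g1 c0 α hα, rfl]) (M := G ^ s)
      (pow_pos G0 s) (fun α _ => ?_) (U := exp x) (one_le_exp x0) (fun α _ => ?_) (hb ht) (hb ht')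
      hi ?_ hlev (le_trans ?_ hX) hA hη hη1)
  · split_ifs with hα
    exacts [(hG c0 α hα).1.trans (pow_dvd_pow G (hlev c0)), one_dvd _]
  · split_ifs with hα
    exacts [(hG c0 α hα).2, by simpa using x0]
  · simp only [if_pos m1, if_pos (zero_mem_mi D _), h.sc0, inv_one, mul_one]
    have h1 := h.spread c0 i
    rw [exp_neg, inv_le_iff_one_le_mul₀ (exp_pos y), mul_assoc, ← inv_le_iff_one_le_mul₀' p1] at h1
    nlinarith [mul_le_mul_of_nonneg_right (one_le_exp hy) (Nat.cast_nonneg L)]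
  · rw [Int.cast_pow]
    exact loss_le s _ (by exact_mod_cast G0) G1 (Nat.cast_nonneg L) L1

set_option maxHeartbeats 1600000 in
/-- the sampler with all parameters expressed through the sieve level `Q` -/
theorem sampQ [Nonempty ι] (hD : 7 ≤ D) {T : Cell ι} {S : Sh ι D} {L Q : ℕ}
    {x y X u b W ϑ β δ : ℝ} (hlev : ∀ c, T.lev c ≤ s) (h : ShOK S T.lev L x y) (hy : 0 ≤ y)
    (hX : (((3 * (2 * (D + 2)) + 2 : ℕ) : ℝ) ^ s + s + (s * (s * x + (2 * x + 4)) + x + 2) + 2) ^ 6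
      ≤ X) (hX1 : fl D s x * (1 + (s + 2) ^ 2 * u) ≤ X) (hX2 : fl D s x + (1 + (s + 2) ^ 2 * u) ≤ X)
    (hX3 : 1 + (s + 2) ^ 2 * u ≤ X)
    (hA : T.AllPC X ((Q : ℝ)⁻¹ ^ (Fintype.card (FI D T.lev) + 24)))
    (hu : (Q : ℝ) ^ (2 * Fintype.card (FI D T.lev) + 32) ≤ exp u) (hb : 2 * exp y ≤ b)
    (hQb : 4096 * b ^ 3 ≤ Q) (hQn : 4 * ((Fintype.card ι : ℝ) + 7) ≤ Q) (hQs : ((s : ℝ) + 1) ^ D ≤ Q)
    (hQW : W ≤ Q) (hW : 4 * 2 ^ Fintype.card (FI D T.lev) * exp (-π * (W / 2)) ≤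
      (Q : ℝ)⁻¹ ^ (Fintype.card (FI D T.lev) + 5)) (hQL : Q ≤ L) (hϑ : 0 < ϑ) (hϑ1 : ϑ ≤ 1)
    (hQ0 : 1 ≤ b⁻¹ / 4 * (Q : ℝ) ^ ϑ) {ψ : (ι → ℤ) → ℝ} (hψ : ∀ z, |ψ z| ≤ 1) (hβ0 : 0 ≤ β)
    (hβ1 : β ≤ 1) (hβ : ∀ c d r, 0 < d → d ≤ Q * Q → |wm T (Q ^ 17) c d r ψ| ≤ β)
    {Z : Finset (FI D T.lev → ℤ)} (hZ : exp (-y) * S.mu T ≤ ∑ z ∈ Z, (S.fc T).wgt z)
    (hδ : ∀ z ∈ Z, δ * (L : ℝ) ^ D ≤ ∑ u ∈ pos D L, ψ fun c => MvPolynomial.eval u (S.fr z c)) :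
    ∃ c d r, 0 < d ∧ d ≤ Q ∧ δ - (√(3 * ϑ) * β * 12 + 3 * b⁻¹) ≤ wm T (Q ^ 17) c d r ψ := by
  classical
  set N := Fintype.card (FI D T.lev) with hN
  obtain ⟨t, ht⟩ : ∃ t : ℝ, t = (Q : ℝ)⁻¹ := ⟨_, rfl⟩
  rw [← ht] at hA hW
  have hn : Num Q t b (Fintype.card ι) :=
    ⟨by linarith [one_le_exp hy], hQb, hQn, Nat.cast_nonneg _, ht⟩
  have b0 : 0 < b := one_pos.trans_le hn.b1
  have Q1 := hn.Q1
  have Q2 := hn.Q2
  have Q0 : (0 : ℝ) < Q := one_pos.trans_le Q2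
  have Q3 : 1 ≤ Q := by exact_mod_cast Q2
  have Q4 : 2 * exp y ≤ Q := by linarith [le_self_pow₀ hn.b1 (by norm_num : 3 ≠ 0)]
  have L0 : 0 < L := Q3.trans hQL
  have L1 : (0 : ℝ) < L := by exact_mod_cast L0
  have t0 := hn.t0
  have t2 : t ≤ 1 := by linarith [hn.t1]
  have Qp : ∀ {k l : ℕ}, k ≤ l → (Q : ℝ) ^ k ≤ Q ^ l := fun h => pow_le_pow_right₀ Q2 h
  have η0 : 0 < t ^ (N + 24) := pow_pos t0 _
  have η1 : t ^ (N + 24) ≤ 1 / 16 := by linarith [hn.tp1 (l := N + 24) (by omega), hn.t1]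
  have u0 : 0 ≤ u := one_le_exp_iff.1 ((one_le_pow₀ Q2).trans hu)
  have hA' := Cell.allPC_pc hA (S.fc_pc T hlev h.ok) hX1 hX2
  have eX : EQ (thf T) id T.mu (Q ^ 18) (Q * Q * Q) (t ^ (N + 24)) := eq_cell T hlev hA η1 u0
    ((Qp (by omega)).trans hu) (by
      push_cast
      exact le_of_eq_of_le (by ring) ((Qp (k := 3) (by omega)).trans hu)) hX3
  have eΩ : EQ (thf (S.fc T)) id (S.fc T).mu (Q ^ (2 * N + 32)) (Q * Q) (t ^ (N + 24)) :=
    eq_cell (S.fc T) (fun c => hlev c.1) hA' η1 u0 hu (by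
      push_cast
      exact le_of_eq_of_le (by ring) ((Qp (k := 2) (by omega)).trans hu)) le_rfl
  have hcard : 7 ≤ Fintype.card (Fin D) := by simpa using hD
  have hbx : ∀ {t : Fin D → ℤ}, t ∈ cub (0 : Fin D → ℤ) L → ∀ i, |(t i : ℝ)| ≤ L := fun ht i => by
    have := mem_cub.1 ht i
    rw [← Int.cast_abs, abs_of_nonneg this.1]
    exact_mod_cast (show _ ≤ (L : ℤ) by simpa using this.2.le)
  have hR : (L : ℝ) < Q * ((L / Q : ℕ) + 1) := by exact_mod_cast Nat.lt_mul_div_succ L Q3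
  have hν := hn.nu (R := (L / Q : ℕ)) (L := L) hcard (Nat.cast_nonneg _)
    (by exact_mod_cast Nat.mul_div_le L Q) (by exact_mod_cast hQL)
  obtain ⟨c, d, r, d0, dQ, h1⟩ := sampWin eX eΩ (κ := Q ^ 17) (κ' := Q ^ (2 * N + 31))
    (qs := (Q ^ 2) ^ 2) (s := t ^ 13) (s' := t ^ (N + 6)) (Λ := (s + 1) ^ D) (W := W) (σ := b⁻¹)
    (τ0 := 5 * √(t ^ (N + 24))) (ε := b⁻¹) (δ := δ) (by positivity)
    (by rw [pow_succ' _ 17]; exact mul_le_mul_of_nonneg_right (by linarith) (by positivity))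
    (le_trans (by linarith) (le_self_pow₀ Q2 (by omega)))
    (by rw [pow_succ' _ (2 * N + 31)]; nlinarith [one_le_pow₀ (n := 2 * N + 31) Q2])
    (by positivity) (pow_le_one₀ t0.le t2) (by linear_combination (-(Q : ℝ) ^ 4) * hn.tQ' 13)
    (by positivity) (pow_le_one₀ t0.le t2) (by positivity) (by
      have i1 : (Q : ℝ) ^ (2 * N + 31) * (t ^ (N + 6)) ^ 2 = Q * (Q ^ 17 * Q) := by
        linear_combination (Q : ℝ) ^ 19 * hn.tQ' (2 * N + 12)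
      rw [i1]
      exact mul_le_mul hQW (mul_le_mul_of_nonneg_left hQs (by positivity)) (by positivity) Q0.le)
    Q3 Q3 (S := cub 0 L) (p := fun _ => uw (Fin D) L) (fun _ _ => uw_nonneg L) (sum_uw 0 L0)
    (fpt S T.lev) (linOf (fco S T.lev)) (fun t t' => igcd (t' - t))
    (fun t ht => thf_fpt S h.r hlev h.sc_le (hbx ht)) (fpt_eq S h.r T.lev)
    (fun t _ => linOf_surj_of_const _ t (fun _ => ⟨0, zero_mem_mi _ _⟩) fun c => by
      simp [fco, h.g1 c 0])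
    (fun t _ t' _ => linOf_pair_igcd _ id t t' (fun _ => ⟨0, zero_mem_mi _ _⟩)
      (fun c i => ⟨Finsupp.single i 1, mem_mi.2 (by rw [Finsupp.degree_single]; exact T.lev_pos c)⟩)
      (fun _ c => by simp [fco, h.g1 c 0]) fun t c i => by
        simp [fco, h.g1 c (Finsupp.single i 1), Finsupp.single_apply])
    (gcdBd_cub hcard 0 hQL)
    (fun t t' => igcd (t' - t) ≤ Q ∧ ∃ i, ((L / Q : ℕ) : ℤ) < |t' i - t i|)
    (by convert (bad_cub_le hcard 0 L0 Q3 (L / Q) _ fun t t' h1 h2 => And.intro h1 h2).trans hν; rfl)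
    (fun t ht t' ht' ⟨g1, i, hi⟩ => by
      have hi' : (t' - t) i ≠ 0 := fun h0 => by
        rw [show t' i - t i = 0 from h0, abs_zero] at hi
        exact absurd hi (not_lt.2 (Nat.cast_nonneg _))
      refine ⟨Nat.pos_of_ne_zero fun h => hi' (congrFun (igcd_eq_zero.1 h) i), g1,
        pairHyp_ok hlev h hy hX hA η0 η1 (cub_zero D L ▸ ht) (cub_zero D L ▸ ht') hi' ?_⟩
      have i0 : ((L / Q : ℕ) : ℤ) + 1 ≤ |(t' - t) i| := hi
      have i1 : ((L / Q : ℕ) : ℝ) + 1 ≤ |(((t' - t) i : ℤ) : ℝ)| := by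
        have := Int.cast_le (R := ℝ) |>.2 i0
        rwa [Int.cast_add, Int.cast_natCast, Int.cast_one, Int.cast_abs] at this
      have i2 := mul_le_mul Q4
        (hR.le.trans (mul_le_mul_of_nonneg_left i1 Q0.le)) L1.le Q0.le
      linarith)
    (a := fun z => if z ∈ Z then 1 else 0) (fun _ => by split_ifs <;> norm_num)
    (fun _ => by split_ifs <;> norm_num) (by positivity) (by
      have i1 := (abs_le.1 (Cell.allPC_self hA' (le_add_of_nonneg_right (by positivity)))).2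
      rw [sub_le_iff_le_add, div_le_iff₀ (S.fc T).mu_pos] at i1
      rw [lm_std, av, tsum_eq_sum (s := Z) fun z hz => by rw [if_neg hz, mul_zero],
        sum_congr rfl fun z hz => by rw [if_pos hz, mul_one]]
      refine (le_div_iff₀ (S.fc T).M_pos).2 (le_trans ?_ hZ)
      rw [← Sh.fc_mu, exp_neg, inv_mul_le_iff₀ (by linarith), ← mul_assoc]
      refine i1.trans (mul_le_mul_of_nonneg_right ?_ (S.fc T).mu_pos.le)
      rw [le_mul_inv_iff₀ (exp_pos y)]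
      nlinarith [exp_pos y])
    hϑ hϑ1 (by positivity) hQ0 (hn.small N)
    hψ hβ0 hβ1 hβ (fun z hz => by
      have i1 := hδ z (by by_contra h0; exact hz (if_neg h0))
      rw [smp, ← mul_sum, uw, Fintype.card_fin, le_inv_mul_iff₀ (by positivity), cub_zero, mul_comm]
      exact i1)
  refine ⟨c, d, r, d0, dQ, le_trans ?_ h1⟩
  linarith [hn.err N (by positivity) hW]

theorem exists_pow_ge (A : ℝ) : ∃ a : ℕ, ∀ x : ℝ, 2 ≤ x → A ≤ x ^ a := by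
  obtain ⟨a, ha⟩ := pow_unbounded_of_one_lt A (one_lt_two (α := ℝ))
  exact ⟨a, fun x hx => ha.le.trans (pow_le_pow_left₀ zero_le_two hx a)⟩

/-- the choice of the sieve level -/
theorem exists_level {Y n N Λ ϑ : ℝ} {k : ℕ} (hY : 16 ≤ Y) (hn : n ≤ Y) (hk : (k : ℝ) + 24 ≤ Y)
    (hΛ : Λ ≤ Y) (hϑ : 0 < ϑ) (hϑY : ϑ⁻¹ ≤ Y) (hN : 6 * Y ^ 3 ≤ N) :
    ∃ Q : ℕ, (Q : ℝ) ≤ exp (3 * Y ^ 2) ∧ exp (-N) ≤ (Q : ℝ)⁻¹ ^ (k + 24) ∧
      (Q : ℝ) ^ (2 * k + 32) ≤ exp (6 * Y ^ 3) ∧ 4096 * exp Y ^ 3 ≤ Q ∧ 4 * (n + 7) ≤ Q ∧ Λ ≤ Q ∧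
      4 * Y ^ 3 ≤ Q ∧ 4 * 2 ^ k * exp (-π * (4 * Y ^ 3 / 2)) ≤ (Q : ℝ)⁻¹ ^ (k + 5) ∧
      1 ≤ (exp Y)⁻¹ / 4 * (Q : ℝ) ^ ϑ := by
  have Y0 : 0 < Y := by linarith
  have k0 : (0 : ℝ) ≤ k := Nat.cast_nonneg k
  have q1 := Nat.le_ceil (exp (2 * Y ^ 2))
  have q2 : (⌈exp (2 * Y ^ 2)⌉₊ : ℝ) ≤ exp (3 * Y ^ 2) := by
    refine (Nat.ceil_lt_add_one (exp_pos _).le).le.trans ?_
    rw [show 3 * Y ^ 2 = 2 * Y ^ 2 + Y ^ 2 by ring, exp_add]
    nlinarith [add_one_le_exp (Y ^ 2), one_le_exp (show 0 ≤ 2 * Y ^ 2 by positivity)]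
  generalize ⌈exp (2 * Y ^ 2)⌉₊ = Q at q1 q2
  have Q0 : (0 : ℝ) < Q := (exp_pos _).trans_le q1
  have q3 : ∀ j : ℕ, (Q : ℝ) ^ j ≤ exp (j * (3 * Y ^ 2)) := fun j => by
    rw [exp_nat_mul]; exact pow_le_pow_left₀ Q0.le q2 j
  have q4 : ∀ j : ℕ, exp (-(j * (3 * Y ^ 2))) ≤ (Q : ℝ)⁻¹ ^ j := fun j => by
    rw [exp_neg, inv_pow]; exact inv_anti₀ (pow_pos Q0 j) (q3 j)
  have y2 : 16 * Y ≤ Y ^ 2 := by nlinarith
  have y3 : 16 * Y ^ 2 ≤ Y ^ 3 := by nlinarith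
  have y4 : (k + 24) * Y ^ 2 ≤ Y ^ 3 := by nlinarith
  have y5 : 0 ≤ k * Y ^ 2 := by positivity
  have q5 : 4096 * exp Y ^ 3 ≤ Q := by
    refine le_trans ?_ q1
    have := pow_le_pow_left₀ (by norm_num) four_le_exp_two 6
    rw [← exp_nat_mul] at this ⊢
    refine (mul_le_mul_of_nonneg_right (le_of_eq_of_le (by norm_num) this) (exp_pos _).le).trans ?_
    rw [← exp_add]
    exact exp_le_exp.2 (by push_cast; linarith)
  have q6 : Y ^ 3 ≤ exp Y ^ 3 := pow_le_pow_left₀ Y0.le (by linarith [add_one_le_exp Y]) 3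
  refine ⟨Q, q2, le_trans (exp_le_exp.2 (by push_cast; linarith)) (q4 _),
    (q3 _).trans (exp_le_exp.2 (by push_cast; linarith)), q5, by linarith, by linarith, by linarith,
    le_trans ?_ (q4 _), one_le_mul_rpow (K := 2 * Y) hϑ ?_ (le_trans (exp_le_exp.2 ?_) q1)⟩
  · have i1 : (2 : ℝ) ^ k ≤ exp k := by
      have := pow_le_pow_left₀ zero_le_two (show (2 : ℝ) ≤ exp 1 by linarith [add_one_le_exp 1]) k
      rwa [← exp_nat_mul, mul_one] at this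
    refine (mul_le_mul_of_nonneg_right (mul_le_mul four_le_exp_two i1 (by positivity)
      (exp_pos _).le) (exp_pos _).le).trans ?_
    rw [← exp_add, ← exp_add]
    refine exp_le_exp.2 ?_
    push_cast
    nlinarith [pi_gt_three, pow_pos Y0 3]
  · rw [le_div_iff₀ (by norm_num), ← exp_neg]
    refine (mul_le_mul_of_nonneg_left four_le_exp_two (exp_pos _).le).trans ?_
    rw [← exp_add]
    exact exp_le_exp.2 (by linarith)
  · rw [div_eq_mul_inv]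
    nlinarith

theorem sampT_empty [IsEmpty ι] (T : Cell ι) (q : ℝ) (ψ : (ι → ℤ) → ℝ) (z : ι → ℤ) :
    wm T q 0 1 0 ψ = ψ z := by
  rw [wm, lm, av, tsum_fintype, tsum_fintype, Fintype.sum_subsingleton _ z,
    Fintype.sum_subsingleton _ z, cw_one, mul_div_cancel_left₀ _ (gw_pos _ _ _ _).ne']

set_option maxHeartbeats 1600000 in
/-- **SAMPT** -/
theorem sampT (hD : 7 ≤ D) (s : ℕ) : SampT s D := by
  intro κ hκ
  obtain ⟨ϑ, hϑ, hϑ1, hϑκ⟩ : ∃ ϑ : ℝ, 0 < ϑ ∧ ϑ ≤ 1 ∧ √(3 * ϑ) * 12 ≤ κ := by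
    refine ⟨min 1 (κ ^ 2 / 432), lt_min one_pos (by positivity), min_le_left _ _, ?_⟩
    rw [← le_div_iff₀ (by norm_num)]
    refine sqrt_le_iff.2 ⟨by positivity, ?_⟩
    linarith [min_le_right 1 (κ ^ 2 / 432), show (κ / 12) ^ 2 = κ ^ 2 / 144 by ring]
  obtain ⟨a, ha⟩ := exists_pow_ge (((s : ℝ) + 1) ^ D + ϑ⁻¹ + 16)
  obtain ⟨e, he⟩ := exists_pow_ge ((((3 * (2 * (D + 2)) + 2 : ℕ) : ℝ) ^ s + s + (s * (s + 4) + 2) + 1)
    + ((s : ℝ) + 1) ^ (D + 1) * ((s + 1) + s ^ 2 + 1) + (1 + (s + 2) ^ 2 * 6) + 51)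
  refine ⟨6 * (e + 1) + (e + 3 * (a + 1)) + 1,
    fun ι _ T S L x y β δ ψ Z hlev hy hyx h hL hA hψ hβ0 hβ hZ hδ => ?_⟩
  set C := 6 * (e + 1) + (e + 3 * (a + 1)) + 1 with hC
  have n0 : (0 : ℝ) ≤ Fintype.card ι := Nat.cast_nonneg _
  have y2 : 2 ≤ y := by linarith
  have x2 : 2 ≤ x := y2.trans hyx
  have y1 : 1 ≤ y := by linarith
  have x1 : 1 ≤ x := by linarith
  have c2 : 2 ≤ y ^ C := y2.trans (le_self_pow₀ y1 (by omega))
  have c4 : 4 ≤ exp (y ^ C) := four_le_exp_two.trans (exp_le_exp.2 c2)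
  have L0 : (0 : ℝ) < L := (exp_pos _).trans_le hL
  rcases isEmpty_or_nonempty ι with hι | hι
  · obtain ⟨z, hz⟩ := nonempty_of_sum_ne_zero
      ((mul_pos (exp_pos _) (S.mu_pos T)).trans_le hZ).ne'
    refine ⟨4, 0, 1, 0, le_rfl, c4, le_rfl, by push_cast; linarith, ?_⟩
    have h1 := hδ z hz
    rw [sum_congr rfl fun u _ => congrArg ψ (Subsingleton.elim _ 0), sum_const, ← cub_zero, card_cub,
      Fintype.card_fin, nsmul_eq_mul, Nat.cast_pow, mul_comm] at h1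
    rw [sampT_empty T 4 ψ 0]
    linarith [le_of_mul_le_mul_left h1 (pow_pos L0 D), mul_nonneg hκ.le hβ0, exp_pos (-y)]
  have p0 : (1 : ℝ) ≤ (s + 1) ^ D := one_le_pow₀ (by linarith [Nat.cast_nonneg (α := ℝ) s])
  have p1 := inv_pos.2 hϑ
  have p2 := mul_le_mul_of_nonneg_right (ha y y2) (by linarith : 0 ≤ y)
  rw [← pow_succ] at p2
  set Y := y ^ (a + 1) with hY
  have p3 : (Fintype.card (FI D T.lev) : ℝ) ≤ (s + 1) ^ D * Fintype.card ι := by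
    exact_mod_cast card_FI_le T hlev
  have p4 := mul_le_mul_of_nonneg_left hy (zero_le_one.trans p0)
  have p5 := mul_le_mul_of_nonneg_left y1 p1.le
  have p6 := mul_le_mul_of_nonneg_left y1 (zero_le_one.trans p0)
  have p7 : 0 ≤ ((s : ℝ) + 1) ^ D * y := by positivity
  have Y0 : 16 * y ≤ Y := by linarith
  have s0 : (0 : ℝ) ≤ s := Nat.cast_nonneg s
  have Y3 : ∀ z : ℝ, y ≤ z → Y ^ 3 ≤ z ^ (3 * (a + 1)) := fun z hz => by
    rw [hY, ← pow_mul, mul_comm]; exact pow_le_pow_left₀ (by linarith) hz _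
  have Y4 : 1 ≤ Y ^ 3 := one_le_pow₀ (by linarith)
  have Y5 : Y ^ 2 ≤ Y ^ 3 := pow_le_pow_right₀ (by linarith) (by norm_num)
  have t1 : (0 : ℝ) ≤ ((3 * (2 * (D + 2)) + 2 : ℕ) : ℝ) ^ s + s + (s * (s + 4) + 2) + 1 := by
    positivity
  have t2 : (0 : ℝ) ≤ ((s : ℝ) + 1) ^ (D + 1) * ((s + 1) + s ^ 2 + 1) := by positivity
  have t3 : (0 : ℝ) ≤ 1 + (s + 2) ^ 2 * 6 := by positivity
  have w1 : ∀ z : ℝ, y ≤ z → 51 * Y ^ 3 ≤ z ^ (e + 3 * (a + 1)) ∧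
      1 + (s + 2) ^ 2 * (6 * Y ^ 3) ≤ z ^ (e + 3 * (a + 1)) := fun z hz => by
    have i1 := he z (y2.trans hz)
    have i2 := mul_le_mul_of_nonneg_left (Y3 z hz) (show 0 ≤ z ^ e by linarith)
    rw [← pow_add] at i2
    have i3 := mul_le_mul_of_nonneg_right (show 51 ≤ z ^ e by linarith) (zero_le_one.trans Y4)
    have i4 := mul_le_mul_of_nonneg_right (show 1 + ((s : ℝ) + 2) ^ 2 * 6 ≤ z ^ e by linarith)
      (zero_le_one.trans Y4)
    constructor <;> linarith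
  have w2 : 51 * Y ^ 3 ≤ y ^ C := (w1 y le_rfl).1.trans (pow_le_pow_right₀ y1 (by omega))
  have w3 : fl D s x ≤ x ^ (e + 1) := by
    rw [pow_succ x]
    refine le_trans ?_ (mul_le_mul_of_nonneg_right (show ((s : ℝ) + 1) ^ (D + 1) *
      ((s + 1) + s ^ 2 + 1) ≤ x ^ e by linarith [he x x2]) (by linarith))
    rw [fl, mul_assoc]
    exact mul_le_mul_of_nonneg_left (by linarith [mul_le_mul_of_nonneg_left x1 (sq_nonneg (s : ℝ))])
      (by positivity)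
  have w4 := (w1 x hyx).2
  have w5 : x ^ (e + 1) ≤ x ^ (C - 1) := pow_le_pow_right₀ x1 (by omega)
  have w6 : x ^ (e + 3 * (a + 1)) ≤ x ^ (C - 1) := pow_le_pow_right₀ x1 (by omega)
  have w7 : 2 * x ^ (C - 1) ≤ x ^ C := by
    rw [hC, Nat.add_sub_cancel, pow_succ' x]
    exact mul_le_mul_of_nonneg_right x2 (by positivity)
  have w8 : 0 ≤ x ^ (C - 1) := by positivity
  obtain ⟨Q, q1, q2, q3, q4, q5, q6, q7, q8, q9⟩ := exists_level (Y := Y) (n := Fintype.card ι)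
    (N := x ^ C) (Λ := (s + 1) ^ D) (k := Fintype.card (FI D T.lev)) (by linarith) (by linarith)
    (by linarith) (by linarith) hϑ (by linarith)
    (by linarith [pow_le_pow_left₀ (by linarith) hyx C])
  have Q1 : (4 : ℝ) ≤ Q := by linarith
  have Q2 : (Q : ℝ) ^ 17 ≤ exp (y ^ C) := by
    refine (pow_le_pow_left₀ (by linarith) q1 17).trans ?_
    rw [← exp_nat_mul]
    exact exp_le_exp.2 (by push_cast; linarith)
  have Q3 : ∀ j : ℕ, j ≤ 17 → (Q : ℝ) ^ j ≤ exp (y ^ C) := fun j hj =>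
    (pow_le_pow_right₀ (by linarith) hj).trans Q2
  have Q4 : (4 : ℝ) ≤ Q ^ 17 := Q1.trans (le_self_pow₀ (by linarith) (by norm_num))
  have b1 : 4 * exp y ≤ exp Y := by
    refine (mul_le_mul_of_nonneg_right four_le_exp_two (exp_pos _).le).trans ?_
    rw [← exp_add]
    exact exp_le_exp.2 (by linarith)
  obtain ⟨c, d, r, d0, dQ, h1⟩ := sampQ (X := x ^ C) (β := min β 1) hD hlev h (by linarith) (by
      refine le_trans (pow_le_pow_left₀ (by positivity) (b := x ^ (e + 1)) ?_ 6) ?_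
      · rw [pow_succ x]
        refine le_trans ?_ (mul_le_mul_of_nonneg_right (show ((3 * (2 * (D + 2)) + 2 : ℕ) : ℝ) ^ s +
          s + (s * (s + 4) + 2) + 1 ≤ x ^ e by linarith [he x x2]) (by linarith))
        have : (0 : ℝ) ≤ ((3 * (2 * (D + 2)) + 2 : ℕ) : ℝ) ^ s := by positivity
        linarith [mul_le_mul_of_nonneg_left x1 this, mul_le_mul_of_nonneg_left x2 s0]
      · rw [← pow_mul]
        exact pow_le_pow_right₀ x1 (by omega))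
    ((mul_le_mul w3 w4 (by positivity) (by positivity)).trans (by
      rw [← pow_add]; exact pow_le_pow_right₀ x1 (by omega))) (by linarith) (by linarith)
    (Cell.allPC_mono hA le_rfl q2) q3 (by linarith [exp_pos y]) q4 q5 q6 q7 q8
    (by exact_mod_cast (le_of_eq_of_le (pow_one _).symm (Q3 1 (by norm_num))).trans hL) hϑ hϑ1 q9
    hψ (le_min hβ0 zero_le_one) (min_le_right _ _) (fun c d r hd hdQ => le_min
      (hβ _ c d r Q4 Q2 hd (le_trans (by rw [sq]; exact_mod_cast hdQ) (Q3 2 (by norm_num))))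
      ((wt_cw T (fun _ => by positivity) c d r).abs_av_le hψ)) hZ hδ
  refine ⟨_, c, d, r, Q4, Q2, d0,
    le_trans (by rw [pow_one]; exact_mod_cast dQ) (Q3 1 (by norm_num)), le_trans ?_ h1⟩
  have i1 : 3 * (exp Y)⁻¹ ≤ exp (-y) := by
    rw [exp_neg, ← div_eq_mul_inv, div_le_iff₀ (exp_pos _), le_inv_mul_iff₀ (exp_pos _)]
    linarith [exp_pos y]
  have i2 := mul_le_mul hϑκ (min_le_left β 1) (le_min hβ0 zero_le_one) hκ.le
  linarith

theorem sampTStmt : SampTStmt := fun s _ => ⟨7, fun _ hD => sampT hD s⟩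

end Crest.Agent.T49.Samp
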