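import Crest.Agent.T49.StartA_50
import Crest.Agent.T49.Fr_26
import Crest.Agent.T49.FmPC_17
import Crest.Agent.T49.LtrDef_33
import Crest.Agent.T49.NilCnt_14
import Crest.Agent.T49.Mx_91
import Crest.Agent.T49.Qp_85

/-!
# Row 49 (helper50): START from the first moment of the frames
-/

set_option autoImplicit false

noncomputable section

namespace Crest.Agent.T49.S50

open Finset MvPolynomial Filter
open Crest.Agent.T49.Tw Crest.Agent.T49.Gl Crest.Agent.T49.Fm Crest.Agent.T49.Fr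
open Crest.Agent.T49.Nil Crest.Agent.T49.Nil.ND

variable {ι : Type} [Fintype ι] {D : ℕ}

theorem dens_mul (T : Cell ι) (f : (ι → ℤ) → ℝ) : dens T f * T.M = ∑' z, T.wgt z * f z :=
  div_mul_cancel₀ _ T.M_pos.ne'

theorem dens_le_one (T : Cell ι) {f : (ι → ℤ) → ℝ} (hf : ∀ z, 0 ≤ f z ∧ f z ≤ 1) :
    dens T f ≤ 1 := by
  rw [Fr.dens, div_le_one T.M_pos]
  have h := T.abs_tsum_mul_le (f := f) (K := 1) fun z => abs_le.2 ⟨by linarith [hf z], (hf z).2⟩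
  linarith [le_abs_self (∑' z, T.wgt z * f z)]

open Classical in
/-- many frames see almost the full density -/
theorem core (T : Cell ι) {L : ℕ} (hL : 0 < L) {σ : ℝ} (hσ : 0 < σ) {f : (ι → ℤ) → ℝ}
    (hf : ∀ z, 0 ≤ f z ∧ f z ≤ 1) {c : ℝ} (hc0 : 0 < c) (hc : c ≤ 1 / 2) (hα : 0 < dens T f)
    (hM : T.mu ≤ 2 * T.M)
    (hF : ∀ t ∈ pos D L, ∀ g : (ι → ℤ) → ℂ, (∀ z, ‖g z‖ ≤ 1) →
      ‖(∑' V : Frm D T.lev, (fw T σ V : ℂ) * g (V.pt t)) / fmu T D σ -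
        (∑' z, (T.wgt z : ℂ) * g z) / T.mu‖ ≤ c * dens T f / 16)
    (bad : Frm D T.lev → Prop)
    (hb : ∑' V : Frm D T.lev, (if bad V then fw T σ V else 0) ≤ c * dens T f / 16 * fmu T D σ) :
    ∃ Z : Finset (Frm D T.lev), c * dens T f / 16 * fmu T D σ ≤ fm T σ Z ∧ ∀ V ∈ Z,
      (1 - c / 2) * dens T f * (L : ℝ) ^ D ≤ ∑ t ∈ pos D L, f (V.pt t) ∧ ¬ bad V := by
  have hα1 := dens_le_one T hf
  have hαM := dens_mul T f
  generalize dens T f = α at *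
  have hmu := fmu_pos T D hσ
  have hTmu := T.mu_pos
  have hLD : (0 : ℝ) < (L : ℝ) ^ D := by positivity
  have hθ0 : 0 ≤ (1 - c / 2) * α := mul_nonneg (by linarith) hα.le
  have hθ1 : (1 - c / 2) * α ≤ 1 := mul_le_one₀ (by linarith) hα.le hα1
  have hg : ∀ z, |f z - (1 - c / 2) * α| ≤ 1 := fun z =>
    abs_le.2 ⟨by linarith [hf z], by linarith [hf z]⟩
  have h1 : ∑' z, T.wgt z * (f z - (1 - c / 2) * α) = c / 2 * α * T.M := by
    simp only [mul_sub]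
    rw [(T.summable_mul_real (K := 1) fun z => abs_le.2 ⟨by linarith [hf z], (hf z).2⟩).tsum_sub
      (T.summable_wgt.mul_right _), tsum_mul_right, ← hαM]
    show _ - T.M * _ = _
    ring
  have h2 : ∀ t ∈ pos D L, 3 * (c * α / 16 * fmu T D σ) ≤
      ∑' V : Frm D T.lev, fw T σ V * (f (V.pt t) - (1 - c / 2) * α) := fun t ht => by
    have h := hF t ht (fun z => ((f z - (1 - c / 2) * α : ℝ) : ℂ)) fun z => by
      rw [Complex.norm_real]; exact hg z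
    simp only [← Complex.ofReal_mul, ← Complex.ofReal_tsum, ← Complex.ofReal_div,
      ← Complex.ofReal_sub, Complex.norm_real, Real.norm_eq_abs] at h
    rw [h1] at h
    have h3 := (abs_le.1 h).1
    have h4 : c * α / 4 ≤ c / 2 * α * T.M / T.mu := by
      rw [le_div_iff₀ hTmu]
      nlinarith [mul_le_mul_of_nonneg_left hM (mul_pos hc0 hα).le]
    have h5 : 3 * (c * α / 16) ≤
        (∑' V : Frm D T.lev, fw T σ V * (f (V.pt t) - (1 - c / 2) * α)) / fmu T D σ := by linarith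
    rw [le_div_iff₀ hmu] at h5
    linarith
  obtain ⟨Z, hZ, hZ'⟩ := select (w := fun V : Frm D T.lev => fw T σ V)
    (g := fun V => (∑ t ∈ pos D L, (f (V.pt t) - (1 - c / 2) * α)) / (L : ℝ) ^ D)
    (fun V => (fw_pos T σ V).le) (S50.summable_fw T D hσ) (fun V => by
      rw [abs_div, abs_of_pos hLD, div_le_one hLD]
      refine (abs_sum_le_sum_abs _ _).trans ((sum_le_card_nsmul _ _ 1 fun t _ => hg _).trans ?_)
      rw [nsmul_eq_mul, card_pos', mul_one]) bad (δ := c * α / 16 * fmu T D σ) (by positivity) (by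
      simp only [← mul_div_assoc, mul_sum]
      rw [tsum_div_const, Summable.tsum_finsetSum fun t _ =>
        summable_fw_mul T hσ (K := 1) fun V => hg _, le_div_iff₀ hLD]
      refine le_trans (le_of_eq ?_) (card_nsmul_le_sum _ _ _ h2)
      rw [nsmul_eq_mul, card_pos']
      ring) hb
  refine ⟨Z, hZ, fun V hV => ⟨?_, (hZ' V hV).2⟩⟩
  have h := (hZ' V hV).1
  rw [le_div_iff₀ hLD, zero_mul, sum_sub_distrib, sum_const, nsmul_eq_mul, card_pos'] at h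
  linarith

/-- the standing hypotheses give masses of covers -/
theorem allpc (s E : ℕ) : ∀ᶠ C : ℕ in atTop, ∀ (ι : Type) [Fintype ι] (T : Cell ι) (τ : ℕ → ℝ)
    (σ : ℝ) (L : ℕ) (y : ℝ), Par T s C τ σ L y →
    T.AllPC (E * Real.log L ^ 2) (Real.exp (-(2 * Real.log L))) ∧ y ^ C ≤ Real.log L := by
  obtain ⟨D0, hD⟩ := allDerMStmt s s
  filter_upwards [eventually_ge_atTop D0, eventually_ge_atTop (4 * (E + 3))] with C h1 h2
  intro ι _ T τ σ L y h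
  have hy := h.two
  have hl : y ^ C ≤ Real.log L := (Real.le_log_iff_exp_le ((Real.exp_pos _).trans_le h.L_ge)).2 h.L_ge
  refine ⟨?_, hl⟩
  have hτ := h.L_le
  generalize Real.log L = l at *
  have hyl : y ≤ l := (le_self_pow₀ (by linarith) (by omega)).trans hl
  have hC : (4 * (E + 3) : ℝ) ≤ l := by
    have h3 : (C : ℝ) ≤ 2 ^ C := by exact_mod_cast Nat.lt_two_pow_self.le
    have h4 : (2 : ℝ) ^ C ≤ y ^ C := pow_le_pow_left₀ (by norm_num) hy C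
    have h5 : (4 * (E + 3) : ℝ) ≤ C := by exact_mod_cast h2
    linarith
  have hE : (0 : ℝ) ≤ E := Nat.cast_nonneg E
  have h3 : l ^ 3 ≤ τ (s + 1) := (pow_le_pow_right₀ (by linarith) (by omega)).trans hτ
  have h4 : l ≤ l ^ 2 := by nlinarith
  have h5 : 4 * ((E + 3) * l ^ 2) ≤ l ^ 3 := by nlinarith
  have h6 : Real.log (Fintype.card ι + 2) ≤ y + 1 := by
    have := Real.log_le_sub_one_of_pos (show (0 : ℝ) < Fintype.card ι + 2 by positivity)
    linarith [h.card]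
  have h7 : 0 ≤ E * l ^ 2 := by positivity
  have h8 := (hD ι T T.lev τ ((E + 3) * l ^ 2) (2 * ((E + 3) * l ^ 2)) (Cell.isMC_lev T) h.lev h.lev
    (MA.regM_mono (Cell.regM_of_reg h.reg) h1 (by omega) (by nlinarith)) (by nlinarith)
    (by linarith)).2
  exact Cell.allPC_mono h8 (by nlinarith) (Real.exp_le_exp.2 (by nlinarith))

/-- the empty datum -/
def N0 : ND Empty where
  wt := Empty.elim
  c := Empty.elim
  wt_pos i := i.elim
  c_wt i := i.elim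
  anti i := i.elim
  jac i := i.elim

theorem N0_good (S : ℕ) (M : ℝ) : N0.Good S M :=
  ⟨fun i => i.elim, fun i => i.elim, fun _ _ _ _ i => i.elim⟩

theorem gw_one {κ : Type} [Fintype κ] (N : ND κ) (S : ℕ) {M : ℝ} (hM : 0 ≤ M) :
    Sg.Gw N S M fun _ => 1 :=
  ⟨fun _ => ⟨zero_le_one, le_rfl⟩, fun _ => by simp, fun _ _ _ => rfl, fun Z _ => by
    simpa using mul_nonneg hM (norm_nonneg Z)⟩

/-- one datum for all frames -/
theorem st_of (T : Cell ι) {s L : ℕ} {σ m R a : ℝ} {H0 : (ι → ℤ) → ℝ} {Z : Finset (Frm D T.lev)}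
    (hσ : 0 < σ) (hm : 2 ≤ m) (hR : m ≤ R) (ha : 0 < a)
    (haR : Real.exp (-R) ≤ a / Real.exp (m ^ (s + 7))) (hZ : a * fmu T D σ ≤ fm T σ Z)
    (h : ∀ V ∈ Z, ∃ (d : ℕ) (N : ND (Fin d)) (F : N.L → ℝ) (P : N.PS (Fin D)), (d : ℝ) ≤ m ∧
      N.Good s (Real.exp m) ∧ Rat.In01 F ∧ N.LipFn s (Real.exp m) (fun x => (F x : ℂ)) ∧
      P ∈ N.poly (Fin D) ∧
      Real.exp (-R) * (L : ℝ) ^ D ≤ ∑ t ∈ pos D L, F (N.evZ t P) * H0 (V.pt t)) :
    ∃ d : ℕ, (d : ℝ) ≤ m ∧ Sg.St T D s s H0 σ L R d 0 := by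
  have hmu := fmu_pos T D hσ
  have hne : Z.Nonempty := by
    by_contra h0
    rw [not_nonempty_iff_eq_empty.1 h0, fm, sum_empty] at hZ
    exact absurd hZ (not_le.2 (mul_pos ha hmu))
  obtain ⟨⟨d, N⟩, ⟨hd, hN⟩, Z', hZ', -, h1, h2⟩ := (cnt_data_exp s hm).pigeon_wt hne
    (fun V => fw T σ V) (fun V _ => (fw_pos T σ V).le)
    (fun V x => ∃ (F : x.2.L → ℝ) (P : x.2.PS (Fin D)), Rat.In01 F ∧
      x.2.LipFn s (Real.exp m) (fun y => (F y : ℂ)) ∧ P ∈ x.2.poly (Fin D) ∧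
      Real.exp (-R) * (L : ℝ) ^ D ≤ ∑ t ∈ pos D L, F (x.2.evZ t P) * H0 (V.pt t))
    (fun V hV => by
      obtain ⟨d, N, F, P, h1, h2, h3⟩ := h V hV
      exact ⟨⟨d, N⟩, ⟨h1, h2⟩, F, P, h3⟩)
  dsimp only at hd hN h2
  have : Nonempty (N.PS (Fin D)) := ⟨0⟩
  choose! F P hF1 hF2 hP hS using h2
  have hmR := Real.exp_le_exp.2 hR
  refine ⟨d, hd, Fin d, inferInstance, N, Empty, inferInstance, N0, 0, fun _ => 1, Z', F, P,
    by simp, hN.mono hmR, by simp, N0_good _ _, zero_mem _, gw_one _ _ (Real.exp_pos _).le, ?_,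
    fun V hV => ⟨⟨hF1 V hV, ((hF2 V hV).mono hmR).nfn hN.wt_le⟩, hP V hV, ?_⟩⟩
  · refine (mul_le_mul_of_nonneg_right haR hmu.le).trans ?_
    rw [div_mul_eq_mul_div, div_le_iff₀' (Real.exp_pos _)]
    exact hZ.trans h1
  · simpa only [one_mul] using hS V hV

theorem num1 (Cf Cg : ℕ) {c : ℝ} (hc : 0 < c) : ∃ k : ℕ, ∀ (y m ρ : ℝ) (n : ℕ), 2 ≤ y → 2 ≤ m →
    m ≤ y → (n : ℝ) ≤ y → 0 ≤ ρ → ρ ≤ Real.exp (-y ^ k) →
    (Cf * (1 + Cf * n)) * ρ ≤ c * Real.exp (-m) / 16 ∧ Cf * ρ ≤ 1 ∧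
      32 / (c * Real.exp (-m)) ≤ Real.exp (y ^ k) ∧ (m + 1) ^ Cg ≤ y ^ k := by qp

theorem num2 (s Cg : ℕ) {c : ℝ} (hc : 0 < c) : ∀ᶠ C : ℕ in atTop, ∀ (y m : ℝ), 2 ≤ y → 2 ≤ m →
    m ≤ y → (m + 1) ^ Cg + 2 ≤ y ^ C ∧
      Real.exp (-y ^ C) ≤ c * Real.exp (-m) / 16 / Real.exp (((m + 1) ^ Cg + 2) ^ (s + 7)) ∧
      Real.exp (-y ^ C) ≤ Real.exp (-(m + 1) ^ Cg) / 2 := by qp

theorem num3 (Cg : ℕ) : ∀ᶠ C : ℕ in atTop, ∀ m : ℝ, 2 ≤ m → (m + 1) ^ Cg + 2 ≤ m ^ C := by qp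

omit [Fintype ι] in
theorem indA_mem (A : Set ℤ) (p : Pl ι) (z : ι → ℤ) : 0 ≤ indA A p z ∧ indA A p z ≤ 1 := by
  unfold indA
  split_ifs <;> norm_num

open Classical in
theorem bad2 (s D : ℕ) : ∃ E : ℕ, ∀ (ι : Type) [Fintype ι] (T : Cell ι) (L : ℕ) (σ η : ℝ)
    (π : ι → ℤ), (∀ c, T.lev c ≤ s) → 0 < L → 1 ≤ Real.log L →
    Real.exp (-(2 * Real.log L)) ≤ σ → T.AllPC (E * Real.log L ^ 2) η → η ≤ 1 → π ≠ 0 →
    (∀ c, T.lev c ≠ 1 → π c = 0) →
    ∑' V : Frm D T.lev, (if Bad π L V then fw T σ V else 0) ≤ 2 / L * fmu T D σ := by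
  obtain ⟨Cp, hCp⟩ : ∃ Cp : ℕ, Cp = (s + 1) ^ (D + 1) * ((s + 1) * (s * 2) + s ^ 2 + 1) := ⟨_, rfl⟩
  obtain ⟨B, hB⟩ : ∃ B : ℕ, B = 1 + (s + 1) ^ 2 * (2 * D + 2) := ⟨_, rfl⟩
  refine ⟨Cp * B + Cp + B, fun ι _ T L σ η π hs hL0 hl1 hσu hA1 hη hπ hπ1 => ?_⟩
  have hσ : 0 < σ := (Real.exp_pos _).trans_le hσu
  have hLR : (0 : ℝ) < L := by exact_mod_cast hL0
  have hL2 : (2 : ℝ) ≤ L := by linarith [Real.add_one_le_exp (Real.log L), Real.exp_log hLR]
  obtain ⟨q, hq, hq1, hq2⟩ := Nat.exists_prime_lt_and_le_two_mul (L ^ (2 * D + 1)) (by positivity)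
  have hq1' : (L : ℝ) ^ (2 * D + 1) ≤ q := by exact_mod_cast hq1.le
  have hq2' : (q : ℝ) ≤ 2 * (L : ℝ) ^ (2 * D + 1) := by exact_mod_cast hq2
  have hq0 : (0 : ℝ) < q := by exact_mod_cast hq.pos
  have hlq : Real.log q ≤ (2 * D + 2) * Real.log L := by
    have h1 : (q : ℝ) ≤ (L : ℝ) ^ (2 * D + 2) := by
      rw [pow_succ' _ (2 * D + 1)]
      exact hq2'.trans (by gcongr)
    refine (Real.log_le_log hq0 h1).trans (le_of_eq ?_)
    rw [Real.log_pow]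
    push_cast
    ring
  generalize Real.log L = l at *
  have hll : l ≤ l ^ 2 := by nlinarith
  have e1 : (0 : ℝ) ≤ Cp * B * l ^ 2 := by positivity
  have e2 : (0 : ℝ) ≤ Cp * l ^ 2 := by positivity
  have e3 : (0 : ℝ) ≤ B * l ^ 2 := by positivity
  have e5 : (Cp : ℝ) * l ≤ Cp * l ^ 2 := by gcongr
  have e6 : (B : ℝ) * l ≤ B * l ^ 2 := by gcongr
  push_cast at hA1
  have hpc : T.PC (Cp * l) (nfc T D hσ) Sigma.fst := by
    refine (nfc_pc T hs hσ (v := 2 * l) (by linarith) ?_).mono ?_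
    · rw [inv_le_comm₀ hσ (Real.exp_pos _), ← Real.exp_neg]
      exact hσu
    · rw [fl, hCp]
      push_cast
      rw [mul_assoc]
      refine mul_le_mul_of_nonneg_left ?_ (by positivity)
      linarith [mul_le_mul_of_nonneg_left hl1 (show (0 : ℝ) ≤ s ^ 2 + 1 by positivity)]
  refine (bad_le T (L := L) hσ hs (x := B * l)
    (Cell.allPC_pc hA1 hpc (by linarith) (by linarith)) hη hq (by
      rw [hB]
      push_cast
      linarith [mul_le_mul_of_nonneg_left hlq (show (0 : ℝ) ≤ (s + 1) ^ 2 by positivity)])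
    hπ hπ1).trans ?_
  have hmu := fmu_pos T D hσ
  have h1 : (2 * L : ℝ) ^ D * L ≤ q := by
    refine le_trans ?_ hq1'
    rw [pow_succ, pow_mul, sq]
    gcongr
  rw [← mul_div_assoc, div_mul_eq_mul_div, div_le_div_iff₀ hq0 hLR]
  linarith [mul_le_mul_of_nonneg_left h1 hmu.le]

open Classical in
/-- the increment on one frame -/
theorem frame {s L : ℕ} {c c0 m m' α : ℝ} {A : Finset (Fin D → ℤ)} {f : (Fin D → ℤ) → ℝ}
    (hL : 0 < L) (hc : 0 < c) (hc1 : c ≤ 1 / 2) (hc2 : 2 * c ≤ c0) (hα : Real.exp (-m) ≤ α)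
    (hf : ∀ t ∈ pos D L, f t = if t ∈ A then 1 else 0) (hA : A ⊆ pos D L)
    (h1 : (1 - c / 2) * α * (L : ℝ) ^ D ≤ ∑ t ∈ pos D L, f t)
    (hG : Real.exp (-(m + 1)) * (L : ℝ) ^ Fintype.card (Fin D) ≤ A.card →
      ∃ κ ∈ (nilWin (Fin D)).W s m', Real.exp (-m') * (L : ℝ) ^ Fintype.card (Fin D)
      ≤ ∑ u ∈ pos D L, κ u * ((if u ∈ A then 1 else 0)
        - (1 + c0) * ((A.card : ℝ) / (L : ℝ) ^ Fintype.card (Fin D)))) :
    ∃ κ ∈ (nilWin (Fin D)).W s m', Real.exp (-m') / 2 * (L : ℝ) ^ D ≤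
      ∑ t ∈ pos D L, κ t * ((f t - (1 + c) * α) / 2) := by
  have hLD : (0 : ℝ) < (L : ℝ) ^ D := by positivity
  have hα0 : 0 < α := (Real.exp_pos _).trans_le hα
  have hcard : (#A : ℝ) = ∑ t ∈ pos D L, f t := by
    rw [sum_congr rfl hf, sum_boole, filter_mem_eq_inter, inter_eq_right.2 hA]
  rw [hcard, Fintype.card_fin] at hG
  obtain ⟨κ, hκ, h3⟩ := hG (by
    refine le_trans (mul_le_mul_of_nonneg_right ?_ hLD.le) h1
    have h4 : Real.exp (-(m + 1)) * 2 ≤ Real.exp (-m) := by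
      rw [show -m = -(m + 1) + 1 by ring, Real.exp_add]
      gcongr
      linarith [Real.add_one_le_exp 1]
    nlinarith)
  refine ⟨κ, hκ, ?_⟩
  have h11 : (1 + c) * α ≤ (1 + c0) * ((∑ t ∈ pos D L, f t) / (L : ℝ) ^ D) := by
    refine le_trans ?_ (mul_le_mul_of_nonneg_left ((le_div_iff₀ hLD).2 h1) (by linarith))
    rw [← mul_assoc]
    refine mul_le_mul_of_nonneg_right ?_ hα0.le
    nlinarith
  rw [div_mul_eq_mul_div]
  refine (div_le_div_of_nonneg_right h3 zero_le_two).trans ?_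
  rw [sum_div]
  refine sum_le_sum fun t ht => ?_
  rw [mul_div_assoc, ← hf t ht]
  exact mul_le_mul_of_nonneg_left (by linarith) (hκ.1 t).1

/-- **START** -/
theorem start_of (hF : Ltr.FmomStmt) : StartStmt := by
  classical
  intro s D hs hD ⟨c0, hc0, Cg, hG⟩
  obtain ⟨Cf, hCf, hF⟩ := hF D s
  obtain ⟨c, hc, hc1, hc2⟩ : ∃ c : ℝ, 0 < c ∧ c ≤ 1 / 2 ∧ 2 * c ≤ c0 :=
    ⟨min c0 1 / 2, by positivity, by linarith [min_le_right c0 1], by linarith [min_le_left c0 1]⟩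
  obtain ⟨k, hk⟩ := num1 Cf Cg hc
  obtain ⟨E, hE⟩ := bad2 s D
  obtain ⟨C, hC1, hC2, hC3, hC4⟩ := ((allpc s (E + 2 * Cf + 1)).and
    ((num2 s Cg hc).and ((num3 Cg).and (eventually_ge_atTop k)))).exists
  refine ⟨c, hc, hc1, C, fun ι _ T τ p A m y L hm hmy hP hI hd h0 hA hα => ?_⟩
  have hy := hP.two
  obtain ⟨hA1, hl⟩ := hC1 ι T τ _ L y hP
  obtain ⟨n1, n2, n3⟩ := hC2 y m hy hm hmy
  have n4 := hC3 m hm
  obtain ⟨k1, k2, k3, k4⟩ := hk y m _ (Fintype.card ι) hy hm hmy hP.card (Real.exp_pos _).le le_rfl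
  clear hC1 hC2 hC3 hk
  have hkC : y ^ k ≤ y ^ C := pow_le_pow_right₀ (by linarith only [hy]) hC4
  have hk1 : 1 ≤ y ^ k := one_le_pow₀ (by linarith only [hy])
  have hLR : (0 : ℝ) < L := (Real.exp_pos _).trans_le hP.L_ge
  have hL0 : 0 < L := by exact_mod_cast hLR
  have hkL : Real.exp (y ^ k) ≤ L := (Real.exp_le_exp.2 hkC).trans hP.L_ge
  have hkl : y ^ k ≤ Real.log L := hkC.trans hl
  have hl1 : 1 ≤ Real.log L := hk1.trans hkl
  have hL1 : (1 : ℝ) ≤ L := by exact_mod_cast hL0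
  obtain ⟨p0, π, hπ, hπ1, hp⟩ := exists_lin T hI hd h0
  obtain ⟨σ, hσ'⟩ : ∃ σ : ℝ, σ = Real.exp (-y ^ k) / L := ⟨_, rfl⟩
  have hσ : 0 < σ := by rw [hσ']; positivity
  have hσL : σ * L = Real.exp (-y ^ k) := by rw [hσ', div_mul_cancel₀ _ hLR.ne']
  have hρ1 : Real.exp (-y ^ k) ≤ 1 := Real.exp_le_one_iff.2 (by linarith only [hk1])
  have hσu : Real.exp (-(2 * Real.log L)) ≤ σ := by
    rw [hσ', le_div_iff₀ hLR]
    nth_rewrite 2 [← Real.exp_log hLR]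
    rw [← Real.exp_add]
    exact Real.exp_le_exp.2 (by linarith only [hkl])
  have hσ1 : σ ≤ 1 := by
    rw [hσ', div_le_one hLR]
    exact hρ1.trans hL1
  have hη1 : Real.exp (-(2 * Real.log L)) ≤ 1 / 2 := by
    rw [Real.exp_neg, inv_le_comm₀ (Real.exp_pos _) (by norm_num)]
    linarith only [Real.add_one_le_exp (2 * Real.log L), hl1]
  have hα0 : 0 < Fr.dens T (indA A p) := (Real.exp_pos _).trans_le hα
  have hcα : c * Real.exp (-m) ≤ c * Fr.dens T (indA A p) := mul_le_mul_of_nonneg_left hα hc.le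
  have hll : Real.log L ≤ Real.log L ^ 2 := le_self_pow₀ hl1 two_ne_zero
  have e1 : (0 : ℝ) ≤ E * Real.log L ^ 2 := by positivity
  have e4 : (0 : ℝ) ≤ Cf * Real.log L ^ 2 := by positivity
  have e7 : (Cf : ℝ) * Real.log L ≤ Cf * Real.log L ^ 2 := by gcongr
  push_cast at hA1
  have hM : T.mu ≤ 2 * T.M := by
    have h1 := (abs_le.1 (Cell.allPC_self hA1 (by linarith only [e1, e4, hll, hl1]))).1
    have h2 : 1 / 2 ≤ T.M / T.mu := by linarith only [h1, hη1]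
    rw [le_div_iff₀ T.mu_pos] at h2
    linarith only [h2]
  obtain ⟨-, -, -, hmom⟩ := hF ι T σ (2 * Real.log L) (Cf * Real.exp (-y ^ k)) _ hP.lev
    (by linarith only [hl1]) hσu hσ1
    (mul_pos (by exact_mod_cast hCf) (Real.exp_pos _)) k2 (by linarith only [hη1])
    (Cell.allPC_mono hA1 (by linarith only [e1, e7, hll, hl1]) le_rfl)
  have hbad := hE ι T L σ _ π hP.lev hL0 hl1 hσu
    (Cell.allPC_mono hA1 (by linarith only [e4, hll, hl1]) le_rfl) (by linarith only [hη1]) hπ hπ1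
  have hmu := fmu_pos T D hσ
  obtain ⟨Z, hZ, hZ'⟩ := core T hL0 hσ (indA_mem A p) hc hc1 hα0 hM (fun t ht g hg => by
      refine (hmom t (fun i => ?_) g hg).trans ?_
      · have h1 := mem_pos.1 ht i
        have h2 : |(t i : ℝ)| ≤ L := by
          rw [abs_of_nonneg (by exact_mod_cast h1.1)]
          exact_mod_cast h1.2.le
        rw [← hσL, mul_comm _ (Cf : ℝ), mul_comm σ]
        gcongr
      · have h1 : √(Real.exp (-(2 * Real.log L))) ≤ Real.exp (-y ^ k) := by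
          rw [Real.sqrt_le_left (Real.exp_pos _).le, ← Real.exp_nat_mul]
          exact Real.exp_le_exp.2 (by push_cast; linarith only [hkl])
        have h2 : (Cf : ℝ) * √(Real.exp (-(2 * Real.log L))) ≤ Cf * Real.exp (-y ^ k) := by gcongr
        linarith only [h2, k1, hcα]) (Bad π L) (hbad.trans (by
      refine mul_le_mul_of_nonneg_right ?_ hmu.le
      have h2 := k3.trans hkL
      rw [div_le_iff₀ (by positivity)] at h2
      rw [div_le_iff₀ hLR]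
      linarith only [h2, mul_le_mul_of_nonneg_left hcα hLR.le]))
  have hm1 : 0 ≤ (m + 1) ^ Cg := by positivity
  obtain ⟨d, hd1, hd2⟩ := st_of T (s := s) (L := L) (m := (m + 1) ^ Cg + 2) (R := y ^ C)
    (H0 := fun z => (indA A p z - (1 + c) * Fr.dens T (indA A p)) / 2) (Z := Z) hσ
    (by linarith only [hm1]) n1 (by positivity) n2
    (le_trans (mul_le_mul_of_nonneg_right (by linarith only [hcα]) hmu.le) hZ) fun V hV => by
      obtain ⟨h1, h2⟩ := hZ' V hV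
      obtain ⟨κ, hκ, h3⟩ := frame (s := s) (m' := (m + 1) ^ Cg)
        (A := (pos D L).filter fun t => p0 + ∑ c, π c * V.pt t c ∈ A)
        hL0 hc hc1 hc2 hα (fun t ht => by
          rw [indA, hp]
          exact if_congr (by rw [mem_filter]; exact (and_iff_right ht).symm) rfl rfl)
        (filter_subset _ _) h1 (hG (m + 1) L (by linarith only [hm])
          ((Real.exp_le_exp.2 k4).trans hkL) _ (filter_subset _ _)
          (apfree hπ1 p0 (by omega) hA h2))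
      obtain ⟨d, N, F, P, h4, h5, h6, h7, h8, h9⟩ := nilWin_rep hκ
      have h10 : Real.exp ((m + 1) ^ Cg) ≤ Real.exp ((m + 1) ^ Cg + 2) :=
        Real.exp_le_exp.2 (by linarith only)
      refine ⟨d, N, F, P, by linarith only [h4], h5.mono h10, h6, h7.mono h10, h8, ?_⟩
      simp only [← h9]
      exact (mul_le_mul_of_nonneg_right n3 (by positivity)).trans h3
  exact ⟨σ, d, hσ, hσL.le.trans hρ1, by
    rw [hσL]; exact Real.exp_le_exp.2 (neg_le_neg hkC), hd1.trans n4, hd2⟩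

end Crest.Agent.T49.S50
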