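import Crest.Agent.T49.SyAll_62
import Crest.Agent.T49.GlAsm_99
import Crest.Agent.T49.GlDual_29
import Crest.Agent.T49.GlBox_56
import Crest.Agent.T49.GlBack_27
import Crest.Agent.T49.GlDim_51
import Crest.Agent.T49.Nv_74
import Crest.Agent.T49.FrND_98
import Crest.Agent.T49.StartB_50
import Crest.Agent.T49.St_57
import Crest.Agent.T49.EndInc_59
import Crest.Agent.T49.RegF_4

/-!
# Row 49 (helper62): `GLUE`, `START`, `INC`, unconditional
-/

set_option autoImplicit false

namespace Crest.Agent.T49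

theorem Fr.glueStmt62 : Fr.GlueStmt :=
  Gl.glueStmt Ri.ri_all62 Tw.allDerMStmt Fr.bulkStmt Ltr.orcStmt Gl.dualStmt29 Gl.boxDStmt
    Nv.nvStmt (Gl.backStmt Nil.ltStmt) Gl.dimredStmt

theorem Fr.startStmt62 : Fr.StartStmt := S50.start_of Ltr.fmomStmt

theorem Ea.incStmt62 : Ea.IncStmt := End.incStmt_of Samp.sampTStmt

end Crest.Agent.T49
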