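import Crest.Agent.T49.NilDef_65
import Crest.Agent.T49.NilBox_73
import Crest.Agent.T49.Bch_16

/-!
# Row 49 (helper67): products of nilmanifold data, morphisms and pull-back of functions

* `FHom K f` : filtered, lattice preserving Lie homomorphisms of norm `≤ K`; pull-back of
  `LipFn`, `NFn`, `NChar`, push-forward of polynomial sequences;
* `ND.pi N` (finite families, index type `Σ j, κ j`), `ND.prod N N'` (index type `ι ⊕ ι'`);
* `ND.relab N e` (relabelling of the basis), change of the step.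
-/

set_option autoImplicit false

noncomputable section

namespace Crest.Agent.T49.Nil

open Finset ND
open Crest.Agent.T49.Bch (star)
open scoped ComplexConjugate

variable {ι ι' ι'' : Type} [Fintype ι] [Fintype ι'] [Fintype ι'']

section Basic

variable {N : ND ι}

theorem isInt_zero67 : IsInt (0 : N.L) := fun _ => ⟨0, by simp⟩

theorem ND.IsInt.add {x y : N.L} (hx : IsInt x) (hy : IsInt y) : IsInt (x + y) := fun k => by
  obtain ⟨a, ha⟩ := hx k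
  obtain ⟨b, hb⟩ := hy k
  exact ⟨a + b, by rw [ND.add_apply, ha, hb]; simp⟩

theorem ND.IsInt.neg {x : N.L} (hx : IsInt x) : IsInt (-x) := fun k => by
  obtain ⟨a, ha⟩ := hx k
  exact ⟨-a, by rw [ND.neg_apply, ha]; simp⟩

theorem ND.IsInt.sub {x y : N.L} (hx : IsInt x) (hy : IsInt y) : IsInt (x - y) := by
  rw [sub_eq_add_neg]; exact hx.add hy.neg

theorem isInt_e67 (i : ι) : IsInt (N.e i) := fun k => by
  classical
  rw [e_apply]
  split_ifs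
  · exact ⟨1, by simp⟩
  · exact ⟨0, by simp⟩

theorem norm_e_le67 (i : ι) : ‖N.e i‖ ≤ 1 := by
  classical
  refine (norm_le_iff zero_le_one).2 fun k => ?_
  rw [e_apply]
  split_ifs <;> simp

theorem fn_int67 (η : ι → ℤ) {x : N.L} (hx : IsInt x) : ∃ z : ℤ, N.fn η x = z := by
  choose a ha using hx
  exact ⟨∑ k, η k * a k, by simp [fn_apply, ha]⟩

theorem abs_fn_le67 {η : ι → ℤ} {M : ℝ} (h : ∀ k, |(η k : ℝ)| ≤ M) (x : N.L) :
    |N.fn η x| ≤ Fintype.card ι * M * ‖x‖ := by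
  rw [fn_apply]
  refine (abs_sum_le_sum_abs _ _).trans ?_
  calc ∑ k, |(η k : ℝ) * x k| ≤ ∑ _k : ι, M * ‖x‖ := sum_le_sum fun k _ => by
        rw [abs_mul]
        exact mul_le_mul (h k) (abs_apply_le x k) (abs_nonneg _) ((abs_nonneg _).trans (h k))
    _ = _ := by simp [mul_assoc]

theorem fn_add67 (η η' : ι → ℤ) (x : N.L) : N.fn (η + η') x = N.fn η x + N.fn η' x := by
  simp [fn_apply, add_mul, sum_add_distrib]

theorem fn_neg67 (η : ι → ℤ) (x : N.L) : N.fn (-η) x = -N.fn η x := by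
  simp [fn_apply]

theorem fn_zero67 (x : N.L) : N.fn 0 x = 0 := by simp [fn_apply]

theorem fn_e67 (η : ι → ℤ) (i : ι) : N.fn η (N.e i) = η i := by
  classical
  simp [fn_apply, e_apply]

/-! ### change of the step -/

theorem star_step {S S' : ℕ} (hS : ∀ k, N.wt k ≤ S) (h : S ≤ S') {A : Type} [CommRing A]
    [Algebra ℝ A] (x y : N.pts A) : star S' x y = star S x y :=
  @Bch.star_eq_of_le _ _ _ S S' (nil hS A) h x y

theorem star_step' {S S' : ℕ} (hS : ∀ k, N.wt k ≤ S) (hS' : ∀ k, N.wt k ≤ S') {A : Type}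
    [CommRing A] [Algebra ℝ A] (x y : N.pts A) : star S' x y = star S x y := by
  rcases le_total S S' with h | h
  · exact star_step hS h x y
  · exact (star_step hS' h x y).symm

theorem ND.Good.step {S S' : ℕ} {M : ℝ} (h : N.Good S M) (hS' : ∀ k, N.wt k ≤ S') :
    N.Good S' M :=
  ⟨hS', h.c_le, fun x y hx hy => by rw [star_step' h.wt_le hS']; exact h.lat x y hx hy⟩

theorem ND.Good.step_le {S S' : ℕ} {M : ℝ} (h : N.Good S M) (hS : S ≤ S') : N.Good S' M :=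
  h.step fun k => (h.wt_le k).trans hS

theorem ND.LipFn.step {S S' : ℕ} {M : ℝ} {F : N.L → ℂ} (h : N.LipFn S M F)
    (hS : ∀ k, N.wt k ≤ S) (hS' : ∀ k, N.wt k ≤ S') : N.LipFn S' M F :=
  ⟨h.bdd, fun x γ hγ => by rw [star_step' hS hS']; exact h.per x γ hγ,
    fun Z x => by rw [star_step' hS hS']; exact h.lip Z x⟩

theorem ND.NFn.step {S S' s : ℕ} {M : ℝ} {F : N.L → ℂ} (h : N.NFn S s M F)
    (hS : ∀ k, N.wt k ≤ S) (hS' : ∀ k, N.wt k ≤ S') : N.NFn S' s M F :=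
  ⟨h.toLipFn.step hS hS', fun Z hZ x => by rw [star_step' hS hS']; exact h.inv Z hZ x⟩

theorem ND.NChar.step {S S' s : ℕ} {M : ℝ} {η : ι → ℤ} {F : N.L → ℂ} (h : N.NChar S s M η F)
    (hS : ∀ k, N.wt k ≤ S) (hS' : ∀ k, N.wt k ≤ S') : N.NChar S' s M η F :=
  ⟨h.toLipFn.step hS hS', h.supp, h.η_le,
    fun Z hZ x => by rw [star_step' hS hS']; exact h.vert Z hZ x⟩

/-! ### algebra of functions on one datum -/

variable {S s : ℕ} {M M' : ℝ} {F G : N.L → ℂ} {η η' : ι → ℤ}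

theorem lipFn_const (hM : 0 ≤ M) {c : ℂ} (hc : ‖c‖ ≤ 1) : N.LipFn S M fun _ => c :=
  ⟨fun _ => hc, fun _ _ _ => rfl, fun Z _ => by simpa using mul_nonneg hM (norm_nonneg Z)⟩

theorem nFn_const (hM : 0 ≤ M) {c : ℂ} (hc : ‖c‖ ≤ 1) : N.NFn S s M fun _ => c :=
  ⟨lipFn_const hM hc, fun _ _ _ => rfl⟩

theorem ND.NFn.nChar_zero {s' : ℕ} (h : N.NFn S s M F) (hM : 0 ≤ M) (hs : s < s') :
    N.NChar S s' M 0 F :=
  ⟨h.toLipFn, fun _ _ => rfl, fun _ => by simpa using hM, fun Z hZ x => by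
    rw [h.inv Z (FA_anti hs hZ), fn_zero67]; simp⟩

theorem ND.NFn.mono_deg {s' : ℕ} (h : N.NFn S s M F) (hs : s ≤ s') : N.NFn S s' M F :=
  ⟨h.toLipFn, fun Z hZ x => h.inv Z (FA_anti (by omega) hZ) x⟩

/-- post-composition with a Lipschitz map of the unit disc -/
theorem ND.LipFn.post (h : N.LipFn S M F) (g : ℂ → ℂ) {K : ℝ} (hK : 0 ≤ K)
    (hb : ∀ z, ‖z‖ ≤ 1 → ‖g z‖ ≤ 1)
    (hg : ∀ z w, ‖z‖ ≤ 1 → ‖w‖ ≤ 1 → ‖g z - g w‖ ≤ K * ‖z - w‖) :
    N.LipFn S (K * M) fun x => g (F x) :=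
  ⟨fun x => hb _ (h.bdd x), fun x γ hγ => by rw [h.per x γ hγ], fun Z x =>
    (hg _ _ (h.bdd _) (h.bdd _)).trans (by
      rw [mul_assoc]; exact mul_le_mul_of_nonneg_left (h.lip Z x) hK)⟩

theorem ND.NFn.post (h : N.NFn S s M F) (g : ℂ → ℂ) {K : ℝ} (hK : 0 ≤ K)
    (hb : ∀ z, ‖z‖ ≤ 1 → ‖g z‖ ≤ 1)
    (hg : ∀ z w, ‖z‖ ≤ 1 → ‖w‖ ≤ 1 → ‖g z - g w‖ ≤ K * ‖z - w‖) :
    N.NFn S s (K * M) fun x => g (F x) :=
  ⟨h.toLipFn.post g hK hb hg, fun Z hZ x => by rw [h.inv Z hZ x]⟩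

theorem ND.LipFn.conj (h : N.LipFn S M F) : N.LipFn S M fun x => conj (F x) :=
  ⟨fun x => by simpa using h.bdd x, fun x γ hγ => by rw [h.per x γ hγ], fun Z x => by
    rw [← map_sub, Complex.norm_conj]; exact h.lip Z x⟩

theorem ND.NFn.conj (h : N.NFn S s M F) : N.NFn S s M fun x => conj (F x) :=
  ⟨h.toLipFn.conj, fun Z hZ x => by rw [h.inv Z hZ x]⟩

theorem ND.NChar.conj (h : N.NChar S s M η F) : N.NChar S s M (-η) fun x => conj (F x) :=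
  ⟨h.toLipFn.conj, fun k hk => by simp [h.supp k hk], fun k => by simpa using h.η_le k,
    fun Z hZ x => by rw [h.vert Z hZ x, map_mul, fn_neg67, Tor.e_neg]⟩

theorem norm_mul_sub_mul67 {a b a' b' : ℂ} (ha' : ‖a'‖ ≤ 1) (hb : ‖b‖ ≤ 1) :
    ‖a * b - a' * b'‖ ≤ ‖a - a'‖ + ‖b - b'‖ := by
  rw [show a * b - a' * b' = (a - a') * b + a' * (b - b') by ring]
  refine (norm_add_le _ _).trans (add_le_add ?_ ?_)
  · rw [norm_mul]; exact mul_le_of_le_one_right (norm_nonneg _) hb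
  · rw [norm_mul]; exact mul_le_of_le_one_left (norm_nonneg _) ha'

theorem ND.LipFn.mul (h : N.LipFn S M F) (h' : N.LipFn S M' G) :
    N.LipFn S (M + M') fun x => F x * G x :=
  ⟨fun x => by rw [norm_mul]; exact mul_le_one₀ (h.bdd x) (norm_nonneg _) (h'.bdd x),
    fun x γ hγ => by rw [h.per x γ hγ, h'.per x γ hγ], fun Z x =>
    (norm_mul_sub_mul67 (h.bdd _) (h'.bdd _)).trans (by
      rw [add_mul]; exact add_le_add (h.lip Z x) (h'.lip Z x))⟩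

theorem ND.NFn.mul (h : N.NFn S s M F) (h' : N.NFn S s M' G) :
    N.NFn S s (M + M') fun x => F x * G x :=
  ⟨h.toLipFn.mul h'.toLipFn, fun Z hZ x => by rw [h.inv Z hZ x, h'.inv Z hZ x]⟩

theorem ND.NChar.mul (h : N.NChar S s M η F) (h' : N.NChar S s M' η' G) :
    N.NChar S s (M + M') (η + η') fun x => F x * G x :=
  ⟨h.toLipFn.mul h'.toLipFn, fun k hk => by simp [h.supp k hk, h'.supp k hk], fun k => by
    rw [Pi.add_apply, Int.cast_add]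
    exact (abs_add_le _ _).trans (add_le_add (h.η_le k) (h'.η_le k)),
    fun Z hZ x => by rw [h.vert Z hZ x, h'.vert Z hZ x, fn_add67, Tor.e_add]; ring⟩

theorem ND.LipFn.const_mul (h : N.LipFn S M F) {c : ℂ} (hc : ‖c‖ ≤ 1) :
    N.LipFn S M fun x => c * F x := by
  simpa using (lipFn_const le_rfl hc).mul h

theorem ND.NFn.const_mul (h : N.NFn S s M F) {c : ℂ} (hc : ‖c‖ ≤ 1) :
    N.NFn S s M fun x => c * F x := by
  simpa using (nFn_const le_rfl hc).mul h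

theorem ND.NChar.const_mul (h : N.NChar S s M η F) {c : ℂ} (hc : ‖c‖ ≤ 1) :
    N.NChar S s M η fun x => c * F x :=
  ⟨h.toLipFn.const_mul hc, h.supp, h.η_le, fun Z hZ x => by rw [h.vert Z hZ x]; ring⟩

theorem lipFn_prod {β : Type*} (T : Finset β) {Fj : β → N.L → ℂ} {Mj : β → ℝ}
    (h : ∀ j ∈ T, N.LipFn S (Mj j) (Fj j)) :
    N.LipFn S (∑ j ∈ T, Mj j) fun x => ∏ j ∈ T, Fj j x := by
  classical
  induction T using Finset.induction_on with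
  | empty => simpa using lipFn_const le_rfl (c := 1) (by simp)
  | insert a T ha ih =>
    simp only [sum_insert ha, prod_insert ha]
    exact (h a (mem_insert_self _ _)).mul (ih fun j hj => h j (mem_insert_of_mem hj))

theorem nFn_prod {β : Type*} (T : Finset β) {Fj : β → N.L → ℂ} {Mj : β → ℝ}
    (h : ∀ j ∈ T, N.NFn S s (Mj j) (Fj j)) :
    N.NFn S s (∑ j ∈ T, Mj j) fun x => ∏ j ∈ T, Fj j x :=
  ⟨lipFn_prod T fun j hj => (h j hj).toLipFn,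
    fun Z hZ x => prod_congr rfl fun j hj => (h j hj).inv Z hZ x⟩

theorem nChar_prod {β : Type*} (T : Finset β) {Fj : β → N.L → ℂ} {Mj : β → ℝ}
    {ηj : β → ι → ℤ} (h : ∀ j ∈ T, N.NChar S s (Mj j) (ηj j) (Fj j)) :
    N.NChar S s (∑ j ∈ T, Mj j) (∑ j ∈ T, ηj j) fun x => ∏ j ∈ T, Fj j x := by
  classical
  induction T using Finset.induction_on with
  | empty =>
    simp only [sum_empty, prod_empty]
    exact ⟨lipFn_const le_rfl (by simp), fun _ _ => rfl, fun _ => by simp,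
      fun Z _ x => by rw [fn_zero67]; simp⟩
  | insert a T ha ih =>
    simp only [sum_insert ha, prod_insert ha]
    exact (h a (mem_insert_self _ _)).mul (ih fun j hj => h j (mem_insert_of_mem hj))

/-- bounded linear combinations -/
theorem lipFn_sum {β : Type*} (T : Finset β) {Fj : β → N.L → ℂ} {Mj : β → ℝ} (c : β → ℂ)
    (h : ∀ j ∈ T, N.LipFn S (Mj j) (Fj j)) (hb : ∀ x, ‖∑ j ∈ T, c j * Fj j x‖ ≤ 1) :
    N.LipFn S (∑ j ∈ T, ‖c j‖ * Mj j) fun x => ∑ j ∈ T, c j * Fj j x :=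
  ⟨hb, fun x γ hγ => sum_congr rfl fun j hj => by rw [(h j hj).per x γ hγ], fun Z x => by
    rw [← sum_sub_distrib, sum_mul]
    refine norm_sum_le_of_le _ fun j hj => ?_
    rw [← mul_sub, norm_mul, mul_assoc]
    exact mul_le_mul_of_nonneg_left ((h j hj).lip Z x) (norm_nonneg _)⟩

theorem nFn_sum {β : Type*} (T : Finset β) {Fj : β → N.L → ℂ} {Mj : β → ℝ} (c : β → ℂ)
    (h : ∀ j ∈ T, N.NFn S s (Mj j) (Fj j)) (hb : ∀ x, ‖∑ j ∈ T, c j * Fj j x‖ ≤ 1) :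
    N.NFn S s (∑ j ∈ T, ‖c j‖ * Mj j) fun x => ∑ j ∈ T, c j * Fj j x :=
  ⟨lipFn_sum T c (fun j hj => (h j hj).toLipFn) hb,
    fun Z hZ x => sum_congr rfl fun j hj => by rw [(h j hj).inv Z hZ x]⟩

/-- a Lipschitz function of finitely many functions -/
theorem lipFn_comb {J : Type} [Fintype J] {Fj : J → N.L → ℂ} (hM : 0 ≤ M)
    (h : ∀ j, N.LipFn S M (Fj j)) (g : (J → ℂ) → ℂ) {K : ℝ} (hK : 0 ≤ K)
    (hb : ∀ x, ‖g fun j => Fj j x‖ ≤ 1)
    (hg : ∀ z w : J → ℂ, ‖z‖ ≤ 1 → ‖w‖ ≤ 1 → ‖g z - g w‖ ≤ K * ‖z - w‖) :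
    N.LipFn S (K * M) fun x => g fun j => Fj j x :=
  ⟨hb, fun x γ hγ => by simp only [(h _).per x γ hγ], fun Z x => by
    refine (hg _ _ ((pi_norm_le_iff_of_nonneg zero_le_one).2 fun j => (h j).bdd _)
      ((pi_norm_le_iff_of_nonneg zero_le_one).2 fun j => (h j).bdd _)).trans ?_
    rw [mul_assoc]
    exact mul_le_mul_of_nonneg_left ((pi_norm_le_iff_of_nonneg
      (mul_nonneg hM (norm_nonneg _))).2 fun j => (h j).lip Z x) hK⟩

end Basic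

/-! ### morphisms -/

section Hom

variable {N : ND ι} {N' : ND ι'} {N'' : ND ι''}

/-- filtered, lattice preserving linear maps of norm `≤ K` -/
structure FHom (K : ℝ) (f : N.L →ₗ[ℝ] N'.L) : Prop where
  int : ∀ x, IsInt x → IsInt (f x)
  filt : ∀ i, ∀ x ∈ N.F i, f x ∈ N'.F i
  norm : ∀ x, ‖f x‖ ≤ K * ‖x‖

theorem FHom.mono {K K' : ℝ} {f : N.L →ₗ[ℝ] N'.L} (h : FHom K f) (hK : K ≤ K') : FHom K' f :=
  ⟨h.int, h.filt, fun x => (h.norm x).trans (mul_le_mul_of_nonneg_right hK (norm_nonneg _))⟩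

theorem fHom_id : FHom 1 (LinearMap.id : N.L →ₗ[ℝ] N.L) :=
  ⟨fun _ h => h, fun _ _ h => h, fun x => by simp⟩

theorem FHom.comp {K K' : ℝ} {g : N'.L →ₗ[ℝ] N''.L} {f : N.L →ₗ[ℝ] N'.L} (hg : FHom K' g)
    (hf : FHom K f) (hK : 0 ≤ K') : FHom (K' * K) (g ∘ₗ f) :=
  ⟨fun x hx => hg.int _ (hf.int x hx), fun i x hx => hg.filt i _ (hf.filt i x hx), fun x =>
    (hg.norm _).trans (by rw [mul_assoc]; exact mul_le_mul_of_nonneg_left (hf.norm x) hK)⟩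

theorem ND.IntMap.isInt67 {M : ℝ} {f : N.L →ₗ[ℝ] N'.L} (h : N.IntMap N' M f) {x : N.L}
    (hx : IsInt x) : IsInt (f x) := fun k => by
  choose a ha using hx
  choose z hz _ using h
  refine ⟨∑ i, a i * z i k, ?_⟩
  conv_lhs => rw [eq_sum_e' x, map_sum, ND.sum_apply]
  simp [ha, hz]

theorem ND.IntMap.norm_le67 {M : ℝ} {f : N.L →ₗ[ℝ] N'.L} (h : N.IntMap N' M f) (hM : 0 ≤ M)
    (x : N.L) : ‖f x‖ ≤ Fintype.card ι * M * ‖x‖ := by
  refine (norm_le_iff (by positivity)).2 fun k => ?_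
  conv_lhs => rw [eq_sum_e' x, map_sum, ND.sum_apply]
  refine (abs_sum_le_sum_abs _ _).trans ?_
  calc ∑ i, |f (x i • N.e i) k| ≤ ∑ _i : ι, M * ‖x‖ := sum_le_sum fun i _ => by
        obtain ⟨z, hz, hz'⟩ := h i k
        rw [map_smul, ND.smul_apply, hz, smul_eq_mul, abs_mul, mul_comm]
        exact mul_le_mul hz' (abs_apply_le x i) (abs_nonneg _) hM
    _ = _ := by simp [mul_assoc]

theorem filt_of_e67 {f : N.L →ₗ[ℝ] N'.L} (h : ∀ i, f (N.e i) ∈ N'.F (N.wt i)) (n : ℕ) (x : N.L)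
    (hx : x ∈ N.F n) : f x ∈ N'.F n := by
  rw [eq_sum_e' x, map_sum]
  refine Submodule.sum_mem _ fun i _ => ?_
  rw [map_smul]
  by_cases hi : N.wt i < n
  · rw [hx i hi, zero_smul]; exact zero_mem _
  · exact Submodule.smul_mem _ _ (FA_anti (by omega) (h i))

theorem ND.IntMap.fHom {M : ℝ} {f : N.L →ₗ[ℝ] N'.L} (h : N.IntMap N' M f) (hM : 0 ≤ M)
    (hf : ∀ i, ∀ x ∈ N.F i, f x ∈ N'.F i) : FHom (Fintype.card ι * M) f :=
  ⟨fun _ hx => h.isInt67 hx, hf, h.norm_le67 hM⟩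

theorem FHom.intMap {K : ℝ} {f : N.L →ₗ[ℝ] N'.L} (h : FHom K f) (hK : 0 ≤ K) :
    N.IntMap N' K f := fun i k => by
  obtain ⟨z, hz⟩ := h.int _ (isInt_e67 i) k
  refine ⟨z, hz, ?_⟩
  rw [← hz]
  exact (abs_apply_le _ k).trans ((h.norm _).trans (mul_le_of_le_one_right hK (norm_e_le67 i)))

variable {σ : Type}

theorem ev_bcl67 (f : N.L →ₗ[ℝ] N'.L) (x : σ → ℝ) (P : N.PS σ) :
    N'.ev x (bcl f _ P) = f (N.ev x P) := by
  rw [ND.ev, map_bcl, bcl_real]; rfl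

theorem evZ_bcl67 (f : N.L →ₗ[ℝ] N'.L) (n : σ → ℤ) (P : N.PS σ) :
    N'.evZ n (bcl f _ P) = f (N.evZ n P) := ev_bcl67 f _ P

theorem ev_bc67 (f : N.L →ₗ⁅ℝ⁆ N'.L) (x : σ → ℝ) (P : N.PS σ) :
    N'.ev x (bc f _ P) = f (N.ev x P) := ev_bcl67 f.toLinearMap x P

theorem evZ_bc67 (f : N.L →ₗ⁅ℝ⁆ N'.L) (n : σ → ℤ) (P : N.PS σ) :
    N'.evZ n (bc f _ P) = f (N.evZ n P) := ev_bcl67 f.toLinearMap _ P

theorem bcl_mem_cf67 {f : N.L →ₗ[ℝ] N'.L} {W : ℕ → Submodule ℝ N.L} {W' : ℕ → Submodule ℝ N'.L}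
    (h : ∀ i, ∀ x ∈ W i, f x ∈ W' i) {P : N.PS σ} (hP : P ∈ cf σ W) : bcl f _ P ∈ cf σ W' :=
  fun α => by rw [cv_bcl]; exact h _ _ (hP α)

variable {K M : ℝ} {S s : ℕ}

theorem FHom.poly {f : N.L →ₗ[ℝ] N'.L} (h : FHom K f) {P : N.PS σ} (hP : P ∈ N.poly σ) :
    bcl f _ P ∈ N'.poly σ := bcl_mem_cf67 h.filt hP

theorem FHom.sm {f : N.L →ₗ[ℝ] N'.L} (h : FHom K f) (hK : 0 ≤ K) {T : ℝ} (hT : 0 ≤ T)
    {P : N.PS σ} (hP : N.Sm T M P) : N'.Sm T (K * M) (bcl f _ P) := fun α => by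
  rw [cv_bcl]
  refine (mul_le_mul_of_nonneg_right (h.norm _) (by positivity)).trans ?_
  rw [mul_assoc]
  exact mul_le_mul_of_nonneg_left (hP α) hK

theorem den_iff_isInt67 {q : ℕ} {x : N.L} : N.Den q x ↔ IsInt ((q : ℝ) • x) := den_iff

theorem FHom.den {f : N.L →ₗ[ℝ] N'.L} (h : FHom K f) {q : ℕ} {x : N.L} (hx : N.Den q x) :
    N'.Den q (f x) := by
  rw [den_iff_isInt67, ← map_smul]; exact h.int _ (den_iff_isInt67.1 hx)

theorem FHom.ratP {f : N.L →ₗ[ℝ] N'.L} (h : FHom K f) {q : ℕ} {P : N.PS σ} (hP : N.RatP q P) :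
    N'.RatP q (bcl f _ P) := fun α => by rw [cv_bcl]; exact h.den (hP α)

/-- push-forward of a factorisation -/
theorem FHom.factQ {f : N.L →ₗ⁅ℝ⁆ N'.L} (h : FHom K f.toLinearMap) (hK : 0 ≤ K) {T : ℝ}
    (hT : 0 ≤ T) {q : ℕ} {H : ℕ → Submodule ℝ N.L} {H' : ℕ → Submodule ℝ N'.L}
    (hH : ∀ i, ∀ x ∈ H i, f x ∈ H' i) {P : N.PS σ} (hP : N.FactQ S T M q H P) :
    N'.FactQ S T (K * M) q H' (bc f _ P) := by
  obtain ⟨ε, h1, g, h2, γ, h3, h4, h5, rfl⟩ := hP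
  exact ⟨_, h.poly h1, _, bcl_mem_cf67 (f := f.toLinearMap) hH h2, _, h.poly h3, h.sm hK hT h4,
    h.ratP h5, by rw [Bch.map_star, Bch.map_star]; rfl⟩

variable {f : N.L →ₗ⁅ℝ⁆ N'.L} {F : N'.L → ℂ}

/-- pull-back of a function -/
theorem FHom.lipFn (h : FHom K f.toLinearMap) (hM : 0 ≤ M) (hF : N'.LipFn S M F) :
    N.LipFn S (M * K) fun x => F (f x) :=
  ⟨fun _ => hF.bdd _, fun x γ hγ => by rw [Bch.map_star]; exact hF.per _ _ (h.int γ hγ),
    fun Z x => by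
      rw [Bch.map_star, mul_assoc]
      exact (hF.lip _ _).trans (mul_le_mul_of_nonneg_left (h.norm Z) hM)⟩

theorem FHom.nFn (h : FHom K f.toLinearMap) (hM : 0 ≤ M) (hF : N'.NFn S s M F) :
    N.NFn S s (M * K) fun x => F (f x) :=
  ⟨h.lipFn hM hF.toLipFn, fun Z hZ x => by rw [Bch.map_star]; exact hF.inv _ (h.filt _ Z hZ) _⟩

/-- pull-back of a character, given the pulled back frequency -/
theorem FHom.nChar_of (h : FHom K f.toLinearMap) (hM : 0 ≤ M) {η' : ι' → ℤ}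
    (hF : N'.NChar S s M η' F) {η : ι → ℤ} {M' : ℝ} (hM' : M * K ≤ M')
    (h1 : ∀ k, N.wt k ≠ s → η k = 0) (h2 : ∀ k, |(η k : ℝ)| ≤ M')
    (h3 : ∀ Z ∈ N.F s, N.fn η Z = N'.fn η' (f Z)) : N.NChar S s M' η fun x => F (f x) :=
  ⟨(h.lipFn hM hF.toLipFn).mono hM', h1, h2, fun Z hZ x => by
    rw [Bch.map_star, h3 Z hZ]; exact hF.vert _ (h.filt _ Z hZ) _⟩

/-- the pulled back frequency -/
theorem FHom.exists_freq {f : N.L →ₗ[ℝ] N'.L} (h : FHom K f) (hK : 0 ≤ K) (hM : 0 ≤ M)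
    {η' : ι' → ℤ} (h1 : ∀ k, N'.wt k ≠ s → η' k = 0) (h2 : ∀ k, |(η' k : ℝ)| ≤ M) :
    ∃ η : ι → ℤ, (∀ k, N.wt k ≠ s → η k = 0) ∧ (∀ k, |(η k : ℝ)| ≤ Fintype.card ι' * M * K) ∧
      ∀ Z ∈ N.F s, N.fn η Z = N'.fn η' (f Z) := by
  choose z hz using fun i => fn_int67 η' (h.int _ (isInt_e67 (N := N) i))
  refine ⟨fun k => if N.wt k = s then z k else 0, fun k hk => if_neg hk, fun k => ?_, fun Z hZ => ?_⟩
  · beta_reduce
    split_ifs
    · rw [← hz]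
      refine (abs_fn_le67 h2 _).trans (mul_le_mul_of_nonneg_left ?_ (by positivity))
      exact (h.norm _).trans (mul_le_of_le_one_right hK (norm_e_le67 k))
    · simp only [Int.cast_zero, abs_zero]; positivity
  · conv_rhs => rw [eq_sum_e' Z, map_sum, map_sum]
    rw [fn_apply]
    refine sum_congr rfl fun k _ => ?_
    rw [map_smul, map_smul, smul_eq_mul, mul_comm]
    rcases lt_trichotomy (N.wt k) s with hk | hk | hk
    · rw [hZ k hk, zero_mul, zero_mul]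
    · rw [if_pos hk, hz]
    · rw [if_neg hk.ne', fn_eq_zero h1 (h.filt _ _ (FA_anti hk (e_mem_F k)))]; simp

theorem FHom.nChar (h : FHom K f.toLinearMap) (hK : 0 ≤ K) (hM : 0 ≤ M) {η' : ι' → ℤ}
    (hF : N'.NChar S s M η' F) :
    ∃ η : ι → ℤ, N.NChar S s ((Fintype.card ι' + 1) * M * K) η (fun x => F (f x)) ∧
      ∀ Z ∈ N.F s, N.fn η Z = N'.fn η' (f Z) := by
  obtain ⟨η, h1, h2, h3⟩ := h.exists_freq hK hM hF.supp hF.η_le
  have h0 : 0 ≤ M * K := mul_nonneg hM hK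
  have h0' : (0 : ℝ) ≤ Fintype.card ι' * M * K := by positivity
  exact ⟨η, h.nChar_of hM hF (by nlinarith) h1 (fun k => (h2 k).trans (by nlinarith)) h3, h3⟩

theorem fHom_qpr {p : ι → Prop} [DecidablePred p] (h : N.Keep p) :
    FHom 1 (qpr h ℝ).toLinearMap :=
  ⟨fun _ => isInt_qpr h, fun _ _ => qpr_mem_FA h, fun x => by
    rw [one_mul]; exact (norm_le_iff (norm_nonneg _)).2 fun k => abs_apply_le x k⟩

end Hom

end Crest.Agent.T49.Nil
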