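import Crest.Agent.T49.GiDef_40
import Crest.Agent.T49.BchND_16
import Crest.Agent.T49.NilPr_67
import Crest.Agent.T49.NilUq_61

/-!
# Row 49 (helper61): the leaves `ADAPT` and `FIBS` of the inverse theorem
-/

set_option autoImplicit false

noncomputable section

namespace Crest.Agent.T49.GI

open Finset Crest.Agent.T49.Nil Crest.Agent.T49.Nil.ND
open Crest.Agent.T49.Bch (star dn)
open Crest.Agent.T49.Gon (IsRat cst lin bl)

namespace A61

/-- an integer basis of `V 1` adapted to a filtration `V` and to a subspace `K` -/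
theorem exists_basis {ι : Type} [Fintype ι] (V : ℕ → Submodule ℝ (ι → ℝ))
    (K : Submodule ℝ (ι → ℝ)) (S : ℕ) {H : ℝ} (hH : 1 ≤ H) {d : ℕ} (hd : Fintype.card ι ≤ d)
    (anti : ∀ b, V (b + 1) ≤ V b) (bot : V (S + 1) = ⊥)
    (rV : ∀ b, IsRat H (V b)) (rK : ∀ b, IsRat H (V b ⊓ K)) :
    ∃ (r : ℕ) (wt : Fin r → ℕ) (Z : Matrix ι (Fin r) ℤ) (C : Matrix (Fin r) ι ℤ) (q : ℕ),
      r ≤ Fintype.card ι ∧ (∀ a, 1 ≤ wt a ∧ wt a ≤ S) ∧ (∀ k a, |(Z k a : ℝ)| ≤ H) ∧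
      1 ≤ q ∧ (q : ℝ) ≤ bl d H ∧ (∀ x, ‖lin C x‖ ≤ bl d H * ‖x‖) ∧
      (∀ y, lin C (lin Z y) = (q : ℝ) • y) ∧ (∀ x ∈ V 1, lin Z (lin C x) = (q : ℝ) • x) ∧
      (∀ b, 1 ≤ b → ∀ y, lin Z y ∈ V b ↔ ∀ a, wt a < b → y a = 0) ∧
      ∀ y, lin Z y ∈ K ↔ ∀ a, cst (fun k => Z k a) ∉ K → y a = 0 := by
  classical
  have anti' : Antitone V := antitone_nat_of_succ_le anti
  obtain ⟨U, hU⟩ : ∃ U : ℕ → Submodule ℝ (ι → ℝ), ∀ b, U b = V (b + 1) ⊔ (V b ⊓ K) :=
    ⟨_, fun _ => rfl⟩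
  have hVU : ∀ b, V (b + 1) ≤ U b := fun b => hU b ▸ le_sup_left
  have hKU : ∀ b, V b ⊓ K ≤ U b := fun b => hU b ▸ le_sup_right
  have hUV : ∀ b, U b ≤ V b := fun b => hU b ▸ sup_le (anti b) inf_le_left
  let W : ℕ → Submodule ℝ (ι → ℝ) := fun j => if j % 2 = 1 then V ((j + 1) / 2) else U (j / 2)
  have W1 : ∀ i j, j + 1 = 2 * i → W j = V i := fun i j h => by
    simp only [W]
    rw [if_pos (by omega), show (j + 1) / 2 = i by omega]
  have W2 : ∀ i j, j = 2 * i → W j = U i := fun i j h => by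
    simp only [W]
    rw [if_neg (by omega), show j / 2 = i by omega]
  let p : (ι → ℤ) → Prop := fun z => ∀ b, cst z ∈ U b → cst z ∈ V (b + 1) ∨ cst z ∈ K
  let G : Submodule ℝ (ι → ℝ) → Submodule ℝ (ι → ℝ) := fun X => Submodule.span ℝ
    {v | v ∈ X ∧ ∃ z : ι → ℤ, p z ∧ (∀ k, |(z k : ℝ)| ≤ H) ∧ v = cst z}
  have Gm : ∀ X Y, X ≤ Y → G X ≤ G Y := fun X Y h =>
    Submodule.span_mono fun _ hv => ⟨h hv.1, hv.2⟩
  have GU : ∀ b, V (b + 1) ≤ G (V (b + 1)) → U b ≤ G (U b) := fun b h => by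
    nth_rw 1 [hU b]
    refine sup_le (h.trans (Gm _ _ (hVU b))) ((rK b).le_of_forall fun z hz hm => ?_)
    exact Submodule.subset_span ⟨hKU b hm, z, fun _ _ => Or.inr hm.2, hz, rfl⟩
  have GV : ∀ n b, b + n = S + 1 → V b ≤ G (V b) := by
    intro n
    induction n with
    | zero => intro b hb; rw [show b = S + 1 by omega, bot]; exact bot_le
    | succ n ih =>
      intro b hb
      refine (rV b).le_of_forall fun z hz hm => ?_
      by_cases hz' : cst z ∈ U b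
      · exact Gm _ _ (hUV b) (GU b (ih _ (by omega)) hz')
      · refine Submodule.subset_span ⟨hm, z, fun b' hb' => Or.inl ?_, hz, rfl⟩
        rcases lt_trichotomy b' b with h | rfl | h
        · exact anti' h hm
        · exact absurd hb' hz'
        · exact absurd (hVU b (anti' h (hUV b' hb'))) hz'
  obtain ⟨r, wt, Z, C, q, h1, h2, h3, hp, h4, h5, h6, -, h8, h9, h10, h11⟩ :=
    Gon.exists_adapted p W (2 * S) hH hd (fun j _ _ => by
      rcases Nat.even_or_odd' j with ⟨i, h | h⟩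
      · rw [W1 (i + 1) (j + 1) (by omega), W2 i j h]
        exact hVU i
      · rw [W2 (i + 1) (j + 1) (by omega), W1 (i + 1) j (by omega)]
        exact hUV _) (fun j _ hj => by
      rcases Nat.even_or_odd' j with ⟨i, h | h⟩
      · rw [W2 i j h]
        exact GU i (GV (S - i) _ (by omega))
      · rw [W1 (i + 1) j (by omega)]
        exact GV (S - i) _ (by omega))
  have hq0 : (q : ℝ) ≠ 0 := by positivity
  have hW1 : W 1 = V 1 := W1 1 1 rfl
  have hWV : ∀ j, 1 ≤ j → W j ≤ V 1 := fun j hj => by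
    rcases Nat.even_or_odd' j with ⟨i, h | h⟩
    · rw [W2 i j h]
      exact (hUV i).trans (anti' (by omega))
    · rw [W1 (i + 1) j (by omega)]
      exact anti' (by omega)
  have hZ1 : ∀ y, lin Z y ∈ W 1 := fun y => by
    rw [hW1, Gon.lin_eq_sum]
    exact Submodule.sum_mem _ fun a _ => Submodule.smul_mem _ _ (hWV _ (h2 a).1 (h4 a))
  have hmem : ∀ j, 1 ≤ j → j ≤ 2 * S + 1 → ∀ y, lin Z y ∈ W j ↔ ∀ a, wt a < j → y a = 0 := by
    intro j hj hj' y
    rw [h11 j hj hj' _ (hZ1 y), h9]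
    simp [hq0]
  have hmV : ∀ b, 1 ≤ b → b ≤ S + 1 → ∀ y, lin Z y ∈ V b ↔ ∀ a, wt a + 1 < 2 * b → y a = 0 := by
    intro b hb hb' y
    rw [← W1 b (2 * b - 1) (by omega), hmem _ (by omega) (by omega)]
    exact forall_congr' fun a => by rw [show wt a < 2 * b - 1 ↔ wt a + 1 < 2 * b by omega]
  have hκ : ∀ a b, wt a = 2 * b → cst (fun k => Z k a) ∈ K := fun a b hab => by
    have h := h4 a
    rw [W2 b _ hab] at h
    refine (hp a b h).resolve_left fun h' => ?_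
    have h0 := h2 a
    rw [← Gon.lin_single, hmV _ (by omega) (by omega)] at h'
    simpa using h' a (by omega)
  have hK : ∀ y : Fin r → ℝ, (∀ a, cst (fun k => Z k a) ∉ K → y a = 0) → lin Z y ∈ K := by
    intro y hy
    rw [Gon.lin_eq_sum]
    refine Submodule.sum_mem _ fun a _ => ?_
    by_cases ha : cst (fun k => Z k a) ∈ K
    · exact Submodule.smul_mem _ _ ha
    · simp [hy a ha]
  have hK' : ∀ n b, 1 ≤ b → b + n = S + 1 → ∀ y, lin Z y ∈ V b → lin Z y ∈ K →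
      ∀ a, cst (fun k => Z k a) ∉ K → y a = 0 := by
    intro n
    induction n with
    | zero =>
      intro b hb hb' y hy _ a _
      exact (hmV b hb (by omega) y).1 hy a (by have := h2 a; omega)
    | succ n ih =>
      intro b hb hb' y hy hyK a ha
      have h0 : ∀ a, wt a < 2 * b → y a = 0 :=
        (hmem (2 * b) (by omega) (by omega) y).1 (by rw [W2 b _ rfl]; exact hKU b ⟨hy, hyK⟩)
      let y' : Fin r → ℝ := fun a => if wt a = 2 * b then y a else 0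
      have hy' : lin Z y' ∈ K := hK y' fun a ha => if_neg fun h => ha (hκ a b h)
      have := ih (b + 1) (by omega) (by omega) (y - y')
        ((hmV _ (by omega) (by omega) _).2 fun a ha => by
          by_cases h : wt a = 2 * b
          · simp [y', h]
          · simp [y', h, h0 a (by omega)])
        (by rw [map_sub]; exact sub_mem hyK hy') a ha
      simpa [y', show ¬ wt a = 2 * b from fun h => ha (hκ a b h)] using this
  refine ⟨r, fun a => (wt a + 1) / 2, Z, C, q, h1, fun a => by have := h2 a; dsimp only; omega,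
    h3, h5, h6, h8, h9, fun x hx => ?_, fun b hb y => ?_,
    fun y => ⟨fun h => hK' S 1 le_rfl (by omega) y (hW1 ▸ hZ1 y) h, hK y⟩⟩
  · have := h10 x (hW1 ▸ hx)
    rw [W1 (S + 1) _ (by omega), bot, Submodule.mem_bot, sub_eq_zero] at this
    exact this.symm
  · rcases le_total b (S + 1) with h | h
    · rw [hmV b hb h]
      exact forall_congr' fun a => by
        rw [show wt a + 1 < 2 * b ↔ (wt a + 1) / 2 < b by omega]
    · rw [show V b = V (S + 1) from le_antisymm (anti' h) (bot ▸ bot_le),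
        hmV _ (by omega) le_rfl]
      refine forall_congr' fun a => ?_
      have := h2 a
      rw [show wt a + 1 < 2 * (S + 1) ↔ (wt a + 1) / 2 < b by omega]

variable {ι : Type} [Fintype ι]

/-- the integer points form a group when `dn S` divides the structure constants -/
theorem lat_of_dvd {N : ND ι} {S : ℕ} (h : ∀ i j k, (dn S : ℤ) ∣ N.c i j k) (x y : N.L)
    (hx : IsInt x) (hy : IsInt y) : IsInt (star S x y) := by
  refine Bch.star_mem_lattice S (intL N) (fun a ha b hb => ?_) hx hy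
  choose a' ha' using ha
  choose b' hb' using hb
  choose c0 hc0 using h
  refine ⟨N.ofInt fun k => ∑ i, ∑ j, c0 i j k * a' i * b' j, isInt_ofInt _, pts_ext fun k => ?_⟩
  rw [lie_apply]
  simp only [ha', hb', hc0, ND.smul_apply, ofInt_apply, smul_eq_mul, Int.cast_sum, Int.cast_mul,
    Int.cast_natCast, mul_sum]
  exact sum_congr rfl fun i _ => sum_congr rfl fun j _ => by ring

/-- the adapted datum with explicit bounds -/
theorem exists_adapt {N : ND ι} {S d : ℕ} {B H : ℝ} {V : ℕ → Submodule ℝ N.L}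
    {K : Submodule ℝ N.L} (hB : ∀ i j k, |(N.c i j k : ℝ)| ≤ B) (hB0 : 0 ≤ B) (hH : 1 ≤ H)
    (hd : Fintype.card ι ≤ d) (anti : ∀ b, V (b + 1) ≤ V b) (bot : V (S + 1) = ⊥)
    (lie : ∀ a b, 1 ≤ a → 1 ≤ b → ∀ x ∈ V a, ∀ y ∈ V b, ⁅x, y⁆ ∈ V (a + b))
    (ideal : ∀ x ∈ V 1, ∀ y ∈ K, ⁅x, y⁆ ∈ K)
    (rV : ∀ b, N.RatS H (V b)) (rK : ∀ b, N.RatS H (V b ⊓ K)) :
    ∃ (r : ℕ) (N' : ND (Fin r)) (κ : Fin r → Prop) (φ : N'.L →ₗ⁅ℝ⁆ N.L), r ≤ Fintype.card ι ∧
      N'.Good S (dn S * (bl d H * (d ^ 2 * B * H * H))) ∧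
      N'.IntMap N (dn S * bl d H * H) φ.toLinearMap ∧ (∀ i j k, (dn S : ℤ) ∣ N'.c i j k) ∧
      Function.Injective φ ∧ (∀ b, 1 ≤ b → (N'.F b).map φ.toLinearMap = V b) ∧ CoId N' κ ∧
      ∀ w, φ w ∈ K ↔ On N' κ w := by
  classical
  obtain ⟨r, wt, Z, C, q, h1, h2, h3, h4, h5, h6, h7, h8, h9, h10⟩ :=
    exists_basis (ι := ι) V K S hH hd anti bot rV rK
  have anti' : Antitone V := antitone_nat_of_succ_le anti
  have hq : (0 : ℝ) < q := by positivity
  have hD : (0 : ℝ) < dn S := by exact_mod_cast Bch.dn_pos S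
  have hbl := Gon.one_le_bl d hH
  obtain ⟨LZ, hLZ⟩ : ∃ LZ : (Fin r → ℝ) →ₗ[ℝ] N.L, ∀ y, LZ y = lin Z y := ⟨lin Z, fun _ => rfl⟩
  obtain ⟨LC, hLC⟩ : ∃ LC : N.L →ₗ[ℝ] (Fin r → ℝ), ∀ x, LC x = lin C x := ⟨lin C, fun _ => rfl⟩
  let z : Fin r → N.L := fun a => N.ofInt fun k => Z k a
  have e1 : ∀ y, LZ y = ∑ a, y a • z a := fun y => (hLZ y).trans (Gon.lin_eq_sum Z y)
  have e2 : ∀ y, LC (LZ y) = (q : ℝ) • y := fun y => by rw [hLC, hLZ]; exact h7 y
  have e3 : ∀ x ∈ V 1, LZ (LC x) = (q : ℝ) • x := fun x hx => by rw [hLZ, hLC]; exact h8 x hx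
  have e4 : ∀ b, 1 ≤ b → ∀ y, LZ y ∈ V b ↔ ∀ a, wt a < b → y a = 0 := fun b hb y => by
    rw [hLZ]; exact h9 b hb y
  have e5 : ∀ y, LZ y ∈ K ↔ ∀ a, z a ∉ K → y a = 0 := fun y => by rw [hLZ]; exact h10 y
  have e6 : ∀ x, ‖LC x‖ ≤ bl d H * ‖x‖ := fun x => by rw [hLC]; exact h6 x
  have e7 : ∀ (u : ι → ℤ) a, LC (N.ofInt u) a = (C.mulVec u a : ℤ) := fun u a => by
    rw [hLC]; exact congrFun (Gon.lin_cst C u) a
  have hz : ∀ a, z a ∈ V (wt a) := fun a => by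
    have := (e4 (wt a) (h2 a).1 (Pi.single a 1)).2 fun b hb =>
      Pi.single_eq_of_ne (by rintro rfl; exact lt_irrefl _ hb) _
    rwa [hLZ, Gon.lin_single] at this
  have hz1 : ∀ a, z a ∈ V 1 := fun a => anti' (h2 a).1 (hz a)
  have hinj : Function.Injective LZ := fun y y' h =>
    smul_right_injective _ hq.ne' (by simp only [← e2, h])
  let br : Fin r → Fin r → ι → ℤ := fun a b k => ∑ i, ∑ j, N.c i j k * Z i a * Z j b
  have hbr : ∀ a b, ⁅z a, z b⁆ = N.ofInt (br a b) := fun a b =>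
    pts_ext fun k => by simp [lie_apply, br, z]
  have hbV : ∀ a b, ⁅z a, z b⁆ ∈ V (wt a + wt b) := fun a b =>
    lie _ _ (h2 a).1 (h2 b).1 _ (hz a) _ (hz b)
  have hb1 : ∀ a b, ⁅z a, z b⁆ ∈ V 1 := fun a b =>
    anti' (by have := h2 a; omega) (hbV a b)
  obtain ⟨μ, hμ⟩ : ∃ μ : ℝ, μ = dn S * q := ⟨_, rfl⟩
  have hμ0 : 0 < μ := by rw [hμ]; positivity
  let v : Fin r → N.L := fun a => μ • z a
  have hv : ∀ y : Fin r → ℝ, ∑ a, y a • v a = μ • LZ y := fun y => by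
    rw [e1, smul_sum]
    exact sum_congr rfl fun a _ => smul_comm _ _ _
  have hli : LinearIndependent ℝ v := Fintype.linearIndependent_iff.2 fun y hy a => by
    rw [hv, smul_eq_zero_iff_right hμ0.ne', ← map_zero LZ] at hy
    exact congrFun (hinj hy) a
  let c : Fin r → Fin r → Fin r → ℤ := fun a b k => dn S * C.mulVec (br a b) k
  have hc : ∀ a b k, (c a b k : ℝ) = dn S * LC ⁅z a, z b⁆ k := fun a b k => by
    rw [hbr, e7]; simp [c]
  have hvb : ∀ a b, ⁅v a, v b⁆ = ∑ k, (c a b k : ℝ) • v k := fun a b => by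
    rw [hv, show (fun k => (c a b k : ℝ)) = (dn S : ℝ) • LC ⁅z a, z b⁆ from funext (hc a b),
      map_smul, e3 _ (hb1 a b), smul_lie, lie_smul, smul_smul, smul_smul, smul_smul, hμ]
    congr 1
    ring
  have hwt : ∀ a b k, c a b k ≠ 0 → wt a + wt b ≤ wt k := fun a b k h => by
    by_contra h'
    have := (e4 _ (by have := h2 a; omega) _).1
      (by rw [e3 _ (hb1 a b)]; exact Submodule.smul_mem _ _ (hbV a b)) k (not_le.1 h')
    apply h
    have h0 := hc a b k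
    rw [this, mul_zero] at h0
    exact_mod_cast h0
  let N' : ND (Fin r) := ofFamily v hli wt c hvb (fun a => (h2 a).1) hwt
  let φ : N'.L →ₗ⁅ℝ⁆ N.L := N'.lift v hvb
  have hφ : ∀ w : N'.L, φ w = μ • LZ w := fun w => hv w
  have hdv : ∀ i j k, (dn S : ℤ) ∣ N'.c i j k := fun i j k => dvd_mul_right _ _
  have hmul : ∀ (X : Submodule ℝ N.L) (w : N'.L), φ w ∈ X ↔ LZ w ∈ X := fun X w => by
    rw [hφ, Submodule.smul_mem_iff _ hμ0.ne']
  refine ⟨r, N', fun a => z a ∈ K, φ, h1, ⟨fun a => (h2 a).2, fun a b k => ?_, lat_of_dvd hdv⟩,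
    fun a k => ⟨dn S * q * Z k a, ?_, ?_⟩, hdv, fun w w' h => ?_, fun b hb => ?_,
    fun a b k h hb => ?_, fun w => (hmul K w).trans (e5 w)⟩
  · change |(c a b k : ℝ)| ≤ _
    rw [hc, abs_mul, abs_of_pos hD]
    refine mul_le_mul_of_nonneg_left ((norm_le_pi_norm (LC ⁅z a, z b⁆) k).trans
      ((e6 _).trans (mul_le_mul_of_nonneg_left ?_ (by linarith)))) hD.le
    have hn : ∀ a, ‖z a‖ ≤ H := fun a => (norm_le_iff (by linarith)).2 fun k => h3 k a
    have hd' : (Fintype.card ι : ℝ) ≤ d := by exact_mod_cast hd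
    refine (St.norm_lie_le hB hB0 _ _).trans ?_
    have := hn a
    have := hn b
    gcongr
  · change φ (N'.e a) k = _
    have : φ (N'.e a) = v a := by
      change ∑ i, N'.e a i • v i = _
      simp [e_apply]
    rw [this]
    simp [v, z, hμ]
  · push_cast
    rw [abs_mul, abs_mul, abs_of_pos hD, abs_of_pos hq]
    have := h3 k a
    gcongr
  · rw [hφ, hφ] at h
    exact hinj (smul_right_injective _ hμ0.ne' h)
  · ext x
    constructor
    · rintro ⟨w, hw, rfl⟩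
      exact (hmul _ w).2 ((e4 b hb w).2 hw)
    · intro hx
      have hx1 : x ∈ V 1 := anti' hb hx
      have e : φ ((μ * q)⁻¹ • LC x : Fin r → ℝ) = x := by
        rw [hφ, map_smul, e3 x hx1, smul_smul, smul_smul,
          show μ * (μ * q)⁻¹ * q = 1 by field_simp, one_smul]
      exact ⟨_, (e4 b hb _).1 ((hmul _ _).1 (e.symm ▸ hx)), e⟩
  · by_contra hk
    have := (e5 _).1
      (by rw [e3 _ (hb1 a b)]; exact Submodule.smul_mem _ _ (ideal _ (hz1 a) _ hb)) k hk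
    apply h
    have h0 := hc a b k
    rw [this, mul_zero] at h0
    exact_mod_cast h0

end A61

theorem adaptStmt : AdaptStmt := by
  intro S
  have hR := St.QB.exp.bl.bl
  have hD := St.QB.const (c := (dn S : ℝ)) (Nat.cast_nonneg _)
  obtain ⟨C₁, hC₁⟩ := hD.mul (hR.bl.mul ((((St.QB.floor.pow 2).mul St.QB.exp).mul hR).mul hR))
  obtain ⟨C₂, hC₂⟩ := (hD.mul hR.bl).mul hR
  refine ⟨C₁ + C₂ + 1, by omega, fun m hm ι _ N V 𝔨 hN h => ?_⟩
  have hE : 1 ≤ Real.exp m := Real.one_le_exp (by linarith)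
  have hd : Fintype.card ι ≤ ⌊m⌋₊ := Nat.le_floor hN.dim
  have h1 := Gon.one_le_bl ⌊m⌋₊ hE
  obtain ⟨r, N', κ, φ, a1, a2, a3, -, a4⟩ := A61.exists_adapt (S := S) hN.c_le (by linarith)
    (Gon.one_le_bl ⌊m⌋₊ h1) hd h.anti h.bot h.lie h.ideal
    (fun b => (h.rat b).mono ((Gon.le_bl _ hE).trans (Gon.le_bl _ h1)))
    (fun b => Gon.IsRat.inf (h.rat b) h.ratk hE hd)
  refine ⟨r, N', κ, φ, le_trans (by exact_mod_cast a1) hN.dim,
    a2.mono ((hC₁ m hm).2.trans (St.exp_pow_mono hm (by omega))), fun i k => ?_, a4⟩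
  obtain ⟨z, e, hz⟩ := a3 i k
  exact ⟨z, e, hz.trans ((hC₂ m hm).2.trans (St.exp_pow_mono hm (by omega)))⟩

theorem fibSStmt (h : AdaptStmt) (h' : FibCStmt) : FibSStmt := by
  intro S t
  obtain ⟨C₁, hC₁, h⟩ := h S
  obtain ⟨C₂, hC₂, h'⟩ := h' S t
  obtain ⟨C₃, hC₃⟩ := St.QB.exp.mul (St.QB.id.mul (St.QB.exp_pow C₁))
  refine ⟨(C₁ + C₃) * C₂, Nat.mul_pos (by omega) hC₂,
    fun m hm ι _ N V 𝔨 L H F P a hd hN hV hL hH => ?_⟩
  obtain ⟨r, N', κ, φ, a1, a2, a3, a4, a5, a6, a7⟩ := h m hm ι N V 𝔨 ⟨hN.wt_le, hd, hN.c_le⟩ hV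
  have hm1 : m ≤ m ^ (C₁ + C₃) := le_self_pow₀ (by linarith) (by omega)
  obtain ⟨ψ, hψ⟩ := φ.toLinearMap.exists_leftInverse_of_injective (LinearMap.ker_eq_bot.2 a4)
  have hψ' : ∀ w, ψ (φ w) = w := fun w => LinearMap.congr_fun hψ w
  have anti : Antitone V := antitone_nat_of_succ_le hV.anti
  have hV1 : ∀ b, V b ≤ V 1 := fun b => by
    rcases b with _ | b
    · exact hV.zero.le
    · exact anti (by omega)
  have hψF : ∀ b, ∀ x ∈ V b, ψ x ∈ N'.F b := fun b x hx => by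
    rcases b with _ | b
    · exact mem_FA_zero _
    · rw [← a5 _ (by omega)] at hx
      obtain ⟨w, hw, rfl⟩ := hx
      rwa [LieHom.coe_toLinearMap, hψ']
  have hφψ : ∀ x ∈ V 1, φ (ψ x) = x := fun x hx => by
    rw [← a5 1 le_rfl] at hx
    obtain ⟨w, -, rfl⟩ := hx
    rw [LieHom.coe_toLinearMap, hψ']
  rw [pow_mul]
  refine h' _ (hm.trans hm1) (Fin r) N' κ L H (fun g x => F g (φ x))
    (fun g => bcl ψ _ (P g)) a (by simpa using a1.trans hm1)
    (a2.mono (St.exp_pow_mono hm (by omega))) a6 hL fun g hg => ?_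
  obtain ⟨b1, b2, b3, b4, b5, b6⟩ := hH g hg
  have hP : bc φ _ (bcl ψ _ (P g)) = P g := ps_ext fun α => by
    rw [St.cv_bc, cv_bcl, hφψ _ (hV1 _ (b3 α))]
  refine ⟨⟨fun x => b1.bdd _, fun x γ hγ => ?_, fun Z x => ?_⟩, fun Z hZ hκ x => ?_,
    bcl_mem_cf67 hψF b3, fun g' hg' k hk => ?_, b5, ?_⟩
  · rw [Bch.map_star]
    exact b1.per _ _ (a3.isInt67 hγ)
  · rw [Bch.map_star]
    refine (b1.lip _ _).trans ((mul_le_mul_of_nonneg_left (a3.norm_le67 (Real.exp_pos _).le Z)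
      (Real.exp_pos _).le).trans ?_)
    rw [← mul_assoc]
    refine mul_le_mul_of_nonneg_right ?_ (norm_nonneg _)
    refine le_trans ?_ ((hC₃ m hm).2.trans (St.exp_pow_mono hm (Nat.le_add_left _ _)))
    rw [Fintype.card_fin]
    exact mul_le_mul_of_nonneg_left (mul_le_mul_of_nonneg_right a1 (Real.exp_pos _).le)
      (Real.exp_pos _).le
  · rw [Bch.map_star]
    exact b2 _ (a5 (t + 1) (by omega) ▸ Submodule.mem_map_of_mem hZ) ((a7 Z).2 hκ) _
  · refine MvPolynomial.ext _ _ fun α => ?_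
    have h1 := b4 g' hg' α
    have h2 := (a7 _).1 ((hφψ _ (hV.le h1)).symm ▸ h1) k hk
    rw [← cv_bcl, map_sub, map_sub, ND.sub_apply, sub_eq_zero] at h2
    exact h2
  · have e : sq N' (fun x => F g (φ x)) (bcl ψ _ (P g)) = sq N (F g) (P g) := funext fun n => by
      rw [sq, sq, ← evZ_bc67, hP]
    rw [e]
    exact le_trans (mul_le_mul_of_nonneg_right (Real.exp_le_exp.2 (neg_le_neg hm1))
      (Nat.cast_nonneg _)) b6

end Crest.Agent.T49.GI
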