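import Crest.Agent.T49.Ah7_9

/-! Row 49, Sanders block: the approximate homomorphism lemma with real targets. -/

set_option autoImplicit false

namespace Crest.Agent.T49.AH

open Finset
open scoped BigOperators

/-- **Approximate homomorphism lemma, real targets** (no reduction modulo the integers). -/
theorem real_hom : ∃ C : ℕ, ∀ {m : ℝ}, 2 ≤ m → ∀ {ι κ : Type} [Fintype ι] [Fintype κ],
    (Fintype.card ι : ℝ) ≤ m → (Fintype.card κ : ℝ) ≤ m → ∀ (L : ι → ℕ), (∀ i, 0 < L i) →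
    ∀ (H₁ H₂ H₃ H₄ : Finset (ι → ℤ)),
    (∀ x ∈ H₁, ∀ y ∈ H₁, ∀ i, |x i - y i| < L i) → (∀ x ∈ H₂, ∀ y ∈ H₂, ∀ i, |x i - y i| < L i) →
    (∀ x ∈ H₃, ∀ y ∈ H₃, ∀ i, |x i - y i| < L i) → (∀ x ∈ H₄, ∀ y ∈ H₄, ∀ i, |x i - y i| < L i) →
    ∀ (f₁ f₂ f₃ f₄ : (ι → ℤ) → κ → ℝ)
    (Q : Finset ((ι → ℤ) × (ι → ℤ) × (ι → ℤ) × (ι → ℤ))),
    (∀ q ∈ Q, q.1 ∈ H₁ ∧ q.2.1 ∈ H₂ ∧ q.2.2.1 ∈ H₃ ∧ q.2.2.2 ∈ H₄ ∧
      q.1 + q.2.1 = q.2.2.1 + q.2.2.2 ∧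
      ∀ l, |f₁ q.1 l + f₂ q.2.1 l - f₃ q.2.2.1 l - f₄ q.2.2.2 l| ≤ 1) →
    Real.exp (-m) * (∏ i, (L i : ℝ)) ^ 3 ≤ #Q →
    ∃ H' ⊆ H₁, Real.exp (-m ^ C) * ∏ i, (L i : ℝ) ≤ #H' ∧ ∃ r : ℕ, (r : ℝ) ≤ m ^ C ∧
      ∃ (β : Fin r → ι → ℝ) (a : ι → κ → ℤ) (b : Fin r → κ → ℤ) (γ : κ → ℤ),
        (∀ j i, ∃ n : ℤ, β j i * L i = n) ∧
        ∀ h ∈ H', ∀ l,
          |f₁ h l - (γ l + ∑ i, (h i : ℝ) * a i l + ∑ j, (⌊∑ i, β j i * h i⌋ : ℝ) * b j l)| ≤ 1 := by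
  refine ⟨900, ?_⟩
  intro m hm ι κ _ _ hι hκ L hL H₁ H₂ H₃ H₄ h₁ h₂ h₃ h₄ f₁ f₂ f₃ f₄ Q hQ hc
  classical
  set g : ((ι → ℤ) → κ → ℝ) → (ι → ℤ) → κ → ℤ := fun f x l => ⌊f x l⌋ with hg
  set df : (ι → ℤ) × (ι → ℤ) × (ι → ℤ) × (ι → ℤ) → κ → ℤ := fun q l =>
    g f₁ q.1 l + g f₂ q.2.1 l - g f₃ q.2.2.1 l - g f₄ q.2.2.2 l with hdf
  obtain ⟨c, -, hcc⟩ := pigeon Q (Fintype.piFinset fun _ : κ => Icc (-2 : ℤ) 2)
    (Fintype.piFinset_nonempty.2 fun _ => ⟨0, by simp⟩) df (fun q hq => by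
      rw [Fintype.mem_piFinset]
      intro l
      have k := abs_le.1 ((hQ q hq).2.2.2.2.2 l)
      have a1 := Int.floor_le (f₁ q.1 l)
      have a2 := Int.floor_le (f₂ q.2.1 l)
      have a3 := Int.floor_le (f₃ q.2.2.1 l)
      have a4 := Int.floor_le (f₄ q.2.2.2 l)
      have b1 := Int.lt_floor_add_one (f₁ q.1 l)
      have b2 := Int.lt_floor_add_one (f₂ q.2.1 l)
      have b3 := Int.lt_floor_add_one (f₃ q.2.2.1 l)
      have b4 := Int.lt_floor_add_one (f₄ q.2.2.2 l)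
      have c1 : (-3 : ℝ) < (df q l : ℝ) := by
        rw [hdf, hg]; push_cast; linarith [k.1, k.2]
      have c2 : (df q l : ℝ) < 3 := by
        rw [hdf, hg]; push_cast; linarith [k.1, k.2]
      have c3 : (-3 : ℤ) < df q l := by exact_mod_cast c1
      have c4 : df q l < 3 := by exact_mod_cast c2
      rw [mem_Icc]; omega)
  have hm1 : 1 ≤ m := by linarith
  have hm3 : 3 * m ≤ m ^ 3 := by nlinarith [mul_le_mul hm hm (by norm_num) (by linarith)]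
  have hcard : ((#(Fintype.piFinset fun _ : κ => Icc (-2 : ℤ) 2) : ℕ) : ℝ) ≤ Real.exp (2 * m) := by
    rw [Fintype.card_piFinset, prod_const, card_univ]
    have h5 : (5 : ℝ) ≤ Real.exp 2 := by
      have : Real.exp 2 = Real.exp 1 ^ 2 := by rw [← Real.exp_nat_mul]; norm_num
      rw [this]; nlinarith [Real.exp_one_gt_d9]
    calc (((#(Icc (-2 : ℤ) 2)) ^ Fintype.card κ : ℕ) : ℝ) = 5 ^ Fintype.card κ := by simp
      _ ≤ Real.exp 2 ^ Fintype.card κ := pow_le_pow_left₀ (by norm_num) h5 _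
      _ = Real.exp (Fintype.card κ * 2) := (Real.exp_nat_mul _ _).symm
      _ ≤ _ := Real.exp_le_exp.2 (by linarith)
  set N : ℝ := ∏ i, (L i : ℝ) with hN
  have hN0 : 0 ≤ N := prod_nonneg fun i _ => Nat.cast_nonneg _
  obtain ⟨H', hH', c1, r, hr, β, a, b, γ, hβ, hF⟩ := exact_hom_of (m := m ^ 3) (by linarith)
    (by linarith) (frProp_int κ) L hL H₁ H₂ H₃ H₄ h₁ h₂ h₃ h₄
    (g f₁) (g f₂) (g f₃) (fun x => g f₄ x + c) {q ∈ Q | df q = c} (fun q hq => by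
      obtain ⟨a1, a2, a3, a4, a5, -⟩ := hQ q (mem_filter.1 hq).1
      refine ⟨a1, a2, a3, a4, a5, ?_⟩
      ext l
      have k := congrFun (mem_filter.1 hq).2 l
      simp only [Pi.add_apply]
      rw [← k, hdf]
      ring)
    (by
      have g1 := hc.trans (hcc.trans (mul_le_mul_of_nonneg_right hcard (Nat.cast_nonneg _)))
      have g2 := mul_le_mul_of_nonneg_left g1 (Real.exp_pos (-(2 * m))).le
      rw [← mul_assoc, ← mul_assoc, ← Real.exp_add, ← Real.exp_add, neg_add_cancel, Real.exp_zero,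
        one_mul] at g2
      exact le_trans (mul_le_mul_of_nonneg_right (Real.exp_le_exp.2 (by linarith))
        (by positivity)) g2)
  rw [← pow_mul] at c1 hr
  refine ⟨H', hH', c1, r, hr.trans (pow_le_pow_right₀ hm1 (by norm_num)), β, a, b, γ, hβ, ?_⟩
  intro h hh l
  have k := congrFun (hF h hh) l
  simp only [Pi.add_apply, Finset.sum_apply, Pi.smul_apply, smul_eq_mul] at k
  have k3 : ((g f₁ h l : ℤ) : ℝ) = γ l + ∑ i, (h i : ℝ) * a i l +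
      ∑ j, (⌊∑ i, β j i * h i⌋ : ℝ) * b j l := by exact_mod_cast k
  rw [← k3, hg, abs_le]
  have a1 := Int.floor_le (f₁ h l)
  have b1 := Int.lt_floor_add_one (f₁ h l)
  constructor <;> linarith

/-- **Approximate homomorphism lemma, real targets, one variable.** -/
theorem real : ∃ C : ℕ, ∀ {m : ℝ}, 2 ≤ m → ∀ {κ : Type} [Fintype κ],
    (Fintype.card κ : ℝ) ≤ m → ∀ (L : ℕ), 0 < L → ∀ (H₁ H₂ H₃ H₄ : Finset ℤ),
    (∀ x ∈ H₁, ∀ y ∈ H₁, |x - y| < L) → (∀ x ∈ H₂, ∀ y ∈ H₂, |x - y| < L) →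
    (∀ x ∈ H₃, ∀ y ∈ H₃, |x - y| < L) → (∀ x ∈ H₄, ∀ y ∈ H₄, |x - y| < L) →
    ∀ (f₁ f₂ f₃ f₄ : ℤ → κ → ℝ) (Q : Finset (ℤ × ℤ × ℤ × ℤ)),
    (∀ q ∈ Q, q.1 ∈ H₁ ∧ q.2.1 ∈ H₂ ∧ q.2.2.1 ∈ H₃ ∧ q.2.2.2 ∈ H₄ ∧
      q.1 + q.2.1 = q.2.2.1 + q.2.2.2 ∧
      ∀ l, |f₁ q.1 l + f₂ q.2.1 l - f₃ q.2.2.1 l - f₄ q.2.2.2 l| ≤ 1) →
    Real.exp (-m) * (L : ℝ) ^ 3 ≤ #Q →
    ∃ H' ⊆ H₁, Real.exp (-m ^ C) * L ≤ #H' ∧ ∃ r : ℕ, (r : ℝ) ≤ m ^ C ∧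
      ∃ (β : Fin r → ℝ) (a : κ → ℤ) (b : Fin r → κ → ℤ) (γ : κ → ℤ),
        (∀ j, ∃ n : ℤ, β j * L = n) ∧
        ∀ h ∈ H', ∀ l,
          |f₁ h l - (γ l + (h : ℝ) * a l + ∑ j, (⌊β j * h⌋ : ℝ) * b j l)| ≤ 1 := by
  obtain ⟨C, hC⟩ := real_hom
  refine ⟨C, ?_⟩
  intro m hm κ _ hκ L hL H₁ H₂ H₃ H₄ h₁ h₂ h₃ h₄ f₁ f₂ f₃ f₄ Q hQ hc
  classical
  set e : ℤ → (Unit → ℤ) := fun x _ => x with he
  have hinj : Function.Injective e := fun x y h => congrFun h ()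
  have hdiam : ∀ H : Finset ℤ, (∀ x ∈ H, ∀ y ∈ H, |x - y| < L) →
      ∀ x ∈ H.image e, ∀ y ∈ H.image e, ∀ i, |x i - y i| < ((fun _ : Unit => L) i : ℕ) := by
    intro H hH x hx y hy i
    obtain ⟨x', hx', rfl⟩ := mem_image.1 hx
    obtain ⟨y', hy', rfl⟩ := mem_image.1 hy
    exact hH x' hx' y' hy'
  obtain ⟨H', hH', c1, r, hr, β, a, b, γ, hβ, hF⟩ := hC hm (ι := Unit) (κ := κ)
    (by simp; linarith) hκ (fun _ => L) (fun _ => hL) (H₁.image e) (H₂.image e) (H₃.image e)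
    (H₄.image e) (hdiam _ h₁) (hdiam _ h₂) (hdiam _ h₃) (hdiam _ h₄)
    (fun x => f₁ (x ())) (fun x => f₂ (x ())) (fun x => f₃ (x ())) (fun x => f₄ (x ()))
    (Q.image fun q => (e q.1, e q.2.1, e q.2.2.1, e q.2.2.2)) (fun q hq => by
      obtain ⟨q', hq', rfl⟩ := mem_image.1 hq
      obtain ⟨a1, a2, a3, a4, a5, a6⟩ := hQ q' hq'
      exact ⟨mem_image_of_mem _ a1, mem_image_of_mem _ a2, mem_image_of_mem _ a3,
        mem_image_of_mem _ a4, funext fun _ => a5, a6⟩)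
    (by
      rw [card_image_of_injective]
      · simpa using hc
      · intro q q' h
        simp only [Prod.mk.injEq] at h
        exact Prod.ext (hinj h.1) (Prod.ext (hinj h.2.1) (Prod.ext (hinj h.2.2.1) (hinj h.2.2.2))))
  refine ⟨H'.image fun x => x (), ?_, ?_, r, hr, fun j => β j (), a (), b, γ, fun j => hβ j (), ?_⟩
  · intro x hx
    obtain ⟨y, hy, rfl⟩ := mem_image.1 hx
    obtain ⟨z, hz, rfl⟩ := mem_image.1 (hH' hy)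
    exact hz
  · rw [card_image_of_injective _ (fun x y h => funext fun _ => h)]
    simpa using c1
  · intro h hh l
    obtain ⟨y, hy, rfl⟩ := mem_image.1 hh
    simpa using hF y hy l

end Crest.Agent.T49.AH
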