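import Crest.Agent.T49.GiA_40
import Crest.Agent.T49.Ah8_9

/-! Row 49, inverse theorem: the two purely combinatorial leaves `AHRealStmt`, `AuxStmt`. -/

set_option autoImplicit false

namespace Crest.Agent.T49.GI

open Finset

theorem diam_of_Ico9 {L : ℕ} {x y : ℤ} (hx : x ∈ Ico (-(L : ℤ)) L) (hy : y ∈ Ico (-(L : ℤ)) L) :
    |x - y| < ((2 * L : ℕ) : ℤ) := by
  rw [mem_Ico] at hx hy
  rw [abs_lt]; push_cast; constructor <;> omega

theorem ahRealStmt : AHRealStmt := by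
  classical
  obtain ⟨C, hC⟩ := AH.real
  refine ⟨3 * C + 1, by omega, ?_⟩
  intro m hm κ _ hκ L hL f Q hQ hcard
  have hm3 : m + 3 ≤ m ^ 3 := by nlinarith [mul_nonneg (sub_nonneg.2 hm) (sq_nonneg m)]
  have hm3' : (2 : ℝ) ≤ m ^ 3 := by linarith
  have hpw : (m ^ 3) ^ C ≤ m ^ (3 * C + 1) := by
    rw [← pow_mul]; exact pow_le_pow_right₀ (by linarith) (by omega)
  let e : (Fin 4 → ℤ) → ℤ × ℤ × ℤ × ℤ := fun q => (q 0, q 1, q 2, q 3)
  have he : Function.Injective e := by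
    intro q q' h
    simp only [e, Prod.mk.injEq] at h
    funext i; fin_cases i
    exacts [h.1, h.2.1, h.2.2.1, h.2.2.2]
  have hd : ∀ i : Fin 4, ∀ x ∈ Q.image (fun q => q i), ∀ y ∈ Q.image (fun q => q i),
      |x - y| < ((2 * L : ℕ) : ℤ) := by
    intro i x hx y hy
    obtain ⟨q, hq, rfl⟩ := mem_image.1 hx
    obtain ⟨q', hq', rfl⟩ := mem_image.1 hy
    exact diam_of_Ico9 ((hQ q hq).1.1 i) ((hQ q' hq').1.1 i)
  have h8 : Real.exp (-m ^ 3) * 8 ≤ Real.exp (-m) := by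
    have h1 : (8 : ℝ) ≤ Real.exp 3 := by
      have := Real.add_one_le_exp (1 : ℝ)
      have h3 : Real.exp 3 = Real.exp 1 ^ 3 := by rw [← Real.exp_nat_mul]; norm_num
      rw [h3]
      calc (8 : ℝ) = 2 ^ 3 := by norm_num
        _ ≤ _ := pow_le_pow_left₀ (by norm_num) (by linarith) 3
    calc Real.exp (-m ^ 3) * 8 ≤ Real.exp (-m ^ 3) * Real.exp 3 :=
          mul_le_mul_of_nonneg_left h1 (Real.exp_pos _).le
      _ = Real.exp (-m ^ 3 + 3) := (Real.exp_add _ _).symm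
      _ ≤ _ := Real.exp_le_exp.2 (by linarith)
  obtain ⟨H', hH', hcardH, r, hr, β, a, b, γ, -, hfin⟩ := hC hm3' (κ := κ) (by linarith) (2 * L)
    (by omega) _ _ _ _ (hd 0) (hd 1) (hd 2) (hd 3) (f 0) (f 1) (fun h l => -f 2 h l)
    (fun h l => -f 3 h l) (Q.image e) (by
      intro t ht
      obtain ⟨q, hq, rfl⟩ := mem_image.1 ht
      refine ⟨mem_image_of_mem _ hq, mem_image_of_mem _ hq, mem_image_of_mem _ hq,
        mem_image_of_mem _ hq, (hQ q hq).1.2, fun l => ?_⟩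
      have := (hQ q hq).2 l
      rw [Fin.sum_univ_four] at this
      simpa [e] using this) (by
      rw [card_image_of_injective _ he]
      refine le_trans ?_ hcard
      push_cast
      calc Real.exp (-m ^ 3) * (2 * (L : ℝ)) ^ 3 = (Real.exp (-m ^ 3) * 8) * (L : ℝ) ^ 3 := by ring
        _ ≤ _ := mul_le_mul_of_nonneg_right h8 (by positivity))
  refine ⟨H', fun h hh => ?_, ?_, r, hr.trans hpw, β, fun l => γ l, fun l => a l,
    fun j l => b j l, fun h hh l => (hfin h hh l).trans ?_⟩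
  · obtain ⟨q, hq, hqh⟩ := mem_image.1 (hH' hh)
    exact ⟨q, hq, hqh⟩
  · refine le_trans ?_ hcardH
    push_cast
    have hL0 : (0 : ℝ) ≤ L := by positivity
    exact mul_le_mul (Real.exp_le_exp.2 (by linarith)) (by linarith) hL0 (Real.exp_pos _).le
  · exact Real.one_le_exp (by positivity)

theorem quad_ext9 {L : ℕ} {q q' : Fin 4 → ℤ} (hq : IsQuad L q) (hq' : IsQuad L q') (k : Fin 4)
    (h : ∀ j, j ≠ k → q j = q' j) : q = q' := by
  have e1 := hq.2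
  have e2 := hq'.2
  funext j
  by_cases hj : j = k
  · subst hj
    fin_cases j
    · have := h 1 (by decide); have := h 2 (by decide); have := h 3 (by decide)
      show q 0 = q' 0; omega
    · have := h 0 (by decide); have := h 2 (by decide); have := h 3 (by decide)
      show q 1 = q' 1; omega
    · have := h 0 (by decide); have := h 1 (by decide); have := h 3 (by decide)
      show q 2 = q' 2; omega
    · have := h 0 (by decide); have := h 1 (by decide); have := h 2 (by decide)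
      show q 3 = q' 3; omega
  · exact h j hj

theorem frozen9 : ∀ (i k : Fin 4), i ≠ k → ∃ j₁ j₂ : Fin 4, j₁ ≠ j₂ ∧
    ∀ j, j ≠ i → j ≠ k → j = j₁ ∨ j = j₂ := by decide

theorem oth_ne9 : ∀ (i : Fin 4) (a : Fin 2), i ≠ oth i a := by decide

/-- one line: averaging over the two frozen values -/
theorem one_line9 {L : ℕ} (hL : 0 < L) (Q : Finset (Fin 4 → ℤ)) (hQ : ∀ q ∈ Q, IsQuad L q)
    (i k : Fin 4) (hik : i ≠ k) (Q₀ : Finset (Fin 4 → ℤ)) {δ : ℝ}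
    (hdeg : ∀ q ∈ Q₀, δ * (L : ℝ) ^ 2 ≤ #{q' ∈ Q | q' i = q i}) :
    ∃ (p : Fin 4 → ℤ) (Q₁ : Finset (Fin 4 → ℤ)), Q₁ ⊆ Q₀ ∧ δ / 4 * #Q₀ ≤ #Q₁ ∧
      ∀ q ∈ Q₁, ∃ q' ∈ Q, q' i = q i ∧ ∀ j, j ≠ i → j ≠ k → q' j = p j := by
  classical
  obtain ⟨j₁, j₂, h12, hj⟩ := frozen9 i k hik
  set I : Finset ℤ := Ico (-(L : ℤ)) L with hI
  have hIc : (#(I ×ˢ I) : ℝ) = 4 * (L : ℝ) ^ 2 := by
    rw [card_product, hI, Int.card_Ico]
    have : ((L : ℤ) - -(L : ℤ)).toNat = 2 * L := by omega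
    rw [this]; push_cast; ring
  let R : ℤ × ℤ → (Fin 4 → ℤ) → Prop := fun u q =>
    ∃ q' ∈ Q, q' i = q i ∧ q' j₁ = u.1 ∧ q' j₂ = u.2
  have hsum : ∑ _u ∈ I ×ˢ I, δ / 4 * (#Q₀ : ℝ) ≤ ∑ u ∈ I ×ˢ I, (#{q ∈ Q₀ | R u q} : ℝ) := by
    have h1 : ∑ u ∈ I ×ˢ I, (#{q ∈ Q₀ | R u q} : ℝ) = ∑ q ∈ Q₀, (#{u ∈ I ×ˢ I | R u q} : ℝ) := by
      simp only [card_filter, Nat.cast_sum]
      exact sum_comm
    rw [h1, sum_const, nsmul_eq_mul, hIc]
    have h2 : ∀ q ∈ Q₀, δ * (L : ℝ) ^ 2 ≤ (#{u ∈ I ×ˢ I | R u q} : ℝ) := by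
      intro q hq
      refine (hdeg q hq).trans ?_
      norm_cast
      refine card_le_card_of_injOn (fun q' => (q' j₁, q' j₂)) ?_ ?_
      · intro q' hq'
        simp only [coe_filter, Set.mem_setOf_eq] at hq' ⊢
        exact ⟨mem_product.2 ⟨(hQ q' hq'.1).1 j₁, (hQ q' hq'.1).1 j₂⟩, q', hq'.1, hq'.2, rfl, rfl⟩
      · intro x hx y hy hxy
        simp only [coe_filter, Set.mem_setOf_eq, Prod.mk.injEq] at hx hy hxy
        refine quad_ext9 (hQ x hx.1) (hQ y hy.1) k fun j hjk => ?_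
        by_cases hji : j = i
        · rw [hji, hx.2, hy.2]
        · rcases hj j hji hjk with rfl | rfl
          exacts [hxy.1, hxy.2]
    calc 4 * (L : ℝ) ^ 2 * (δ / 4 * #Q₀) = ∑ _q ∈ Q₀, δ * (L : ℝ) ^ 2 := by
          rw [sum_const, nsmul_eq_mul]; ring
      _ ≤ _ := sum_le_sum h2
  have hne : (I ×ˢ I).Nonempty := by
    have : (0 : ℤ) ∈ I := by rw [hI, mem_Ico]; omega
    exact ⟨(0, 0), mem_product.2 ⟨this, this⟩⟩
  obtain ⟨u, -, hu⟩ := exists_le_of_sum_le hne hsum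
  refine ⟨fun j => if j = j₁ then u.1 else u.2, _, filter_subset _ _, hu, fun q hq => ?_⟩
  obtain ⟨q', hq', h0, h1, h2⟩ := (mem_filter.1 hq).2
  refine ⟨q', hq', h0, fun j hji hjk => ?_⟩
  rcases hj j hji hjk with rfl | rfl
  · simpa using h1
  · simpa [h12.symm] using h2

/-- quadruples with a low-degree entry are few -/
theorem low_deg9 {L : ℕ} (Q : Finset (Fin 4 → ℤ)) (hQ : ∀ q ∈ Q, IsQuad L q) (i : Fin 4) {δ : ℝ}
    (hδ : 0 ≤ δ) :
    (#{q ∈ Q | (#{q' ∈ Q | q' i = q i} : ℝ) < δ * (L : ℝ) ^ 2} : ℝ) ≤ 2 * δ * (L : ℝ) ^ 3 := by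
  classical
  set I : Finset ℤ := Ico (-(L : ℤ)) L with hI
  have hIc : (#I : ℝ) = 2 * (L : ℝ) := by
    rw [hI, Int.card_Ico]
    have : ((L : ℤ) - -(L : ℤ)).toNat = 2 * L := by omega
    rw [this]; push_cast; ring
  set B := {q ∈ Q | (#{q' ∈ Q | q' i = q i} : ℝ) < δ * (L : ℝ) ^ 2} with hB
  have h1 : #B = ∑ x ∈ I, #{q ∈ B | q i = x} :=
    card_eq_sum_card_fiberwise fun q hq => (hQ q (mem_filter.1 hq).1).1 i
  have h2 : ∀ x ∈ I, (#{q ∈ B | q i = x} : ℝ) ≤ δ * (L : ℝ) ^ 2 := by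
    intro x _
    rcases (B.filter fun q => q i = x).eq_empty_or_nonempty with h | ⟨q, hq⟩
    · rw [h]; simp; positivity
    · obtain ⟨hqB, hqx⟩ := mem_filter.1 hq
      refine le_trans ?_ (mem_filter.1 hqB).2.le
      norm_cast
      refine card_le_card fun y hy => ?_
      obtain ⟨hyB, hyx⟩ := mem_filter.1 hy
      exact mem_filter.2 ⟨(mem_filter.1 hyB).1, hyx.trans hqx.symm⟩
  rw [h1]; push_cast
  calc _ ≤ ∑ _x ∈ I, δ * (L : ℝ) ^ 2 := sum_le_sum h2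
    _ = _ := by rw [sum_const, nsmul_eq_mul, hIc]; ring

/-- several lines at once -/
theorem lines9 {L : ℕ} (hL : 0 < L) (Q : Finset (Fin 4 → ℤ)) (hQ : ∀ q ∈ Q, IsQuad L q)
    {α : Type} [DecidableEq α] (i k : α → Fin 4) (hik : ∀ a, i a ≠ k a)
    (Q₀ : Finset (Fin 4 → ℤ)) {δ : ℝ} (hδ : 0 ≤ δ)
    (hdeg : ∀ q ∈ Q₀, ∀ i, δ * (L : ℝ) ^ 2 ≤ #{q' ∈ Q | q' i = q i}) (s : Finset α) :
    ∃ (p : α → Fin 4 → ℤ) (Q₁ : Finset (Fin 4 → ℤ)), Q₁ ⊆ Q₀ ∧ (δ / 4) ^ #s * #Q₀ ≤ #Q₁ ∧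
      ∀ q ∈ Q₁, ∀ a ∈ s, ∃ q' ∈ Q, q' (i a) = q (i a) ∧
        ∀ j, j ≠ i a → j ≠ k a → q' j = p a j := by
  induction s using Finset.induction_on with
  | empty => exact ⟨fun _ _ => 0, Q₀, Subset.rfl, by simp, by simp⟩
  | insert a s ha ih =>
    obtain ⟨p, Q₁, h1, h2, h3⟩ := ih
    obtain ⟨p', Q₂, h4, h5, h6⟩ := one_line9 hL Q hQ (i a) (k a) (hik a) Q₁ (δ := δ)
      fun q hq => hdeg q (h1 hq) _
    refine ⟨Function.update p a p', Q₂, h4.trans h1, ?_, fun q hq b hb => ?_⟩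
    · rw [card_insert_of_notMem ha, pow_succ]
      calc (δ / 4) ^ #s * (δ / 4) * (#Q₀ : ℝ) = δ / 4 * ((δ / 4) ^ #s * #Q₀) := by ring
        _ ≤ δ / 4 * #Q₁ := mul_le_mul_of_nonneg_left h2 (by positivity)
        _ ≤ _ := h5
    · by_cases hba : b = a
      · subst hba
        rw [Function.update_self]
        exact h6 q hq
      · rw [Function.update_of_ne hba]
        exact h3 q (h4 hq) b ((mem_insert.1 hb).resolve_left hba)

theorem auxStmt : AuxStmt := by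
  classical
  refine ⟨6, by norm_num, ?_⟩
  intro m hm L hL Q hQ hcard
  set δ : ℝ := Real.exp (-m) / 16 with hδ
  have hδ0 : 0 ≤ δ := by positivity
  set Q₀ := {q ∈ Q | ∀ i, δ * (L : ℝ) ^ 2 ≤ #{q' ∈ Q | q' i = q i}} with hQ₀
  have hQ₀c : Real.exp (-m) / 2 * (L : ℝ) ^ 3 ≤ #Q₀ := by
    have hsub : Q ⊆ Q₀ ∪ univ.biUnion fun i : Fin 4 =>
        {q ∈ Q | (#{q' ∈ Q | q' i = q i} : ℝ) < δ * (L : ℝ) ^ 2} := by
      intro q hq
      by_cases h : ∀ i, δ * (L : ℝ) ^ 2 ≤ #{q' ∈ Q | q' i = q i}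
      · exact mem_union_left _ (mem_filter.2 ⟨hq, h⟩)
      · push Not at h
        obtain ⟨i, hi⟩ := h
        exact mem_union_right _ (mem_biUnion.2 ⟨i, mem_univ _, mem_filter.2 ⟨hq, hi⟩⟩)
    have h1 := (card_le_card hsub).trans ((card_union_le _ _).trans
      (Nat.add_le_add_left card_biUnion_le _))
    have h2 : (#Q : ℝ) ≤ #Q₀ + ∑ i : Fin 4,
        (#{q ∈ Q | (#{q' ∈ Q | q' i = q i} : ℝ) < δ * (L : ℝ) ^ 2} : ℝ) := by exact_mod_cast h1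
    have h3 : ∑ i : Fin 4, (#{q ∈ Q | (#{q' ∈ Q | q' i = q i} : ℝ) < δ * (L : ℝ) ^ 2} : ℝ)
        ≤ ∑ _i : Fin 4, 2 * δ * (L : ℝ) ^ 3 := sum_le_sum fun i _ => low_deg9 Q hQ i hδ0
    rw [sum_const, card_univ, Fintype.card_fin, nsmul_eq_mul] at h3
    push_cast at h3
    have : (4 : ℝ) * (2 * δ * (L : ℝ) ^ 3) = Real.exp (-m) / 2 * (L : ℝ) ^ 3 := by rw [hδ]; ring
    linarith
  obtain ⟨p, Q₁, h1, h2, h3⟩ := lines9 hL Q hQ (α := Fin 4 × Fin 2) (fun t => t.1)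
    (fun t => oth t.1 t.2) (fun t => oth_ne9 t.1 t.2) Q₀ hδ0
    (fun q hq => (mem_filter.1 hq).2) univ
  refine ⟨fun i a => p (i, a), Q₁, h1.trans (filter_subset _ _), ?_,
    fun q hq i a => h3 q hq (i, a) (mem_univ _)⟩
  refine le_trans ?_ (le_trans (mul_le_mul_of_nonneg_left hQ₀c (by positivity)) h2)
  rw [← mul_assoc]
  refine mul_le_mul_of_nonneg_right ?_ (by positivity)
  have hc : #(univ : Finset (Fin 4 × Fin 2)) = 8 := by simp
  rw [hc, hδ]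
  have he : (2 : ℝ) ≤ Real.exp 1 := by linarith [Real.add_one_le_exp (1 : ℝ)]
  have h49 : (2 : ℝ) ^ 49 ≤ Real.exp 46 := by
    have h4 : Real.exp 46 = Real.exp 1 ^ 46 := by rw [← Real.exp_nat_mul]; norm_num
    have h5 : (2.7 : ℝ) ≤ Real.exp 1 := by linarith [Real.exp_one_gt_d9]
    rw [h4]
    exact le_trans (by norm_num) (pow_le_pow_left₀ (by norm_num) h5 46)
  have hm6 : 9 * m + 46 ≤ m ^ 6 := by
    have h5 : (2 : ℝ) ^ 5 ≤ m ^ 5 := pow_le_pow_left₀ (by norm_num) hm 5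
    have : m ^ 6 = m ^ 5 * m := by ring
    nlinarith
  have hE : (Real.exp (-m) / 16 / 4) ^ 8 * (Real.exp (-m) / 2) = Real.exp (-(9 * m)) / 2 ^ 49 := by
    have : Real.exp (-(9 * m)) = Real.exp (-m) ^ 9 := by rw [← Real.exp_nat_mul]; norm_num
    rw [this]; ring
  rw [hE, le_div_iff₀ (by positivity)]
  calc Real.exp (-m ^ 6) * 2 ^ 49 ≤ Real.exp (-m ^ 6) * Real.exp 46 :=
        mul_le_mul_of_nonneg_left h49 (Real.exp_pos _).le
    _ = Real.exp (-m ^ 6 + 46) := (Real.exp_add _ _).symm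
    _ ≤ _ := Real.exp_le_exp.2 (by linarith)

end Crest.Agent.T49.GI
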