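import Crest.Agent.T49.NilDef_65
import Crest.Agent.T49.Bch_16
import Crest.Agent.T49.GonGr_60

/-!
# Row 49 (helper90): fundamental domains

`ND.Good.fund_sub` : `x = u * γ` with `u` bounded and `γ` integral, inside a rational subalgebra.
-/

set_option autoImplicit false

noncomputable section

namespace Crest.Agent.T49.Nil

open Finset ND
open Crest.Agent.T49.Bch (star)

variable {ι : Type} [Fintype ι]

namespace ND

variable {N : ND ι} {S : ℕ} {M : ℝ}

theorem IsInt.zero90 : IsInt (0 : N.L) := fun _ => ⟨0, by simp⟩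

theorem IsInt.neg90 {x : N.L} (h : IsInt x) : IsInt (-x) := fun k => by
  obtain ⟨z, hz⟩ := h k
  exact ⟨-z, by simp [hz]⟩

theorem star_sub_mem_F90 (S : ℕ) (x : N.L) {δ : N.L} {i : ℕ} (hδ : δ ∈ N.F i) :
    star S x δ - (x + δ) ∈ N.F (i + 1) :=
  Bch.star_sub_mem S _ (fun _ h => FA_anti (Nat.le_succ _) (lie_mem_FA_succ x h))
    (fun _ h => FA_anti (Nat.le_succ _) (lie_mem_FA_succ δ h)) (lie_mem_FA_succ x hδ)

theorem ratS_F90 (i : ℕ) {H : ℝ} (hH : 1 ≤ H) : N.RatS H (N.F i) :=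
  Gon.isRat_coord (fun k => i ≤ N.wt k) hH _ fun x => by
    simp only [not_le]; exact mem_FA

/-- **fundamental domain inside a rational subalgebra** -/
theorem Good.fund_sub (h : N.Good S M) {U : Submodule ℝ N.L}
    (hU : ∀ x ∈ U, ∀ y ∈ U, ⁅x, y⁆ ∈ U) {H : ℝ} (hH : 1 ≤ H) (hR : N.RatS H U) {d : ℕ}
    (hd : Fintype.card ι ≤ d) {x : N.L} (hx : x ∈ U) :
    ∃ u ∈ U, ∃ γ ∈ U, IsInt γ ∧ ‖u‖ ≤ d * Gon.bl d (Gon.bl d H) ∧ x = star S u γ := by
  classical
  have := h.nil ℝ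
  let U' : LieSubalgebra ℝ N.L := { U with lie_mem' := fun {a b} ha hb => hU a ha b hb }
  have hst : ∀ {a b : N.L}, a ∈ U → b ∈ U → star S a b ∈ U := fun ha hb =>
    Bch.star_mem S U' ha hb
  set H' := Gon.bl d (Gon.bl d H) with hH'
  have hH1 : 1 ≤ H' := Gon.one_le_bl d (Gon.one_le_bl d hH)
  obtain ⟨r, wt, Z, C, q, hr, hwt, hZ, hZV, hq1, -, -, -, hCZ, hqx, hV⟩ :=
    Gon.exists_adapted' (ι := ι) (fun i => U ⊓ N.F i) S hH1 hd
      (fun i _ _ => inf_le_inf_left _ (FA_anti (Nat.le_succ i)))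
      (fun i _ _ => Gon.IsRat.inf hR (ratS_F90 i hH) hH hd)
  have hq0 : (q : ℝ) ≠ 0 := by positivity
  have key : ∀ i, i ≤ S → ∃ γ ∈ U, IsInt γ ∧
      ∀ a, wt a ≤ i → |(q : ℝ)⁻¹ * Gon.lin C (N.co (star S x γ)) a| ≤ 1 / 2 := by
    intro i
    induction i with
    | zero => exact fun _ => ⟨0, zero_mem _, IsInt.zero90, fun a ha => by have := (hwt a).1; omega⟩
    | succ i ih =>
      intro hi
      obtain ⟨γ, hγU, hγ, h1⟩ := ih (by omega)
      set y := star S x γ with hy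
      have hyU : y ∈ U := hst hx hγU
      let n : Fin r → ℤ := fun a =>
        if wt a = i + 1 then -round ((q : ℝ)⁻¹ * Gon.lin C (N.co y) a) else 0
      let δ : N.L := N.ofInt (Z.mulVec n)
      have hδe : N.co δ = Gon.lin Z (Gon.cst n) := (Gon.lin_cst Z n).symm
      have hδV : δ ∈ U ⊓ N.F (i + 1) := by
        change N.co δ ∈ (U ⊓ N.F (i + 1) : Submodule ℝ N.L)
        rw [hδe, Gon.lin_eq_sum]
        refine Submodule.sum_mem _ fun a _ => ?_
        by_cases ha : wt a = i + 1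
        · exact Submodule.smul_mem _ _ (ha ▸ hZV a)
        · have : Gon.cst n a = 0 := by simp [Gon.cst, n, ha]
          rw [this, zero_smul]; exact zero_mem _
      refine ⟨star S γ δ, hst hγU hδV.1, h.lat _ _ hγ (isInt_ofInt _), fun a ha => ?_⟩
      rw [← Bch.star_assoc, ← hy]
      have h2 : star S y δ - (y + δ) ∈ U ⊓ N.F (i + 2) :=
        ⟨sub_mem (hst hyU hδV.1) (add_mem hyU hδV.1), star_sub_mem_F90 S y hδV.2⟩
      have h3 := (hV (i + 2) (by omega) (by omega) _ ⟨h2.1, mem_FA_one _⟩).1 h2 a (by omega)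
      have h4 : Gon.lin C (N.co (star S y δ)) a = Gon.lin C (N.co y) a + q * (n a : ℝ) := by
        have h5 : Gon.lin C (N.co δ) a = q * (n a : ℝ) := by rw [hδe, hCZ]; rfl
        have h6 : Gon.lin C (N.co (star S y δ - (y + δ))) a = 0 := h3
        rw [map_sub, map_add, map_sub, map_add, Pi.sub_apply, Pi.add_apply, h5] at h6
        linarith
      rw [h4, mul_add, ← mul_assoc, inv_mul_cancel₀ hq0, one_mul]
      by_cases hai : wt a = i + 1
      · simp only [n, if_pos hai]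
        push_cast
        rw [← sub_eq_add_neg]
        exact abs_sub_round _
      · simp only [n, if_neg hai, Int.cast_zero, add_zero]
        exact h1 a (by omega)
  obtain ⟨γ, hγU, hγ, h1⟩ := key S le_rfl
  refine ⟨star S x γ, hst hx hγU, -γ, neg_mem hγU, hγ.neg90, ?_, (Bch.star_star_neg S _ _).symm⟩
  set u := star S x γ
  have h2 : (q : ℝ) • N.co u - Gon.lin Z (Gon.lin C (N.co u)) = 0 :=
    eq_zero_of_mem_FA (N := N) (A := ℝ) h.wt_le (hqx (N.co u) ⟨hst hx hγU, mem_FA_one _⟩).2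
  have h3 : N.co u = Gon.lin Z ((q : ℝ)⁻¹ • Gon.lin C (N.co u)) := by
    rw [map_smul, ← sub_eq_zero.1 h2, smul_smul, inv_mul_cancel₀ hq0, one_smul]
  have h4 : ‖(q : ℝ)⁻¹ • Gon.lin C (N.co u)‖ ≤ 1 :=
    (pi_norm_le_iff_of_nonneg zero_le_one).2 fun a =>
      (h1 a (hwt a).2).trans (by norm_num)
  rw [norm_eq, h3]
  refine (Gon.norm_lin_le Z (by linarith) hZ (d := d) (by simpa using hr.trans hd) _).trans ?_
  exact mul_le_of_le_one_right (by positivity) h4

end ND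

end Crest.Agent.T49.Nil
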