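import Crest.Agent.T49.GiLtN_85
import Crest.Agent.T49.WinSub_56
import Crest.Agent.T49.NilDer_73
import Crest.Agent.T49.NilCnt_14

/-!
# Row 49 (helper73): the converse of `LT` for a family (`ConvFStmt`)
-/

set_option autoImplicit false

noncomputable section

namespace Crest.Agent.T49.GI

open Finset Crest.Agent.T49.Nil Crest.Agent.T49.Nil.ND LtN85
open Crest.Agent.T49.Bch (star)

namespace Cv73

variable {ι : Type} [Fintype ι] {N g : ND ι}

/-- the family of subspaces of `N.L` attached to a graded subspace of `g.L` -/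
def famH (N g : ND ι) (U : Submodule ℝ g.L) (i : ℕ) : Submodule ℝ N.L :=
  N.F i ⊓ U.comap ((tg N g).toLinearMap ∘ₗ hp N i)

theorem mem_famH {U : Submodule ℝ g.L} {i : ℕ} {x : N.L} :
    x ∈ famH N g U i ↔ x ∈ N.F i ∧ tg N g (hp N i x) ∈ U := Iff.rfl

theorem hp_eq_zero {i : ℕ} {x : N.L} (hx : x ∈ N.F (i + 1)) : hp N i x = 0 := by
  ext k
  by_cases h : N.wt k = i
  · rw [hp_pos _ h]; exact hx k (by omega)
  · exact hp_neg _ h

theorem sub_hp_mem {i : ℕ} {x : N.L} (hx : x ∈ N.F i) : x - hp N i x ∈ N.F (i + 1) := by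
  intro k hk
  by_cases h : N.wt k = i
  · rw [ND.sub_apply, hp_pos _ h, sub_self]
  · rw [ND.sub_apply, hp_neg _ h, hx k (by omega), sub_self]

theorem hp_mem_F (i : ℕ) (x : N.L) : hp N i x ∈ N.F i := fun _ hk => hp_neg _ hk.ne

theorem tg_hp (h : GrOf N g) (i : ℕ) (x : N.L) : tg N g (hp N i x) = hp g i (tg N g x) := by
  ext k
  by_cases hk : N.wt k = i
  · rw [tg_apply, hp_pos _ hk, hp_pos _ ((h.1 k).trans hk), tg_apply]
  · rw [tg_apply, hp_neg _ hk, hp_neg _ (by rwa [h.1 k])]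

theorem grSub_famH (h : GrOf N g) (𝔥 : LieSubalgebra ℝ g.L) :
    N.GrSub (famH N g 𝔥.toSubmodule) := by
  refine ⟨fun i x hx => hx.1, fun i x hx => mem_famH.2 ⟨FA_anti (Nat.le_succ i) hx, ?_⟩,
    fun i j x hx y hy => mem_famH.2 ⟨lie_mem_FA hx.1 hy.1, ?_⟩⟩
  · rw [hp_eq_zero hx, map_zero]; exact zero_mem _
  · have h1 : ⁅x, y⁆ - ⁅hp N i x, hp N j y⁆ ∈ N.F (i + j + 1) := by
      have h3 : ⁅x - hp N i x, y⁆ ∈ N.F (i + 1 + j) := lie_mem_FA (sub_hp_mem hx.1) hy.1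
      have h4 : ⁅hp N i x, y - hp N j y⁆ ∈ N.F (i + (j + 1)) :=
        lie_mem_FA (hp_mem_F i x) (sub_hp_mem hy.1)
      have h2 := add_mem (show _ ∈ N.F (i + j + 1) from FA_anti (by omega) h3) h4
      rwa [sub_lie, lie_sub, sub_add_sub_cancel] at h2
    have h2 := hp_eq_zero h1
    rw [map_sub, sub_eq_zero] at h2
    rw [h2, ← tg_lie h]
    exact 𝔥.lie_mem (mem_famH.1 hx).2 (mem_famH.1 hy).2

theorem ratS_famH (h : GrOf N g) {U : Submodule ℝ g.L} {m : ℝ} (hm : 0 ≤ m) (hU : GR g m U)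
    (i : ℕ) : N.RatS (Real.exp m) (famH N g U i) := by
  have h1 := Gon.IsRat.sup (St.ratS_F (N := N) (Real.one_le_exp hm) (i + 1))
    (Gon.IsRat.map_prj hU.rat (Real.exp_pos m).le fun k => N.wt k = i)
  have h2 : famH N g U i = N.F (i + 1) ⊔ U.map (hp N i ∘ₗ (tg N g).symm.toLinearMap) := by
    refine le_antisymm (fun x hx => ?_) (sup_le (fun x hx => ?_) ?_)
    · rw [← sub_add_cancel x (hp N i x)]
      refine Submodule.add_mem_sup (sub_hp_mem hx.1) ⟨_, (mem_famH.1 hx).2, ?_⟩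
      simp [hp_hp]
    · exact mem_famH.2 ⟨FA_anti (Nat.le_succ i) hx, by rw [hp_eq_zero hx, map_zero]; exact zero_mem _⟩
    · rintro _ ⟨y, hy, rfl⟩
      refine mem_famH.2 ⟨hp_mem_F _ _, ?_⟩
      simp only [LinearMap.comp_apply, hp_hp, if_true, tg_hp h, LinearEquiv.coe_coe,
        LinearEquiv.apply_symm_apply]
      exact hU.gr i y hy
  rw [h2]
  exact h1

theorem fn_famH {U : Submodule ℝ g.L} {s : ℕ} {η : ι → ℤ} (hη : ∀ k, N.wt k ≠ s → η k = 0)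
    (h0 : ∀ x ∈ U, g.fn η x = 0) : ∀ x ∈ famH N g U s, N.fn η x = 0 := fun x hx => by
  have h1 := fn_eq_zero hη (sub_hp_mem hx.1)
  rw [map_sub, sub_eq_zero] at h1
  rw [h1]
  exact h0 _ (mem_famH.1 hx).2

theorem unit_eq_iff (n : ℕ) (α : Unit →₀ ℕ) : Finsupp.single () n = α ↔ n = α.degree := by
  constructor
  · rintro rfl; simp
  · rintro rfl
    ext
    rw [Finsupp.degree_eq_sum]; simp

theorem cv_hom (x : ι → ℝ) (α : Unit →₀ ℕ) (k : ι) :
    N.cv α (hom N x) k = if N.wt k = α.degree then x k else 0 := by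
  classical
  rw [cv_apply, hom, MvPolynomial.coeff_monomial]
  simp only [unit_eq_iff]

theorem hom_mem_poly (x : ι → ℝ) : hom N x ∈ N.poly Unit := fun α k hk => by
  rw [cv_hom, if_neg hk.ne]

theorem sym_apply (P : N.PS Unit) (α : Unit →₀ ℕ) {k : ι} (hk : N.wt k = α.degree) :
    sym N g P k = N.cv α P k := by
  classical
  have : MvPolynomial.homogeneousComponent (N.wt k) (P k) =
      MvPolynomial.monomial α ((P k).coeff α) := by
    ext β
    rw [MvPolynomial.coeff_homogeneousComponent, MvPolynomial.coeff_monomial]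
    have h1 := (unit_eq_iff _ α).2 hk
    by_cases h : α = β
    · subst h; simp [hk]
    · rw [if_neg h, if_neg fun h' => h (h1.symm.trans ((unit_eq_iff _ β).2 h'.symm))]
  rw [sym, symAt, this, MvPolynomial.eval_monomial]
  simp

theorem sym_hom (x : g.L) : sym N g (hom N x) = x := by
  ext k
  rw [sym_apply _ (Finsupp.single () (N.wt k)) (by simp), cv_hom, if_pos (by simp)]

theorem mem_cf_famH (h : GrOf N g) {U : Submodule ℝ g.L} (hU : IsG g U) {P : N.PS Unit}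
    (hP : P ∈ N.poly Unit) (hs : sym N g P ∈ U) : P ∈ cf Unit (famH N g U) := fun α => by
  refine mem_famH.2 ⟨hP α, ?_⟩
  have : tg N g (hp N α.degree (N.cv α P)) = hp g α.degree (sym N g P) := by
    ext k
    by_cases hk : N.wt k = α.degree
    · rw [tg_apply, hp_pos _ hk, hp_pos _ ((h.1 k).trans hk), sym_apply _ α hk]
    · rw [tg_apply, hp_neg _ hk, hp_neg _ (by rwa [h.1 k])]
  rw [this]
  exact hU _ _ hs

theorem sm_hom (h : GrOf N g) {T m : ℝ} (hT : 0 < T) {x : g.L} (hx : SmE g T m x) :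
    N.Sm T (Real.exp m) (hom N x) := fun α => by
  rw [← le_div_iff₀ (by positivity), norm_le_iff (by positivity)]
  intro k
  rw [cv_hom]
  split_ifs with hk
  · rw [le_div_iff₀ (by positivity), ← hk, ← h.1]; exact hx k
  · rw [abs_zero]; positivity

theorem ratP_hom {q : ℕ} {x : g.L} (hx : g.Den q x) : N.RatP q (hom N x) := fun α =>
  den_iff.2 fun k => by
    rw [cv_hom]
    split_ifs
    · exact den_iff.1 hx k
    · exact ⟨0, by simp⟩

/-- a factorisation of the symbol gives a factorisation of the sequence -/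
theorem fact_of_near (h : GrOf N g) {S : ℕ} (hS : ∀ k, N.wt k ≤ S) {T m : ℝ} (hT : 0 < T)
    {U : Submodule ℝ g.L} (hU : IsG g U) {P : N.PS Unit} (hP : P ∈ N.poly Unit)
    (hn : Near g S T m U (sym N g P)) : N.Fact S T (Real.exp m) (famH N g U) P := by
  obtain ⟨ε, y, γ, hε, hy, ⟨q, hq1, hq, hγ⟩, e⟩ := hn
  have := ND.nil hS (MvPolynomial Unit ℝ)
  have := ND.nil (N := g) (fun k => (h.1 k).trans_le (hS k)) ℝ
  have h1 := St.star_mem_poly S hP (neg_mem (hom_mem_poly (N := N) γ))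
  refine ⟨q, hq1, hq, hom N ε, hom_mem_poly _, star S (-hom N ε) (star S P (-hom N γ)),
    mem_cf_famH h hU (St.star_mem_poly S (neg_mem (hom_mem_poly _)) h1) ?_, hom N γ,
    hom_mem_poly _, sm_hom h hT hε, ratP_hom hγ, ?_⟩
  · have hneg : ∀ x : g.L, symAt N g (fun _ => 1) (-hom N x) = -x := fun x =>
      (map_neg (syL N g fun _ => 1) _).trans (congrArg Neg.neg (sym_hom x))
    rw [sym, symAt_star h S _ (neg_mem (hom_mem_poly _)) h1,
      symAt_star h S _ hP (neg_mem (hom_mem_poly _)), hneg, hneg]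
    change star S (-ε) (star S (sym N g P) (-γ)) ∈ U
    rw [e]
    simpa only [Bch.star_assoc, Bch.neg_star_star, Bch.star_neg_self, Bch.star_zero] using hy
  · simp only [Bch.star_assoc, Bch.star_neg_star, Bch.neg_star_self, Bch.star_zero]

theorem fact_step {σ : Type} {S S' : ℕ} (hS : ∀ k, N.wt k ≤ S) (h : S ≤ S') {T M : ℝ}
    {H : ℕ → Submodule ℝ N.L} {P : N.PS σ} (hP : N.Fact S T M H P) : N.Fact S' T M H P := by
  obtain ⟨q, h1, h2, ε, h3, x, h4, γ, h5, h6, h7, h8⟩ := hP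
  exact ⟨q, h1, h2, ε, h3, x, h4, γ, h5, h6, h7, by rw [star_step hS h, star_step hS h]; exact h8⟩

/-- approximation on cells: one cell carries a correlation -/
theorem exists_cell {α β : Type*} [DecidableEq β] (S : Finset α) (κ : α → β) (a G : α → ℂ)
    (G' : α → α → ℂ) {R δ : ℝ} (hδ : 0 < δ) (hS : S.Nonempty) (hR : (#(S.image κ) : ℝ) ≤ R)
    (ha : ∀ y ∈ S, ‖a y‖ ≤ 1) (hG : ∀ y0 ∈ S, ∀ y ∈ S, κ y = κ y0 → ‖G y - G' y0 y‖ ≤ δ / 2)
    (h : δ * #S ≤ ‖∑ y ∈ S, a y * G y‖) :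
    ∃ y0 ∈ S, δ / 2 * #S / R ≤ ‖∑ y ∈ S, (a y * if κ y = κ y0 then 1 else 0) * G' y0 y‖ := by
  classical
  have hρ : ∀ c : β, ∃ y0 ∈ S, c ∈ S.image κ → κ y0 = c := fun c => by
    by_cases hc : c ∈ S.image κ
    · obtain ⟨y, hy, e⟩ := mem_image.1 hc
      exact ⟨y, hy, fun _ => e⟩
    · exact ⟨hS.choose, hS.choose_spec, fun h => absurd h hc⟩
  choose ρ hρS hρ using hρ
  have hS0 : (0 : ℝ) < #S := by exact_mod_cast hS.card_pos
  have h1 : ‖∑ y ∈ S, a y * G y - ∑ y ∈ S, a y * G' (ρ (κ y)) y‖ ≤ δ / 2 * #S := by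
    rw [← sum_sub_distrib]
    refine (norm_sum_le _ _).trans ((sum_le_card_nsmul _ _ (δ / 2) fun y hy => ?_).trans
      (by rw [nsmul_eq_mul, mul_comm]))
    rw [← mul_sub, norm_mul]
    exact (mul_le_of_le_one_left (norm_nonneg _) (ha y hy)).trans
      (hG _ (hρS _) y hy (hρ _ (mem_image_of_mem κ hy)).symm)
  have h2 : ∑ y ∈ S, a y * G' (ρ (κ y)) y = ∑ c ∈ S.image κ,
      ∑ y ∈ S, (a y * if κ y = c then 1 else 0) * G' (ρ c) y := by
    rw [sum_comm]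
    refine sum_congr rfl fun y hy => ?_
    rw [sum_eq_single (κ y) (fun c _ hc => by simp [hc.symm])
      fun h => absurd (mem_image_of_mem κ hy) h]
    simp
  have h3 : δ / 2 * #S ≤ ‖∑ y ∈ S, a y * G' (ρ (κ y)) y‖ := by
    have := norm_sub_norm_le (∑ y ∈ S, a y * G y) (∑ y ∈ S, a y * G' (ρ (κ y)) y)
    linarith
  rw [h2] at h3
  obtain ⟨c, hc, h4⟩ := Gow.exists_piece _ _ (by positivity) hR h3
  exact ⟨ρ c, hρS c, by rwa [hρ c hc]⟩

theorem abs_sub_le_of_div_eq {n n' w : ℤ} (hw : 0 < w) (h : n / w = n' / w) : |n - n'| ≤ w := by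
  have h1 := Int.emod_add_mul_ediv n w
  have h2 := Int.emod_add_mul_ediv n' w
  have h3 := Int.emod_nonneg n hw.ne'
  have h4 := Int.emod_nonneg n' hw.ne'
  have h5 := Int.emod_lt_of_pos n hw
  have h6 := Int.emod_lt_of_pos n' hw
  rw [h] at h1
  rw [abs_le]
  constructor <;> linarith

theorem div_le_two_div {L w : ℕ} {ρ : ℝ} (hρ : 0 < ρ) (h1 : 1 ≤ ρ * L) (hw : w = ⌊ρ * L⌋₊)
    {n : ℤ} (hn0 : 0 ≤ n) (hn : n ≤ L) : 0 ≤ n / (w : ℤ) ∧ ((n / (w : ℤ) : ℤ) : ℝ) ≤ 2 / ρ := by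
  have hw1 : 1 ≤ w := hw ▸ Nat.le_floor (by simpa using h1)
  have hw1' : (1 : ℝ) ≤ w := by exact_mod_cast hw1
  have h2 : ρ * L < w + 1 := hw ▸ Nat.lt_floor_add_one _
  have h3 : (n / (w : ℤ)) * w ≤ n := Int.ediv_mul_le n (by omega)
  have h4 : ((n / (w : ℤ) : ℤ) : ℝ) * w ≤ L := by exact_mod_cast h3.trans hn
  have h5 : 0 ≤ n / (w : ℤ) := Int.ediv_nonneg hn0 (by omega)
  have h6 : (0 : ℝ) ≤ ((n / (w : ℤ) : ℤ) : ℝ) := by exact_mod_cast h5
  refine ⟨h5, ?_⟩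
  rw [le_div_iff₀ hρ]
  refine le_of_mul_le_mul_right (a := (w : ℝ)) ?_ (by linarith)
  calc ((n / (w : ℤ) : ℤ) : ℝ) * ρ * w = ρ * (((n / (w : ℤ) : ℤ) : ℝ) * w) := by ring
    _ ≤ ρ * L := mul_le_mul_of_nonneg_left h4 hρ.le
    _ ≤ 2 * w := by linarith

end Cv73

open Cv73 in
theorem convFStmt : ConvFStmt := by
  intro S t
  obtain ⟨C1, hC1⟩ := Win.clt (S := S + 1) (by omega) 1
  obtain ⟨C, hC0, hC⟩ : ∃ C : ℕ, 1 ≤ C ∧ ∀ (m E ρ L : ℝ), 2 ≤ m → E = Real.exp (m ^ C1) →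
      ρ = Real.exp (-m) / (2 * E) → Real.exp (m ^ C) ≤ L →
      m ≤ m ^ C ∧ m ^ C1 ≤ m ^ C ∧ 1 ≤ ρ * L ∧ E * ((3 * (2 / ρ + 1)) * (3 * E)) ≤ Real.exp (m ^ C) ∧
      Real.exp (-m ^ C) ≤ Real.exp (-m) / 2 / ((3 * (2 / ρ + 1)) * (3 * E)) := by
    have : ∀ᶠ C : ℕ in Filter.atTop, ∀ (m L : ℝ), 2 ≤ m → Real.exp (m ^ C) ≤ L →
      m ≤ m ^ C ∧ m ^ C1 ≤ m ^ C ∧ 1 ≤ Real.exp (-m) / (2 * Real.exp (m ^ C1)) * L ∧
      Real.exp (m ^ C1) * ((3 * (2 / (Real.exp (-m) / (2 * Real.exp (m ^ C1))) + 1)) *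
        (3 * Real.exp (m ^ C1))) ≤ Real.exp (m ^ C) ∧
      Real.exp (-m ^ C) ≤ Real.exp (-m) / 2 /
        ((3 * (2 / (Real.exp (-m) / (2 * Real.exp (m ^ C1))) + 1)) * (3 * Real.exp (m ^ C1))) := by
      qp
    obtain ⟨C, h1, h2⟩ := ((Filter.eventually_ge_atTop 1).and this).exists
    exact ⟨C, h1, fun m E ρ L hm hE hρ hL => by subst hE; subst hρ; exact h2 m L hm hL⟩
  refine ⟨C, hC0, fun m hm ι _ N g η 𝔥 L H F P a hg hd hN h𝔥 hη hL hH => ?_⟩
  rcases H.eq_empty_or_nonempty with rfl | hne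
  · exact ⟨fun _ => 0, ∅, by simp, Subset.rfl, by simp, by simp⟩
  set E := Real.exp (m ^ C1) with hE
  set ρ := Real.exp (-m) / (2 * E) with hρ
  obtain ⟨c1, c2, c3, c4, c5⟩ := hC m E ρ L hm hE hρ hL
  have hE1 : 1 ≤ E := Real.one_le_exp (by positivity)
  have hρ0 : 0 < ρ := by positivity
  have hL0 : (0 : ℝ) < L := (Real.exp_pos _).trans_le hL
  have hL1 : 0 < L := by exact_mod_cast hL0
  set w := ⌊ρ * L⌋₊ with hw
  have hw1 : 1 ≤ w := Nat.le_floor (by simpa using c3)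
  have hwρ : (w : ℝ) ≤ ρ * L := Nat.floor_le (by positivity)
  have hR1 : 1 ≤ 2 / ρ + 1 := le_add_of_nonneg_left (by positivity)
  have hcnt2 := (cnt_int hR1).prod (cnt_int hE1)
  have hcnt := (cnt_nat (zero_le_one.trans hE1)).prod hcnt2
  have key : ∀ h ∈ H, ∃ x : ℕ × ℤ × ℤ, ((1 ≤ x.1 ∧ (x.1 : ℝ) ≤ E) ∧
      (|(x.2.1 : ℝ)| ≤ 2 / ρ + 1 ∧ |(x.2.2 : ℝ)| ≤ E)) ∧ ∃ ψ, IsNil1 t (m ^ C) ψ ∧
      Cor (m ^ C) L (fun n => a h n * if (n / (w : ℤ), n % (x.1 : ℤ)) = x.2 then 1 else 0) ψ := by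
    intro h hh
    obtain ⟨h1, h2, h3, h4, h5⟩ := hH h hh
    obtain ⟨r, N', P', q, hr, hN', hP', hq1, hq, ⟨F', hF'⟩, -⟩ := hC1 m hm ι Unit N t η (F h) (P h) L
      (famH N g 𝔥.toSubmodule) (by simp) hd (hN.step_le (Nat.le_succ S))
      (h1.step hN.wt_le fun k => (hN.wt_le k).trans (Nat.le_succ S)) hL0 (grSub_famH hg 𝔥)
      (ratS_famH hg (by linarith) h𝔥) (fn_famH h1.supp hη)
      (fact_step hN.wt_le (Nat.le_succ S) (fact_of_near hg hN.wt_le hL0 h𝔥.gr h2 h3))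
    have hI : ∀ n ∈ Ico (0 : ℤ) L, |(n : ℝ)| ≤ L := fun n hn => by
      rw [mem_Ico] at hn
      rw [abs_of_nonneg (by exact_mod_cast hn.1)]
      exact_mod_cast hn.2.le
    have hkey : ∀ n ∈ Ico (0 : ℤ) L,
        |((n / (w : ℤ) : ℤ) : ℝ)| ≤ 2 / ρ + 1 ∧ |((n % (q : ℤ) : ℤ) : ℝ)| ≤ E := fun n hn => by
      rw [mem_Ico] at hn
      obtain ⟨e1, e2⟩ := div_le_two_div hρ0 c3 hw hn.1 hn.2.le
      have e3 := Int.emod_nonneg n (b := q) (by omega)
      have e4 := Int.emod_lt_of_pos n (b := q) (by omega)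
      rw [abs_of_nonneg (by exact_mod_cast e1), abs_of_nonneg (by exact_mod_cast e3)]
      exact ⟨by linarith, le_trans (by exact_mod_cast e4.le) hq⟩
    obtain ⟨T, hT1, hT2⟩ := hcnt2
    obtain ⟨y0, hy0, h6⟩ := exists_cell (Ico (0 : ℤ) L) (fun n => (n / (w : ℤ), n % (q : ℤ))) (a h)
      (sq N (F h) (P h)) (fun y0 => sq N' (F' fun _ => y0) P') (Real.exp_pos (-m))
      ⟨0, by simp [hL1]⟩ (le_trans (by
        exact_mod_cast card_le_card (image_subset_iff.2 fun n hn => hT2 _ (hkey n hn))) hT1)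
      (fun n _ => h4 n) (fun y0 hy0 y hy e => by
        obtain ⟨e1, e2⟩ := Prod.ext_iff.1 e
        refine ((hF' (fun _ => y0) fun _ => hI y0 hy0).2 (fun _ => y) ρ hρ0.le (fun _ => hI y hy)
          (fun _ => le_trans ?_ hwρ) fun _ =>
            Int.dvd_of_emod_eq_zero (Int.emod_eq_emod_iff_emod_sub_eq_zero.1 e2)).trans
          (le_of_eq ?_)
        · exact_mod_cast abs_sub_le_of_div_eq (by omega) e1
        · rw [← hE, hρ]; field_simp)
      (by simpa [Cor] using h5)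
    refine ⟨(q, y0 / (w : ℤ), y0 % (q : ℤ)), ⟨⟨hq1, hq⟩, hkey y0 hy0⟩, sq N' (F' fun _ => y0) P',
      ((hF' (fun _ => y0) fun _ => hI y0 hy0).1.mono (Real.exp_le_exp.2 c2)).isNil (m := m ^ C) ?_
        (hN'.mono (Real.exp_le_exp.2 c2)) hP', ?_⟩
    · rw [Fintype.card_fin]
      exact (le_trans (by exact_mod_cast hr) hd).trans c1
    · refine le_trans ?_ h6
      rw [Int.card_Ico, mul_div_right_comm]
      simpa using mul_le_mul_of_nonneg_right c5 hL0.le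
  obtain ⟨x, -, H', h1, -, h2, h3⟩ := hcnt.pigeon hne _ key
  refine ⟨fun n => if (n / (w : ℤ), n % (x.1 : ℤ)) = x.2 then 1 else 0, H', fun n => ?_, h1, ?_, h3⟩
  · beta_reduce; split_ifs <;> simp
  · rw [Real.exp_neg, inv_mul_le_iff₀ (Real.exp_pos _)]
    exact h2.trans (mul_le_mul_of_nonneg_right c4 (by positivity))

end Crest.Agent.T49.GI
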