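import Crest.Agent.T49.Bump_46

/-!
Row 49 (S0068), helper46.  Vector nilcharacters (abstract form): finitely many functions of a
given vertical frequency on `G / Γ` whose squared moduli add up to `1`.
-/

set_option autoImplicit false

open Finset
open scoped Real

namespace Crest.Agent.T49.Bmp

open Tor

section normalise

variable {X J : Type*} [Fintype J]

/-- sum of squares -/
noncomputable def ssq (F : J → X → ℂ) (x : X) : ℝ := ∑ j, ‖F j x‖ ^ 2

/-- normalised family -/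
noncomputable def nrm (F : J → X → ℂ) (j : J) (x : X) : ℂ := F j x * ((√(ssq F x))⁻¹ : ℝ)

variable {F : J → X → ℂ}

lemma one_le_ssq {x : X} (h : ∃ j, ‖F j x‖ = 1) : 1 ≤ ssq F x := by
  obtain ⟨j, hj⟩ := h
  have := single_le_sum (f := fun j => ‖F j x‖ ^ 2) (fun _ _ => by positivity) (mem_univ j)
  simpa [hj, ssq] using this

lemma norm_nrm (j : J) (x : X) : ‖nrm F j x‖ = ‖F j x‖ * (√(ssq F x))⁻¹ := by
  rw [nrm, norm_mul, Complex.norm_real, Real.norm_of_nonneg (by positivity)]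

lemma sum_nrm_sq {x : X} (h : 1 ≤ ssq F x) : ∑ j, ‖nrm F j x‖ ^ 2 = 1 := by
  simp only [norm_nrm, mul_pow, ← sum_mul, inv_pow, Real.sq_sqrt (zero_le_one.trans h)]
  exact mul_inv_cancel₀ (zero_lt_one.trans_le h).ne'

lemma norm_nrm_le {x : X} (h : 1 ≤ ssq F x) (j : J) : ‖nrm F j x‖ ≤ 1 := by
  have := single_le_sum (f := fun j => ‖nrm F j x‖ ^ 2) (fun _ _ => by positivity) (mem_univ j)
  rw [sum_nrm_sq h] at this
  exact (sq_le_one_iff₀ (norm_nonneg _)).1 this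

lemma nrm_eq_mul {x x' : X} {c : ℂ} (hc : ‖c‖ = 1) (h : ∀ j, F j x' = c * F j x) (j : J) :
    nrm F j x' = c * nrm F j x := by
  simp only [nrm, ssq, h, norm_mul, hc, one_mul, mul_assoc]

lemma abs_inv_sqrt_sub_le {S T : ℝ} (hS : 1 ≤ S) (hT : 1 ≤ T) :
    |(√S)⁻¹ - (√T)⁻¹| ≤ |S - T| / 2 := by
  have h1 : 1 ≤ √S := Real.one_le_sqrt.2 hS
  have h2 : 1 ≤ √T := Real.one_le_sqrt.2 hT
  have h3 : S - T = (√S - √T) * (√S + √T) := by
    nlinarith [Real.sq_sqrt (zero_le_one.trans hS), Real.sq_sqrt (zero_le_one.trans hT)]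
  rw [inv_sub_inv (by positivity) (by positivity), h3, abs_div,
    abs_of_pos (a := √S * √T) (by positivity), abs_mul, abs_sub_comm, abs_of_pos (a := √S + √T) (by positivity),
    div_le_div_iff₀ (by positivity) two_pos, mul_assoc]
  refine mul_le_mul_of_nonneg_left ?_ (abs_nonneg _)
  nlinarith [mul_le_mul h1 h2 zero_le_one (zero_le_one.trans h1)]

lemma nrm_lip {x x' : X} (h : 1 ≤ ssq F x) (h' : 1 ≤ ssq F x') (hb : ∀ j y, ‖F j y‖ ≤ 1) {ε : ℝ}
    (hε : ∀ j, ‖F j x' - F j x‖ ≤ ε) (j : J) :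
    ‖nrm F j x' - nrm F j x‖ ≤ (1 + Fintype.card J) * ε := by
  have h1 : |ssq F x' - ssq F x| ≤ Fintype.card J * (2 * ε) := by
    rw [ssq, ssq, ← sum_sub_distrib]
    refine (abs_sum_le_sum_abs _ _).trans ((sum_le_card_nsmul _ _ (2 * ε) fun j _ => ?_).trans
      (by simp))
    rw [sq_sub_sq, abs_mul]
    exact mul_le_mul (abs_le.2 ⟨by linarith [norm_nonneg (F j x'), norm_nonneg (F j x)],
      by linarith [hb j x', hb j x]⟩) ((abs_norm_sub_norm_le _ _).trans (hε j)) (abs_nonneg _)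
      zero_le_two
  have h2 := abs_inv_sqrt_sub_le h' h
  have h3 : |(√(ssq F x'))⁻¹| ≤ 1 := by
    rw [abs_of_nonneg (by positivity)]
    exact inv_le_one_of_one_le₀ (Real.one_le_sqrt.2 h')
  calc _ = ‖(F j x' - F j x) * ((√(ssq F x'))⁻¹ : ℝ) +
        F j x * (((√(ssq F x'))⁻¹ - (√(ssq F x))⁻¹ : ℝ) : ℂ)‖ := by
        unfold nrm; congr 1; push_cast; ring
    _ ≤ ‖F j x' - F j x‖ * |(√(ssq F x'))⁻¹| +
        ‖F j x‖ * |(√(ssq F x'))⁻¹ - (√(ssq F x))⁻¹| := by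
        refine (norm_add_le _ _).trans ?_
        simp only [norm_mul, Complex.norm_real, Real.norm_eq_abs, le_refl]
    _ ≤ ε * 1 + 1 * (Fintype.card J * (2 * ε) / 2) := by
        have := (norm_nonneg _).trans (hε j)
        gcongr
        · exact hε j
        · exact hb j x
        · linarith
    _ = _ := by ring

end normalise

variable {G : Type*} [Group G] {ι : Type*} [Fintype ι] [DecidableEq ι]
  {co : G → ι → ℝ} {wt : ι → ℕ} {Γ : Subgroup G}

/-- the vector nilcharacter with vertical frequency `η` at level `s`, on the grid `1/Q` -/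
noncomputable def vec (co : G → ι → ℝ) (wt : ι → ℕ) (Γ : Subgroup G) (s : ℕ) (η : ι → ℤ) (Q : ℕ) :
    (ι → Fin Q) → G → ℂ :=
  nrm fun a => lift co Γ (bump wt s η Q a)

variable {s Q : ℕ} {η : ι → ℤ}

lemma Mal.one_le_ssq (h : Mal co wt Γ) (hQ : 4 ≤ Q) (x : G) :
    1 ≤ ssq (fun a => lift co Γ (bump wt s η Q a)) x :=
  Bmp.one_le_ssq (h.exists_norm_eq_one hQ η x)

theorem Mal.sum_vec_sq (h : Mal co wt Γ) (hQ : 4 ≤ Q) (x : G) :
    ∑ a, ‖vec co wt Γ s η Q a x‖ ^ 2 = 1 := sum_nrm_sq (h.one_le_ssq hQ x)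

theorem Mal.norm_vec_le (h : Mal co wt Γ) (hQ : 4 ≤ Q) (a : ι → Fin Q) (x : G) :
    ‖vec co wt Γ s η Q a x‖ ≤ 1 := norm_nrm_le (h.one_le_ssq hQ x) a

theorem Mal.vec_mul (h : Mal co wt Γ) (hQ : 4 ≤ Q) (a : ι → Fin Q) (x : G) {δ : G} (hδ : δ ∈ Γ) :
    vec co wt Γ s η Q a (x * δ) = vec co wt Γ s η Q a x := by
  simpa [vec] using nrm_eq_mul (F := fun a => lift co Γ (bump wt s η Q a)) (c := 1) (by simp)
    (fun a => by rw [one_mul]; exact h.lift_mul (adm_bump hQ) x hδ) a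

/-- vertical frequency; `g` translates the coordinates of weight `≤ s` by `Z`, `Z = 0` in weight
`< s` -/
theorem Mal.vec_act (h : Mal co wt Γ) (hQ : 4 ≤ Q) (a : ι → Fin Q) {g : G} {Z : ι → ℝ}
    (hZ : ∀ k, wt k < s → Z k = 0) (hg : ∀ z k, wt k ≤ s → co (g * z) k = co z k + Z k) (x : G) :
    vec co wt Γ s η Q a (g * x) = e (dot (top wt s η) Z) * vec co wt Γ s η Q a x := by
  refine nrm_eq_mul (F := fun a => lift co Γ (bump wt s η Q a)) (norm_e _) (fun a => ?_) a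
  refine h.lift_act (adm_bump hQ) (fun z k hk => by rw [hg z k hk.le, hZ k hk, add_zero])
    (fun z => ?_) x
  rw [← bump_add hZ]
  exact (adm_bump hQ).per _ _ (fun k hk => hg z k hk.le) fun k hk => ⟨0, by simp [hg z k hk.le]⟩

theorem Mal.vec_lip (h : Mal co wt Γ) (hQ : 4 ≤ Q) {H ε : ℝ} (hH : 0 ≤ H)
    (hη : ∀ k, |(η k : ℝ)| ≤ H) (hε : 0 ≤ ε) {g : G}
    (hg : ε ≤ 1 / 4 → ∀ z, ‖co z‖ ≤ 2 → ‖co (g * z) - co z‖ ≤ ε ∧ ‖co (g⁻¹ * z) - co z‖ ≤ ε)
    (a : ι → Fin Q) (x : G) : ‖vec co wt Γ s η Q a (g * x) - vec co wt Γ s η Q a x‖ ≤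
      (1 + Q ^ Fintype.card ι) * (Fintype.card ι * (2 * Q + 7 * H) + 8) * ε := by
  have := nrm_lip (h.one_le_ssq (s := s) (η := η) hQ x) (h.one_le_ssq hQ (g * x))
    (fun a y => norm_lift_le norm_bump_le y) (fun a => h.lift_lip (adm_bump hQ) (by positivity) hε
      norm_bump_le (bump_lip hH hη) (fun h1 z hz => hg h1 z ?_) x) a
  · simpa [mul_assoc, vec] using this
  · rw [pi_norm_le_iff_of_nonneg zero_le_two]
    intro k
    have h2 : (0 : ℝ) < Q := by exact_mod_cast (by omega : 0 < Q)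
    have h3 : 0 ≤ grid Q a k := by unfold grid; positivity
    have h4 : grid Q a k ≤ 1 := (div_le_one h2).2 (by exact_mod_cast (a k).2.le)
    have h5 := hz k
    rw [Real.norm_eq_abs]
    rw [abs_le] at *; constructor <;> linarith

/-- support -/
theorem exists_of_vec_ne_zero {a : ι → Fin Q} {x : G}
    (hx : vec co wt Γ s η Q a x ≠ 0) :
    ∃ γ ∈ Γ, ∀ k, wt k < s → Q * |co (x * γ) k - grid Q a k| < 1 := by
  obtain ⟨γ, hγ, h⟩ := exists_of_lift_ne_zero (left_ne_zero_of_mul hx)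
  exact ⟨γ, hγ, lt_of_bump h⟩

end Crest.Agent.T49.Bmp
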