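import Crest.Agent.T49.NilLip_46
import Crest.Agent.T49.Bch_16
import Crest.Agent.T49.Vec_46

/-!
Row 49 (S0068), helper46.  Fundamental domain, vector nilcharacters and partitions of unity on the
nilmanifold of a datum.
-/

set_option autoImplicit false

noncomputable section

namespace Crest.Agent.T49.Nil

open Finset ND
open Crest.Agent.T49.Bch (star Exp)

variable {ι : Type} [Fintype ι] {N : ND ι} {S : ℕ} {M : ℝ}

namespace ND

/-- the lattice as a subgroup -/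
def Good.latG (h : N.Good S M) : haveI := h.nil ℝ; Subgroup (Exp S N.L) :=
  haveI := h.nil ℝ
  Exp.subOf S {x | IsInt x} (fun _ => ⟨0, by simp⟩)
    (fun x hx k => by obtain ⟨z, hz⟩ := hx k; exact ⟨-z, by simp [hz]⟩) fun x hx y hy =>
    h.lat x y hx hy

theorem Good.mal (h : N.Good S M) :
    haveI := h.nil ℝ; Bmp.Mal (fun g : Exp S N.L => N.co g.log) N.wt h.latG :=
  haveI := h.nil ℝ
  { tri := fun x δ _ _ h1 _ hk => star_apply_right x.log (Z := δ.log) h1 hk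
    int := fun _ hδ k => hδ k
    surj := fun n => ⟨⟨N.ofInt n⟩, isInt_ofInt (N := N) n, fun _ => rfl⟩ }

/-- **fundamental domain** around any centre -/
theorem Good.fund_at (h : N.Good S M) (x : N.L) (y : ι → ℝ) :
    ∃ γ, IsInt γ ∧ ∀ k, |star S x γ k - y k| ≤ 1 / 2 := by
  have := h.nil ℝ
  obtain ⟨γ, h1, h2⟩ := h.mal.fund ⟨x⟩ y
  exact ⟨γ.log, h1, h2⟩

/-- **fundamental domain** -/
theorem Good.fund (h : N.Good S M) (x : N.L) :
    ∃ u γ, ‖u‖ ≤ 1 / 2 ∧ IsInt γ ∧ x = star S u γ := by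
  have := h.nil ℝ
  obtain ⟨γ, h1, h2⟩ := h.fund_at x 0
  refine ⟨star S x γ, -γ, (norm_le_iff (by norm_num)).2 (by simpa using h2), fun k => ?_, by simp⟩
  obtain ⟨z, hz⟩ := h1 k
  exact ⟨-z, by simp [hz]⟩

/-- integer points close to each other agree -/
theorem Good.uniq_int (h : N.Good S M) (x : N.L) {δ : N.L} (hδ : IsInt δ) (s : ℕ)
    (hs : ∀ k, N.wt k < s → |star S x δ k - x k| < 1) : δ ∈ N.F s := by
  have := h.nil ℝ
  exact h.mal.uniq ⟨x⟩ (δ := ⟨δ⟩) hδ s hs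

variable [DecidableEq ι]

/-- vector nilcharacter at level `s` on the grid `1/Q` -/
def Good.vec (h : N.Good S M) (s : ℕ) (η : ι → ℤ) (Q : ℕ) (a : ι → Fin Q) (x : N.L) : ℂ :=
  haveI := h.nil ℝ
  Bmp.vec (fun g : Exp S N.L => N.co g.log) N.wt h.latG s η Q a ⟨x⟩

/-- Lipschitz constant of `Good.vec` -/
def vecL (ι : Type) [Fintype ι] (S Q : ℕ) (M H : ℝ) : ℝ :=
  (1 + Q ^ Fintype.card ι) * (Fintype.card ι * (2 * Q + 7 * H) + 8) * (cB S * (kB ι M * 2) ^ S)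

variable {s Q : ℕ} {η : ι → ℤ} {H : ℝ}

theorem Good.sum_vec_sq (h : N.Good S M) (hQ : 4 ≤ Q) (x : N.L) :
    ∑ a, ‖h.vec s η Q a x‖ ^ 2 = 1 :=
  haveI := h.nil ℝ
  h.mal.sum_vec_sq hQ ⟨x⟩

theorem Good.vec_lipFn (h : N.Good S M) (hM : 0 ≤ M) (hQ : 4 ≤ Q) (hH : 0 ≤ H)
    (hη : ∀ k, |(η k : ℝ)| ≤ H) (a : ι → Fin Q) :
    N.LipFn S (vecL ι S Q M H) (h.vec s η Q a) := by
  have := h.nil ℝ
  refine ⟨fun x => h.mal.norm_vec_le hQ a ⟨x⟩,
    fun x γ hγ => h.mal.vec_mul hQ a ⟨x⟩ (δ := ⟨γ⟩) hγ, fun Z x => ?_⟩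
  have h1 : 1 ≤ cB S * (kB ι M * 2) ^ S := one_le_mul_of_one_le_of_one_le
    (by linarith [two_le_cB S]) (one_le_pow₀ (by linarith [one_le_kB (ι := ι) hM]))
  have h2 := h.mal.vec_lip (s := s) hQ hH hη (ε := cB S * (kB ι M * 2) ^ S * ‖Z‖) (by positivity)
    (g := ⟨Z⟩) (fun h3 z hz => ?_) a ⟨x⟩
  · rw [vecL, mul_assoc]; exact h2
  · have h4 : ‖Z‖ ≤ 2 := by nlinarith [norm_nonneg Z]
    refine ⟨norm_star_sub_right_le S hM h.c_le one_le_two h4 hz, ?_⟩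
    rw [← norm_neg Z]
    exact norm_star_sub_right_le S hM h.c_le one_le_two ((norm_neg Z).le.trans h4) hz

theorem Good.vec_vert (h : N.Good S M) (hQ : 4 ≤ Q) (a : ι → Fin Q) {Z : N.L} (hZ : Z ∈ N.F s)
    (x : N.L) : h.vec s η Q a (star S Z x) =
      Tor.e (N.fn (Bmp.top N.wt s η) Z) * h.vec s η Q a x :=
  haveI := h.nil ℝ
  h.mal.vec_act hQ a (g := ⟨Z⟩) (Z := N.co Z) hZ (fun z _ hk => star_apply_left hZ z.log hk) ⟨x⟩

theorem Good.vec_nchar (h : N.Good S M) (hM : 0 ≤ M) (hQ : 4 ≤ Q) (hH : 0 ≤ H)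
    (hs : ∀ k, N.wt k ≠ s → η k = 0) (hη : ∀ k, |(η k : ℝ)| ≤ H) (a : ι → Fin Q) :
    N.NChar S s (max (vecL ι S Q M H) H) η (h.vec s η Q a) := by
  refine ⟨(h.vec_lipFn hM hQ hH hη a).mono (le_max_left _ _), hs,
    fun k => (hη k).trans (le_max_right _ _), fun Z hZ x => ?_⟩
  have : Bmp.top N.wt s η = η := funext fun k => by
    unfold Bmp.top; split_ifs with h1
    · rfl
    · exact (hs k h1).symm
  rw [h.vec_vert hQ a hZ, this]

theorem Good.exists_of_vec_ne_zero (h : N.Good S M) {a : ι → Fin Q} {x : N.L}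
    (hx : h.vec s η Q a x ≠ 0) :
    ∃ γ, IsInt γ ∧ ∀ k, N.wt k < s → Q * |star S x γ k - Bmp.grid Q a k| < 1 := by
  have := h.nil ℝ
  obtain ⟨γ, h1, h2⟩ := Bmp.exists_of_vec_ne_zero hx
  exact ⟨γ.log, h1, h2⟩

/-- partition of unity on `G / G_{s+1} Γ` -/
def Good.pou (h : N.Good S M) (s Q : ℕ) (a : ι → Fin Q) (x : N.L) : ℝ :=
  ‖h.vec (s + 1) 0 Q a x‖ ^ 2

theorem Good.sum_pou (h : N.Good S M) (hQ : 4 ≤ Q) (x : N.L) : ∑ a, h.pou s Q a x = 1 :=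
  h.sum_vec_sq hQ x

theorem Good.pou_nonneg (h : N.Good S M) (a : ι → Fin Q) (x : N.L) : 0 ≤ h.pou s Q a x :=
  sq_nonneg _

theorem Good.pou_le_one (h : N.Good S M) (hQ : 4 ≤ Q) (a : ι → Fin Q) (x : N.L) :
    h.pou s Q a x ≤ 1 :=
  (single_le_sum (fun a _ => h.pou_nonneg a x) (mem_univ a)).trans (h.sum_pou hQ x).le

theorem Good.pou_nfn (h : N.Good S M) (hM : 0 ≤ M) (hQ : 4 ≤ Q) (a : ι → Fin Q) :
    N.NFn S s (2 * vecL ι S Q M 0) fun x => (h.pou s Q a x : ℂ) := by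
  have h1 := h.vec_lipFn (s := s + 1) (η := 0) hM hQ le_rfl (by simp) a
  refine ⟨⟨fun x => ?_, fun x γ hγ => by simp only [Good.pou, h1.per x γ hγ], fun Z x => ?_⟩,
    fun Z hZ x => ?_⟩
  · rw [Complex.norm_real, Real.norm_of_nonneg (h.pou_nonneg a x)]; exact h.pou_le_one hQ a x
  · rw [← Complex.ofReal_sub, Complex.norm_real, Real.norm_eq_abs, Good.pou, Good.pou, sq_sub_sq,
      abs_mul, mul_assoc]
    refine mul_le_mul ?_ ((abs_norm_sub_norm_le _ _).trans (h1.lip Z x)) (abs_nonneg _) zero_le_two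
    rw [abs_of_nonneg (by positivity)]
    linarith [h1.bdd (star S Z x), h1.bdd x]
  · simp only [Good.pou, h.vec_vert hQ a hZ, norm_mul, Tor.norm_e, one_mul]

theorem Good.exists_of_pou_ne_zero (h : N.Good S M) {a : ι → Fin Q} {x : N.L}
    (hx : h.pou s Q a x ≠ 0) :
    ∃ γ, IsInt γ ∧ ∀ k, N.wt k ≤ s → Q * |star S x γ k - Bmp.grid Q a k| < 1 := by
  obtain ⟨γ, h1, h2⟩ := h.exists_of_vec_ne_zero (s := s + 1) (η := 0) (a := a) (x := x)
    fun h0 => hx (by simp [Good.pou, h0])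
  exact ⟨γ, h1, fun k hk => h2 k (by omega)⟩

end ND

theorem vecL_le (S : ℕ) : ∃ C : ℕ, 1 ≤ C ∧ ∀ (m : ℝ), 2 ≤ m → ∀ (ι : Type) [Fintype ι] (Q : ℕ),
    (Fintype.card ι : ℝ) ≤ m → (Q : ℝ) ≤ Real.exp m →
    (Q : ℝ) ^ Fintype.card ι ≤ Real.exp (m ^ C) ∧
      vecL ι S Q (Real.exp m) (Real.exp m) ≤ Real.exp (m ^ C) := by
  obtain ⟨c, hc⟩ := pow_unbounded_of_one_lt (6 + cB S + 4 * S) (one_lt_two (α := ℝ))
  refine ⟨c + 2, by omega, fun m hm ι _ Q hd hQ => ?_⟩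
  have hcB := two_le_cB S
  set E := Real.exp m with hE
  have hmE : m + 1 ≤ E := Real.add_one_le_exp m
  have hm2 : m ≤ m ^ 2 := by nlinarith
  have hE2 : ∀ n : ℕ, E ^ n ≤ Real.exp (n * m ^ 2) := fun n => by
    rw [hE, ← Real.exp_nat_mul]; gcongr
  have hd0 : (0 : ℝ) ≤ Fintype.card ι := by positivity
  have h1 : (Q : ℝ) ^ Fintype.card ι ≤ Real.exp (m ^ 2) := by
    refine (pow_le_pow_left₀ (by positivity) hQ _).trans ?_
    rw [hE, ← Real.exp_nat_mul, sq]; gcongr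
  have h2 : 1 + (Q : ℝ) ^ Fintype.card ι ≤ Real.exp (2 * m ^ 2) := by
    have h3 := Real.add_one_le_exp (m ^ 2)
    rw [two_mul, Real.exp_add]; nlinarith
  have h3 : Fintype.card ι * (2 * Q + 7 * E) + 8 ≤ E ^ 4 := by
    have h4 : Fintype.card ι * (2 * Q + 7 * E) ≤ (E - 1) * (9 * E) :=
      mul_le_mul (by linarith) (by linarith) (by positivity) (by linarith)
    have h5 : 9 ≤ E ^ 2 := by nlinarith
    nlinarith [mul_le_mul_of_nonneg_left h5 (sq_nonneg E)]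
  have h4 : kB ι E * 2 ≤ E ^ 4 := by
    have h5 : (Fintype.card ι : ℝ) ^ 2 ≤ (E - 1) ^ 2 := by gcongr; linarith
    have h6 := mul_le_mul_of_nonneg_right h5 (show 0 ≤ E by linarith)
    have h7 : 3 * E ^ 3 ≤ E ^ 4 := by nlinarith [pow_pos (show 0 < E by linarith) 3]
    unfold kB; nlinarith
  have h5 : cB S ≤ Real.exp (cB S * m ^ 2) := by
    nlinarith [Real.add_one_le_exp (cB S * m ^ 2)]
  have h6 : (6 + cB S + 4 * S) * m ^ 2 ≤ m ^ (c + 2) := by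
    rw [pow_add]
    exact mul_le_mul_of_nonneg_right (hc.le.trans (pow_le_pow_left₀ zero_le_two hm c))
      (sq_nonneg m)
  refine ⟨h1.trans (Real.exp_le_exp.2 (le_trans ?_ h6)), ?_⟩
  · nlinarith [Nat.cast_nonneg (α := ℝ) S, sq_nonneg m]
  · have h7 : (kB ι E * 2) ^ S ≤ Real.exp (4 * S * m ^ 2) := by
      refine (pow_le_pow_left₀ (by linarith [one_le_kB (ι := ι) (show 0 ≤ E by linarith)])
        h4 S).trans ?_
      rw [← pow_mul]; exact_mod_cast hE2 (4 * S)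
    have h8 := h3.trans (hE2 4)
    have h9 : 0 ≤ kB ι E := by linarith [one_le_kB (ι := ι) (show 0 ≤ E by linarith)]
    calc _ ≤ Real.exp (2 * m ^ 2) * Real.exp ((4 : ℕ) * m ^ 2) *
          (Real.exp (cB S * m ^ 2) * Real.exp (4 * S * m ^ 2)) := by unfold vecL; gcongr
      _ = Real.exp ((6 + cB S + 4 * S) * m ^ 2) := by
          simp only [← Real.exp_add]; congr 1; push_cast; ring
      _ ≤ _ := Real.exp_le_exp.2 h6

theorem vecL_mono (ι : Type) [Fintype ι] (S Q : ℕ) {M H H' : ℝ} (hM : 0 ≤ M) (h : H ≤ H') :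
    vecL ι S Q M H ≤ vecL ι S Q M H' := by
  have := one_le_kB (ι := ι) hM
  have := two_le_cB S
  unfold vecL; gcongr

/-- **VEC**: vector nilcharacters -/
theorem exists_vec (S : ℕ) : ∃ C : ℕ, ∀ (m : ℝ), 2 ≤ m → ∀ (ι : Type) [Fintype ι] (N : ND ι)
    (s : ℕ) (η : ι → ℤ), (Fintype.card ι : ℝ) ≤ m → N.Good S (Real.exp m) →
    (∀ k, N.wt k ≠ s → η k = 0) → (∀ k, |(η k : ℝ)| ≤ Real.exp m) →
    ∃ (J : ℕ) (F : Fin J → N.L → ℂ), (J : ℝ) ≤ Real.exp (m ^ C) ∧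
      (∀ j, N.NChar S s (Real.exp (m ^ C)) η (F j)) ∧ ∀ x, ∑ j, ‖F j x‖ ^ 2 = 1 := by
  classical
  obtain ⟨C, hC1, hC⟩ := vecL_le S
  refine ⟨C, fun m hm ι _ N s η hd h hs hη => ?_⟩
  have h4 : ((4 : ℕ) : ℝ) ≤ Real.exp m := by
    have := Real.quadratic_le_exp_of_nonneg (x := m) (by linarith)
    push_cast; nlinarith
  obtain ⟨h1, h2⟩ := hC m hm ι 4 hd h4
  let e := Fintype.equivFin (ι → Fin 4)
  refine ⟨_, fun j => h.vec s η 4 (e.symm j), by simpa using h1, fun j => ?_, fun x => ?_⟩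
  · refine (h.vec_nchar (Real.exp_pos m).le le_rfl (Real.exp_pos m).le hs hη _).mono
      (max_le h2 (Real.exp_le_exp.2 (le_self_pow₀ (by linarith) (by omega))))
  · rw [← h.sum_vec_sq (s := s) (η := η) le_rfl x]
    exact e.symm.sum_comp fun a => ‖h.vec s η 4 a x‖ ^ 2

/-- **POU**: partitions of unity of mesh `1/Q` on `G / G_{s+1} Γ` -/
theorem exists_pou (S : ℕ) : ∃ C : ℕ, ∀ (m : ℝ), 2 ≤ m → ∀ (ι : Type) [Fintype ι] (N : ND ι)
    (s Q : ℕ), (Fintype.card ι : ℝ) ≤ m → N.Good S (Real.exp m) → 4 ≤ Q → (Q : ℝ) ≤ Real.exp m →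
    ∃ (J : ℕ) (χ : Fin J → N.L → ℝ) (y : Fin J → N.L), (J : ℝ) ≤ Real.exp (m ^ C) ∧
      (∀ j, N.NFn S s (Real.exp (m ^ C)) fun x => (χ j x : ℂ)) ∧ (∀ j x, 0 ≤ χ j x ∧ χ j x ≤ 1) ∧
      (∀ x, ∑ j, χ j x = 1) ∧ (∀ j, ‖y j‖ ≤ 1) ∧ ∀ j x, χ j x ≠ 0 →
        ∃ γ, IsInt γ ∧ ∀ k, N.wt k ≤ s → Q * |star S x γ k - y j k| < 1 := by
  classical
  obtain ⟨C, hC1, hC⟩ := vecL_le S
  refine ⟨C + 1, fun m hm ι _ N s Q hd h hQ hQ' => ?_⟩
  obtain ⟨h1, h2⟩ := hC m hm ι Q hd hQ'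
  have h3 : 2 ≤ m ^ C := hm.trans (le_self_pow₀ (by linarith) (by omega))
  have h4 : 2 * Real.exp (m ^ C) ≤ Real.exp (m ^ (C + 1)) := by
    have h5 : m ^ C + m ^ C ≤ m ^ (C + 1) := by rw [pow_succ]; nlinarith
    have h6 := Real.exp_le_exp.2 h5
    rw [Real.exp_add] at h6
    nlinarith [Real.add_one_le_exp (m ^ C), Real.exp_pos (m ^ C)]
  let e := Fintype.equivFin (ι → Fin Q)
  refine ⟨_, fun j => h.pou s Q (e.symm j), fun j => Bmp.grid Q (e.symm j), ?_, fun j => ?_,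
    fun j x => ⟨h.pou_nonneg _ x, h.pou_le_one hQ _ x⟩, fun x => ?_, fun j => ?_,
    fun j x hx => h.exists_of_pou_ne_zero hx⟩
  · have := Real.exp_pos (m ^ C)
    simp only [Fintype.card_pi, Fintype.card_fin, prod_const, card_univ, Nat.cast_pow]
    linarith
  · refine (h.pou_nfn (Real.exp_pos m).le hQ _).mono (le_trans ?_ h4)
    linarith [vecL_mono ι S Q (Real.exp_pos m).le (Real.exp_pos m).le]
  · rw [← h.sum_pou (s := s) hQ x]
    exact e.symm.sum_comp fun a => h.pou s Q a x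
  · refine (norm_le_iff zero_le_one).2 fun k => ?_
    have h5 : (0 : ℝ) < Q := by exact_mod_cast (by omega : 0 < Q)
    change |((e.symm j k : ℕ) : ℝ) / Q| ≤ 1
    rw [abs_of_nonneg (by positivity), div_le_one h5]
    exact_mod_cast (e.symm j k).2.le

end Crest.Agent.T49.Nil
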