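import Crest.Agent.T49.GiDef_40
import Crest.Agent.T49.NilFn_73
import Crest.Agent.T49.NilVec_46
import Crest.Agent.T49.Qp_85

/-!
# Row 49 (helper91): GI leaf FIBC, removal of the part that does not depend on `h`
-/

set_option autoImplicit false

noncomputable section

namespace Crest.Agent.T49.GI

open Finset Crest.Agent.T49.Nil Crest.Agent.T49.Nil.ND
open Crest.Agent.T49.Bch (star star_assoc)
open scoped ComplexConjugate

namespace FibC91

theorem pigeon {β : Type*} (H : Finset ℤ) (T : Finset β) (hT : T.Nonempty) (r : ℤ → β → Prop)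
    (h : ∀ x ∈ H, ∃ b ∈ T, r x b) :
    ∃ b ∈ T, ∃ H' ⊆ H, (#H : ℝ) ≤ #T * #H' ∧ ∀ x ∈ H', r x b := by
  classical
  obtain ⟨b, hb, hmax⟩ := exists_max_image T (fun b => #{x ∈ H | r x b}) hT
  refine ⟨b, hb, {x ∈ H | r x b}, filter_subset _ _, ?_, fun x hx => (mem_filter.1 hx).2⟩
  have h1 : H ⊆ T.biUnion fun b => {x ∈ H | r x b} := fun x hx => by
    obtain ⟨b, hb, hr⟩ := h x hx
    exact mem_biUnion.2 ⟨b, hb, mem_filter.2 ⟨hx, hr⟩⟩
  have h2 := (card_le_card h1).trans (card_biUnion_le_card_mul _ _ _ hmax)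
  exact_mod_cast h2

theorem exists_term {J : ℕ} (c : Fin J → ℂ) {δ : ℝ} (hδ : 0 < δ) (h : δ ≤ ‖∑ j, c j‖) :
    ∃ j, δ ≤ J * ‖c j‖ := by
  by_contra hc
  push Not at hc
  rcases Nat.eq_zero_or_pos J with rfl | hJ
  · simp at h; linarith
  have hJ' : (0 : ℝ) < J := by exact_mod_cast hJ
  have h1 : ∑ j, (J : ℝ) * ‖c j‖ < ∑ _j : Fin J, δ :=
    sum_lt_sum_of_nonempty ⟨⟨0, hJ⟩, mem_univ _⟩ fun j _ => hc j
  rw [← mul_sum, sum_const, card_univ, Fintype.card_fin, nsmul_eq_mul] at h1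
  have h2 := lt_of_mul_lt_mul_left h1 hJ'.le
  exact absurd (h.trans (norm_sum_le _ _)) (not_le.2 h2)

theorem isNil1_mono {s : ℕ} {m m' : ℝ} {ψ : ℤ → ℂ} (h : IsNil1 s m ψ) (hm : m ≤ m') :
    IsNil1 s m' ψ := by
  obtain ⟨ι, _, N, F, P, h1, h2, h3, h4, h5⟩ := h
  exact ⟨ι, inferInstance, N, F, P, h1.trans hm, h2.mono (Real.exp_le_exp.2 hm),
    h3.mono (Real.exp_le_exp.2 hm), h4, h5⟩

theorem cor_mono {m m' : ℝ} {L : ℕ} {a ψ : ℤ → ℂ} (h : Cor m L a ψ) (hm : m ≤ m') :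
    Cor m' L a ψ :=
  le_trans (mul_le_mul_of_nonneg_right (Real.exp_le_exp.2 (neg_le_neg hm)) (Nat.cast_nonneg _)) h

theorem red_comp {t L : ℕ} {m₁ m₂ m : ℝ} {H H' : Finset ℤ} {a : ℤ → ℤ → ℂ} {b : ℤ → ℂ}
    (hb : ∀ n, ‖b n‖ ≤ 1) (hH : H' ⊆ H) (hc : Real.exp (-m₁) * #H ≤ #H')
    (h : Red t m₂ L H' fun h n => a h n * b n) (h1 : m₁ + m₂ ≤ m) (h2 : m₂ ≤ m) :
    Red t m L H a := by
  obtain ⟨b', H'', hb', hH', hc', h⟩ := h
  refine ⟨fun n => b n * b' n, H'', fun n => ?_, hH'.trans hH, ?_, fun x hx => ?_⟩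
  · rw [norm_mul]; exact mul_le_one₀ (hb n) (norm_nonneg _) (hb' n)
  · calc Real.exp (-m) * #H ≤ Real.exp (-m₂) * (Real.exp (-m₁) * #H) := by
          rw [← mul_assoc, ← Real.exp_add]
          exact mul_le_mul_of_nonneg_right (Real.exp_le_exp.2 (by linarith)) (Nat.cast_nonneg _)
      _ ≤ _ := (mul_le_mul_of_nonneg_left hc (Real.exp_pos _).le).trans hc'
  · obtain ⟨ψ, h3, h4⟩ := h x hx
    exact ⟨ψ, isNil1_mono h3 h2, by simpa only [mul_assoc] using cor_mono h4 h2⟩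

variable {ι : Type} [Fintype ι]

/-- the state of the downward induction -/
def St (N : ND ι) (κ : ι → Prop) (S t d : ℕ) (m : ℝ) (L : ℕ) (H : Finset ℤ) (F : ℤ → N.L → ℂ)
    (P : ℤ → N.PS Unit) (a : ℤ → ℤ → ℂ) : Prop :=
  ∀ h ∈ H, N.NFn S d (Real.exp m) (F h) ∧
    (∀ Z ∈ N.F (t + 1), On N κ Z → ∀ x, F h (star S Z x) = F h x) ∧ P h ∈ N.poly Unit ∧
    (∀ h' ∈ H, ∀ k, ¬ κ k → P h k = P h' k) ∧ (∀ n, ‖a h n‖ ≤ 1) ∧
    Cor m L (a h) (sq N (F h) (P h))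

theorem keep_of_coId {N : ND ι} {κ : ι → Prop} (h : CoId N κ) : N.Keep fun k => ¬ κ k :=
  fun i j k hc hk => ⟨fun hi => hk (h j i k (by rw [N.anti]; exact neg_ne_zero.2 hc) hi),
    fun hj => hk (h i j k hc hj)⟩

theorem coef_inv {N : ND ι} {S s : ℕ} {M : ℝ} {F : N.L → ℂ} (hS : ∀ k, N.wt k ≤ S)
    (hF : N.NFn S s M F) (ξ : {k // N.wt k = s} → ℤ) {Z : N.L}
    (hZ : ∀ x, F (star S Z x) = F x) (x : N.L) :
    Tor.coef (N.vact s) F ξ (star S Z x) = Tor.coef (N.vact s) F ξ x := by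
  have := ND.nil hS ℝ
  refine Tor.coef_congr ξ fun τ => ?_
  simp only [ND.vact]
  rw [← hF.congr (star_sub_add_right S (vx_mem τ) _), ← hF.congr (star_sub_add_right S (vx_mem τ) x),
    star_assoc, hZ]

theorem freq_zero {N : ND ι} {S s : ℕ} {M : ℝ} {η : ι → ℤ} {G : N.L → ℂ}
    (hG : N.NChar S s M η G) {x : N.L} (hx : G x ≠ 0) {k : ι} (hk : N.wt k = s)
    (hinv : ∀ r : ℝ, G (star S (r • N.e k) x) = G x) : η k = 0 := by
  by_contra h
  have h0 : (η k : ℝ) ≠ 0 := by exact_mod_cast h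
  have h1 := hG.vert ((1 / (2 * (η k : ℝ))) • N.e k)
    (Submodule.smul_mem _ _ (hk ▸ e_mem_F k)) x
  rw [hinv, map_smul, fn_e67, smul_eq_mul,
    show 1 / (2 * (η k : ℝ)) * η k = 1 / 2 by field_simp, Tor.e_half] at h1
  exact hx (by linear_combination (1 / 2 : ℂ) * h1)

theorem step (S t : ℕ) : ∃ C : ℕ, 1 ≤ C ∧ ∀ (m : ℝ), 2 ≤ m → ∀ (ι : Type) [Fintype ι] (N : ND ι)
    (κ : ι → Prop) (d L : ℕ) (H : Finset ℤ) (F : ℤ → N.L → ℂ) (P : ℤ → N.PS Unit)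
    (a : ℤ → ℤ → ℂ), (Fintype.card ι : ℝ) ≤ m → N.Good S (Real.exp m) → CoId N κ → 0 < L →
    t ≤ d → H.Nonempty → St N κ S t (d + 1) m L H F P a →
    ∃ (b : ℤ → ℂ) (H' : Finset ℤ) (F' : ℤ → N.L → ℂ), (∀ n, ‖b n‖ ≤ 1) ∧ H' ⊆ H ∧
      Real.exp (-m ^ C) * #H ≤ #H' ∧ St N κ S t d (m ^ C) L H' F' P fun h n => a h n * b n := by
  classical
  obtain ⟨C₁, hC₁⟩ := exists_vec S
  obtain ⟨C, hC⟩ : ∃ C : ℕ, ∀ (m : ℝ) (c J K : ℕ), 2 ≤ m → (c : ℝ) ≤ m →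
      (J : ℝ) ≤ Real.exp ((7 * m) ^ C₁) → (K : ℝ) ≤ Real.exp (7 * m) →
      Real.exp (7 * m) + Real.exp ((7 * m) ^ C₁) * 1 ≤ Real.exp (m ^ C) ∧
      (2 * (K : ℝ) + 1) ^ c * J ≤ Real.exp (m ^ C) ∧
      Real.exp m * (2 * (2 * (K : ℝ) + 1) ^ c) * J ≤ Real.exp (m ^ C) := by qp
  refine ⟨C + 1, by omega, fun m hm ι _ N κ d L H F P a hd hN hκ hL htd hH hSt => ?_⟩
  have hS := hN.wt_le
  have hnil := ND.nil hS ℝ
  have hmC : m ^ C ≤ m ^ (C + 1) := Qp.pw_mono hm (Nat.le_succ C)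
  have hLr : (0 : ℝ) < L := by exact_mod_cast hL
  have h1e := Real.add_one_le_exp m
  set K : ℕ := ⌈Real.exp (6 * m)⌉₊ with hK
  have hK0 : 0 < K := Nat.ceil_pos.2 (Real.exp_pos _)
  have h6 : Real.exp (6 * m) ≤ K := Nat.le_ceil _
  have hK7 : (K : ℝ) ≤ Real.exp (7 * m) := by
    have h6' : (K : ℝ) ≤ Real.exp (6 * m) + 1 := (Nat.ceil_lt_add_one (Real.exp_pos _).le).le
    have h61 : 1 ≤ Real.exp (6 * m) := Real.one_le_exp (by linarith)
    rw [show 7 * m = 6 * m + m by ring, Real.exp_add]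
    nlinarith
  set ιs := {k // N.wt k = d + 1}
  have hιs : Fintype.card ιs ≤ Fintype.card ι := Fintype.card_subtype_le _
  have hιs' : (Fintype.card ιs : ℝ) ≤ m := le_trans (by exact_mod_cast hιs) hd
  -- vertical expansion
  have hexp : ∀ h ∈ H, ∃ ξ ∈ Tor.cube ιs K,
      Real.exp (-m) * L / (2 * (2 * K + 1) ^ Fintype.card ιs) ≤
        ‖∑ n ∈ Ico (0 : ℤ) L, a h n *
          Tor.coef (N.vact (d + 1)) (F h) ξ (N.evZ (fun _ => n) (P h))‖ := by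
    intro h hh
    obtain ⟨h1, -, -, -, h5, h6'⟩ := hSt h hh
    refine (h1.vert hS (Real.exp_pos _).le).exists_bias hK0 _ _ _ ?_ (Real.exp_pos _).le ?_ h6'
    · refine (sum_le_card_nsmul _ _ 1 fun n _ => h5 n).trans (le_of_eq ?_)
      simp
    · refine le_trans ?_ (mul_le_mul_of_nonneg_left h6 (by positivity))
      have e1 : Real.exp (-m) ^ 2 * Real.exp (6 * m) = (Real.exp m * Real.exp m) ^ 2 := by
        rw [← Real.exp_nat_mul, ← Real.exp_add, ← Real.exp_add, ← Real.exp_nat_mul]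
        congr 1; push_cast; ring
      rw [e1]
      exact pow_le_pow_left₀ (by positivity)
        (mul_le_mul_of_nonneg_left (by linarith) (Real.exp_pos _).le) 2
  obtain ⟨ξ, hξ, H₁, hH₁, hc₁, hb₁⟩ := pigeon H (Tor.cube ιs K)
    ⟨0, Tor.mem_cube.2 fun i => by simp⟩ _ hexp
  have hH₁ne : H₁.Nonempty := by
    rw [← card_pos]
    by_contra h0
    have h0' : #H₁ = 0 := by omega
    have := card_pos.2 hH
    rw [h0', Nat.cast_zero, mul_zero] at hc₁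
    have : (0 : ℝ) < #H := by exact_mod_cast this
    linarith
  set η := N.vz (d + 1) ξ with hη
  set G : ℤ → N.L → ℂ := fun h => Tor.coef (N.vact (d + 1)) (F h) ξ with hG
  have hm7 : Real.exp m ≤ Real.exp (7 * m) := Real.exp_le_exp.2 (by linarith)
  have hξle : ∀ i, |(ξ i : ℝ)| ≤ Real.exp (7 * m) := fun i =>
    le_trans (by exact_mod_cast Tor.mem_cube.1 hξ i) hK7
  have hGc : ∀ h ∈ H, N.NChar S (d + 1) (Real.exp (7 * m)) η (G h) := fun h hh =>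
    (hSt h hh).1.nchar_coef hS (Real.exp_pos _).le ξ hm7 hξle
  have hGinv : ∀ h ∈ H, ∀ Z ∈ N.F (t + 1), On N κ Z → ∀ x, G h (star S Z x) = G h x :=
    fun h hh Z hZ hZκ x => coef_inv hS (hSt h hh).1 ξ ((hSt h hh).2.1 Z hZ hZκ) x
  set δ : ℝ := Real.exp (-m) * L / (2 * (2 * K + 1) ^ Fintype.card ιs) with hδ
  have hδ0 : 0 < δ := by positivity
  obtain ⟨h₀, hh₀⟩ := hH₁ne
  -- the frequency vanishes on `κ`
  have hηκ : ∀ k, κ k → η k = 0 := by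
    intro k hk
    by_cases hw : N.wt k = d + 1
    swap
    · exact (hGc h₀ (hH₁ hh₀)).supp k hw
    obtain ⟨x, hx⟩ : ∃ x, G h₀ x ≠ 0 := by
      by_contra h0
      push Not at h0
      have := hb₁ h₀ hh₀
      simp only [hG] at h0
      simp only [h0, mul_zero, sum_const_zero, norm_zero] at this
      linarith
    refine freq_zero (hGc h₀ (hH₁ hh₀)) hx hw fun r => hGinv h₀ (hH₁ hh₀) _
      (Submodule.smul_mem _ _ (FA_anti (by omega) (e_mem_F k))) (fun l hl => ?_) x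
    rw [ND.smul_apply, e_apply, if_neg, smul_zero]
    rintro rfl
    exact hl hk
  -- vector characters on the quotient
  have hkeep := keep_of_coId hκ
  obtain ⟨J, B, hJ, hB, hB1⟩ := hC₁ (7 * m) (by linarith) _ (N.quo _ hkeep) (d + 1)
    (fun k => η k.1) ((Nat.cast_le.2 (Fintype.card_subtype_le _)).trans (hd.trans (by linarith)))
    ((hN.quo hkeep).mono hm7) (fun k hk => (hGc h₀ (hH₁ hh₀)).supp k.1 hk)
    fun k => (hGc h₀ (hH₁ hh₀)).η_le k.1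
  obtain ⟨hq1, hq2, hq3⟩ := hC m (Fintype.card ιs) J K hm hιs' hJ hK7
  have hBp : ∀ j, N.LipFn S (Real.exp ((7 * m) ^ C₁) * 1) fun x => B j (qpr hkeep ℝ x) := fun j =>
    (fHom_qpr hkeep).lipFn (Real.exp_pos _).le (hB j).toLipFn
  have hfn : ∀ Z : N.L, (N.quo _ hkeep).fn (fun k => η k.1) (qpr hkeep ℝ Z) = N.fn η Z := by
    intro Z
    rw [fn_apply, fn_apply, ← sum_keep (fun k => ¬ κ k) (fun k => (η k : ℝ) * Z k)
      fun l hl => by rw [hηκ l (not_not.1 hl)]; simp]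
    rfl
  have hqP : ∀ h ∈ H, ∀ n : ℤ, qpr hkeep ℝ (N.evZ (fun _ => n) (P h)) =
      qpr hkeep ℝ (N.evZ (fun _ => n) (P h₀)) := by
    intro h hh n
    refine (qpr_eq_iff hkeep).2 fun k hk => ?_
    change MvPolynomial.aeval _ (P h k) = MvPolynomial.aeval _ (P h₀ k)
    rw [(hSt h hh).2.2.2.1 h₀ (hH₁ hh₀) k hk]
  have hJex : ∀ h ∈ H₁, ∃ j ∈ (univ : Finset (Fin J)), δ ≤ J * ‖∑ n ∈ Ico (0 : ℤ) L,
      a h n * B j (qpr hkeep ℝ (N.evZ (fun _ => n) (P h₀))) *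
        (G h (N.evZ (fun _ => n) (P h)) * conj (B j (qpr hkeep ℝ (N.evZ (fun _ => n) (P h)))))‖ := by
    intro h hh
    obtain ⟨j, hj⟩ := exists_term (fun j : Fin J => ∑ n ∈ Ico (0 : ℤ) L,
      a h n * B j (qpr hkeep ℝ (N.evZ (fun _ => n) (P h₀))) *
        (G h (N.evZ (fun _ => n) (P h)) * conj (B j (qpr hkeep ℝ (N.evZ (fun _ => n) (P h))))))
      hδ0 (by
        refine (hb₁ h hh).trans (le_of_eq ?_)
        rw [sum_comm]
        congr 1
        refine sum_congr rfl fun n _ => ?_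
        rw [hqP h (hH₁ hh) n]
        have h1 : ∑ j, B j (qpr hkeep ℝ (N.evZ (fun _ => n) (P h₀))) *
            conj (B j (qpr hkeep ℝ (N.evZ (fun _ => n) (P h₀)))) = 1 := by
          simp only [Complex.mul_conj, Complex.normSq_eq_norm_sq]
          exact_mod_cast hB1 _
        calc _ = a h n * G h (N.evZ (fun _ => n) (P h)) * 1 := by rw [mul_one]
          _ = _ := by
            rw [← h1, mul_sum]
            exact sum_congr rfl fun j _ => by ring)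
    exact ⟨j, mem_univ _, hj⟩
  have hJne : (univ : Finset (Fin J)).Nonempty := by
    obtain ⟨j, -, -⟩ := hJex h₀ hh₀
    exact ⟨j, mem_univ _⟩
  obtain ⟨j, -, H₂, hH₂, hc₂, hb₂⟩ := pigeon H₁ univ hJne _ hJex
  have hJ0 : (0 : ℝ) < J := by
    have := card_pos.2 hJne
    rw [card_univ, Fintype.card_fin] at this
    exact_mod_cast this
  refine ⟨fun n => B j (qpr hkeep ℝ (N.evZ (fun _ => n) (P h₀))), H₂,
    fun h x => G h x * conj (B j (qpr hkeep ℝ x)), fun n => (hB j).bdd _, hH₂.trans hH₁, ?_,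
    fun h hh => ?_⟩
  · rw [card_univ, Fintype.card_fin] at hc₂
    rw [Tor.card_cube] at hc₁
    push_cast at hc₁
    have h1 : (#H : ℝ) ≤ Real.exp (m ^ (C + 1)) * #H₂ :=
      calc (#H : ℝ) ≤ (2 * (K : ℝ) + 1) ^ Fintype.card ιs * (J * #H₂) :=
            hc₁.trans (mul_le_mul_of_nonneg_left hc₂ (by positivity))
        _ ≤ _ := by
            rw [← mul_assoc]
            exact mul_le_mul_of_nonneg_right (hq2.trans (Real.exp_le_exp.2 hmC)) (Nat.cast_nonneg _)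
    rw [Real.exp_neg, inv_mul_le_iff₀ (Real.exp_pos _)]
    exact h1
  have hh1 := hH₂ hh
  have hh0 := hH₁ hh1
  obtain ⟨-, -, h3, h4, h5, -⟩ := hSt h hh0
  refine ⟨⟨((hGc h hh0).toLipFn.mulConj (hBp j)).mono (hq1.trans (Real.exp_le_exp.2 hmC)),
    fun Z hZ x => ?_⟩, fun Z hZ hZκ x => ?_, h3, fun h' hh' => h4 h' (hH₁ (hH₂ hh')),
    fun n => ?_, ?_⟩
  · beta_reduce
    rw [(hGc h hh0).vert Z hZ, Bch.map_star, (hB j).vert _ (qpr_mem_FA hkeep hZ), hfn, map_mul,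
      ← Tor.e_neg]
    linear_combination (G h x * conj (B j (qpr hkeep ℝ x))) * Tor.e_mul_e_neg (N.fn η Z)
  · have hZ0 : qpr hkeep ℝ Z = 0 := pts_ext fun k => hZκ k.1 k.2
    beta_reduce
    rw [hGinv h hh0 Z hZ hZκ, Bch.map_star, hZ0, Bch.star_of_lie_eq_zero S (by simp), zero_add]
  · rw [norm_mul]; exact mul_le_one₀ (h5 n) (norm_nonneg _) ((hB j).bdd _)
  · have h6' := hb₂ h hh
    unfold Cor sq
    rw [← div_le_iff₀' hJ0] at h6'
    refine le_trans ?_ h6'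
    rw [hδ, div_div, le_div_iff₀ (by positivity), Real.exp_neg, Real.exp_neg m, mul_right_comm]
    refine mul_le_mul_of_nonneg_right ?_ hLr.le
    rw [inv_mul_le_iff₀ (Real.exp_pos _), ← div_eq_mul_inv, le_div_iff₀ (Real.exp_pos _)]
    refine le_trans (le_of_eq (by ring)) (hq3.trans (Real.exp_le_exp.2 hmC))

theorem main (S t j : ℕ) : ∃ C : ℕ, 1 ≤ C ∧ ∀ (m : ℝ), 2 ≤ m → ∀ (ι : Type) [Fintype ι]
    (N : ND ι) (κ : ι → Prop) (L : ℕ) (H : Finset ℤ) (F : ℤ → N.L → ℂ) (P : ℤ → N.PS Unit)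
    (a : ℤ → ℤ → ℂ), (Fintype.card ι : ℝ) ≤ m → N.Good S (Real.exp m) → CoId N κ → 0 < L →
    St N κ S t (t + j) m L H F P a → Red t (m ^ C) L H a := by
  induction j with
  | zero =>
    refine ⟨1, le_rfl, fun m hm ι _ N κ L H F P a hd hN _ _ hSt => ?_⟩
    rw [pow_one]
    refine ⟨fun _ => 1, H, fun _ => by simp, subset_rfl, ?_, fun h hh => ?_⟩
    · exact mul_le_of_le_one_left (Nat.cast_nonneg _) (Real.exp_le_one_iff.2 (by linarith))
    · obtain ⟨h1, -, h3, -, -, h6⟩ := hSt h hh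
      refine ⟨sq N (F h) (P h), h1.isNil hd hN h3, by simpa only [mul_one] using h6⟩
  | succ j ih =>
    obtain ⟨C₁, hC₁, h₁⟩ := step S t
    obtain ⟨C₂, hC₂, h₂⟩ := ih
    refine ⟨C₁ + C₁ * C₂ + 1, by omega, fun m hm ι _ N κ L H F P a hd hN hκ hL hSt => ?_⟩
    rcases H.eq_empty_or_nonempty with rfl | hH
    · exact ⟨fun _ => 1, ∅, fun _ => by simp, subset_rfl, by simp, fun _ h => by simp at h⟩
    obtain ⟨b, H', F', hb, hH', hc, hSt'⟩ :=
      h₁ m hm ι N κ (t + j) L H F P a hd hN hκ hL (Nat.le_add_right _ _) hH hSt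
    have hm1 : m ≤ m ^ C₁ := le_self_pow₀ (by linarith) (by omega)
    have := h₂ (m ^ C₁) (hm.trans hm1) ι N κ L H' F' P _ (hd.trans hm1)
      (hN.mono (Real.exp_le_exp.2 hm1)) hκ hL hSt'
    rw [← pow_mul] at this
    exact red_comp hb hH' hc this (Qp.pw_add_pw hm _ _) (Qp.pw_mono hm (by omega))

end FibC91

theorem fibCStmt : FibCStmt := by
  intro S t
  obtain ⟨C, hC, h⟩ := FibC91.main S t S
  refine ⟨C, hC, fun m hm ι _ N κ L H F P a hd hN hκ hL hyp => ?_⟩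
  refine h m hm ι N κ L H F P a hd hN hκ hL fun x hx => ?_
  obtain ⟨h1, h2⟩ := hyp x hx
  exact ⟨(h1.nfn hN.wt_le).mono_deg (Nat.le_add_left _ _), h2⟩

end Crest.Agent.T49.GI
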