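import Crest.Agent.T49.GiDef_40
import Crest.Agent.T49.NilSt_61

/-!
# Row 49 (helper32): the Goursat step of the inverse theorem
-/

set_option autoImplicit false

noncomputable section

namespace Crest.Agent.T49.GI

open Finset Crest.Agent.T49.Nil Crest.Agent.T49.Nil.ND
open Crest.Agent.T49.Bch (star expAd)

namespace Gour32

variable {ι : Type} [Fintype ι] {g : ND ι}

theorem smE_mono {T m m' : ℝ} {x : g.L} (h : SmE g T m x) (hm : m ≤ m') : SmE g T m' x :=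
  fun k => (h k).trans (Real.exp_le_exp.2 hm)

theorem smE_neg {T m : ℝ} {x : g.L} (h : SmE g T m x) : SmE g T m (-x) := fun k => by
  simpa using h k

theorem rt_mono {m m' : ℝ} {x : g.L} (h : Rt g m x) (hm : m ≤ m') : Rt g m' x := by
  obtain ⟨q, h1, h2, h3⟩ := h
  exact ⟨q, h1, h2.trans (Real.exp_le_exp.2 hm), h3⟩

theorem rt_neg {m : ℝ} {x : g.L} (h : Rt g m x) : Rt g m (-x) := by
  obtain ⟨q, h1, h2, h3⟩ := h
  exact ⟨q, h1, h2, Gon.IsDen.neg h3⟩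

theorem rt_int {m : ℝ} (hm : 0 ≤ m) {x : g.L} (h : IsInt x) : Rt g m x :=
  ⟨1, le_rfl, by simpa using hm, den_iff.2 fun k => by simpa using h k⟩

theorem gr_mono {m m' : ℝ} {U : Submodule ℝ g.L} (h : GR g m U) (hm : m ≤ m') : GR g m' U :=
  ⟨h.gr, h.rat.mono (Real.exp_le_exp.2 hm)⟩

theorem near_mono {S : ℕ} {T m m' : ℝ} {U : Submodule ℝ g.L} {x : g.L} (h : Near g S T m U x)
    (hm : m ≤ m') : Near g S T m' U x := by
  obtain ⟨ε, y, γ, h1, h2, h3, h4⟩ := h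
  exact ⟨ε, y, γ, smE_mono h1 hm, h2, rt_mono h3 hm, h4⟩

theorem gd_mono {S : ℕ} {m m' : ℝ} (h : Gd g S m) (hm : m ≤ m') : Gd g S m' :=
  ⟨⟨h.wt_le, h.dim.trans hm, fun i j k => (h.c_le i j k).trans (Real.exp_le_exp.2 hm)⟩, h.gr⟩

theorem gd_pw {S : ℕ} {m m' : ℝ} (h : Gd g S m) (J : Type) [Fintype J] [DecidableEq J]
    (hm : m ≤ m') (hJ : Fintype.card J * m ≤ m') : Gd (pw g J) S m' := by
  refine ⟨⟨fun k => h.wt_le _, ?_, fun p q r => ?_⟩, h.gr.pw J⟩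
  · rw [Fintype.card_prod, Nat.cast_mul]
    exact (mul_le_mul_of_nonneg_left h.dim (Nat.cast_nonneg _)).trans hJ
  · rw [pw_c]
    split_ifs
    · exact (h.c_le _ _ _).trans (Real.exp_le_exp.2 hm)
    · simpa using (Real.exp_pos m').le

theorem smE_pr {J : Type} [Fintype J] [DecidableEq J] {T m : ℝ} {x : (pw g J).L}
    (h : SmE (pw g J) T m x) (a : J) : SmE g T m (pr g ℝ a x) := fun k => h (a, k)

theorem rt_pr {J : Type} [Fintype J] [DecidableEq J] {m : ℝ} {x : (pw g J).L}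
    (h : Rt (pw g J) m x) (a : J) : Rt g m (pr g ℝ a x) := by
  obtain ⟨q, h1, h2, h3⟩ := h
  exact ⟨q, h1, h2, den_iff.2 fun k => den_iff.1 h3 (a, k)⟩

/-- selection of coordinates -/
def sel (g : ND ι) {J J' : Type} [Fintype J] [DecidableEq J] [Fintype J'] [DecidableEq J']
    (r : J' → J) : (pw g J).L →ₗ⁅ℝ⁆ (pw g J').L := toPw fun j => pr g ℝ (r j)

theorem pr_sel {J J' : Type} [Fintype J] [DecidableEq J] [Fintype J'] [DecidableEq J']
    (r : J' → J) (j : J') (x : (pw g J).L) : pr g ℝ j (sel g r x) = pr g ℝ (r j) x := rfl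

theorem gMap_sel {J J' : Type} [Fintype J] [DecidableEq J] [Fintype J'] [DecidableEq J']
    (r : J' → J) {m : ℝ} (hm : 0 ≤ m) : GMap (pw g J) (pw g J') m (sel g r).toLinearMap := by
  classical
  have key : ∀ (i : J × ι) (k : J' × ι),
      (sel g r).toLinearMap ((pw g J).e i) k = if (r k.1, k.2) = i then 1 else 0 :=
    fun i k => e_apply (N := pw g J) i (r k.1, k.2)
  refine ⟨fun i k => ?_, fun i k hk => ?_⟩
  · rw [key]
    split_ifs
    · exact ⟨1, by simp, by simpa using hm⟩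
    · exact ⟨0, by simp, by simpa using (Real.exp_pos m).le⟩
  · rw [key] at hk
    split_ifs at hk with h
    · rw [← h]; rfl
    · exact absurd rfl hk

/-- the free coordinate that carries the `j`-th entry of the point number `(a, b)` -/
def rr (i : Fin 4) (p : Fin 2 × Bool) (j : Fin 4) : Fin 2 × Bool × Fin 4 :=
  if j = i then (0, p.2, i) else if j = oth i p.1 then (p.1, p.2, j) else (p.1, false, j)

/-- both points through one application of `PULL` -/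
theorem pair_rep {S : ℕ} {T m : ℝ} (𝔥 : LieSubalgebra ℝ (pw g (Fin 4)).L) (i : Fin 4)
    (x : (pw g (Fin 2 × Bool × Fin 4)).L)
    (h : Near (pw g (Fin 2 × Bool × Fin 4)) S T m
      (⨅ p : Fin 2 × Bool, 𝔥.toSubmodule.comap (sel g (rr i p)).toLinearMap) x) :
    ∃ e w γ e' w' γ' : g.L, SmE g T m e ∧ SmE g T m e' ∧ Rt g m γ ∧ Rt g m γ' ∧ w ∈ pH 𝔥 i ∧
      w' ∈ pH 𝔥 i ∧ w - w' ∈ pN 𝔥 i ∧ pr g ℝ (0, false, i) x = star S e (star S w γ) ∧
      pr g ℝ (0, true, i) x = star S e' (star S w' γ') := by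
  obtain ⟨ε, y, γ, h1, h2, h3, h4⟩ := h
  have hy : ∀ p, sel g (rr i p) y ∈ 𝔥 := fun p => (Submodule.mem_iInf _).1 h2 p
  have hi : ∀ p : Fin 2 × Bool, pr g ℝ i (sel g (rr i p) y) = pr g ℝ (0, p.2, i) y := fun p => by
    rw [pr_sel, rr, if_pos rfl]
  have hA : ∀ a, pr g ℝ (0, false, i) y - pr g ℝ (0, true, i) y ∈ pA 𝔥 i (oth i a) := fun a => by
    refine ⟨sel g (rr i (a, false)) y - sel g (rr i (a, true)) y, ⟨sub_mem (hy _) (hy _), ?_⟩, ?_⟩
    · refine (Submodule.mem_iInf _).2 fun j => ?_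
      change pr g ℝ j.1 _ = 0
      rw [map_sub, pr_sel, pr_sel, rr, rr, if_neg j.2.1, if_neg j.2.1, if_neg j.2.2, if_neg j.2.2,
        sub_self]
    · change pr g ℝ i _ = _
      rw [map_sub, hi, hi]
  refine ⟨_, _, _, _, _, _, smE_pr h1 (0, false, i), smE_pr h1 (0, true, i), rt_pr h3 (0, false, i),
    rt_pr h3 (0, true, i), ⟨_, hy (0, false), hi _⟩, ⟨_, hy (0, true), hi _⟩, ⟨hA 0, hA 1⟩, ?_, ?_⟩
  · rw [h4, Bch.map_star, Bch.map_star]
  · rw [h4, Bch.map_star, Bch.map_star]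

/-- congruence modulo an ideal of a subalgebra -/
theorem cong {L : Type*} [LieRing L] [LieAlgebra ℝ L] (S : ℕ) (H : LieSubalgebra ℝ L)
    (Nn : Submodule ℝ L) (hN : ∀ x ∈ H, ∀ y ∈ Nn, ⁅x, y⁆ ∈ Nn) {x y x' y' : L} (hx : x ∈ H)
    (hy : y ∈ H) (hx' : x' ∈ H) (hy' : y' ∈ H) (h1 : x' - x ∈ Nn) (h2 : y' - y ∈ Nn) :
    star S x' y' - star S x y ∈ Nn := by
  have := St.star_cong S H.toSubmodule Nn Nn (fun _ ha _ hb => H.lie_mem ha hb) hN le_rfl
    hx hy hx' hy' h1 h2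
  simpa using add_mem this (add_mem h1 h2)

end Gour32

open Gour32

/-- **Goursat** -/
theorem goursatStmt (hClos : ClosStmt) (hPull : PullStmt) (hUniq : UniqStmt) (hFund : FundStmt)
    (hPetal : PetalStmt) : GoursatStmt := by
  intro S
  obtain ⟨Cc, hCc, hClos⟩ := hClos S
  obtain ⟨C1, hC1, hPull⟩ := hPull S
  obtain ⟨Cu, hCu, hUniq⟩ := hUniq S
  obtain ⟨Cf, hCf, hFund⟩ := hFund S
  obtain ⟨Cp, hCp, hPetal⟩ := hPetal
  refine ⟨5 * C1 * Cp * Cc * Cf * Cc * Cc * Cu, Nat.succ_le_of_lt (by positivity), ?_⟩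
  intro m hm ι _ g 𝔥 T i X X' u u' y ε' γ' hg hT h𝔥 hX hX' hu hu' hXX hy hyn hε' hγ' huy
  have : Bch.Nil S g.L := ND.nil hg.wt_le ℝ
  have up : ∀ {x : ℝ} {c : ℕ}, 2 ≤ x → 1 ≤ c → x ≤ x ^ c := fun hx hc =>
    le_self_pow₀ (by linarith) (by omega)
  -- the chain of parameters
  obtain ⟨m1, hm1⟩ : ∃ x, x = m ^ 5 := ⟨_, rfl⟩
  obtain ⟨m2, hm2⟩ : ∃ x, x = m1 ^ C1 := ⟨_, rfl⟩
  obtain ⟨m3, hm3⟩ : ∃ x, x = m2 ^ Cp := ⟨_, rfl⟩
  obtain ⟨m4, hm4⟩ : ∃ x, x = m3 ^ Cc := ⟨_, rfl⟩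
  obtain ⟨m5, hm5⟩ : ∃ x, x = m4 ^ Cf := ⟨_, rfl⟩
  obtain ⟨m6, hm6⟩ : ∃ x, x = m5 ^ Cc := ⟨_, rfl⟩
  obtain ⟨m7, hm7⟩ : ∃ x, x = m6 ^ Cc := ⟨_, rfl⟩
  have e8 : m ^ (5 * C1 * Cp * Cc * Cf * Cc * Cc * Cu) = m7 ^ Cu := by
    simp only [hm7, hm6, hm5, hm4, hm3, hm2, hm1, pow_mul]
  rw [e8] at hT ⊢
  have h16 : 16 * m ≤ m1 := by
    have : (2 : ℝ) ^ 4 ≤ m ^ 4 := pow_le_pow_left₀ (by norm_num) hm 4
    rw [hm1, pow_succ]
    exact mul_le_mul_of_nonneg_right (by linarith) (by linarith)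
  have a1 : m ≤ m1 := by linarith
  have a2 : m1 ≤ m2 := hm2 ▸ up (by linarith) hC1
  have a3 : m2 ≤ m3 := hm3 ▸ up (by linarith) hCp
  have a4 : m3 ≤ m4 := hm4 ▸ up (by linarith) hCc
  have a5 : m4 ≤ m5 := hm5 ▸ up (by linarith) hCf
  have a6 : m5 ≤ m6 := hm6 ▸ up (by linarith) hCc
  have a7 : m6 ≤ m7 := hm7 ▸ up (by linarith) hCc
  have a8 : m7 ≤ m7 ^ Cu := up (by linarith) hCu
  have hT1 : 1 ≤ T := le_trans (Real.one_le_exp (by linarith)) hT
  -- PULL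
  let x0 : (pw g (Fin 2 × Bool × Fin 4)).L :=
    tup fun p => pr g ℝ p.2.2 (cond p.2.1 (X' p.1) (X p.1))
  have hx0 : ∀ p : Fin 2 × Bool, sel g (rr i p) x0 = cond p.2 (X' p.1) (X p.1) := by
    rintro ⟨a, b⟩
    refine pw_ext fun j => ?_
    rw [pr_sel, pr_tup, rr]
    split_ifs with h1 h2
    · subst h1
      cases b
      · exact (hu 0).trans (hu a).symm
      · exact (hu' 0).trans (hu' a).symm
    · rfl
    · cases b
      · rfl
      · exact hXX a j h1 h2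
  have hP := hPull m1 (by linarith) _ _ (Fin 2 × Bool) (pw g (Fin 2 × Bool × Fin 4)) (pw g (Fin 4))
    (fun p => sel g (rr i p)) (fun _ => 𝔥) T x0
    (gd_pw hg _ a1 (by simpa using h16))
    (gd_pw hg _ a1 (by simpa using (by linarith : (4 : ℝ) * m ≤ m1)))
    (by simpa using (by linarith : (4 : ℝ) ≤ m1))
    (le_trans (Real.exp_le_exp.2 (by rw [← hm2]; linarith)) hT)
    (fun p => gMap_sel _ (by linarith)) (fun _ => gr_mono h𝔥 a1)
    (fun p => by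
      rw [hx0]
      obtain ⟨a, b⟩ := p
      cases b
      · exact near_mono (hX a) a1
      · exact near_mono (hX' a) a1)
  rw [← hm2] at hP
  obtain ⟨e1, w, g1, e2, w', g2, he1, he2, hg1, hg2, hw, hw', hww, hU, hU'⟩ := pair_rep 𝔥 i x0 hP
  replace hU : u = star S e1 (star S w g1) := (hu 0).symm.trans hU
  replace hU' : u' = star S e2 (star S w' g2) := (hu' 0).symm.trans hU'
  -- the petal structure
  have hTri := hPetal m hm ι g 0 𝔥 hg.dim h𝔥 (fun x _ => by simp [pwη, fn_apply]) i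
  have ap : m ^ Cp ≤ m3 := hm3 ▸ pow_le_pow_left₀ (by linarith) (by linarith) _
  -- UNIQ
  obtain ⟨c3s, c3r, -, -⟩ := hClos m3 (by linarith) ι g (gd_mono hg (by linarith))
  rw [← hm4] at c3s c3r
  have he : SmE g T m4 (star S (-ε') e2) :=
    c3s T _ _ hT1 (smE_neg (smE_mono hε' (by linarith))) (smE_mono he2 a3)
  have hr : Rt g m4 (star S g2 (-γ')) := c3r _ _ (rt_mono hg2 a3) (rt_neg (rt_mono hγ' (by linarith)))
  have hyw : y = star S (star S (-ε') e2) (star S w' (star S g2 (-γ'))) := by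
    have : star S ε' (star S y γ') = star S e2 (star S w' g2) := huy.symm.trans hU'
    rw [Bch.star_assoc, ← Bch.star_assoc S w', ← Bch.star_assoc S e2, ← this, Bch.star_assoc S ε',
      Bch.neg_star_star, Bch.star_star_neg]
  generalize star S (-ε') e2 = e at he hyw
  generalize star S g2 (-γ') = r at hr hyw
  obtain ⟨heH, hrH⟩ := hUniq m4 (by linarith) ι g (pH 𝔥 i) T y w' e r (gd_mono hg (by linarith))
    (le_trans (Real.exp_le_exp.2 (pow_le_pow_left₀ (by linarith) (by linarith) _)) hT)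
    (gr_mono hTri.grH (by linarith)) hy hw' he hr hyw
  -- the difference lies in `pN`
  have hwr := Bch.star_mem S (pH 𝔥 i) hw hrH
  have hwr' := Bch.star_mem S (pH 𝔥 i) hw' hrH
  have hŵ := Bch.star_mem S (pH 𝔥 i) heH hwr
  have d1 : star S e (star S w r) - y ∈ pN 𝔥 i := by
    conv => enter [2, 2]; rw [hyw]
    exact cong S _ _ hTri.lieN heH hwr' heH hwr (by simp)
      (cong S _ _ hTri.lieN hw' hrH hw hrH hww (by simp))
  have d2 : star S (-y) (star S e (star S w r)) ∈ pN 𝔥 i := by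
    have := cong S _ _ hTri.lieN (neg_mem hy) hy (neg_mem hy) hŵ (by simp) d1
    rwa [Bch.neg_star_self, sub_zero] at this
  -- FUND in `pN`
  let 𝔫 : LieSubalgebra ℝ g.L :=
    { toSubmodule := pN 𝔥 i
      lie_mem' := fun ha hb => hTri.lieN _ (hTri.NH ha) _ hb }
  obtain ⟨u0, hu0, γ0, -, hu0n, hγ0, hf⟩ := hFund m4 (by linarith) ι g 𝔫 _
    (gd_mono hg (by linarith)).toFd (gr_mono hTri.grN (by linarith)).rat d2
  rw [← hm5] at hu0n
  obtain ⟨c5s, c5r, c5n, -⟩ := hClos m5 (by linarith) ι g (gd_mono hg (by linarith))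
  rw [← hm6] at c5s c5r c5n
  obtain ⟨-, c6r, -, -⟩ := hClos m6 (by linarith) ι g (gd_mono hg (by linarith))
  rw [← hm7] at c6r
  refine ⟨star S e1 (-e), expAd S y u0, star S γ0 (star S (-r) g1), ?_, ?_, ?_, ?_, ?_⟩
  · exact smE_mono (c5s T _ _ hT1 (smE_mono he1 (by linarith)) (smE_neg (smE_mono he a5)))
      (by linarith)
  · exact rt_mono (c6r _ _ (rt_int (by linarith) hγ0)
      (c5r _ _ (rt_neg (rt_mono hr a5)) (rt_mono hg1 (by linarith)))) a8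
  · exact Bch.Ad_mem S (pN 𝔥 i) (hTri.lieN y hy) hu0
  · exact ((c5n y u0 (hyn.trans (Real.exp_le_exp.2 (by linarith))) hu0n).2).trans
      (Real.exp_le_exp.2 (by linarith))
  · have h1 : star S e (star S w r) = star S y (star S u0 γ0) := by
      rw [← hf, Bch.star_neg_star]
    have h2 : star S (expAd S y u0) y = star S y u0 := (Bch.star_eq_Ad_star S y u0).symm
    rw [h2, Bch.star_assoc S y, ← Bch.star_assoc S u0, ← Bch.star_assoc S y, ← h1, hU]
    simp only [Bch.star_assoc, Bch.neg_star_star, Bch.star_neg_star]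

end Crest.Agent.T49.GI
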