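import Crest.Agent.T49.GiDef_40
import Crest.Agent.T49.NilBox_73
import Crest.Agent.T49.NilSt_61
import Crest.Agent.T49.Qp_85

/-!
# Row 49 (helper85): `LT` in terms of symbols
-/

set_option autoImplicit false

noncomputable section

namespace Crest.Agent.T49.GI

open Finset Crest.Agent.T49.Nil Crest.Agent.T49.Nil.ND
open Crest.Agent.T49.Bch (star)

namespace LtN85

variable {ι : Type} [Fintype ι] {N g : ND ι} {σ : Type}

theorem hp_pos {n : ℕ} (x : N.L) {k : ι} (h : N.wt k = n) : hp N n x k = x k := Gon.prj_pos x h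
theorem hp_neg {n : ℕ} (x : N.L) {k : ι} (h : N.wt k ≠ n) : hp N n x k = 0 := Gon.prj_neg x h

theorem hp_mem {H : ℕ → Submodule ℝ N.L} (hH : N.GrSub H) {i : ℕ} {z : N.L} (hz : z ∈ H i) :
    hp N i z ∈ H i := by
  have h1 : z - hp N i z ∈ N.F (i + 1) := fun k hk => by
    rw [ND.sub_apply]
    by_cases h : N.wt k = i
    · rw [hp_pos _ h, sub_self]
    · rw [hp_neg _ h, hH.le i hz k (by omega), sub_zero]
  simpa using sub_mem hz (hH.ge i h1)

theorem hp_hp (i j : ℕ) (z : N.L) : hp N j (hp N i z) = if j = i then hp N i z else 0 := by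
  ext k
  by_cases h : N.wt k = j
  · rw [hp_pos _ h]
    split_ifs with h'
    · rfl
    · exact hp_neg _ (by omega)
  · rw [hp_neg _ h]
    split_ifs with h'
    · exact (hp_neg _ (by omega)).symm
    · rfl

theorem sum_hp (x : N.L) : ∑ n ∈ univ.image N.wt, hp N n x = x :=
  Gon.sum_prj_wt N.wt _ (fun i => mem_image_of_mem _ (mem_univ i)) x

/-- the identity of coordinates -/
def tg (N g : ND ι) : N.L ≃ₗ[ℝ] g.L := N.co.trans g.co.symm

@[simp] theorem tg_apply (x : N.L) (k : ι) : tg N g x k = x k := rfl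

theorem tg_lie (h : GrOf N g) (i j : ℕ) (x y : N.L) :
    ⁅tg N g (hp N i x), tg N g (hp N j y)⁆ = tg N g (hp N (i + j) ⁅hp N i x, hp N j y⁆) := by
  ext k
  rw [tg_apply, lie_apply]
  by_cases hk : N.wt k = i + j
  · rw [hp_pos _ hk, lie_apply]
    refine sum_congr rfl fun a _ => sum_congr rfl fun b _ => ?_
    rw [tg_apply, tg_apply, h.2]
    by_cases ha : N.wt a = i
    · by_cases hb : N.wt b = j
      · rw [if_pos (by omega)]
      · rw [hp_neg _ hb, mul_zero, mul_zero]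
    · rw [hp_neg _ ha]; simp
  · rw [hp_neg _ hk]
    refine sum_eq_zero fun a _ => sum_eq_zero fun b _ => ?_
    rw [tg_apply, tg_apply, h.2]
    by_cases ha : N.wt a = i
    · by_cases hb : N.wt b = j
      · rw [if_neg (by omega)]; simp
      · rw [hp_neg _ hb, mul_zero]
    · rw [hp_neg _ ha]; simp

/-- the graded subspace of `N.L` attached to a family -/
def grS (H : ℕ → Submodule ℝ N.L) : Submodule ℝ N.L := ⨅ i, (H i).comap (hp N i)

theorem mem_grS {H : ℕ → Submodule ℝ N.L} {x : N.L} : x ∈ grS H ↔ ∀ i, hp N i x ∈ H i := by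
  simp [grS]

theorem hp_mem_grS {H : ℕ → Submodule ℝ N.L} (hH : N.GrSub H) {i : ℕ} {z : N.L} (hz : z ∈ H i) :
    hp N i z ∈ grS H := mem_grS.2 fun j => by
  rw [hp_hp]
  split_ifs with h
  · rw [h]; exact hp_mem hH hz
  · exact zero_mem _

theorem grS_eq {H : ℕ → Submodule ℝ N.L} (hH : N.GrSub H) :
    grS H = ⨆ i, (H i).map (hp N i) := by
  refine le_antisymm (fun x hx => ?_) (iSup_le fun i => ?_)
  · rw [← sum_hp x]
    refine Submodule.sum_mem _ fun n _ => Submodule.mem_iSup_of_mem n ⟨_, mem_grS.1 hx n, ?_⟩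
    rw [hp_hp, if_pos rfl]
  · rintro _ ⟨z, hz, rfl⟩
    exact hp_mem_grS hH hz

/-- the graded subalgebra attached to a family -/
def grA (h : GrOf N g) {H : ℕ → Submodule ℝ N.L} (hH : N.GrSub H) : LieSubalgebra ℝ g.L where
  toSubmodule := (grS H).map (tg N g).toLinearMap
  lie_mem' := by
    rintro _ _ ⟨x, hx, rfl⟩ ⟨y, hy, rfl⟩
    change ⁅tg N g x, tg N g y⁆ ∈ (grS H).map (tg N g).toLinearMap
    rw [← sum_hp x, ← sum_hp y, map_sum, map_sum, sum_lie_sum]
    refine Submodule.sum_mem _ fun i _ => Submodule.sum_mem _ fun j _ => ?_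
    rw [tg_lie h]
    exact ⟨_, hp_mem_grS hH (hH.lie i j _ (mem_grS.1 hx i) _ (mem_grS.1 hy j)), rfl⟩

theorem mem_grA (h : GrOf N g) {H : ℕ → Submodule ℝ N.L} (hH : N.GrSub H) {x : N.L} :
    tg N g x ∈ grA h hH ↔ x ∈ grS H :=
  ⟨fun ⟨_, hy, e⟩ => (tg N g).injective e ▸ hy, fun hx => ⟨x, hx, rfl⟩⟩

theorem gr_grA (h : GrOf N g) {H : ℕ → Submodule ℝ N.L} (hH : N.GrSub H) {m : ℝ}
    (hR : ∀ i, N.RatS (Real.exp m) (H i)) : GR g m (grA h hH).toSubmodule where
  gr := by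
    rintro n _ ⟨x, hx, rfl⟩
    have h0 := hp_mem_grS hH (mem_grS.1 hx n)
    rw [hp_hp, if_pos rfl] at h0
    refine ⟨hp N n x, h0, ?_⟩
    have : g.wt = N.wt := funext h.1
    rw [this]; rfl
  rat := by
    have h1 : Gon.IsRat (ι := ι) (Real.exp m) (grS H) := by
      rw [grS_eq hH]
      exact Gon.IsRat.iSup fun i => Gon.IsRat.map_prj (hR i) (Real.exp_pos m).le _
    have h2 : (grA h hH).toSubmodule = grS H := by
      ext x
      exact mem_grA h hH (x := x)
    rw [h2]; exact h1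

theorem fn_grA (h : GrOf N g) {H : ℕ → Submodule ℝ N.L} (hH : N.GrSub H) {s : ℕ} {η : ι → ℤ}
    (hη : ∀ k, N.wt k ≠ s → η k = 0) (h0 : ∀ x ∈ H s, N.fn η x = 0) :
    ∀ x ∈ grA h hH, g.fn η x = 0 := by
  rintro _ ⟨x, hx, rfl⟩
  rw [← h0 _ (mem_grS.1 hx s), fn_apply, fn_apply]
  refine sum_congr rfl fun k _ => ?_
  by_cases hk : N.wt k = s
  · rw [hp_pos _ hk]; rfl
  · simp [hη k hk]

open MvPolynomial

/-- the symbol as a linear map -/
def syL (N g : ND ι) (t : σ → ℝ) : N.PS σ →ₗ[ℝ] g.L where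
  toFun := symAt N g t
  map_add' P Q := by ext k; simp [symAt]
  map_smul' r P := by ext k; simp [symAt]

theorem syL_mono (t : σ → ℝ) (α : σ →₀ ℕ) (x : N.L) :
    syL N g t (N.mono α x) = (α.prod fun v n => t v ^ n) • tg N g (hp N α.degree x) := by
  ext k
  change eval t (homogeneousComponent (N.wt k) (monomial α (x k))) = _
  rw [homogeneousComponent_of_mem (isHomogeneous_monomial (x k) rfl), ND.smul_apply, tg_apply]
  split_ifs with h
  · rw [hp_pos _ h, eval_monomial, smul_eq_mul, mul_comm]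
  · rw [hp_neg _ h]; simp

theorem hc_mul {a b n : ℕ} {p q : MvPolynomial σ ℝ} (hp : p ∈ degLt σ (a + 1))
    (hq : q ∈ degLt σ (b + 1)) (h : a + b ≤ n) :
    homogeneousComponent n (p * q) =
      if a + b = n then homogeneousComponent a p * homogeneousComponent b q else 0 := by
  classical
  ext β
  rw [coeff_homogeneousComponent]
  split_ifs with h1 h2 h2
  · rw [coeff_mul, coeff_mul]
    refine sum_congr rfl fun x hx => ?_
    rw [coeff_homogeneousComponent, coeff_homogeneousComponent]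
    rw [← mem_antidiagonal.1 hx, map_add] at h1
    by_cases h3 : x.1.degree = a
    · rw [if_pos h3, if_pos (by omega)]
    · rw [if_neg h3, zero_mul]
      by_cases h4 : a < x.1.degree
      · rw [hp _ h4, zero_mul]
      · rw [hq _ (by omega), mul_zero]
  · rw [coeff_zero]
    exact mul_mem_degLt hp hq β (by omega)
  · rw [coeff_mul]
    refine (sum_eq_zero fun x hx => ?_).symm
    rw [coeff_homogeneousComponent, coeff_homogeneousComponent]
    rw [← mem_antidiagonal.1 hx, map_add] at h1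
    by_cases h3 : x.1.degree = a
    · rw [if_neg (show ¬ x.2.degree = b by omega), mul_zero]
    · rw [if_neg h3, zero_mul]
  · rw [coeff_zero]

theorem mem_degLt_of_poly {P : N.PS σ} (hP : P ∈ N.poly σ) (k : ι) : P k ∈ degLt σ (N.wt k + 1) :=
  fun β hβ => hP β k hβ

theorem symAt_lie (h : GrOf N g) (t : σ → ℝ) {P Q : N.PS σ} (hP : P ∈ N.poly σ)
    (hQ : Q ∈ N.poly σ) : symAt N g t ⁅P, Q⁆ = ⁅symAt N g t P, symAt N g t Q⁆ := by
  ext k
  simp only [symAt, lie_apply, map_sum]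
  refine sum_congr rfl fun i _ => sum_congr rfl fun j _ => ?_
  rw [h.2]
  by_cases hc : N.c i j k = 0
  · simp [hc]
  rw [mul_assoc, ← map_intCast (C : ℝ →+* MvPolynomial σ ℝ), homogeneousComponent_C_mul,
    hc_mul (mem_degLt_of_poly hP i) (mem_degLt_of_poly hQ j) (N.c_wt i j k hc)]
  split_ifs <;> simp [mul_assoc]

/-- the polynomial sequences as a Lie algebra -/
def polA (N : ND ι) (σ : Type) : LieSubalgebra ℝ (N.PS σ) where
  toSubmodule := N.poly σ
  lie_mem' := lie_mem_poly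

/-- the symbol as a Lie homomorphism -/
def syH (h : GrOf N g) (t : σ → ℝ) : polA N σ →ₗ⁅ℝ⁆ g.L where
  toLinearMap := (syL N g t).comp (polA N σ).incl.toLinearMap
  map_lie' {P Q} := symAt_lie h t P.2 Q.2

theorem symAt_star (h : GrOf N g) (S : ℕ) (t : σ → ℝ) {P Q : N.PS σ} (hP : P ∈ N.poly σ)
    (hQ : Q ∈ N.poly σ) :
    symAt N g t (star S P Q) = star S (symAt N g t P) (symAt N g t Q) := by
  have h1 := Bch.map_star S (syH h t) ⟨P, hP⟩ ⟨Q, hQ⟩
  have h2 := Bch.map_star S (polA N σ).incl ⟨P, hP⟩ ⟨Q, hQ⟩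
  change symAt N g t ((polA N σ).incl _) = _ at h1
  rw [h2] at h1
  exact h1

theorem symAt_eq_sum (t : σ → ℝ) (P : N.PS σ) : ∃ A : Finset (σ →₀ ℕ), symAt N g t P =
    ∑ α ∈ A, (α.prod fun v n => t v ^ n) • tg N g (hp N α.degree (N.cv α P)) := by
  obtain ⟨A, -, hA⟩ := exists_sum_mono P
  refine ⟨A, ?_⟩
  change syL N g t P = _
  conv_lhs => rw [hA, map_sum]
  exact sum_congr rfl fun α _ => syL_mono t α _

theorem symAt_mem (h : GrOf N g) {H : ℕ → Submodule ℝ N.L} (hH : N.GrSub H) (t : σ → ℝ)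
    {P : N.PS σ} (hP : P ∈ cf σ H) : symAt N g t P ∈ grA h hH := by
  obtain ⟨A, hA⟩ := symAt_eq_sum (g := g) t P
  rw [hA]
  exact Submodule.sum_mem _ fun α _ =>
    Submodule.smul_mem _ _ ((mem_grA h hH).2 (hp_mem_grS hH (hP α)))

theorem symAt_den {q : ℕ} (v : σ → ℤ) {P : N.PS σ} (hP : N.RatP q P) :
    g.Den q (symAt N g (fun i => (v i : ℝ)) P) := by
  obtain ⟨A, hA⟩ := symAt_eq_sum (g := g) (fun i => (v i : ℝ)) P
  rw [hA]
  refine Gon.IsDen.sum A fun α _ => ?_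
  have : (α.prod fun i n => (v i : ℝ) ^ n) = ((α.prod fun i n => v i ^ n : ℤ) : ℝ) := by
    simp [Finsupp.prod]
  rw [this]
  exact Gon.IsDen.zsmul (Gon.IsDen.prj (hP α) _) _

theorem card_deg_le [Fintype σ] (A : Finset (σ →₀ ℕ)) {n : ℕ} (hA : ∀ α ∈ A, α.degree ≤ n) :
    #A ≤ (n + 1) ^ Fintype.card σ := by
  classical
  have : #A ≤ #(Fintype.piFinset fun _ : σ => range (n + 1)) := by
    refine card_le_card_of_injOn (fun α => ⇑α) (fun α hα => ?_)
      fun _ _ _ _ h => DFunLike.coe_injective h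
    refine mem_coe.2 (Fintype.mem_piFinset.2 fun v => mem_range.2 ?_)
    exact Nat.lt_succ_of_le ((Finsupp.le_degree v α).trans (hA α hα))
  simpa using this

theorem symAt_sm [Fintype σ] (h : GrOf N g) {S : ℕ} (hS : ∀ k, N.wt k ≤ S) {T M : ℝ} (hT : 0 ≤ T)
    {t : σ → ℝ} (ht : ∀ i, |t i| ≤ 1) {P : N.PS σ} (hP : N.Sm T M P) (k : ι) :
    |symAt N g t P k| * T ^ g.wt k ≤ ((S : ℝ) + 1) ^ Fintype.card σ * M := by
  have hM : 0 ≤ M := le_trans (by positivity) (hP 0)
  set p := homogeneousComponent (N.wt k) (P k) with hp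
  have hd : ∀ α ∈ p.support, α.degree = N.wt k := fun α hα => by
    by_contra h'
    rw [mem_support_iff, hp, coeff_homogeneousComponent, if_neg h'] at hα
    exact hα rfl
  have h1 : |eval t p| * T ^ N.wt k ≤ ∑ _α ∈ p.support, M := by
    rw [eval_eq]
    refine (mul_le_mul_of_nonneg_right (abs_sum_le_sum_abs _ _) (by positivity)).trans ?_
    rw [sum_mul]
    refine sum_le_sum fun α hα => le_trans ?_ (hP α)
    rw [hd α hα, abs_mul]
    refine mul_le_mul_of_nonneg_right ?_ (by positivity)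
    have h2 : |∏ i ∈ α.support, t i ^ α i| ≤ 1 := by
      rw [abs_prod]
      exact prod_le_one (fun _ _ => abs_nonneg _) fun i _ => by
        rw [abs_pow]; exact pow_le_one₀ (abs_nonneg _) (ht i)
    refine (mul_le_of_le_one_right (abs_nonneg _) h2).trans ?_
    rw [hp, coeff_homogeneousComponent, if_pos (hd α hα)]
    exact abs_apply_le (N.cv α P) k
  rw [h.1]
  refine h1.trans ?_
  rw [sum_const, nsmul_eq_mul]
  refine mul_le_mul_of_nonneg_right ?_ hM
  exact_mod_cast card_deg_le p.support fun α hα => (hd α hα).le.trans (hS k)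

end LtN85

open LtN85 in
theorem ltNStmt : LtNStmt := by
  intro hLT S s D hs
  obtain ⟨C₁, h₁⟩ := hLT S s D hs
  obtain ⟨C, hC1, hC⟩ : ∃ C : ℕ, 1 ≤ C ∧ ∀ (m : ℝ) (d : ℕ), 2 ≤ m → d ≤ D →
      Real.exp (m ^ C₁) ≤ Real.exp (m ^ C) ∧
      ((S : ℝ) + 1) ^ d * Real.exp (m ^ C₁) ≤ Real.exp (m ^ C) := by
    have : ∀ᶠ C : ℕ in Filter.atTop, ∀ (m : ℝ) (d : ℕ), 2 ≤ m → d ≤ D →
      Real.exp (m ^ C₁) ≤ Real.exp (m ^ C) ∧
      ((S : ℝ) + 1) ^ d * Real.exp (m ^ C₁) ≤ Real.exp (m ^ C) := by qp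
    exact ((Filter.eventually_ge_atTop 1).and this).exists
  refine ⟨C, hC1, fun m hm ι σ _ _ _ N g η F P T lo hi hg hD hι hN hF hP hT hb hbias => ?_⟩
  obtain ⟨c1, c2⟩ := hC m _ hm hD
  obtain ⟨H, hH, hR, hη, q, hq1, hq, ε, hε, x, hx, γ, hγ, hsm, hrat, hPe⟩ :=
    h₁ m hm ι σ N η F P T lo hi hD hι hN hF hP (c1.trans hT) hb hbias
  have hT0 : 0 ≤ T := (Real.exp_pos _).le.trans hT
  refine ⟨grA hg hH, gr_grA hg hH fun i => (hR i).mono c1, fn_grA hg hH hF.supp hη,
    fun v hv => ⟨symAt N g (fun i => (v i : ℝ)) ε, symAt N g (fun i => (v i : ℝ)) x,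
      symAt N g (fun i => (v i : ℝ)) γ, fun k => ?_, symAt_mem hg hH _ hx, ⟨q, hq1, hq.trans c1, symAt_den v hrat⟩, ?_⟩⟩
  · exact (symAt_sm hg hN.wt_le hT0 (fun i => by exact_mod_cast hv i) hsm k).trans c2
  · have hx' := St.cf_le_poly hH hx
    rw [hPe, symAt_star hg S _ hε (St.star_mem_poly S hx' hγ), symAt_star hg S _ hx' hγ]

end Crest.Agent.T49.GI
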