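import Crest.Agent.T49.GiSym_40
import Crest.Agent.T49.BchND_16
import Crest.Agent.T49.Qp_85

/-!
# Row 49 (helper40): the bigraded model of a bracket-linear family
-/

set_option autoImplicit false

noncomputable section

namespace Crest.Agent.T49.GI.M40

open Finset Crest.Agent.T49.Nil Crest.Agent.T49.Nil.ND
open Crest.Agent.T49.Bch (star expAd Ad dn)
open scoped Classical

variable {ι : Type} [Fintype ι]

theorem good_of_dvd {N : ND ι} {S : ℕ} {M : ℝ} (hw : ∀ k, N.wt k ≤ S)
    (hc : ∀ i j k, |(N.c i j k : ℝ)| ≤ M) (hd : ∀ i j k, (dn S : ℤ) ∣ N.c i j k) : N.Good S M := by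
  refine ⟨hw, hc, fun x y hx hy => mem_intL.1 (Bch.star_mem_lattice S (intL N) ?_ hx hy)⟩
  intro a ha b hb
  choose d hd using hd
  choose za hza using mem_intL.1 ha
  choose zb hzb using mem_intL.1 hb
  refine ⟨N.ofInt fun k => ∑ i, ∑ j, d i j k * za i * zb j, isInt_ofInt _, ?_⟩
  ext k
  simp only [lie_apply, ND.smul_apply, ofInt_apply, hd, hza, hzb, smul_eq_mul, Int.cast_sum,
    mul_sum, Int.cast_mul, Int.cast_natCast]
  exact sum_congr rfl fun i _ => sum_congr rfl fun j _ => by ring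

theorem expAd_two {𝔤 : Type*} [LieRing 𝔤] [LieAlgebra ℝ 𝔤] (t : ℕ) {x y : 𝔤}
    (h : ⁅x, ⁅x, y⁆⁆ = 0) : expAd (t + 2) x y = y + ⁅x, y⁆ := by
  rw [Bch.expAd_apply, sum_range_succ', sum_range_succ', sum_eq_zero]
  · simp [add_comm]
  · intro k _
    rw [pow_succ, pow_succ]
    simp [h]

variable (q : ND ι) (ν : ι → Prop)

/-- the projection onto the coordinates in `ν` -/
def pv : q.L →ₗ[ℝ] q.L := Gon.prj ν

variable {q ν}

theorem pv_apply (x : q.L) (k : ι) : pv q ν x k = if ν k then x k else 0 := by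
  by_cases h : ν k
  · rw [if_pos h]; exact Gon.prj_pos x h
  · rw [if_neg h]; exact Gon.prj_neg x h

theorem pv_of_on {x : q.L} (h : On q ν x) : pv q ν x = x := Gon.prj_eq_self.2 h

theorem on_pv (x : q.L) : On q ν (pv q ν x) := fun k hk => by rw [pv_apply, if_neg hk]

theorem on_lie (hν : CoId q ν) (x : q.L) {y : q.L} (hy : On q ν y) : On q ν ⁅x, y⁆ := by
  intro k hk
  rw [lie_apply]
  refine sum_eq_zero fun i _ => sum_eq_zero fun j _ => ?_
  by_cases hc : q.c i j k = 0
  · simp [hc]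
  · simp [hy j fun h => hk (hν i j k hc h)]

theorem pv_lie (hν : CoId q ν) (x y : q.L) : pv q ν ⁅x, pv q ν y⁆ = ⁅x, pv q ν y⁆ :=
  pv_of_on (on_lie hν x (on_pv y))

theorem lie_pv_pv (hab : ∀ i j k, ν i → ν j → q.c i j k = 0) (x y : q.L) :
    ⁅pv q ν x, pv q ν y⁆ = 0 := by
  ext k
  rw [lie_apply, ND.zero_apply]
  refine sum_eq_zero fun i _ => sum_eq_zero fun j _ => ?_
  rw [pv_apply, pv_apply]
  split_ifs with hi hj
  · simp [hab i j k hi hj]
  · simp
  · simp
  · simp

theorem pv_e (i : ι) : pv q ν (q.e i) = if ν i then q.e i else 0 := by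
  ext k
  rw [pv_apply]
  by_cases h : k = i
  · subst h; split_ifs <;> rfl
  · split_ifs <;> simp [e_apply, h]

/-- the copies of `q`: base, `τ`, `σ j` -/
abbrev Cp (r : ℕ) : Type := Option (Option (Fin r))

/-- the abstract model -/
@[implicit_reducible] def Md (_hν : CoId q ν) (r _c : ℕ) : Type := (Fin r → ℝ) × (Cp r → q.L)

variable {hν : CoId q ν} {r c : ℕ}

instance : AddCommGroup (Md hν r c) :=
  inferInstanceAs (AddCommGroup ((Fin r → ℝ) × (Cp r → q.L)))
instance : Module ℝ (Md hν r c) := inferInstanceAs (Module ℝ ((Fin r → ℝ) × (Cp r → q.L)))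

/-- the shift `σ ↦ τ` -/
def sh (c : ℕ) (t : Fin r → ℝ) (w : Cp r → q.L) : q.L := ∑ j, ((c : ℝ) * t j) • w (some (some j))

instance : Bracket (Md hν r c) (Md hν r c) :=
  ⟨fun x y => (0, fun u => match u with
    | none => ⁅x.2 none, y.2 none⁆
    | some none => ⁅x.2 none, pv q ν (y.2 (some none))⁆ - ⁅y.2 none, pv q ν (x.2 (some none))⁆ +
        (sh c x.1 y.2 - sh c y.1 x.2)
    | some (some j) => ⁅x.2 none, pv q ν (y.2 (some (some j)))⁆ -
        ⁅y.2 none, pv q ν (x.2 (some (some j)))⁆)⟩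

theorem md_ext {x y : Md hν r c} (h1 : x.1 = y.1) (h2 : x.2 none = y.2 none)
    (h3 : x.2 (some none) = y.2 (some none)) (h4 : ∀ j, x.2 (some (some j)) = y.2 (some (some j))) :
    x = y :=
  Prod.ext h1 (funext fun u => match u with
    | none => h2
    | some none => h3
    | some (some j) => h4 j)

@[simp] theorem md_add_1 (x y : Md hν r c) : (x + y).1 = x.1 + y.1 := rfl
@[simp] theorem md_add_2 (x y : Md hν r c) (u : Cp r) : (x + y).2 u = x.2 u + y.2 u := rfl
@[simp] theorem md_zero_1 : (0 : Md hν r c).1 = 0 := rfl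
@[simp] theorem md_zero_2 (u : Cp r) : (0 : Md hν r c).2 u = 0 := rfl
@[simp] theorem md_smul_1 (a : ℝ) (x : Md hν r c) : (a • x).1 = a • x.1 := rfl
@[simp] theorem md_smul_2 (a : ℝ) (x : Md hν r c) (u : Cp r) : (a • x).2 u = a • x.2 u := rfl
@[simp] theorem md_lie_1 (x y : Md hν r c) : ⁅x, y⁆.1 = 0 := rfl
@[simp] theorem md_lie_b (x y : Md hν r c) : ⁅x, y⁆.2 none = ⁅x.2 none, y.2 none⁆ := rfl
@[simp] theorem md_lie_t (x y : Md hν r c) : ⁅x, y⁆.2 (some none) =
    ⁅x.2 none, pv q ν (y.2 (some none))⁆ - ⁅y.2 none, pv q ν (x.2 (some none))⁆ +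
      (∑ j, ((c : ℝ) * x.1 j) • y.2 (some (some j)) -
        ∑ j, ((c : ℝ) * y.1 j) • x.2 (some (some j))) := rfl
@[simp] theorem md_lie_s (x y : Md hν r c) (j : Fin r) : ⁅x, y⁆.2 (some (some j)) =
    ⁅x.2 none, pv q ν (y.2 (some (some j)))⁆ - ⁅y.2 none, pv q ν (x.2 (some (some j)))⁆ := rfl

instance : LieRing (Md hν r c) where
  add_lie x y z := md_ext (by simp) (by simp)
    (by simp [mul_add, add_smul, sum_add_distrib]; abel) fun j => by simp; abel
  lie_add x y z := md_ext (by simp) (by simp)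
    (by simp [mul_add, add_smul, sum_add_distrib]; abel) fun j => by simp; abel
  lie_self x := md_ext (by simp) (by simp) (by simp) fun j => by simp
  leibniz_lie x y z := md_ext (by simp) (by simp)
    (by
      simp only [md_lie_t, md_lie_s, md_lie_b, md_lie_1, md_add_2, map_add, map_sub, map_sum,
        map_smul, pv_lie hν, lie_add, lie_sub, lie_sum, lie_smul, smul_sub, sum_sub_distrib,
        lie_lie, Pi.zero_apply, mul_zero, zero_smul, sum_const_zero]
      abel)
    fun j => by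
      simp only [md_lie_s, md_lie_b, md_add_2, map_sub, pv_lie hν, lie_sub, lie_lie]
      abel

instance : LieAlgebra ℝ (Md hν r c) where
  lie_smul a x y := md_ext (by simp) (by simp)
    (by simp [smul_sub, smul_add, smul_sum, smul_smul, mul_comm, mul_left_comm])
    fun j => by simp [smul_sub]

/-- coordinates of the `n`-graded part -/
abbrev IB (ι : Type) (r : ℕ) : Type := Cp r × ι
/-- coordinates of the model -/
abbrev IA (ι : Type) (r : ℕ) : Type := Fin r ⊕ IB ι r

/-- coordinates -/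
def Φ (hν : CoId q ν) (r c : ℕ) : (IA ι r → ℝ) →ₗ[ℝ] Md hν r c where
  toFun x := (fun j => x (.inl j), fun u k => x (.inr (u, k)))
  map_add' _ _ := rfl
  map_smul' _ _ := rfl

@[simp] theorem Φ_1 (x : IA ι r → ℝ) (j : Fin r) : (Φ hν r c x).1 j = x (.inl j) := rfl
@[simp] theorem Φ_2 (x : IA ι r → ℝ) (u : Cp r) (k : ι) : (Φ hν r c x).2 u k = x (.inr (u, k)) :=
  rfl

theorem Φ_inj : Function.Injective (Φ hν r c) := fun _ _ h => funext fun p => match p with
  | .inl j => congrFun (congrArg Prod.fst h) j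
  | .inr (u, k) => congrFun (congrFun (congrArg Prod.snd h) u) k

/-- structure constants on the `n`-graded part -/
def cB (q : ND ι) (ν : ι → Prop) (r : ℕ) : IB ι r → IB ι r → IB ι r → ℤ
  | (none, i), (none, j), (none, k) => q.c i j k
  | (none, i), (some o, j), (some o', k) => if o = o' ∧ ν j then q.c i j k else 0
  | (some o, i), (none, j), (some o', k) => if o = o' ∧ ν i then q.c i j k else 0
  | _, _, _ => 0

/-- structure constants of the model -/
def cA (q : ND ι) (ν : ι → Prop) (r c : ℕ) : IA ι r → IA ι r → IA ι r → ℤ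
  | .inr p, .inr p', .inr p'' => cB q ν r p p' p''
  | .inl j, .inr p', .inr p'' =>
      if p'.1 = some (some j) ∧ p''.1 = some none ∧ p'.2 = p''.2 then c else 0
  | .inr p, .inl j, .inr p'' =>
      if p.1 = some (some j) ∧ p''.1 = some none ∧ p.2 = p''.2 then -c else 0
  | _, _, _ => 0

theorem single_1 (j : Fin r) : (Φ hν r c (Pi.single (.inl j) 1)).1 = Pi.single j 1 := by
  ext j'; simp [Pi.single_apply]

theorem single_2 (j : Fin r) (u : Cp r) : (Φ hν r c (Pi.single (.inl j) 1)).2 u = 0 := by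
  ext k; simp

theorem single_1' (p : IB ι r) : (Φ hν r c (Pi.single (.inr p) 1)).1 = 0 := by
  ext j'; simp

theorem single_2' (p : IB ι r) (u : Cp r) :
    (Φ hν r c (Pi.single (.inr p) 1)).2 u = if u = p.1 then q.e p.2 else 0 := by
  obtain ⟨u', i⟩ := p
  ext k
  by_cases h : u = u' <;> simp [Pi.single_apply, e_apply, h]

theorem lie_e_pv (i j k : ι) :
    ⁅q.e i, pv q ν (q.e j)⁆ k = if ν j then (q.c i j k : ℝ) else 0 := by
  rw [pv_e]
  split_ifs
  · exact lie_e i j k
  · simp

theorem lie_e_pv' (i j k : ι) :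
    -⁅q.e j, pv q ν (q.e i)⁆ k = if ν i then (q.c i j k : ℝ) else 0 := by
  rw [lie_e_pv, q.anti i j k]
  split_ifs <;> simp

theorem lie_pv_e (i j k : ι) :
    ⁅pv q ν (q.e i), q.e j⁆ k = if ν i then (q.c i j k : ℝ) else 0 := by
  rw [pv_e]
  split_ifs
  · exact lie_e i j k
  · simp

theorem sum_single (j : Fin r) (w : Cp r → q.L) :
    ∑ j', ((c : ℝ) * (Pi.single j 1 : Fin r → ℝ) j') • w (some (some j')) =
      (c : ℝ) • w (some (some j)) := by
  rw [sum_eq_single j]
  · simp
  · intro b _ hb; simp [hb]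
  · simp

theorem lie_single (p p' : IA ι r) :
    ⁅Φ hν r c (Pi.single p 1), Φ hν r c (Pi.single p' 1)⁆ =
      Φ hν r c fun k => (cA q ν r c p p' k : ℝ) := by
  refine md_ext ?_ ?_ ?_ fun l => ?_
  · ext j
    cases p <;> cases p' <;> simp [cA]
  · ext k
    rcases p with j | ⟨_ | _ | j, i⟩ <;> rcases p' with j' | ⟨_ | _ | j', i'⟩ <;>
      simp [single_2, single_2', cA, cB, lie_e]
  · ext k
    rw [md_lie_t, Φ_2]
    rcases p with j | ⟨u, i⟩ <;> rcases p' with j' | ⟨u', i'⟩
    · simp [single_2, cA]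
    · rw [single_1, single_1', sum_single]
      simp only [single_2, single_2', cA]
      by_cases h : u' = some (some j)
      · by_cases h' : i' = k
        · simp [h, h', e_apply]
        · simp [h, h', e_apply, Ne.symm h']
      · simp [h, Ne.symm h]
    · rw [single_1, single_1', sum_single]
      simp only [single_2, single_2', cA]
      by_cases h : u = some (some j')
      · by_cases h' : i = k
        · simp [h, h', e_apply]
        · simp [h, h', e_apply, Ne.symm h']
      · simp [h, Ne.symm h]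
    · rw [single_1', single_1']
      simp only [single_2', cA]
      rcases u with _ | _ | j <;> rcases u' with _ | _ | j' <;>
        simp [cB, lie_e_pv, lie_pv_e]
  · ext k
    rw [md_lie_s, Φ_2]
    rcases p with j | ⟨u, i⟩ <;> rcases p' with j' | ⟨u', i'⟩
    · simp [single_2, cA]
    · simp [single_2, cA]
    · simp [single_2, cA]
    · simp only [single_2', cA]
      rcases u with _ | _ | j <;> rcases u' with _ | _ | j'
      · simp [cB]
      · simp [cB]
      · by_cases h : l = j' <;> simp [cB, lie_e_pv, h, eq_comm]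
      · simp [cB]
      · simp [cB]
      · simp [cB]
      · by_cases h : l = j <;> simp [cB, lie_e_pv', h, eq_comm]
      · simp [cB]
      · simp [cB]

theorem Φ_eq_sum (x : IA ι r → ℝ) : Φ hν r c x = ∑ p, x p • Φ hν r c (Pi.single p 1) := by
  simp only [← map_smul, ← map_sum]
  congr 1
  ext p
  simp [Finset.sum_apply, Pi.single_apply]

theorem li_A : LinearIndependent ℝ fun p : IA ι r => Φ hν r c (Pi.single p 1) :=
  Fintype.linearIndependent_iff.2 fun x hx p => by
    rw [← Φ_eq_sum, ← map_zero (Φ hν r c)] at hx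
    exact congrFun (Φ_inj hx) p

theorem hbr_A (p p' : IA ι r) : ⁅Φ hν r c (Pi.single p 1), Φ hν r c (Pi.single p' 1)⁆ =
    ∑ k, (cA q ν r c p p' k : ℝ) • Φ hν r c (Pi.single k 1) := by
  rw [lie_single, Φ_eq_sum]

theorem cA_inl (p p' : IA ι r) (j : Fin r) : cA q ν r c p p' (.inl j) = 0 := by
  cases p <;> cases p' <;> rfl

theorem hbr_B (p p' : IB ι r) :
    ⁅Φ hν r c (Pi.single (.inr p) 1), Φ hν r c (Pi.single (.inr p') 1)⁆ =
    ∑ k, (cB q ν r p p' k : ℝ) • Φ hν r c (Pi.single (.inr k) 1) := by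
  rw [hbr_A, Fintype.sum_sum_type]
  simp [cA]

/-- the `h`-degree -/
def hdA : IA ι r → Bool
  | .inl _ => true
  | .inr p => p.1 = some none

/-- the total degree -/
def wtA (q : ND ι) : IA ι r → ℕ
  | .inl _ => 1
  | .inr p => q.wt p.2 + (hdA (.inr p : IA ι r)).toNat

theorem cB_ne (hg : Graded q) {p p' k : IB ι r} (h : cB q ν r p p' k ≠ 0) :
    q.wt p.2 + q.wt p'.2 = q.wt k.2 ∧ (hdA (.inr p : IA ι r)).toNat +
      (hdA (.inr p' : IA ι r)).toNat = (hdA (.inr k : IA ι r)).toNat := by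
  obtain ⟨_ | u, i⟩ := p <;> obtain ⟨_ | u', j⟩ := p' <;> obtain ⟨_ | u'', k⟩ := k <;>
    simp only [cB, ne_eq, not_true_eq_false, ite_eq_right_iff, not_forall] at h
  · exact ⟨hg _ _ _ h, by simp [hdA]⟩
  · obtain ⟨⟨rfl, -⟩, h⟩ := h
    exact ⟨hg _ _ _ h, by simp [hdA]⟩
  · obtain ⟨⟨rfl, -⟩, h⟩ := h
    exact ⟨hg _ _ _ h, by simp [hdA]⟩

theorem cA_ne (hg : Graded q) {p p' k : IA ι r} (h : cA q ν r c p p' k ≠ 0) :
    wtA q p + wtA q p' = wtA q k ∧ (hdA p).toNat + (hdA p').toNat = (hdA k).toNat := by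
  rcases p with j | p <;> rcases p' with j' | p' <;> rcases k with l | k <;>
    simp only [cA, ne_eq, not_true_eq_false, ite_eq_right_iff, not_forall] at h
  · obtain ⟨⟨h1, h2, h3⟩, -⟩ := h
    simp [wtA, hdA, h1, h2, h3, add_comm]
  · obtain ⟨⟨h1, h2, h3⟩, -⟩ := h
    simp [wtA, hdA, h1, h2, h3]
  · have := cB_ne hg h
    simp only [wtA]
    omega

theorem cB_prop {R : ℤ → Prop} (h0 : R 0) (h : ∀ i j k, R (q.c i j k)) (p p' k : IB ι r) :
    R (cB q ν r p p' k) := by
  obtain ⟨_ | u, i⟩ := p <;> obtain ⟨_ | u', j⟩ := p' <;> obtain ⟨_ | u'', k⟩ := k <;>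
    simp only [cB] <;> first | exact h0 | exact h _ _ _ | (split_ifs; exacts [h _ _ _, h0])

theorem cA_prop {R : ℤ → Prop} (h0 : R 0) (h : ∀ i j k, R (q.c i j k)) (h1 : R c) (h2 : R (-c))
    (p p' k : IA ι r) : R (cA q ν r c p p' k) := by
  rcases p with j | p <;> rcases p' with j' | p' <;> rcases k with l | k <;> simp only [cA] <;>
    first | exact h0 | exact cB_prop h0 h _ _ _ | (split_ifs; exacts [h1, h0])
          | (split_ifs; exacts [h2, h0])

/-- the model -/
def mA (hg : Graded q) (hν : CoId q ν) (r c : ℕ) : ND (IA ι r) :=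
  ofFamily (fun p => Φ hν r c (Pi.single p 1)) li_A (wtA q) (cA q ν r c) hbr_A
    (fun p => by
      cases p with
      | inl j => exact le_rfl
      | inr p => exact (q.wt_pos _).trans (Nat.le_add_right _ _))
    fun _ _ _ h => (cA_ne hg h).1.le

/-- its `n`-graded part -/
def mB (hg : Graded q) (hν : CoId q ν) (r c : ℕ) : ND (IB ι r) :=
  ofFamily (fun p => Φ hν r c (Pi.single (.inr p) 1)) (li_A.comp _ Sum.inr_injective)
    (fun p => q.wt p.2) (cB q ν r) hbr_B (fun _ => q.wt_pos _) fun _ _ _ h => (cB_ne hg h).1.le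

variable {hg : Graded q}

theorem Φ_lie (x y : (mA hg hν r c).L) :
    Φ hν r c (⁅x, y⁆ : (mA hg hν r c).L) = ⁅Φ hν r c x, Φ hν r c y⁆ := by
  have := ((mA hg hν r c).lift (fun p => Φ hν r c (Pi.single p 1)) (hbr_A (hν := hν))).map_lie x y
  rw [Φ_eq_sum x, Φ_eq_sum y, Φ_eq_sum (⁅x, y⁆ : (mA hg hν r c).L)]
  exact this

theorem bigr_A : Bigr (mA hg hν r c) hdA :=
  ⟨fun _ _ _ h => (cA_ne hg h).1, fun _ _ _ h => (cA_ne hg h).2⟩

theorem graded_B : Graded (mB hg hν r c) := fun _ _ _ h => (cB_ne hg h).1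

/-- extension by zero -/
def incL (hg : Graded q) (hν : CoId q ν) (r c : ℕ) : (mB hg hν r c).L →ₗ[ℝ] (mA hg hν r c).L where
  toFun x := Sum.elim 0 x
  map_add' x y := by ext p; cases p <;> simp
  map_smul' a x := by ext p; cases p <;> simp

@[simp] theorem incL_inl (x : (mB hg hν r c).L) (j : Fin r) : incL hg hν r c x (.inl j) = 0 := rfl
@[simp] theorem incL_inr (x : (mB hg hν r c).L) (p : IB ι r) : incL hg hν r c x (.inr p) = x p :=
  rfl

/-- restriction -/
def res (hg : Graded q) (hν : CoId q ν) (r c : ℕ) : (mA hg hν r c).L →ₗ[ℝ] (mB hg hν r c).L where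
  toFun x p := x (.inr p)
  map_add' _ _ := rfl
  map_smul' _ _ := rfl

@[simp] theorem res_apply (x : (mA hg hν r c).L) (p : IB ι r) : res hg hν r c x p = x (.inr p) :=
  rfl

theorem incL_res {x : (mA hg hν r c).L} (h : ∀ j, x (.inl j) = 0) :
    incL hg hν r c (res hg hν r c x) = x := by
  ext p
  cases p with
  | inl j => exact (h j).symm
  | inr p => rfl

theorem incL_inj : Function.Injective (incL hg hν r c) := fun _ _ h =>
  pts_ext fun p => congrFun h (.inr p)

/-- the inclusion -/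
def inc (hg : Graded q) (hν : CoId q ν) (r c : ℕ) : (mB hg hν r c).L →ₗ⁅ℝ⁆ (mA hg hν r c).L where
  toLinearMap := incL hg hν r c
  map_lie' {x y} := by
    ext p
    change incL hg hν r c ⁅x, y⁆ p = ⁅incL hg hν r c x, incL hg hν r c y⁆ p
    cases p with
    | inl j =>
      rw [lie_apply]
      exact (sum_eq_zero fun i _ => sum_eq_zero fun i' _ => by
        rw [show (mA hg hν r c).c i i' (.inl j) = 0 from cA_inl _ _ _]; simp).symm
    | inr p =>
      rw [incL_inr, lie_apply, lie_apply]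
      simp only [Fintype.sum_sum_type, incL_inl, incL_inr, mul_zero, zero_mul, sum_const_zero,
        zero_add]
      rfl

@[simp] theorem inc_apply (x : (mB hg hν r c).L) : inc hg hν r c x = incL hg hν r c x := rfl

/-- one copy of `q` -/
def cp (hg : Graded q) (hν : CoId q ν) (r c : ℕ) (u : Cp r) : (mB hg hν r c).L →ₗ[ℝ] q.L where
  toFun x k := x (u, k)
  map_add' _ _ := rfl
  map_smul' _ _ := rfl

@[simp] theorem cp_apply (u : Cp r) (x : (mB hg hν r c).L) (k : ι) :
    cp hg hν r c u x k = x (u, k) := rfl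

theorem cp_lie (u : Cp r) (x y : (mB hg hν r c).L) : cp hg hν r c u ⁅x, y⁆ =
    ⁅Φ hν r c (incL hg hν r c x), Φ hν r c (incL hg hν r c y)⁆.2 u := by
  rw [← Φ_lie]
  change _ = (Φ hν r c (⁅inc hg hν r c x, inc hg hν r c y⁆ : (mA hg hν r c).L)).2 u
  rw [← LieHom.map_lie]
  rfl

/-- base plus `τ` -/
def θ (hab : ∀ i j k, ν i → ν j → q.c i j k = 0) (hg : Graded q) (hν : CoId q ν) (r c : ℕ) :
    (mB hg hν r c).L →ₗ⁅ℝ⁆ q.L where
  toLinearMap := cp hg hν r c none + pv q ν ∘ₗ cp hg hν r c (some none)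
  map_lie' {x y} := by
    change cp hg hν r c none ⁅x, y⁆ + pv q ν (cp hg hν r c (some none) ⁅x, y⁆) =
      ⁅cp hg hν r c none x + pv q ν (cp hg hν r c (some none) x),
        cp hg hν r c none y + pv q ν (cp hg hν r c (some none) y)⁆
    rw [cp_lie, cp_lie, md_lie_b, md_lie_t]
    simp only [Φ_1, incL_inl, mul_zero, zero_smul, sum_const_zero, sub_self, add_zero, map_sub,
      pv_lie hν, add_lie, lie_add, lie_pv_pv hab]
    rw [← lie_skew (pv q ν _)]
    change ⁅cp hg hν r c none x, cp hg hν r c none y⁆ +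
      (⁅cp hg hν r c none x, pv q ν (cp hg hν r c (some none) y)⁆ -
        ⁅cp hg hν r c none y, pv q ν (cp hg hν r c (some none) x)⁆) = _
    abel

theorem θ_apply (hab : ∀ i j k, ν i → ν j → q.c i j k = 0) (x : (mB hg hν r c).L) :
    θ hab hg hν r c x = cp hg hν r c none x + pv q ν (cp hg hν r c (some none) x) := rfl

/-- a point of `ℝ^r` -/
def tv (hg : Graded q) (hν : CoId q ν) (r c : ℕ) (t : Fin r → ℝ) : (mA hg hν r c).L :=
  Sum.elim t 0

@[simp] theorem tv_inl (t : Fin r → ℝ) (j : Fin r) : tv hg hν r c t (.inl j) = t j := rfl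
@[simp] theorem tv_inr (t : Fin r → ℝ) (p : IB ι r) : tv hg hν r c t (.inr p) = 0 := rfl

theorem Φ_tv (t : Fin r → ℝ) (u : Cp r) : (Φ hν r c (tv hg hν r c t)).2 u = 0 := rfl

theorem tv_lie (t : Fin r → ℝ) (x : (mA hg hν r c).L) (p : IA ι r) : ⁅tv hg hν r c t, x⁆ p =
    match p with
    | .inr (some none, k) => ∑ j, (c : ℝ) * t j * x (.inr (some (some j), k))
    | _ => 0 := by
  have h := Φ_lie (tv hg hν r c t) x
  rcases p with j | ⟨_ | _ | j, k⟩
  · exact congrFun (congrArg Prod.fst h) j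
  · have := congrFun (congrFun (congrArg Prod.snd h) none) k
    simpa [Φ_tv] using this
  · have := congrFun (congrFun (congrArg Prod.snd h) (some none)) k
    simpa [Φ_tv, ND.sum_apply] using this
  · have := congrFun (congrFun (congrArg Prod.snd h) (some (some j))) k
    simpa [Φ_tv] using this

theorem tv_lie_lie (t : Fin r → ℝ) (x : (mA hg hν r c).L) :
    ⁅tv hg hν r c t, ⁅tv hg hν r c t, x⁆⁆ = 0 := by
  ext p
  rw [tv_lie]
  rcases p with j | ⟨_ | _ | j, k⟩ <;> simp [tv_lie]

theorem tv_lie_tv (t t' : Fin r → ℝ) : ⁅tv hg hν r c t, tv hg hν r c t'⁆ = 0 := by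
  ext p
  rw [tv_lie]
  rcases p with j | ⟨_ | _ | j, k⟩ <;> simp

/-- the endomorphism `(y, τ, σ) ↦ (y, h τ + c ∑ t_j σ_j, σ)` -/
def SL (hg : Graded q) (hν : CoId q ν) (r c : ℕ) (h : ℝ) (t : Fin r → ℝ) :
    (mB hg hν r c).L →ₗ[ℝ] (mB hg hν r c).L where
  toFun x p := match p with
    | (some none, k) => h * x (some none, k) + ∑ j, (c : ℝ) * t j * x (some (some j), k)
    | p => x p
  map_add' x y := by
    ext p
    rcases p with ⟨_ | _ | j, k⟩ <;> simp [mul_add, sum_add_distrib]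
    ring
  map_smul' a x := by
    ext p
    rcases p with ⟨_ | _ | j, k⟩ <;> simp [mul_add, mul_sum, mul_left_comm]

theorem SL_b (h : ℝ) (t : Fin r → ℝ) (x : (mB hg hν r c).L) (k : ι) :
    SL hg hν r c h t x (none, k) = x (none, k) := rfl
theorem SL_t (h : ℝ) (t : Fin r → ℝ) (x : (mB hg hν r c).L) (k : ι) :
    SL hg hν r c h t x (some none, k) =
      h * x (some none, k) + ∑ j, (c : ℝ) * t j * x (some (some j), k) := rfl
theorem SL_s (h : ℝ) (t : Fin r → ℝ) (x : (mB hg hν r c).L) (j : Fin r) (k : ι) :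
    SL hg hν r c h t x (some (some j), k) = x (some (some j), k) := rfl

theorem wt_A_inr (p : IB ι r) :
    (mA hg hν r c).wt (.inr p) = q.wt p.2 + (hdA (.inr p : IA ι r)).toNat := rfl

theorem inc_dil_SL (s : ℕ) (h n : ℝ) (t : Fin r → ℝ) (x : (mB hg hν r c).L) :
    incL hg hν r c (dil _ n (SL hg hν r c h t x)) =
      expAd (s + 2) (tv hg hν r c t) (dil2 _ hdA h n (incL hg hν r c x)) := by
  rw [expAd_two s (tv_lie_lie _ _)]
  ext p
  rw [ND.add_apply, tv_lie]
  have hw : ∀ p, (mB hg hν r c).wt p = q.wt p.2 := fun _ => rfl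
  rcases p with j | ⟨_ | _ | j, k⟩
  · simp [dil2_apply]
  · simp [dil2_apply, wt_A_inr, hdA, SL_b, hw]
  · simp only [dil2_apply, wt_A_inr, hdA, SL_t, hw, incL_inr, dil_apply, mul_add, mul_sum]
    simp [mul_comm, mul_left_comm, mul_assoc]
  · simp [dil2_apply, wt_A_inr, hdA, SL_s, hw]

theorem SL_lie (s : ℕ)
    (hs : ∀ k, (mA hg hν r c).wt k ≤ s + 2) (h : ℝ) (t : Fin r → ℝ) (x y : (mB hg hν r c).L) :
    SL hg hν r c h t ⁅x, y⁆ = ⁅SL hg hν r c h t x, SL hg hν r c h t y⁆ := by
  have := ND.nil hs ℝ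
  have key : ∀ z, inc hg hν r c (SL hg hν r c h t z) =
      Ad (s + 2) (tv hg hν r c t) (dil2H bigr_A h 1 (inc hg hν r c z)) := fun z => by
    have := inc_dil_SL s h 1 t z
    rw [dil_one] at this
    rw [dil2H_apply]
    exact this
  apply incL_inj
  change inc hg hν r c _ = inc hg hν r c _
  rw [LieHom.map_lie, key, key, key, LieHom.map_lie, LieHom.map_lie, LieHom.map_lie]

/-- a point of the `n`-graded part from its copies -/
def mkB (hg : Graded q) (hν : CoId q ν) (r c : ℕ) (w : Cp r → q.L) : (mB hg hν r c).L :=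
  fun p => w p.1 p.2

theorem dil2_tv (h n : ℝ) (β : Fin r → ℝ) :
    dil2 _ hdA h n (tv hg hν r c β) = tv hg hν r c fun j => h * β j := by
  ext p
  cases p with
  | inl j =>
    rw [dil2_apply]
    simp [hdA, show (mA hg hν r c).wt (.inl j) = 1 from rfl]
  | inr p => simp [dil2_apply]

theorem tv_add (t t' : Fin r → ℝ) :
    tv hg hν r c (fun j => t j + t' j) = tv hg hν r c t + tv hg hν r c t' := by
  ext p; cases p <;> simp

theorem tv_neg (t : Fin r → ℝ) : tv hg hν r c (fun j => -t j) = -tv hg hν r c t := by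
  ext p; cases p <;> simp

end Crest.Agent.T49.GI.M40

namespace Crest.Agent.T49.GI

open Finset Crest.Agent.T49.Nil Crest.Agent.T49.Nil.ND M40
open Crest.Agent.T49.Bch (star expAd Ad dn)
open scoped Classical

theorem modelStmt : ModelStmt := by
  intro t
  obtain ⟨C, hC⟩ : ∃ C : ℕ, ∀ (m : ℝ) (d r : ℕ), 2 ≤ m → (d : ℝ) ≤ m → (r : ℝ) ≤ m →
      (r : ℝ) + (r + 1 + 1) * d ≤ m ^ C ∧ ((dn (t + 2) : ℕ) : ℝ) ≤ Real.exp (m ^ C) ∧
        m ≤ m ^ C := by qp
  refine ⟨dn (t + 2), Bch.dn_pos _, C + 1, by omega, ?_⟩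
  intro m hm ι _ q ν η r β y a b hq hdv hν hab hη hr ha hb
  obtain ⟨h1, h2, h3⟩ := hC m _ r hm hq.dim hr
  have hCC : m ^ C ≤ m ^ (C + 1) := pw_le_pw hm (by omega)
  replace h1 := h1.trans hCC
  replace h2 := h2.trans (Real.exp_le_exp.2 hCC)
  replace h3 := h3.trans hCC
  set M := m ^ (C + 1)
  set c := dn (t + 2) with hc
  have hc0 : (c : ℝ) ≠ 0 := by exact_mod_cast (Bch.dn_pos _).ne'
  have hg := hq.gr
  have hM0 : 0 ≤ M := by linarith
  have hme : Real.exp m ≤ Real.exp M := Real.exp_le_exp.2 h3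
  have hqc : ∀ i j k, |(q.c i j k : ℝ)| ≤ Real.exp M := fun i j k => (hq.c_le i j k).trans hme
  have hz : |((0 : ℤ) : ℝ)| ≤ Real.exp M := by simpa using (Real.exp_pos M).le
  have hwA : ∀ k, (mA hg hν r c).wt k ≤ t + 2 := fun k => by
    cases k with
    | inl j => exact Nat.le_add_left 1 _
    | inr p =>
      have := hq.wt_le p.2
      have := (hdA (.inr p : IA ι r)).toNat_le
      rw [wt_A_inr]; omega
  have hwB : ∀ k, (mB hg hν r c).wt k ≤ t + 1 := fun k => hq.wt_le k.2
  have hcB : ∀ i j k, |((mB hg hν r c).c i j k : ℝ)| ≤ Real.exp M :=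
    cB_prop (R := fun z => |(z : ℝ)| ≤ Real.exp M) hz hqc
  have := ND.nil hwA ℝ
  let a' : q.L := a + ∑ j, β j • b j
  let w0 : (mB hg hν r c).L := mkB hg hν r c fun u => match u with
    | none => 0
    | some none => a'
    | some (some j) => (c : ℝ)⁻¹ • b j
  let y0 : (mB hg hν r c).L := mkB hg hν r c fun u => match u with
    | none => y
    | some _ => 0
  let u0 := star (t + 2) w0 y0
  let fr : ℤ → Fin r → ℝ := fun h j => Int.fract (β j * h)
  refine ⟨IA ι r, inferInstance, mA hg hν r c, hdA, fun p => match p with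
      | .inr (some none, k) => if ν k then η k else 0
      | _ => 0,
    star (t + 2) (inc hg hν r c u0) (tv hg hν r c β), IB ι r, inferInstance, mB hg hν r c,
    fun p => p.1 = some none, inc hg hν r c, θ hab hg hν r c,
    fun h => SL hg hν r c h (fun j => -fr h j) u0, ?_, ?_, bigr_A, ⟨?_, ?_⟩, ?_,
    ⟨⟨hwB, ?_, hcB⟩, graded_B⟩, ?_, ?_, ?_, ?_, ?_, ?_, ?_, ?_⟩
  · simpa using h1
  · exact good_of_dvd hwA
      (cA_prop (R := fun z => |(z : ℝ)| ≤ Real.exp M) hz hqc (by simpa using h2) (by simpa using h2))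
      (cA_prop (R := fun z => (c : ℤ) ∣ z) (dvd_zero _) hdv dvd_rfl (dvd_neg.2 dvd_rfl))
  · rintro (j | ⟨_ | _ | j, k⟩) hk <;> try rfl
    have : η k = 0 := hη.supp k fun h => hk (by rw [wt_A_inr]; simp [hdA, h])
    simp [this]
  · rintro (j | ⟨_ | _ | j, k⟩) <;> try exact hz
    dsimp only
    split_ifs
    · exact (hη.le k).trans hme
    · exact hz
  · rintro (j | ⟨_ | _ | j, k⟩) hk <;> first | rfl | simp [hdA] at hk
  · have : (0 : ℝ) ≤ r := Nat.cast_nonneg _
    simp only [Fintype.card_prod, Fintype.card_option, Fintype.card_fin, Nat.cast_mul, Nat.cast_add,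
      Nat.cast_one]
    linarith
  · exact good_of_dvd (fun k => (hwB k).trans (Nat.le_succ _)) hcB
      (cB_prop (R := fun z => (c : ℤ) ∣ z) (dvd_zero _) hdv)
  · intro i j k h hj
    have := (cB_ne hg h).2
    have h5 := (hdA (.inr k : IA ι r)).toNat_le
    by_contra hk
    simp [hdA, hj, hk] at this
  · intro i k
    cases k with
    | inl j => exact ⟨0, by simp, hz⟩
    | inr p =>
      rcases e_01 (g := mB hg hν r c) i p with h | h
      · exact ⟨0, by simpa using h, hz⟩
      · exact ⟨1, by simpa using h.1, by simpa using hM0⟩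
  · refine gMap_of_01 hM0 ?_
    rintro ⟨u, i⟩ k
    change θ hab hg hν r c _ k = 0 ∨ (θ hab hg hν r c _ k = 1 ∧ q.wt k = q.wt i)
    rw [θ_apply, ND.add_apply, pv_apply, cp_apply, cp_apply, e_apply, e_apply]
    by_cases hk : k = i
    · subst hk
      rcases u with _ | _ | j <;> by_cases hv : ν k <;> simp [hv]
    · simp [hk]
  · intro Z hZ hZκ
    constructor
    · rintro (j | p) hp
      · rfl
      · change Z p = 0
        by_cases h : p.1 = some none
        · refine hZ p ?_
          rw [wt_A_inr] at hp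
          simp only [hdA, h, decide_true, Bool.toNat_true] at hp
          change q.wt p.2 < _
          omega
        · exact hZκ p h
    · rw [fn_apply, fn_apply, Fintype.sum_sum_type, Fintype.sum_prod_type, Fintype.sum_option,
        Fintype.sum_option]
      simp only [θ_apply, ND.add_apply, pv_apply, cp_apply, inc_apply, incL_inr, Int.cast_zero,
        zero_mul, sum_const_zero, zero_add, add_zero]
      refine sum_congr rfl fun k _ => ?_
      rw [hZκ (none, k) (by simp)]
      split_ifs <;> simp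
  · rintro h h' ⟨_ | _ | j, k⟩ hk
    · rfl
    · exact absurd rfl hk
    · rfl
  · intro h
    have e1 := map_star_on (t + 2) ⊤ (fun _ _ _ _ => trivial) (SL hg hν r c h fun j => -fr h j)
      (fun x _ y _ => SL_lie t hwA _ _ x y) (x := w0) (y := y0) trivial trivial
    change θ hab hg hν r c (SL hg hν r c h (fun j => -fr h j) (star (t + 2) w0 y0)) = _
    rw [e1, Bch.map_star]
    congr 1
    · ext k
      rw [θ_apply, ND.add_apply, pv_apply, cp_apply, cp_apply, SL_b, SL_t]
      have hl : lam β a b h k = h * a k + ∑ j, (⌊β j * h⌋ : ℝ) * b j k := by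
        simp [lam, ND.sum_apply]
      rw [hl]
      split_ifs with hk
      · simp only [w0, mkB, a', ND.add_apply, ND.sum_apply, ND.smul_apply, smul_eq_mul,
          ND.zero_apply, zero_add, mul_add, mul_sum, add_assoc, ← sum_add_distrib, fr]
        congr 1
        refine sum_congr rfl fun j _ => ?_
        rw [Int.fract]
        field_simp
        ring
      · simp [w0, mkB, ha k hk, fun j => hb j k hk]
    · ext k
      rw [θ_apply, ND.add_apply, pv_apply, cp_apply, cp_apply, SL_b, SL_t]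
      simp [y0, mkB]
  · intro h
    refine ⟨tv hg hν r c (fr h), tv hg hν r c fun j => (⌊β j * h⌋ : ℝ), ?_, ?_, fun n => ?_⟩
    · rw [norm_le_iff zero_le_one]
      rintro (j | p)
      · rw [tv_inl, abs_of_nonneg (Int.fract_nonneg _)]
        exact (Int.fract_lt_one _).le
      · simp
    · rintro (j | p)
      · exact ⟨_, rfl⟩
      · exact ⟨0, by simp⟩
    · have e2 : (tv hg hν r c fun j => h * β j) =
          star (t + 2) (tv hg hν r c (fr h)) (tv hg hν r c fun j => (⌊β j * h⌋ : ℝ)) := by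
        rw [Bch.star_of_lie_eq_zero _ (tv_lie_tv _ _), ← tv_add]
        congr 1
        ext j
        rw [Int.fract_add_floor, mul_comm]
      rw [dil2_star bigr_A, dil2_tv, e2, inc_apply, inc_apply, inc_dil_SL t, tv_neg,
        ← Bch.star_assoc, Bch.star_eq_star_Ad (t + 2) (dil2 _ hdA h n _), Bch.star_assoc]
      rfl

end Crest.Agent.T49.GI
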