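import Crest.Agent.T49.GiDef_40

/-!
# Row 49 (helper51): the leaves `PETAL` and `LIN3` of the inverse theorem
-/

set_option autoImplicit false

noncomputable section

namespace Crest.Agent.T49.GI

open Finset Crest.Agent.T49.Nil Crest.Agent.T49.Nil.ND
open Crest.Agent.T49.Bch (star expAd)

namespace P51

variable {ι : Type} [Fintype ι]

theorem le_pw {m : ℝ} (hm : 2 ≤ m) {C : ℕ} (hC : 1 ≤ C) : m ≤ m ^ C :=
  le_self_pow₀ (by linarith) (by omega)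

theorem two_le_pw {m : ℝ} (hm : 2 ≤ m) {C : ℕ} (hC : 1 ≤ C) : 2 ≤ m ^ C := hm.trans (le_pw hm hC)

theorem GR_mono {g : ND ι} {m m' : ℝ} {U : Submodule ℝ g.L} (h : GR g m U) (hm : m ≤ m') :
    GR g m' U := ⟨h.gr, h.rat.mono (Real.exp_le_exp.2 hm)⟩

theorem GR_bot (g : ND ι) (m : ℝ) : GR g m ⊥ :=
  ⟨fun n x hx => by
    have : x = 0 := hx
    subst this
    exact (map_zero (Gon.prj fun i => g.wt i = n)).symm ▸ zero_mem _, Gon.IsRat.bot _⟩

theorem Gd_mono {g : ND ι} {S : ℕ} {m m' : ℝ} (h : Gd g S m) (hm : m ≤ m') : Gd g S m' :=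
  ⟨⟨h.wt_le, h.dim.trans hm, fun i j k => (h.c_le i j k).trans (Real.exp_le_exp.2 hm)⟩, h.gr⟩

theorem SmE_mono {g : ND ι} {T m m' : ℝ} {x : g.L} (h : SmE g T m x) (hm : m ≤ m') :
    SmE g T m' x := fun k => (h k).trans (Real.exp_le_exp.2 hm)

theorem Rt_mono {g : ND ι} {m m' : ℝ} {x : g.L} (h : Rt g m x) (hm : m ≤ m') : Rt g m' x := by
  obtain ⟨q, h1, h2, h3⟩ := h
  exact ⟨q, h1, h2.trans (Real.exp_le_exp.2 hm), h3⟩

theorem SmE_neg {g : ND ι} {T m : ℝ} {x : g.L} (h : SmE g T m x) : SmE g T m (-x) := fun k => by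
  have : (-x) k = -x k := rfl
  rw [this, abs_neg]
  exact h k

theorem Rt_neg {g : ND ι} {m : ℝ} {x : g.L} (h : Rt g m x) : Rt g m (-x) := by
  obtain ⟨q, h1, h2, h3⟩ := h
  exact ⟨q, h1, h2, Gon.IsDen.neg h3⟩

variable {J : Type} [Fintype J] [DecidableEq J]

theorem gmap_pr (g : ND ι) {m : ℝ} (hm : 0 ≤ m) (a : J) :
    GMap (pw g J) g m (pr g ℝ a).toLinearMap := by
  classical
  have h1 : (1 : ℝ) ≤ Real.exp m := Real.one_le_exp hm
  have key : ∀ (i : J × ι) (k : ι),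
      (pr g ℝ a).toLinearMap ((pw g J).e i) k = if (a, k) = i then 1 else 0 := fun i k =>
    e_apply (N := pw g J) i (a, k)
  constructor
  · intro i k
    rw [key]
    split_ifs
    · exact ⟨1, by simp, by simpa using h1⟩
    · exact ⟨0, by simp, by simpa using (Real.exp_pos m).le⟩
  · intro i k h
    rw [key] at h
    split_ifs at h with h'
    · rw [← h']; rfl
    · exact absurd rfl h

theorem gmap_inj (g : ND ι) {m : ℝ} (hm : 0 ≤ m) (a : J) :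
    GMap g (pw g J) m (inj g ℝ a).toLinearMap := by
  classical
  have h1 : (1 : ℝ) ≤ Real.exp m := Real.one_le_exp hm
  have key : ∀ (i : ι) (k : J × ι),
      (inj g ℝ a).toLinearMap (g.e i) k = if k.1 = a ∧ k.2 = i then 1 else 0 := by
    intro i k
    have : (inj g ℝ a).toLinearMap (g.e i) k = pr g ℝ k.1 (inj g ℝ a (g.e i)) k.2 := rfl
    rw [this]
    by_cases h : k.1 = a
    · rw [h, pr_inj_same, e_apply]; simp
    · rw [pr_inj_ne h]; simp [h]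
  constructor
  · intro i k
    rw [key]
    split_ifs
    · exact ⟨1, by simp, by simpa using h1⟩
    · exact ⟨0, by simp, by simpa using (Real.exp_pos m).le⟩
  · intro i k h
    rw [key] at h
    split_ifs at h with h'
    · rw [← h'.2]; rfl
    · exact absurd rfl h

theorem mem_pA {g : ND ι} {𝔥 : LieSubalgebra ℝ (pw g (Fin 4)).L} {i l : Fin 4} {x : g.L} :
    x ∈ pA 𝔥 i l ↔ ∃ z ∈ 𝔥, (∀ j, j ≠ i → j ≠ l → pr g ℝ j z = 0) ∧ pr g ℝ i z = x := by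
  unfold pA
  rw [Submodule.mem_map]
  constructor
  · rintro ⟨z, ⟨h1, h2⟩, h3⟩
    refine ⟨z, h1, fun j hj hl => ?_, h3⟩
    exact (Submodule.mem_iInf _).1 h2 ⟨j, hj, hl⟩
  · rintro ⟨z, h1, h2, h3⟩
    exact ⟨z, ⟨h1, (Submodule.mem_iInf _).2 fun j => h2 j.1 j.2.1 j.2.2⟩, h3⟩

theorem mem_pK {g : ND ι} {𝔥 : LieSubalgebra ℝ (pw g (Fin 4)).L} {i : Fin 4} {x : g.L} :
    x ∈ pK 𝔥 i ↔ inj g ℝ i x ∈ 𝔥 := Iff.rfl

theorem mem_pH {g : ND ι} {𝔥 : LieSubalgebra ℝ (pw g (Fin 4)).L} {i : Fin 4} {x : g.L} :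
    x ∈ pH 𝔥 i ↔ ∃ z ∈ 𝔥, pr g ℝ i z = x := LieSubalgebra.mem_map _ _ _

theorem oth_ne (i : Fin 4) : oth i 0 ≠ oth i 1 := by
  revert i; decide

theorem sg4_ne (i : Fin 4) : sg4 i ≠ 0 := by
  revert i; decide

theorem lie_pA {g : ND ι} {𝔥 : LieSubalgebra ℝ (pw g (Fin 4)).L} {i l : Fin 4} {x y : g.L}
    (hx : x ∈ pH 𝔥 i) (hy : y ∈ pA 𝔥 i l) : ⁅x, y⁆ ∈ pA 𝔥 i l := by
  obtain ⟨z, hz, rfl⟩ := mem_pH.1 hx
  obtain ⟨w, hw, h0, rfl⟩ := mem_pA.1 hy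
  refine mem_pA.2 ⟨⁅z, w⁆, 𝔥.lie_mem hz hw, fun j hj hl => ?_, LieHom.map_lie _ _ _⟩
  rw [LieHom.map_lie, h0 j hj hl, lie_zero]

end P51

open P51

theorem petalStmt (hP : PushStmt) : PetalStmt := by
  obtain ⟨C, hC, hP⟩ := hP
  refine ⟨3 * C ^ 5, Nat.mul_pos (by norm_num) (pow_pos hC 5), ?_⟩
  intro m hm ι _ g η 𝔥 hd hG hη i
  have hm3 : 4 * m ≤ m ^ 3 := by nlinarith [mul_le_mul hm hm (by norm_num) (by linarith)]
  -- the scales
  have hs : ∀ j : ℕ, 2 ≤ m ^ (3 * C ^ j) := fun j =>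
    two_le_pw hm (Nat.mul_pos (by norm_num) (pow_pos hC j))
  have hs3 : ∀ j : ℕ, m ^ 3 ≤ m ^ (3 * C ^ j) := fun j =>
    pow_le_pow_right₀ (by linarith) (Nat.le_mul_of_pos_right 3 (pow_pos hC j))
  have hsucc : ∀ j : ℕ, (m ^ (3 * C ^ j)) ^ C = m ^ (3 * C ^ (j + 1)) := fun j => by
    rw [← pow_mul, pow_succ, mul_assoc]
  have hmono : ∀ {j j' : ℕ}, j ≤ j' → m ^ (3 * C ^ j) ≤ m ^ (3 * C ^ j') := fun h =>
    pow_le_pow_right₀ (by linarith) (Nat.mul_le_mul_left 3 (Nat.pow_le_pow_right hC h))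
  have hd1 : ∀ j : ℕ, (Fintype.card ι : ℝ) ≤ m ^ (3 * C ^ j) := fun j => by
    linarith [hs3 j]
  have hd4 : ∀ j : ℕ, (Fintype.card (Fin 4 × ι) : ℝ) ≤ m ^ (3 * C ^ j) := fun j => by
    rw [Fintype.card_prod, Fintype.card_fin]
    push_cast
    linarith [hs3 j]
  have hG0 : ∀ j : ℕ, GR (pw g (Fin 4)) (m ^ (3 * C ^ j)) 𝔥.toSubmodule := fun j =>
    GR_mono hG (by linarith [hs3 j])
  have down := fun j => hP _ (hs j) _ _ (pw g (Fin 4)) g (hd4 j) (hd1 j)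
  have up := fun j => hP _ (hs j) _ _ g (pw g (Fin 4)) (hd1 j) (hd4 j)
  have hpr : ∀ (j : ℕ) (a : Fin 4), GMap (pw g (Fin 4)) g (m ^ (3 * C ^ j)) (pr g ℝ a).toLinearMap :=
    fun j a => gmap_pr g (by linarith [hs j]) a
  have hA : ∀ l, GR g (m ^ (3 * C ^ 4)) (pA 𝔥 i l) := by
    intro l
    have h1 : ∀ a : Fin 4, GR (pw g (Fin 4)) (m ^ (3 * C ^ 1))
        (LinearMap.ker (pr g ℝ a).toLinearMap) := fun a => by
      have := ((down 0).1 _ (hpr 0 a)).2.1 ⊥ (GR_bot _ _)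
      rwa [hsucc, Submodule.comap_bot] at this
    have h2 := ((down 1).2.2.1 {j : Fin 4 // j ≠ i ∧ j ≠ l} _ fun j => h1 j.1).1
    rw [hsucc] at h2
    have h3 := ((down 2).2.2.2.1 _ _ (hG0 2) h2).1
    rw [hsucc] at h3
    have h4 := ((down 3).1 _ (hpr 3 i)).1 _ h3
    rw [hsucc] at h4
    exact h4
  refine ⟨?_, ?_, ?_, ?_, ?_, ?_, ?_, ?_, ?_⟩
  · have := ((down 0).1 _ (hpr 0 i)).1 _ (hG0 0)
    rw [hsucc] at this
    exact GR_mono this (hmono (by norm_num))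
  · have := ((up 4).2.2.2.1 _ _ (hA (oth i 0)) (hA (oth i 1))).1
    rw [hsucc] at this
    exact this
  · have := ((up 0).1 _ (gmap_inj g (by linarith [hs 0]) i)).2.1 _ (hG0 0)
    rw [hsucc] at this
    exact GR_mono this (hmono (by norm_num))
  · intro x hx
    have h : ∀ l, x ∈ pA 𝔥 i l := fun l =>
      mem_pA.2 ⟨inj g ℝ i x, mem_pK.1 hx, fun j hj _ => pr_inj_ne hj x, pr_inj_same i x⟩
    exact ⟨h _, h _⟩
  · intro x hx
    obtain ⟨z, hz, -, h⟩ := mem_pA.1 hx.1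
    exact mem_pH.2 ⟨z, hz, h⟩
  · intro x hx y hy
    exact ⟨lie_pA hx hy.1, lie_pA hx hy.2⟩
  · intro x hx y hy
    obtain ⟨z, hz, rfl⟩ := mem_pH.1 hx
    have : inj g ℝ i ⁅pr g ℝ i z, y⁆ = ⁅z, inj g ℝ i y⁆ := pw_ext fun j => by
      rw [LieHom.map_lie (pr g ℝ j)]
      by_cases hj : j = i
      · subst hj; rw [pr_inj_same, pr_inj_same]
      · rw [pr_inj_ne hj, pr_inj_ne hj, lie_zero]
    rw [mem_pK, this]
    exact 𝔥.lie_mem hz (mem_pK.1 hy)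
  · intro x hx y hy
    obtain ⟨z, hz, hz0, rfl⟩ := mem_pA.1 hx.1
    obtain ⟨w, hw, hw0, rfl⟩ := mem_pA.1 hy.2
    have : inj g ℝ i ⁅pr g ℝ i z, pr g ℝ i w⁆ = ⁅z, w⁆ := pw_ext fun j => by
      rw [LieHom.map_lie (pr g ℝ j)]
      by_cases hj : j = i
      · subst hj; rw [pr_inj_same]
      · rw [pr_inj_ne hj]
        by_cases h0 : j = oth i 0
        · rw [hw0 j hj (h0 ▸ oth_ne i), lie_zero]
        · rw [hz0 j hj h0, zero_lie]
    rw [mem_pK, this]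
    exact 𝔥.lie_mem hz hw
  · intro x hx
    have h := hη _ (mem_pK.1 hx)
    rw [fn_pwη, sum_eq_single i] at h
    · rw [pr_inj_same] at h
      have hs : (sg4 i : ℝ) ≠ 0 := by
        exact_mod_cast sg4_ne i
      exact (mul_eq_zero.1 h).resolve_left hs
    · intro b _ hb
      rw [pr_inj_ne hb, map_zero, mul_zero]
    · simp

theorem lin3Stmt (hCl : ClosStmt) (hP : PushStmt) (hU : UniqStmt) : Lin3Stmt := by
  intro S
  obtain ⟨C₁, hC₁, hCl⟩ := hCl S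
  obtain ⟨C₂, hC₂, hP⟩ := hP
  obtain ⟨C₃, hC₃, hU⟩ := hU S
  refine ⟨C₂ * C₁ + C₃, by omega, ?_⟩
  intro m hm ι _ g 𝔥 Nn K T y ν hg hT hH hN KH KN lieN lieK abel hy hν hnear
  have := ND.nil hg.wt_le ℝ
  have hm1 : (1 : ℝ) ≤ m := by linarith
  have hT1 : 1 ≤ T := (Real.one_le_exp (by positivity)).trans hT
  have hT3 : Real.exp (m ^ C₃) ≤ T :=
    (Real.exp_le_exp.2 (pow_le_pow_right₀ hm1 (by omega))).trans hT
  obtain ⟨ε, h, γ, hε, hh, hγ, hx⟩ := hnear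
  have hPm := (hP m hm ι ι g g hg.dim hg.dim).2.2.2.1 _ _ hH hN
  -- the ad-stability of `Nn`
  have stabN : ∀ x ∈ 𝔥.toSubmodule ⊔ Nn, ∀ z ∈ Nn, ⁅x, z⁆ ∈ Nn := by
    intro x hx z hz
    obtain ⟨a, ha, b, hb, rfl⟩ := Submodule.mem_sup.1 hx
    rw [add_lie]
    exact add_mem (lieN a ha z hz) (KN (abel b hb z hz))
  let 𝔞 : LieSubalgebra ℝ g.L :=
    { (𝔥.toSubmodule ⊔ Nn : Submodule ℝ g.L) with
      lie_mem' := by
        intro x z hx hz
        obtain ⟨c, hc, d, hd, rfl⟩ := Submodule.mem_sup.1 hz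
        rw [lie_add]
        refine add_mem ?_ (Submodule.mem_sup_right (stabN x hx d hd))
        obtain ⟨a, ha, b, hb, rfl⟩ := Submodule.mem_sup.1 hx
        rw [add_lie]
        refine add_mem (Submodule.mem_sup_left (𝔥.lie_mem ha hc)) (Submodule.mem_sup_right ?_)
        rw [← lie_skew]
        exact neg_mem (lieN c hc b hb) }
  have memH : ∀ x ∈ 𝔥, x ∈ 𝔞 := fun x hx => Submodule.mem_sup_left hx
  have memN : ∀ x ∈ Nn, x ∈ 𝔞 := fun x hx => Submodule.mem_sup_right hx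
  obtain ⟨hεa, hγa⟩ := hU m hm ι g 𝔞 T _ h ε γ hg hT3 hPm.2.1
    (Bch.star_mem S 𝔞 (memN _ hν) (memH _ hy)) (memH _ hh) hε hγ hx
  obtain ⟨u, hu, hεu, hus, -⟩ := hPm.2.2.1 T ε hT1 hεa hε
  obtain ⟨v, hv, hγv, hvr, -⟩ := hPm.2.2.2 γ hγa hγ
  have hm2 : m ≤ m ^ C₂ := le_pw hm hC₂
  have hCl' := hCl (m ^ C₂) (hm.trans hm2) ι g (Gd_mono hg hm2)
  have hfin : (m ^ C₂) ^ C₁ ≤ m ^ (C₂ * C₁ + C₃) := by
    rw [← pow_mul]; exact pow_le_pow_right₀ hm1 (by omega)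
  have hεN : star S ε (-u) ∈ Nn := by
    have h1 : star S ε (-u) - (ε + -u) ∈ Nn := by
      refine Bch.star_sub_mem S Nn (stabN ε hεa) (stabN _ (neg_mem (memH u hu))) ?_
      have : ⁅ε, -u⁆ = ⁅u, ε - u⁆ := by
        rw [lie_sub, lie_self, sub_zero, lie_neg, lie_skew]
      rw [this]
      exact lieN u hu _ hεu
    have h2 := add_mem h1 hεu
    rwa [← sub_eq_add_neg, sub_add_cancel] at h2
  have hγN : star S (-v) γ ∈ Nn := by
    have h1 : star S (-v) γ - (-v + γ) ∈ Nn := by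
      refine Bch.star_sub_mem S Nn (stabN _ (neg_mem (memH v hv))) (stabN γ hγa) ?_
      have : ⁅-v, γ⁆ = ⁅-v, γ - v⁆ := by
        rw [lie_sub, neg_lie v v, lie_self, neg_zero, sub_zero]
      rw [this]
      exact lieN _ (neg_mem hv) _ hγv
    have h2 := add_mem h1 hγv
    rwa [neg_add_eq_sub, sub_add_cancel] at h2
  refine ⟨star S ε (-u), hεN, star S (-v) γ, hγN,
    SmE_mono (hCl'.1 T _ _ hT1 (SmE_mono hε hm2) (SmE_neg hus)) hfin,
    Rt_mono (hCl'.2.1 _ _ (Rt_neg hvr) (Rt_mono hγ hm2)) hfin, ?_⟩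
  set a := star S ε (-u) with ha
  set b := star S (-v) γ with hb
  set c := Bch.Ad S y (-b) with hc
  have hcN : c ∈ Nn := Bch.Ad_mem S Nn (lieN y hy) (neg_mem hγN)
  have hε' : ε = star S a u := by rw [ha, Bch.star_neg_star']
  have hγ' : γ = star S v b := by rw [hb, Bch.star_neg_star]
  have hw : star S (-a) (star S ν c) = star S (star S u (star S h v)) (-y) := by
    have h1 : star S (star S ν c) y = star S (star S ν y) (-b) := by
      rw [Bch.star_assoc, Bch.star_assoc, hc, ← Bch.star_eq_Ad_star]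
    have h2 : star S ν c = star S (star S (star S ν y) (-b)) (-y) := by
      rw [← h1, Bch.star_star_neg]
    rw [h2, hx]
    conv_lhs => rw [hε', hγ']
    simp only [Bch.star_assoc, Bch.neg_star_star, Bch.star_neg_star]
  have hwH : star S (-a) (star S ν c) ∈ 𝔥 := by
    rw [hw]
    exact Bch.star_mem S 𝔥 (Bch.star_mem S 𝔥 hu (Bch.star_mem S 𝔥 hh hv)) (neg_mem hy)
  have hK : ∀ x ∈ Nn, ∀ z ∈ Nn, star S x z - (x + z) ∈ K := fun x hx z hz =>
    Bch.star_sub_mem S K (fun k hk => abel x hx k (KN hk)) (fun k hk => abel z hz k (KN hk))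
      (abel x hx z hz)
  have h1 := hK ν hν c hcN
  have hνc : star S ν c ∈ Nn := by
    have := add_mem (KN h1) (add_mem hν hcN)
    rwa [sub_add_cancel] at this
  have h2 := hK (-a) (neg_mem hεN) _ hνc
  have h3 : ν - a - expAd S y b
      = star S (-a) (star S ν c) - (star S (-a) (star S ν c) - (-a + star S ν c))
        - (star S ν c - (ν + c)) := by
    have : c = -expAd S y b := by rw [hc, map_neg]; rfl
    rw [this]
    abel
  rw [h3]
  exact sub_mem (sub_mem hwH (KH h2)) (KH h1)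

end Crest.Agent.T49.GI
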