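import Crest.Agent.T49.GiDef_40
import Crest.Agent.T49.NilUq_61

/-!
# Row 49 (helper61): `PullStmt` and `UniqStmt` of the GI block
-/

set_option autoImplicit false

noncomputable section

namespace Crest.Agent.T49.GI

open Finset Crest.Agent.T49.Nil Crest.Agent.T49.Nil.ND Crest.Agent.T49.Nil.St
open Crest.Agent.T49.Bch (star ev two tail)

namespace P61

theorem map_star_on {L L' : Type*} [LieRing L] [LieAlgebra ℝ L] [LieRing L'] [LieAlgebra ℝ L']
    (s : ℕ) (A : Submodule ℝ L) (hA : ∀ a ∈ A, ∀ b ∈ A, ⁅a, b⁆ ∈ A) (f : L →ₗ[ℝ] L')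
    (hf : ∀ a ∈ A, ∀ b ∈ A, f ⁅a, b⁆ = ⁅f a, f b⁆) {x y : L} (hx : x ∈ A) (hy : y ∈ A) :
    f (star s x y) = star s (f x) (f y) := by
  have hm : ∀ b, two x y b ∈ A := fun b => by cases b; exacts [hy, hx]
  have key : ∀ w : FreeMagma Bool, f (ev (two x y) w) = ev (two (f x) (f y)) w := by
    intro w
    induction w using FreeMagma.recOnMul with
    | ih1 b => cases b <;> rfl
    | ih2 u v hu hv =>
      rw [Bch.ev_mul, Bch.ev_mul, hf _ (ev_mem A hA _ hm u) _ (ev_mem A hA _ hm v), hu, hv]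
  simp only [Bch.star, map_add, map_sum, map_smul, key]

variable {ι ι' : Type} [Fintype ι] [Fintype ι'] {g : ND ι} {g' : ND ι'}

theorem hp_apply (n : ℕ) (x : g.L) (k : ι) : hp g n x k = if g.wt k = n then x k else 0 := by
  split_ifs with h
  · exact Gon.prj_pos (p := fun k => g.wt k = n) x h
  · exact Gon.prj_neg (p := fun k => g.wt k = n) x h

theorem hp_mem_F (n : ℕ) (x : g.L) : hp g n x ∈ g.F n := fun k hk => by
  rw [hp_apply, if_neg hk.ne]

theorem hp_eq_zero {n : ℕ} {x : g.L} (hx : x ∈ g.F (n + 1)) : hp g n x = 0 := pts_ext fun k => by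
  rw [hp_apply]; split_ifs with h
  · exact hx k (by omega)
  · rfl

theorem hp_hp (n : ℕ) (x : g.L) : hp g n (hp g n x) = hp g n x := Gon.prj_prj _ x

theorem sub_hp_mem {n : ℕ} {x : g.L} (hx : x ∈ g.F n) : x - hp g n x ∈ g.F (n + 1) := fun k hk => by
  rw [ND.sub_apply, hp_apply]; split_ifs with h
  · exact sub_self _
  · rw [hx k (by omega), sub_zero]

theorem hp_lie (hg : Graded g) (i j : ℕ) (x y : g.L) :
    hp g (i + j) ⁅hp g i x, hp g j y⁆ = ⁅hp g i x, hp g j y⁆ := pts_ext fun k => by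
  rw [hp_apply]; split_ifs with h
  · rfl
  · rw [lie_apply]
    refine (sum_eq_zero fun a _ => sum_eq_zero fun b _ => ?_).symm
    by_cases hc : g.c a b k = 0
    · simp [hc]
    have := hg a b k hc
    rw [hp_apply, hp_apply]
    split_ifs with h1 h2
    · omega
    · simp
    · simp
    · simp

theorem map_hp {m : ℝ} {φ : g.L →ₗ[ℝ] g'.L} (hφ : GMap g g' m φ) (n : ℕ) (x : g.L) :
    φ (hp g n x) = hp g' n (φ x) := pts_ext fun k => by
  rw [hp_apply, ← bcl_real φ, ← bcl_real φ x, bcl_apply, bcl_apply]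
  split_ifs with h
  · refine sum_congr rfl fun i _ => ?_
    by_cases h0 : φ (g.e i) k = 0
    · simp [h0]
    · rw [hp_apply, if_pos ((hφ.gr i k h0).symm.trans h)]
  · refine sum_eq_zero fun i _ => ?_
    by_cases h0 : φ (g.e i) k = 0
    · simp [h0]
    · rw [hp_apply, if_neg fun h1 => h ((hφ.gr i k h0).trans h1), smul_zero]

theorem map_mem_F {m : ℝ} {φ : g.L →ₗ[ℝ] g'.L} (hφ : GMap g g' m φ) (n : ℕ) :
    ∀ x ∈ g.F n, φ x ∈ g'.F n := fun x hx k hk => by
  rw [← bcl_real φ x, bcl_apply]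
  refine sum_eq_zero fun i _ => ?_
  by_cases h0 : φ (g.e i) k = 0
  · simp [h0]
  · rw [hx i (by rw [← hφ.gr i k h0]; exact hk), smul_zero]

theorem eq_single (α : Unit →₀ ℕ) : α = Finsupp.single () α.degree := by
  ext
  simp [Finsupp.degree_eq_sum]

theorem deg_single (n : ℕ) : (Finsupp.single () n).degree = n := Finsupp.degree_single _ _

theorem cv_hom (α : Unit →₀ ℕ) (x : g.L) : g.cv α (hom g x) = hp g α.degree x := pts_ext fun k => by
  rw [hp_apply, cv_apply, hom, MvPolynomial.coeff_monomial]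
  congr 1
  refine propext ⟨fun h => by rw [← h, deg_single], fun h => by rw [h, ← eq_single]⟩

theorem hom_mem_poly (x : g.L) : hom g x ∈ g.poly Unit := fun α => by
  rw [cv_hom]; exact hp_mem_F _ _

/-- the symbol -/
def sy (g : ND ι) : g.PS Unit →ₗ[ℝ] g.L where
  toFun P k := g.cv (Finsupp.single () (g.wt k)) P k
  map_add' P Q := pts_ext fun k => by rw [map_add]; rfl
  map_smul' r P := pts_ext fun k => by rw [map_smul]; rfl

theorem sy_apply (P : g.PS Unit) (k : ι) : sy g P k = g.cv (Finsupp.single () (g.wt k)) P k := rfl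

theorem hp_sy (n : ℕ) (P : g.PS Unit) :
    hp g n (sy g P) = hp g n (g.cv (Finsupp.single () n) P) := pts_ext fun k => by
  rw [hp_apply, hp_apply]; split_ifs with h
  · rw [sy_apply, h]
  · rfl

theorem sy_hom (x : g.L) : sy g (hom g x) = x := pts_ext fun k => by
  rw [sy_apply, cv_hom, deg_single, hp_apply, if_pos rfl]

theorem sy_lie (hg : Graded g) : ∀ P ∈ g.poly Unit, ∀ Q ∈ g.poly Unit,
    sy g ⁅P, Q⁆ = ⁅sy g P, sy g Q⁆ := fun P hP Q hQ => pts_ext fun k => by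
  classical
  rw [sy_apply, cv_apply, lie_apply, lie_apply, MvPolynomial.coeff_sum]
  refine sum_congr rfl fun i _ => ?_
  rw [MvPolynomial.coeff_sum]
  refine sum_congr rfl fun j _ => ?_
  by_cases hc : g.c i j k = 0
  · simp [hc]
  have hw := hg i j k hc
  rw [mul_assoc, ← map_intCast (MvPolynomial.C : ℝ →+* MvPolynomial Unit ℝ),
    MvPolynomial.coeff_C_mul, MvPolynomial.coeff_mul, mul_assoc,
    sum_eq_single (Finsupp.single () (g.wt i), Finsupp.single () (g.wt j))]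
  · rfl
  · intro p hp hne
    have h1 : p.1.degree + p.2.degree = g.wt k := by
      rw [← map_add, mem_antidiagonal.1 hp, deg_single]
    by_cases h2 : g.wt i < p.1.degree
    · have : (P i).coeff p.1 = 0 := hP p.1 i h2
      rw [this, zero_mul]
    by_cases h3 : g.wt j < p.2.degree
    · have : (Q j).coeff p.2 = 0 := hQ p.2 j h3
      rw [this, mul_zero]
    refine absurd (Prod.ext ?_ ?_) hne
    · rw [eq_single p.1]; congr 1; omega
    · rw [eq_single p.2]; congr 1; omega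
  · intro h
    refine absurd (HasAntidiagonal.mem_antidiagonal.2 ?_) h
    rw [← Finsupp.single_add, hw]

theorem sy_star (hg : Graded g) (S : ℕ) {P Q : g.PS Unit} (hP : P ∈ g.poly Unit)
    (hQ : Q ∈ g.poly Unit) : sy g (star S P Q) = star S (sy g P) (sy g Q) :=
  map_star_on S _ (fun _ ha _ hb => lie_mem_poly ha hb) _ (sy_lie hg) hP hQ

/-- `hom` as a linear map -/
def homL (g : ND ι) : g.L →ₗ[ℝ] g.PS Unit where
  toFun x := hom g x
  map_add' x y := ps_ext fun α => by rw [map_add, cv_hom, cv_hom, cv_hom, map_add]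
  map_smul' r x := ps_ext fun α => by rw [RingHom.id_apply, map_smul, cv_hom, cv_hom, map_smul]

theorem hom_lie (hg : Graded g) (x y : g.L) :
    hom g (⁅x, y⁆ : g.L) = ⁅hom g x, hom g y⁆ := pts_ext fun k => by
  rw [lie_apply, hom, lie_apply, map_sum]
  refine sum_congr rfl fun i _ => ?_
  rw [map_sum]
  refine sum_congr rfl fun j _ => ?_
  by_cases hc : g.c i j k = 0
  · simp [hc]
  rw [hom, hom, ← hg i j k hc, ← map_intCast (MvPolynomial.C : ℝ →+* MvPolynomial Unit ℝ),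
    MvPolynomial.C_mul_monomial, MvPolynomial.monomial_mul, Finsupp.single_add]

theorem hom_star (hg : Graded g) (S : ℕ) (x y : g.L) :
    hom g (star S x y : g.L) = star S (hom g x) (hom g y) :=
  map_star_on S ⊤ (fun _ _ _ _ => trivial) (homL g) (fun a _ b _ => hom_lie hg a b) trivial trivial

theorem bc_hom {m : ℝ} {φ : g.L →ₗ⁅ℝ⁆ g'.L} (hφ : GMap g g' m φ.toLinearMap) (x : g.L) :
    bc φ _ (hom g x) = hom g' (φ x) := ps_ext fun α => by
  rw [cv_bc, cv_hom, cv_hom]; exact map_hp hφ _ x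

theorem Sm_hom {T m : ℝ} (hT : 0 ≤ T) {x : g.L} (h : SmE g T m x) :
    g.Sm T (Real.exp m) (hom g x) := fun α => by
  rw [cv_hom]
  rcases hT.eq_or_lt with rfl | hT
  · rcases Nat.eq_zero_or_pos α.degree with h0 | h0
    · rw [h0, hp_eq_zero (mem_FA_one x), norm_zero, zero_mul]; positivity
    · rw [zero_pow h0.ne', mul_zero]; positivity
  rw [← le_div_iff₀ (by positivity)]
  refine (norm_le_iff (by positivity)).2 fun k => ?_
  rw [hp_apply]; split_ifs with hk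
  · rw [le_div_iff₀ (by positivity), ← hk]; exact h k
  · rw [abs_zero]; positivity

theorem RatP_hom {q : ℕ} {x : g.L} (h : g.Den q x) : g.RatP q (hom g x) := fun α => by
  rw [cv_hom]; exact Gon.IsDen.prj h _

theorem smE_sy {T m : ℝ} (hT : 0 ≤ T) {P : g.PS Unit} (h : g.Sm T (Real.exp m) P) :
    SmE g T m (sy g P) := fun k => by
  have := h (Finsupp.single () (g.wt k))
  rw [deg_single] at this
  exact (mul_le_mul_of_nonneg_right (abs_apply_le (g.cv (Finsupp.single () (g.wt k)) P) k)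
    (by positivity)).trans this

theorem den_sy {q : ℕ} {P : g.PS Unit} (h : g.RatP q P) : g.Den q (sy g P) :=
  den_iff.2 fun k => den_iff.1 (h _) k

/-- the family attached to a graded subspace -/
def fam (g : ND ι) (U : Submodule ℝ g.L) (i : ℕ) : Submodule ℝ g.L := g.F (i + 1) ⊔ U.map (hp g i)

theorem mem_fam {U : Submodule ℝ g.L} (hU : IsG g U) {i : ℕ} {x : g.L} :
    x ∈ fam g U i ↔ x ∈ g.F i ∧ hp g i x ∈ U := by
  constructor
  · intro hx
    obtain ⟨a, ha, _, ⟨u, hu, rfl⟩, rfl⟩ := Submodule.mem_sup.1 hx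
    refine ⟨add_mem (FA_anti (Nat.le_succ i) ha) (hp_mem_F _ _), ?_⟩
    rw [map_add, hp_eq_zero ha, zero_add, hp_hp]
    exact hU i u hu
  · rintro ⟨h1, h2⟩
    exact Submodule.mem_sup.2 ⟨_, sub_hp_mem h1, _, ⟨_, h2, hp_hp i x⟩, sub_add_cancel _ _⟩

theorem grSub_fam (hg : Graded g) (𝔥 : LieSubalgebra ℝ g.L) (hU : IsG g 𝔥.toSubmodule) :
    g.GrSub (fam g 𝔥.toSubmodule) := by
  refine ⟨fun i x hx => ((mem_fam hU).1 hx).1, fun i => le_sup_left, fun i j x hx y hy => ?_⟩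
  obtain ⟨h1, h2⟩ := (mem_fam hU).1 hx
  obtain ⟨h3, h4⟩ := (mem_fam hU).1 hy
  have e : ⁅x, y⁆ = (⁅x - hp g i x, y⁆ + ⁅hp g i x, y - hp g j y⁆) + ⁅hp g i x, hp g j y⁆ := by
    rw [sub_lie, lie_sub]; abel
  rw [e]
  refine add_mem (Submodule.mem_sup_left (add_mem ?_ ?_))
    (Submodule.mem_sup_right ⟨_, 𝔥.lie_mem h2 h4, hp_lie hg i j x y⟩)
  · exact FA_anti (by omega) (lie_mem_FA (sub_hp_mem h1) h3)
  · exact lie_mem_FA (j := j + 1) (hp_mem_F i x) (sub_hp_mem h3)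

theorem ratS_fam {U : Submodule ℝ g.L} {H : ℝ} (hH : 1 ≤ H) (h : g.RatS H U) (i : ℕ) :
    g.RatS H (fam g U i) :=
  Gon.IsRat.sup (ratS_F hH _) (Gon.IsRat.map_prj h (by linarith) _)

theorem hom_mem_cf {U : Submodule ℝ g.L} (hU : IsG g U) {x : g.L} :
    hom g x ∈ cf Unit (fam g U) ↔ x ∈ U := by
  constructor
  · intro h
    refine (Gon.IsGr.mem_iff hU x).2 fun n => ?_
    have := ((mem_fam hU).1 (h (Finsupp.single () n))).2
    rwa [cv_hom, deg_single, hp_hp] at this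
  · intro h α
    rw [cv_hom]
    exact Submodule.mem_sup_right ⟨x, h, rfl⟩

end P61

open P61

theorem uniqStmt : UniqStmt := by
  intro S
  obtain ⟨C, hC⟩ := uniq_qp
  refine ⟨C + 1, by omega, fun m hm ι _ g 𝔥 T x y ε γ hg hT h𝔥 hx hy hε ⟨q, hq1, hq, hγ⟩ he => ?_⟩
  have h1 := hC m hm S ι Unit g (fam g 𝔥.toSubmodule) T q (hom g ε) (hom g γ) (hom g y) hg.dim
    (grSub_fam hg.gr 𝔥 h𝔥.gr) (ratS_fam (Real.one_le_exp (by linarith)) h𝔥.rat) hq1 hq
    ((exp_pow_mono hm (Nat.le_succ C)).trans hT) (hom_mem_poly _) (hom_mem_poly _)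
    (Sm_hom ((Real.exp_pos _).le.trans hT) hε) (RatP_hom hγ) ((hom_mem_cf h𝔥.gr).2 hy)
    (by rw [← hom_star hg.gr, ← hom_star hg.gr, ← he]; exact (hom_mem_cf h𝔥.gr).2 hx)
  exact ⟨(hom_mem_cf h𝔥.gr).1 h1.1, (hom_mem_cf h𝔥.gr).1 h1.2⟩

theorem pullStmt : PullStmt := by
  intro S
  obtain ⟨C, hC⟩ := pull S
  refine ⟨2 * C + 1, by omega, fun m hm ι ι' J _ _ _ g g' φ 𝔥 T x hg hg' hJ hT hφ h𝔥 hx => ?_⟩
  have hm2 : m ≤ m ^ 2 := le_self_pow₀ (by linarith) (by omega)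
  have hE : Real.exp m ≤ Real.exp (m ^ 2) := Real.exp_le_exp.2 hm2
  have hE' : Real.exp ((m ^ 2) ^ C) ≤ Real.exp (m ^ (2 * C + 1)) := by
    rw [← pow_mul]; exact exp_pow_mono hm (Nat.le_succ _)
  have hT0 : 0 ≤ T := (Real.exp_pos _).le.trans hT
  choose ε y γ hε hy hγ he using hx
  choose q hq1 hq hγ using hγ
  obtain ⟨-, -, h1⟩ := hC (m ^ 2) (by linarith) ι J (fun _ => ι') g (fun _ => g') φ
    (fun a => fam g' (𝔥 a).toSubmodule) (hg.dim.trans hm2) (fun _ => hg'.dim.trans hm2) hg.wt_le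
    (fun _ => hg'.wt_le) (fun i j k => (hg.c_le i j k).trans hE)
    (fun _ i j k => (hg'.c_le i j k).trans hE)
    (fun a i k => by
      obtain ⟨z, h1, h2⟩ := (hφ a).int i k
      exact ⟨z, h1, h2.trans hE⟩)
    (fun a i => map_mem_F (hφ a) i) (fun a => grSub_fam hg'.gr _ (h𝔥 a).gr)
    fun a i => (ratS_fam (Real.one_le_exp (by linarith)) (h𝔥 a).rat i).mono hE
  obtain ⟨q', hq'1, hq', -, h2⟩ := h1 (∏ a, q a) (Nat.succ_le_of_lt (prod_pos fun a _ => hq1 a)) (by
    push_cast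
    refine (prod_le_prod (fun a _ => Nat.cast_nonneg _) fun a _ => hq a).trans ?_
    rw [prod_const, ← Real.exp_nat_mul, card_univ]
    exact Real.exp_le_exp.2 (by nlinarith))
  obtain ⟨e, he1, h, hh, r, hr1, he2, hr2, hP⟩ := h2 Unit T (hom g x) (hE'.trans hT)
    (hom_mem_poly x) fun a => ⟨hom g' (ε a), hom_mem_poly _, hom g' (y a),
      (hom_mem_cf (h𝔥 a).gr).2 (hy a), hom g' (γ a), hom_mem_poly _, (Sm_hom hT0 (hε a)).mono hE,
      (RatP_hom (hγ a)).of_dvd (dvd_prod_of_mem _ (mem_univ a)), by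
        rw [bc_hom (hφ a), he a, hom_star hg'.gr, hom_star hg'.gr]⟩
  have hhp : h ∈ g.poly Unit := fun α => (mem_pb.1 (hh α)).1
  refine ⟨sy g e, sy g h, sy g r, smE_sy hT0 (he2.mono hE'), ?_, ⟨q', hq'1, hq'.trans hE', den_sy hr2⟩,
    by rw [← sy_star hg.gr S hhp hr1, ← sy_star hg.gr S he1 (star_mem_poly S hhp hr1), ← hP, sy_hom]⟩
  refine (Submodule.mem_iInf _).2 fun a => (Gon.IsGr.mem_iff (h𝔥 a).gr _).2 fun n => ?_
  have h3 := ((mem_fam (h𝔥 a).gr).1 ((mem_pb.1 (hh (Finsupp.single () n))).2 a)).2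
  rw [deg_single] at h3
  change hp g' n ((φ a).toLinearMap (sy g h)) ∈ _
  rw [← map_hp (hφ a), hp_sy, map_hp (hφ a)]
  exact h3

end Crest.Agent.T49.GI
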