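import Crest.Agent.T49.GiDef_40
import Crest.Agent.T49.LtRedK_85
import Crest.Agent.T49.Qp_85

/-!
# Row 49 (helper14): the leaf `PUSH` of `GI`
-/

set_option autoImplicit false

noncomputable section

namespace Crest.Agent.T49.GI

open Finset Crest.Agent.T49.Nil Crest.Agent.T49.Nil.ND
open Crest.Agent.T49.Bch (star)

namespace Push14

variable {ι ι' : Type} [Fintype ι] [Fintype ι'] {g : ND ι} {g' : ND ι'}

theorem hp_pos {n : ℕ} (x : g.L) {k : ι} (h : g.wt k = n) : hp g n x k = x k := Gon.prj_pos x h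

theorem hp_neg {n : ℕ} (x : g.L) {k : ι} (h : g.wt k ≠ n) : hp g n x k = 0 := Gon.prj_neg x h

theorem hp_hp (n : ℕ) (x : g.L) : hp g n (hp g n x) = hp g n x := Gon.prj_prj _ x

theorem hp_ext {x y : g.L} (h : ∀ n, hp g n x = hp g n y) : x = y := pts_ext fun k => by
  rw [← hp_pos x rfl, h, hp_pos y rfl]

theorem mem_iff {U : Submodule ℝ g.L} (h : IsG g U) (x : g.L) : x ∈ U ↔ ∀ n, hp g n x ∈ U :=
  Gon.IsGr.mem_iff h x

theorem hp_e (n : ℕ) (i : ι) : hp g n (g.e i) = if g.wt i = n then g.e i else 0 := by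
  classical
  ext k
  by_cases hk : g.wt k = n
  · rw [hp_pos _ hk]
    split_ifs with h
    · rfl
    · rw [e_apply, if_neg]
      · rfl
      · rintro rfl; exact h hk
  · rw [hp_neg _ hk]
    split_ifs with h
    · rw [e_apply, if_neg]
      rintro rfl; exact hk h
    · rfl

theorem map_hp {φ : g.L →ₗ[ℝ] g'.L} (h : ∀ i k, φ (g.e i) k ≠ 0 → g'.wt k = g.wt i) (n : ℕ)
    (x : g.L) : φ (hp g n x) = hp g' n (φ x) := by
  rw [eq_sum_e' x]
  simp only [map_sum, map_smul]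
  refine sum_congr rfl fun i _ => ?_
  congr 1
  rw [hp_e]
  ext k
  by_cases h0 : φ (g.e i) k = 0
  · by_cases hk : g'.wt k = n
    · rw [hp_pos _ hk]
      split_ifs
      · rfl
      · rw [map_zero, h0]; rfl
    · rw [hp_neg _ hk]
      split_ifs
      · exact h0
      · rw [map_zero]; rfl
  · have h1 := h i k h0
    split_ifs with hi
    · rw [hp_pos _ (h1.trans hi)]
    · rw [hp_neg _ (h1 ▸ hi), map_zero]; rfl

/-- the block diagonal part of a linear map -/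
def gp (l : g'.L →ₗ[ℝ] g.L) : g'.L →ₗ[ℝ] g.L where
  toFun y k := l (hp g' (g.wt k) y) k
  map_add' x y := funext fun k => by simp only [map_add]; rfl
  map_smul' r x := funext fun k => by simp only [map_smul]; rfl

theorem gp_apply (l : g'.L →ₗ[ℝ] g.L) (y : g'.L) (k : ι) : gp l y k = l (hp g' (g.wt k) y) k := rfl

theorem hp_gp (l : g'.L →ₗ[ℝ] g.L) (n : ℕ) (y : g'.L) :
    hp g n (gp l y) = hp g n (l (hp g' n y)) := by
  ext k
  by_cases hk : g.wt k = n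
  · rw [hp_pos _ hk, hp_pos _ hk, gp_apply, hk]
  · rw [hp_neg _ hk, hp_neg _ hk]

theorem gp_eq {φ : g.L →ₗ[ℝ] g'.L} (h : ∀ n x, φ (hp g n x) = hp g' n (φ x)) (x : g.L) :
    gp φ x = φ x := pts_ext fun k => by rw [gp_apply, h, hp_pos _ rfl]

theorem sm_gp {l : g'.L →ₗ[ℝ] g.L} {B R T : ℝ} (hB : 0 ≤ B) (hR : 0 ≤ R) (hT : 0 < T)
    (hl : ∀ y, ‖l y‖ ≤ B * ‖y‖) {y : g'.L} (hy : ∀ k, |y k| * T ^ g'.wt k ≤ R) (k : ι) :
    |gp l y k| * T ^ g.wt k ≤ B * R := by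
  have hpos : 0 < T ^ g.wt k := by positivity
  have h1 : ‖hp g' (g.wt k) y‖ ≤ R / T ^ g.wt k :=
    (Gon.norm_prj_le_iff (by positivity)).2 fun j hj => by
      rw [le_div_iff₀ hpos, ← hj]; exact hy j
  rw [le_div_iff₀ hpos] at h1
  have h2 : |gp l y k| ≤ B * ‖hp g' (g.wt k) y‖ :=
    (abs_apply_le (l (hp g' (g.wt k) y)) k).trans (hl _)
  refine (mul_le_mul_of_nonneg_right h2 hpos.le).trans ?_
  rw [mul_assoc]
  exact mul_le_mul_of_nonneg_left h1 hB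

theorem den_gp {l : g'.L →ₗ[ℝ] g.L} {q r : ℕ} (hl : ∀ y, g'.Den r y → g.Den q (l y)) {y : g'.L}
    (hy : g'.Den r y) : g.Den q (gp l y) :=
  den_iff.2 fun k => den_iff.1 (hl _ (Gon.IsDen.prj hy _)) k

/-- a graded lift -/
theorem exists_glift {φ : g.L →ₗ[ℝ] g'.L} {H : ℝ} {d : ℕ} (hφ : g.IntMap g' H φ)
    (hgr : ∀ n x, φ (hp g n x) = hp g' n (φ x)) (hH : 1 ≤ H) (hd : Fintype.card ι ≤ d)
    {U : Submodule ℝ g.L} (hU : g.RatS H U) (hUg : IsG g U) :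
    ∃ (q : ℕ) (ρ : g'.L →ₗ[ℝ] g.L), 1 ≤ q ∧ (q : ℝ) ≤ Gon.bl d (Gon.bl d H) ∧ (∀ y, ρ y ∈ U) ∧
      (∀ x ∈ U, φ (ρ (φ x)) = φ x) ∧ (∀ r y, g'.Den r y → g.Den (q * r) (ρ y)) ∧
      ∀ (T R : ℝ) (y : g'.L), 0 < T → 0 ≤ R → (∀ k, |y k| * T ^ g'.wt k ≤ R) →
        ∀ k, |ρ y k| * T ^ g.wt k ≤ Gon.bl d H * Gon.bl d (Gon.bl d H) * R := by
  obtain ⟨q, l, hq1, hq2, h1, h2, h3, h4⟩ := RedK85.exists_lift hφ hH hd hU
  have hb1 := Gon.one_le_bl d hH
  have hb2 := Gon.one_le_bl d hb1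
  refine ⟨q, gp l, hq1, hq2, fun y => (mem_iff hUg _).2 fun n => ?_, fun x hx => hp_ext fun n => ?_,
    fun r y hy => den_gp (h4 r) hy, fun T R y hT hR hy => sm_gp (by positivity) hR hT h3 hy⟩
  · rw [hp_gp]; exact hUg n _ (h1 _)
  · rw [← hgr, hp_gp, hgr, h2 _ ⟨hp g n x, hUg n x hx, hgr n x⟩, hp_hp]

/-- a graded integer map with prescribed kernel -/
theorem exists_gker {H : ℝ} {d : ℕ} (hH : 1 ≤ H) (hd : Fintype.card ι ≤ d)
    {U : Submodule ℝ g.L} (hU : g.RatS H U) (hUg : IsG g U) :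
    ∃ p : g.L →ₗ[ℝ] g.L, g.IntMap g (Gon.bl d H) p ∧ (∀ i k, p (g.e i) k ≠ 0 → g.wt k = g.wt i) ∧
      LinearMap.ker p = U := by
  classical
  obtain ⟨q, P, hq1, -, hP, -, hker, hproj⟩ := Gon.IsRat.exists_proj hU hH hd
  set l : g.L →ₗ[ℝ] g.L := Gon.lin P with hl
  have he : ∀ i k, l (g.e i) k = P k i := fun i k => by
    change Gon.lin P (g.e i) k = _
    rw [Gon.lin_apply]
    simp [e_apply]
  refine ⟨gp l, fun i k => ?_, fun i k h => ?_, ?_⟩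
  · rw [gp_apply, hp_e]
    split_ifs
    · exact ⟨P k i, he i k, hP k i⟩
    · exact ⟨0, by simp, by simpa using zero_le_one.trans (Gon.one_le_bl d hH)⟩
  · by_contra h1
    rw [gp_apply, hp_e, if_neg (Ne.symm h1), map_zero] at h
    exact h rfl
  · ext x
    rw [LinearMap.mem_ker]
    constructor
    · intro hx
      refine (mem_iff hUg x).2 fun n => ?_
      have h1 : hp g n ((q : ℝ) • hp g n x - l (hp g n x)) ∈ U := hUg n _ (hproj (hp g n x))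
      rw [map_sub, map_smul, hp_hp, ← hp_gp, hx, map_zero, sub_zero] at h1
      have hq0 : (q : ℝ) ≠ 0 := by positivity
      exact (U.smul_mem_iff hq0).1 h1
    · intro hx
      ext k
      have h1 : l (hp g (g.wt k) x) = 0 := (hker _).1 (hUg _ x hx)
      rw [gp_apply, h1]

end Push14

open Push14 in
theorem pushStmt : PushStmt := by
  obtain ⟨C, hC⟩ : ∃ C : ℕ, ∀ (m : ℝ) (d : ℕ), 2 ≤ m → (d : ℝ) ≤ m →
      d * Real.exp m * Real.exp m ≤ Real.exp (m ^ C) ∧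
      Gon.bl d (Gon.bl d (Gon.bl d (Real.exp m))) ≤ Real.exp (m ^ C) ∧
      Gon.bl d (Real.exp m) * Gon.bl d (Gon.bl d (Real.exp m)) * Real.exp m ≤ Real.exp (m ^ C) ∧
      Gon.bl d (Gon.bl d (Real.exp m)) ≤ Real.exp (m ^ C) ∧
      Real.exp m + Gon.bl d (Gon.bl d (Real.exp m)) * Gon.bl d (Gon.bl d (Gon.bl d (Real.exp m))) *
        (d * Gon.bl d (Real.exp m) * Real.exp m) ≤ Real.exp (m ^ C) ∧
      Gon.bl d (Gon.bl d (Gon.bl d (Real.exp m))) * Real.exp m ≤ Real.exp (m ^ C) ∧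
      Gon.bl d (Real.exp m) ≤ Real.exp (m ^ C) ∧ Real.exp m ≤ Real.exp (m ^ C) := by
    unfold Gon.bl; qp
  refine ⟨C + 1, by omega, fun m hm ι ι' _ _ g g' hι hι' => ?_⟩
  set d := max (Fintype.card ι) (Fintype.card ι') with hd
  have hdι : Fintype.card ι ≤ d := le_max_left _ _
  have hdι' : Fintype.card ι' ≤ d := le_max_right _ _
  have hCC : Real.exp (m ^ C) ≤ Real.exp (m ^ (C + 1)) :=
    Real.exp_le_exp.2 (pow_le_pow_right₀ (by linarith) (Nat.le_succ C))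
  obtain ⟨b1, b2, b3, b4, b5, b6, b7, b8⟩ := hC m d hm (by rw [hd]; push_cast; exact max_le hι hι')
  replace b1 := b1.trans hCC
  replace b2 := b2.trans hCC
  replace b3 := b3.trans hCC
  replace b4 := b4.trans hCC
  replace b5 := b5.trans hCC
  replace b6 := b6.trans hCC
  replace b7 := b7.trans hCC
  replace b8 := b8.trans hCC
  set M := Real.exp m with hM
  have hM1 : 1 ≤ M := Real.one_le_exp (by linarith)
  have hb1 := Gon.one_le_bl d hM1
  have hb2 := Gon.one_le_bl d hb1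
  have hb3 := Gon.one_le_bl d hb2
  have hsm : ∀ φ : g.L →ₗ[ℝ] g'.L, GMap g g' m φ → ∀ (T : ℝ) x, 1 ≤ T → SmE g T m x →
      SmE g' T (m ^ (C + 1)) (φ x) := fun φ hφ T x hT hx k => by
    rw [← gp_eq (map_hp hφ.gr)]
    exact (sm_gp (by positivity) (by linarith) (by linarith)
      (St.norm_map_le hφ.int (by linarith) hdι) hx k).trans b1
  have hrt : ∀ φ : g.L →ₗ[ℝ] g'.L, GMap g g' m φ → ∀ x, Rt g m x → Rt g' m (φ x) :=
    fun φ hφ x ⟨q, h1, h2, h3⟩ => ⟨q, h1, h2, St.den_map hφ.int h3⟩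
  refine ⟨fun φ hφ => ⟨fun U hU => ⟨?_, (RedK85.ratS_map hφ.int (by linarith) hdι hU.rat).mono b1⟩,
    fun U hU => ⟨?_, (RedK85.ratS_comap hφ.int hM1 hdι' hU.rat).mono b2⟩, hsm φ hφ, hrt φ hφ,
    fun x hx => ?_, map_hp hφ.gr, fun U hU => ?_⟩, fun φ S T U x hφ hT hx => ?_,
    fun J _ U hU => ⟨⟨?_, Gon.IsRat.mono (Gon.IsRat.iInf (fun a => (hU a).rat) hM1 hdι) b4⟩, ?_,
      Gon.IsRat.iSup fun a => (hU a).rat⟩,
    fun U W hU hW => ⟨⟨fun n x hx => ⟨hU.gr n x hx.1, hW.gr n x hx.2⟩,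
      Gon.IsRat.mono (Gon.IsRat.inf hU.rat hW.rat hM1 hdι) b4⟩, ⟨?_, Gon.IsRat.sup hU.rat hW.rat⟩,
      ?_⟩, fun U hU => ?_⟩
  · rintro n _ ⟨x, hx, rfl⟩
    exact ⟨hp g n x, hU.gr n x hx, map_hp hφ.gr n x⟩
  · intro n x hx
    change φ (hp g n x) ∈ U
    rw [map_hp hφ.gr]
    exact hU.gr n _ hx
  · exact ((St.norm_map_le hφ.int (by linarith) hdι x).trans (by gcongr)).trans b1
  · obtain ⟨q, ρ, -, -, h1, h2, -, h3⟩ := exists_glift hφ.int (map_hp hφ.gr) hM1 hdι hU.rat hU.gr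
    exact ⟨ρ, h1, h2, fun T y hT hy k => (h3 T M y (by linarith) (by linarith) hy k).trans b3⟩
  · obtain ⟨ε, y, γ, h1, h2, ⟨q, h3, h4, h5⟩, rfl⟩ := hx
    refine ⟨φ ε, φ y, φ γ, hsm _ hφ T ε hT h1, ⟨y, h2, rfl⟩,
      ⟨q, h3, h4.trans b8, St.den_map hφ.int h5⟩, ?_⟩
    rw [Bch.map_star, Bch.map_star]
  · intro n x hx
    exact (Submodule.mem_iInf _).2 fun a => (hU a).gr n x ((Submodule.mem_iInf _).1 hx a)
  · intro n x hx
    have h1 : (⨆ a, U a) ≤ (⨆ a, U a).comap (hp g n) :=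
      iSup_le fun a y hy => le_iSup U a ((hU a).gr n y hy)
    exact h1 hx
  · intro n x hx
    have h1 : U ⊔ W ≤ (U ⊔ W).comap (hp g n) :=
      sup_le (fun y hy => Submodule.mem_sup_left (hU.gr n y hy))
        fun y hy => Submodule.mem_sup_right (hW.gr n y hy)
    exact h1 hx
  · obtain ⟨p, hp1, hp2, hp3⟩ := exists_gker hM1 hdι hW.rat hW.gr
    obtain ⟨q, ρ, hq1, hq2, h1, h2, h3, h4⟩ := exists_glift hp1 (map_hp hp2) hb1 hdι
      (hU.rat.mono (Gon.le_bl d hM1)) hU.gr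
    have hW' : ∀ x ∈ U ⊔ W, x - ρ (p x) ∈ W := fun x hx => by
      obtain ⟨u, hu, w, hw, rfl⟩ := Submodule.mem_sup.1 hx
      have h5 : p w = 0 := by rw [← hp3] at hw; exact hw
      rw [← hp3, LinearMap.mem_ker, map_sub, map_add, h5, add_zero, h2 u hu, sub_self]
    refine ⟨fun T x hT hx hs => ?_, fun x hx ⟨r, hr1, hr2, hr3⟩ => ?_⟩
    · have h5 := h4 T (d * Gon.bl d M * M) (p x) (by linarith) (by positivity) fun k => by
        rw [← gp_eq (map_hp hp2)]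
        exact sm_gp (by positivity) (by linarith) (by linarith)
          (St.norm_map_le hp1 (by linarith) hdι) hs k
      refine ⟨ρ (p x), h1 _, hW' x hx, fun k => (h5 k).trans (le_trans (by linarith) b5),
        fun k => le_trans ?_ b5⟩
      rw [ND.sub_apply]
      calc _ ≤ (|x k| + |ρ (p x) k|) * T ^ g.wt k := by gcongr; exact abs_sub _ _
        _ ≤ _ := by rw [add_mul]; exact add_le_add (hs k) (h5 k)
    · have h5 := h3 r _ (St.den_map hp1 hr3)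
      have h6 : ((q * r : ℕ) : ℝ) ≤ Real.exp (m ^ (C + 1)) := by
        push_cast
        exact (mul_le_mul hq2 hr2 (by positivity) (by linarith)).trans b6
      exact ⟨ρ (p x), h1 _, hW' x hx, ⟨q * r, Nat.mul_pos hq1 hr1, h6, h5⟩,
        q * r, Nat.mul_pos hq1 hr1, h6, Gon.IsDen.sub (Gon.IsDen.mul_left hr3 q) h5⟩
  · obtain ⟨p, hp1, hp2, hp3⟩ := exists_gker hM1 hdι hU.rat hU.gr
    exact ⟨p, ⟨fun i k => (hp1 i k).imp fun z hz => ⟨hz.1, hz.2.trans b7⟩, hp2⟩, hp3⟩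

end Crest.Agent.T49.GI
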