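import Crest.Agent.T49.GiDef_40
import Crest.Agent.T49.NilCls_67
import Crest.Agent.T49.NilFn_73
import Crest.Agent.T49.NilCnt_14
import Crest.Agent.T49.GowB_67
import Crest.Agent.T49.Qp_85

/-! Row 49, inverse theorem: steps 1, 2, 3. -/

set_option autoImplicit false

noncomputable section

namespace Crest.Agent.T49.GI

open Finset Crest.Agent.T49.Nil Crest.Agent.T49.Nil.ND
open Crest.Agent.T49.Bch (star)
open Crest.Agent.T49.Gow (Supp D U)
open Crest.Agent.T49.Box (cz)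
open scoped ComplexConjugate Pointwise

namespace St9

variable {ι : Type} [Fintype ι]

theorem cor_mono {m m' : ℝ} {L : ℕ} {a ψ : ℤ → ℂ} (h : Cor m L a ψ) (hm : m ≤ m') :
    Cor m' L a ψ :=
  le_trans (mul_le_mul_of_nonneg_right (Real.exp_le_exp.2 (neg_le_neg hm)) (Nat.cast_nonneg _)) h

theorem famA_mono {t : ℕ} {m m' : ℝ} {L : ℕ} {f : ℤ → ℂ} {N : ND ι} {η : ι → ℤ} {H H' : Finset ℤ}
    {F : ℤ → N.L → ℂ} {P : ℤ → N.PS Unit} (h : FamA t m L f N η H F P) (hm : m ≤ m')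
    (hH : H' ⊆ H) (hd : Real.exp (-m') * L ≤ #H') : FamA t m' L f N η H' F P where
  dim := h.dim.trans hm
  good := h.good.mono (Real.exp_le_exp.2 hm)
  wt_le := h.wt_le
  freq := ⟨h.freq.supp, fun k => (h.freq.le k).trans (Real.exp_le_exp.2 hm)⟩
  sub := hH.trans h.sub
  dense := hd
  chr x hx := (h.chr x (hH hx)).mono (Real.exp_le_exp.2 hm)
  poly x hx := h.poly x (hH hx)
  cor x hx := cor_mono (h.cor x (hH hx)) hm

theorem near_mono {g : ND ι} {S : ℕ} {T m m' : ℝ} {V : Submodule ℝ g.L} {x : g.L}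
    (h : Near g S T m V x) (hm : m ≤ m') : Near g S T m' V x := by
  obtain ⟨ε, y, γ, h1, h2, ⟨q, h3, h4, h5⟩, h6⟩ := h
  exact ⟨ε, y, γ, fun k => (h1 k).trans (Real.exp_le_exp.2 hm), h2,
    ⟨q, h3, h4.trans (Real.exp_le_exp.2 hm), h5⟩, h6⟩

theorem gr_mono {g : ND ι} {m m' : ℝ} {V : Submodule ℝ g.L} (h : GR g m V) (hm : m ≤ m') :
    GR g m' V := ⟨h.gr, h.rat.mono (Real.exp_le_exp.2 hm)⟩

theorem dens_mono {a b X Y : ℝ} (h : Real.exp (-a) * X ≤ Y) (hab : a ≤ b) (hX : 0 ≤ X) :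
    Real.exp (-b) * X ≤ Y :=
  le_trans (mul_le_mul_of_nonneg_right (Real.exp_le_exp.2 (neg_le_neg hab)) hX) h

/-- one character of the vertical expansion correlates -/
theorem cor_expand {N : ND ι} {S s : ℕ} {m : ℝ} (hm : 2 ≤ m) (hd : (Fintype.card ι : ℝ) ≤ m)
    (hS : ∀ k, N.wt k ≤ S) {F : N.L → ℂ} (hF : N.NFn S s (Real.exp m) F) {L : ℕ} (hL : 0 < L)
    {a : ℤ → ℂ} (ha : ∀ n, ‖a n‖ ≤ 1) (P : N.PS Unit) (hc : Cor m L a (sq N F P)) :
    ∃ (η : ι → ℤ) (G : N.L → ℂ), N.NChar S s (Real.exp (7 * m)) η G ∧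
      Cor (m + 1 + m ^ 5) L a (sq N G P) := by
  obtain ⟨n, η, G, hn, hG, he⟩ := hF.expand_exp hm hd hS
  have hL' : (0 : ℝ) < L := by exact_mod_cast hL
  have h1 : ‖∑ x ∈ Ico (0 : ℤ) L, a x * sq N F P x -
      ∑ j, ∑ x ∈ Ico (0 : ℤ) L, a x * sq N (G j) P x‖ ≤ Real.exp (-m) / 2 * L := by
    rw [sum_comm, ← sum_sub_distrib]
    refine (norm_sum_le _ _).trans ((sum_le_card_nsmul _ _ (Real.exp (-m) / 2)
      fun x _ => ?_).trans (by simp [mul_comm]))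
    rw [← mul_sum, ← mul_sub, norm_mul]
    exact (mul_le_of_le_one_left (norm_nonneg _) (ha x)).trans (he _)
  have h2 : Real.exp (-m) / 2 * L ≤ ∑ j, ‖∑ x ∈ Ico (0 : ℤ) L, a x * sq N (G j) P x‖ := by
    have h3 := norm_sum_le univ fun j => ∑ x ∈ Ico (0 : ℤ) L, a x * sq N (G j) P x
    have h4 := norm_sub_norm_le (∑ x ∈ Ico (0 : ℤ) L, a x * sq N F P x)
      (∑ j, ∑ x ∈ Ico (0 : ℤ) L, a x * sq N (G j) P x)
    unfold Cor at hc
    linarith
  by_contra hne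
  push Not at hne
  have h5 : ∀ j, ‖∑ x ∈ Ico (0 : ℤ) L, a x * sq N (G j) P x‖ ≤ Real.exp (-(m + 1 + m ^ 5)) * L :=
    fun j => (not_le.1 (hne _ _ (hG j))).le
  have h6 := h2.trans (sum_le_sum fun j _ => h5 j)
  rw [sum_const, card_univ, Fintype.card_fin, nsmul_eq_mul, ← mul_assoc] at h6
  have h7 := le_of_mul_le_mul_right h6 hL'
  have h8 : (n : ℝ) * Real.exp (-(m + 1 + m ^ 5)) ≤ Real.exp (-m) * Real.exp (-1) := by
    refine (mul_le_mul_of_nonneg_right hn (Real.exp_pos _).le).trans (le_of_eq ?_)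
    rw [← Real.exp_add, ← Real.exp_add]; congr 1; ring
  have h9 : Real.exp (-1) < 1 / 2 := by
    rw [Real.exp_neg, one_div]
    exact inv_strictAnti₀ (by norm_num) (by linarith [Real.exp_one_gt_d9])
  have := Real.exp_pos (-m)
  nlinarith

theorem symAt_tr {N g : ND ι} {σ : Type} (x h : σ → ℝ) {P : N.PS σ} (hP : P ∈ N.poly σ) :
    symAt N g x (N.tr h P) = symAt N g x P := by
  funext k
  have h1 := tr_sub_mem_cf (W := N.F) (fun _ _ => FA_anti) hP h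
  have : MvPolynomial.homogeneousComponent (N.wt k) (N.tr h P k) =
      MvPolynomial.homogeneousComponent (N.wt k) (P k) := by
    ext α
    rw [MvPolynomial.coeff_homogeneousComponent, MvPolynomial.coeff_homogeneousComponent]
    split_ifs with hα
    · have h2 := h1 α k (by omega)
      rw [map_sub, ND.sub_apply, cv_apply, cv_apply] at h2
      exact sub_eq_zero.1 h2
    · rfl
  simp only [symAt, this]

theorem sum_ibox_unit (lo : ℤ) (n : ℕ) (φ : (Unit → ℤ) → ℂ) :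
    ∑ x ∈ ibox (fun _ : Unit => lo) (fun _ => lo + n - 1), φ x =
      ∑ x ∈ Ico lo (lo + n), φ fun _ => x := by
  refine sum_nbij' (fun x => x ()) (fun x _ => x) ?_ ?_ ?_ ?_ ?_
  · intro x hx
    have := mem_ibox.1 hx ()
    rw [mem_Ico]; constructor <;> omega
  · intro x hx
    rw [mem_Ico] at hx
    exact mem_ibox.2 fun _ => ⟨hx.1, by omega⟩
  · intro x _; rfl
  · intro x _; rfl
  · intro x _; rfl

theorem popular {L : ℕ} {f : ℤ → ℂ} (hf : Supp f (Ico (0 : ℤ) L)) (hb : ∀ x, ‖f x‖ ≤ 1) {δ : ℝ}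
    (hδ : 0 ≤ δ) {s : ℕ} (h : δ * (L : ℝ) ^ (s + 2) ≤ U (s + 1) f) :
    ∃ H ⊆ Ico (-(L : ℤ)) L, δ / (2 * 2 ^ s) * L ≤ #H ∧
      ∀ k ∈ H, δ / (2 * 2) * (L : ℝ) ^ (s + 1) ≤ U s (D k f) := by
  have hcard : (#(Ico (0 : ℤ) L) : ℝ) = L := by simp
  have hsub : ∀ i : DecidableEq ℤ, Ico (0 : ℤ) L - Ico (0 : ℤ) L ⊆ Ico (-(L : ℤ)) L := by
    intro i x hx
    obtain ⟨a, ha, b, hb, rfl⟩ := mem_sub.1 hx
    simp only [mem_Ico] at *
    omega
  have hK : ∀ i : DecidableEq ℤ,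
      (#(Ico (0 : ℤ) L - Ico (0 : ℤ) L) : ℝ) ≤ 2 * #(Ico (0 : ℤ) L) := by
    intro i
    have h1 := card_le_card (hsub i)
    have h2 : #(Ico (-L : ℤ) L) = 2 * L := by rw [Int.card_Ico]; omega
    rw [hcard]
    exact_mod_cast h1.trans h2.le
  have hpop := Gow.popular_D (K := 2) (s := s) hδ two_pos (hK _) hf hb (by rw [hcard]; exact h)
  rw [hcard] at hpop
  exact ⟨_, (filter_subset _ _).trans (hsub _), hpop, fun k hk => (mem_filter.1 hk).2⟩

end St9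

open St9

theorem step3Stmt : Step3Stmt := by
  intro hS t
  obtain ⟨C, hC1, hC⟩ := hS (t + 2)
  refine ⟨C, hC1, ?_⟩
  rintro m L f hm hL - - ⟨ι, _, N, η, H, F, P, hA, 𝔥, Q, h1, h2, h3, h4⟩
  have hg : Gd (gr N) (t + 2) m :=
    { wt_le := hA.good.wt_le
      dim := hA.dim
      c_le := fun i j k => by
        show |((if N.wt i + N.wt j = N.wt k then N.c i j k else 0 : ℤ) : ℝ)| ≤ _
        split_ifs
        · exact hA.good.c_le i j k
        · simpa using (Real.exp_pos m).le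
      gr := (grOf_gr N).graded }
  obtain ⟨H', h5, h6, h7⟩ := hC m hm ι (gr N) η L (fun h => sym N (gr N) (P h)) 𝔥 Q hg hL h1 h2 h3
    fun q hq => ⟨(h4 q hq).1, (h4 q hq).2.2⟩
  refine ⟨ι, inferInstance, N, η, H', F, P,
    famA_mono hA (le_self_pow₀ (by linarith) (by omega)) (fun x hx => ?_) h6, h7⟩
  obtain ⟨q, hq, rfl⟩ := h5 x hx
  exact (h4 q hq).2.1 0

theorem step1Stmt : Step1Stmt := by
  classical
  intro t hGI
  obtain ⟨C₁, hC₁, hGI⟩ := hGI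
  obtain ⟨C, hC⟩ : ∃ C : ℕ, ∀ m : ℝ, 2 ≤ m → (m ^ 2) ^ C₁ ≤ m ^ C ∧
      7 * (m ^ 2) ^ C₁ ≤ m ^ C ∧ (m ^ 2) ^ C₁ + 1 + ((m ^ 2) ^ C₁) ^ 5 ≤ m ^ C ∧
      m + (t + 3) + ((m ^ 2) ^ C₁) ^ (t + 1 + 7) + (7 * (m ^ 2) ^ C₁) ^ 3 ≤ m ^ C := by qp
  refine ⟨C + 1, by omega, ?_⟩
  intro m L f hm hL hf hb hU
  obtain ⟨e1, e2, e3, e4⟩ := hC m hm
  have eC : m ^ C ≤ m ^ (C + 1) := Qp.pw_mono hm (by omega)
  have hm1 : 2 ≤ m ^ 2 := by nlinarith
  set m₂ := (m ^ 2) ^ C₁ with hm₂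
  have hm2 : 2 ≤ m₂ := hm1.trans (le_self_pow₀ (by linarith) (by omega))
  have hL0' : (0 : ℝ) < L := (Real.exp_pos _).trans_le hL
  have hL0 : 0 < L := by exact_mod_cast hL0'
  obtain ⟨H₀, hsub, hpop, hH₀⟩ := popular hf hb (Real.exp_pos (-m)).le (s := t + 2) hU
  have he2 : (2 : ℝ) ≤ Real.exp 1 := by linarith [Real.add_one_le_exp (1 : ℝ)]
  have hd0 : Real.exp (-(m + (t + 3))) * L ≤ #H₀ := by
    refine le_trans (mul_le_mul_of_nonneg_right ?_ hL0'.le) hpop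
    rw [le_div_iff₀ (by positivity), neg_add, Real.exp_add, mul_assoc]
    refine mul_le_of_le_one_right (Real.exp_pos _).le ?_
    rw [Real.exp_neg, inv_mul_le_iff₀ (Real.exp_pos _), mul_one, ← pow_succ']
    calc (2 : ℝ) ^ (t + 2 + 1) ≤ Real.exp 1 ^ (t + 2 + 1) := pow_le_pow_left₀ (by norm_num) he2 _
      _ = _ := by rw [← Real.exp_nat_mul]; congr 1; push_cast; ring
  have hbig : ∀ h ∈ H₀, CorNil (t + 1) m₂ L (D h f) := by
    intro h hh
    refine hGI (m ^ 2) L (D h f) hm1 (le_trans (Real.exp_le_exp.2 (e1.trans eC)) hL) (hf.D h)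
      (Gow.norm_D_le hb h) (le_trans ?_ (hH₀ h hh))
    refine mul_le_mul_of_nonneg_right ?_ (by positivity)
    rw [le_div_iff₀ (by norm_num)]
    calc Real.exp (-m ^ 2) * (2 * 2) ≤ Real.exp (-m ^ 2) * (Real.exp 1 * Real.exp 1) := by gcongr
      _ = Real.exp (-m ^ 2 + 2) := by rw [← Real.exp_add, ← Real.exp_add]; norm_num
      _ ≤ _ := Real.exp_le_exp.2 (by nlinarith)
  obtain ⟨⟨d, N⟩, ⟨hd, hN⟩, H₁, hH₁, hd1, hr1⟩ := (cnt_data_exp (t + 1) hm2).pigeon_exp hL0' hd0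
    (fun h x => ∃ (F : x.2.L → ℂ) (P : x.2.PS Unit), x.2.LipFn (t + 1) (Real.exp m₂) F ∧
      P ∈ x.2.poly Unit ∧ Cor m₂ L (D h f) (sq x.2 F P)) (by
      intro h hh
      obtain ⟨ψ, hψ, hc⟩ := hbig h hh
      obtain ⟨d, N, F, P, h1, h2, h3, h4, h5⟩ := IsNil.exists_fin hψ
      refine ⟨⟨d, N⟩, ⟨h1, h2⟩, F, P, h3, h4, ?_⟩
      have : ψ = sq N F P := funext fun n => h5 fun _ => n
      rwa [this] at hc)
  simp only at hd hN hr1
  have hd' : (Fintype.card (Fin d) : ℝ) ≤ m₂ := by simpa using hd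
  have hwt : ∀ k, N.wt k ≤ t + 2 := fun k => (hN.wt_le k).trans (by omega)
  obtain ⟨η, hη, H₂, hH₂, hd2, hr2⟩ := (cnt_vec_exp (m := 7 * m₂) (Fin d) (by linarith)
    (by linarith)).pigeon_exp hL0' hd1
    (fun h η => ∃ (G : N.L → ℂ) (P : N.PS Unit), N.NChar (t + 2) (t + 1) (Real.exp (7 * m₂)) η G ∧
      P ∈ N.poly Unit ∧ Cor (m₂ + 1 + m₂ ^ 5) L (D h f) (sq N G P)) (by
      intro h hh
      obtain ⟨F, P, h1, h2, h3⟩ := hr1 h hh
      obtain ⟨η, G, h4, h5⟩ := cor_expand hm2 hd' hwt ((h1.nfn hN.wt_le).step hN.wt_le hwt) hL0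
        (Gow.norm_D_le hb h) P h3
      exact ⟨η, h4.η_le, G, P, h4, h2, h5⟩)
  have hne : H₂.Nonempty := by
    rw [← card_pos, ← Nat.cast_pos (α := ℝ)]
    exact lt_of_lt_of_le (by positivity) hd2
  choose! G P h1 h2 h3 using hr2
  obtain ⟨h₀, hh₀⟩ := hne
  have e2' := Real.exp_le_exp.2 (e2.trans eC)
  exact ⟨Fin d, inferInstance, N, η, H₂, G, P,
    { dim := hd'.trans (e1.trans eC)
      good := (hN.step hwt).mono (Real.exp_le_exp.2 (e1.trans eC))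
      wt_le := hN.wt_le
      freq := ⟨(h1 h₀ hh₀).supp, fun k => (hη k).trans e2'⟩
      sub := hH₂.trans (hH₁.trans hsub)
      dense := dens_mono hd2 (e4.trans eC) hL0'.le
      chr := fun h hh => (h1 h hh).mono e2'
      poly := h2
      cor := fun h hh => cor_mono (h3 h hh) (e3.trans eC) }⟩

theorem step2Stmt9 : Step2Stmt := by
  classical
  intro t hLt
  obtain ⟨C₁, hC₁, hLt⟩ := hLt
  obtain ⟨C, hC⟩ : ∃ C : ℕ, ∀ m : ℝ, 2 ≤ m → (6 * m) ^ C₁ ≤ m ^ C ∧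
      8 * m + 1 + ((6 * m) ^ C₁) ^ 4 ≤ m ^ C := by qp
  refine ⟨C + 1, by omega, ?_⟩
  rintro m L f hm hL hf hb ⟨ι, _, N, η, H, F, P, hA⟩
  obtain ⟨e1, e2⟩ := hC m hm
  have eC : m ^ C ≤ m ^ (C + 1) := Qp.pw_mono hm (by omega)
  have hm6 : 2 ≤ 6 * m := by linarith
  have hm' : 6 * m ≤ (6 * m) ^ C₁ := le_self_pow₀ (by linarith) (by omega)
  have hL0' : (0 : ℝ) < L := (Real.exp_pos _).trans_le hL
  have hL0 : 0 < L := by exact_mod_cast hL0'
  have hcard : (#(Ico (0 : ℤ) L) : ℝ) = L := by simp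
  have he2 : (2 : ℝ) ≤ Real.exp 1 := by linarith [Real.add_one_le_exp (1 : ℝ)]
  let χ : ℤ → ℤ → ℂ := fun h n => if h ∈ H then sq N (F h) (P h) n else 0
  have hχ : ∀ h n, ‖χ h n‖ ≤ 1 := by
    intro h n
    simp only [χ]
    split_ifs with hh
    · exact (hA.chr h hh).bdd _
    · simp
  have hχ' : ∀ h ∈ H, ∀ n, χ h n = sq N (F h) (P h) n := fun h hh n => if_pos hh
  have hq := Box.quad_many (Ico (0 : ℤ) L) (Ico (0 : ℤ) L) H (f₁ := fun n => conj (f n)) (f₂ := f)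
    (χ := χ) (fun x => by simpa using hb x) hb hf hχ (δ := Real.exp (-m)) (σ := Real.exp (-m))
    (K := 1) (Real.exp_pos _).le (Real.exp_pos _).le one_pos
    ⟨0, by rw [mem_Ico]; omega⟩ (by rw [one_mul]) (by rw [hcard]; exact hA.dense) (by
      intro h hh
      rw [hcard]
      refine (hA.cor h hh).trans (le_of_eq ?_)
      congr 1
      exact sum_congr rfl fun n _ => by rw [hχ' h hh, D]; ring)
  rw [hcard] at hq
  have hhalf : ∀ (k : ℕ), Real.exp (-(k * m + 1)) ≤ Real.exp (-m) ^ k / (2 * 1 ^ 2) := by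
    intro k
    rw [← Real.exp_nat_mul, le_div_iff₀ (by norm_num)]
    calc Real.exp (-(k * m + 1)) * (2 * 1 ^ 2) ≤ Real.exp (-(k * m + 1)) * Real.exp 1 := by
          gcongr; linarith
      _ = _ := by rw [← Real.exp_add]; congr 1; ring
  have hd0 := le_trans (mul_le_mul_of_nonneg_right (a := (L : ℝ) ^ 3)
    (show Real.exp (-(8 * m + 1)) ≤ Real.exp (-m) ^ 4 * Real.exp (-m) ^ 4 / (2 * 1 ^ 2) by
      have := hhalf 8
      rw [← pow_add]; exact_mod_cast this) (by positivity)) hq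
  have hc4 : (Fintype.card (Fin 4 × ι) : ℝ) ≤ 6 * m := by
    rw [Fintype.card_prod, Fintype.card_fin]; push_cast; linarith [hA.dim]
  have hcnt : Cnt (fun 𝔥 : LieSubalgebra ℝ (pw (gr N) (Fin 4)).L =>
      GR (pw (gr N) (Fin 4)) ((6 * m) ^ C₁) 𝔥.toSubmodule ∧
        ∀ z ∈ 𝔥, (pw (gr N) (Fin 4)).fn (pwη sg4 η) z = 0) (Real.exp (((6 * m) ^ C₁) ^ 4)) :=
    (cnt_ratS_exp (pw (gr N) (Fin 4)) (hm6.trans hm') (hc4.trans hm')).of_inj
      (fun 𝔥 => 𝔥.toSubmodule) (fun 𝔥 h => h.1.rat)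
      fun _ _ _ _ h => LieSubalgebra.toSubmodule_injective h
  let e : ℤ × ℤ × ℤ × ℤ → Fin 4 → ℤ := fun q => ![q.1, q.2.1, q.2.2.1, q.2.2.2]
  have he : Function.Injective e := by
    rintro ⟨a, b, c, d⟩ ⟨a', b', c', d'⟩ h
    have h0 := congrFun h 0
    have h1 := congrFun h 1
    have h2 := congrFun h 2
    have h3 := congrFun h 3
    simp only [e] at h0 h1 h2 h3
    simp_all
  let sg : Fin 4 → ℤˣ := ![1, 1, -1, -1]
  have hsg : (fun a => ((sg a : ℤˣ) : ℤ)) = sg4 := by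
    funext a; fin_cases a <;> rfl
  obtain ⟨𝔥, ⟨hg1, hg2⟩, Z, hZ, hdZ, hr⟩ := hcnt.pigeon_exp (by positivity) hd0
    (fun q 𝔥 => Near (pw (gr N) (Fin 4)) (t + 2) L ((6 * m) ^ C₁) 𝔥.toSubmodule
      (tup fun i => sym N (gr N) (P (e q i)))) (by
      intro q hq
      obtain ⟨hq1, hq2⟩ := mem_filter.1 hq
      obtain ⟨m1, m2, m3, m4, -⟩ := Box.mem_quads.1 hq1
      obtain ⟨n₀, L', hn0, hn1, -, hbias⟩ := Box.qcorr_Ico L hχ q (by positivity) hq2
      have hmem : ∀ i, e q i ∈ H := fun i => by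
        fin_cases i
        exacts [m1, m2, m3, m4]
      set u := q.1 - q.2.2.2 with hu
      let sh : Fin 4 → Unit → ℤ := fun i _ => ![0, u, 0, u] i
      let P4 : (pw N (Fin 4)).PS Unit := tup fun i => N.tr (fun v => (sh i v : ℝ)) (P (e q i))
      have hchr := nChar_pw_cz (Real.exp_pos m).le sg fun i => hA.chr _ (hmem i)
      rw [hsg] at hchr
      have h4 : (Fintype.card (Fin 4) : ℝ) * Real.exp m ≤ Real.exp (6 * m) := by
        rw [Fintype.card_fin]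
        calc ((4 : ℕ) : ℝ) * Real.exp m ≤ (Real.exp 1 * Real.exp 1) * Real.exp m := by
              gcongr; push_cast; nlinarith
          _ = Real.exp (1 + 1 + m) := by rw [Real.exp_add, Real.exp_add]
          _ ≤ _ := Real.exp_le_exp.2 (by linarith)
      have hL1 : (1 : ℤ) ≤ L := by exact_mod_cast hL0
      obtain ⟨𝔥, k1, k2, k3⟩ := hLt (6 * m) hm6 (Fin 4 × ι) Unit (pw N (Fin 4))
        (pw (gr N) (Fin 4)) (pwη sg4 η) _ P4 L (fun _ => n₀) (fun _ => n₀ + L' - 1)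
        ((grOf_gr N).pw _) (by simp) hc4
        ((good_pw hA.good (Real.exp_pos _).le _).mono (Real.exp_le_exp.2 (by linarith)))
        (hchr.mono h4) (tup_mem_poly fun i => tr_mem_poly (hA.poly _ (hmem i)) _)
        (le_trans (Real.exp_le_exp.2 (e1.trans eC)) hL)
        (fun _ => ⟨by
          have : |n₀| ≤ (L : ℤ) := abs_le.2 ⟨by omega, by omega⟩
          exact_mod_cast this, by
          have : |n₀ + L' - 1| ≤ (L : ℤ) := abs_le.2 ⟨by omega, by omega⟩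
          exact_mod_cast this⟩) (by
          rw [sum_ibox_unit, Fintype.card_unit, pow_one]
          refine le_trans (mul_le_mul_of_nonneg_right ?_ hL0'.le) (hbias.trans (le_of_eq ?_))
          · have := hhalf 5
            rw [← pow_succ]
            refine le_trans (Real.exp_le_exp.2 ?_) this
            push_cast; linarith
          · congr 1
            refine sum_congr rfl fun n _ => ?_
            rw [hχ' _ m1, hχ' _ m2, hχ' _ m3, hχ' _ m4, Fin.prod_univ_four]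
            simp only [P4, evZ_tup, pr_tup, evZ_tr]
            simp [sg, sh, e, sq, Pi.add_def])
      refine ⟨𝔥, ⟨k1, k2⟩, ?_⟩
      have k4 := k3 (fun _ => 1) (by simp)
      have : symAt (pw N (Fin 4)) (pw (gr N) (Fin 4)) (fun _ : Unit => ((1 : ℤ) : ℝ)) P4 =
          tup fun i => sym N (gr N) (P (e q i)) := by
        funext p
        have := congrFun (symAt_tr (g := gr N) (fun _ : Unit => (1 : ℝ))
          (fun v => (sh p.1 v : ℝ)) (hA.poly _ (hmem p.1))) p.2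
        rw [Int.cast_one]
        exact this
      rwa [this] at k4)
  have e0 : m ≤ m ^ (C + 1) := le_self_pow₀ (by linarith) (by omega)
  refine ⟨ι, inferInstance, N, η, H, F, P,
    famA_mono hA e0 Subset.rfl (dens_mono hA.dense e0 hL0'.le), 𝔥, Z.image e,
    gr_mono hg1 (e1.trans eC), hg2, ?_, fun x hx => ?_⟩
  · rw [card_image_of_injective _ he]
    exact dens_mono hdZ (e2.trans eC) (by positivity)
  · obtain ⟨q, hq, rfl⟩ := mem_image.1 hx
    obtain ⟨m1, m2, m3, m4, m5⟩ := Box.mem_quads.1 (mem_filter.1 (hZ hq)).1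
    have hmem : ∀ i, e q i ∈ H := fun i => by
      fin_cases i
      exacts [m1, m2, m3, m4]
    exact ⟨⟨fun i => hA.sub (hmem i), m5⟩, hmem, near_mono (hr q hq) (e1.trans eC)⟩

end Crest.Agent.T49.GI
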