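import Crest.Agent.T49.GiPull_61
import Crest.Agent.T49.NilCls_67
import Crest.Agent.T49.NilFn_73
import Crest.Agent.T49.NilCnt_14
import Crest.Agent.T49.Qp_85

/-!
# Row 49 (helper57): step 4 of the inverse theorem, `StS → StB`

A bracket-linear family of symbols is replaced by the bigraded model.
-/

set_option autoImplicit false

noncomputable section

namespace Crest.Agent.T49.GI

open Finset Crest.Agent.T49.Nil Crest.Agent.T49.Nil.ND
open Crest.Agent.T49.Bch (star)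
open Crest.Agent.T49.Gow (Supp D)
open scoped ComplexConjugate

namespace S57

variable {ι ι' ι'' : Type} [Fintype ι] [Fintype ι'] [Fintype ι'']

/-! ### correlations -/

theorem cor_mono {m m' : ℝ} {L : ℕ} {a ψ : ℤ → ℂ} (h : Cor m L a ψ) (hm : m ≤ m') :
    Cor m' L a ψ :=
  le_trans (mul_le_mul_of_nonneg_right (Real.exp_le_exp.2 (neg_le_neg hm)) (Nat.cast_nonneg _)) h

theorem cor_congr {m : ℝ} {L : ℕ} {a ψ a' ψ' : ℤ → ℂ} (h : Cor m L a ψ)
    (e : ∀ n, a' n * ψ' n = a n * ψ n) : Cor m L a' ψ' := by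
  unfold Cor at h ⊢
  rwa [sum_congr rfl fun n _ => e n]

/-- insertion of a partition of unity `∑ |G j|² = 1` -/
theorem cor_insert {m m' : ℝ} {L J : ℕ} {a ψ : ℤ → ℂ} (h : Cor m L a ψ)
    (hJ : (J : ℝ) ≤ Real.exp m') (G : Fin J → ℤ → ℂ) (hG : ∀ n, ∑ j, G j n * conj (G j n) = 1) :
    ∃ j, Cor (m + m') L (fun n => a n * G j n) fun n => ψ n * conj (G j n) := by
  have hne : (univ : Finset (Fin J)).Nonempty := by
    rw [nonempty_iff_ne_empty]
    intro h0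
    have := hG 0
    rw [h0, sum_empty] at this
    exact zero_ne_one this
  have key : ∑ n ∈ Ico (0 : ℤ) L, a n * ψ n =
      ∑ j, ∑ n ∈ Ico (0 : ℤ) L, (a n * G j n) * (ψ n * conj (G j n)) := by
    rw [sum_comm]
    refine sum_congr rfl fun n _ => ?_
    calc a n * ψ n = a n * ψ n * ∑ j, G j n * conj (G j n) := by rw [hG, mul_one]
      _ = _ := by rw [mul_sum]; exact sum_congr rfl fun j _ => by ring
  have h2 : ∑ _j : Fin J, Real.exp (-(m + m')) * L ≤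
      ∑ j, ‖∑ n ∈ Ico (0 : ℤ) L, (a n * G j n) * (ψ n * conj (G j n))‖ := by
    refine le_trans ?_ (le_trans (show Real.exp (-m) * L ≤ _ from h) ?_)
    · rw [sum_const, card_univ, Fintype.card_fin, nsmul_eq_mul, ← mul_assoc]
      refine mul_le_mul_of_nonneg_right ?_ (Nat.cast_nonneg _)
      calc (J : ℝ) * Real.exp (-(m + m')) ≤ Real.exp m' * Real.exp (-(m + m')) :=
            mul_le_mul_of_nonneg_right hJ (Real.exp_pos _).le
        _ = Real.exp (-m) := by rw [← Real.exp_add]; congr 1; ring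
    · rw [key]; exact norm_sum_le _ _
  obtain ⟨j, -, hj⟩ := exists_le_of_sum_le hne h2
  exact ⟨j, hj⟩

/-! ### monotonicity -/

section mono

variable {g : ND ι} {g' : ND ι'} {m m' : ℝ}

theorem smE_mono {T : ℝ} {x : g.L} (h : SmE g T m x) (hm : m ≤ m') : SmE g T m' x :=
  fun k => (h k).trans (Real.exp_le_exp.2 hm)

theorem rt_mono {x : g.L} (h : Rt g m x) (hm : m ≤ m') : Rt g m' x := by
  obtain ⟨q, h1, h2, h3⟩ := h
  exact ⟨q, h1, h2.trans (Real.exp_le_exp.2 hm), h3⟩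

theorem gr_mono {U : Submodule ℝ g.L} (h : GR g m U) (hm : m ≤ m') : GR g m' U :=
  ⟨h.gr, h.rat.mono (Real.exp_le_exp.2 hm)⟩

theorem near_mono {S : ℕ} {T : ℝ} {U : Submodule ℝ g.L} {x : g.L} (h : Near g S T m U x)
    (hm : m ≤ m') : Near g S T m' U x := by
  obtain ⟨ε, y, γ, h1, h2, h3, h4⟩ := h
  exact ⟨ε, y, γ, smE_mono h1 hm, h2, rt_mono h3 hm, h4⟩

theorem freq_mono {s : ℕ} {η : ι → ℤ} (h : Freq g s m η) (hm : m ≤ m') : Freq g s m' η :=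
  ⟨h.supp, fun k => (h.le k).trans (Real.exp_le_exp.2 hm)⟩

theorem gd_mono {S : ℕ} (h : Gd g S m) (hm : m ≤ m') : Gd g S m' :=
  ⟨⟨h.wt_le, h.dim.trans hm, fun i j k => (h.c_le i j k).trans (Real.exp_le_exp.2 hm)⟩, h.gr⟩

theorem intMap_mono {M M' : ℝ} {φ : g.L →ₗ[ℝ] g'.L} (h : g.IntMap g' M φ) (hM : M ≤ M') :
    g.IntMap g' M' φ := fun i k => by
  obtain ⟨z, h1, h2⟩ := h i k
  exact ⟨z, h1, h2.trans hM⟩

theorem gmap_mono {φ : g.L →ₗ[ℝ] g'.L} (h : GMap g g' m φ) (hm : m ≤ m') : GMap g g' m' φ :=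
  ⟨intMap_mono h.int (Real.exp_le_exp.2 hm), h.gr⟩

theorem dense_mono {X Y : ℝ} (hX : 0 ≤ X) (h : Real.exp (-m) * X ≤ Y) (hm : m ≤ m') :
    Real.exp (-m') * X ≤ Y :=
  le_trans (mul_le_mul_of_nonneg_right (Real.exp_le_exp.2 (neg_le_neg hm)) hX) h

theorem dense_trans {X Y Z : ℝ} (h : Real.exp (-m) * X ≤ Y) (h' : Real.exp (-m') * Y ≤ Z) :
    Real.exp (-(m + m')) * X ≤ Z := by
  refine le_trans ?_ (le_trans (mul_le_mul_of_nonneg_left h (Real.exp_pos _).le) h')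
  rw [← mul_assoc, ← Real.exp_add]
  exact le_of_eq (by congr 2; ring)

theorem famA_mono {t L : ℕ} {f : ℤ → ℂ} {η : ι → ℤ} {H : Finset ℤ} {F : ℤ → g.L → ℂ}
    {P : ℤ → g.PS Unit} (h : FamA t m L f g η H F P) (hm : m ≤ m') : FamA t m' L f g η H F P :=
  ⟨h.dim.trans hm, h.good.mono (Real.exp_le_exp.2 hm), h.wt_le, freq_mono h.freq hm, h.sub,
    dense_mono (Nat.cast_nonneg _) h.dense hm,
    fun a ha => (h.chr a ha).mono (Real.exp_le_exp.2 hm), h.poly,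
    fun a ha => cor_mono (h.cor a ha) hm⟩

end mono

/-! ### graded integer maps -/

section gmap

variable {g : ND ι} {g' : ND ι'} {g'' : ND ι''} {m : ℝ}

theorem mul_exp_exp_le {d m : ℝ} (hd : d ≤ m) :
    d * Real.exp m * Real.exp m ≤ Real.exp (3 * m) := by
  have h1 : d ≤ Real.exp m := hd.trans (by linarith [Real.add_one_le_exp m])
  calc d * Real.exp m * Real.exp m ≤ Real.exp m * Real.exp m * Real.exp m := by gcongr
    _ = Real.exp (3 * m) := by rw [← Real.exp_add, ← Real.exp_add]; congr 1; ring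

theorem norm_map_e_le {M : ℝ} {φ : g.L →ₗ[ℝ] g'.L} (h : g.IntMap g' M φ) (hM : 0 ≤ M) (i : ι) :
    ‖φ (g.e i)‖ ≤ M := by
  refine (norm_le_iff hM).2 fun k => ?_
  obtain ⟨z, h1, h2⟩ := h i k
  rwa [h1]

theorem map_apply_sum (φ : g.L →ₗ[ℝ] g'.L) (x : g.L) (k : ι') :
    φ x k = ∑ i, x i * φ (g.e i) k := by
  conv_lhs => rw [eq_sum_e' x, map_sum, ND.sum_apply]
  exact sum_congr rfl fun i _ => by rw [map_smul, ND.smul_apply, smul_eq_mul]

/-- the pull-back of a frequency -/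
theorem gmap_freq {φ : g.L →ₗ[ℝ] g'.L} (hφ : GMap g g' m φ) {s : ℕ} {η' : ι' → ℤ}
    (hη : Freq g' s m η') (hd : (Fintype.card ι' : ℝ) ≤ m) :
    ∃ η : ι → ℤ, Freq g s (3 * m) η ∧ ∀ x, g.fn η x = g'.fn η' (φ x) := by
  choose η hη' using fun i => fn_int67 η' (hφ.int.isInt67 (isInt_e67 i))
  refine ⟨η, ⟨fun k hk => ?_, fun k => ?_⟩, fun x => ?_⟩
  · have : (η k : ℝ) = 0 := by
      rw [← hη', fn_apply]
      refine sum_eq_zero fun l _ => ?_
      by_cases h1 : φ (g.e k) l = 0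
      · rw [h1, mul_zero]
      · rw [hη.supp l (by rw [hφ.gr k l h1]; exact hk)]; simp
    exact_mod_cast this
  · rw [← hη']
    refine (abs_fn_le67 hη.le _).trans (le_trans ?_ (mul_exp_exp_le hd))
    exact mul_le_mul_of_nonneg_left (norm_map_e_le hφ.int (Real.exp_pos _).le k) (by positivity)
  · conv_rhs => rw [eq_sum_e' x, map_sum, map_sum]
    rw [fn_apply]
    exact sum_congr rfl fun i _ => by rw [map_smul, map_smul, hη', smul_eq_mul, mul_comm]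

theorem gmap_comp {ψ : g'.L →ₗ[ℝ] g''.L} {φ : g.L →ₗ[ℝ] g'.L} (hψ : GMap g' g'' m ψ)
    (hφ : GMap g g' m φ) (hd : (Fintype.card ι' : ℝ) ≤ m) : GMap g g'' (3 * m) (ψ ∘ₗ φ) := by
  refine ⟨fun i k => ?_, fun i k h => ?_⟩
  · obtain ⟨z, hz⟩ := hψ.int.isInt67 (hφ.int.isInt67 (isInt_e67 i)) k
    refine ⟨z, hz, ?_⟩
    rw [← hz]
    refine (abs_apply_le _ k).trans ((hψ.int.norm_le67 (Real.exp_pos _).le _).trans
      (le_trans ?_ (mul_exp_exp_le hd)))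
    exact mul_le_mul_of_nonneg_left (norm_map_e_le hφ.int (Real.exp_pos _).le i) (by positivity)
  · rw [LinearMap.comp_apply, map_apply_sum] at h
    obtain ⟨l, -, hl⟩ := exists_ne_zero_of_sum_ne_zero h
    rw [hψ.gr l k (right_ne_zero_of_mul hl), hφ.gr i l (left_ne_zero_of_mul hl)]

/-- `(x, w) ↦ x - φ w` -/
def dg (φ : g'.L →ₗ[ℝ] g.L) : (pd g g').L →ₗ[ℝ] g.L :=
  (fst g g' ℝ).toLinearMap - φ ∘ₗ (snd g g' ℝ).toLinearMap

theorem dg_apply (φ : g'.L →ₗ[ℝ] g.L) (p : (pd g g').L) :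
    dg φ p = fst g g' ℝ p - φ (snd g g' ℝ p) := rfl

theorem dg_pair (φ : g'.L →ₗ[ℝ] g.L) (x : g.L) (w : g'.L) : dg φ (pair x w) = x - φ w := by
  rw [dg_apply, fst_pair, snd_pair]

theorem e_inl (i : ι) : (pd g g').e (.inl i) = pair (g.e i) 0 := by
  classical
  refine pts_ext fun k => ?_
  cases k <;> simp [e_apply]

theorem e_inr (j : ι') : (pd g g').e (.inr j) = pair 0 (g'.e j) := by
  classical
  refine pts_ext fun k => ?_
  cases k <;> simp [e_apply]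

theorem gmap_dg {φ : g'.L →ₗ[ℝ] g.L} (hφ : GMap g' g m φ) (hm : 0 ≤ m) :
    GMap (pd g g') g m (dg φ) := by
  classical
  refine ⟨fun i k => ?_, fun i k h => ?_⟩
  · cases i with
    | inl i =>
      rw [e_inl, dg_pair, map_zero, sub_zero, e_apply]
      split_ifs
      · exact ⟨1, by simp, by simpa using hm⟩
      · exact ⟨0, by simp, by simpa using (Real.exp_pos m).le⟩
    | inr j =>
      obtain ⟨z, h1, h2⟩ := hφ.int j k
      rw [e_inr, dg_pair, zero_sub, ND.neg_apply, h1]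
      exact ⟨-z, by simp, by simpa using h2⟩
  · cases i with
    | inl i =>
      rw [e_inl, dg_pair, map_zero, sub_zero, e_apply] at h
      split_ifs at h with h1
      · rw [h1, pd_wt_inl]
      · exact absurd rfl h
    | inr j =>
      rw [e_inr, dg_pair, zero_sub, ND.neg_apply, neg_ne_zero] at h
      rw [pd_wt_inr, hφ.gr j k h]

/-- the graph of a homomorphism modulo `K` -/
def graph (𝔥 : LieSubalgebra ℝ g.L) (K : Submodule ℝ g.L) (φ : g'.L →ₗ[ℝ] g.L)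
    (KH : K ≤ 𝔥.toSubmodule) (lieK : ∀ x ∈ 𝔥, ∀ y ∈ K, ⁅x, y⁆ ∈ K) (hφ : ∀ w, φ w ∈ 𝔥)
    (hlie : ∀ w w', φ ⁅w, w'⁆ - ⁅φ w, φ w'⁆ ∈ K) : LieSubalgebra ℝ (pd g g').L where
  toSubmodule := K.comap (dg φ)
  lie_mem' := by
    intro p p' hp hp'
    change dg φ _ ∈ K at hp hp' ⊢
    rw [dg_apply] at hp hp' ⊢
    rw [LieHom.map_lie, LieHom.map_lie]
    set x := fst g g' ℝ p
    set x' := fst g g' ℝ p'
    set w := snd g g' ℝ p
    set w' := snd g g' ℝ p'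
    have hx' : x' ∈ 𝔥 := by
      have := 𝔥.add_mem (KH hp') (hφ w')
      rwa [sub_add_cancel] at this
    have e : ⁅x, x'⁆ - φ ⁅w, w'⁆ =
        ⁅φ w, x' - φ w'⁆ - ⁅x', x - φ w⁆ - (φ ⁅w, w'⁆ - ⁅φ w, φ w'⁆) := by
      rw [lie_sub, lie_sub, ← lie_skew x x', ← lie_skew (φ w) x']
      abel
    rw [e]
    exact K.sub_mem (K.sub_mem (lieK _ (hφ w) _ hp') (lieK _ hx' _ hp)) (hlie w w')

theorem star_graph {𝔥 : LieSubalgebra ℝ g.L} {K : Submodule ℝ g.L} {φ : g'.L →ₗ[ℝ] g.L}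
    (KH : K ≤ 𝔥.toSubmodule) (lieK : ∀ x ∈ 𝔥, ∀ y ∈ K, ⁅x, y⁆ ∈ K) (hφ : ∀ w, φ w ∈ 𝔥)
    (hlie : ∀ w w', φ ⁅w, w'⁆ - ⁅φ w, φ w'⁆ ∈ K) (S : ℕ) {x x' : g.L} {w w' : g'.L}
    (h : x - φ w ∈ K) (h' : x' - φ w' ∈ K) : star S x x' - φ (star S w w') ∈ K := by
  have h1 : pair x w ∈ graph 𝔥 K φ KH lieK hφ hlie := by
    change dg φ _ ∈ K
    rwa [dg_pair]
  have h2 : pair x' w' ∈ graph 𝔥 K φ KH lieK hφ hlie := by
    change dg φ _ ∈ K
    rwa [dg_pair]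
  have h3 := Bch.star_mem S _ h1 h2
  rw [star_pair] at h3
  change dg φ _ ∈ K at h3
  rwa [dg_pair] at h3

theorem lam_graph {K : Submodule ℝ g.L} {φ : g'.L →ₗ[ℝ] g.L} {r : ℕ} (β : Fin r → ℝ) {a : g.L}
    {a' : g'.L} {b : Fin r → g.L} {b' : Fin r → g'.L} (ha : a - φ a' ∈ K)
    (hb : ∀ j, b j - φ (b' j) ∈ K) (h : ℤ) : lam β a b h - φ (lam β a' b' h) ∈ K := by
  have e : lam β a b h - φ (lam β a' b' h) =
      (h : ℝ) • (a - φ a') + ∑ j, (⌊β j * h⌋ : ℝ) • (b j - φ (b' j)) := by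
    simp only [lam, map_add, map_sum, map_smul, smul_sub, sum_sub_distrib]
    abel
  rw [e]
  exact K.add_mem (K.smul_mem _ ha) (K.sum_mem fun j _ => K.smul_mem _ (hb j))

end gmap

/-! ### symbols -/

theorem sym_hom (B : ND ι) (z : B.L) : sym B B (hom B z) = z := by
  refine pts_ext fun k => ?_
  change MvPolynomial.eval _ (MvPolynomial.homogeneousComponent (B.wt k)
    (MvPolynomial.monomial (Finsupp.single () (B.wt k)) (z k))) = z k
  rw [MvPolynomial.homogeneousComponent_eq_self (MvPolynomial.isHomogeneous_monomial _ (by simp)),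
    MvPolynomial.eval_monomial]
  simp

theorem sym_pair (N g : ND ι) (N' g' : ND ι') (P : N.PS Unit) (Q : N'.PS Unit) :
    sym (pd N N') (pd g g') (pair P Q) = pair (sym N g P) (sym N' g' Q) := by
  refine pts_ext fun k => ?_
  cases k <;> rfl

theorem evZ_hom (B : ND ι) (z : B.L) (n : ℤ) : B.evZ (fun _ => n) (hom B z) = dil B n z := by
  refine pts_ext fun k => ?_
  change MvPolynomial.aeval _ (MvPolynomial.monomial (Finsupp.single () (B.wt k)) (z k)) =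
    (n : ℝ) ^ B.wt k * z k
  rw [MvPolynomial.aeval_monomial]
  simp [mul_comm]

theorem near_pair {g : ND ι} {g' : ND ι'} {S : ℕ} {T m : ℝ} {U : Submodule ℝ (pd g g').L}
    {ε w γ : g.L} {z : g'.L} (hε : SmE g T m ε) (hγ : Rt g m γ) (hw : pair w z ∈ U) :
    Near (pd g g') S T m U (pair (star S ε (star S w γ)) z) := by
  refine ⟨pair ε 0, pair w z, pair γ 0, fun k => ?_, hw, ?_, ?_⟩
  · cases k with
    | inl k => exact hε k
    | inr k => simpa using (Real.exp_pos m).le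
  · obtain ⟨q, h1, h2, h3⟩ := hγ
    refine ⟨q, h1, h2, den_pd.2 ⟨by rwa [fst_pair], ?_⟩⟩
    rw [snd_pair]
    exact Gon.IsDen.zero q
  · rw [star_pair, star_pair, Bch.star_zero, Bch.zero_star]

/-! ### the model and the intermediate states -/

/-- the output of `ModelStmt`, with the frequency pulled back to `B` -/
structure Mdl (t : ℕ) (m : ℝ) (A : ND ι) (hd : ι → Bool) (ηA : ι → ℤ) (x : A.L) (B : ND ι')
    (κ : ι' → Prop) (inc : B.L →ₗ⁅ℝ⁆ A.L) (ηB : ι' → ℤ) (z : ℤ → B.L) : Prop where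
  dimA : (Fintype.card ι : ℝ) ≤ m
  goodA : A.Good (t + 2) (Real.exp m)
  bigr : Bigr A hd
  freqA : Freq A (t + 2) m ηA
  top : ∀ k, hd k = false → ηA k = 0
  dimB : (Fintype.card ι' : ℝ) ≤ m
  grB : Graded B
  goodB : B.Good (t + 2) (Real.exp m)
  coid : CoId B κ
  int : B.IntMap A (Real.exp m) inc.toLinearMap
  freqB : Freq B (t + 1) m ηB
  vert : ∀ Z ∈ B.F (t + 1), On B κ Z → inc Z ∈ A.F (t + 2) ∧ A.fn ηA (inc Z) = B.fn ηB Z
  off : ∀ h h' k, ¬ κ k → z h k = z h' k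
  fac : ∀ h : ℤ, ∃ u γ : A.L, ‖u‖ ≤ 1 ∧ IsInt γ ∧ ∀ n : ℝ,
    dil2 A hd h n x = star (t + 2) u (star (t + 2) (inc (dil B n (z h))) γ)

theorem Mdl.mono {t : ℕ} {m m' : ℝ} {A : ND ι} {hd : ι → Bool} {ηA : ι → ℤ} {x : A.L} {B : ND ι'}
    {κ : ι' → Prop} {inc : B.L →ₗ⁅ℝ⁆ A.L} {ηB : ι' → ℤ} {z : ℤ → B.L}
    (h : Mdl t m A hd ηA x B κ inc ηB z) (hm : m ≤ m') : Mdl t m' A hd ηA x B κ inc ηB z :=
  have e := Real.exp_le_exp.2 hm
  ⟨h.dimA.trans hm, h.goodA.mono e, h.bigr, freq_mono h.freqA hm, h.top, h.dimB.trans hm, h.grB,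
    h.goodB.mono e, h.coid, intMap_mono h.int e, freq_mono h.freqB hm, h.vert, h.off, h.fac⟩

/-- the symbols of the family and of the model lie jointly near an annihilated subalgebra -/
def St1 (t : ℕ) (m : ℝ) (L : ℕ) (f : ℤ → ℂ) : Prop :=
  ∃ (ι : Type) (_ : Fintype ι) (N : ND ι) (η : ι → ℤ) (H : Finset ℤ) (F : ℤ → N.L → ℂ)
    (P : ℤ → N.PS Unit), FamA t m L f N η H F P ∧
    ∃ (ιA : Type) (_ : Fintype ιA) (A : ND ιA) (hd : ιA → Bool) (ηA : ιA → ℤ) (x : A.L)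
      (ιB : Type) (_ : Fintype ιB) (B : ND ιB) (κ : ιB → Prop) (inc : B.L →ₗ⁅ℝ⁆ A.L)
      (ηB : ιB → ℤ) (z : ℤ → B.L), Mdl t m A hd ηA x B κ inc ηB z ∧
      ∃ 𝔭 : LieSubalgebra ℝ (pd (gr N) B).L, GR (pd (gr N) B) m 𝔭.toSubmodule ∧
        (∀ p ∈ 𝔭, (pd (gr N) B).fn (Sum.elim η (-ηB)) p = 0) ∧
        ∀ h ∈ H, Near (pd (gr N) B) (t + 2) L m 𝔭.toSubmodule
          (pair (sym N (gr N) (P h)) (z h))

/-- the derivatives are explained by nilcharacters on `B` up to degree `t` -/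
def St2 (t : ℕ) (m : ℝ) (L : ℕ) (f : ℤ → ℂ) : Prop :=
  ∃ (ιA : Type) (_ : Fintype ιA) (A : ND ιA) (hd : ιA → Bool) (ηA : ιA → ℤ) (x : A.L)
    (ιB : Type) (_ : Fintype ιB) (B : ND ιB) (κ : ιB → Prop) (inc : B.L →ₗ⁅ℝ⁆ A.L)
    (ηB : ιB → ℤ) (z : ℤ → B.L), Mdl t m A hd ηA x B κ inc ηB z ∧
    ∃ (G : ℤ → B.L → ℂ) (b : ℤ → ℂ) (H : Finset ℤ), (∀ n, ‖b n‖ ≤ 1) ∧
      H ⊆ Ico (-(L : ℤ)) L ∧ Real.exp (-m) * L ≤ #H ∧
      ∀ h ∈ H, B.NChar (t + 2) (t + 1) (Real.exp m) ηB (G h) ∧ ∃ ψ, IsNil1 t m ψ ∧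
        Cor m L (fun n => D h f n * G h (dil B n (z h)) * b n) ψ

theorem gd_gr {N : ND ι} {S S' : ℕ} {m : ℝ} (hd : (Fintype.card ι : ℝ) ≤ m)
    (hN : N.Good S' (Real.exp m)) (hS : ∀ k, N.wt k ≤ S) : Gd (gr N) S m :=
  ⟨⟨hS, hd, fun i j k => by
    rw [(grOf_gr N).2]
    split_ifs
    · exact hN.c_le i j k
    · simpa using (Real.exp_pos m).le⟩, (grOf_gr N).graded⟩

theorem le_pw {m : ℝ} (hm : 2 ≤ m) {C : ℕ} (hC : 1 ≤ C) : m ≤ m ^ C :=
  le_self_pow₀ (by linarith) (by omega)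

theorem norm_D_le {f : ℤ → ℂ} (hf : ∀ x, ‖f x‖ ≤ 1) (h n : ℤ) : ‖D h f n‖ ≤ 1 := by
  unfold D
  rw [norm_mul, RCLike.norm_conj]
  exact mul_le_one₀ (hf _) (norm_nonneg _) (hf _)

theorem norm_mul_le_one {a b : ℂ} (ha : ‖a‖ ≤ 1) (hb : ‖b‖ ≤ 1) : ‖a * b‖ ≤ 1 := by
  rw [norm_mul]
  exact mul_le_one₀ ha (norm_nonneg _) hb

/-- the algebra -/
theorem imp1 (hPush : PushStmt) (hSubQ : SubQStmt) (hModel : ModelStmt) (t : ℕ) :
    Imp (StS t) (St1 t) := by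
  obtain ⟨c, hc, C₂, hC₂, hModel⟩ := hModel t
  obtain ⟨C₁, hC₁, hSubQ⟩ := hSubQ (t + 1) c hc
  obtain ⟨C₃, hC₃, hPush⟩ := hPush
  obtain ⟨C, hC⟩ : ∃ C : ℕ, ∀ m : ℝ, 2 ≤ m → (3 * (3 * m ^ C₁) ^ C₂) ^ C₃ ≤ m ^ C := by qp
  refine ⟨C + 1, by omega, fun m L f hm _ _ _ hS => ?_⟩
  obtain ⟨ι, _, N, η, H, F, P, hA, 𝔥, Nn, K, y, r, β, a, b, hT, hr, hy, ha, hb, hrep⟩ := hS
  have h1 : m ≤ m ^ C₁ := le_pw hm hC₁
  set m₁ := m ^ C₁ with hm₁
  have h2 : 3 * m₁ ≤ (3 * m₁) ^ C₂ := le_pw (by linarith) hC₂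
  set m₂ := (3 * m₁) ^ C₂ with hm₂
  have h3 : 3 * m₂ ≤ (3 * m₂) ^ C₃ := le_pw (by linarith) hC₃
  have h4 : (3 * m₂) ^ C₃ ≤ m ^ (C + 1) := (hC m hm).trans (Qp.pw_mono hm (by omega))
  set m₃ := (3 * m₂) ^ C₃ with hm₃
  obtain ⟨r', q, ν, Z, hq, hdvd, hZ, hZH, hZlie, hsurj, hsurjN, hν, hab⟩ :=
    hSubQ m hm ι (gr N) η 𝔥 Nn K (gd_gr hA.dim hA.good hA.wt_le) hT
  have hη : Freq (gr N) (t + 1) m₁ η := freq_mono ⟨hA.freq.supp, hA.freq.le⟩ h1
  obtain ⟨ηq, hηq, hηq'⟩ := gmap_freq hZ hη (hA.dim.trans h1)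
  obtain ⟨y', hy'⟩ := hsurj y hy
  obtain ⟨a', ha'1, ha'⟩ := hsurjN a ha
  choose b' hb'1 hb' using fun j => hsurjN (b j) (hb j)
  obtain ⟨ιA, _, A, hd, ηA, x, ιB, _, B, κ, inc, θ, z, dA, gA, bA, fA, tA, gdB, gB, cB, iB, hθ,
    hvert, hoff, hz, hfac⟩ := hModel (3 * m₁) (by linarith) (Fin r') q ν ηq r β y' a' b'
      (gd_mono hq (by linarith)) hdvd hν hab hηq (by linarith) ha'1 hb'1
  have hqd : (Fintype.card (Fin r') : ℝ) ≤ m₂ := hq.dim.trans (by linarith)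
  obtain ⟨ηB, hηB, hηB'⟩ := gmap_freq hθ (freq_mono hηq h2) hqd
  have hφ : GMap B (gr N) (3 * m₂) (Z ∘ₗ θ.toLinearMap) :=
    gmap_comp (gmap_mono hZ (by linarith)) hθ hqd
  have hφH : ∀ w, (Z ∘ₗ θ.toLinearMap) w ∈ 𝔥 := fun w => hZH _
  have hφlie : ∀ w w', (Z ∘ₗ θ.toLinearMap) ⁅w, w'⁆ -
      ⁅(Z ∘ₗ θ.toLinearMap) w, (Z ∘ₗ θ.toLinearMap) w'⁆ ∈ K := fun w w' => by
    have := hZlie (θ w) (θ w')
    rwa [← LieHom.map_lie] at this
  have KH : K ≤ 𝔥.toSubmodule := hT.KN.trans hT.NH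
  have hcard : (Fintype.card (ι ⊕ ιB) : ℝ) ≤ 3 * m₂ := by
    rw [Fintype.card_sum, Nat.cast_add]
    linarith [hA.dim, gdB.dim]
  refine ⟨ι, inferInstance, N, η, H, F, P, famA_mono hA (by linarith), ιA, inferInstance, A, hd,
    ηA, x, ιB, inferInstance, B, κ, inc, ηB, z, Mdl.mono (m := 3 * m₂) ⟨by linarith,
      gA.mono (Real.exp_le_exp.2 (by linarith)), bA, freq_mono fA (by linarith), tA,
      gdB.dim.trans (by linarith), gdB.gr, gB.mono (Real.exp_le_exp.2 (by linarith)), cB,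
      intMap_mono iB (Real.exp_le_exp.2 (by linarith)), hηB, fun W hW hW' => ?_, hoff, hfac⟩
      (by linarith), graph 𝔥 K _ KH hT.lieK hφH hφlie, ?_, fun p hp => ?_, fun h hh => ?_⟩
  · exact ⟨(hvert W hW hW').1, by rw [(hvert W hW hW').2, hηB']; rfl⟩
  · refine gr_mono (((hPush (3 * m₂) (by linarith) _ _ (pd (gr N) B) (gr N) hcard
      (hA.dim.trans (by linarith))).1 _ (gmap_dg hφ (by linarith))).2.1 K
      (gr_mono hT.grK (by linarith))) h4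
  · rw [fn_pd, fn_neg67, hηB', hηq', ← sub_eq_add_neg, ← map_sub]
    exact hT.kill _ hp
  · obtain ⟨ε, w, γ, hε, hγ, -, hw, hx⟩ := hrep h hh
    rw [show sym N (gr N) (P h) = _ from hx]
    refine near_mono (near_pair hε hγ ?_) (by linarith)
    change dg _ _ ∈ K
    rw [dg_pair]
    have := K.add_mem hw (star_graph KH hT.lieK hZH hZlie (t + 2) (lam_graph β ha' hb' h) hy')
    rw [sub_add_sub_cancel, ← hz h] at this
    exact this

/-- the converse of the equidistribution theorem on the product -/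
theorem imp2 (hVec : VecStmt) (hConv : ConvFStmt) (t : ℕ) : Imp (St1 t) (St2 t) := by
  obtain ⟨C₁, hC₁, hVec⟩ := hVec (t + 2) (t + 1)
  obtain ⟨C₂, hC₂, hConv⟩ := hConv (t + 2) t
  obtain ⟨C, hC⟩ : ∃ C : ℕ, ∀ m : ℝ, 2 ≤ m → 2 * (3 * m ^ C₁) ^ C₂ ≤ m ^ C := by qp
  refine ⟨C + 1, by omega, fun m L f hm hL _ hf hS => ?_⟩
  obtain ⟨ι, _, N, η, H, F, P, hA, ιA, _, A, hd, ηA, x, ιB, _, B, κ, inc, ηB, z, hM, 𝔭, hp, hk,
    hnear⟩ := hS
  have h1 : m ≤ m ^ C₁ := le_pw hm hC₁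
  set m₁ := m ^ C₁ with hm₁
  have h2 : 3 * m₁ ≤ (3 * m₁) ^ C₂ := le_pw (by linarith) hC₂
  have h4 : 2 * (3 * m₁) ^ C₂ ≤ m ^ (C + 1) := (hC m hm).trans (Qp.pw_mono hm (by omega))
  set m₂ := (3 * m₁) ^ C₂ with hm₂
  obtain ⟨J, G, hJ, hG, hG1⟩ := hVec m hm ιB B ηB hM.dimB hM.goodB hM.freqB
  have ins : ∀ h, ∃ j : Fin J, h ∈ H → Cor (m + m₁) L (fun n => D h f n * G j (dil B n (z h)))
      fun n => sq N (F h) (P h) n * conj (G j (dil B n (z h))) := fun h => by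
    by_cases hh : h ∈ H
    · obtain ⟨j, hj⟩ := cor_insert (hA.cor h hh) hJ (fun j n => G j (dil B n (z h)))
        fun n => hG1 _
      exact ⟨j, fun _ => hj⟩
    · obtain ⟨j, -⟩ := cor_insert (m := 0) (L := 0) (a := 0) (ψ := 0) (by simp [Cor]) hJ
        (fun j _ => G j 0) fun _ => hG1 _
      exact ⟨j, fun h' => absurd h' hh⟩
  choose j hj using ins
  have hcard : (Fintype.card (ι ⊕ ιB) : ℝ) ≤ 3 * m₁ := by
    rw [Fintype.card_sum, Nat.cast_add]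
    linarith [hA.dim, hM.dimB]
  have e1 : Real.exp m ≤ Real.exp (3 * m₁) := Real.exp_le_exp.2 (by linarith)
  obtain ⟨b, H', hb, hH', hden, hcor⟩ := hConv (3 * m₁) (by linarith) _ (pd N B) (pd (gr N) B)
    (Sum.elim η (-ηB)) 𝔭 L H (fun h p => F h (fst N B ℝ p) * conj (G (j h) (snd N B ℝ p)))
    (fun h => pair (P h) (hom B (z h))) (fun h n => D h f n * G (j h) (dil B n (z h)))
    ((grOf_gr N).pd hM.grB.grOf) hcard
    (good_pd (hA.good.mono e1) (hM.goodB.mono e1) (Real.exp_pos _).le)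
    (gr_mono hp (by linarith)) hk (le_trans (Real.exp_le_exp.2 (by linarith)) hL) fun h hh =>
      ⟨(nChar_pd (Real.exp_pos _).le (Real.exp_pos _).le (hA.chr h hh) (hG (j h)).conj).mono
          ((exp_add_exp_le67 (by linarith) (by linarith)).trans (Real.exp_le_exp.2 (by linarith))),
        pair_mem_poly (hA.poly h hh) (P61.hom_mem_poly _),
        by rw [sym_pair, sym_hom]; exact near_mono (hnear h hh) (by linarith),
        fun n => norm_mul_le_one (norm_D_le hf h n) ((hG _).bdd _),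
        cor_congr (cor_mono (hj h hh) (by linarith)) fun n => by
          simp only [sq, evZ_pair, fst_pair, snd_pair, evZ_hom]⟩
  refine ⟨ιA, inferInstance, A, hd, ηA, x, ιB, inferInstance, B, κ, inc, ηB, z,
    hM.mono (by linarith), fun h => G (j h), b, H', hb, hH'.trans hA.sub,
    dense_mono (Nat.cast_nonneg _) (dense_trans hA.dense hden) (by linarith), fun h hh =>
      ⟨(hG _).mono (Real.exp_le_exp.2 (by linarith)), ?_⟩⟩
  obtain ⟨ψ, h5, h6⟩ := hcor h hh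
  exact ⟨ψ, h5.mono (by linarith), cor_mono h6 (by linarith)⟩

/-- removal of the part of the model that does not depend on `h` -/
theorem imp3 (hVec : VecStmt) (hFib : FibCStmt) (t : ℕ) : Imp (St2 t) (StB t) := by
  obtain ⟨C₁, hC₁, hVec⟩ := hVec (t + 2) (t + 2)
  obtain ⟨C₂, hC₂, hFib⟩ := hFib (t + 2) t
  obtain ⟨C₃, hC₃⟩ : ∃ C : ℕ, ∀ m d : ℝ, 2 ≤ m → 0 ≤ d → d ≤ m → Real.exp m + Real.exp (m ^ C₁) *
      Real.exp (3 * ((t + 2 : ℕ) : ℝ) * (3 * m)) * (d * Real.exp m) ≤ Real.exp (m ^ C) ∧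
      2 * m ^ C₁ ≤ m ^ C := by qp
  obtain ⟨C, hC⟩ : ∃ C : ℕ, ∀ m : ℝ, 2 ≤ m → 3 * (m ^ C₃) ^ C₂ ≤ m ^ C := by qp
  refine ⟨C + 1, by omega, fun m L f hm hL _ hf hS => ?_⟩
  obtain ⟨ιA, _, A, hd, ηA, x, ιB, _, B, κ, inc, ηB, z, hM, G, b, H, hb, hH, hden, hG⟩ := hS
  have h1 : m ≤ m ^ C₁ := le_pw hm hC₁
  obtain ⟨hlip, h2⟩ := hC₃ m _ hm (Nat.cast_nonneg _) hM.dimB
  set m₁ := m ^ C₁ with hm₁
  have h3 : m ^ C₃ ≤ (m ^ C₃) ^ C₂ := le_pw (by linarith) hC₂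
  have h4 : 3 * (m ^ C₃) ^ C₂ ≤ m ^ (C + 1) := (hC m hm).trans (Qp.pw_mono hm (by omega))
  set m₂ := m ^ C₃ with hm₂
  set m₃ := m₂ ^ C₂ with hm₃
  have hL0 : (0 : ℝ) < L := (Real.exp_pos _).trans_le hL
  have := hM.goodA.nil ℝ
  obtain ⟨J, Φ, hJ, hΦ, hΦ1⟩ := hVec m hm ιA A ηA hM.dimA hM.goodA hM.freqA
  choose! ψ hψ hcor using fun h hh => (hG h hh).2
  choose u γ hu hγ hfac using hM.fac
  obtain ⟨l, -, H₁, hH₁, hden₁, hl⟩ := ((Cnt.of_fintype fun _ : Fin J => True).le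
    (by rwa [Fintype.card_fin])).pigeon_exp hL0 hden
    (fun h l => Cor (m + m₁) L
      (fun n => D h f n * G h (dil B n (z h)) * b n * Φ l (dil2 A hd h n x))
      fun n => ψ h n * conj (Φ l (dil2 A hd h n x))) fun h hh => by
        obtain ⟨l, hl⟩ := cor_insert (hcor h hh) hJ (fun l n => Φ l (dil2 A hd h n x))
          fun n => hΦ1 _
        exact ⟨l, trivial, hl⟩
  have hadB : adB (t + 2) ((Fintype.card ιA : ℝ) ^ 2 * Real.exp m * 1) ≤
      Real.exp (3 * ((t + 2 : ℕ) : ℝ) * (3 * m)) := by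
    refine adB_le_exp _ (by positivity) (by linarith) ?_
    have hd : (Fintype.card ιA : ℝ) ≤ Real.exp m :=
      hM.dimA.trans (by linarith [Real.add_one_le_exp m])
    calc (Fintype.card ιA : ℝ) ^ 2 * Real.exp m * 1 ≤ Real.exp m ^ 2 * Real.exp m * 1 := by gcongr
      _ = Real.exp (3 * m) := by
        rw [mul_one, pow_two, ← Real.exp_add, ← Real.exp_add]; congr 1; ring
  have hleft := fun h => (hΦ l).left hM.goodA (Real.exp_pos _).le (Real.exp_pos _).le (hu h)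
  have e1 : Real.exp m ≤ Real.exp m₂ := Real.exp_le_exp.2 (by linarith)
  obtain ⟨b', H₂, hb', hH₂, hden₂, hcor₂⟩ := hFib m₂ (by linarith) ιB B κ L H₁
    (fun h w => G h w * conj (Φ l (star (t + 2) (u h) (inc w)))) (fun h => hom B (z h))
    (fun h n => D h f n * b n * ψ h n * Φ l (dil2 A hd h n x)) (hM.dimB.trans (by linarith))
    (hM.goodB.mono e1) hM.coid (by exact_mod_cast hL0) fun h hh => by
      have hG' := (hG h (hH₁ hh)).1
      refine ⟨(hG'.toLipFn.mulConj ((hleft h).toLipFn.pullHom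
        (mul_nonneg (Real.exp_pos _).le (zero_le_one.trans (one_le_adB _ (by positivity)))) inc
        (fun w hw => hM.int.isInt67 hw) (hM.int.norm_le67 (Real.exp_pos _).le))).mono
        (le_trans ?_ hlip), fun W hW hW' w => ?_, P61.hom_mem_poly _, fun h' _ k hk => ?_,
        fun n => norm_mul_le_one (norm_mul_le_one (norm_mul_le_one (norm_D_le hf h n) (hb n))
          ((hψ h (hH₁ hh)).bdd n)) ((hΦ l).bdd _),
        cor_congr (cor_mono (hl h hh) (by linarith)) fun n => ?_⟩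
      · gcongr
      · obtain ⟨v1, v2⟩ := hM.vert W hW hW'
        have := (hleft h).vert _ v1 (inc w)
        rw [hG'.vert W hW, Bch.map_star, this, v2, map_mul, ← Tor.e_neg]
        have e2 : Tor.e (B.fn ηB W) * Tor.e (-B.fn ηB W) = 1 := by
          rw [← Tor.e_add]; simp
        linear_combination (G h w * conj (Φ l (star (t + 2) (u h) (inc w)))) * e2
      · change MvPolynomial.monomial _ (z h k) = MvPolynomial.monomial _ (z h' k)
        rw [hM.off h h' k hk]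
      · have e3 : Φ l (dil2 A hd h n x) = Φ l (star (t + 2) (u h) (inc (dil B n (z h)))) := by
          rw [hfac, ← Bch.star_assoc, (hΦ l).per _ _ (hγ h)]
        simp only [sq, evZ_hom, ← e3]
        ring
  refine ⟨ιA, inferInstance, A, hd, ηA, x, Φ l, fun n => conj (f n) * b n * b' n, H₂,
    hM.dimA.trans (by linarith), hM.goodA.mono (Real.exp_le_exp.2 (by linarith)), hM.bigr,
    (hΦ l).mono (Real.exp_le_exp.2 (by linarith)), hM.top,
    fun n => norm_mul_le_one (norm_mul_le_one (by rw [RCLike.norm_conj]; exact hf n) (hb n))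
      (hb' n), hH₂.trans (hH₁.trans hH),
    dense_mono hL0.le (dense_trans hden₁ hden₂) (by linarith), fun h hh => ?_⟩
  obtain ⟨ψ', h5, h6⟩ := hcor₂ h hh
  refine ⟨fun n => ψ h n * ψ' n, ((hψ h (hH₁ (hH₂ hh))).mul h5).mono (by linarith),
    cor_congr (cor_mono h6 (by linarith)) fun n => ?_⟩
  simp only [D]
  ring

end S57

/-- **step 4** -/
theorem step4Stmt : Step4Stmt := fun _ hPush hSubQ hModel hVec hConv hFib t =>
  (S57.imp1 hPush hSubQ hModel t).trans <| (S57.imp2 hVec hConv t).trans (S57.imp3 hVec hFib t)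

end Crest.Agent.T49.GI
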