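import Crest.Agent.T49.GiDef_40
import Crest.Agent.T49.BchND_16
import Crest.Agent.T49.NilBox_73
import Crest.Agent.T49.NilCnt_14
import Crest.Agent.T49.Qp_85

/-!
# Row 49 (helper65): step 6 of the inverse theorem (removing the smooth and rational factors)
-/

set_option autoImplicit false

noncomputable section

namespace Crest.Agent.T49.GI

open Finset Real Crest.Agent.T49.Nil Crest.Agent.T49.Nil.ND
open Crest.Agent.T49.Bch (star Ad dn cb)

namespace S6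

variable {ι : Type} [Fintype ι] {A : ND ι}

/-- a multiplicative diagonal map is a Lie homomorphism -/
def dg (A : ND ι) (c : ι → ℝ) (hc : ∀ i j k, A.c i j k ≠ 0 → c k = c i * c j) : A.L →ₗ⁅ℝ⁆ A.L where
  toFun x k := c k * x k
  map_add' x y := pts_ext fun k => mul_add _ _ _
  map_smul' r x := pts_ext fun k => mul_left_comm _ _ _
  map_lie' {x y} := pts_ext fun k => by
    simp only [lie_apply, mul_sum]
    refine sum_congr rfl fun i _ => sum_congr rfl fun j _ => ?_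
    by_cases h : A.c i j k = 0
    · simp [h]
    · rw [hc i j k h]; ring

theorem dil_star (hA : Graded A) (S : ℕ) (t : ℝ) (x y : A.L) :
    dil A t (star S x y) = star S (dil A t x) (dil A t y) :=
  Bch.map_star S (dg A (fun k => t ^ A.wt k) fun i j k h => by rw [← hA i j k h, pow_add]) x y

/-- the coefficients of `dil2` -/
def c2 {R : Type} [CommRing R] (A : ND ι) (hd : ι → Bool) (h n : R) (k : ι) : R :=
  if hd k then h * n ^ (A.wt k - 1) else n ^ A.wt k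

theorem dil2_apply (hd : ι → Bool) (h n : ℝ) (x : A.L) (k : ι) :
    dil2 A hd h n x k = c2 A hd h n k * x k := by
  unfold dil2 c2
  split_ifs <;> rfl

theorem c2_cast (hd : ι → Bool) (h n : ℤ) (k : ι) :
    c2 A hd (h : ℝ) (n : ℝ) k = ((c2 A hd h n k : ℤ) : ℝ) := by
  unfold c2
  split_ifs <;> simp

theorem c2_mul {hd : ι → Bool} (hA : Bigr A hd) (h n : ℝ) (i j k : ι) (hc : A.c i j k ≠ 0) :
    c2 A hd h n k = c2 A hd h n i * c2 A hd h n j := by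
  have h1 := hA.gr i j k hc
  have h2 := hA.add i j k hc
  obtain ⟨a, ha⟩ : ∃ a, A.wt i = a + 1 := ⟨A.wt i - 1, by have := A.wt_pos i; omega⟩
  obtain ⟨b, hb⟩ : ∃ b, A.wt j = b + 1 := ⟨A.wt j - 1, by have := A.wt_pos j; omega⟩
  unfold c2
  rw [← h1, ha, hb, show a + 1 + (b + 1) - 1 = a + b + 1 by omega]
  cases hi : hd i <;> cases hj : hd j <;> cases hk : hd k <;> simp [hi, hj, hk] at h2 ⊢ <;> ring

theorem dil2_star {hd : ι → Bool} (hA : Bigr A hd) (S : ℕ) (h n : ℝ) (x y : A.L) :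
    dil2 A hd h n (star S x y) = star S (dil2 A hd h n x) (dil2 A hd h n y) := by
  have e : ∀ z, dil2 A hd h n z = dg A (c2 A hd h n) (c2_mul hA h n) z :=
    fun z => pts_ext fun k => dil2_apply hd h n z k
  rw [e, e, e, Bch.map_star]

theorem pow_lip {a b L ρ : ℝ} (ha : |a| ≤ L) (hb : |b| ≤ L) (hρ : 0 ≤ ρ) (h : |a - b| ≤ ρ * L)
    {u v : ℝ} {w : ℕ} (hu : |u| ≤ L ^ w) (huv : |u - v| ≤ w * ρ * L ^ w) :
    |a * u - b * v| ≤ ((w + 1 : ℕ) : ℝ) * ρ * L ^ (w + 1) := by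
  have hL : 0 ≤ L := (abs_nonneg a).trans ha
  calc |a * u - b * v| = |(a - b) * u + b * (u - v)| := by ring_nf
    _ ≤ |a - b| * |u| + |b| * |u - v| := by rw [← abs_mul, ← abs_mul]; exact abs_add_le _ _
    _ ≤ ρ * L * L ^ w + L * (w * ρ * L ^ w) := by gcongr
    _ = _ := by push_cast; ring

theorem abs_pow_sub {a b L ρ : ℝ} (ha : |a| ≤ L) (hb : |b| ≤ L) (hρ : 0 ≤ ρ) (h : |a - b| ≤ ρ * L)
    (w : ℕ) : |a ^ w - b ^ w| ≤ w * ρ * L ^ w := by
  induction w with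
  | zero => simp
  | succ w ih =>
    rw [pow_succ' a, pow_succ' b]
    exact pow_lip ha hb hρ h (by rw [abs_pow]; gcongr) ih

theorem abs_c2_le (hd : ι → Bool) {h n L : ℝ} (hh : |h| ≤ L) (hn : |n| ≤ L) (k : ι) :
    |c2 A hd h n k| ≤ L ^ A.wt k := by
  obtain ⟨a, ha⟩ : ∃ a, A.wt k = a + 1 := ⟨A.wt k - 1, by have := A.wt_pos k; omega⟩
  unfold c2
  split_ifs
  · rw [ha, Nat.add_sub_cancel, abs_mul, abs_pow, pow_succ']
    have := (abs_nonneg h).trans hh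
    gcongr
  · rw [abs_pow]; gcongr

theorem abs_c2_sub (hd : ι → Bool) {h n h' n' L ρ : ℝ} (hh : |h| ≤ L) (hn : |n| ≤ L)
    (hh' : |h'| ≤ L) (hn' : |n'| ≤ L) (hρ : 0 ≤ ρ) (h1 : |h - h'| ≤ ρ * L) (h2 : |n - n'| ≤ ρ * L)
    (k : ι) : |c2 A hd h n k - c2 A hd h' n' k| ≤ A.wt k * ρ * L ^ A.wt k := by
  obtain ⟨a, ha⟩ : ∃ a, A.wt k = a + 1 := ⟨A.wt k - 1, by have := A.wt_pos k; omega⟩
  unfold c2
  split_ifs
  · rw [ha, Nat.add_sub_cancel]
    exact pow_lip hh hh' hρ h1 (by rw [abs_pow]; gcongr) (abs_pow_sub hn hn' hρ h2 a)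
  · exact abs_pow_sub hn hn' hρ h2 _

theorem norm_dil2_le (hd : ι → Bool) {h n L m : ℝ} (hh : |h| ≤ L) (hn : |n| ≤ L) {ε : A.L}
    (hε : SmE A L m ε) : ‖dil2 A hd h n ε‖ ≤ exp m :=
  (norm_le_iff (exp_pos _).le).2 fun k => by
    rw [dil2_apply, abs_mul, mul_comm]
    exact (mul_le_mul_of_nonneg_left (abs_c2_le hd hh hn k) (abs_nonneg _)).trans (hε k)

theorem norm_dil2_sub (hd : ι → Bool) {S : ℕ} (hS : ∀ k, A.wt k ≤ S) {h n h' n' L ρ m : ℝ}
    (hh : |h| ≤ L) (hn : |n| ≤ L) (hh' : |h'| ≤ L) (hn' : |n'| ≤ L) (hρ : 0 ≤ ρ)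
    (h1 : |h - h'| ≤ ρ * L) (h2 : |n - n'| ≤ ρ * L) {ε : A.L} (hε : SmE A L m ε) :
    ‖dil2 A hd h n ε - dil2 A hd h' n' ε‖ ≤ S * ρ * exp m :=
  (norm_le_iff (by positivity)).2 fun k => by
    rw [ND.sub_apply, dil2_apply, dil2_apply, ← sub_mul, abs_mul]
    have h3 : (A.wt k : ℝ) ≤ S := by exact_mod_cast hS k
    have hL : 0 ≤ L := (abs_nonneg h).trans hh
    calc _ ≤ A.wt k * ρ * L ^ A.wt k * |ε k| := by
          gcongr
          exact abs_c2_sub hd hh hn hh' hn' hρ h1 h2 k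
      _ = A.wt k * ρ * (|ε k| * L ^ A.wt k) := by ring
      _ ≤ _ := by gcongr; exact hε k

theorem den_dil2 (hd : ι → Bool) (h n : ℤ) {q : ℕ} {γ : A.L} (hγ : A.Den q γ) :
    A.Den q (dil2 A hd h n γ) := by
  rw [den_iff] at hγ ⊢
  intro k
  obtain ⟨z, hz⟩ := hγ k
  exact ⟨c2 A hd h n k * z, by rw [dil2_apply, c2_cast, mul_left_comm, hz]; push_cast; ring⟩

theorem dil2_congr (hd : ι → Bool) {h n h' n' : ℤ} {q R : ℕ} {γ : A.L} (hγ : A.Den q γ)
    (h1 : ((q * R : ℕ) : ℤ) ∣ h - h') (h2 : ((q * R : ℕ) : ℤ) ∣ n - n') :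
    ∃ u : A.L, IsInt u ∧ dil2 A hd h n γ = dil2 A hd h' n' γ + (R : ℝ) • u := by
  rw [den_iff] at hγ
  choose z hz using hγ
  have h3 : ∀ k, ((q * R : ℕ) : ℤ) ∣ c2 A hd h n k - c2 A hd h' n' k := fun k => by
    have e1 := (Int.modEq_iff_dvd.2 h1)
    have e2 := (Int.modEq_iff_dvd.2 h2)
    unfold c2
    split_ifs
    · exact (e1.mul (e2.pow _)).dvd
    · exact (e2.pow _).dvd
  choose y hy using h3
  refine ⟨A.ofInt fun k => y k * z k, isInt_ofInt _, pts_ext fun k => ?_⟩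
  have := congrArg (Int.cast : ℤ → ℝ) (hy k)
  push_cast at this
  rw [ND.add_apply, ND.smul_apply, dil2_apply, dil2_apply, c2_cast, c2_cast, ofInt_apply,
    smul_eq_mul]
  push_cast
  rw [← hz k]
  linear_combination γ k * this

/-- two rational points that are congruent modulo a deep lattice lie in the same coset -/
theorem isInt_neg_star (S : ℕ) {q : ℕ} {y u : A.L} (hy : A.Den q y) (hu : IsInt u) :
    IsInt (star S (-y) (y + ((St.dS S * q ^ (S + 1) : ℕ) : ℝ) • u)) := by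
  classical
  set R : ℕ := St.dS S * q ^ (S + 1) with hR
  have hc : ∀ z : A.L, A.Den q z → ∀ α : Unit →₀ ℕ, A.RatP q (A.mono α z) := fun z hz α β => by
    rw [cv_mono]
    split_ifs
    exacts [hz, Gon.IsDen.zero q]
  have hu' : A.Den q u := Gon.IsDen.of_dvd (isInt_iff_den.1 hu) (one_dvd q)
  have hW := St.RatP_star S (St.RatP_neg (hc y hy 0))
    (St.RatP_add (hc y hy 0) (hc u hu' (Finsupp.single () 1)))
  have hev : ∀ r : ℝ, A.ev (fun _ => r) (star S (-A.mono 0 y)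
      (A.mono 0 y + A.mono (Finsupp.single () 1) u)) = star S (-y) (y + r • u) := fun r => by
    rw [Bch.map_star, map_neg, map_add, ← cst_eq_mono, ev_cst]
    congr 2
    ext k
    change MvPolynomial.aeval _ (MvPolynomial.monomial _ (u k)) = r * u k
    simp [MvPolynomial.aeval_monomial, mul_comm]
  generalize star S (-A.mono 0 y) (A.mono 0 y + A.mono (Finsupp.single () 1) u) = W at hW hev
  have h0 : A.cv 0 W = 0 := by
    rw [cv_zero_eq]
    have := hev 0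
    rw [zero_smul, add_zero, Bch.neg_star_self] at this
    exact this
  rw [← hev]
  intro k
  change ∃ z : ℤ, MvPolynomial.aeval _ (W k) = _
  rw [MvPolynomial.aeval_def, MvPolynomial.eval₂_eq']
  refine (AddSubgroup.zmultiples (1 : ℝ)).sum_mem (t := (W k).support) (fun α _ => ?_) |>.imp
    fun z hz => by simpa using hz.symm
  by_cases hα : α () = 0
  · have : α = 0 := Finsupp.ext fun _ => hα
    have h1 : (W k).coeff α = 0 := this ▸ congrFun h0 k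
    simp [h1]
  · obtain ⟨a, ha⟩ := Nat.exists_eq_succ_of_ne_zero hα
    obtain ⟨z, hz⟩ := den_iff.1 (hW α) k
    refine ⟨z * (R : ℤ) ^ a, ?_⟩
    rw [cv_apply, ← hR] at hz
    simp [ha, ← hz, pow_succ]
    ring

theorem dil_nat (R : ℕ) {u : A.L} (hu : IsInt u) : ∃ v, IsInt v ∧ dil A R u = (R : ℝ) • v := by
  choose z hz using hu
  refine ⟨A.ofInt fun k => (R : ℤ) ^ (A.wt k - 1) * z k, isInt_ofInt _, pts_ext fun k => ?_⟩
  obtain ⟨a, ha⟩ : ∃ a, A.wt k = a + 1 := ⟨A.wt k - 1, by have := A.wt_pos k; omega⟩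
  simp only [dil, ND.smul_apply, ofInt_apply, hz, ha, smul_eq_mul, Nat.add_sub_cancel]
  push_cast
  ring

theorem fn_dil {S : ℕ} {η : ι → ℤ} (hη : ∀ k, A.wt k ≠ S → η k = 0) (R : ℕ) (x : A.L) :
    A.fn η (dil A R x) = A.fn (fun k => (R : ℤ) ^ S * η k) x := by
  rw [fn_apply, fn_apply]
  refine sum_congr rfl fun k _ => ?_
  by_cases hk : A.wt k = S
  · simp only [dil, hk]; push_cast; ring
  · simp [hη k hk]

theorem fn_mul (c : ℤ) (η : ι → ℤ) (x : A.L) : A.fn (fun k => c * η k) x = c * A.fn η x := by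
  simp [fn_apply, mul_sum, mul_assoc]

theorem norm_dil_le {S : ℕ} (hS : ∀ k, A.wt k ≤ S) {R : ℝ} (hR : 1 ≤ R) (x : A.L) :
    ‖dil A R x‖ ≤ R ^ S * ‖x‖ :=
  (norm_le_iff (by positivity)).2 fun k => by
    rw [dil, abs_mul, abs_of_nonneg (by positivity)]
    exact mul_le_mul (pow_le_pow_right₀ hR (hS k)) (abs_apply_le x k) (abs_nonneg _)
      (by positivity)

theorem dil_mem {U : Submodule ℝ A.L} (hU : IsG A U) (t : ℝ) {x : A.L} (hx : x ∈ U) :
    dil A t x ∈ U := by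
  refine (Gon.IsGr.mem_iff hU _).2 fun n => ?_
  have : Gon.prj (fun i => A.wt i = n) (dil A t x) = t ^ n • Gon.prj (fun i => A.wt i = n) x := by
    ext i
    by_cases hi : A.wt i = n
    · rw [Pi.smul_apply, Gon.prj_pos (p := fun i => A.wt i = n) _ hi,
        Gon.prj_pos (p := fun i => A.wt i = n) _ hi, dil, hi, smul_eq_mul]
    · rw [Pi.smul_apply, Gon.prj_neg (p := fun i => A.wt i = n) _ hi,
        Gon.prj_neg (p := fun i => A.wt i = n) _ hi, smul_zero]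
  rw [this]
  exact U.smul_mem _ (hU n x hx)

/-- the twisted nilcharacter -/
theorem nChar_twist {S q c : ℕ} {M K : ℝ} {η : ι → ℤ} {F : A.L → ℂ} (hG : A.Good S M)
    (hgr : Graded A) (hM : 0 ≤ M) (hF : A.NChar S S M η F) (hK : (Fintype.card ι : ℝ) ^ 2 * M ≤ K)
    (hK1 : 1 ≤ K) {ε γ : A.L} (hε : ‖ε‖ ≤ K) (hγ : A.Den q γ) (hq : 1 ≤ q) (hc : 1 ≤ c) :
    A.NChar S S (M * (cb S * K ^ (2 * S)) * ((c * (dn S * q ^ S) : ℕ) : ℝ) ^ S)
      (fun k => ((c * (dn S * q ^ S) : ℕ) : ℤ) ^ S * η k)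
      fun z => F (star S ε (star S (dil A (c * (dn S * q ^ S) : ℕ) z) γ)) := by
  have := hG.nil ℝ
  set R : ℕ := c * (dn S * q ^ S) with hR
  have hR1 : (1 : ℝ) ≤ R := by
    exact_mod_cast Nat.mul_pos hc (Nat.mul_pos (Bch.dn_pos S) (pow_pos hq S))
  have hT := hF.toLipFn.translate hM hG.c_le hM le_rfl hK hK1 hε
  have hcb : 1 ≤ cb S * K ^ (2 * S) :=
    one_le_mul_of_one_le_of_one_le (by linarith [Bch.two_le_cb S]) (one_le_pow₀ hK1)
  refine ⟨⟨fun z => hF.bdd _, fun z u hu => ?_, fun Z z => ?_⟩, fun k hk => ?_, fun k => ?_,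
    fun Z hZ z => ?_⟩
  · obtain ⟨v, hv, e⟩ := dil_nat R hu
    rw [dil_star hgr, Bch.star_assoc, Bch.star_eq_star_Ad S (dil A R u), ← Bch.star_assoc S _ γ]
    refine hT.per _ _ ?_
    rw [e, map_smul, hR, Nat.cast_mul, mul_smul]
    exact Bch.natCast_smul_mem (intL A) (smul_mem_intL.2 (den_Ad S (Gon.IsDen.neg hγ)
      (Gon.IsDen.of_dvd (isInt_iff_den.1 hv) (one_dvd q)))) c
  · rw [dil_star hgr, Bch.star_assoc]
    refine (hT.lip _ _).trans ?_
    rw [mul_assoc _ ((R : ℝ) ^ S)]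
    exact mul_le_mul_of_nonneg_left (norm_dil_le hG.wt_le hR1 Z) (by positivity)
  · simp [hF.supp k hk]
  · push_cast
    rw [abs_mul, abs_of_nonneg (by positivity), mul_comm]
    exact mul_le_mul_of_nonneg_right ((hF.η_le k).trans (le_mul_of_one_le_right hM hcb))
      (by positivity)
  · have hZ' : dil A R Z ∈ A.F S := fun k hk => by rw [dil, hZ k hk, mul_zero]
    have h0 : ⁅ε, dil A R Z⁆ = 0 := eq_zero_of_mem_FA hG.wt_le (lie_mem_FA_succ ε hZ')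
    rw [dil_star hgr, Bch.star_assoc, ← Bch.star_assoc S ε, Bch.star_eq_Ad_star S ε,
      Bch.Ad_of_lie_eq_zero S h0, Bch.star_assoc, hF.vert _ hZ', fn_dil hF.supp]

/-- cells: residue class modulo `Q` and interval of length `l` -/
theorem exists_rep (L Q l : ℕ) (hQ : 1 ≤ Q) (hl : 1 ≤ l) : ∃ rep : ℤ → ℤ,
    (∀ n ∈ Ico (-(L : ℤ)) L, rep n ∈ Ico (-(L : ℤ)) L ∧ (Q : ℤ) ∣ n - rep n ∧ |n - rep n| ≤ l) ∧
    (#((Ico (-(L : ℤ)) L).image rep) : ℝ) ≤ Q * (2 * L / l + 1) := by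
  classical
  let key : ℤ → ℤ × ℤ := fun n => (n % Q, (n + L) / l)
  let B : Set ℤ := (Ico (-(L : ℤ)) L : Finset ℤ)
  have hl' : (0 : ℤ) < l := by exact_mod_cast hl
  have hQ' : (0 : ℤ) < Q := by exact_mod_cast hQ
  refine ⟨fun n => Function.invFunOn key B (key n), fun n hn => ?_, ?_⟩
  · have h1 : ∃ a ∈ B, key a = key n := ⟨n, hn, rfl⟩
    have h2 := Function.invFunOn_eq h1
    refine ⟨Function.invFunOn_mem h1, (Int.ModEq.dvd (congrArg Prod.fst h2)), ?_⟩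
    beta_reduce
    generalize Function.invFunOn key B (key n) = a at h2
    have h3 : (a + L) / l = (n + L) / l := congrArg Prod.snd h2
    have e1 := Int.mul_ediv_add_emod (a + L) l
    have e2 := Int.mul_ediv_add_emod (n + L) l
    have e3 := Int.emod_lt_of_pos (a + L) hl'
    have e4 := Int.emod_lt_of_pos (n + L) hl'
    have e5 := Int.emod_nonneg (a + L) hl'.ne'
    have e6 := Int.emod_nonneg (n + L) hl'.ne'
    rw [h3] at e1
    rw [abs_le]
    constructor <;> omega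
  · have hsub : (Ico (-(L : ℤ)) L).image (fun n => Function.invFunOn key B (key n)) ⊆
        (Ico (0 : ℤ) Q ×ˢ Icc (0 : ℤ) ((2 * L / l : ℕ) : ℤ)).image (Function.invFunOn key B) := by
      intro a ha
      obtain ⟨n, hn, rfl⟩ := mem_image.1 ha
      rw [mem_Ico] at hn
      refine mem_image_of_mem _ (mem_product.2 ⟨mem_Ico.2
        ⟨Int.emod_nonneg _ hQ'.ne', Int.emod_lt_of_pos _ hQ'⟩,
        mem_Icc.2 ⟨Int.ediv_nonneg (by omega) hl'.le, ?_⟩⟩)
      push_cast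
      exact Int.ediv_le_ediv hl' (by omega)
    have h1 := (card_le_card hsub).trans card_image_le
    rw [card_product, Int.card_Ico, Int.card_Icc] at h1
    have h2 : ((((2 * L / l : ℕ) : ℤ) + 1 - 0).toNat) = 2 * L / l + 1 := by
      generalize 2 * L / l = a
      omega
    rw [h2, sub_zero, Int.toNat_natCast] at h1
    refine le_trans (Nat.cast_le.2 h1) ?_
    push_cast
    gcongr
    simpa using Nat.cast_div_le (α := ℝ) (m := 2 * L) (n := l)

theorem exists_part {s T : Finset ℤ} (rep : ℤ → ℤ) (hT : ∀ n ∈ s, rep n ∈ T) (G : ℤ → ℂ)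
    {X R : ℝ} (hX : 0 < X) (hR : (#T : ℝ) ≤ R) (h : X ≤ ‖∑ n ∈ s, G n‖) :
    ∃ c ∈ T, X ≤ R * ‖∑ n ∈ s, if rep n = c then G n else 0‖ := by
  have e : ∑ n ∈ s, G n = ∑ c ∈ T, ∑ n ∈ s, if rep n = c then G n else 0 := by
    rw [sum_comm]
    exact sum_congr rfl fun n hn => by simp [hT n hn]
  have hne : T.Nonempty := by
    rw [nonempty_iff_ne_empty]
    rintro rfl
    rw [e] at h
    simp at h
    linarith
  obtain ⟨c, hc, hmax⟩ := exists_max_image T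
    (fun c => ‖∑ n ∈ s, if rep n = c then G n else 0‖) hne
  refine ⟨c, hc, h.trans ?_⟩
  rw [e]
  refine (norm_sum_le _ _).trans ((sum_le_card_nsmul _ _ _ hmax).trans ?_)
  rw [nsmul_eq_mul]
  gcongr

theorem isNil1_mono {s : ℕ} {m m' : ℝ} {ψ : ℤ → ℂ} (h : IsNil1 s m ψ) (hm : m ≤ m') :
    IsNil1 s m' ψ := by
  obtain ⟨κ, _, N, F, P, h1, h2, h3, h4, h5⟩ := h
  exact ⟨κ, _, N, F, P, h1.trans hm, h2.mono (exp_le_exp.2 hm), h3.mono (exp_le_exp.2 hm), h4, h5⟩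

theorem isNil1_bdd {s : ℕ} {m : ℝ} {ψ : ℤ → ℂ} (h : IsNil1 s m ψ) (n : ℤ) : ‖ψ n‖ ≤ 1 := by
  obtain ⟨κ, _, N, F, P, -, -, h3, -, h5⟩ := h
  rw [show ψ n = _ from h5 fun _ => n]
  exact h3.bdd _

end S6

open S6

theorem step6Stmt : Step6Stmt := by
  intro t
  set S := t + 2 with hS
  have hcb : 0 < cb S := by linarith [Bch.two_le_cb S]
  obtain ⟨C, hC⟩ : ∃ C : ℕ, ∀ (m Λ P₀ Nb : ℝ) (q : ℕ), 2 ≤ m → (q : ℝ) ≤ exp m → 0 ≤ Λ →
      Λ ≤ exp m * (cb S * ((m ^ 2 + 1) * exp m) ^ (2 * S)) → 0 ≤ P₀ →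
      P₀ ≤ 2 * Λ * S * exp m * exp m → 0 ≤ Nb →
      Nb ≤ (q * (St.dS S * q ^ (S + 1))) * (4 * P₀ + 1) →
      2 * P₀ ≤ exp (m ^ C) ∧ Λ * ((S : ℝ) * (dn S * q ^ S)) ^ S ≤ exp (m ^ C) ∧
        exp m * (Nb * Nb) ≤ exp (m ^ C) ∧ exp m * (2 * Nb) ≤ exp (m ^ C) := by qp
  refine ⟨C + 1, by omega, fun m L f hm hL hf hf1 hX => ?_⟩
  obtain ⟨ι, _, A, hd, η, x, F, b, H, hB, 𝔟, hGR, hSYM, ε, y, γ, hε, hy, ⟨q, hq1, hq, hγ⟩, rfl⟩ := hX
  have := hB.good.nil ℝ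
  have hmm : m ≤ m ^ (C + 1) := le_self_pow₀ (by linarith) (by omega)
  have ee : exp (m ^ C) ≤ exp (m ^ (C + 1)) := Qp.exp_pw_mono hm (by omega)
  have em : exp m ≤ exp (m ^ (C + 1)) := exp_le_exp.2 hmm
  have e1 : 1 ≤ exp m := one_le_exp (by linarith)
  set K : ℝ := (m ^ 2 + 1) * exp m with hK
  have hK0 : exp m ≤ K := le_mul_of_one_le_left (by linarith) (by nlinarith)
  have hK1 : 1 ≤ K := e1.trans hK0
  have hK2 : (Fintype.card ι : ℝ) ^ 2 * exp m ≤ K := by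
    have := pow_le_pow_left₀ (Nat.cast_nonneg _) hB.dim 2
    rw [hK]
    gcongr
    linarith
  set Λ : ℝ := exp m * (cb S * K ^ (2 * S)) with hΛ
  set P₀ : ℝ := 2 * Λ * S * exp m * exp m with hP₀
  have hP0 : 0 < P₀ := by positivity
  set Q : ℕ := q * (St.dS S * q ^ (S + 1)) with hQ
  set Nb : ℝ := Q * (4 * P₀ + 1) with hNb
  set R : ℕ := S * (dn S * q ^ S) with hR
  have hQ1 : 1 ≤ Q := Nat.mul_pos hq1 (Nat.mul_pos (St.one_le_dS S) (pow_pos hq1 _))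
  have hR1 : 1 ≤ R := Nat.mul_pos (by omega) (Nat.mul_pos (Bch.dn_pos S) (pow_pos hq1 S))
  have hR0 : (R : ℝ) ≠ 0 := by positivity
  have hNb0 : 0 < Nb := by positivity
  obtain ⟨b1, b2, b3, b4⟩ := hC m Λ P₀ Nb q hm hq (by positivity) le_rfl hP0.le le_rfl hNb0.le
    (by rw [hNb, hQ]; push_cast; exact le_rfl)
  have hLP : 2 * P₀ ≤ L := b1.trans (ee.trans hL)
  have hL0 : (0 : ℝ) < L := by linarith
  have hl2 : 2 ≤ L / P₀ := by rwa [le_div_iff₀ hP0]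
  set l : ℕ := ⌊L / P₀⌋₊ with hl
  have hl3 : (l : ℝ) ≤ L / P₀ := Nat.floor_le (by linarith)
  have hl4 : L / P₀ < l + 1 := Nat.lt_floor_add_one _
  have hl1 : 1 ≤ l := Nat.le_floor (by push_cast; linarith)
  obtain ⟨rep, hrep, hcard⟩ := exists_rep L Q l hQ1 hl1
  have hT : (#((Ico (-(L : ℤ)) L).image rep) : ℝ) ≤ Nb := by
    refine hcard.trans ?_
    rw [hNb]
    gcongr
    have : (1 : ℝ) ≤ l := by exact_mod_cast hl1
    rw [div_lt_iff₀ hP0] at hl4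
    rw [div_le_iff₀ (by linarith)]
    nlinarith
  have hCnt : Cnt (fun a => a ∈ (Ico (-(L : ℤ)) L).image rep) Nb := (Cnt.of_finset _).le hT
  have habs : ∀ n ∈ Ico (-(L : ℤ)) L, |(n : ℝ)| ≤ L := fun n hn => by
    rw [mem_Ico] at hn
    exact_mod_cast abs_le.2 ⟨hn.1, hn.2.le⟩
  have hclose : ∀ n ∈ Ico (-(L : ℤ)) L, |(n : ℝ) - rep n| ≤ P₀⁻¹ * L := fun n hn => by
    rw [← div_eq_inv_mul]
    refine le_trans ?_ hl3
    exact_mod_cast (hrep n hn).2.2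
  have hHne : H.Nonempty := by
    rw [← card_pos, ← Nat.cast_pos (α := ℝ)]
    exact lt_of_lt_of_le (by positivity) hB.dense
  obtain ⟨h₀, hh₀, H₁, hH₁, hne₁, hc₁, hr₁⟩ := hCnt.pigeon hHne (fun h a => rep h = a)
    fun h hh => ⟨_, mem_image_of_mem _ (hB.sub hh), rfl⟩
  have hh₀' : h₀ ∈ Ico (-(L : ℤ)) L := by
    obtain ⟨n, hn, rfl⟩ := mem_image.1 hh₀
    exact (hrep n hn).1
  set F' : ℤ → A.L → ℂ := fun c z =>
    F (star S (dil2 A hd h₀ c ε) (star S (dil A R z) (dil2 A hd h₀ c γ))) with hF'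
  set x' : A.L := dil A (R : ℝ)⁻¹ y with hx'
  have hxx : ∀ h n : ℝ, dil A R (dil2 A hd h n x') = dil2 A hd h n y := fun h n => pts_ext fun k => by
    rw [dil, dil2_apply, dil2_apply, hx', dil, mul_left_comm, ← mul_assoc (_ ^ _), ← mul_pow,
      mul_inv_cancel₀ hR0, one_pow, one_mul]
  have happ : ∀ h ∈ H₁, ∀ n ∈ Ico (0 : ℤ) L,
      ‖F (dil2 A hd h n (star S ε (star S y γ))) - F' (rep n) (dil2 A hd h n x')‖ ≤
        exp (-m) / 2 := by
    intro h hh n hn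
    have hh' := hB.sub (hH₁ hh)
    have hn' : n ∈ Ico (-(L : ℤ)) L := Ico_subset_Ico_left (by omega) hn
    obtain ⟨u, hu, e⟩ := dil2_congr hd hγ (hr₁ h hh ▸ (hrep h hh').2.1) (hrep n hn').2.1
    have hint := isInt_neg_star S (den_dil2 hd h₀ (rep n) hγ) hu
    rw [← e] at hint
    rw [hF', dil2_star hB.bigr, dil2_star hB.bigr,
      ← Bch.star_neg_star S (dil2 A hd h₀ (rep n) γ) (dil2 A hd h n γ), ← Bch.star_assoc,
      ← Bch.star_assoc, hB.chr.per _ _ hint, Bch.star_assoc]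
    simp only [hxx]
    refine (hB.chr.toLipFn.norm_sub_le (exp_pos _).le hB.good.c_le (exp_pos _).le le_rfl hK2 hK1
      ((norm_dil2_le hd (habs _ hh₀') (habs _ (hrep n hn').1) hε).trans hK0)
      ((norm_dil2_le hd (habs _ hh') (habs _ hn') hε).trans hK0) _).trans ?_
    have h1 := norm_dil2_sub (S := S) hd hB.good.wt_le (habs _ hh') (habs _ hn') (habs _ hh₀')
      (habs _ (hrep n hn').1) (by positivity) (hr₁ h hh ▸ hclose h hh') (hclose n hn') hε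
    rw [← mul_assoc, ← hΛ]
    refine (mul_le_mul_of_nonneg_left h1 (by positivity)).trans (le_of_eq ?_)
    have hΛ0 : Λ ≠ 0 := by positivity
    have hS0 : (S : ℝ) ≠ 0 := by positivity
    rw [hP₀, exp_neg]
    field_simp
  have hcell : ∀ h ∈ H₁, ∃ c, c ∈ (Ico (-(L : ℤ)) L).image rep ∧ ∃ ψ, IsNil1 t m ψ ∧
      exp (-m) * L / 2 ≤ Nb * ‖∑ n ∈ Ico (0 : ℤ) L,
        f (n + h) * (if rep n = c then b n else 0) * F' c (dil2 A hd h n x') * ψ n‖ := by
    intro h hh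
    obtain ⟨ψ, hψ, hcor⟩ := hB.cor h (hH₁ hh)
    have h1 : ‖∑ n ∈ Ico (0 : ℤ) L, f (n + h) * b n * F (dil2 A hd h n (star S ε (star S y γ))) *
        ψ n - ∑ n ∈ Ico (0 : ℤ) L, f (n + h) * b n * F' (rep n) (dil2 A hd h n x') * ψ n‖ ≤
        exp (-m) * L / 2 := by
      rw [← sum_sub_distrib]
      refine (norm_sum_le _ _).trans ((sum_le_card_nsmul _ _ (exp (-m) / 2) fun n hn => ?_).trans ?_)
      · rw [← sub_mul, ← mul_sub, norm_mul, norm_mul, norm_mul]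
        calc _ ≤ 1 * 1 * (exp (-m) / 2) * 1 := by
              gcongr
              exacts [hf1 _, hB.bdd _, happ h hh n hn, isNil1_bdd hψ n]
          _ = _ := by ring
      · simp only [Int.card_Ico, sub_zero, Int.toNat_natCast, nsmul_eq_mul]
        exact le_of_eq (by ring)
    have h2 : exp (-m) * L / 2 ≤
        ‖∑ n ∈ Ico (0 : ℤ) L, f (n + h) * b n * F' (rep n) (dil2 A hd h n x') * ψ n‖ := by
      have h3 := norm_sub_norm_le (∑ n ∈ Ico (0 : ℤ) L,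
        f (n + h) * b n * F (dil2 A hd h n (star S ε (star S y γ))) * ψ n)
        (∑ n ∈ Ico (0 : ℤ) L, f (n + h) * b n * F' (rep n) (dil2 A hd h n x') * ψ n)
      have h4 : exp (-m) * L ≤ _ := hcor
      linarith
    obtain ⟨c, hc, h5⟩ := exists_part rep
      (fun n hn => mem_image_of_mem rep (Ico_subset_Ico_left (by omega) hn)) _ (by positivity) hT h2
    refine ⟨c, hc, ψ, hψ, h5.trans (le_of_eq ?_)⟩
    congr 2
    refine sum_congr rfl fun n _ => ?_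
    split_ifs with hn
    · rw [hn]
    · simp
  obtain ⟨c, hc, H₂, hH₂, -, hc₂, hr₂⟩ := hCnt.pigeon hne₁ _ hcell
  have hc' : c ∈ Ico (-(L : ℤ)) L := by
    obtain ⟨n, hn, rfl⟩ := mem_image.1 hc
    exact (hrep n hn).1
  have hexp : ∀ Y Z : ℝ, 0 < Y → exp m * Y ≤ exp (m ^ C) → exp (-m) * L ≤ Y * Z →
      exp (-m ^ (C + 1)) * L ≤ Z := fun Y Z hY h1 h2 => by
    rw [exp_neg, ← div_eq_inv_mul, div_le_iff₀ (exp_pos _)] at h2 ⊢
    have hZ : 0 ≤ Z := by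
      by_contra h'
      have : Y * Z * exp m < 0 := mul_neg_of_neg_of_pos (mul_neg_of_pos_of_neg hY (not_le.1 h'))
        (exp_pos _)
      linarith
    calc (L : ℝ) ≤ Z * (exp m * Y) := by linarith
      _ ≤ _ := mul_le_mul_of_nonneg_left (h1.trans ee) hZ
  refine ⟨ι, _, A, hd, fun k => (R : ℤ) ^ S * η k, x', F' c, fun n => if rep n = c then b n else 0,
    H₂, ⟨hB.dim.trans hmm, hB.good.mono em, hB.bigr, ?_, fun k hk => by simp [hB.top k hk],
      fun n => ?_, fun h hh => hB.sub (hH₁ (hH₂ hh)), ?_, fun h hh => ?_⟩, 𝔟,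
    ⟨hGR.gr, hGR.rat.mono em⟩, fun ys z d h1 h2 h3 => ?_, dil_mem hGR.gr _ hy, fun k => ?_⟩
  · refine (nChar_twist hB.good hB.bigr.gr (exp_pos _).le hB.chr hK2 hK1
      ((norm_dil2_le hd (habs _ hh₀') (habs _ hc') hε).trans hK0) (den_dil2 hd h₀ c hγ) hq1
      (by omega : 1 ≤ S)).mono (le_trans ?_ (b2.trans ee))
    push_cast
    exact le_rfl
  · split_ifs
    exacts [hB.bdd n, by simp]
  · refine hexp _ _ (by positivity) b3 (hB.dense.trans (hc₁.trans ?_))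
    rw [mul_assoc Nb Nb]
    gcongr
  · obtain ⟨ψ, hψ, h1⟩ := hr₂ h hh
    exact ⟨ψ, isNil1_mono hψ hmm, hexp _ _ (by positivity) b4 (by linarith)⟩
  · rw [fn_mul, fn_mul, mul_left_comm, hSYM ys z d h1 h2 h3, mul_left_comm]
  · refine Dvd.dvd.mul_right (Dvd.dvd.trans ?_ (dvd_pow_self _ (by omega))) _
    rw [hR, hS]
    push_cast
    exact dvd_mul_right _ _

end Crest.Agent.T49.GI
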