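import Crest.Agent.T49.GiDef_40
import Crest.Agent.T49.NilFn_73
import Crest.Agent.T49.NilPw_67
import Crest.Agent.T49.Qp_85

/-!
# Row 49 (helper74): the last two steps of the inverse theorem
-/

set_option autoImplicit false

noncomputable section

namespace Crest.Agent.T49.GI

open Finset Crest.Agent.T49.Nil Crest.Agent.T49.Nil.ND
open Crest.Agent.T49.Bch (star expAd)
open Crest.Agent.T49.Gow (Supp D U D2)
open Crest.Agent.T49.Qp
open scoped ComplexConjugate Pointwise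

namespace S74

variable {s s' : ℕ} {m m' : ℝ} {f g : ℤ → ℂ}

theorem nil_bdd (h : IsNil1 s m f) (n : ℤ) : ‖f n‖ ≤ 1 := by
  obtain ⟨ι, _, N, F, P, -, -, h3, -, h5⟩ := h
  have := h5 fun _ => n
  simp only at this
  rw [this]; exact h3.bdd _

theorem nil_mono (h : IsNil1 s m f) (hs : s ≤ s') (hm : m ≤ m') : IsNil1 s' m' f := by
  obtain ⟨ι, _, N, F, P, h1, h2, h3, h4, h5⟩ := h
  have he := Real.exp_le_exp.2 hm
  exact ⟨ι, _, N, F, P, h1.trans hm, (h2.step_le hs).mono he,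
    (h3.step h2.wt_le fun k => (h2.wt_le k).trans hs).mono he, h4, h5⟩

theorem nil_mul (hm : 1 ≤ m) (h : IsNil1 s m f) (h' : IsNil1 s m g) :
    IsNil1 s (2 * m) fun n => f n * g n := by
  obtain ⟨ι, _, N, F, P, h1, h2, h3, h4, h5⟩ := h
  obtain ⟨ι', _, N', F', P', h1', h2', h3', h4', h5'⟩ := h'
  have he : Real.exp m + Real.exp m ≤ Real.exp (2 * m) := by
    have := Real.add_one_le_exp m
    have := Real.exp_pos m
    rw [two_mul, Real.exp_add]; nlinarith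
  have he' : Real.exp m ≤ Real.exp (2 * m) := by linarith [Real.exp_pos m]
  refine ⟨ι ⊕ ι', inferInstance, pd N N', _, pair P P', ?_,
    (good_pd h2 h2' (Real.exp_pos m).le).mono he',
    (lipFn_pd (Real.exp_pos m).le (Real.exp_pos m).le h3 h3').mono he, pair_mem_poly h4 h4',
    fun n => ?_⟩
  · rw [Fintype.card_sum]; push_cast; linarith
  · have a := h5 n
    have b := h5' n
    simp only at a b ⊢
    rw [a, b, evZ_pair, fst_pair, snd_pair]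

theorem cor_mono {L : ℕ} {a ψ : ℤ → ℂ} (h : Cor m L a ψ) (hm : m ≤ m') : Cor m' L a ψ :=
  le_trans (mul_le_mul_of_nonneg_right (Real.exp_le_exp.2 (neg_le_neg hm)) (Nat.cast_nonneg _)) h

theorem cor_congr {L : ℕ} {a ψ a' ψ' : ℤ → ℂ} (h : Cor m L a ψ)
    (e : ∀ n ∈ Ico (0 : ℤ) L, a n * ψ n = a' n * ψ' n) : Cor m L a' ψ' := by
  unfold Cor at h ⊢
  rwa [← sum_congr rfl e]

theorem evZ_hom {ι : Type} [Fintype ι] (A : ND ι) (x : A.L) (n : ℤ) :
    A.evZ (fun _ : Unit => n) (hom A x) = dil A n x := by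
  ext k
  simp [ND.evZ, ND.ev, hom, dil, MvPolynomial.aeval_monomial, mul_comm]

theorem hom_poly {ι : Type} [Fintype ι] (A : ND ι) (x : A.L) : hom A x ∈ A.poly Unit := by
  intro α k hk
  rw [cv_apply, hom, MvPolynomial.coeff_monomial, if_neg]
  rintro rfl
  simp at hk

/-- the difference set, with the instances of `GowA_67` -/
def dI (L : ℕ) : Finset ℤ :=
  @HSub.hSub _ _ _ (@instHSub _ (@Finset.sub ℤ (fun a b => Classical.propDecidable (a = b)) _))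
    (Ico (0 : ℤ) L) (Ico (0 : ℤ) L)

theorem sub_Ico (L : ℕ) : dI L ⊆ Ico (-(L : ℤ)) L := by
  intro h hh
  obtain ⟨a, ha, b, hb, rfl⟩ := (@mem_sub _ (_) _ _ _ _).1 hh
  rw [mem_Ico] at ha hb ⊢
  omega

theorem U_le_L (s L : ℕ) {b : ℤ → ℂ} (hb : Supp b (Ico (0 : ℤ) L)) (h1 : ∀ n, ‖b n‖ ≤ 1) :
    U s b ≤ 2 ^ s * (L : ℝ) ^ (s + 1) := by
  refine (Gow.U_le s hb h1).trans ?_
  have h2 : ((dI L).card : ℝ) ≤ 2 * L := by
    have := card_le_card (sub_Ico L)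
    rw [Int.card_Ico] at this
    have h3 : ((L : ℤ) - -(L : ℤ)).toNat = 2 * L := by omega
    rw [h3] at this
    exact_mod_cast this
  calc ((Ico (0 : ℤ) L).card : ℝ) * ((dI L).card : ℝ) ^ s
      ≤ L * (2 * L) ^ s := by
        rw [Int.card_Ico]
        simp only [sub_zero, Int.toNat_natCast]
        gcongr
    _ = _ := by ring

theorem pig {J : ℕ} (hJ : 0 < J) (H : Finset ℤ) (p : ℤ → Fin J → Prop)
    (hp : ∀ h ∈ H, ∃ j, p h j) :
    ∃ j, ∃ H' ⊆ H, (#H : ℝ) ≤ J * #H' ∧ ∀ h ∈ H', p h j := by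
  classical
  have : Nonempty (Fin J) := ⟨⟨0, hJ⟩⟩
  choose! c hc using hp
  have hJ' : (0 : ℝ) < J := by exact_mod_cast hJ
  obtain ⟨j, -, hj⟩ := exists_le_card_fiber_of_nsmul_le_card_of_maps_to (s := H) (t := univ)
    (f := c) (b := (#H : ℝ) / J) (fun _ _ => mem_univ _) univ_nonempty
    (by rw [card_univ, Fintype.card_fin, nsmul_eq_mul, mul_div_cancel₀ _ hJ'.ne'])
  refine ⟨j, _, filter_subset _ _, by rwa [div_le_iff₀' hJ'] at hj, fun h hh => ?_⟩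
  obtain ⟨h1, h2⟩ := mem_filter.1 hh
  exact h2 ▸ hc h h1

theorem cor_split {L J : ℕ} (hJ : 0 < J) {a ψ : ℤ → ℂ} (h : Cor m L a ψ) (u : Fin J → ℤ → ℂ)
    (hu : ∀ n, ∑ j, u j n = 1) (hm : (J : ℝ) * Real.exp (-m') ≤ Real.exp (-m)) :
    ∃ j, Real.exp (-m') * L ≤ ‖∑ n ∈ Ico (0 : ℤ) L, a n * ψ n * u j n‖ := by
  have : Nonempty (Fin J) := ⟨⟨0, hJ⟩⟩
  obtain ⟨j, -, hj⟩ := exists_le_of_sum_le (s := univ) (f := fun _ : Fin J => Real.exp (-m') * L)
    (g := fun j => ‖∑ n ∈ Ico (0 : ℤ) L, a n * ψ n * u j n‖) univ_nonempty (by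
      refine le_trans ?_ (h.trans (le_trans (le_of_eq ?_) (norm_sum_le _ _)))
      · rw [sum_const, card_univ, Fintype.card_fin, nsmul_eq_mul, ← mul_assoc]
        exact mul_le_mul_of_nonneg_right hm (Nat.cast_nonneg _)
      · rw [sum_comm]
        simp only [← mul_sum, hu, mul_one])
  exact ⟨j, hj⟩

theorem sfil_mono {ι : Type} [Fintype ι] {N : ND ι} {S : ℕ} {V : ℕ → Submodule ℝ N.L}
    {𝔨 : Submodule ℝ N.L} (h : SFil N S m V 𝔨) (hm : m ≤ m') : SFil N S m' V 𝔨 :=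
  ⟨fun b => (h.rat b).mono (Real.exp_le_exp.2 hm), h.ratk.mono (Real.exp_le_exp.2 hm), h.zero,
    h.anti, h.lie, h.bot, h.le, h.ideal⟩

theorem one_le_of {C : ℕ} (h : (2 : ℝ) ≤ 2 ^ C) : 1 ≤ C := by
  by_contra h0
  rw [show C = 0 by omega] at h
  norm_num at h

end S74

open S74

theorem step8Stmt : Step8Stmt := by
  intro hDer t hGI
  obtain ⟨C1, hC1, hDer⟩ := hDer t
  obtain ⟨C2, hC2, hGI⟩ := hGI
  obtain ⟨C3, h3⟩ : ∃ C : ℕ, ∀ m : ℝ, 2 ≤ m → 2 ≤ m ^ C ∧ m ≤ m ^ C ∧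
      Real.exp (-m ^ C) ≤ (Real.exp (-m) * Real.exp (-m ^ C1)) ^ 2 / 2 ^ (t + 2) := by qp
  obtain ⟨C, hC⟩ : ∃ C : ℕ, ∀ m : ℝ, 2 ≤ m → 2 ≤ m ^ C ∧ 2 * (m ^ C3) ^ C2 ≤ m ^ C := by qp
  refine ⟨C, one_le_of (hC 2 le_rfl).1, fun m L f hm hL hf hb hE => ?_⟩
  obtain ⟨Θ, b, H, hΘ, hbb, hH, hd, hc⟩ := hE
  obtain ⟨a1, a2, a3⟩ := h3 m hm
  have a4 := (hC m hm).2
  have a5 : m ^ C3 ≤ (m ^ C3) ^ C2 := le_self_pow₀ (by linarith) (by omega)
  have hL0 : (0 : ℝ) < L := (Real.exp_pos _).trans_le hL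
  classical
  set g : ℤ → ℂ := fun n => f n * Θ n with hg
  set b' : ℤ → ℂ := fun n => if n ∈ Ico (0 : ℤ) L then conj (b n) else 0 with hb'
  have sg : Supp g (Ico (0 : ℤ) L) := hf.mul_right Θ
  have sb : Supp b' (Ico (0 : ℤ) L) := fun n hn => if_neg hn
  have bg : ∀ n, ‖g n‖ ≤ 1 := fun n => by
    rw [hg, norm_mul]; exact mul_le_one₀ (hb n) (norm_nonneg _) (nil_bdd hΘ n)
  have bb : ∀ n, ‖b' n‖ ≤ 1 := fun n => by
    simp only [hb']
    split_ifs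
    · rw [RCLike.norm_conj]; exact hbb n
    · simp
  have key : ∀ h ∈ H, Real.exp (-m ^ C1) * (L : ℝ) ^ (t + 2) ≤ U (t + 1) (D2 h g b') := by
    intro h hh
    obtain ⟨ψ, h1, h2⟩ := hc h hh
    refine hDer m hm L _ ψ h1 (sb.D2 _ _) (Gow.norm_D2_le bg bb h) (cor_congr h2 fun n hn => ?_)
    simp only [D2, hg, hb', if_pos hn, Complex.conj_conj]
  have hsub : H ⊆ dI L := by
    intro h hh
    by_contra hn
    have h1 := key h hh
    rw [Gow.D2_eq_zero sg sb hn, U, Gow.Uc_zero, norm_zero] at h1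
    exact absurd h1 (not_le.2 (by positivity))
  have h1 : Real.exp (-m) * Real.exp (-m ^ C1) * (L : ℝ) ^ (t + 3) ≤
      ∑ h ∈ dI L, U (t + 1) (D2 h g b') := by
    refine le_trans ?_ (sum_le_sum_of_subset_of_nonneg hsub fun _ _ _ => Gow.U_nonneg _ _)
    refine le_trans ?_ (card_nsmul_le_sum H _ _ key)
    rw [nsmul_eq_mul]
    refine le_trans (le_of_eq ?_) (mul_le_mul_of_nonneg_right hd (by positivity))
    ring
  have h2 := (pow_le_pow_left₀ (by positivity) h1 2).trans ((Gow.sum_U_D2 t sg sb).trans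
    (mul_le_mul_of_nonneg_left (U_le_L (t + 2) L sb bb) (Gow.U_nonneg _ _)))
  have hU : BigU (t + 1) (m ^ C3) L g := by
    refine (mul_le_mul_of_nonneg_right a3 (by positivity)).trans ?_
    rw [div_mul_eq_mul_div, div_le_iff₀ (by positivity)]
    refine le_of_mul_le_mul_right ?_ (show (0 : ℝ) < (L : ℝ) ^ (t + 3) by positivity)
    refine le_trans (le_of_eq ?_) (h2.trans (le_of_eq ?_)) <;> ring
  obtain ⟨ψ, p1, p2⟩ := hGI (m ^ C3) L g a1 (le_trans (Real.exp_le_exp.2 (by linarith)) hL) sg bg hU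
  refine ⟨fun n => Θ n * ψ n, nil_mono (nil_mul (by linarith) (nil_mono hΘ le_rfl (a2.trans a5))
    (nil_mono p1 (by omega) le_rfl)) le_rfl a4, cor_mono (cor_congr p2 fun n _ => ?_) (by linarith)⟩
  simp only [hg, mul_assoc]

theorem step7Stmt : Step7Stmt := by
  intro hVec hFilt hFib t
  obtain ⟨C1, hC1, hVec⟩ := hVec (t + 2) (t + 2)
  obtain ⟨C2, hC2, hFilt⟩ := hFilt t
  obtain ⟨C3, hC3, hFib⟩ := hFib (t + 2) t
  obtain ⟨C4, h4⟩ : ∃ C : ℕ, ∀ (m : ℝ) (d : ℕ), 2 ≤ m → (d : ℝ) ≤ m → 2 ≤ m ^ C ∧ m ≤ m ^ C ∧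
      m ^ C1 ≤ m ^ C ∧ m ^ C2 ≤ m ^ C ∧ m + m ^ C1 ≤ m ^ C ∧ 3 * (d : ℝ) ≤ m ^ C ∧
      (Real.exp m * 1 + Real.exp (m ^ C1) * 1) * ((((t + 2 : ℕ) : ℝ) + 1) *
        (1 + (3 * (d : ℝ)) ^ 2 * Real.exp m * Real.exp (m ^ C2)) ^ (t + 2)) ≤
        Real.exp (m ^ C) := by qp
  obtain ⟨C, hC⟩ : ∃ C : ℕ, ∀ m : ℝ, 2 ≤ m → 2 ≤ m ^ C ∧ 2 * (m ^ C4) ^ C3 ≤ m ^ C ∧
      (m ^ C4) ^ C3 + m ^ C4 ≤ m ^ C := by qp
  refine ⟨C, one_le_of (hC 2 le_rfl).1, fun m L f hm hL hf hb hE => ?_⟩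
  obtain ⟨ι, _, A, hd, η, x, F, b, H, hB, 𝔟, hGR, hSYM, hx, hdiv⟩ := hE
  obtain ⟨a1, a2, a3, a4, a5, a6, a7⟩ := h4 m _ hm hB.dim
  obtain ⟨-, a8, a9⟩ := hC m hm
  have a10 : m ^ C4 ≤ (m ^ C4) ^ C3 := le_self_pow₀ (by linarith) (by omega)
  have hL0 : (0 : ℝ) < L := (Real.exp_pos _).trans_le hL
  have hem := (Real.exp_pos m).le
  choose η' hη' using hdiv
  have ht : ((t : ℤ) + 2) ≠ 0 := by omega
  have hfr : Freq A (t + 2) m η := ⟨hB.chr.supp, hB.chr.η_le⟩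
  have hfr' : Freq A (t + 2) m η' := by
    refine ⟨fun k hk => ?_, fun k => le_trans ?_ (hfr.le k)⟩
    · have := hfr.supp k hk
      rw [hη' k] at this
      exact (mul_eq_zero.1 this).resolve_left ht
    · rw [hη' k]
      push_cast
      rw [abs_mul]
      refine le_mul_of_one_le_left (abs_nonneg _) ?_
      rw [abs_of_nonneg (by positivity)]
      linarith [(Nat.cast_nonneg t : (0 : ℝ) ≤ t)]
  obtain ⟨J, G, hJ, hG, hG1⟩ := hVec m hm ι A η' hB.dim hB.good hfr'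
  have hJ0 : 0 < J := by
    rcases Nat.eq_zero_or_pos J with rfl | h
    · simpa using hG1 0
    · exact h
  obtain ⟨V, 𝔨, P, hS, hZ, hP, hPk, hu⟩ := hFilt m hm ι A hd η η' 𝔟 x
    ⟨hB.good.wt_le, hB.dim, hB.good.c_le⟩ hB.bigr hfr hη' hGR hSYM hx
  choose u γ hu hγ huγ using hu
  choose! ψ hψ hψc using hB.cor
  have hJe : (J : ℝ) * Real.exp (-m ^ C4) ≤ Real.exp (-m) := by
    refine (mul_le_mul_of_nonneg_right hJ (Real.exp_pos _).le).trans ?_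
    rw [← Real.exp_add]
    exact Real.exp_le_exp.2 (by linarith)
  obtain ⟨j, H1, hH1, hc1, hcor⟩ := pig hJ0 H _ fun h hh => cor_split hJ0 (hψc h hh)
    (fun j n => G j (dil A (n + h : ℤ) x) * conj (G j (dil A (n + h : ℤ) x))) (fun n => hG1 _) hJe
  have hg3 := good_pw hB.good hem (Fin 3)
  have := hg3.nil ℝ
  set Ψ : (pw A (Fin 3)).L → ℂ := fun z => F (pr A ℝ 2 z) * conj (G j (pr A ℝ 1 z)) with hΨ
  have lΨ : (pw A (Fin 3)).LipFn (t + 2) (Real.exp m * 1 + Real.exp (m ^ C1) * 1) Ψ :=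
    ((fHom_pr 2).lipFn hem hB.chr.toLipFn).mulConj
      ((fHom_pr 1).lipFn (Real.exp_pos _).le (hG j).toLipFn)
  have hΘ : IsNil1 (t + 2) (m ^ C4) fun n => G j (dil A n x) :=
    ⟨ι, _, A, G j, hom A x, hB.dim.trans a2, hB.good.mono (Real.exp_le_exp.2 a2),
      (hG j).toLipFn.mono (Real.exp_le_exp.2 a3), hom_poly A x, fun n =>
      congrArg (G j) (evZ_hom A x (n ())).symm⟩
  have hcard : (Fintype.card (Fin 3 × ι) : ℝ) = 3 * Fintype.card ι := by simp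
  obtain ⟨b', H2, hb', hH2, hc2, hfin⟩ := hFib (m ^ C4) a1 _ (pw A (Fin 3)) V 𝔨 L H1
    (fun h z => Ψ (star (t + 2) (u h) z)) P
    (fun h n => f (n + h) * G j (dil A (n + h : ℤ) x) * b n * ψ h n) (hcard ▸ a6)
    (hg3.mono (Real.exp_le_exp.2 a2)) (sfil_mono hS a4) (by exact_mod_cast hL0) fun h hh => by
      refine ⟨(lΨ.left hg3 hem (by positivity) (hu h)).mono ?_, fun Z h1 h2 z => ?_, hP h,
        fun h' _ α => hPk h h' α, fun n => ?_, ?_⟩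
      · rw [hcard]; exact a7
      · obtain ⟨z1, z2⟩ := hZ Z h1 h2
        have z3 : ⁅u h, Z⁆ = 0 := eq_zero_of_mem_FA hg3.wt_le (lie_mem_FA_succ _ z1)
        rw [star_left_comm_Ad, Bch.Ad_of_lie_eq_zero _ z3]
        simp only [hΨ]
        rw [Bch.map_star, Bch.map_star _ (pr A ℝ 1), hB.chr.vert _ (mem_pw_FA.1 z1 2),
          (hG j).vert _ (mem_pw_FA.1 z1 1), z2, map_mul, mul_mul_mul_comm, ← Tor.e_sub, sub_self,
          Tor.e_zero, one_mul]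
      · simp only [norm_mul]
        exact mul_le_one₀ (mul_le_one₀ (mul_le_one₀ (hb _) (norm_nonneg _) ((hG j).bdd _))
          (norm_nonneg _) (hB.bdd _)) (norm_nonneg _) (nil_bdd (hψ h (hH1 hh)) n)
      · refine (hcor h hh).trans (le_of_eq ?_)
        congr 1
        refine sum_congr rfl fun n _ => ?_
        have e : Ψ (star (t + 2) (u h) ((pw A (Fin 3)).evZ (fun _ => n) (P h))) =
            F (dil2 A hd h n x) * conj (G j (dil A (n + h : ℤ) x)) := by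
          rw [← lΨ.per _ _ (hγ h), Bch.star_assoc, ← huγ h n]
          rfl
        simp only [sq, e]
        ring
  refine ⟨fun n => G j (dil A n x), fun n => b n * b' n, H2, nil_mono hΘ le_rfl (by linarith),
    fun n => ?_, hH2.trans (hH1.trans hB.sub), ?_, fun h hh => ?_⟩
  · rw [norm_mul]; exact mul_le_one₀ (hB.bdd n) (norm_nonneg _) (hb' n)
  · refine le_trans ?_ hc2
    have h1 : Real.exp (-m ^ C4) * L ≤ #H1 := by
      have hJ' : (0 : ℝ) < J := by exact_mod_cast hJ0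
      refine le_of_mul_le_mul_left (le_trans ?_ (hB.dense.trans hc1)) hJ'
      rw [← mul_assoc]
      exact mul_le_mul_of_nonneg_right hJe hL0.le
    refine le_trans ?_ (mul_le_mul_of_nonneg_left h1 (Real.exp_pos _).le)
    rw [← mul_assoc, ← Real.exp_add]
    exact mul_le_mul_of_nonneg_right (Real.exp_le_exp.2 (by linarith)) hL0.le
  · obtain ⟨φ, p1, p2⟩ := hfin h hh
    refine ⟨fun n => ψ h n * φ n, nil_mono (nil_mul (by linarith)
      (nil_mono (hψ h (hH1 (hH2 hh))) le_rfl (a2.trans a10)) p1) le_rfl a8,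
      cor_mono (cor_congr p2 fun n _ => ?_) (by linarith)⟩
    ring

end Crest.Agent.T49.GI
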