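import Crest.Agent.T49.GiStructA_60

/-! # Row 49 (helper60): the leaf STRUCT of `GI` -/

set_option autoImplicit false

noncomputable section

namespace Crest.Agent.T49.GI

open Finset Crest.Agent.T49.Nil Crest.Agent.T49.Nil.ND
open Crest.Agent.T49.Bch (star expAd)

namespace S60

/-- linearisation: the representatives satisfy an approximate linear relation -/
theorem struct_lin (hClos : ClosStmt) (hPush : PushStmt) (hPet : PetalStmt) (hLin : Lin3Stmt)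
    (S : ℕ) : ∃ C : ℕ, 1 ≤ C ∧ ∀ (m : ℝ), 2 ≤ m → ∀ (ι : Type) [Fintype ι] (g : ND ι)
    (η : ι → ℤ) (T X : ℝ) (𝔥 : LieSubalgebra ℝ (pw g (Fin 4)).L) (Q : Finset (Fin 4 → ℤ))
    (ys : (pw g (Fin 4)).L) (ν : (Fin 4 → ℤ) → (pw g (Fin 4)).L),
    Gd g S m → Real.exp (m ^ C) ≤ T → GR (pw g (Fin 4)) m 𝔥.toSubmodule →
    (∀ z ∈ 𝔥, (pw g (Fin 4)).fn (pwη sg4 η) z = 0) → 0 < X → Real.exp (-m) * X ≤ #Q →
    ys ∈ 𝔥 → ‖ys‖ ≤ Real.exp m →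
    (∀ q ∈ Q, (∀ i, pr g ℝ i (ν q) ∈ pN 𝔥 i) ∧ ‖ν q‖ ≤ Real.exp m ∧
      Near (pw g (Fin 4)) S T m 𝔥.toSubmodule (star S (ν q) ys)) →
    ∃ Q' ⊆ Q, Real.exp (-m ^ C) * X ≤ #Q' ∧
      ∃ (p : (pw g (Fin 4)).L →ₗ[ℝ] (pw g (Fin 4)).L) (c : (pw g (Fin 4)).L),
        GMap _ _ (m ^ C) p ∧ LinearMap.ker p = 𝔥.toSubmodule ∧
        ∀ q ∈ Q', SmE (pw g (Fin 4)) T (m ^ C) (p (ν q) - c) := by
  obtain ⟨Cc, hCc, hClos⟩ := hClos S
  obtain ⟨Cu, hCu, hPush⟩ := hPush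
  obtain ⟨Cp, hCp, hPet⟩ := hPet
  obtain ⟨Cl, hCl, hLin⟩ := hLin S
  refine ⟨3 * Cp * Cu * Cu * Cl * 2 * Cc * Cu * 7 * 2, Nat.succ_le_of_lt (by positivity), ?_⟩
  intro m hm ι _ g η T X 𝔥 Q ys ν hg hT h𝔥 hη hX hQ hys hysn hν
  simp only [pow_mul] at hT ⊢
  obtain ⟨b0, l0⟩ := up hm (by norm_num : 1 ≤ 3)
  have hG := gd_pw hm hg
  have l0' := four_le hm
  generalize m ^ 3 = a0 at *
  obtain ⟨b1, l1⟩ := up b0 hCp
  have hPet := hPet a0 b0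
  generalize a0 ^ Cp = a1 at *
  obtain ⟨b2, l2⟩ := up b1 hCu
  have hPush1 := hPush a1 b1
  generalize a1 ^ Cu = a2 at *
  obtain ⟨b3, l3⟩ := up b2 hCu
  have hPush2 := hPush a2 b2
  generalize a2 ^ Cu = a3 at *
  obtain ⟨b4, l4⟩ := up b3 hCl
  have hLin := hLin a3 b3
  generalize a3 ^ Cl = a4 at *
  obtain ⟨b5, l5⟩ := up b4 (by norm_num : 1 ≤ 2)
  have l5' := two_le b4
  generalize a4 ^ 2 = a5 at *
  obtain ⟨b6, l6⟩ := up b5 hCc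
  have hClos := hClos a5 b5
  generalize a5 ^ Cc = a6 at *
  obtain ⟨b7, l7⟩ := up b6 hCu
  have hPush6 := hPush a6 b6
  generalize a6 ^ Cu = a7 at *
  obtain ⟨b8, l8⟩ := up b7 (by norm_num : 1 ≤ 7)
  have hCnt := cnt_rt (pw g (Fin 4)) b7 (hG.dim.trans (by linarith))
  generalize a7 ^ 7 = a8 at *
  obtain ⟨b9, l9⟩ := up b8 (by norm_num : 1 ≤ 2)
  have l9' := two_le b8
  generalize a8 ^ 2 = a9 at *
  have hT1 : (1 : ℝ) ≤ T := (Real.one_le_exp (by linarith)).trans hT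
  have := ND.nil hG.wt_le ℝ
  have hTri := hPet ι g η 𝔥 (hg.dim.trans l0) (gr_mono h𝔥 l0) hη
  have hd : ∀ a, a0 ≤ a → (Fintype.card (Fin 4 × ι) : ℝ) ≤ a := fun a ha => hG.dim.trans ha
  let Nn : Submodule ℝ (pw g (Fin 4)).L := ⨅ i, (pN 𝔥 i).comap (pr g ℝ i).toLinearMap
  let K : Submodule ℝ (pw g (Fin 4)).L := ⨅ i, (pK 𝔥 i).comap (pr g ℝ i).toLinearMap
  have hNn : ∀ z, z ∈ Nn ↔ ∀ i, pr g ℝ i z ∈ pN 𝔥 i := fun z => by simp [Nn]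
  have hK : ∀ z, z ∈ K ↔ ∀ i, pr g ℝ i z ∈ pK 𝔥 i := fun z => by simp [K]
  have hNnG : GR (pw g (Fin 4)) a3 Nn :=
    ((hPush2 _ _ (pw g (Fin 4)) (pw g (Fin 4)) (hd _ (by linarith)) (hd _ (by linarith))).2.2.1
      (Fin 4) _ fun i => ((hPush1 _ _ (pw g (Fin 4)) g (hd _ l1) (hg.dim.trans (by linarith))).1 _
        (gmap_pr (by linarith) i)).2.1 _ (hTri i).grN).1
  obtain ⟨p, hp, hker⟩ :=
    (hPush1 _ _ (pw g (Fin 4)) (pw g (Fin 4)) (hd _ l1) (hd _ l1)).2.2.2.2 _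
      (gr_mono h𝔥 (by linarith))
  have hpk : ∀ z, p z = 0 ↔ z ∈ 𝔥 := fun z => by
    rw [← LinearMap.mem_ker, hker]; rfl
  obtain ⟨-, -, hpS, hpR, hpN, -⟩ := (hPush6 _ _ (pw g (Fin 4)) (pw g (Fin 4))
    (hd _ (by linarith)) (hd _ (by linarith))).1 p (gmap_mono hp (by linarith))
  have hAd : ∀ y ∈ 𝔥, ∀ z ∈ 𝔥, Bch.Ad S y z ∈ 𝔥 := fun y hy z hz =>
    Bch.Ad_mem S 𝔥.toSubmodule (fun _ h => 𝔥.lie_mem hy h) hz
  obtain ⟨w, -, Q', hQ'Q, hQ', hw⟩ := hCnt.pigeon_exp hX hQ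
    (fun q w => ∃ ε γ, SmE (pw g (Fin 4)) T a4 ε ∧ ν q - ε - Bch.Ad S ys γ ∈ 𝔥 ∧ p γ = w) (by
      intro q hq
      obtain ⟨h1, h2, h3⟩ := hν q hq
      obtain ⟨ε, -, γ, -, h4, h5, h6⟩ := hLin _ _ 𝔥 Nn K T ys (ν q) (gd_mono hG (by linarith))
        (le_ex hT (by linarith)) (gr_mono h𝔥 (by linarith)) hNnG
        (fun z hz => by
          rw [eq_sum_inj z]
          exact Submodule.sum_mem _ fun i _ => (hK z).1 hz i)
        (fun z hz => (hNn z).2 fun i => (hTri i).KN ((hK z).1 hz i))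
        (fun x hx z hz => (hNn _).2 fun i => by
          rw [LieHom.map_lie]; exact (hTri i).lieN _ ⟨x, hx, rfl⟩ _ ((hNn z).1 hz i))
        (fun x hx z hz => (hK _).2 fun i => by
          rw [LieHom.map_lie]; exact (hTri i).lieK _ ⟨x, hx, rfl⟩ _ ((hK z).1 hz i))
        (fun x hx z hz => (hK _).2 fun i => by
          rw [LieHom.map_lie]; exact (hTri i).abel _ ((hNn x).1 hx i) _ ((hNn z).1 hz i))
        hys ((hNn _).2 h1) (near_mono h3 (by linarith))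
      refine ⟨p γ, ⟨rt_mono (hpR γ (rt_mono h5 (by linarith))) l7, ?_⟩, ε, γ, h4, h6, rfl⟩
      have h7 : p γ = p (expAd S (-ys) (ν q - ε)) := by
        have h8 := hAd _ (neg_mem hys) _ h6
        rw [map_sub, ← Bch.Ad_eq, Bch.Ad_neg_Ad, ← hpk, map_sub, sub_eq_zero] at h8
        exact h8.symm
      rw [h7]
      refine hpN _ ((hClos _ _ (gd_mono hG (by linarith))).2.2.1 _ _
        (by rw [norm_neg]; exact ex_le hysn (by linarith)) ?_).2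
      refine (norm_sub_le _ _).trans ((add_le_add (ex_le h2 (by linarith : m ≤ a4))
        (norm_le_of_smE hT1 h4)).trans ?_)
      calc Real.exp a4 + Real.exp a4 = 2 * Real.exp a4 := by ring
        _ ≤ Real.exp a4 * Real.exp a4 := by
            gcongr; linarith [Real.add_one_le_exp a4]
        _ ≤ _ := by rw [← Real.exp_add]; exact Real.exp_le_exp.2 l5')
  obtain ⟨q₀, hq₀⟩ : Q'.Nonempty := by
    rw [← card_pos]
    have : (0 : ℝ) < #Q' := lt_of_lt_of_le (by positivity) hQ'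
    exact_mod_cast this
  obtain ⟨-, γ₀, -, -, hγ₀⟩ := hw q₀ hq₀
  refine ⟨Q', hQ'Q, dens_le hX.le hQ' (by linarith), p, p (Bch.Ad S ys γ₀),
    gmap_mono hp (by linarith), hker, fun q hq => ?_⟩
  obtain ⟨ε, γ, h1, h2, h3⟩ := hw q hq
  have h4 : γ - γ₀ ∈ 𝔥 := by rw [← hpk, map_sub, h3, hγ₀, sub_self]
  have h5 := add_mem h2 (hAd _ hys _ h4)
  have h6 : p (ν q) - p (Bch.Ad S ys γ₀) = p ε := by
    rw [← hpk] at h5
    simp only [map_add, map_sub] at h5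
    rw [← sub_eq_zero, ← h5]
    abel
  rw [h6]
  exact smE_mono (hpS T ε hT1 (smE_mono h1 (by linarith))) (by linarith)

/-- the bracket-linear form of the representatives in role `0` -/
theorem struct_ah (hAH : AHRealStmt) (hPush : PushStmt) :
    ∃ C : ℕ, 1 ≤ C ∧ ∀ (m : ℝ), 2 ≤ m → ∀ (ι κ : Type) [Fintype ι] [Fintype κ] (g : ND ι)
    (G : ND κ) (L : ℕ) (Q : Finset (Fin 4 → ℤ)) (φ : g.L →ₗ[ℝ] G.L) (U : Submodule ℝ g.L)
    (ν : ℤ → g.L) (f : Fin 4 → ℤ → G.L) (c : G.L),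
    (Fintype.card ι : ℝ) ≤ m → (Fintype.card κ : ℝ) ≤ m → 0 < L → GMap g G m φ → GR g m U →
    (∀ h, ν h ∈ U ∧ f 0 h = φ (ν h)) → Real.exp (-m) * (L : ℝ) ^ 3 ≤ #Q →
    (∀ q ∈ Q, IsQuad L q ∧ SmE G L m (∑ i, f i (q i) - c)) →
    ∃ H' : Finset ℤ, (∀ h ∈ H', ∃ q ∈ Q, q 0 = h) ∧ Real.exp (-m ^ C) * L ≤ #H' ∧
      ∃ (r : ℕ) (β : Fin r → ℝ) (c' a : g.L) (b : Fin r → g.L), (r : ℝ) ≤ m ^ C ∧ c' ∈ U ∧
        a ∈ U ∧ (∀ j, b j ∈ U) ∧ ∀ h ∈ H', ∃ e ∈ U, SmE g L (m ^ C) e ∧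
          φ (ν h - (c' + lam β a b h + e)) = 0 := by
  obtain ⟨Ch, hCh, hAH⟩ := hAH
  obtain ⟨Cu, hCu, hPush⟩ := hPush
  refine ⟨Ch * 2 * Cu, Nat.succ_le_of_lt (by positivity), ?_⟩
  intro m hm ι κ _ _ g G L Q φ U ν f c hι hκ hL hφ hU hν hQ hS
  simp only [pow_mul]
  obtain ⟨b0, l0⟩ := up hm hCh
  have hAH := hAH m hm
  generalize m ^ Ch = a0 at *
  obtain ⟨b1, l1⟩ := up b0 (by norm_num : 1 ≤ 2)
  have l1' := two_le b0
  generalize a0 ^ 2 = a1 at *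
  obtain ⟨b2, l2⟩ := up b1 hCu
  have hPush := hPush a1 b1
  generalize a1 ^ Cu = a2 at *
  have hL1 : (1 : ℝ) ≤ L := by exact_mod_cast hL
  let s : κ → ℝ := fun l => (L : ℝ) ^ G.wt l / Real.exp m
  have hs : ∀ l, 0 < s l := fun l => by positivity
  obtain ⟨H', hH', hcard, r, hr, β, c₀, a₀, b₀, hf⟩ := hAH κ hκ L hL
    (fun i h l => (f i h l - if i = 0 then c l else 0) * s l) Q (fun q hq => ⟨(hS q hq).1, fun l => by
      have h1 := (hS q hq).2 l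
      rw [ND.sub_apply, ND.sum_apply] at h1
      rw [← sum_mul, sum_sub_distrib, sum_ite_eq', if_pos (mem_univ _), abs_mul, abs_of_pos (hs l),
        ← mul_div_assoc, div_le_one (Real.exp_pos _)]
      exact h1⟩) hQ
  obtain ⟨ρ, hρU, hρ, hρS⟩ := ((hPush _ _ g G (hι.trans (by linarith)) (hκ.trans (by linarith))).1 φ
    (gmap_mono hφ (by linarith))).2.2.2.2.2.2 U (gr_mono hU (by linarith))
  let sc : (κ → ℝ) → G.L := fun v l => v l / s l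
  refine ⟨H', hH', dens_le (by positivity) hcard (by linarith), r, β, ρ (c + sc c₀), ρ (sc a₀),
    fun j => ρ (sc (b₀ j)), hr.trans (by linarith), hρU _, hρU _, fun j => hρU _, fun h hh => ?_⟩
  set E : G.L := φ (ν h) - (c + sc c₀ + lam β (sc a₀) (fun j => sc (b₀ j)) h) with hE
  refine ⟨ρ E, hρU _, hρS L E hL1 fun l => ?_, ?_⟩
  · have h1 := hf h hh l
    simp only [if_true, (hν h).2] at h1
    have h2 : E l * s l = (φ (ν h) l - c l) * s l -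
        (c₀ l + h * a₀ l + ∑ j, (⌊β j * h⌋ : ℝ) * b₀ j l) := by
      have h3 := (hs l).ne'
      simp only [hE, lam, ND.sub_apply, ND.add_apply, ND.smul_apply, ND.sum_apply, sc, smul_eq_mul,
        sub_mul, add_mul, sum_mul, mul_assoc, div_mul_cancel₀ _ h3]
      ring
    rw [← h2, abs_mul, abs_of_pos (hs l), ← mul_div_assoc, div_le_iff₀ (Real.exp_pos _),
      ← Real.exp_add] at h1
    exact ex_le h1 (by linarith)
  · have h1 : ρ (c + sc c₀) + lam β (ρ (sc a₀)) (fun j => ρ (sc (b₀ j))) h + ρ E = ρ (φ (ν h)) := by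
      simp only [hE, lam, map_sub, map_add, map_smul, map_sum]
      abel
    rw [h1, map_sub, hρ _ (hν h).1, sub_self]

end S60

open S60

theorem structStmt (hAH : AHRealStmt) (hAux : AuxStmt) (hClos : ClosStmt) (hPush : PushStmt)
    (hFund : FundStmt) (hPet : PetalStmt) (hGou : GoursatStmt) (hLin : Lin3Stmt) : StructStmt := by
  intro S
  obtain ⟨C1, hC1, h1⟩ := struct_nu hAux hClos hFund hGou S
  obtain ⟨C2, hC2, h2⟩ := struct_lin hClos hPush hPet hLin S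
  obtain ⟨C3, hC3, h3⟩ := struct_ah hAH hPush
  obtain ⟨Cp, hCp, hPet⟩ := hPet
  obtain ⟨Cc, hCc, hClos⟩ := hClos S
  refine ⟨C1 * C2 * Cp * 3 * C3 * Cc, Nat.succ_le_of_lt (by positivity), ?_⟩
  intro m hm ι _ g η L x 𝔥 Q hg hL h𝔥 hη hQ hN
  simp only [pow_mul] at hL ⊢
  obtain ⟨b1, l1⟩ := up hm hC1
  have h1 := h1 m hm
  generalize m ^ C1 = a1 at *
  obtain ⟨b2, l2⟩ := up b1 hC2
  have h2 := h2 a1 b1
  generalize a1 ^ C2 = a2 at *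
  obtain ⟨b3, l3⟩ := up b2 hCp
  have hPet := hPet a2 b2
  generalize a2 ^ Cp = a3 at *
  obtain ⟨b4, l4⟩ := up b3 (by norm_num : 1 ≤ 3)
  have hd := card_four b3 (hg.dim.trans (by linarith))
  generalize a3 ^ 3 = a4 at *
  obtain ⟨b5, l5⟩ := up b4 hC3
  have h3 := h3 a4 b4
  generalize a4 ^ C3 = a5 at *
  obtain ⟨b6, l6⟩ := up b5 hCc
  have hClos := hClos a5 b5
  generalize a5 ^ Cc = a6 at *
  have hL1 : (1 : ℝ) ≤ L := (Real.one_le_exp (by linarith)).trans hL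
  have hL0 : 0 < L := by exact_mod_cast zero_lt_one.trans_le hL1
  have := ND.nil hg.wt_le ℝ
  obtain ⟨Q1, hQ1Q, hQ1, ys, hys, hysn, ν, hν, hx, hNear⟩ :=
    h1 ι g L x 𝔥 Q hg (le_ex hL (by linarith)) h𝔥 hQ hN
  obtain ⟨Q2, hQ21, hQ2, p, c, hp, hker, hSm⟩ := h2 ι g η L _ 𝔥 Q1 ys (fun q => tup fun i => ν i (q i))
    (gd_mono hg l1) (le_ex hL (by linarith)) (gr_mono h𝔥 l1) hη (by positivity) hQ1 hys hysn
    fun q hq => ⟨fun i => (hν i (q i)).1, norm_tup_le (Real.exp_pos _).le fun i => (hν i _).2,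
      hNear q hq⟩
  have hTri := hPet ι g η 𝔥 (hg.dim.trans (by linarith)) (gr_mono h𝔥 (by linarith)) hη 0
  obtain ⟨H', hH', hcard, r, β, c', a, b, hr, hc', ha, hb, hlam⟩ := h3 ι _ g (pw g (Fin 4)) L Q2
    (p ∘ₗ (inj g ℝ 0).toLinearMap) (pN 𝔥 0) (ν 0) (fun i h => p (inj g ℝ i (ν i h))) c
    (hg.dim.trans (by linarith)) hd hL0 (gmap_mono (gmap_comp_inj hp 0) (by linarith))
    (gr_mono hTri.grN l4) (fun h => ⟨(hν 0 h).1, rfl⟩) (dens_le (by positivity) hQ2 (by linarith))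
    fun q hq => ⟨(hN q (hQ1Q (hQ21 hq))).1, by
      have h4 := smE_mono (hSm q hq) (by linarith : a2 ≤ a4)
      rwa [eq_sum_inj (tup fun i => ν i (q i)), map_sum] at h4⟩
  have hy0 : pr g ℝ 0 ys ∈ pH 𝔥 0 := ⟨ys, hys, rfl⟩
  refine ⟨H', fun h hh => ?_, dens_le (by positivity) hcard l6, pH 𝔥 0, pN 𝔥 0, pK 𝔥 0,
    star S c' (pr g ℝ 0 ys), r, β, a, b, tri_mono hTri (by linarith), hr.trans l6,
    Bch.star_mem S _ (hTri.NH hc') hy0, ha, hb, fun h hh => ?_⟩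
  · obtain ⟨q, hq, e⟩ := hH' h hh
    exact ⟨q, hQ1Q (hQ21 hq), e⟩
  obtain ⟨q, hq, rfl⟩ := hH' h hh
  obtain ⟨e, he, heS, hφ⟩ := hlam _ hh
  obtain ⟨ε, γ, hε, hγ, hxq⟩ := hx q (hQ21 hq)
  have hl : lam β a b (q 0) ∈ pN 𝔥 0 :=
    add_mem (Submodule.smul_mem _ _ ha) (Submodule.sum_mem _ fun j _ => Submodule.smul_mem _ _ (hb j))
  have hν0 := (hν 0 (q 0)).1
  have hφ' : ν 0 (q 0) - (c' + lam β a b (q 0) + e) ∈ pK 𝔥 0 := by
    have h4 : inj g ℝ 0 (ν 0 (q 0) - (c' + lam β a b (q 0) + e)) ∈ LinearMap.ker p := hφ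
    rwa [hker] at h4
  have hst : ∀ u ∈ pN 𝔥 0, ∀ v ∈ pN 𝔥 0, star S u v - (u + v) ∈ pK 𝔥 0 := fun u hu v hv =>
    Bch.star_sub_mem S _ (hTri.lieK _ (hTri.NH hu)) (hTri.lieK _ (hTri.NH hv)) (hTri.abel _ hu _ hv)
  have hm1 : star S (-e) (ν 0 (q 0)) ∈ pH 𝔥 0 :=
    Bch.star_mem S _ (hTri.NH (neg_mem he)) (hTri.NH hν0)
  refine ⟨star S ε e, star S (star S (-e) (ν 0 (q 0))) (pr g ℝ 0 ys), γ,
    (hClos _ g (gd_mono hg (by linarith))).1 L ε e hL1 (smE_mono hε (by linarith)) heS,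
    rt_mono hγ (by linarith), Bch.star_mem S _ hm1 hy0, ?_, ?_⟩
  · rw [← Bch.star_assoc]
    refine star_congr_sub S (pH 𝔥 0) _ hTri.lieK hm1
      (Bch.star_mem S _ (hTri.NH hl) (hTri.NH hc')) hy0 hy0 ?_ (by simp)
    convert add_mem (sub_mem (hst _ (neg_mem he) _ hν0) (hst _ hl _ hc')) hφ' using 1
    abel
  · rw [hxq]
    simp only [Bch.star_assoc, Bch.star_neg_star]

end Crest.Agent.T49.GI
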