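import Crest.Agent.T49.GiDef_40
import Crest.Agent.T49.NilSt_61
import Crest.Agent.T49.Qp_85

/-!
# Row 49 (helper33): the leaf `SubQStmt` of the inverse theorem
-/

set_option autoImplicit false

noncomputable section

namespace Crest.Agent.T49.GI

open Finset Crest.Agent.T49.Nil Crest.Agent.T49.Nil.ND

namespace Sq33

variable {ι : Type} [Fintype ι] {g : ND ι} {κ : Type} [Fintype κ]

/-- the map `w ↦ ∑ w a • v a` -/
def cmb (v : κ → g.L) : (κ → ℝ) →ₗ[ℝ] g.L := Fintype.linearCombination ℝ v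

theorem cmb_apply (v : κ → g.L) (w : κ → ℝ) : cmb v w = ∑ a, w a • v a :=
  Fintype.linearCombination_apply ℝ v w

theorem p_lie (v : κ → g.L) (p : g.L →ₗ[ℝ] (κ → ℝ)) (c : κ → κ → κ → ℤ)
    (hc : ∀ a b k, (c a b k : ℝ) = p ⁅v a, v b⁆ k) (w w' : κ → ℝ) (k : κ) :
    p ⁅cmb v w, cmb v w'⁆ k = ∑ a, ∑ b, (c a b k : ℝ) * w a * w' b := by
  simp only [cmb_apply, sum_lie, lie_sum, smul_lie, lie_smul, map_sum, map_smul, Finset.sum_apply,
    Pi.smul_apply, smul_eq_mul, mul_sum, hc]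
  rw [sum_comm]
  exact sum_congr rfl fun a _ => sum_congr rfl fun b _ => by ring

theorem jac {𝔥 : LieSubalgebra ℝ g.L} {K : Submodule ℝ g.L} (v : κ → g.L)
    (p : g.L →ₗ[ℝ] (κ → ℝ)) (c : κ → κ → κ → ℤ) (hv : ∀ a, v a ∈ 𝔥)
    (hK : ∀ x ∈ 𝔥, ∀ y ∈ K, ⁅x, y⁆ ∈ K) (dec : ∀ x ∈ 𝔥, x - cmb v (p x) ∈ K)
    (pK : ∀ x ∈ K, p x = 0) (hc : ∀ a b k, (c a b k : ℝ) = p ⁅v a, v b⁆ k) (i j k m : κ) :
    ∑ l, c j k l * c i l m = ∑ l, c i j l * c l k m + ∑ l, c i k l * c j l m := by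
  have h : ∀ a b d, p ⁅v a, ⁅v b, v d⁆⁆ m = ∑ l, (c b d l : ℝ) * c a l m := by
    intro a b d
    have h1 := pK _ (hK _ (hv a) _ (dec _ (𝔥.lie_mem (hv b) (hv d))))
    rw [lie_sub, map_sub, sub_eq_zero] at h1
    rw [h1]
    simp only [cmb_apply, lie_sum, lie_smul, map_sum, map_smul, Finset.sum_apply, Pi.smul_apply,
      smul_eq_mul, hc]
  have ha : ∀ a b, (c a b m : ℝ) = -c b a m := fun a b => by
    rw [hc, hc, ← lie_skew, map_neg]; rfl
  have h1 := h i j k
  have h2 : p ⁅⁅v i, v j⁆, v k⁆ m = ∑ l, (c i j l : ℝ) * c l k m := by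
    rw [← lie_skew, map_neg, Pi.neg_apply, h, ← sum_neg_distrib]
    exact sum_congr rfl fun l _ => by rw [ha k l]; ring
  rw [leibniz_lie, map_add, Pi.add_apply, h2, h j i k] at h1
  exact_mod_cast h1.symm

end Sq33

open Sq33 in
theorem subQStmt : SubQStmt := by
  intro S c hc
  obtain ⟨C, hC, hC1⟩ : ∃ C : ℕ, (∀ (m R : ℝ) (d : ℕ), 2 ≤ m → (d : ℝ) ≤ m → 0 ≤ R →
      R ≤ Real.exp m →
      (c : ℝ) * (d * ((d + 1) * R) ^ (d + 2) * (d ^ 2 * R ^ 3)) ≤ Real.exp (m ^ C) ∧
      (c : ℝ) * ((d + 1) * R) ^ (d + 2) * R ≤ Real.exp (m ^ C) ∧ (d : ℝ) ≤ m ^ C) ∧ 1 ≤ C := by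
    have : ∀ᶠ C : ℕ in Filter.atTop, ∀ (m R : ℝ) (d : ℕ), 2 ≤ m → (d : ℝ) ≤ m → 0 ≤ R →
      R ≤ Real.exp m →
      (c : ℝ) * (d * ((d + 1) * R) ^ (d + 2) * (d ^ 2 * R ^ 3)) ≤ Real.exp (m ^ C) ∧
      (c : ℝ) * ((d + 1) * R) ^ (d + 2) * R ≤ Real.exp (m ^ C) ∧ (d : ℝ) ≤ m ^ C := by qp
    exact (this.and (Filter.eventually_ge_atTop 1)).exists
  refine ⟨C, hC1, fun m hm ι _ g η 𝔥 Nn K hg hT => ?_⟩
  classical
  set R := Real.exp m with hRdef
  have hR : 1 ≤ R := Real.one_le_exp (by linarith)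
  set d := Fintype.card ι with hd
  obtain ⟨c1, c2, c3⟩ := hC m R d hm hg.dim (by linarith) le_rfl
  let V : ℕ → Submodule ℝ g.L := fun j => if j ≤ 1 then 𝔥.toSubmodule else if j = 2 then Nn else K
  obtain ⟨r, wt, Z, Cm, q, h1, h2, h3, h4, h4', h5, h6, h7, -, h9, h10, h11⟩ :=
    Gon.exists_adapted (ι := ι) (fun z => ∃ n, ∀ i, g.wt i ≠ n → z i = 0) V 2 hR hd.ge
      (fun j h1 h2 => by
        interval_cases j
        · exact hT.NH
        · exact hT.KN)
      (fun j h1 h2 => by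
        interval_cases j
        · exact Gon.IsRat.le_span_homog hT.grH.rat (by linarith) hT.grH.gr
        · exact Gon.IsRat.le_span_homog hT.grN.rat (by linarith) hT.grN.gr
        · exact Gon.IsRat.le_span_homog hT.grK.rat (by linarith) hT.grK.gr)
  choose w hw using h4
  have hq : (q : ℝ) ≠ 0 := by positivity
  have hD : (0 : ℝ) < c := by exact_mod_cast hc
  have hbl := Gon.one_le_bl d hR
  let L : g.L →ₗ[ℝ] (Fin r → ℝ) := Gon.lin Cm
  let z : Fin r → g.L := fun a => g.ofInt fun k => Z k a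
  have hLz : ∀ a b, L (z a) b = if b = a then (q : ℝ) else 0 := by
    intro a b
    have := congrFun (h9 (Pi.single a 1)) b
    rw [Gon.lin_single] at this
    refine this.trans ?_
    by_cases h : b = a <;> simp [h]
  have hzH : ∀ a, z a ∈ 𝔥 := fun a => by
    have := h4' a
    have h0 := h2 a
    by_cases h : wt a ≤ 1
    · simp only [V, if_pos h] at this; exact this
    · have h' : wt a = 2 := by omega
      rw [h'] at this
      exact hT.NH this
  have hzN : ∀ a, wt a = 2 → z a ∈ Nn := fun a h => by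
    have := h4' a
    rw [h] at this
    exact this
  have hLK : ∀ x ∈ K, L x = 0 := fun x hx => funext fun a =>
    (h11 3 (by omega) le_rfl x (hT.NH (hT.KN hx))).1 hx a (by have := h2 a; omega)
  have hLN : ∀ x ∈ Nn, ∀ a, wt a ≠ 2 → L x a = 0 := fun x hx a ha =>
    (h11 2 (by omega) (by omega) x (hT.NH hx)).1 hx a (by have := h2 a; omega)
  have hdec0 : ∀ x ∈ 𝔥, (q : ℝ) • x - ∑ a, L x a • z a ∈ K := fun x hx => by
    have := h10 x hx
    rw [Gon.lin_eq_sum] at this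
    exact this
  have hw1 : ∀ a, 1 ≤ w a ∧ w a ≤ S := fun a => by
    by_contra hn
    have h0 : z a = 0 := pts_ext fun k => by
      have := g.wt_pos k
      have := hg.wt_le k
      simp [z, hw a k (by omega)]
    have := hLz a a
    rw [h0, map_zero, if_pos rfl] at this
    exact hq this.symm
  -- homogeneous elements have homogeneous coordinates
  have hhom : ∀ n, ∀ x ∈ 𝔥, (∀ k, g.wt k ≠ n → x k = 0) → ∀ a, w a ≠ n → L x a = 0 := by
    intro n x hx hxn a ha
    have h1 : hp g (w a) ((q : ℝ) • x - ∑ b, L x b • z b) ∈ K := hT.grK.gr (w a) _ (hdec0 x hx)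
    have h2 : hp g (w a) x = 0 := pts_ext fun k => by
      by_cases hk : g.wt k = w a
      · exact (Gon.prj_pos (p := fun k => g.wt k = w a) x hk).trans (hxn k (by omega))
      · exact Gon.prj_neg (p := fun k => g.wt k = w a) x hk
    have h3 : ∀ b, hp g (w a) (z b) = if w b = w a then z b else 0 := fun b => pts_ext fun k => by
      by_cases hk : g.wt k = w a
      · refine (Gon.prj_pos (p := fun k => g.wt k = w a) (z b) hk).trans ?_
        split_ifs with h
        · rfl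
        · simp [z, hw b k (by omega)]
      · refine (Gon.prj_neg (p := fun k => g.wt k = w a) (z b) hk).trans ?_
        split_ifs with h
        · simp [z, hw b k (by omega)]
        · rfl
    have h4 := congrFun (hLK _ h1) a
    simp only [map_sub, map_smul, map_sum, h2, h3, smul_zero, zero_sub, map_neg, Pi.neg_apply,
      Finset.sum_apply, Pi.smul_apply, Pi.zero_apply, neg_eq_zero, smul_eq_mul] at h4
    rw [sum_eq_single a] at h4
    · simpa [hLz, hq] using h4
    · intro b _ hb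
      split_ifs
      · simp [hLz, Ne.symm hb]
      · simp
    · simp
  let v : Fin r → g.L := fun a => ((c : ℝ) * q) • z a
  let p : g.L →ₗ[ℝ] (Fin r → ℝ) := ((q : ℝ) * (c * q))⁻¹ • L
  have hp' : ∀ x a, p x a = ((q : ℝ) * (c * q))⁻¹ * L x a := fun _ _ => rfl
  have hv : ∀ a, v a ∈ 𝔥 := fun a => 𝔥.smul_mem _ (hzH a)
  have hdec : ∀ x ∈ 𝔥, x - cmb v (p x) ∈ K := fun x hx => by
    have := Submodule.smul_mem _ (q : ℝ)⁻¹ (hdec0 x hx)
    rw [smul_sub, smul_smul, inv_mul_cancel₀ hq, one_smul, smul_sum] at this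
    rw [cmb_apply]
    convert this using 3 with b
    rw [hp', smul_smul, smul_smul]
    congr 1
    field_simp
  have hpK : ∀ x ∈ K, p x = 0 := fun x hx => funext fun a => by
    rw [hp', hLK x hx]; simp
  let br : Fin r → Fin r → ι → ℤ := fun a b k => ∑ i, ∑ j, g.c i j k * Z i a * Z j b
  have hbr : ∀ a b, ⁅z a, z b⁆ = g.ofInt (br a b) := fun a b =>
    pts_ext fun k => by simp [lie_apply, br, z]
  have hLi : ∀ (y : ι → ℤ) k, L (g.ofInt y) k = (Cm.mulVec y k : ℤ) := fun y k =>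
    congrFun (Gon.lin_cst Cm y) k
  let cc : Fin r → Fin r → Fin r → ℤ := fun a b k => c * Cm.mulVec (br a b) k
  have hcL : ∀ a b k, (cc a b k : ℝ) = c * L ⁅z a, z b⁆ k := fun a b k => by
    rw [hbr, hLi]; simp [cc]
  have hcc : ∀ a b k, (cc a b k : ℝ) = p ⁅v a, v b⁆ k := fun a b k => by
    rw [hcL, hp', smul_lie, lie_smul, map_smul, map_smul]
    simp only [Pi.smul_apply, smul_eq_mul]
    field_simp
  have hc0 : ∀ a b k, L ⁅z a, z b⁆ k = 0 → cc a b k = 0 := fun a b k h => by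
    have := hcL a b k
    rw [h, mul_zero] at this
    exact_mod_cast this
  have hgr : ∀ a b k, cc a b k ≠ 0 → w a + w b = w k := fun a b k h => by
    by_contra hn
    refine h (hc0 a b k (hhom (w a + w b) _ (𝔥.lie_mem (hzH a) (hzH b)) (fun l hl => ?_) k
      (Ne.symm hn)))
    rw [lie_apply]
    refine sum_eq_zero fun i _ => sum_eq_zero fun j _ => ?_
    by_cases h0 : g.c i j l = 0
    · simp [h0]
    have := hg.gr i j l h0
    by_cases hi : g.wt i = w a
    · simp [z, hw b j (by omega)]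
    · simp [z, hw a i hi]
  let Q : ND (Fin r) :=
    { wt := w
      c := cc
      wt_pos := fun a => (hw1 a).1
      c_wt := fun a b k h => (hgr a b k h).le
      anti := fun a b k => by
        have : (cc b a k : ℝ) = -(cc a b k : ℝ) := by
          rw [hcc, hcc, ← lie_skew, map_neg]; rfl
        exact_mod_cast this
      jac := jac v p cc hv hT.lieK hdec hpK hcc }
  have hd0 : (0 : ℝ) ≤ d := Nat.cast_nonneg d
  have hb : ∀ a b k, |(br a b k : ℝ)| ≤ d ^ 2 * R ^ 3 := by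
    intro a b k
    have hn : ∀ a, ‖z a‖ ≤ R := fun a => (norm_le_iff (by linarith)).2 fun k => h3 k a
    have := (abs_apply_le _ k).trans (St.norm_lie_le hg.c_le (by linarith) (z a) (z b))
    rw [hbr, ofInt_apply] at this
    refine this.trans ?_
    calc _ ≤ (d : ℝ) ^ 2 * R * R * R := by
          have := hn a
          have := hn b
          gcongr
      _ = _ := by ring
  let Zm : Q.L →ₗ[ℝ] g.L := cmb v
  have hZe : ∀ i, Zm (Q.e i) = v i := fun i => by
    change cmb v _ = _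
    rw [cmb_apply, sum_eq_single i]
    · simp [e_apply]
    · intro b _ hb; simp [e_apply, hb]
    · simp
  have hZH : ∀ x : Q.L, Zm x ∈ 𝔥 := fun x => by
    change cmb v _ ∈ _
    rw [cmb_apply]
    exact Submodule.sum_mem 𝔥.toSubmodule fun a _ => 𝔥.smul_mem _ (hv a)
  refine ⟨r, Q, fun a => wt a = 2, Zm, ⟨⟨fun a => (hw1 a).2, ?_, fun a b k => ?_⟩, hgr⟩,
    fun a b k => Dvd.intro _ rfl, ⟨fun i k => ⟨c * q * Z k i, ?_, ?_⟩, fun i k h => ?_⟩, hZH,
    fun x y => ?_, fun x hx => ⟨p x, hdec x hx⟩,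
    fun x hx => ⟨p x, fun a ha => by rw [hp', hLN x hx a ha, mul_zero], hdec x (hT.NH hx)⟩,
    fun i j k h hj => ?_, fun i j k hi hj => ?_⟩
  · rw [Fintype.card_fin]
    exact le_trans (by exact_mod_cast h1) c3
  · refine le_trans ?_ c1
    change |(cc a b k : ℝ)| ≤ _
    rw [hcL, abs_mul, abs_of_pos hD, hbr]
    refine mul_le_mul_of_nonneg_left ?_ hD.le
    refine (norm_le_pi_norm (L (g.ofInt (br a b))) k).trans
      ((Gon.norm_lin_le Cm (by linarith) h7 hd.ge _).trans ?_)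
    refine mul_le_mul_of_nonneg_left ?_ (by positivity)
    exact (pi_norm_le_iff_of_nonneg (by positivity)).2 (hb a b)
  · rw [hZe]; simp [v, z]
  · refine le_trans ?_ c2
    push_cast
    rw [abs_mul, abs_mul, abs_of_pos hD, Nat.abs_cast]
    have := h3 k i
    have h6' : (q : ℝ) ≤ ((d + 1) * R) ^ (d + 2) := h6
    gcongr
  · rw [hZe] at h
    by_contra hn
    exact h (by simp [v, z, hw i k hn])
  · have h1 := hdec _ (𝔥.lie_mem (hZH x) (hZH y))
    have h2 : p ⁅Zm x, Zm y⁆ = ⁅x, y⁆ := funext fun k => p_lie v p cc hcc x y k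
    rw [h2] at h1
    have := neg_mem h1
    rwa [neg_sub] at this
  · by_contra hk
    exact h (hc0 i j k (hLN _ (hT.lieN _ (hzH i) _ (hzN j hj)) k hk))
  · exact hc0 i j k (congrFun (hLK _ (hT.abel _ (hzN i hi) _ (hzN j hj))) k)

end Crest.Agent.T49.GI
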