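import Crest.Agent.T49.GiDef_40

/-!
# Row 49 (helper17): the symmetry relation `SymStmt` of the inverse theorem
-/

set_option autoImplicit false

noncomputable section

namespace Crest.Agent.T49.GI

open Finset Crest.Agent.T49.Nil Crest.Agent.T49.Nil.ND
open Crest.Agent.T49.Box (SV SF sgnF argH argN sb sw)

namespace Sym17

section rb

variable {𝔤 : Type*} [LieRing 𝔤] [LieAlgebra ℝ 𝔤]

/-- bracket with a new first slot -/
def consM {r : ℕ} (B : MultilinearMap ℝ (fun _ : Fin (r + 1) => 𝔤) 𝔤) :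
    𝔤 →ₗ[ℝ] MultilinearMap ℝ (fun _ : Fin (r + 1) => 𝔤) 𝔤 where
  toFun x := (LieAlgebra.ad ℝ 𝔤 x).compMultilinearMap B
  map_add' x y := by ext z; simp
  map_smul' c x := by ext z; simp

/-- right-normed brackets as a multilinear map -/
def rbM (𝔤 : Type*) [LieRing 𝔤] [LieAlgebra ℝ 𝔤] :
    (r : ℕ) → MultilinearMap ℝ (fun _ : Fin (r + 1) => 𝔤) 𝔤
  | 0 => MultilinearMap.ofSubsingleton ℝ 𝔤 𝔤 (0 : Fin 1) LinearMap.id
  | r + 1 => LinearMap.uncurryLeft (M := fun _ : Fin (r + 2) => 𝔤) (consM (rbM 𝔤 r))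

theorem rbM_zero (z : Fin 1 → 𝔤) : rbM 𝔤 0 z = z 0 := rfl

theorem rbM_succ {r : ℕ} (z : Fin (r + 2) → 𝔤) :
    rbM 𝔤 (r + 1) z = ⁅z 0, rbM 𝔤 r (Fin.tail z)⁆ := rfl

theorem rb_ofFn : ∀ (r : ℕ) (z : Fin (r + 1) → 𝔤),
    rb (List.ofFn (Fin.init z)) (z (Fin.last r)) = rbM 𝔤 r z
  | 0, z => by simp [rb, rbM_zero]
  | r + 1, z => by
    rw [List.ofFn_succ, rb, rbM_succ, ← rb_ofFn r (Fin.tail z)]
    rfl

theorem rbM_mem (𝔥 : LieSubalgebra ℝ 𝔤) : ∀ (r : ℕ) (z : Fin (r + 1) → 𝔤), (∀ l, z l ∈ 𝔥) →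
    rbM 𝔤 r z ∈ 𝔥
  | 0, _, h => h 0
  | r + 1, z, h => 𝔥.lie_mem (h 0) (rbM_mem 𝔥 r (Fin.tail z) fun l => h l.succ)

theorem map_rbM {𝔤' : Type*} [LieRing 𝔤'] [LieAlgebra ℝ 𝔤'] (φ : 𝔤 →ₗ⁅ℝ⁆ 𝔤') :
    ∀ (r : ℕ) (z : Fin (r + 1) → 𝔤), φ (rbM 𝔤 r z) = rbM 𝔤' r fun l => φ (z l)
  | 0, _ => rfl
  | r + 1, z => by
    rw [rbM_succ, rbM_succ, LieHom.map_lie, map_rbM φ r]
    rfl

end rb

variable {ι : Type} [Fintype ι] {A : ND ι}

/-- homogeneous of degree `n` for the grading `γ` -/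
def Hm (A : ND ι) (γ : ι → ℕ) (n : ℕ) (x : A.L) : Prop := ∀ k, γ k ≠ n → x k = 0

theorem Hm.lie {γ : ι → ℕ} (hγ : ∀ i j k, A.c i j k ≠ 0 → γ i + γ j = γ k) {a b : ℕ} {x y : A.L}
    (hx : Hm A γ a x) (hy : Hm A γ b y) : Hm A γ (a + b) ⁅x, y⁆ := by
  intro k hk
  rw [lie_apply]
  refine sum_eq_zero fun i _ => sum_eq_zero fun j _ => ?_
  by_cases hc : A.c i j k = 0
  · simp [hc]
  have := hγ i j k hc
  by_cases hi : γ i = a
  · simp [hy j (by omega)]
  · simp [hx i hi]

theorem hm_rbM {γ : ι → ℕ} (hγ : ∀ i j k, A.c i j k ≠ 0 → γ i + γ j = γ k) :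
    ∀ (r : ℕ) (d : Fin (r + 1) → ℕ) (z : Fin (r + 1) → A.L), (∀ l, Hm A γ (d l) (z l)) →
      Hm A γ (∑ l, d l) (rbM A.L r z)
  | 0, d, z, h => by simpa [rbM_zero] using h 0
  | r + 1, d, z, h => by
    rw [Fin.sum_univ_succ, rbM_succ]
    exact (h 0).lie hγ (hm_rbM hγ r (fun l => d l.succ) (Fin.tail z) fun l => h l.succ)

theorem fn_eq_zero_of_hm {γ : ι → ℕ} {η : ι → ℤ} {n₀ n : ℕ} (hη : ∀ k, γ k ≠ n₀ → η k = 0)
    (hn : n ≠ n₀) {x : A.L} (hx : Hm A γ n x) : A.fn η x = 0 := by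
  rw [fn_apply]
  refine sum_eq_zero fun k _ => ?_
  by_cases hk : γ k = n₀
  · rw [hx k (by omega), mul_zero]
  · simp [hη k hk]

theorem ph_apply (hd : ι → Bool) (e : Bool) (x : A.L) (k : ι) :
    ph A hd e x k = if hd k = e then x k else 0 := by
  split_ifs with h
  · exact Gon.prj_pos (p := fun k => hd k = e) x h
  · exact Gon.prj_neg (p := fun k => hd k = e) x h

theorem hp_apply (n : ℕ) (x : A.L) (k : ι) : hp A n x k = if A.wt k = n then x k else 0 := by
  split_ifs with h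
  · exact Gon.prj_pos (p := fun k => A.wt k = n) x h
  · exact Gon.prj_neg (p := fun k => A.wt k = n) x h

theorem hm_ph (hd : ι → Bool) (e : Bool) (x : A.L) :
    Hm A (fun k => (hd k).toNat) e.toNat (ph A hd e x) := fun k hk => by
  rw [ph_apply, if_neg]
  rintro rfl
  exact hk rfl

theorem hm_hp (n : ℕ) (x : A.L) : Hm A A.wt n (hp A n x) := fun k hk => by
  rw [hp_apply, if_neg hk]

theorem Hm.ph {γ : ι → ℕ} {n : ℕ} {x : A.L} (h : Hm A γ n x) (hd : ι → Bool) (e : Bool) :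
    Hm A γ n (ph A hd e x) := fun k hk => by
  rw [ph_apply, h k hk, ite_self]

theorem dil2_eq {hd : ι → Bool} {d : ℕ} {x : A.L} (hx : Hm A A.wt d x) (h n : ℝ) :
    dil2 A hd h n x = (h * n ^ (d - 1)) • ph A hd true x + n ^ d • ph A hd false x := by
  ext k
  simp only [dil2, ND.add_apply, ND.smul_apply, ph_apply, smul_eq_mul]
  by_cases hk : A.wt k = d
  · cases hd k <;> simp [hk]
  · simp [hx k hk]

theorem add_ph (hd : ι → Bool) (x : A.L) : ph A hd true x + ph A hd false x = x := by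
  ext k
  simp only [ND.add_apply, ph_apply]
  cases hd k <;> simp

/-- the bracket with the `h`-part in the slot `u` -/
def Tu (A : ND ι) (hd : ι → Bool) (η : ι → ℤ) {r : ℕ} (z : Fin (r + 1) → A.L) (u : Fin (r + 1)) :
    ℝ := A.fn η (rbM A.L r fun l => ph A hd (decide (l = u)) (z l))

theorem expand {hd : ι → Bool} {η : ι → ℤ} (hA : Bigr A hd) (hη : ∀ k, hd k = false → η k = 0)
    {r : ℕ} (z : Fin (r + 1) → A.L) (α β : Fin (r + 1) → ℝ) :
    A.fn η (rbM A.L r fun l => β l • ph A hd true (z l) + α l • ph A hd false (z l)) =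
      ∑ u, β u * (∏ l ∈ univ.erase u, α l) * Tu A hd η z u := by
  have h1 := (rbM A.L r).map_add_univ (fun l => β l • ph A hd true (z l))
    (fun l => α l • ph A hd false (z l))
  rw [show (fun l => β l • ph A hd true (z l) + α l • ph A hd false (z l)) =
    (fun l => β l • ph A hd true (z l)) + fun l => α l • ph A hd false (z l) from rfl, h1, map_sum]
  have h2 : ∀ s : Finset (Fin (r + 1)), A.fn η (rbM A.L r (s.piecewise
      (fun l => β l • ph A hd true (z l)) fun l => α l • ph A hd false (z l))) =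
      (∏ l, if l ∈ s then β l else α l) *
        A.fn η (rbM A.L r fun l => ph A hd (decide (l ∈ s)) (z l)) := by
    intro s
    rw [← smul_eq_mul, ← map_smul, ← MultilinearMap.map_smul_univ]
    congr 2
    ext1 l
    by_cases hl : l ∈ s <;> simp [hl]
  rw [sum_congr rfl fun s _ => h2 s]
  have h3 : ∀ s : Finset (Fin (r + 1)), #s ≠ 1 →
      A.fn η (rbM A.L r fun l => ph A hd (decide (l ∈ s)) (z l)) = 0 := by
    intro s hs
    refine fn_eq_zero_of_hm (γ := fun k => (hd k).toNat) (n₀ := 1) (fun k hk => hη k ?_) ?_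
      (hm_rbM hA.add r (fun l => (decide (l ∈ s)).toNat) _ fun l => hm_ph hd _ _)
    · cases h : hd k
      · rfl
      · simp [h] at hk
    · have : ∑ l, (decide (l ∈ s)).toNat = ∑ l, if l ∈ s then 1 else 0 :=
        sum_congr rfl fun l _ => by by_cases hl : l ∈ s <;> simp [hl]
      rw [this]
      simpa using hs
  rw [← sum_subset (subset_univ (univ.map ⟨fun u : Fin (r + 1) => ({u} : Finset _),
    singleton_injective⟩)), sum_map]
  · refine sum_congr rfl fun u _ => ?_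
    simp only [Function.Embedding.coeFn_mk, mem_singleton, Tu]
    rw [← mul_prod_erase _ _ (mem_univ u), if_pos rfl]
    congr 2
    exact prod_congr rfl fun l hl => if_neg (ne_of_mem_erase hl)
  · intro s _ hs
    rw [h3 s, mul_zero]
    intro h
    obtain ⟨u, rfl⟩ := card_eq_one.1 h
    exact hs (mem_map.2 ⟨u, mem_univ _, rfl⟩)

/-! ### signed sums over cubes -/

/-- the number of `true` entries -/
def ct {n : ℕ} (u : Fin n → Bool) : ℝ := ∑ i, if u i then 1 else 0

theorem sum_sw : ∀ (n : ℕ) (p : ℝ → ℝ) (x : ℝ),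
    ∑ u : Fin n → Bool, (((sw u : ℤˣ) : ℤ) : ℝ) * p (x + ct u) = ((fwdDiff (1 : ℝ))^[n] p) x
  | 0, p, x => by simp [sw, ct]
  | n + 1, p, x => by
    rw [Function.iterate_succ_apply, ← sum_sw n, ← (Fin.consEquiv fun _ => Bool).sum_comp,
      Fintype.sum_prod_type, Fintype.sum_bool, ← sum_add_distrib]
    refine sum_congr rfl fun u _ => ?_
    simp only [Fin.consEquiv, Equiv.coe_fn_mk, sw, ct, Fin.prod_univ_succ, Fin.sum_univ_succ,
      Fin.cons_zero, Fin.cons_succ, fwdDiff, sb]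
    simp only [Bool.not_true, Bool.false_eq_true, if_false, one_mul, if_true, Bool.not_false,
      Units.val_mul, Units.val_neg, Units.val_one, Int.cast_mul, Int.cast_neg, Int.cast_one,
      zero_add]
    rw [show x + (1 + ∑ i, if u i = true then (1 : ℝ) else 0) =
      x + (∑ i, if u i = true then (1 : ℝ) else 0) + 1 by ring]
    ring

/-- the number of `true` entries in the block `l` -/
def cb {t r : ℕ} (blk : Fin t → Fin r) (w : Fin t → Bool) (l : Fin r) : ℝ :=
  ∑ k, if w k then (if blk k = l then 1 else 0) else 0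

theorem exists_blk {t r : ℕ} (n : Fin r → ℕ) (hn : ∑ l, n l = t) :
    ∃ blk : Fin t → Fin r, ∀ p : Fin r → ℝ → ℝ,
      ∑ w : Fin t → Bool, (((sw w : ℤˣ) : ℤ) : ℝ) * ∏ l, p l (cb blk w l) =
        ∏ l, ((fwdDiff (1 : ℝ))^[n l] (p l)) 0 := by
  subst hn
  let e := finSigmaFinEquiv (n := n)
  refine ⟨fun k => (e.symm k).1, fun p => ?_⟩
  simp only [← sum_sw, zero_add]
  rw [Fintype.prod_sum]
  let E : (∀ l, Fin (n l) → Bool) ≃ (Fin (∑ l, n l) → Bool) :=
    (Equiv.piCurry fun (l : Fin r) (_ : Fin (n l)) => Bool).symm.trans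
      (Equiv.arrowCongr e (Equiv.refl Bool))
  have hE : ∀ u q, E u (e q) = u q.1 q.2 := fun u q => by
    change u (e.symm (e q)).1 (e.symm (e q)).2 = _
    rw [e.symm_apply_apply]
  rw [← E.sum_comp]
  refine sum_congr rfl fun u _ => ?_
  rw [prod_mul_distrib]
  congr 1
  · simp only [sw, Units.coe_prod, Int.cast_prod]
    rw [← e.prod_comp, Fintype.prod_sigma]
    simp only [hE]
  · refine prod_congr rfl fun l _ => ?_
    congr 1
    rw [cb, ← e.sum_comp, Fintype.sum_sigma, sum_eq_single l]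
    · simp [hE, ct]
    · intro l' _ hl
      simp [hl]
    · simp

theorem diff_pow (n : ℕ) : ((fwdDiff (1 : ℝ))^[n] fun x : ℝ => x ^ n) 0 = n.factorial := by
  rw [fwdDiff_iter_eq_factorial]; rfl

theorem diff_pow' (n : ℕ) :
    ((fwdDiff (1 : ℝ))^[n] fun x : ℝ => (x + 1) ^ (n + 1) - x ^ (n + 1)) 0 = (n + 1).factorial := by
  rw [← diff_pow (n + 1), Function.iterate_succ_apply]; rfl

/-- the test vectors -/
def tv {t r : ℕ} (blk : Fin t → Fin r) (i i' l : Fin r) : SV t → ℤ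
  | .inl (c, a) => if a = true ∧ l = (if c then i' else i) then 1 else 0
  | .inr k => if blk k = l then 1 else 0

theorem tv_01 {t r : ℕ} (blk : Fin t → Fin r) (i i' l : Fin r) (s : SV t) :
    tv blk i i' l s = 0 ∨ tv blk i i' l s = 1 := by
  rcases s with ⟨c, a⟩ | k <;> simp only [tv] <;> split_ifs <;> simp

theorem argH_tv {t r : ℕ} (blk : Fin t → Fin r) (i i' l : Fin r) (a b c : Bool)
    (w : Fin t → Bool) : ((argH (0 : ℤ) (a, b, c, w) (tv blk i i' l) : ℤ) : ℝ) =
      -(if a = true ∧ l = i then 1 else 0) - if b = true ∧ l = i' then 1 else 0 := by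
  simp [argH, tv]

theorem argN_tv {t r : ℕ} (blk : Fin t → Fin r) (i i' l : Fin r) (a b c : Bool)
    (w : Fin t → Bool) : ((argN (0 : Fin t → ℤ) (a, b, c, w) (tv blk i i' l) : ℤ) : ℝ) =
      cb blk w l + if (if c then b else a) = true ∧ l = (if c then i' else i) then 1 else 0 := by
  simp only [argN, tv, cb, Pi.zero_apply, zero_add, Int.cast_add, Int.cast_sum, Int.cast_ite,
    Int.cast_one, Int.cast_zero]
  ring

theorem swap {t : ℕ} {hd : ι → Bool} {η : ι → ℤ} {𝔟 : LieSubalgebra ℝ A.L} (hA : Bigr A hd)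
    (hη : ∀ k, hd k = false → η k = 0) (h : SymHyp A hd η t 𝔟) {r : ℕ} (d : Fin (r + 1) → ℕ)
    (z : Fin (r + 1) → A.L) (hz : ∀ l, z l ∈ 𝔟) (hm : ∀ l, Hm A A.wt (d l) (z l))
    (hd1 : ∀ l, 1 ≤ d l) (hs : ∑ l, d l = t + 2) {i i' : Fin (r + 1)} (hi : i ≠ i') :
    d i' * Tu A hd η z i = d i * Tu A hd η z i' := by
  obtain ⟨𝔥, hk, hv⟩ := h
  have hi' : i' ∈ univ.erase i := mem_erase.2 ⟨hi.symm, mem_univ _⟩
  have hsplit : ∀ {M : Type} [CommMonoid M] (f : Fin (r + 1) → M),
      ∏ l, f l = f i * (f i' * ∏ l ∈ (univ.erase i).erase i', f l) := fun f => by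
    rw [mul_prod_erase _ _ hi', mul_prod_erase _ _ (mem_univ i)]
  have hne : ∀ l ∈ (univ.erase i).erase i', l ≠ i ∧ l ≠ i' := fun l hl =>
    ⟨ne_of_mem_erase (mem_of_mem_erase hl), ne_of_mem_erase hl⟩
  obtain ⟨e, he⟩ : ∃ e, d i = e + 1 := ⟨d i - 1, by have := hd1 i; omega⟩
  obtain ⟨e', he'⟩ : ∃ e, d i' = e + 1 := ⟨d i' - 1, by have := hd1 i'; omega⟩
  obtain ⟨blk, hblk⟩ := exists_blk (t := t)
    (fun l => if l = i then e else if l = i' then e' else d l) (by
      rw [← add_sum_erase _ _ (mem_univ i), ← add_sum_erase _ _ hi'] at hs ⊢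
      rw [if_pos rfl, if_neg hi.symm, if_pos rfl,
        sum_congr rfl fun l hl => by rw [if_neg (hne l hl).1, if_neg (hne l hl).2]]
      rw [he, he'] at hs
      change e + (e' + ∑ l ∈ (univ.erase i).erase i', d l) = t
      omega)
  set R : (Fin t → Bool) → ℝ := fun w => ∏ l ∈ (univ.erase i).erase i', cb blk w l ^ d l with hR
  set K : ℝ := ∏ l ∈ (univ.erase i).erase i', ((d l).factorial : ℝ) with hK
  have hsum : ∀ p q : ℝ → ℝ, ∑ w : Fin t → Bool, (((sw w : ℤˣ) : ℤ) : ℝ) *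
      (p (cb blk w i) * (q (cb blk w i') * R w)) =
      ((fwdDiff (1 : ℝ))^[e] p) 0 * (((fwdDiff (1 : ℝ))^[e'] q) 0 * K) := by
    intro p q
    have := hblk fun l => if l = i then p else if l = i' then q else fun x => x ^ d l
    simp only [hsplit, if_true, if_neg hi.symm] at this
    convert this using 3
    · congr 2
      exact prod_congr rfl fun l hl => by rw [if_neg (hne l hl).1, if_neg (hne l hl).2]
    · exact prod_congr rfl fun l hl => by
        rw [if_neg (hne l hl).1, if_neg (hne l hl).2, if_neg (hne l hl).1, if_neg (hne l hl).2,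
          diff_pow]
  have h0 := hk _ (rbM_mem 𝔥 r (fun l => iot A hd t (tv blk i i' l) (z l))
    fun l => hv _ (tv_01 blk i i' l) _ (hz l))
  rw [fn_pwη] at h0
  have h1 : ∀ (a b c : Bool) (w : Fin t → Bool), A.fn η (pr A ℝ ((a, b, c, w) : SF t)
      (rbM _ r fun l => iot A hd t (tv blk i i' l) (z l))) =
      -(if a then 1 else 0) * (cb blk w i + if !c && a then 1 else 0) ^ e *
        ((cb blk w i' + if c && b then 1 else 0) ^ (e' + 1) * R w) * Tu A hd η z i +
      -(if b then 1 else 0) * (cb blk w i' + if c && b then 1 else 0) ^ e' *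
        ((cb blk w i + if !c && a then 1 else 0) ^ (e + 1) * R w) * Tu A hd η z i' := by
    intro a b c w
    have hNi : (if (if c then b else a) = true ∧ i = (if c then i' else i) then (1 : ℝ) else 0) =
        if !c && a then 1 else 0 := by cases c <;> simp [hi]
    have hNi' : (if (if c then b else a) = true ∧ i' = (if c then i' else i) then (1 : ℝ) else 0) =
        if c && b then 1 else 0 := by cases c <;> simp [hi.symm]
    have hRR : ∏ l ∈ (univ.erase i).erase i', (cb blk w l +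
        if (if c then b else a) = true ∧ l = (if c then i' else i) then 1 else 0) ^ d l = R w :=
      prod_congr rfl fun l hl => by cases c <;> simp [(hne l hl).1, (hne l hl).2]
    rw [map_rbM]
    simp only [iot, pr_tup, dil2_eq (hm _), argH_tv, argN_tv]
    rw [expand hA hη, ← add_sum_erase _ _ (mem_univ i), ← add_sum_erase _ _ hi',
      sum_eq_zero (s := (univ.erase i).erase i') fun l hl => by simp [(hne l hl).1, (hne l hl).2],
      add_zero, ← mul_prod_erase _ _ hi',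
      ← mul_prod_erase _ _ (mem_erase.2 ⟨hi, mem_univ i⟩ : i ∈ univ.erase i'),
      erase_right_comm (a := i') (b := i), hRR, hNi, hNi', he, he']
    simp [hi, hi.symm]
  rw [Fintype.sum_prod_type] at h0
  simp only [Fintype.sum_prod_type, Fintype.sum_bool, h1, ← sum_add_distrib] at h0
  have h2 := hsum (fun x => x ^ e) fun x => (x + 1) ^ (e' + 1) - x ^ (e' + 1)
  have h3 := hsum (fun x => (x + 1) ^ (e + 1) - x ^ (e + 1)) fun x => x ^ e'
  rw [diff_pow, diff_pow'] at h2 h3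
  have h4 : (e.factorial * ((e' + 1).factorial * K)) * Tu A hd η z i -
      ((e + 1).factorial * (e'.factorial * K)) * Tu A hd η z i' = 0 := by
    rw [← h2, ← h3, sum_mul, sum_mul, ← sum_sub_distrib, ← h0]
    refine sum_congr rfl fun w _ => ?_
    simp [sgnF, sb]
    ring
  have hK0 : (e.factorial : ℝ) * e'.factorial * K ≠ 0 := by
    have : 0 < K := prod_pos fun l _ => by positivity
    positivity
  refine mul_left_cancel₀ hK0 ?_
  rw [he, he']
  rw [Nat.factorial_succ, Nat.factorial_succ] at h4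
  push_cast at h4 ⊢
  linarith

theorem homog {t : ℕ} {hd : ι → Bool} {η : ι → ℤ} {𝔟 : LieSubalgebra ℝ A.L} (hA : Bigr A hd)
    (hw : ∀ k, A.wt k ≠ t + 2 → η k = 0) (hη : ∀ k, hd k = false → η k = 0)
    (h : SymHyp A hd η t 𝔟) {r : ℕ} (d : Fin (r + 1) → ℕ)
    (z : Fin (r + 1) → A.L) (hz : ∀ l, z l ∈ 𝔟) (hm : ∀ l, Hm A A.wt (d l) (z l))
    (u : Fin (r + 1)) : ((t : ℝ) + 2) * Tu A hd η z u = d u * A.fn η (rbM A.L r z) := by
  by_cases hd1 : ∀ l, 1 ≤ d l
  swap
  · push Not at hd1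
    obtain ⟨l, hl⟩ := hd1
    have h0 : z l = 0 := pts_ext fun k => hm l k (by have := A.wt_pos k; omega)
    rw [Tu, (rbM A.L r).map_coord_zero l h0, (rbM A.L r).map_coord_zero l (by simp [h0])]
    simp
  by_cases hs : ∑ l, d l = t + 2
  swap
  · rw [Tu, fn_eq_zero_of_hm hw hs (hm_rbM hA.gr r d z hm),
      fn_eq_zero_of_hm hw hs (hm_rbM hA.gr r d _ fun l => (hm l).ph hd _)]
    simp
  have h1 := expand hA hη z (fun _ => 1) fun _ => 1
  simp only [one_smul, add_ph, prod_const_one, one_mul] at h1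
  have h2 : ((t : ℝ) + 2) = ∑ l, (d l : ℝ) := by exact_mod_cast hs.symm
  rw [h1, h2, sum_mul, mul_sum]
  refine sum_congr rfl fun l _ => ?_
  by_cases hl : u = l
  · rw [hl]
  · exact swap hA hη h d z hz hm hd1 hs hl

end Sym17

open Sym17 in
theorem symStmt : SymStmt := by
  intro t ι _ A hd η 𝔟 hA hw hη hG h ys x d hys hx hxd
  obtain ⟨r, y, rfl⟩ : ∃ (r : ℕ) (y : Fin r → A.L), ys = List.ofFn y :=
    ⟨_, _, (List.ofFn_get ys).symm⟩
  set z : Fin (r + 1) → A.L := Fin.snoc y x with hz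
  have hzb : ∀ l, z l ∈ 𝔟 := fun l => by
    refine Fin.lastCases ?_ (fun i => ?_) l
    · simpa [hz] using hx
    · simpa [hz] using hys _ (List.mem_ofFn.2 ⟨i, rfl⟩)
  have e1 : rb (List.ofFn y) x = rbM A.L r z := by
    rw [← rb_ofFn]; simp [hz]
  have e2 : rb ((List.ofFn y).map (ph A hd false)) (ph A hd true x) =
      rbM A.L r fun l => ph A hd (decide (l = Fin.last r)) (z l) := by
    rw [← rb_ofFn, List.map_ofFn]
    congr 1
    · congr 1
      ext1 i
      simp [Fin.init, hz, (Fin.castSucc_lt_last i).ne]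
    · simp [hz]
  rw [e1, e2]
  have hsum : ∀ v : A.L, ∑ n ∈ univ.image A.wt, hp A n v = v := fun v =>
    Gon.sum_prj_wt A.wt _ (fun i => mem_image_of_mem _ (mem_univ i)) v
  have e3 : z = fun l => ∑ n ∈ univ.image A.wt, hp A n (z l) := funext fun l => (hsum _).symm
  have e4 : (fun l => ph A hd (decide (l = Fin.last r)) (z l)) =
      fun l => ∑ n ∈ univ.image A.wt, ph A hd (decide (l = Fin.last r)) (hp A n (z l)) :=
    funext fun l => by rw [← map_sum, hsum]
  rw [e4, MultilinearMap.map_sum_finset, map_sum, mul_sum]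
  conv_rhs => rw [e3, MultilinearMap.map_sum_finset, map_sum, mul_sum]
  refine sum_congr rfl fun f _ => ?_
  have h1 := homog hA hw hη h f (fun l => hp A (f l) (z l)) (fun l => hG _ _ (hzb l))
    (fun l => hm_hp _ _) (Fin.last r)
  by_cases hf : f (Fin.last r) = d
  · rw [← hf]; exact h1
  · have h0 : hp A (f (Fin.last r)) (z (Fin.last r)) = 0 := by
      ext k
      have hxk : x k = if A.wt k = d then x k else 0 := by rw [← hp_apply, hxd]
      rw [hp_apply, hz, Fin.snoc_last, ND.zero_apply]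
      split_ifs with hk
      · rw [hxk, if_neg (by omega)]
      · rfl
    rw [(rbM A.L r).map_coord_zero (Fin.last r) (by simp [h0]),
      (rbM A.L r).map_coord_zero (m := fun l => hp A (f l) (z l)) (Fin.last r) h0]
    simp

end Crest.Agent.T49.GI
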