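import Crest.Agent.T49.GowB_67

/-!
# Row 49 (helper67): Gowers norms, file C

* `ee t = e(t)`, `Pol s p` (real polynomial maps of degree `< s`), `Pol.isPh`, `pol_mv`;
* `Ort χ R` (orthogonal families of characters), `Ort.parseval`, `Ort.U_two`, `U_two_inv` ;
* `Nm_mul_conv`, `Nm_mul_ind`, `Nm_mul_class` (cut-offs);
* `bx a L` : boxes in `ι → ℤ` and their doubling.
-/

set_option autoImplicit false

noncomputable section

namespace Crest.Agent.T49.Gow

open Finset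
open scoped ComplexConjugate Pointwise Classical

variable {G : Type*} [AddCommGroup G] {f g : G → ℂ} {S T : Finset G}

/-! ### polynomial phases -/

/-- `e(t)` -/
def ee (t : ℝ) : ℂ := Complex.exp (2 * Real.pi * Complex.I * t)

lemma ee_add (a b : ℝ) : ee (a + b) = ee a * ee b := by
  rw [ee, ee, ee, ← Complex.exp_add]
  push_cast
  ring_nf

lemma ee_zero : ee 0 = 1 := by simp [ee]

lemma norm_ee (t : ℝ) : ‖ee t‖ = 1 := by
  rw [ee, show 2 * Real.pi * Complex.I * t = ((2 * Real.pi * t : ℝ) : ℂ) * Complex.I by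
    push_cast; ring, Complex.norm_exp_ofReal_mul_I]

lemma ee_neg (t : ℝ) : ee (-t) = conj (ee t) := by
  rw [ee, ee, ← Complex.exp_conj]
  simp [map_ofNat]

lemma ee_sub (a b : ℝ) : ee (a - b) = ee a * conj (ee b) := by rw [sub_eq_add_neg, ee_add, ee_neg]

lemma ee_eq_one_iff {t : ℝ} : ee t = 1 ↔ ∃ n : ℤ, t = n := by
  rw [ee, Complex.exp_eq_one_iff]
  refine exists_congr fun n => ?_
  rw [mul_comm (n : ℂ), mul_right_inj' Complex.two_pi_I_ne_zero]
  exact_mod_cast Iff.rfl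

lemma ee_int (n : ℤ) : ee n = 1 := ee_eq_one_iff.2 ⟨n, rfl⟩

lemma ee_nat_mul (n : ℕ) (t : ℝ) : ee (n * t) = ee t ^ n := by
  rw [ee, ee, ← Complex.exp_nat_mul]
  push_cast
  ring_nf

lemma ee_sum {ι : Type*} (I : Finset ι) (t : ι → ℝ) : ee (∑ i ∈ I, t i) = ∏ i ∈ I, ee (t i) := by
  induction I using Finset.induction_on with
  | empty => simp [ee_zero]
  | insert a I ha ih => rw [sum_insert ha, prod_insert ha, ee_add, ih]

/-- real polynomial maps of degree `< s` -/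
def Pol : ℕ → (G → ℝ) → Prop
  | 0, p => ∀ x, p x = 0
  | s + 1, p => ∀ h, Pol s fun x => p (x + h) - p x

lemma Pol.isPh : ∀ {s : ℕ} {p : G → ℝ}, Pol s p → IsPh s fun x => ee (p x)
  | 0, _, hp => fun x => by simp only [hp x, ee_zero]
  | _ + 1, p, hp => ⟨fun _ => norm_ee _, fun h => by
      have : D h (fun x => ee (p x)) = fun x => ee (p (x + h) - p x) :=
        funext fun x => (ee_sub _ _).symm
      rw [this]
      exact (hp h).isPh⟩

lemma pol_zero : ∀ s : ℕ, Pol s fun _ : G => 0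
  | 0 => fun _ => rfl
  | s + 1 => fun _ => by simpa using pol_zero s

lemma Pol.of_eq_zero {p : G → ℝ} (hp : ∀ x, p x = 0) (s : ℕ) : Pol s p := by
  rw [funext hp]
  exact pol_zero s

lemma Pol.succ : ∀ {s : ℕ} {p : G → ℝ}, Pol s p → Pol (s + 1) p
  | 0, _, hp => Pol.of_eq_zero hp 1
  | _ + 1, _, hp => fun h => (hp h).succ

lemma Pol.mono {s t : ℕ} {p : G → ℝ} (hp : Pol s p) (h : s ≤ t) : Pol t p := by
  induction h with
  | refl => exact hp
  | step _ ih => exact ih.succ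

lemma Pol.add : ∀ {s : ℕ} {p q : G → ℝ}, Pol s p → Pol s q → Pol s fun x => p x + q x
  | 0, _, _, hp, hq => fun x => by simp only [hp x, hq x, add_zero]
  | _ + 1, _, _, hp, hq => fun h => by
    simpa only [add_sub_add_comm] using (hp h).add (hq h)

lemma Pol.shift : ∀ {s : ℕ} {p : G → ℝ}, Pol s p → ∀ a, Pol s fun x => p (x + a)
  | 0, _, hp, _ => fun _ => hp _
  | _ + 1, _, hp, a => fun h => by
    simpa only [add_right_comm _ a h] using (hp h).shift a

lemma Pol.comp {G' : Type*} [AddCommGroup G'] (φ : G' →+ G) :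
    ∀ {s : ℕ} {p : G → ℝ}, Pol s p → Pol s fun x => p (φ x)
  | 0, _, hp => fun _ => hp _
  | _ + 1, _, hp => fun h => by simpa only [map_add] using (hp (φ h)).comp φ

lemma pol_const (c : ℝ) : Pol 1 fun _ : G => c := fun _ _ => sub_self c

lemma pol_hom {p : G → ℝ} (hp : ∀ x y, p (x + y) = p x + p y) : Pol 2 p := fun h => by
  simpa only [hp, add_sub_cancel_left] using pol_const (G := G) (p h)

lemma Pol.mul : ∀ {n a b : ℕ} {p q : G → ℝ}, Pol a p → Pol b q → a + b ≤ n + 1 →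
    Pol n fun x => p x * q x
  | n, 0, _, _, _, hp, _, _ => Pol.of_eq_zero (fun x => by rw [hp x, zero_mul]) n
  | n, _ + 1, 0, _, _, _, hq, _ => Pol.of_eq_zero (fun x => by rw [hq x, mul_zero]) n
  | 0, _ + 1, _ + 1, _, _, _, _, h => absurd h (by omega)
  | n + 1, a + 1, b + 1, p, q, hp, hq, hn => fun h => by
    have h1 := (Pol.mul (n := n) (hp h) (hq.shift h) (by omega)).add
      (Pol.mul (n := n) hp (hq h) (by omega))
    convert h1 using 2
    ring

lemma Pol.const_mul {s : ℕ} {p : G → ℝ} (hp : Pol s p) (c : ℝ) : Pol s fun x => c * p x :=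
  (pol_const c).mul hp (by omega)

lemma Pol.sum {s : ℕ} {ι : Type*} (I : Finset ι) {p : ι → G → ℝ} (hp : ∀ i ∈ I, Pol s (p i)) :
    Pol s fun x => ∑ i ∈ I, p i x := by
  induction I using Finset.induction_on with
  | empty => simpa using pol_zero s
  | insert a I ha ih =>
    simp only [sum_insert ha]
    exact (hp a (mem_insert_self _ _)).add (ih fun i hi => hp i (mem_insert_of_mem hi))

lemma Pol.prod {ι : Type*} (I : Finset ι) {p : ι → G → ℝ} {d : ι → ℕ}
    (hp : ∀ i ∈ I, Pol (d i + 1) (p i)) : Pol (∑ i ∈ I, d i + 1) fun x => ∏ i ∈ I, p i x := by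
  induction I using Finset.induction_on with
  | empty => simpa using pol_const 1
  | insert a I ha ih =>
    simp only [sum_insert ha, prod_insert ha]
    exact (hp a (mem_insert_self _ _)).mul (ih fun i hi => hp i (mem_insert_of_mem hi)) (by omega)

lemma Pol.pow {p : G → ℝ} {d : ℕ} (hp : Pol (d + 1) p) (n : ℕ) :
    Pol (n * d + 1) fun x => p x ^ n := by
  simpa using Pol.prod (range n) (p := fun _ => p) (d := fun _ => d) fun _ _ => hp

/-- a polynomial in additive functions -/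
lemma pol_mv {ι : Type*} (P : MvPolynomial ι ℝ) {l : ι → G → ℝ}
    (hl : ∀ i x y, l i (x + y) = l i x + l i y) {s : ℕ} (hs : P.totalDegree < s) :
    Pol s fun x => MvPolynomial.eval (fun i => l i x) P := by
  simp only [MvPolynomial.eval_eq]
  refine Pol.sum _ fun m hm => Pol.const_mul ?_ _
  refine (Pol.prod m.support (d := fun i => m i * 1) fun i _ => (pol_hom (hl i)).pow _).mono ?_
  simp only [mul_one]
  exact Nat.succ_le_of_lt ((MvPolynomial.le_totalDegree hm).trans_lt hs)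

/-! ### orthogonal families of characters -/

/-- a finite family of characters which is orthogonal on `R` -/
structure Ort {Ξ : Type*} [Fintype Ξ] (χ : Ξ → G → ℂ) (R : Finset G) : Prop where
  pos : 0 < Fintype.card Ξ
  unit : ∀ ξ x, ‖χ ξ x‖ = 1
  add : ∀ ξ x y, χ ξ (x + y) = χ ξ x * χ ξ y
  sum : ∀ z ∈ R, z ≠ 0 → ∑ ξ, χ ξ z = 0

section Ort

variable {Ξ : Type*} [Fintype Ξ] {χ : Ξ → G → ℂ} {R : Finset G}

lemma Ort.mul_conj (h : Ort χ R) (ξ : Ξ) (x : G) : χ ξ x * conj (χ ξ x) = 1 := by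
  rw [Complex.mul_conj, Complex.normSq_eq_norm_sq, h.unit]
  simp

lemma Ort.sub (h : Ort χ R) (ξ : Ξ) (x y : G) : χ ξ (x - y) = χ ξ x * conj (χ ξ y) := by
  conv_rhs => rw [← sub_add_cancel x y, h.add, mul_assoc, h.mul_conj, mul_one]

lemma Ort.ite (h : Ort χ R) {x y : G} (hz : x - y ∈ R) :
    ∑ ξ, χ ξ x * conj (χ ξ y) = if x = y then (Fintype.card Ξ : ℂ) else 0 := by
  split_ifs with h0
  · simp [h0, h.mul_conj]
  · simp only [← h.sub]
    exact h.sum _ hz (sub_ne_zero.2 h0)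

lemma Ort.parseval (h : Ort χ R) (f : G → ℂ) (hR : S - S ⊆ R) :
    ∑ ξ, ‖∑ x ∈ S, f x * χ ξ x‖ ^ 2 = Fintype.card Ξ * ∑ x ∈ S, ‖f x‖ ^ 2 := by
  have h1 : ∀ z : ℂ, ((‖z‖ ^ 2 : ℝ) : ℂ) = z * conj z := fun z => by
    rw [Complex.mul_conj, Complex.normSq_eq_norm_sq]
  refine Complex.ofReal_injective ?_
  rw [Complex.ofReal_mul, Complex.ofReal_sum, Complex.ofReal_sum]
  simp only [h1, map_sum, sum_mul_sum, map_mul]
  rw [sum_comm, mul_sum]
  refine sum_congr rfl fun x hx => ?_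
  rw [sum_comm, sum_eq_single_of_mem x hx fun y hy hne => ?_]
  · simp only [mul_mul_mul_comm (f x) _ (conj (f x)), h.mul_conj]
    simp
  · simp only [mul_mul_mul_comm (f x) _ (conj (f y))]
    rw [← mul_sum, h.ite (hR (sub_mem_sub hx hy)), if_neg (Ne.symm hne), mul_zero]

/-- `U ^ 2` is the fourth moment of the Fourier transform -/
lemma Ort.U_two (h : Ort χ R) (hf : Supp f S) (hR : S - S - (S - S) ⊆ R) :
    Fintype.card Ξ * U 2 f = ∑ ξ, ‖∑ x ∈ S, f x * χ ξ x‖ ^ 4 := by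
  rw [U_succ hf Subset.rfl]
  simp only [zero_add, U_one (hf.D _)]
  rw [← h.parseval _ hR]
  refine sum_congr rfl fun ξ _ => ?_
  have h1 := sum_D2 (T := S) (hf.mul_right (χ ξ)) (fun x => f x * χ ξ x) Subset.rfl
  have h2 : ∑ k ∈ S - S, (∑ x ∈ S, D k f x) * χ ξ k =
      ∑ k ∈ S - S, ∑ x ∈ S, D2 k (fun x => f x * χ ξ x) (fun x => f x * χ ξ x) x := by
    refine sum_congr rfl fun k _ => ?_
    rw [sum_mul]
    refine sum_congr rfl fun x _ => ?_
    simp only [D, D2, map_mul, h.add]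
    linear_combination (-(f (x + k) * conj (f x) * χ ξ k)) * h.mul_conj ξ x
  rw [h2, h1, norm_mul, RCLike.norm_conj]
  ring

lemma Ort.exists_large (h : Ort χ R) (hf : Supp f S) (hR : S - S - (S - S) ⊆ R) (hR' : S - S ⊆ R) :
    ∃ ξ, U 2 f ≤ ‖∑ x ∈ S, f x * χ ξ x‖ ^ 2 * ∑ x ∈ S, ‖f x‖ ^ 2 := by
  have : Nonempty Ξ := Fintype.card_pos_iff.1 h.pos
  obtain ⟨ξ, -, hξ⟩ := exists_max_image univ (fun ξ => ‖∑ x ∈ S, f x * χ ξ x‖) univ_nonempty
  refine ⟨ξ, le_of_mul_le_mul_left ?_ (by exact_mod_cast h.pos : (0 : ℝ) < Fintype.card Ξ)⟩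
  rw [h.U_two hf hR, mul_left_comm, ← h.parseval f hR', mul_sum]
  refine sum_le_sum fun η _ => ?_
  rw [show (4 : ℕ) = 2 + 2 from rfl, pow_add]
  exact mul_le_mul_of_nonneg_right
    (pow_le_pow_left₀ (norm_nonneg _) (hξ η (mem_univ _)) 2) (by positivity)

/-- multiplication by a convolution -/
lemma Ort.Nm_mul_conv (h : Ort χ R) (hf : Supp f S) {A B : Finset G} (a b : G → ℂ)
    (hR : A + B - S ⊆ R) (hA : A - A ⊆ R) (hB : B - B ⊆ R) (s : ℕ) :
    Nm (s + 2) (fun x => f x * ∑ y ∈ A, ∑ z ∈ B, if y + z = x then a y * b z else 0) ≤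
      √((∑ y ∈ A, ‖a y‖ ^ 2) * ∑ z ∈ B, ‖b z‖ ^ 2) * Nm (s + 2) f := by
  have hc : (0 : ℝ) < Fintype.card Ξ := by exact_mod_cast h.pos
  have hc' : (Fintype.card Ξ : ℂ) ≠ 0 := by exact_mod_cast h.pos.ne'
  have h1 : (fun x => f x * ∑ y ∈ A, ∑ z ∈ B, if y + z = x then a y * b z else 0) =
      fun x => ∑ ξ, ((Fintype.card Ξ : ℂ)⁻¹ * ((∑ y ∈ A, a y * χ ξ y) * ∑ z ∈ B, b z * χ ξ z)) *
        (f x * conj (χ ξ x)) := by
    funext x
    by_cases hx : x ∈ S
    swap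
    · simp [hf x hx]
    simp only [sum_mul_sum]
    simp only [mul_sum, sum_mul]
    refine Eq.trans (sum_congr rfl fun y hy => ?_) sum_comm
    refine Eq.trans (sum_congr rfl fun z hz => ?_) sum_comm
    have h2 := h.ite (hR (sub_mem_sub (add_mem_add hy hz) hx))
    have h3 : ∀ ξ, (Fintype.card Ξ : ℂ)⁻¹ * (a y * χ ξ y * (b z * χ ξ z)) * (f x * conj (χ ξ x)) =
        (Fintype.card Ξ : ℂ)⁻¹ * (f x * (a y * b z)) * (χ ξ (y + z) * conj (χ ξ x)) := fun ξ => by
      rw [h.add]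
      ring
    simp only [h3]
    rw [← mul_sum, h2]
    split_ifs
    · field_simp
    · simp
  rw [h1]
  refine (Nm_sum_le (s + 2) univ (S := S) fun ξ => (hf.mul_right _).mul_left _).trans ?_
  have h4 : ∀ ξ, IsPh (s + 2) fun x => conj (χ ξ x) := fun ξ =>
    ((isPh_char (h.unit ξ) (h.add ξ)).mono (by omega)).conj
  simp only [Nm_const_mul, Nm_mul_ph _ f (h4 _), ← sum_mul]
  refine mul_le_mul_of_nonneg_right (Real.le_sqrt_of_sq_le ?_) (Nm_nonneg _ _)
  simp only [norm_mul, norm_inv, Complex.norm_natCast, ← mul_sum]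
  rw [mul_pow, inv_pow, inv_mul_le_iff₀ (by positivity)]
  refine (sum_mul_sq_le_sq_mul_sq _ _ _).trans (le_of_eq ?_)
  rw [h.parseval a hA, h.parseval b hB]
  ring

end Ort

/-- `G` has enough characters in the class `𝒞` -/
def Enough (𝒞 : Set (G → ℂ)) : Prop :=
  ∀ R : Finset G, ∃ (N : ℕ) (χ : Fin N → G → ℂ), (∀ ξ, χ ξ ∈ 𝒞) ∧ Ort χ R

lemma Ort.fin {Ξ : Type*} [Fintype Ξ] {χ : Ξ → G → ℂ} {R : Finset G} (h : Ort χ R) :
    Ort (fun i => χ ((Fintype.equivFin Ξ).symm i)) R :=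
  ⟨by simpa using h.pos, fun _ => h.unit _, fun _ => h.add _, fun z hz h0 => by
    rw [(Fintype.equivFin Ξ).symm.sum_comp fun ξ => χ ξ z, h.sum z hz h0]⟩

theorem enough_finite [Finite G] : Enough (Set.range fun ψ : AddChar G ℂ => (ψ : G → ℂ)) := fun R => by
  have := Fintype.ofFinite G
  have h : Ort (fun ψ : AddChar G ℂ => (ψ : G → ℂ)) R :=
    ⟨Fintype.card_pos, fun ψ x => ψ.norm_apply x, fun ψ => ψ.map_add_eq_mul, fun z _ hz => by
      rw [AddChar.sum_apply_eq_ite, if_neg hz]⟩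
  exact ⟨_, _, fun _ => ⟨_, rfl⟩, h.fin⟩

/-- **the `U ^ 2` inverse theorem** -/
theorem U_two_inv {𝒞 : Set (G → ℂ)} (hG : Enough 𝒞) (hf : Supp f S) :
    ∃ χ ∈ 𝒞, U 2 f ≤ ‖∑ x ∈ S, f x * χ x‖ ^ 2 * ∑ x ∈ S, ‖f x‖ ^ 2 := by
  obtain ⟨N, χ, h1, h2⟩ := hG ((S - S - (S - S)) ∪ (S - S))
  obtain ⟨ξ, hξ⟩ := h2.exists_large hf subset_union_left subset_union_right
  exact ⟨_, h1 ξ, hξ⟩

theorem Nm_mul_conv {𝒞 : Set (G → ℂ)} (hG : Enough 𝒞) (hf : Supp f S) (A B : Finset G)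
    (a b : G → ℂ) (s : ℕ) :
    Nm (s + 2) (fun x => f x * ∑ y ∈ A, ∑ z ∈ B, if y + z = x then a y * b z else 0) ≤
      √((∑ y ∈ A, ‖a y‖ ^ 2) * ∑ z ∈ B, ‖b z‖ ^ 2) * Nm (s + 2) f := by
  obtain ⟨N, χ, -, h2⟩ := hG ((A + B - S) ∪ ((A - A) ∪ (B - B)))
  exact h2.Nm_mul_conv hf a b subset_union_left (subset_union_left.trans subset_union_right)
    (subset_union_right.trans subset_union_right) s

/-- **sharp cut-off**: `E` contains the points of `S` which are `Q`-close to the boundary of `P` -/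
theorem Nm_mul_ind {𝒞 : Set (G → ℂ)} (hG : Enough 𝒞) (hf : Supp f S) (hb : ∀ x, ‖f x‖ ≤ 1)
    (P : Finset G) {Q E : Finset G} (hQ : Q.Nonempty)
    (hE : ∀ x ∈ S, x ∉ E → ∀ q ∈ Q, x - q ∈ P ↔ x ∈ P) (s : ℕ) :
    Nm (s + 2) (fun x => if x ∈ P then f x else 0) ≤ √((P.card : ℝ) / Q.card) * Nm (s + 2) f +
      ((E.card : ℝ) * ((S - S).card : ℝ) ^ (s + 2)) ^ ((2 ^ (s + 2) : ℕ) : ℝ)⁻¹ := by
  have hc : (0 : ℝ) < Q.card := by exact_mod_cast hQ.card_pos
  have hc' : (Q.card : ℂ) ≠ 0 := by exact_mod_cast hQ.card_pos.ne'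
  set ψ : G → ℂ := fun x => ∑ y ∈ P, ∑ z ∈ Q, if y + z = x then 1 * (Q.card : ℂ)⁻¹ else 0 with hψ
  have h1 : ∀ x, ψ x = (((Q.filter fun z => x - z ∈ P).card / Q.card : ℝ) : ℂ) := fun x => by
    simp only [hψ]
    rw [sum_comm, card_filter]
    push_cast
    rw [div_eq_mul_inv, sum_mul]
    refine sum_congr rfl fun z _ => ?_
    simp only [← eq_sub_iff_add_eq, sum_ite_eq']
    split_ifs <;> simp
  have h2 : (fun x => if x ∈ P then f x else 0) =
      fun x => f x * ψ x + f x * ((if x ∈ P then 1 else 0) - ψ x) := by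
    funext x
    split_ifs <;> ring
  have h3 : Supp (fun x => f x * ((if x ∈ P then 1 else 0) - ψ x)) (S ∩ E) := fun x hx => by
    by_cases hxS : x ∈ S
    swap
    · simp [hf x hxS]
    have h4 := hE x hxS fun h => hx (mem_inter.2 ⟨hxS, h⟩)
    refine mul_eq_zero_of_right _ ?_
    rw [h1]
    split_ifs with h5
    · rw [filter_true_of_mem fun q hq => (h4 q hq).2 h5, div_self hc.ne']
      simp
    · rw [filter_false_of_mem fun q hq h6 => h5 ((h4 q hq).1 h6)]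
      simp
  rw [h2]
  refine (Nm_add_le _ (hf.mul_right _) (hf.mul_right _)).trans (add_le_add ?_ ?_)
  · refine (Nm_mul_conv hG hf P Q (fun _ => 1) (fun _ => (Q.card : ℂ)⁻¹) s).trans (le_of_eq ?_)
    congr 2
    simp only [norm_one, one_pow, sum_const, nsmul_eq_mul, norm_inv, Complex.norm_natCast]
    field_simp
  · refine (Nm_le_cubeN _ h3 fun x => ?_).trans (Real.rpow_le_rpow (by positivity) ?_ (by positivity))
    · rw [norm_mul]
      refine mul_le_one₀ (hb x) (norm_nonneg _) ?_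
      have h4 : ((Q.filter fun z => x - z ∈ P).card / Q.card : ℝ) ≤ 1 :=
        (div_le_one hc).2 (by exact_mod_cast card_filter_le _ _)
      have h5 : 0 ≤ ((Q.filter fun z => x - z ∈ P).card / Q.card : ℝ) := by positivity
      rw [h1]
      split_ifs
      · rw [← Complex.ofReal_one, ← Complex.ofReal_sub, Complex.norm_real, Real.norm_eq_abs, abs_le]
        constructor <;> linarith
      · rw [zero_sub, norm_neg, Complex.norm_real, Real.norm_of_nonneg h5]
        exact h4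
    · gcongr
      · exact inter_subset_right
      · exact inter_subset_left
      · exact inter_subset_left

/-! ### the lattice `ι → ℤ` -/

section lattice

variable {ι : Type*} [Fintype ι]

/-- the character with frequency `θ` -/
def chi (θ : ι → ℝ) (x : ι → ℤ) : ℂ := ee (∑ i, θ i * x i)

lemma norm_chi (θ : ι → ℝ) (x : ι → ℤ) : ‖chi θ x‖ = 1 := norm_ee _

lemma chi_add (θ : ι → ℝ) (x y : ι → ℤ) : chi θ (x + y) = chi θ x * chi θ y := by
  simp only [chi, Pi.add_apply, Int.cast_add, mul_add, sum_add_distrib, ee_add]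

lemma isPh_chi (θ : ι → ℝ) : IsPh 2 (chi θ) := isPh_char (norm_chi θ) (chi_add θ)

lemma sum_ee_div {M : ℕ} (hM : 0 < M) (z : ℤ) :
    ∑ j : Fin M, ee ((j : ℕ) / M * z) = if (M : ℤ) ∣ z then (M : ℂ) else 0 := by
  have hM' : (M : ℝ) ≠ 0 := by exact_mod_cast hM.ne'
  have h1 : ∀ j : ℕ, ee (j / M * z) = ee (z / M) ^ j := fun j => by
    rw [← ee_nat_mul]
    congr 1
    ring
  simp only [h1]
  rw [Fin.sum_univ_eq_sum_range (fun j => ee (z / M) ^ j)]
  split_ifs with h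
  · obtain ⟨c, rfl⟩ := h
    rw [show ((M * c : ℤ) : ℝ) / M = c by push_cast; field_simp, ee_int]
    simp
  · have h2 : ee (z / M) ≠ 1 := fun h2 => by
      obtain ⟨n, hn⟩ := ee_eq_one_iff.1 h2
      refine h ⟨n, ?_⟩
      rw [div_eq_iff hM', mul_comm] at hn
      exact_mod_cast hn
    rw [geom_sum_eq h2, ← ee_nat_mul, mul_div_cancel₀ _ hM', ee_int, sub_self, zero_div]

lemma sum_chi {M : ℕ} (hM : 0 < M) (z : ι → ℤ) :
    ∑ ξ : ι → Fin M, chi (fun i => (ξ i : ℕ) / M) z =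
      if ∀ i, (M : ℤ) ∣ z i then (M : ℂ) ^ Fintype.card ι else 0 := by
  simp only [chi, ee_sum]
  rw [← Fintype.piFinset_univ, ← prod_univ_sum (fun _ => univ)
    fun i (j : Fin M) => ee ((j : ℕ) / M * z i)]
  simp only [sum_ee_div hM]
  split_ifs with h
  · simp [h]
  · push Not at h
    obtain ⟨i, hi⟩ := h
    exact prod_eq_zero (mem_univ i) (if_neg hi)

theorem enough_lattice : Enough (Set.range (chi (ι := ι))) := fun R => by
  obtain ⟨M, hM⟩ : ∃ M : ℕ, ∀ z ∈ R, ∀ i, (z i).natAbs ≤ M :=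
    ⟨R.sup fun z => univ.sup fun i => (z i).natAbs, fun z hz i =>
      (le_sup (f := fun i => (z i).natAbs) (mem_univ i)).trans
        (le_sup (f := fun z : ι → ℤ => univ.sup fun i => (z i).natAbs) hz)⟩
  have h : Ort (fun ξ : ι → Fin (M + 1) => chi fun i => ((ξ i : ℕ) : ℝ) / (M + 1 : ℕ)) R := by
    refine ⟨Fintype.card_pos, fun _ => norm_chi _, fun _ => chi_add _, fun z hz h0 => ?_⟩
    rw [sum_chi M.succ_pos, if_neg fun h => h0 (funext fun i => ?_)]
    exact Int.eq_zero_of_dvd_of_natAbs_lt_natAbs (h i) (by have := hM z hz i; omega)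
  exact ⟨_, _, fun _ => ⟨_, rfl⟩, h.fin⟩

/-- **the `U ^ 2` inverse theorem on the lattice** -/
theorem U_two_inv_lattice {f : (ι → ℤ) → ℂ} {S : Finset (ι → ℤ)} (hf : Supp f S)
    (hb : ∀ x, ‖f x‖ ≤ 1) : ∃ θ : ι → ℝ, U 2 f ≤ ‖∑ x ∈ S, f x * chi θ x‖ ^ 2 * S.card := by
  obtain ⟨_, ⟨θ, rfl⟩, h⟩ := U_two_inv enough_lattice hf
  refine ⟨θ, h.trans (mul_le_mul_of_nonneg_left ?_ (by positivity))⟩
  exact (sum_le_card_nsmul _ _ 1 fun x _ => pow_le_one₀ (norm_nonneg _) (hb x)).trans (by simp)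

/-- restriction to a residue class -/
theorem Nm_mul_class {f : (ι → ℤ) → ℂ} {S : Finset (ι → ℤ)} (hf : Supp f S) {q : ℕ} (hq : 0 < q)
    (a : ι → ℤ) (s : ℕ) :
    Nm (s + 2) (fun x => if ∀ i, (q : ℤ) ∣ x i - a i then f x else 0) ≤ Nm (s + 2) f := by
  have hc : ((q : ℂ) ^ Fintype.card ι) ≠ 0 := pow_ne_zero _ (by exact_mod_cast hq.ne')
  have h1 : (fun x => if ∀ i, (q : ℤ) ∣ x i - a i then f x else 0) = fun x =>
      ∑ ξ : ι → Fin q, (((q : ℂ) ^ Fintype.card ι)⁻¹ * chi (fun i => (ξ i : ℕ) / q) (-a)) *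
        (f x * chi (fun i => (ξ i : ℕ) / q) x) := by
    funext x
    have h2 : ∀ ξ : ι → Fin q, (((q : ℂ) ^ Fintype.card ι)⁻¹ * chi (fun i => (ξ i : ℕ) / q) (-a)) *
        (f x * chi (fun i => (ξ i : ℕ) / q) x) =
        (((q : ℂ) ^ Fintype.card ι)⁻¹ * f x) * chi (fun i => (ξ i : ℕ) / q) (x - a) := fun ξ => by
      rw [sub_eq_add_neg, chi_add]
      ring
    simp only [h2]
    rw [← mul_sum, sum_chi hq]
    simp only [Pi.sub_apply]
    split_ifs
    · field_simp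
    · simp
  rw [h1]
  refine (Nm_sum_le (s + 2) univ (S := S) fun ξ => (hf.mul_right _).mul_left _).trans (le_of_eq ?_)
  simp only [Nm_const_mul, Nm_mul_ph _ f ((isPh_chi _).mono (by omega : 2 ≤ s + 2)), norm_mul,
    norm_chi, mul_one, sum_const, card_univ, Fintype.card_fun, Fintype.card_fin, nsmul_eq_mul,
    norm_inv, norm_pow, Complex.norm_natCast]
  rw [← mul_assoc, Nat.cast_pow, mul_inv_cancel₀ (pow_ne_zero _ (by exact_mod_cast hq.ne')), one_mul]

/-- the box `∏ [a i, a i + L i)` -/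
def bx (a : ι → ℤ) (L : ι → ℕ) : Finset (ι → ℤ) := Fintype.piFinset fun i => Ico (a i) (a i + L i)

lemma mem_bx {a x : ι → ℤ} {L : ι → ℕ} : x ∈ bx a L ↔ ∀ i, a i ≤ x i ∧ x i < a i + L i := by
  simp [bx]

lemma card_bx (a : ι → ℤ) (L : ι → ℕ) : (bx a L).card = ∏ i, L i := by simp [bx]

lemma bx_sub_bx (a a' : ι → ℤ) (L L' : ι → ℕ) :
    bx a L - bx a' L' ⊆ bx (fun i => a i - a' i - L' i) fun i => L i + L' i := by
  intro z hz
  obtain ⟨x, hx, y, hy, rfl⟩ := mem_sub.1 hz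
  refine mem_bx.2 fun i => ?_
  have h1 := mem_bx.1 hx i
  have h2 := mem_bx.1 hy i
  simp only [Pi.sub_apply, Nat.cast_add]
  omega

lemma card_bx_sub_le (a : ι → ℤ) (L : ι → ℕ) :
    ((bx a L - bx a L).card : ℝ) ≤ 2 ^ Fintype.card ι * (bx a L).card := by
  have h := card_le_card (bx_sub_bx a a L L)
  simp only [card_bx, ← two_mul, prod_mul_distrib, prod_const, card_univ] at h ⊢
  exact_mod_cast h

lemma card_bx_sub_sub_le (a : ι → ℤ) (L : ι → ℕ) :
    ((bx a L - bx a L - (bx a L - bx a L)).card : ℝ) ≤ 4 ^ Fintype.card ι * (bx a L).card := by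
  have h := card_le_card ((sub_subset_sub (bx_sub_bx a a L L) (bx_sub_bx a a L L)).trans
    (bx_sub_bx _ _ _ _))
  have h1 : ∀ n : ℕ, n + n + (n + n) = 4 * n := fun n => by ring
  simp only [card_bx, h1, prod_mul_distrib, prod_const, card_univ] at h ⊢
  exact_mod_cast h

end lattice

end Crest.Agent.T49.Gow
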