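import Crest.Agent.T49.GiDef_40
import Crest.Agent.T49.NilVec_46
import Crest.Agent.T49.NilFn_73
import Crest.Agent.T49.GowConv_73
import Crest.Agent.T49.GowC_67

/-!
# Row 49 (helper46): the leaves `VEC`, `DER`, `BASE` of `GI`
-/

set_option autoImplicit false

noncomputable section

namespace Crest.Agent.T49.GI

open Finset Crest.Agent.T49.Nil Crest.Agent.T49.Nil.ND
open Crest.Agent.T49.Bch (star)
open Crest.Agent.T49.Gow (Supp D U)
open scoped ComplexConjugate Pointwise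

namespace Vec46

theorem pow_le_succ {m : ℝ} (hm : 2 ≤ m) (C : ℕ) : m ^ C ≤ m ^ (C + 1) :=
  pow_le_pow_right₀ (by linarith) (Nat.le_succ C)

theorem nat_mul_le {m : ℝ} (hm : 2 ≤ m) (c : ℕ) : (c : ℝ) * m ≤ m ^ (c + 1) := by
  rw [pow_succ]
  refine mul_le_mul_of_nonneg_right ?_ (by linarith)
  calc (c : ℝ) ≤ 2 ^ c := by exact_mod_cast (Nat.lt_two_pow_self).le
    _ ≤ m ^ c := pow_le_pow_left₀ (by norm_num) hm c

theorem isNil_mono {σ : Type} {s : ℕ} {m m' : ℝ} {f : (σ → ℤ) → ℂ} (h : IsNil s m f)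
    (hm : m ≤ m') : IsNil s m' f := by
  obtain ⟨ι, _, N, F, P, h1, h2, h3, h4, h5⟩ := h
  exact ⟨ι, _, N, F, P, h1.trans hm, h2.mono (Real.exp_le_exp.2 hm),
    h3.mono (Real.exp_le_exp.2 hm), h4, h5⟩

theorem isNil_conj {σ : Type} {s : ℕ} {m : ℝ} {f : (σ → ℤ) → ℂ} (h : IsNil s m f) :
    IsNil s m fun n => conj (f n) := by
  obtain ⟨ι, _, N, F, P, h1, h2, h3, h4, h5⟩ := h
  exact ⟨ι, _, N, _, P, h1, h2, h3.conj, h4, fun n => congrArg _ (h5 n)⟩

/-- the one-dimensional abelian datum -/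
def ab : ND Unit where
  wt _ := 1
  c _ _ _ := 0
  wt_pos _ := le_rfl
  c_wt _ _ _ h := absurd rfl h
  anti _ _ _ := by simp
  jac _ _ _ _ := by simp

theorem ab_star (S : ℕ) (x y : ab.L) : star S x y = x + y :=
  Bch.star_of_lie_eq_zero S (by ext k; simp [lie_apply, ab])

theorem isNil_e {m : ℝ} (hm : 4 ≤ m) (θ : ℝ) : IsNil1 1 m fun n => Tor.e (θ * n) := by
  refine ⟨Unit, inferInstance, ab, fun x => Tor.e (x ()),
    ab.mono (Finsupp.single () 1) fun _ => θ, by simp; linarith,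
    ⟨fun _ => le_rfl, fun _ _ _ => by simpa [ab] using (Real.exp_pos m).le, fun x y hx hy => ?_⟩,
    ⟨fun x => (Tor.norm_e _).le, fun x γ hγ => ?_, fun Z x => ?_⟩,
    mono_mem_cf (by simpa using mem_FA_one _), fun n => ?_⟩
  · rw [ab_star]; exact hx.add hy
  · obtain ⟨z, hz⟩ := hγ ()
    rw [ab_star, ND.add_apply, hz, Tor.e_add_int]
  · rw [ab_star, ND.add_apply]
    refine (Tor.norm_e_sub_e_le _ _).trans ?_
    rw [add_sub_cancel_right]
    have h1 := Real.quadratic_le_exp_of_nonneg (x := m) (by linarith)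
    have h2 := Real.pi_lt_four
    exact mul_le_mul (by nlinarith) (abs_apply_le Z ()) (abs_nonneg _) (Real.exp_pos m).le
  · change _ = Tor.e (MvPolynomial.aeval _ (MvPolynomial.monomial (Finsupp.single () 1) θ))
    simp [MvPolynomial.aeval_monomial]

end Vec46

open Vec46

/-- **task VEC** -/
theorem vecStmt : VecStmt := by
  intro S s
  obtain ⟨C, hC⟩ := exists_vec S
  refine ⟨C + 1, by omega, fun m hm ι _ N η hd hN hη => ?_⟩
  obtain ⟨J, F, h1, h2, h3⟩ := hC m hm ι N s η hd hN hη.supp hη.le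
  have h4 := Real.exp_le_exp.2 (pow_le_succ hm C)
  refine ⟨J, F, h1.trans h4, fun j => (h2 j).mono h4, fun x => ?_⟩
  simp only [Complex.mul_conj, Complex.normSq_eq_norm_sq]
  exact_mod_cast h3 x

/-- **task DER** -/
theorem derStmt : DerStmt := by
  intro d
  obtain ⟨B, hB⟩ := Gow.conv_tower (fun t => 63 * t + 78) d
  refine ⟨B + 1, by omega, fun m hm L a ψ hψ ha hb hc => ?_⟩
  have h := hB ℤ (Ico (0 : ℤ) L) IsNil1 (fun t m m' ψ hm h => isNil_mono h hm) ?_ ?_ m
    (fun n => conj (ψ n)) hm ?_ (isNil_conj hψ) a ha hb (by simpa [Cor] using hc)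
  · refine le_trans (mul_le_mul_of_nonneg_right ?_ (by positivity)) (by simpa using h)
    exact Real.exp_le_exp.2 (neg_le_neg (pow_le_succ hm B))
  · rintro m ψ - ⟨ι, _, N, F, P, -, h2, h3, -, h5⟩
    refine ⟨F 0, h3.bdd 0, fun x _ => (h5 fun _ => x).trans ?_⟩
    rw [eq_zero_of_mem_FA h2.wt_le (mem_FA_one (N.evZ (fun _ => x) P))]
  · rintro t - m ψ hm ⟨ι, _, N, F, P, h1, h2, h3, h4, h5⟩
    obtain ⟨n, η, G, hn, hG, hap⟩ := (h3.nfn h2.wt_le).expand_exp hm h1 h2.wt_le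
    refine ⟨n, fun j x => G j (N.evZ (fun _ => x) P), hn.trans (Real.exp_le_exp.2
      (pow_le_pow_right₀ (by linarith) (by omega))), fun x _ => ?_, fun j x _ => (hG j).bdd _,
      fun j k _ => ?_⟩
    · have := h5 fun _ => x
      simp only at this
      rw [this]
      exact hap _
    · have h6 := (hG j).isNil_deriv (m := 7 * m) (by linarith) (by linarith)
        (h2.mono (Real.exp_le_exp.2 (by linarith))) h4 fun _ => k
      refine isNil_mono h6 ?_
      have := nat_mul_le hm (63 * t + 77)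
      push_cast at this ⊢
      linarith
  · have h1 : ∀ x, x ∈ Ico (-(L : ℤ)) L ∨ x ∉ Ico (0 : ℤ) L - Ico (0 : ℤ) L := fun x => by
      by_contra h
      push Not at h
      obtain ⟨y, hy, z, hz, rfl⟩ := mem_sub.1 h.2
      simp only [mem_Ico] at h hy hz
      omega
    have h2 := Real.add_one_le_exp m
    calc _ ≤ (#(Ico (-(L : ℤ)) L) : ℝ) := by
          exact_mod_cast card_le_card fun x hx => (h1 x).resolve_right fun h => h (by convert hx; rfl)
      _ = 2 * L := by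
          rw [Int.card_Ico, show ((L : ℤ) - -L) = ((2 * L : ℕ) : ℤ) by push_cast; ring,
            Int.toNat_natCast]
          push_cast; ring
      _ ≤ _ := by
          rw [Int.card_Ico, sub_zero, Int.toNat_natCast]
          exact mul_le_mul_of_nonneg_right (by linarith) (Nat.cast_nonneg L)

/-- **task BASE** -/
theorem baseStmt : BaseStmt := by
  refine ⟨2, by omega, fun m L f hm hL hf hb hU => ?_⟩
  let φ : (Unit → ℤ) ≃ ℤ := Equiv.funUnique Unit ℤ
  have hs : Supp (fun x : Unit → ℤ => f (x ())) ((Ico (0 : ℤ) L).map φ.symm.toEmbedding) :=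
    fun x hx => hf _ fun h => hx (mem_map.2 ⟨_, h, rfl⟩)
  obtain ⟨θ, hθ⟩ := Gow.U_two_inv_lattice hs fun x => hb _
  have h1 := Gow.U_comp_inj (φ := Pi.evalAddMonoidHom (fun _ : Unit => ℤ) ())
    (fun x y h => funext fun _ => h) 0 2 (f := f) fun y hy => absurd ⟨fun _ => y - 0, rfl⟩ hy
  simp only [add_zero, Pi.evalAddMonoidHom_apply] at h1
  rw [h1, sum_map, card_map, Int.card_Ico, sub_zero, Int.toNat_natCast] at hθ
  refine ⟨fun n => Tor.e (θ () * n), isNil_e (by nlinarith) _, ?_⟩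
  have hL0 : (0 : ℝ) < L := (Real.exp_pos _).trans_le hL
  have h2 : ∑ x ∈ Ico (0 : ℤ) L, f (φ.symm.toEmbedding x ()) * Gow.chi θ (φ.symm.toEmbedding x) =
      ∑ n ∈ Ico (0 : ℤ) L, f n * Tor.e (θ () * n) :=
    sum_congr rfl fun n _ => by
      change f n * Gow.ee (∑ i : Unit, θ i * (n : ℝ)) = _
      rw [Fintype.sum_unique]
      rfl
  rw [h2] at hθ
  have h3 := le_trans hU hθ
  refine le_of_sq_le_sq ?_ (norm_nonneg _) |>.trans le_rfl
  refine le_of_mul_le_mul_right (le_trans ?_ h3) hL0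
  rw [mul_pow, ← Real.exp_nat_mul]
  have h4 : Real.exp ((2 : ℕ) * -m ^ 2) ≤ Real.exp (-m) := Real.exp_le_exp.2 (by push_cast; nlinarith)
  calc _ = Real.exp ((2 : ℕ) * -m ^ 2) * (L : ℝ) ^ (1 + 2) := by ring
    _ ≤ _ := mul_le_mul_of_nonneg_right h4 (by positivity)

end Crest.Agent.T49.GI
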