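import Crest.Agent.T49.LT_65
import Crest.Agent.T49.GiAdapt_61
import Crest.Agent.T49.GiAux_9
import Crest.Agent.T49.GiClos_16
import Crest.Agent.T49.GiConv_73
import Crest.Agent.T49.GiFibC_91
import Crest.Agent.T49.GiFilt_27
import Crest.Agent.T49.GiGour_32
import Crest.Agent.T49.GiLtN_85
import Crest.Agent.T49.GiModel_40
import Crest.Agent.T49.GiPetal_51
import Crest.Agent.T49.GiPull_61
import Crest.Agent.T49.GiPush_14
import Crest.Agent.T49.GiStep1_9
import Crest.Agent.T49.GiStep4_57
import Crest.Agent.T49.GiStep5_54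
import Crest.Agent.T49.GiStep6_65
import Crest.Agent.T49.GiStep7_74
import Crest.Agent.T49.GiStruct_60
import Crest.Agent.T49.GiSubq_33
import Crest.Agent.T49.GiSymm_17
import Crest.Agent.T49.GiVec_46

/-! Row 49, inverse theorem: assembly of all leaves except the model. -/

set_option autoImplicit false

namespace Crest.Agent.T49.GI

theorem structStmt9 : StructStmt :=
  structStmt ahRealStmt auxStmt closStmt pushStmt fundStmt (petalStmt pushStmt)
    (goursatStmt closStmt pullStmt uniqStmt fundStmt (petalStmt pushStmt))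
    (lin3Stmt closStmt pushStmt uniqStmt)

theorem gi_of_model (hModel : ModelStmt) (t : ℕ) : GI1 (t + 1) :=
  gi_of Nil.ltStmt ltNStmt closStmt pushStmt pullStmt convFStmt vecStmt derStmt fibCStmt
    (fibSStmt adaptStmt fibCStmt) structStmt9 subQStmt hModel symStmt (filtStmt fundStmt) baseStmt
    step1Stmt step2Stmt9 step3Stmt step4Stmt step5Stmt step6Stmt step7Stmt step8Stmt t

/-- **the quasi-polynomial inverse theorem for the Gowers norms on `[0, L)`** -/
theorem gi1 (t : ℕ) : GI1 (t + 1) := gi_of_model modelStmt t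

end Crest.Agent.T49.GI
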