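import Crest.Agent.T49.C0c_50

/-! Row 49, block (C0): the ratio theorem implies the absolute increment theorem. -/

set_option autoImplicit false

namespace Crest.Agent.T49.Rat
open Finset

variable {ι : Type*} [Fintype ι] [DecidableEq ι]

lemma sum_shift_cube {L : ℕ} {w : ι → ℤ} (hw : ∀ v ∈ cube ι L, v - w ∈ box ι (2 * L))
    (F : (ι → ℤ) → ℝ) (hF : ∀ v, v ∉ cube ι L → F v = 0) :
    ∑ u ∈ box ι (2 * L), F (w + u) = ∑ v ∈ cube ι L, F v := by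
  symm
  refine Finset.sum_bij_ne_zero (fun v _ _ => v - w) (fun v hv _ => hw v hv)
    (fun v _ _ v' _ _ h => sub_left_injective h) (fun u _ hu => ?_) fun v _ _ => by simp
  exact ⟨w + u, by by_contra h; exact hu (hF _ h), hu, by simp⟩

lemma c0_eps (k : ℕ) : ∃ ε : ℝ, 0 < ε ∧ ε ≤ 1 ∧ (1 + ε) ^ (2 * k) ≤ 1 + (2 * 11 ^ k)⁻¹ := by
  have h1 : (1 : ℝ) ≤ 2 ^ (2 * k) := one_le_pow₀ (by norm_num)
  have h2 : (1 : ℝ) ≤ 11 ^ k := one_le_pow₀ (by norm_num)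
  have h3 : ((2 : ℝ) * 11 ^ k)⁻¹ ≤ 1 := inv_le_one_of_one_le₀ (by linarith)
  have h4 : ((2 : ℝ) * 11 ^ k)⁻¹ / 2 ^ (2 * k) ≤ 1 := (div_le_self (by positivity) h1).trans h3
  refine ⟨(2 * 11 ^ k)⁻¹ / 2 ^ (2 * k), by positivity, h4,
    (one_add_pow_le (by positivity) h4 _).trans ?_⟩
  rw [sub_mul, mul_div_cancel₀ _ (by positivity)]
  have : (0 : ℝ) ≤ (2 * 11 ^ k)⁻¹ / 2 ^ (2 * k) := by positivity
  linarith

/-- The side `l` of the small cube. -/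
lemma c0_side (k D : ℕ) {e : ℝ} (he0 : 0 < e) (he1 : e ≤ 1) : ∃ n₀ : ℕ, 0 < n₀ ∧
    ∀ L : ℕ, (n₀ : ℝ) ≤ L → ∃ l : ℕ, 1 ≤ l ∧ k * (k * l) ≤ L ∧ (L : ℝ) ≤ 2 * n₀ * l ∧
      ((L + 2 * (k * (k * l)) : ℕ) : ℝ) ^ D ≤ (1 + e) * (L : ℝ) ^ D := by
  obtain ⟨n₀, hn₀⟩ := exists_nat_gt (2 ^ D * (2 * (k * k)) / e : ℝ)
  have hn0 : (0 : ℝ) < n₀ := lt_of_le_of_lt (by positivity) hn₀
  have hn0' : 0 < n₀ := by exact_mod_cast hn0
  refine ⟨n₀, hn0', fun L hLn => ?_⟩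
  have hL0 : (0 : ℝ) < L := by linarith
  have hl1 : 1 ≤ L / n₀ := (Nat.one_le_div_iff hn0').2 (by exact_mod_cast hLn)
  have hl2 : ((L / n₀ : ℕ) : ℝ) * n₀ ≤ L := by exact_mod_cast Nat.div_mul_le_self L n₀
  have h1 : L < n₀ * (L / n₀ + 1) := Nat.lt_mul_div_succ L hn0'
  generalize L / n₀ = l at *
  obtain ⟨x, hx⟩ : ∃ x : ℝ, x = 2 * (k * k) / n₀ := ⟨_, rfl⟩
  have hx0 : 0 ≤ x := by rw [hx]; positivity
  have h2D : (1 : ℝ) ≤ 2 ^ D := one_le_pow₀ (by norm_num)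
  have hx1 : 2 ^ D * x ≤ e := by
    rw [div_lt_iff₀ he0] at hn₀
    rw [hx, ← mul_div_assoc, div_le_iff₀ hn0]; linarith
  have hx2 : x ≤ 1 := by nlinarith
  have hTx : ((2 * (k * (k * l)) : ℕ) : ℝ) ≤ x * L := by
    rw [hx, div_mul_eq_mul_div, le_div_iff₀ hn0]
    push_cast
    have : (0 : ℝ) ≤ 2 * (k * k) := by positivity
    linarith [mul_le_mul_of_nonneg_left hl2 this]
  refine ⟨l, hl1, ?_, ?_, ?_⟩
  · have : ((2 * (k * (k * l)) : ℕ) : ℝ) ≤ L := hTx.trans (mul_le_of_le_one_left hL0.le hx2)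
    have : 2 * (k * (k * l)) ≤ L := by exact_mod_cast this
    omega
  · have h2 : L ≤ 2 * n₀ * l := by nlinarith
    exact_mod_cast h2
  · calc _ ≤ ((1 + x) * L) ^ D := pow_le_pow_left₀ (by positivity)
          (by rw [Nat.cast_add]; linarith) _
      _ = (1 + x) ^ D * (L : ℝ) ^ D := mul_pow _ _ _
      _ ≤ (1 + e) * (L : ℝ) ^ D := mul_le_mul_of_nonneg_right
          ((one_add_pow_le hx0 hx2 D).trans (by linarith)) (by positivity)

/-- The number of copies. -/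
lemma c0_copies {R : ℝ} (hR : 1 < R) : ∃ u : ℝ, 1 ≤ u ∧ ∀ m : ℝ, 2 ≤ m → ∃ q : ℕ, 0 < q ∧
    Real.exp (m + 1) ≤ R ^ (2 * q) ∧ ((2 * q : ℕ) : ℝ) ≤ u * m := by
  obtain ⟨u, hu⟩ := pow_unbounded_of_one_lt (Real.exp 1) hR
  have h0 : (0 : ℝ) ≤ u := by positivity
  refine ⟨4 * (u + 1), by linarith, fun m hm => ⟨(u + 1) * ⌈m + 1⌉₊, ?_, ?_, ?_⟩⟩
  · have : 0 < ⌈m + 1⌉₊ := Nat.ceil_pos.2 (by linarith)
    positivity
  · calc Real.exp (m + 1) ≤ Real.exp (⌈m + 1⌉₊ * 1) :=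
          Real.exp_le_exp.2 (by rw [mul_one]; exact Nat.le_ceil _)
      _ = Real.exp 1 ^ ⌈m + 1⌉₊ := Real.exp_nat_mul _ _
      _ ≤ (R ^ u) ^ ⌈m + 1⌉₊ := pow_le_pow_left₀ (Real.exp_pos _).le hu.le _
      _ ≤ _ := by
          rw [← pow_mul]
          exact pow_le_pow_right₀ hR.le (by nlinarith)
  · have := (Nat.ceil_lt_add_one (by linarith : 0 ≤ m + 1)).le
    push_cast
    nlinarith [mul_le_mul_of_nonneg_left (by linarith : (⌈m + 1⌉₊ : ℝ) ≤ 2 * m)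
      (by linarith : (0 : ℝ) ≤ u + 1)]

lemma c0_exp {b u m m₁ : ℝ} {t e : ℕ} (hb : 0 < b) (hu : 1 ≤ u) (hm : 2 ≤ m)
    (ht : (t : ℝ) ≤ (u * m) ^ e) (h : b⁻¹ + 6 * u ^ e * m ^ (e + 1) ≤ m₁) :
    Real.exp (-m₁) ≤ b * Real.exp (-(m + 1)) ^ (t + 2) := by
  have h3 : (1 : ℝ) ≤ (u * m) ^ e := one_le_pow₀ (by nlinarith)
  have h1 : ((t : ℝ) + 2) * (m + 1) ≤ 6 * u ^ e * m ^ (e + 1) := by
    calc ((t : ℝ) + 2) * (m + 1) ≤ (3 * (u * m) ^ e) * (2 * m) :=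
          mul_le_mul (by linarith) (by linarith) (by linarith) (by positivity)
      _ = _ := by rw [mul_pow]; ring
  have h5 : Real.exp (-b⁻¹) ≤ b := by
    rw [Real.exp_neg, inv_le_comm₀ (Real.exp_pos _) hb]
    linarith [Real.add_one_le_exp b⁻¹]
  refine le_trans ?_ (mul_le_mul_of_nonneg_right h5 (by positivity))
  rw [← Real.exp_nat_mul, ← Real.exp_add]
  refine Real.exp_le_exp.2 ?_
  push_cast; linarith

lemma c0_lam {e m₁ α α' : ℝ} {n : ℕ} (he0 : 0 < e) (he1 : e ≤ 1 / 32) (hm : 2 ≤ m₁)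
    (hn : (n : ℝ) / e ≤ m₁) (hα : 0 ≤ α) (h : α' ≤ (1 + e) * α) :
    (1 + e) * α' ≤ (1 - 1 / m₁) ^ n * ((1 + 8 * e) * α) := by
  have h1 : 1 - e ≤ (1 - 1 / m₁) ^ n := by
    have h2 : (1 : ℝ) / m₁ ≤ 1 := by rw [div_le_one (by linarith)]; linarith
    have h3 := one_add_mul_le_pow (a := -(1 / m₁)) (by linarith) n
    have h4 : (n : ℝ) * (1 / m₁) ≤ e := by
      rw [div_le_iff₀ he0] at hn
      rw [mul_one_div, div_le_iff₀ (by linarith)]; linarith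
    rw [sub_eq_add_neg 1 (1 / m₁)]; linarith
  calc _ ≤ (1 + e) * ((1 + e) * α) := mul_le_mul_of_nonneg_left h (by positivity)
    _ ≤ (1 - e) * ((1 + 8 * e) * α) := by
        rw [← mul_assoc, ← mul_assoc]
        exact mul_le_mul_of_nonneg_right (by nlinarith) hα
    _ ≤ _ := mul_le_mul_of_nonneg_right h1 (by positivity)

/-- From the conclusion of `RAT` back to the cube. -/
lemma c0_back [Nonempty ι] {L : ℕ} (hL : 0 < L) {w : ι → ℤ} {A : Finset (ι → ℤ)}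
    (hA : A ⊆ cube ι L) (hw : ∀ v ∈ cube ι L, v - w ∈ box ι (2 * L)) {κ : (ι → ℤ) → ℝ}
    (hκ : ∀ v, 0 ≤ κ v ∧ κ v ≤ 1) {E lam β β' : ℝ} (hE : 0 < E) (h0 : 0 ≤ β') (hβ : β' ≤ lam * β)
    (h : E * ((box ι (2 * L)).card : ℝ) ≤ ∑ u ∈ box ι (2 * L),
      κ u * (1 / 2 * ind A (w + u) - lam * (1 / 2 * (β * ind (cube ι L) (w + u))))) :
    8 * E ≤ 1 ∧ E * (L : ℝ) ^ Fintype.card ι
      ≤ ∑ v ∈ cube ι L, κ (v + -w) * ((if v ∈ A then 1 else 0) - β') := by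
  have hLD : (0 : ℝ) < (L : ℝ) ^ Fintype.card ι := by positivity
  have hbox2 : 4 * (L : ℝ) ^ Fintype.card ι ≤ (box ι (2 * L)).card := by
    rw [card_box50]; push_cast
    calc 4 * (L : ℝ) ^ Fintype.card ι ≤ 4 ^ Fintype.card ι * (L : ℝ) ^ Fintype.card ι :=
          mul_le_mul_of_nonneg_right (le_self_pow₀ (by norm_num) Fintype.card_ne_zero) hLD.le
      _ ≤ _ := by rw [← mul_pow]; exact pow_le_pow_left₀ (by positivity) (by linarith) _
  have hsh := sum_shift_cube hw (fun v => κ (v + -w) * (1 / 2 * ind A v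
    - lam * (1 / 2 * (β * ind (cube ι L) v)))) fun v hv => by simp [ind, hv, mt (@hA v) hv]
  simp only [add_neg_cancel_comm] at hsh
  rw [hsh] at h
  have hle : ∀ v ∈ cube ι L, κ (v + -w) * (1 / 2 * ind A v - lam * (1 / 2 * (β * ind (cube ι L) v)))
      ≤ 1 / 2 * (κ (v + -w) * ((if v ∈ A then 1 else 0) - β')) := by
    intro v hv
    simp only [ind, if_pos hv]
    nlinarith [mul_le_mul_of_nonneg_left hβ (hκ (v + -w)).1]
  have h2 := h.trans (Finset.sum_le_sum hle)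
  rw [← Finset.mul_sum] at h2
  have h1 : ∑ v ∈ cube ι L, κ (v + -w) * ((if v ∈ A then 1 else 0) - β')
      ≤ ∑ _v ∈ cube ι L, (1 : ℝ) := by
    refine Finset.sum_le_sum fun v _ => ?_
    have h3 := hκ (v + -w)
    split_ifs <;> nlinarith [h3.1, h3.2]
  rw [Finset.sum_const, card_cube, nsmul_eq_mul, mul_one] at h1
  push_cast at h1
  have h4 := mul_le_mul_of_nonneg_left hbox2 hE.le
  have h5 := mul_pos hE hLD
  exact ⟨le_of_mul_le_mul_right (by linarith) hLD, by linarith⟩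

theorem ginc_of_rat' [Nonempty ι] (S : WinSys (ι → ℤ)) (r : ℕ) (h : RAT S (r + 1)) :
    GINC S (r + 3) := by
  obtain ⟨C, hC⟩ := h
  obtain ⟨ε, hε0, hε1, hγ⟩ := c0_eps (r + 3)
  obtain ⟨e, he⟩ : ∃ e : ℝ, ε = 32 * e := ⟨ε / 32, by ring⟩
  have he0 : 0 < e := by linarith
  obtain ⟨u, hu1, hu⟩ := c0_copies (by linarith : 1 < 1 + ε)
  obtain ⟨n₀, hn0', hn₀⟩ := c0_side (r + 3) (Fintype.card ι) he0 (by linarith)
  have hn0 : (0 : ℝ) < n₀ := by exact_mod_cast hn0'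
  obtain ⟨b, hb⟩ : ∃ b : ℝ, b = 12 * e / ((10 * n₀) ^ Fintype.card ι) ^ (r + 2) := ⟨_, rfl⟩
  have hb0 : 0 < b := by rw [hb]; positivity
  obtain ⟨C₁, hC₁⟩ := exists_pow_ge
    (6 * u ^ (r + 4) + (b⁻¹ + ((r + 1 : ℕ) / e + n₀ + 2))) (r + 4 + 1)
  refine ⟨e, he0, C₁ * (C + 1), fun m L hm hL A hA hAP hcard => ?_⟩
  rw [pow_mul] at hL ⊢
  have hm1 := hC₁ m hm
  generalize m ^ C₁ = m₁ at *
  have hr0 : (0 : ℝ) ≤ (r + 1 : ℕ) / e := by positivity
  have hb1 : 0 < b⁻¹ := inv_pos.2 hb0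
  have ham : 0 ≤ 6 * u ^ (r + 4) * m ^ (r + 4 + 1) := by positivity
  have hm2 : 6 * u ^ (r + 4) * m ^ (r + 4 + 1) + (b⁻¹ + ((r + 1 : ℕ) / e + n₀ + 2)) ≤ m₁ := by
    refine le_trans ?_ hm1
    rw [add_mul (6 * u ^ (r + 4))]
    exact add_le_add le_rfl (le_mul_of_one_le_right (by positivity) (one_le_pow₀ (by linarith)))
  have hm3 : 2 ≤ m₁ := by linarith
  have hpC : m₁ ^ C ≤ m₁ ^ (C + 1) := pow_le_pow_right₀ (by linarith) (by omega)
  have hpC' : m₁ ≤ m₁ ^ (C + 1) := le_self_pow₀ (by linarith) (by omega)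
  have hLn : (n₀ : ℝ) ≤ L := by linarith [Real.add_one_le_exp (m₁ ^ (C + 1))]
  have hL0 : (0 : ℝ) < L := by linarith
  have hL0' : 0 < L := by exact_mod_cast hL0
  obtain ⟨l, hl1, hT, hl3, hW2⟩ := hn₀ L hLn
  obtain ⟨Wc, hWc⟩ : ∃ Wc : ℝ,
    Wc = ((L + 2 * ((r + 3) * ((r + 3) * l)) : ℕ) : ℝ) ^ Fintype.card ι := ⟨_, rfl⟩
  have hLD : (0 : ℝ) < (L : ℝ) ^ Fintype.card ι := by positivity
  have hW1 : (L : ℝ) ^ Fintype.card ι ≤ Wc :=
    hWc ▸ pow_le_pow_left₀ hL0.le (by exact_mod_cast Nat.le_add_right _ _) _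
  rw [← hWc] at hW2
  have hW0 : 0 < Wc := hLD.trans_le hW1
  have hA0 : (0 : ℝ) < A.card := lt_of_lt_of_le (by positivity) hcard
  have hAL : (A.card : ℝ) ≤ (L : ℝ) ^ Fintype.card ι := by
    exact_mod_cast (Finset.card_le_card hA).trans (card_cube L).le
  have hα : Wc ≤ Real.exp (m + 1) * A.card := by
    have h1 : (L : ℝ) ^ Fintype.card ι ≤ Real.exp m * A.card := by
      rw [Real.exp_neg, inv_mul_le_iff₀ (Real.exp_pos _)] at hcard; exact hcard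
    have h2 : 1 + e ≤ Real.exp 1 := by linarith [Real.add_one_le_exp (1 : ℝ)]
    calc Wc ≤ Real.exp 1 * (Real.exp m * A.card) :=
          hW2.trans (mul_le_mul h2 h1 hLD.le (Real.exp_pos _).le)
      _ = _ := by rw [Real.exp_add]; ring
  obtain ⟨q, hq0, hM, hq2⟩ := hu m hm
  obtain ⟨w, t, g, ht, hg1, hg2, hw, hex⟩ := stepB r hl1 hT hA
    (Finset.card_pos.1 (by exact_mod_cast hA0)) hAP (R' := 1 + 8 * e) hq0 (by linarith) hM hγ hWc hα
    (by linarith) (by linarith)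
  have hα0 : 0 < (A.card : ℝ) / Wc := div_pos hA0 hW0
  have hα1 : (A.card : ℝ) / Wc ≤ 1 := (div_le_one hW0).2 (hAL.trans hW1)
  have hα2 : Real.exp (-(m + 1)) ≤ (A.card : ℝ) / Wc := by
    rw [le_div_iff₀ hW0, Real.exp_neg, inv_mul_le_iff₀ (Real.exp_pos _)]; exact hα
  have hα3 : (A.card : ℝ) / (L : ℝ) ^ Fintype.card ι ≤ (1 + e) * ((A.card : ℝ) / Wc) := by
    rw [← mul_div_assoc, div_le_div_iff₀ hLD hW0]
    linarith [mul_le_mul_of_nonneg_left hW2 hA0.le]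
  generalize (A.card : ℝ) / Wc = α at *
  have hsupp : ∀ (B : Finset (ι → ℤ)), B ⊆ cube ι L → ∀ v, v ∉ box ι (2 * L) →
      ind B (w + v) = 0 := fun B hB v hv =>
    if_neg fun h => hv (by simpa using hw _ (hB h))
  have hbox : ((box ι (2 * L)).card : ℝ)
      ≤ (10 * n₀) ^ Fintype.card ι * (l : ℝ) ^ Fintype.card ι := by
    rw [card_box50, ← mul_pow]; push_cast
    refine pow_le_pow_left₀ (by positivity) ?_ _
    have : (1 : ℝ) ≤ L := by exact_mod_cast hL0'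
    linarith
  have h4 := c0_exp (t := t) (e := r + 4) (m₁ := m₁) hb0 hu1 hm
    (le_trans (by exact_mod_cast ht) (pow_le_pow_left₀ (by positivity) hq2 _)) (by linarith)
  have h8 : 0 ≤ (1 + 8 * e) * α := by positivity
  have h9 : (1 + 8 * e) * α ≤ 2 := (mul_le_of_le_one_right (by linarith) hα1).trans (by linarith)
  obtain ⟨κ, hκ, hfin⟩ := hC m₁ (2 * L) hm3
    (((Real.exp_le_exp.2 hpC).trans hL).trans (by push_cast; linarith)) g
    (fun v => 1 / 2 * ind A (w + v)) (fun v => 1 / 2 * ((1 + 8 * e) * α * ind (cube ι L) (w + v)))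
    hg1 hg2 (fun v => by have := ind_in01 A (w + v); constructor <;> linarith [this.1, this.2])
    (fun v => by
      have := ind_in01 (cube ι L) (w + v)
      exact ⟨by have := mul_nonneg h8 this.1; linarith,
        by have := mul_le_of_le_one_right h8 this.2; linarith⟩)
    (fun v hv => by simp only [hsupp A hA v hv, mul_zero])
    (fun v hv => by simp only [hsupp _ (Finset.Subset.refl _) v hv, mul_zero])
    (by
      simp only [← mul_sub, mul_left_comm _ (1 / 2 : ℝ), ← Finset.mul_sum]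
      refine le_trans ?_ (mul_le_mul_of_nonneg_left hex (by norm_num))
      have h6 : Real.exp (-(m + 1)) ^ (t + 1) ≤ α ^ (t + 1) :=
        pow_le_pow_left₀ (Real.exp_pos _).le hα2 _
      calc Real.exp (-m₁) * ((box ι (2 * L)).card : ℝ) ^ (r + 1 + 1)
          ≤ (b * Real.exp (-(m + 1)) ^ (t + 2))
            * ((10 * n₀) ^ Fintype.card ι * (l : ℝ) ^ Fintype.card ι) ^ (r + 2) :=
            mul_le_mul h4 (pow_le_pow_left₀ (by positivity) hbox _) (by positivity) (by positivity)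
        _ = 12 * e * Real.exp (-(m + 1)) * ((l : ℝ) ^ Fintype.card ι) ^ (r + 2)
            * Real.exp (-(m + 1)) ^ (t + 1) := by
            rw [hb, mul_pow ((10 * n₀ : ℝ) ^ Fintype.card ι)]; field_simp; ring
        _ ≤ 12 * e * Real.exp (-(m + 1)) * ((l : ℝ) ^ Fintype.card ι) ^ (r + 2) * α ^ (t + 1) :=
            mul_le_mul_of_nonneg_left h6 (by positivity)
        _ = _ := by rw [Real.exp_neg, he]; field_simp; ring)
  obtain ⟨h7, hres⟩ := c0_back hL0' hA hw (S.bdd hκ) (Real.exp_pos _) (by positivity)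
    (c0_lam (n := r + 1) he0 (by linarith) hm3 (by linarith) hα0.le hα3) hfin
  have hC2 : 2 ≤ m₁ ^ C := by
    rcases Nat.eq_zero_or_pos C with h0 | h0
    · exfalso
      rw [h0, pow_zero, Real.exp_neg] at h7
      have := inv_anti₀ (Real.exp_pos _) Real.exp_one_lt_three.le
      linarith
    · exact hm3.trans (le_self_pow₀ (by linarith) h0.ne')
  exact ⟨fun v => κ (v + -w), S.mono (by omega) hC2 hpC (S.shift _ hκ),
    le_trans (mul_le_mul_of_nonneg_right (Real.exp_le_exp.2 (by linarith)) hLD.le) hres⟩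

/-- **(C0)** `RAT → GINC`. -/
theorem ginc_of_rat [Nonempty ι] (S : WinSys (ι → ℤ)) {k : ℕ} (hk : 3 ≤ k) (h : RAT S (k - 2)) :
    GINC S k := by
  obtain ⟨r, rfl⟩ := Nat.exists_eq_add_of_le' hk
  exact ginc_of_rat' S r h

end Crest.Agent.T49.Rat
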