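import Crest.Agent.T49.FibDefs_59

/-! Row 49, fibre theorem: the leaf PRUNE (pruning to significant frequencies). -/

set_option autoImplicit false

namespace Crest.Agent.T49.Fib
open Finset
open scoped Pointwise

namespace Pr81
variable {G : Type} [AddCommGroup G] [Fintype G] [DecidableEq G]

omit [DecidableEq G] in
lemma conj_char (ξ : AddChar G ℂ) (x : G) : (starRingEnd ℂ) (ξ x) = ξ (-x) := by
  rw [AddChar.map_neg_eq_inv, ← Complex.inv_eq_conj (norm_char ξ x)]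

/-- Parseval for an indicator function. -/
lemma parseval (B : Finset G) :
    ∑ ξ : AddChar G ℂ, ‖∑ x ∈ B, ξ x‖ ^ 2 = (Fintype.card G : ℝ) * #B := by
  have h : ∀ ξ : AddChar G ℂ, ((‖∑ x ∈ B, ξ x‖ ^ 2 : ℝ) : ℂ) = ∑ x ∈ B, ∑ y ∈ B, ξ (x - y) := by
    intro ξ
    rw [← Complex.normSq_eq_norm_sq, ← Complex.mul_conj, map_sum, sum_mul_sum]
    refine sum_congr rfl fun x _ => sum_congr rfl fun y _ => ?_
    rw [conj_char, ← AddChar.map_add_eq_mul, sub_eq_add_neg]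
  have h2 : ((∑ ξ : AddChar G ℂ, ‖∑ x ∈ B, ξ x‖ ^ 2 : ℝ) : ℂ) =
      (((Fintype.card G : ℝ) * #B : ℝ) : ℂ) := by
    rw [Complex.ofReal_sum]
    simp_rw [h]
    rw [sum_comm]
    have : ∀ x ∈ B, ∑ ξ : AddChar G ℂ, ∑ y ∈ B, ξ (x - y) = (Fintype.card G : ℂ) := by
      intro x hx
      rw [sum_comm]
      simp_rw [AddChar.sum_apply_eq_ite, sub_eq_zero]
      rw [sum_ite_eq]; simp [hx]
    rw [sum_congr rfl this]; simp [mul_comm]
  exact_mod_cast h2

omit [Fintype G] in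
/-- An almost period of `S` is almost annihilated by the large spectrum of `S`. -/
lemma inv_char [Finite G] {S : Finset G} {κ : ℝ} {t : G} (h : Inv κ S t) (ξ : AddChar G ℂ) :
    ‖ξ t - 1‖ * ‖∑ s ∈ S, ξ s‖ ≤ 2 * κ * #S := by
  have := Fintype.ofFinite G
  have e1 : ∑ c ∈ S, ξ (t + c) = ∑ c ∈ t +ᵥ S, ξ c := by
    rw [Finset.vadd_finset_def, Finset.sum_image (fun x _ y _ hxy => by simpa using hxy)]
    rfl
  have e2 := Finset.sum_sdiff_sub_sum_sdiff (s₁ := S) (s₂ := t +ᵥ S) (f := fun c => ξ c)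
  have c1 : #((t +ᵥ S) \ S) = #(S \ (t +ᵥ S)) :=
    Finset.card_sdiff_comm (Finset.card_vadd_finset t S)
  have b : ∀ s : Finset G, ‖∑ c ∈ s, ξ c‖ ≤ #s := fun s =>
    (norm_sum_le _ _).trans (by simp)
  have e3 : (ξ t - 1) * ∑ s ∈ S, ξ s = ∑ c ∈ S, ξ (t + c) - ∑ c ∈ S, ξ c := by
    rw [sub_mul, one_mul, mul_sum]; simp_rw [AddChar.map_add_eq_mul]
  rw [← norm_mul, e3, e1, ← e2]
  have b1 := b ((t +ᵥ S) \ S)
  have b2 := b (S \ (t +ᵥ S))
  rw [c1] at b1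
  unfold Inv at h
  refine (norm_sub_le _ _).trans ?_
  linarith

omit [DecidableEq G] in
lemma norm_add_apply (ξ η : AddChar G ℂ) (t : G) :
    ‖(ξ + η) t - 1‖ ≤ ‖ξ t - 1‖ + ‖η t - 1‖ := by
  have : (ξ + η) t - 1 = (ξ t - 1) + ξ t * (η t - 1) := by rw [AddChar.add_apply]; ring
  rw [this]
  refine (norm_add_le _ _).trans ?_
  rw [norm_mul, norm_char, one_mul]

omit [DecidableEq G] in
lemma norm_sum_apply {ι : Type} (A : Finset ι) (f : ι → AddChar G ℂ) (t : G) :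
    ‖(∑ i ∈ A, f i) t - 1‖ ≤ ∑ i ∈ A, ‖f i t - 1‖ := by
  classical
  induction A using Finset.induction_on with
  | empty => simp
  | insert a s ha ih =>
    rw [sum_insert ha, sum_insert ha]
    exact (norm_add_apply _ _ _).trans (by linarith)

/-- A dissociated set of characters, all almost trivial on `T`, is small. -/
lemma dissoc_bound {T : Finset G} {Δ : Finset (AddChar G ℂ)} {τ : ℝ}
    (hd : AddDissociated (Δ : Set (AddChar G ℂ))) (hτ : ∀ ξ ∈ Δ, ∀ t ∈ T, ‖ξ t - 1‖ ≤ τ)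
    (h0 : 0 ≤ τ) (hn : #Δ * τ ≤ 1 / 2) (hT : T.Nonempty) :
    (2 : ℝ) ^ #Δ * #T ≤ 4 * Fintype.card G := by
  classical
  have hTp : (0 : ℝ) < #T := by exact_mod_cast hT.card_pos
  have key : ∀ A ∈ Δ.powerset, ((#T : ℝ) / 2) ^ 2 ≤ ‖∑ t ∈ T, (∑ ξ ∈ A, ξ) t‖ ^ 2 := by
    intro A hA
    have hA' := mem_powerset.1 hA
    have h1 : ∀ t ∈ T, ‖(∑ ξ ∈ A, ξ) t - 1‖ ≤ 1 / 2 := by
      intro t ht
      refine (norm_sum_apply A (fun ξ => ξ) t).trans ?_
      refine (sum_le_card_nsmul A _ τ fun ξ hξ => hτ ξ (hA' hξ) t ht).trans ?_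
      have : (#A : ℝ) ≤ #Δ := by exact_mod_cast card_le_card hA'
      rw [nsmul_eq_mul]; nlinarith
    have h2 : ‖∑ t ∈ T, ((∑ ξ ∈ A, ξ) t - 1)‖ ≤ #T * (1 / 2) :=
      (norm_sum_le _ _).trans (by simpa using sum_le_card_nsmul T _ _ h1)
    rw [sum_sub_distrib, sum_const, nsmul_eq_mul, mul_one] at h2
    have h3 := norm_sub_norm_le ((#T : ℂ)) (∑ t ∈ T, (∑ ξ ∈ A, ξ) t)
    rw [norm_sub_rev, Complex.norm_natCast] at h3
    exact pow_le_pow_left₀ (by positivity) (by linarith) 2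
  have hinj : Set.InjOn (fun A : Finset (AddChar G ℂ) => ∑ ξ ∈ A, ξ) (Δ.powerset : Set _) := by
    intro A hA A' hA' h
    exact hd (by simpa using hA) (by simpa using hA') h
  have h4 : ∑ A ∈ Δ.powerset, ‖∑ t ∈ T, (∑ ξ ∈ A, ξ) t‖ ^ 2 ≤
      ∑ η : AddChar G ℂ, ‖∑ t ∈ T, η t‖ ^ 2 := by
    rw [← sum_image (f := fun η : AddChar G ℂ => ‖∑ t ∈ T, η t‖ ^ 2) hinj]
    exact sum_le_sum_of_subset_of_nonneg (subset_univ _) fun _ _ _ => by positivity
  have h5 := card_nsmul_le_sum _ _ _ key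
  rw [card_powerset, nsmul_eq_mul] at h5
  rw [parseval] at h4
  replace h5 := h5.trans h4
  push_cast at h5
  have h6 : (2 : ℝ) ^ #Δ * #T * #T ≤ 4 * Fintype.card G * #T := by nlinarith
  exact le_of_mul_le_mul_right h6 hTp

omit [DecidableEq G] in
lemma span_bound [DecidableEq (AddChar G ℂ)] {Λ : Finset (AddChar G ℂ)} {ξ : AddChar G ℂ}
    (h : ξ ∈ addSpan Λ) {t : G} {ρ : ℝ} (h0 : 0 ≤ ρ) (ht : ∀ γ ∈ Λ, ‖γ t - 1‖ ≤ ρ) :
    ‖ξ t - 1‖ ≤ #Λ * ρ := by
  obtain ⟨ε, hε, rfl⟩ := mem_addSpan.1 h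
  refine (norm_sum_apply Λ _ t).trans ?_
  refine (sum_le_card_nsmul Λ _ ρ fun γ hγ => ?_).trans (by rw [nsmul_eq_mul])
  rcases hε γ with e | e | e <;> rw [e]
  · rw [neg_smul, one_smul, AddChar.neg_apply, norm_char_neg]; exact ht γ hγ
  · simpa using h0
  · rw [one_smul]; exact ht γ hγ

/-- Fourier inversion. -/
lemma inversion (F : G → ℝ) (x : G) :
    (Fintype.card G : ℂ) * F x = ∑ ξ : AddChar G ℂ, (∑ u, (F u : ℂ) * ξ u) * ξ (-x) := by
  simp_rw [sum_mul, mul_assoc, ← AddChar.map_add_eq_mul]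
  rw [sum_comm]
  simp_rw [← mul_sum, AddChar.sum_apply_eq_ite, add_neg_eq_zero, mul_ite, mul_zero]
  rw [sum_ite_eq']; simp [mul_comm]

/-- The triple sum. -/
noncomputable def tri (B S : Finset G) (F : G → ℝ) (u : G) : ℝ :=
  ∑ a ∈ B, ∑ b ∈ B, ∑ s ∈ S, F (u + b - a + s)

lemma tri_fourier (B S : Finset G) (F : G → ℝ) (u : G) :
    (Fintype.card G : ℂ) * tri B S F u = ∑ ξ : AddChar G ℂ, (∑ u, (F u : ℂ) * ξ u) * ξ (-u) *
      ((∑ a ∈ B, ξ a) * (starRingEnd ℂ) (∑ a ∈ B, ξ a) * (starRingEnd ℂ) (∑ s ∈ S, ξ s)) := by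
  have key : ∀ (ξ : AddChar G ℂ) (c : ℂ), c * ξ (-u) *
      ((∑ a ∈ B, ξ a) * (starRingEnd ℂ) (∑ a ∈ B, ξ a) * (starRingEnd ℂ) (∑ s ∈ S, ξ s)) =
      ∑ a ∈ B, ∑ b ∈ B, ∑ s ∈ S, c * ξ (-(u + b - a + s)) := by
    intro ξ c
    simp_rw [map_sum, conj_char]
    rw [sum_mul_sum, sum_mul, mul_sum]
    refine sum_congr rfl fun a _ => ?_
    rw [sum_mul_sum, mul_sum]
    refine sum_congr rfl fun b _ => ?_
    rw [mul_sum]
    refine sum_congr rfl fun s _ => ?_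
    have : -(u + b - a + s) = -u + (a + -b + -s) := by abel
    rw [this]; simp_rw [AddChar.map_add_eq_mul]; ring
  simp_rw [key]
  unfold tri
  push_cast
  simp_rw [mul_sum, inversion]
  symm
  rw [sum_comm]
  refine sum_congr rfl fun a _ => ?_
  rw [sum_comm]
  refine sum_congr rfl fun b _ => ?_
  rw [sum_comm]

/-- Shifting the triple sum. -/
lemma tri_shift (B S : Finset G) (F : G → ℝ) (u t : G) {ε : ℝ}
    (h : ∀ ξ : AddChar G ℂ, ‖∑ u, (F u : ℂ) * ξ u‖ * ‖ξ t - 1‖ * ‖∑ s ∈ S, ξ s‖ ≤ ε) :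
    |tri B S F (u + t) - tri B S F u| ≤ ε * #B := by
  have hG : (0 : ℝ) < Fintype.card G := by exact_mod_cast Fintype.card_pos
  have e : (Fintype.card G : ℂ) * ((tri B S F (u + t) - tri B S F u : ℝ) : ℂ) =
      ∑ ξ : AddChar G ℂ, (∑ u, (F u : ℂ) * ξ u) * (ξ (-u) * (ξ (-t) - 1)) *
      ((∑ a ∈ B, ξ a) * (starRingEnd ℂ) (∑ a ∈ B, ξ a) * (starRingEnd ℂ) (∑ s ∈ S, ξ s)) := by
    rw [Complex.ofReal_sub, mul_sub, tri_fourier, tri_fourier, ← sum_sub_distrib]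
    refine sum_congr rfl fun ξ _ => ?_
    rw [neg_add, AddChar.map_add_eq_mul]; ring
  have h2 : (Fintype.card G : ℝ) * |tri B S F (u + t) - tri B S F u| ≤
      ∑ ξ : AddChar G ℂ, ε * ‖∑ a ∈ B, ξ a‖ ^ 2 := by
    have := congrArg (fun z : ℂ => ‖z‖) e
    simp only [norm_mul, Complex.norm_natCast, Complex.norm_real, Real.norm_eq_abs] at this
    rw [this]
    refine (norm_sum_le _ _).trans (sum_le_sum fun ξ _ => ?_)
    simp only [norm_mul, Complex.norm_conj, norm_char, norm_char_neg, one_mul]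
    have := mul_le_mul_of_nonneg_right (h ξ) (sq_nonneg ‖∑ a ∈ B, ξ a‖)
    refine le_trans (le_of_eq ?_) this
    ring
  rw [← mul_sum, parseval] at h2
  have h3 : (Fintype.card G : ℝ) * |tri B S F (u + t) - tri B S F u| ≤
      (Fintype.card G : ℝ) * (ε * #B) := by linarith
  exact le_of_mul_le_mul_left h3 hG

/-- The abstract core: a small set of significant frequencies controls the triple sum. -/
lemma core (B S T : Finset G) (F : G → ℝ) (hF : ∀ x, |F x| ≤ 1) {δ κ : ℝ} (n : ℕ) (hδ : 0 < δ)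
    (hκ : 0 ≤ κ) (hS : S.Nonempty) (hT : T.Nonempty) (hinv : ∀ t ∈ T, Inv κ S t)
    (hn : 4 * n * κ ≤ δ) (hbig : 4 * (Fintype.card G : ℝ) < 2 ^ n * #T) :
    ∃ Λ : Finset (AddChar G ℂ), #Λ ≤ n ∧
      (∀ ξ ∈ Λ, δ * (Fintype.card G : ℝ) ≤ ‖∑ u, (F u : ℂ) * ξ u‖) ∧
      ∀ (u t : G) (ρ : ℝ), 0 ≤ ρ → n * ρ ≤ 2 * δ → (∀ ξ ∈ Λ, ‖ξ t - 1‖ ≤ ρ) →
        |tri B S F (u + t) - tri B S F u| ≤ 2 * δ * Fintype.card G * #S * #B := by
  classical
  have hSp : (0 : ℝ) < #S := by exact_mod_cast hS.card_pos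
  have hG : (0 : ℝ) < Fintype.card G := by exact_mod_cast Fintype.card_pos
  set Ξ : Finset (AddChar G ℂ) := univ.filter fun ξ =>
    δ * (Fintype.card G : ℝ) ≤ ‖∑ u, (F u : ℂ) * ξ u‖ ∧ δ * #S ≤ ‖∑ s ∈ S, ξ s‖ with hΞ
  have hdis : ∀ Δ, Δ ⊆ Ξ → AddDissociated (Δ : Set (AddChar G ℂ)) → #Δ ≤ n := by
    intro Δ hΔ hd
    by_contra hc
    obtain ⟨Δ', hΔ', hc'⟩ := exists_subset_card_eq (s := Δ) (n := n) (by omega)
    have h1 := dissoc_bound (T := T) (Δ := Δ') (τ := 2 * κ / δ)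
      (hd.subset (by exact_mod_cast hΔ')) (fun ξ hξ t ht => by
        have a1 := inv_char (hinv t ht) ξ
        have a2 := (mem_filter.1 (hΔ (hΔ' hξ))).2.2
        rw [le_div_iff₀ hδ]
        have a3 : ‖ξ t - 1‖ * δ * #S ≤ 2 * κ * #S := by
          have := mul_le_mul_of_nonneg_left a2 (norm_nonneg (ξ t - 1))
          linarith
        exact le_of_mul_le_mul_right a3 hSp) (by positivity) (by
        rw [hc', ← mul_div_assoc, div_le_iff₀ hδ]; linarith) hT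
    rw [hc'] at h1
    linarith
  obtain ⟨Λ, hΛ, hc, hsp⟩ := exists_subset_addSpan_card_le_of_forall_addDissociated hdis
  refine ⟨Λ, hc, fun ξ hξ => (mem_filter.1 (hΛ hξ)).2.1, fun u t ρ h0 hρ ht => ?_⟩
  apply tri_shift
  intro ξ
  have b1 : ‖∑ u, (F u : ℂ) * ξ u‖ ≤ Fintype.card G := by
    refine (norm_sum_le _ _).trans ?_
    refine (sum_le_card_nsmul univ _ 1 fun x _ => ?_).trans (by simp)
    rw [norm_mul, norm_char, mul_one, Complex.norm_real]; exact hF x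
  have b2 : ‖∑ s ∈ S, ξ s‖ ≤ #S := (norm_sum_le _ _).trans (by simp)
  have b3 : ‖ξ t - 1‖ ≤ 2 := (norm_sub_le _ _).trans (by rw [norm_char]; norm_num)
  by_cases hξ : ξ ∈ Ξ
  · have b4 := span_bound (hsp hξ) h0 ht
    have b5 : (#Λ : ℝ) ≤ n := by exact_mod_cast hc
    have b6 : ‖ξ t - 1‖ ≤ 2 * δ := by nlinarith
    calc _ ≤ (Fintype.card G : ℝ) * (2 * δ) * #S := by gcongr
      _ = _ := by ring
  · rw [hΞ, mem_filter] at hξ
    by_cases h1 : δ * (Fintype.card G : ℝ) ≤ ‖∑ u, (F u : ℂ) * ξ u‖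
    · have h2 : ‖∑ s ∈ S, ξ s‖ ≤ δ * #S := le_of_not_ge fun h2 => hξ ⟨mem_univ _, h1, h2⟩
      calc _ ≤ (Fintype.card G : ℝ) * 2 * (δ * #S) := by gcongr
        _ = _ := by ring
    · have h2 := (not_le.1 h1).le
      calc _ ≤ (δ * Fintype.card G : ℝ) * 2 * #S := by gcongr
        _ = _ := by ring

omit [Fintype G] [DecidableEq G] in
lemma av_tri (B S : Finset G) (F : G → ℝ) (u : G) :
    (av B fun a => av B fun b => av S fun s => F (u + b - a + s)) =
      tri B S F u / (#S * #B * #B) := by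
  unfold av tri
  simp only [← sum_div]
  rw [div_div, div_div, mul_assoc]

omit [Fintype G] in
lemma shift_av {B S : Finset G} (hB : B.Nonempty) (hS : S.Nonempty) {κ : ℝ}
    (hinv : ∀ s ∈ S, Inv κ B s) {P : G → ℝ} (hP : Un P) (u : G) :
    |(av B fun a => av B fun b => av S fun s => P (u + b - a + s)) -
      av B fun a => av B fun b => P (u + b - a)| ≤ κ := by
  have key : ∀ a, ∀ s ∈ S, |(av B fun b => P (u + b - a + s)) - av B fun b => P (u + b - a)| ≤ κ := by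
    intro a s hs
    have := (hinv s hs).av_shift hB (f := fun c => P (u + c - a)) fun c => hP _
    refine le_trans (le_of_eq ?_) this
    congr 3
    funext b
    congr 1; abel
  rw [← av_sub, abs_le]
  constructor
  · refine le_av hB fun a _ => ?_
    rw [av_comm, le_sub_iff_add_le]
    refine le_av hS fun s hs => ?_
    linarith [(abs_le.1 (key a s hs)).1]
  · refine av_le hB fun a _ => ?_
    rw [av_comm, sub_le_iff_le_add]
    refine av_le hS fun s hs => ?_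
    linarith [(abs_le.1 (key a s hs)).2]

/-- The statement with abstract parameters. -/
lemma semi {B S T : Finset G} {P Q : G → ℝ} {u₀ : G} {κ α v δ κ' ρ : ℝ} (n : ℕ)
    (hB : B.Nonempty) (hS : S.Nonempty) (hT : T.Nonempty) (hinv : ∀ s ∈ S, Inv κ B s)
    (hP : Un P) (hQ : Un Q) (hα : 0 ≤ α) (hα1 : α ≤ 1) (hκ : κ ≤ v / 8)
    (hmain : α * (av B fun a => av B fun b => Q (u₀ + b - a)) + v ≤
      (av B fun a => av B fun b => P (u₀ + b - a)))
    (hδ : 0 < δ) (hκ' : 0 ≤ κ') (hinv' : ∀ t ∈ T, Inv κ' S t) (hn : 4 * n * κ' ≤ δ)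
    (hbig : 4 * (Fintype.card G : ℝ) < 2 ^ n * #T) (hdens : 4 * δ * Fintype.card G ≤ v * #B)
    (hρ0 : 0 ≤ ρ) (hρ : n * ρ ≤ 2 * δ) :
    ∃ Λ : Finset (AddChar G ℂ), #Λ ≤ n ∧
      (∀ ξ ∈ Λ, δ / 2 * (Fintype.card G : ℝ) ≤ ‖∑ u, (P u : ℂ) * ξ u‖ ∨
        δ / 2 * (Fintype.card G : ℝ) ≤ ‖∑ u, (Q u : ℂ) * ξ u‖) ∧
      ∀ ν : G → ℝ, (∀ t, 0 ≤ ν t) → (∀ t, ν t ≠ 0 → ∀ ξ ∈ Λ, ‖ξ t - 1‖ ≤ ρ) →
        ∃ u₁, α * ∑ t, ν t * Q (u₁ + t) + v / 4 * ∑ t, ν t ≤ ∑ t, ν t * P (u₁ + t) := by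
  have hSp : (0 : ℝ) < #S := by exact_mod_cast hS.card_pos
  have hBp : (0 : ℝ) < #B := by exact_mod_cast hB.card_pos
  set F : G → ℝ := fun x => P x - α * Q x with hFd
  have hF : ∀ x, |F x| ≤ 1 := fun x => by
    have h1 := hP x
    have h2 := hQ x
    have h3 : 0 ≤ α * Q x := mul_nonneg hα h2.1
    have h4 : α * Q x ≤ 1 := mul_le_one₀ hα1 h2.1 h2.2
    rw [abs_le]; constructor <;> simp only [hFd] <;> linarith [h1.1, h1.2]
  obtain ⟨Λ, hc, hsig, hsh⟩ := core B S T F hF n hδ hκ' hS hT hinv' hn hbig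
  refine ⟨Λ, hc, fun ξ hξ => ?_, fun ν hν hsupp => ?_⟩
  · have h1 := hsig ξ hξ
    have e : ∑ u, (F u : ℂ) * ξ u = ∑ u, (P u : ℂ) * ξ u - (α : ℂ) * ∑ u, (Q u : ℂ) * ξ u := by
      rw [mul_sum, ← sum_sub_distrib]
      refine sum_congr rfl fun x _ => ?_
      simp only [hFd]; push_cast; ring
    rw [e] at h1
    have h2 := norm_sub_le (∑ u, (P u : ℂ) * ξ u) ((α : ℂ) * ∑ u, (Q u : ℂ) * ξ u)
    rw [norm_mul, Complex.norm_real, Real.norm_eq_abs, abs_of_nonneg hα] at h2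
    have h3 := mul_le_mul_of_nonneg_right hα1 (norm_nonneg (∑ u, (Q u : ℂ) * ξ u))
    by_contra hcon
    push Not at hcon
    linarith [hcon.1, hcon.2]
  · set Φ : G → ℝ := fun u => av B fun a => av B fun b => av S fun s => F (u + b - a + s) with hΦ
    have hκ0 : 0 ≤ κ := by
      obtain ⟨s, hs⟩ := hS
      have := hinv s hs
      unfold Inv at this
      have h0 : (0 : ℝ) ≤ κ * #B := le_trans (Nat.cast_nonneg _) this
      exact nonneg_of_mul_nonneg_left h0 hBp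
    have h0 : 3 * v / 4 ≤ Φ u₀ := by
      have e : Φ u₀ = (av B fun a => av B fun b => av S fun s => P (u₀ + b - a + s)) -
          α * (av B fun a => av B fun b => av S fun s => Q (u₀ + b - a + s)) := by
        simp only [hΦ, hFd, av_sub, av_mul_left]
      have h1 := (abs_le.1 (shift_av hB hS hinv hP u₀)).1
      have h2 := (abs_le.1 (shift_av hB hS hinv hQ u₀)).2
      have h3 := mul_le_mul_of_nonneg_left h2 hα
      have h4 := mul_le_mul_of_nonneg_right hα1 hκ0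
      rw [e]; linarith
    have h1 : ∀ t, ν t ≠ 0 → v / 4 ≤ Φ (u₀ + t) := by
      intro t ht
      have h2 := hsh u₀ t ρ hρ0 hρ (hsupp t ht)
      have h3 : |Φ (u₀ + t) - Φ u₀| ≤ v / 2 := by
        simp only [hΦ]
        rw [av_tri, av_tri, ← sub_div, abs_div, abs_of_pos (by positivity : (0 : ℝ) < #S * #B * #B),
          div_le_iff₀ (by positivity)]
        refine h2.trans ?_
        have := mul_le_mul_of_nonneg_right hdens (by positivity : (0 : ℝ) ≤ #S * #B)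
        linarith
      linarith [(abs_le.1 h3).1]
    have h2 : v / 4 * ∑ t, ν t ≤ ∑ t, ν t * Φ (u₀ + t) := by
      rw [mul_sum]
      refine sum_le_sum fun t _ => ?_
      by_cases ht : ν t = 0
      · simp [ht]
      · rw [mul_comm]; exact mul_le_mul_of_nonneg_left (h1 t ht) (hν t)
    have h3 : ∑ t, ν t * Φ (u₀ + t) = av B fun a => av B fun b => av S fun s =>
        ∑ t, ν t * F (u₀ + t + b - a + s) := by
      simp only [hΦ, ← av_mul_left, sum_av]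
    rw [h3] at h2
    obtain ⟨a, -, ha⟩ := exists_av_le hB fun a => av B fun b => av S fun s =>
        ∑ t, ν t * F (u₀ + t + b - a + s)
    obtain ⟨b, -, hb⟩ := exists_av_le hB fun b => av S fun s => ∑ t, ν t * F (u₀ + t + b - a + s)
    obtain ⟨s, -, hs⟩ := exists_av_le hS fun s => ∑ t, ν t * F (u₀ + t + b - a + s)
    refine ⟨u₀ + b - a + s, ?_⟩
    have e : ∑ t, ν t * F (u₀ + t + b - a + s) = ∑ t, ν t * P (u₀ + b - a + s + t) -
        α * ∑ t, ν t * Q (u₀ + b - a + s + t) := by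
      rw [mul_sum, ← sum_sub_distrib]
      refine sum_congr rfl fun t _ => ?_
      have : u₀ + t + b - a + s = u₀ + b - a + s + t := by abel
      simp only [hFd, this]; ring
    linarith

lemma exp_ge_two_pow (k : ℕ) : (2 : ℝ) ^ k ≤ Real.exp k := by
  rw [← Real.exp_one_pow]
  exact pow_le_pow_left₀ (by norm_num) (by linarith [Real.add_one_le_exp 1]) k

lemma exp_half_le (n : ℕ) : Real.exp (n / 2) ≤ 2 ^ n := by
  have h : Real.exp (1 / 2) ≤ 2 := by
    have h1 : Real.exp (1 / 2) ^ 2 = Real.exp 1 := by rw [← Real.exp_nat_mul]; norm_num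
    have h2 := Real.exp_one_lt_d9
    nlinarith [Real.exp_pos (1 / 2)]
  have : Real.exp (n / 2) = Real.exp (1 / 2) ^ n := by rw [← Real.exp_nat_mul]; congr 1; ring
  rw [this]
  exact pow_le_pow_left₀ (Real.exp_pos _).le h n

omit [DecidableEq G] in
/-- Density of a Bohr set in exponential form. -/
lemma dens (Γ : Finset (AddChar G ℂ)) {m E ρ : ℝ} (hΓ : (#Γ : ℝ) ≤ m) (hE : 0 ≤ E)
    (h : Real.exp (-E) ≤ ρ) (h1 : ρ ≤ 1) :
    Real.exp (-((E + 3) * m)) * Fintype.card G ≤ #(bohr Γ ρ) := by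
  have h0 : 0 < ρ := (Real.exp_pos _).trans_le h
  refine le_trans ?_ (card_bohr_ge Γ h0 h1)
  have h8 : (8 : ℝ) ≤ Real.exp 3 := by have := exp_ge_two_pow 3; norm_num at this; exact this
  have h2 : Real.exp (-(E + 3)) ≤ ρ / 8 := by
    rw [neg_add, Real.exp_add, Real.exp_neg 3, ← div_eq_mul_inv]
    gcongr
  have h3 : Real.exp (-((E + 3) * m)) ≤ (ρ / 8) ^ #Γ := by
    refine le_trans ?_ (pow_le_pow_left₀ (Real.exp_pos _).le h2 _)
    rw [← Real.exp_nat_mul]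
    apply Real.exp_le_exp.2
    nlinarith
  gcongr

end Pr81

set_option maxHeartbeats 1000000 in
open Pr81 in
theorem pruneStmt : PruneStmt := by
  refine ⟨9, ?_⟩
  intro G _ _ _ m Γ B σ κ α v P Q u₀ hm hΓ hσ hσ1 hsub hinv hP hQ hα hα1 hv hκ hmain
  have hG : (0 : ℝ) < Fintype.card G := by exact_mod_cast Fintype.card_pos
  have hσ0 : 0 < σ := (Real.exp_pos _).trans_le hσ
  have hm0 : 0 < m := by linarith
  have hm2 : 2 * m ≤ m ^ 2 := by nlinarith
  have hm3 : 2 * m ^ 2 ≤ m ^ 3 := by nlinarith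
  have hm9 : 64 * m ^ 3 ≤ m ^ 9 := by
    have h1 : (2 : ℝ) ^ 6 ≤ m ^ 6 := pow_le_pow_left₀ (by norm_num) hm 6
    have h2 : m ^ 9 = m ^ 6 * m ^ 3 := by ring
    rw [h2]
    exact mul_le_mul_of_nonneg_right (by linarith) (by positivity)
  have e2 : (4 : ℝ) ≤ Real.exp 2 := by have := exp_ge_two_pow 2; norm_num at this; exact this
  have e4 : (16 : ℝ) ≤ Real.exp 4 := by have := exp_ge_two_pow 4; norm_num at this; exact this
  have e8 : (256 : ℝ) ≤ Real.exp 8 := by have := exp_ge_two_pow 8; norm_num at this; exact this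
  set δ := Real.exp (-(4 * m ^ 2)) with hδ
  set κ' := Real.exp (-(10 * m ^ 2)) with hκ'
  set η := Real.exp (-(15 * m ^ 2)) with hη
  set n₀ := ⌈34 * m ^ 3⌉₊ with hn₀
  set n := ⌈Real.exp (13 * m ^ 2)⌉₊ with hn
  have hδ0 : 0 < δ := Real.exp_pos _
  have hκ0 : 0 < κ' := Real.exp_pos _
  have hη0 : 0 < η := Real.exp_pos _
  have hη1 : η ≤ 1 := Real.exp_le_one_iff.2 (by nlinarith)
  have n0l : 34 * m ^ 3 ≤ n₀ := Nat.le_ceil _
  have n0u : (n₀ : ℝ) ≤ 35 * m ^ 3 := by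
    have := Nat.ceil_lt_add_one (a := 34 * m ^ 3) (by positivity)
    linarith
  have nl : Real.exp (13 * m ^ 2) ≤ n := Nat.le_ceil _
  have nu : (n : ℝ) ≤ 2 * Real.exp (13 * m ^ 2) := by
    have h1 := Nat.ceil_lt_add_one (a := Real.exp (13 * m ^ 2)) (Real.exp_pos _).le
    have h2 : 1 ≤ Real.exp (13 * m ^ 2) := Real.one_le_exp (by positivity)
    linarith
  have h4n : 4 * n₀ * κ' ≤ δ := by
    have h1 : m ^ 3 ≤ Real.exp (3 * m) := by
      have : Real.exp (3 * m) = Real.exp m ^ 3 := by rw [← Real.exp_nat_mul]; norm_num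
      rw [this]
      exact pow_le_pow_left₀ hm0.le (by linarith [Real.add_one_le_exp m]) 3
    have h2 : (4 * n₀ : ℝ) ≤ Real.exp 8 * Real.exp (3 * m) :=
      le_trans (by nlinarith [pow_pos hm0 3]) (mul_le_mul e8 h1 (by positivity) (by positivity))
    refine (mul_le_mul_of_nonneg_right h2 hκ0.le).trans ?_
    rw [← Real.exp_add, ← Real.exp_add]
    exact Real.exp_le_exp.2 (by linarith)
  obtain ⟨s, hs1, hs2, hs3⟩ := exists_reg Γ (κ := κ') (η := η) n hσ0 hσ1 hκ0.le hη0.le (by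
      have h1 : (n : ℝ) * η ≤ 2 * Real.exp (13 * m ^ 2) * η := by gcongr
      have h2 : Real.exp 2 * (Real.exp (13 * m ^ 2) * η) ≤ Real.exp (-m) := by
        rw [← Real.exp_add, ← Real.exp_add]; exact Real.exp_le_exp.2 (by linarith)
      have h3 : 4 * (Real.exp (13 * m ^ 2) * η) ≤ Real.exp 2 * (Real.exp (13 * m ^ 2) * η) := by
        gcongr
      linarith) (by
      have h1 : 16 / σ ≤ Real.exp (4 + m) := by
        rw [div_le_iff₀ hσ0]
        calc (16 : ℝ) ≤ Real.exp 4 := e4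
          _ = Real.exp (4 + m) * Real.exp (-m) := by rw [← Real.exp_add]; congr 1; ring
          _ ≤ _ := by gcongr
      have h2 : (16 / σ) ^ #Γ ≤ Real.exp (3 * m ^ 2) := by
        refine (pow_le_pow_left₀ (by positivity) h1 _).trans ?_
        rw [← Real.exp_nat_mul]
        exact Real.exp_le_exp.2 (by nlinarith)
      have h3 := one_add_mul_le_pow (a := κ') (by linarith) n
      have h4 : Real.exp (3 * m ^ 2) ≤ n * κ' := by
        refine le_trans (le_of_eq ?_) (mul_le_mul_of_nonneg_right nl hκ0.le)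
        rw [← Real.exp_add]; congr 1; ring
      linarith)
  have hs0 : 0 ≤ s := by linarith
  have hdB := (dens Γ hΓ hm0.le hσ hσ1).trans
    (show (#(bohr Γ σ) : ℝ) ≤ #B by exact_mod_cast card_le_card hsub)
  have hdT := dens Γ hΓ (E := 15 * m ^ 2) (by positivity) le_rfl hη1
  have hρ : Real.exp (-m ^ 9) ≤ κ' := Real.exp_le_exp.2 (by linarith)
  have hn1 : (1 : ℝ) ≤ n₀ := by linarith
  obtain ⟨Λ, hc, hsig, hfin⟩ := semi (B := B) (S := bohr Γ s) (T := bohr Γ η) (δ := δ) (κ' := κ')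
    (ρ := Real.exp (-m ^ 9)) n₀ ((bohr_nonempty Γ hσ0.le).mono hsub) (bohr_nonempty Γ hs0)
    (bohr_nonempty Γ hη0.le) (fun t ht => hinv t (bohr_mono subset_rfl (by linarith) ht))
    hP hQ hα hα1 hκ hmain hδ0 hκ0.le
    (fun t ht => inv_of_card_add (le_trans (by exact_mod_cast card_le_card (bohr_add_subset Γ s η))
      hs3) ht (zero_mem_bohr Γ hη0.le)) h4n
    (by
      have h1 : Real.exp 4 ≤ Real.exp (n₀ / 2) * Real.exp (-((15 * m ^ 2 + 3) * m)) := by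
        rw [← Real.exp_add]; exact Real.exp_le_exp.2 (by nlinarith)
      calc 4 * (Fintype.card G : ℝ) < Real.exp 4 * Fintype.card G := by gcongr; linarith
        _ ≤ Real.exp (n₀ / 2) * Real.exp (-((15 * m ^ 2 + 3) * m)) * Fintype.card G := by gcongr
        _ ≤ 2 ^ n₀ * #(bohr Γ η) := by
          rw [mul_assoc]
          exact mul_le_mul (exp_half_le n₀) hdT (by positivity) (by positivity))
    (by
      have h1 : Real.exp 2 * δ ≤ Real.exp (-m) * Real.exp (-((m + 3) * m)) := by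
        rw [← Real.exp_add, ← Real.exp_add]; exact Real.exp_le_exp.2 (by nlinarith)
      calc 4 * δ * (Fintype.card G : ℝ) ≤ Real.exp 2 * δ * Fintype.card G := by gcongr
        _ ≤ Real.exp (-m) * Real.exp (-((m + 3) * m)) * Fintype.card G := by gcongr
        _ ≤ v * #B := by
          rw [mul_assoc]
          exact mul_le_mul hv hdB (by positivity) ((Real.exp_pos _).le.trans hv))
    (Real.exp_pos _).le
    (by
      have := mul_le_mul_of_nonneg_left hρ (Nat.cast_nonneg (α := ℝ) n₀)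
      nlinarith)
  have hc' : (#Λ : ℝ) ≤ n₀ := by exact_mod_cast hc
  have hδ2 : Real.exp (-m ^ 9) * (Fintype.card G : ℝ) ≤ δ / 2 * Fintype.card G := by
    have : Real.exp (-m ^ 9) ≤ δ / 2 := by nlinarith
    gcongr
  refine ⟨Λ, by nlinarith [pow_pos hm0 3], fun ξ hξ => ?_, hfin⟩
  exact (hsig ξ hξ).imp hδ2.trans hδ2.trans

end Crest.Agent.T49.Fib
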