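import Crest.Agent.T49.FibDefs_59

/-! Row 49, fibre theorem: two-sided codegrees from upper tails (`TSStmt`). -/

set_option autoImplicit false

namespace Crest.Agent.T49.Fib
open Finset

namespace TS85

theorem sum_pow_expand {β ι : Type*} (B : Finset β) (s : Finset ι) (u v : β → ι → ℝ) (p : ℕ) :
    ∑ b ∈ B, ∑ a ∈ B, (∑ i ∈ s, u b i * v a i) ^ p =
      ∑ g ∈ Fintype.piFinset fun _ : Fin p => s,
        (∑ b ∈ B, ∏ j, u b (g j)) * ∑ a ∈ B, ∏ j, v a (g j) := by
  classical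
  have e : ∀ b a, (∑ i ∈ s, u b i * v a i) ^ p =
      ∑ g ∈ Fintype.piFinset fun _ : Fin p => s, (∏ j, u b (g j)) * ∏ j, v a (g j) := by
    intro b a
    rw [← Fin.prod_const, Finset.prod_univ_sum]
    exact sum_congr rfl fun g _ => prod_mul_distrib
  simp only [e, sum_mul_sum]
  rw [sum_comm (s := Fintype.piFinset fun _ : Fin p => s)]
  exact sum_congr rfl fun b _ => sum_comm

/-- Cauchy-Schwarz for powers of Gram matrices -/
theorem gram_cs {β ι : Type*} (B : Finset β) (s : Finset ι) (u v : β → ι → ℝ) (p : ℕ) (n : ℝ) :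
    (∑ b ∈ B, ∑ a ∈ B, ((∑ i ∈ s, u b i * v a i) / n) ^ p) ^ 2 ≤
      (∑ b ∈ B, ∑ a ∈ B, ((∑ i ∈ s, u b i * u a i) / n) ^ p) *
        ∑ b ∈ B, ∑ a ∈ B, ((∑ i ∈ s, v b i * v a i) / n) ^ p := by
  simp only [div_pow, ← sum_div]
  rw [div_mul_div_comm, ← sq]
  refine div_le_div_of_nonneg_right ?_ (sq_nonneg _)
  simp only [sum_pow_expand, ← sq]
  exact sum_mul_sq_le_sq_mul_sq _ _ _

open Classical in
/-- moments from an upper tail -/
theorem mom {β : Type*} (B : Finset β) (Φ : β → β → ℝ) {d e α γ : ℝ} (p : ℕ) (hd : 0 < d)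
    (hd1 : d ≤ 1) (he : 0 ≤ e) (hα : 0 ≤ α) (hγ : 0 ≤ γ) (h0 : ∀ b a, 0 ≤ Φ b a)
    (h1 : ∀ b a, Φ b a ≤ 1 / d ^ 2)
    (ht : (#((B ×ˢ B).filter fun z => 1 + e < Φ z.1 z.2) : ℝ) ≤ d ^ (2 * p) * (#B : ℝ) ^ 2) :
    ∑ b ∈ B, ∑ a ∈ B, (α + γ * Φ b a) ^ p ≤ 2 * (#B : ℝ) ^ 2 * ((α + γ) * (1 + e)) ^ p := by
  rw [← sum_product']
  have hd2 : 0 < d ^ 2 := by positivity
  have hd3 : 1 ≤ 1 / d ^ 2 := by rw [le_div_iff₀ hd2]; nlinarith
  have hpt : ∀ z ∈ B ×ˢ B, (α + γ * Φ z.1 z.2) ^ p ≤ ((α + γ) * (1 + e)) ^ p +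
      (if 1 + e < Φ z.1 z.2 then ((α + γ) * (1 / d ^ 2)) ^ p else 0) := by
    intro z _
    have hn : 0 ≤ α + γ * Φ z.1 z.2 := add_nonneg hα (mul_nonneg hγ (h0 _ _))
    split_ifs with h
    · have : (α + γ * Φ z.1 z.2) ^ p ≤ ((α + γ) * (1 / d ^ 2)) ^ p :=
        pow_le_pow_left₀ hn (by nlinarith [h1 z.1 z.2, mul_le_mul_of_nonneg_left (h1 z.1 z.2) hγ,
          mul_le_mul_of_nonneg_left hd3 hα]) p
      have h2 : 0 ≤ ((α + γ) * (1 + e)) ^ p := by positivity
      linarith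
    · rw [add_zero]
      exact pow_le_pow_left₀ hn (by
        nlinarith [mul_le_mul_of_nonneg_left (not_lt.1 h) hγ, mul_nonneg hα he]) p
  refine (sum_le_sum hpt).trans ?_
  rw [sum_add_distrib, sum_const, card_product, ← sum_filter, sum_const, nsmul_eq_mul,
    nsmul_eq_mul]
  have h3 : (#((B ×ˢ B).filter fun z => 1 + e < Φ z.1 z.2) : ℝ) * ((α + γ) * (1 / d ^ 2)) ^ p ≤
      (#B : ℝ) ^ 2 * ((α + γ) * (1 + e)) ^ p := by
    refine (mul_le_mul_of_nonneg_right ht (by positivity)).trans ?_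
    have e1 : d ^ (2 * p) * (#B : ℝ) ^ 2 * ((α + γ) * (1 / d ^ 2)) ^ p =
        (#B : ℝ) ^ 2 * (α + γ) ^ p := by
      rw [mul_pow, pow_mul, one_div, inv_pow]
      field_simp
    rw [e1]
    refine mul_le_mul_of_nonneg_left (pow_le_pow_left₀ (by positivity) ?_ p) (by positivity)
    nlinarith [mul_nonneg (add_nonneg hα hγ) he]
  push_cast
  nlinarith

open Classical in
/-- Markov's inequality for an even moment -/
theorem markov {β : Type*} (B : Finset β) (Ψ : β → β → ℝ) {e l θ' : ℝ} {p : ℕ} (hp : Even p)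
    (he : 0 ≤ e) (hl : 0 < l) (hθ : 2 ≤ θ' * (1 + e) ^ p)
    (h : (∑ b ∈ B, ∑ a ∈ B, Ψ b a ^ p) ^ 2 ≤ (2 * (#B : ℝ) ^ 2 * (l * (1 + e)) ^ p) ^ 2) :
    (#((B ×ˢ B).filter fun z => l * (1 + e) ^ 2 ≤ Ψ z.1 z.2) : ℝ) ≤ θ' * (#B : ℝ) ^ 2 := by
  have h1 := le_of_pow_le_pow_left₀ two_ne_zero (by positivity) h
  rw [← sum_product'] at h1
  set S := (B ×ˢ B).filter fun z => l * (1 + e) ^ 2 ≤ Ψ z.1 z.2 with hS
  have h2 : (#S : ℝ) * (l * (1 + e) ^ 2) ^ p ≤ ∑ z ∈ B ×ˢ B, Ψ z.1 z.2 ^ p := by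
    rw [← nsmul_eq_mul]
    refine (card_nsmul_le_sum S (fun z => Ψ z.1 z.2 ^ p) _ fun z hz =>
      pow_le_pow_left₀ (by positivity) (mem_filter.1 hz).2 p).trans ?_
    exact sum_le_sum_of_subset_of_nonneg (filter_subset _ _) fun z _ _ => hp.pow_nonneg _
  have h3 : (l * (1 + e) ^ 2) ^ p = (1 + e) ^ p * (l * (1 + e)) ^ p := by
    rw [← mul_pow]; congr 1; ring
  have h4 : 0 < (l * (1 + e)) ^ p := by positivity
  have h5 : 0 < (1 + e) ^ p := by positivity
  have h6 : (#S : ℝ) * (1 + e) ^ p ≤ 2 * (#B : ℝ) ^ 2 := by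
    rw [h3, ← mul_assoc] at h2
    exact le_of_mul_le_mul_right (h2.trans h1) h4
  refine le_of_mul_le_mul_right (h6.trans ?_) h5
  nlinarith [sq_nonneg (#B : ℝ)]

variable {G : Type} [AddCommGroup G]

theorem cod_bounds {C : Finset G} (hC : C.Nonempty) {f : G → ℝ} (hf : Un f) {d : ℝ} (hd : 0 < d)
    (b a : G) : 0 ≤ cod C f f b a / d ^ 2 ∧ cod C f f b a / d ^ 2 ≤ 1 / d ^ 2 :=
  ⟨div_nonneg (av_nonneg fun c _ => mul_nonneg (hf _).1 (hf _).1) (sq_nonneg d),
    div_le_div_of_nonneg_right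
      (av_le hC fun c _ => mul_le_one₀ (hf _).2 (hf _).1 (hf _).2) (by positivity)⟩

open Classical in
theorem mom_cod {C B : Finset G} (hC : C.Nonempty) {f : G → ℝ} (hf : Un f) {d e θ α γ : ℝ} (p : ℕ)
    (hd : 0 < d) (hd1 : d ≤ 1) (he : 0 ≤ e) (hα : 0 ≤ α) (hγ : 0 ≤ γ) (hθ : θ ≤ d ^ (2 * p))
    (ht : (tail C B f ((1 + e) * d ^ 2) : ℝ) ≤ θ * (#B : ℝ) ^ 2) :
    ∑ b ∈ B, ∑ a ∈ B, (α + γ * (cod C f f b a / d ^ 2)) ^ p ≤
      2 * (#B : ℝ) ^ 2 * ((α + γ) * (1 + e)) ^ p := by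
  refine mom B (fun b a => cod C f f b a / d ^ 2) p hd hd1 he hα hγ
    (fun b a => (cod_bounds hC hf hd b a).1) (fun b a => (cod_bounds hC hf hd b a).2) ?_
  refine le_trans (le_of_eq ?_) (ht.trans (mul_le_mul_of_nonneg_right hθ (sq_nonneg _)))
  unfold tail
  congr 2
  ext z
  simp only [mem_filter, lt_div_iff₀ (pow_pos hd 2)]

end TS85

open TS85 in
theorem tsStmt : TSStmt := by
  intro G _ _ _ C B f w df dw e θ θ' p hC hB hf hw hdf hdf1 hdw hdw1 he he1 hp hθf hθw hθ' hmf hmw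
    htf htw
  classical
  have hn : (0 : ℝ) < #C := by exact_mod_cast hC.card_pos
  have hdd : 0 < df * dw := mul_pos hdf hdw
  -- the upper tail
  have hup : (#((B ×ˢ B).filter fun z => 1 * (1 + e) ^ 2 ≤ cod C f w z.1 z.2 / (df * dw)) : ℝ) ≤
      θ' * (#B : ℝ) ^ 2 := by
    refine markov B (fun b a => cod C f w b a / (df * dw)) hp he.le one_pos hθ' ?_
    have h1 := gram_cs B C (fun b c => f (b + c) / df) (fun a c => w (a + c) / dw) p #C
    have h2 := mom_cod (B := B) hC hf p hdf hdf1 he.le le_rfl zero_le_one hθf htf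
    have h3 := mom_cod (B := B) hC hw p hdw hdw1 he.le le_rfl zero_le_one hθw htw
    have e1 : ∀ (g g' : G → ℝ) (d d' : ℝ) (b a : G),
        (∑ c ∈ C, g (b + c) / d * (g' (a + c) / d')) / #C = cod C g g' b a / (d * d') := by
      intro g g' d d' b a
      simp only [div_mul_div_comm, ← sum_div, cod, av]
      rw [div_right_comm]
    simp only [e1, ← sq] at h1
    simp only [zero_add, one_mul] at h2 h3 ⊢
    refine h1.trans ?_
    rw [sq (2 * _ * _)]
    exact mul_le_mul h2 h3 (sum_nonneg fun _ _ => sum_nonneg fun _ _ => hp.pow_nonneg _)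
      (by positivity)
  -- the lower tail
  set Ψ : G → G → ℝ := fun b a => 6 + 2 * ((av C fun c => f (b + c)) / df) +
    3 * ((av C fun c => w (a + c)) / dw) - cod C f w b a / (df * dw) with hΨ
  have hlo : (#((B ×ˢ B).filter fun z => 10 * (1 + e) ^ 2 ≤ Ψ z.1 z.2) : ℝ) ≤
      θ' * (#B : ℝ) ^ 2 := by
    refine markov B Ψ hp he.le (by norm_num) hθ' ?_
    have h1 := gram_cs B (C ×ˢ (univ : Finset Bool))
      (fun b c => if c.2 then 3 else f (b + c.1) / df)
      (fun a c => if c.2 then 2 + w (a + c.1) / dw else 2 - w (a + c.1) / dw) p #C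
    have h2 := mom_cod (B := B) (α := 9) (γ := 1) hC hf p hdf hdf1 he.le (by norm_num)
      (by norm_num) hθf htf
    have h3 := mom_cod (B := B) (α := 8) (γ := 2) hC hw p hdw hdw1 he.le (by norm_num)
      (by norm_num) hθw htw
    have e1 : ∀ b a : G, (∑ c ∈ C ×ˢ (univ : Finset Bool),
        (if c.2 then 3 else f (b + c.1) / df) *
          (if c.2 then 2 + w (a + c.1) / dw else 2 - w (a + c.1) / dw)) / #C = Ψ b a := by
      intro b a
      have : ∀ c : G, ∑ t : Bool, (if t then 3 else f (b + c) / df) *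
          (if t then 2 + w (a + c) / dw else 2 - w (a + c) / dw) =
          6 + 2 / df * f (b + c) + 3 / dw * w (a + c) - 1 / (df * dw) * (f (b + c) * w (a + c)) := by
        intro c
        simp only [Fintype.sum_bool, if_true, Bool.false_eq_true, if_false]
        field_simp
        ring
      rw [sum_product]
      simp only [this, hΨ, cod, av, sum_sub_distrib, sum_add_distrib, ← mul_sum, sum_const,
        nsmul_eq_mul]
      field_simp
    have e2 : ∀ b a : G, (∑ c ∈ C ×ˢ (univ : Finset Bool),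
        (if c.2 then 3 else f (b + c.1) / df) * (if c.2 then 3 else f (a + c.1) / df)) / #C =
        9 + 1 * (cod C f f b a / df ^ 2) := by
      intro b a
      have : ∀ c : G, ∑ t : Bool, (if t then 3 else f (b + c) / df) *
          (if t then 3 else f (a + c) / df) = 9 + 1 / df ^ 2 * (f (b + c) * f (a + c)) := by
        intro c
        simp only [Fintype.sum_bool, if_true, Bool.false_eq_true, if_false]
        field_simp
        ring
      rw [sum_product]
      simp only [this, cod, av, sum_add_distrib, ← mul_sum, sum_const, nsmul_eq_mul]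
      field_simp
    have e3 : ∀ b a : G, (∑ c ∈ C ×ˢ (univ : Finset Bool),
        (if c.2 then 2 + w (b + c.1) / dw else 2 - w (b + c.1) / dw) *
          (if c.2 then 2 + w (a + c.1) / dw else 2 - w (a + c.1) / dw)) / #C =
        8 + 2 * (cod C w w b a / dw ^ 2) := by
      intro b a
      have : ∀ c : G, ∑ t : Bool, (if t then 2 + w (b + c) / dw else 2 - w (b + c) / dw) *
          (if t then 2 + w (a + c) / dw else 2 - w (a + c) / dw) =
          8 + 2 / dw ^ 2 * (w (b + c) * w (a + c)) := by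
        intro c
        simp only [Fintype.sum_bool, if_true, Bool.false_eq_true, if_false]
        field_simp
        ring
      rw [sum_product]
      simp only [this, cod, av, sum_add_distrib, ← mul_sum, sum_const, nsmul_eq_mul]
      field_simp
    simp only [e1, e2, e3] at h1
    refine h1.trans ?_
    rw [sq (2 * _ * _)]
    norm_num only at h2 h3
    exact mul_le_mul h2 h3 (sum_nonneg fun _ _ => sum_nonneg fun _ _ => hp.pow_nonneg _)
      (by positivity)
  have hsub : ((B ×ˢ B).filter fun z => ¬ ((1 - 30 * e) * (df * dw) ≤ cod C f w z.1 z.2 ∧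
      cod C f w z.1 z.2 ≤ (1 + 30 * e) * (df * dw))) ⊆
      ((B ×ˢ B).filter fun z => 1 * (1 + e) ^ 2 ≤ cod C f w z.1 z.2 / (df * dw)) ∪
        ((B ×ˢ B).filter fun z => 10 * (1 + e) ^ 2 ≤ Ψ z.1 z.2) := by
    intro z hz
    obtain ⟨hz, hbad⟩ := mem_filter.1 hz
    rw [mem_union, mem_filter, mem_filter]
    rcases not_and_or.1 hbad with h | h
    · refine Or.inr ⟨hz, ?_⟩
      have h1 : cod C f w z.1 z.2 / (df * dw) < 1 - 30 * e := by
        rw [div_lt_iff₀ hdd]; exact not_le.1 h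
      have h2 : 1 - e ≤ (av C fun c => f (z.1 + c)) / df := by
        rw [le_div_iff₀ hdf]; exact hmf _ (mem_product.1 hz).1
      have h3 : 1 - e ≤ (av C fun c => w (z.2 + c)) / dw := by
        rw [le_div_iff₀ hdw]; exact hmw _ (mem_product.1 hz).2
      simp only [hΨ]
      nlinarith
    · refine Or.inl ⟨hz, ?_⟩
      have h1 : 1 + 30 * e < cod C f w z.1 z.2 / (df * dw) := by
        rw [lt_div_iff₀ hdd]; exact not_le.1 h
      nlinarith
  have hc := (card_le_card hsub).trans (card_union_le _ _)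
  have hc' := (Nat.cast_le (α := ℝ)).2 hc
  push_cast at hc'
  refine le_trans (le_of_eq ?_) (hc'.trans (by linarith))
  congr

end Crest.Agent.T49.Fib
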