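import Crest.Agent.T49.FibDefs_59

/-! Row 49, fibre theorem, leaf UL: an upper tail of codegrees gives an increment
(sifting + almost periodicity). -/

set_option autoImplicit false

namespace Crest.Agent.T49.Fib
open Finset
open scoped Pointwise

namespace UL89

variable {G : Type} [AddCommGroup G] [Fintype G] [DecidableEq G]

omit [AddCommGroup G] [Fintype G] in
lemma ind_mul_self_le (X : Finset G) (x y : G) : 0 ≤ ind X x * ind X y ∧ ind X x * ind X y ≤ 1 := by
  have h1 := un_ind X x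
  have h2 := un_ind X y
  exact ⟨mul_nonneg h1.1 h2.1, mul_le_one₀ h1.2 h2.1 h2.2⟩

/-- autocorrelation on `C` -/
noncomputable def cor (C X : Finset G) (δ : G) : ℝ := av C fun c => ind X c * ind X (c + δ)

omit [Fintype G] in
lemma cor_nonneg (C X : Finset G) (δ : G) : 0 ≤ cor C X δ :=
  av_nonneg fun _ _ => (ind_mul_self_le X _ _).1

omit [Fintype G] in
lemma cod_nonneg (C X : Finset G) (b a : G) : 0 ≤ cod C (ind X) (ind X) b a :=
  av_nonneg fun _ _ => (ind_mul_self_le X _ _).1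

omit [Fintype G] in
lemma cod_le_cor {C X : Finset G} (hC : C.Nonempty) {κ : ℝ} {b : G} (hb : Inv κ C b) (a : G) :
    cod C (ind X) (ind X) b a ≤ cor C X (a - b) + κ := by
  have h := hb.av_shift hC (f := fun u => ind X u * ind X (u + (a - b)))
    (fun u => ind_mul_self_le X _ _)
  have e : (av C fun c => ind X (b + c) * ind X (b + c + (a - b))) = cod C (ind X) (ind X) b a := by
    unfold cod
    congr 1
    funext c
    congr 2
    abel
  rw [e] at h
  have := (abs_le.1 h).2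
  unfold cor
  linarith

omit [Fintype G] in
/-- Step 1: freezing the coarse part of the second variable. -/
lemma exists_base {C B B' : Finset G} {f : G → ℝ} {κ θ τ : ℝ} (hB : B.Nonempty) (hB' : B'.Nonempty)
    (hinv : ∀ b ∈ B', Inv κ B b) (hκ : κ ≤ θ / 2)
    (ht : θ * (#B : ℝ) ^ 2 ≤ (tail C B f τ : ℝ)) :
    ∃ b₀ ∈ B, θ / 2 ≤ av B' fun β => av B fun b => if τ < cod C f f b (b₀ + β) then 1 else 0 := by
  classical
  set h : G → ℝ := fun a => av B fun b => if τ < cod C f f b a then 1 else 0 with hh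
  have hun : Un h := Un.av hB fun a b => by
    split_ifs <;> norm_num
  have hp : (0 : ℝ) < #B := by exact_mod_cast hB.card_pos
  have h1 : θ ≤ av B h := by
    have e : (tail C B f τ : ℝ) = ∑ a ∈ B, ∑ b ∈ B, if τ < cod C f f b a then (1 : ℝ) else 0 := by
      unfold tail
      rw [Finset.card_filter, Finset.sum_product_right]
      push_cast
      rfl
    rw [e] at ht
    simp only [hh, av, ← sum_div]
    rw [div_div, le_div_iff₀ (by positivity)]
    linarith [ht, sq (#B : ℝ)]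
  have h2 : θ / 2 ≤ av B' fun β => av B fun a => h (β + a) := by
    refine le_av hB' fun β hβ => ?_
    have := (abs_le.1 ((hinv β hβ).av_shift hB hun)).1
    linarith
  rw [av_comm] at h2
  obtain ⟨b₀, hb₀, h3⟩ := exists_av_le hB fun a => av B' fun β => h (β + a)
  refine ⟨b₀, hb₀, (h2.trans h3).trans (le_of_eq ?_)⟩
  congr 1
  funext β
  rw [add_comm β b₀]

/-- sifted set -/
def sift (B X : Finset G) (u : G) {p : ℕ} (c : Fin p → G) : Finset G :=
  B.filter fun b => ∀ i, u + b + c i ∈ X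

omit [Fintype G] in
lemma ind_sift {B X : Finset G} {u : G} {p : ℕ} (c : Fin p → G) {b : G} (hb : b ∈ B) :
    ind (sift B X u c) b = ∏ i, ind X (u + b + c i) := by
  unfold ind sift
  rw [Finset.prod_boole]
  simp [hb]

omit [Fintype G] in
lemma sum_sift {C B B' X : Finset G} (hC : C.Nonempty) (u : G) (p : ℕ) {b β : G} (hb : b ∈ B)
    (hβ : β ∈ B') :
    ∑ c ∈ Fintype.piFinset (fun _ : Fin p => C), ind (sift B X 0 c) b * ind (sift B' X u c) β =
      (#C : ℝ) ^ p * cod C (ind X) (ind X) b (u + β) ^ p := by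
  have hp : (0 : ℝ) < #C := by exact_mod_cast hC.card_pos
  have e : ∀ c : Fin p → G, ind (sift B X 0 c) b * ind (sift B' X u c) β =
      ∏ i, (ind X (b + c i) * ind X (u + β + c i)) := by
    intro c
    rw [ind_sift c hb, ind_sift c hβ, prod_mul_distrib]
    simp
  simp only [e]
  rw [← Finset.prod_univ_sum (fun _ : Fin p => C) fun _ c => ind X (b + c) * ind X (u + β + c),
    prod_const, card_univ, Fintype.card_fin, ← mul_pow]
  congr 1
  unfold cod av
  field_simp

omit [AddCommGroup G] [Fintype G] in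
lemma sum_ind_mul {B M : Finset G} (h : M ⊆ B) (φ : G → ℝ) :
    ∑ b ∈ B, ind M b * φ b = ∑ b ∈ M, φ b := by
  unfold ind
  simp only [ite_mul, one_mul, zero_mul]
  rw [← Finset.sum_filter, Finset.filter_mem_eq_inter, Finset.inter_eq_right.2 h]

omit [Fintype G] in
/-- Step 2: sifting. -/
lemma exists_sift {C B B' X L : Finset G} {b₀ : G} {η P τ' : ℝ} (p : ℕ) (hC : C.Nonempty)
    (hB : B.Nonempty) (hB' : B'.Nonempty) (hη : 0 ≤ η)
    (hP : P ≤ av B' fun β => av B fun b => cod C (ind X) (ind X) b (b₀ + β) ^ p)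
    (hτ : 0 ≤ τ') (hτP : τ' ^ p ≤ η * P)
    (hL : ∀ b ∈ B, ∀ β ∈ B', b₀ + β - b ∉ L → cod C (ind X) (ind X) b (b₀ + β) ≤ τ') :
    ∃ M A : Finset G, M ⊆ B ∧ A ⊆ B' ∧ η * P * (#B * #B') ≤
      ∑ β ∈ A, ∑ b ∈ M, (2 * η - (1 - ind L (b₀ + β - b))) := by
  classical
  have hpC : (0 : ℝ) < #C := by exact_mod_cast hC.card_pos
  have hpB : (0 : ℝ) < #B := by exact_mod_cast hB.card_pos
  have hpB' : (0 : ℝ) < #B' := by exact_mod_cast hB'.card_pos
  set Ω := Fintype.piFinset (fun _ : Fin p => C) with hΩ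
  have hΩne : Ω.Nonempty := Fintype.piFinset_nonempty.2 fun _ => hC
  have hΩc : (#Ω : ℝ) = (#C : ℝ) ^ p := by
    rw [hΩ, Fintype.card_piFinset]; simp
  set Φ : (Fin p → G) → ℝ := fun c => ∑ β ∈ sift B' X b₀ c, ∑ b ∈ sift B X 0 c,
    (2 * η - (1 - ind L (b₀ + β - b))) with hΦ
  have e1 : ∀ c, Φ c = ∑ β ∈ B', ∑ b ∈ B, ind (sift B X 0 c) b * ind (sift B' X b₀ c) β *
      (2 * η - (1 - ind L (b₀ + β - b))) := by
    intro c
    simp only [hΦ]
    rw [← sum_ind_mul (B := B') (M := sift B' X b₀ c) (filter_subset _ _)]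
    refine sum_congr rfl fun β _ => ?_
    rw [← sum_ind_mul (B := B) (M := sift B X 0 c) (filter_subset _ _), mul_sum]
    refine sum_congr rfl fun b _ => ?_
    ring
  have e2 : ∑ c ∈ Ω, Φ c = ∑ β ∈ B', ∑ b ∈ B, (#C : ℝ) ^ p * cod C (ind X) (ind X) b (b₀ + β) ^ p *
      (2 * η - (1 - ind L (b₀ + β - b))) := by
    simp only [e1]
    rw [sum_comm]
    refine sum_congr rfl fun β hβ => ?_
    rw [sum_comm]
    refine sum_congr rfl fun b hb => ?_
    rw [← sum_mul, sum_sift hC b₀ p hb hβ]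
  have e3 : ∀ β ∈ B', ∀ b ∈ B,
      (#C : ℝ) ^ p * (2 * η * cod C (ind X) (ind X) b (b₀ + β) ^ p - η * P) ≤
      (#C : ℝ) ^ p * cod C (ind X) (ind X) b (b₀ + β) ^ p * (2 * η - (1 - ind L (b₀ + β - b))) := by
    intro β hβ b hb
    rw [mul_assoc ((#C : ℝ) ^ p)]
    refine mul_le_mul_of_nonneg_left ?_ (by positivity)
    have h0 := cod_nonneg C X b (b₀ + β)
    have h00 : 0 ≤ τ' ^ p := pow_nonneg hτ p
    by_cases hm : b₀ + β - b ∈ L
    · simp only [ind, hm, if_true]
      linarith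
    · have := pow_le_pow_left₀ h0 (hL b hb β hβ hm) p
      simp only [ind, hm, if_false]
      linarith
  have e4 : P * (#B * #B') ≤ ∑ β ∈ B', ∑ b ∈ B, cod C (ind X) (ind X) b (b₀ + β) ^ p := by
    simp only [av, ← sum_div] at hP
    rwa [div_div, le_div_iff₀ (by positivity)] at hP
  have e5 : (#C : ℝ) ^ p * (η * P * (#B * #B')) ≤ ∑ c ∈ Ω, Φ c := by
    rw [e2]
    refine le_trans ?_ (sum_le_sum fun β hβ => sum_le_sum fun b hb => e3 β hβ b hb)
    simp only [← mul_sum, sum_sub_distrib, sum_const, nsmul_eq_mul]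
    refine mul_le_mul_of_nonneg_left ?_ (by positivity)
    nlinarith [mul_le_mul_of_nonneg_left e4 hη]
  obtain ⟨c, -, hc⟩ := Finset.exists_le_of_sum_le (f := fun _ => η * P * (#B * #B')) (g := Φ) hΩne
    (by rw [sum_const, nsmul_eq_mul, hΩc]; exact e5)
  exact ⟨sift B X 0 c, sift B' X b₀ c, filter_subset _ _, filter_subset _ _, hc⟩

omit [Fintype G] in
lemma av_neg (A : Finset G) (φ : G → ℝ) : av (-A) φ = av A fun a => φ (-a) := by
  unfold av
  rw [Finset.card_neg, Finset.neg_def, Finset.sum_image (fun x _ y _ h => neg_injective h)]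

omit [Fintype G] in
/-- Step 4: the average of the autocorrelation over `T`. -/
lemma av_cor_le {C X T : Finset G} {u v : ℝ} (hv : 0 ≤ v) (hu : av C (ind X) ≤ u)
    (hT : ∀ z, (av T fun t => ind X (z + t)) ≤ v) (z : G) :
    (av T fun t => cor C X (z + t)) ≤ u * v := by
  unfold cor
  rw [av_comm]
  calc _ ≤ av C fun c => ind X c * v := by
        refine av_mono fun c _ => ?_
        rw [av_mul_left]
        refine mul_le_mul_of_nonneg_left ?_ (un_ind X c).1
        simpa only [add_assoc] using hT (c + z)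
    _ = av C (ind X) * v := av_mul_right _ _ _
    _ ≤ u * v := mul_le_mul_of_nonneg_right hu hv

/-- Step 5: the final contradiction. -/
lemma final_step {C X T A M L : Finset G} {b₀ : G} {d e : ℝ} {σ : G → ℝ} (hd : 0 < d) (he : 0 < e)
    (he1 : e ≤ 1 / 10) (hT : T.Nonempty) (hA : A.Nonempty) (hM : M.Nonempty)
    (hX : av C (ind X) ≤ (1 + e / 10) * d) (hσ0 : ∀ s, 0 ≤ σ s) (hσ1 : ∑ s, σ s = 1)
    (hL : ∀ δ ∈ L, (1 + e / 2) * d ^ 2 ≤ cor C X δ)
    (hσ : ∀ t ∈ T, 1 - 3 * (e / 100) ≤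
      ∑ s, σ s * av A fun a => av M fun y => ind L (b₀ + s + t - a - y)) :
    ∃ z, (1 + e / 10) * d < av T fun t => ind X (z + t) := by
  by_contra hcon
  push Not at hcon
  have hq : (0 : ℝ) < (1 + e / 2) * d ^ 2 := by positivity
  have hLc : ∀ δ, (1 + e / 2) * d ^ 2 * ind L δ ≤ cor C X δ := by
    intro δ
    unfold ind
    split_ifs with hδ
    · rw [mul_one]; exact hL δ hδ
    · rw [mul_zero]; exact cor_nonneg _ _ _
  have hz : ∀ z, (1 + e / 2) * d ^ 2 * (av T fun t => ind L (z + t)) ≤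
      (1 + e / 10) * d * ((1 + e / 10) * d) := by
    intro z
    rw [← av_mul_left]
    exact (av_mono fun t _ => hLc _).trans (av_cor_le (by positivity) hX hcon z)
  have h1 : 1 - 3 * (e / 100) ≤ av T fun t =>
      ∑ s, σ s * av A fun a => av M fun y => ind L (b₀ + s + t - a - y) := le_av hT hσ
  rw [← sum_av] at h1
  have h2 : ∀ s, (1 + e / 2) * d ^ 2 *
      (av T fun t => σ s * av A fun a => av M fun y => ind L (b₀ + s + t - a - y)) ≤
      σ s * ((1 + e / 10) * d * ((1 + e / 10) * d)) := by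
    intro s
    rw [av_mul_left, mul_left_comm]
    refine mul_le_mul_of_nonneg_left ?_ (hσ0 s)
    rw [av_comm, ← av_mul_left]
    refine av_le hA fun a _ => ?_
    rw [av_comm, ← av_mul_left]
    refine av_le hM fun y _ => ?_
    have := hz (b₀ + s - a - y)
    have e1 : ∀ t, b₀ + s - a - y + t = b₀ + s + t - a - y := fun t => by abel
    simpa only [e1] using this
  have h3 := sum_le_sum fun s (_ : s ∈ (univ : Finset G)) => h2 s
  rw [← mul_sum, ← sum_mul, hσ1, one_mul] at h3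
  have h4 := (mul_le_mul_of_nonneg_left h1 hq.le).trans h3
  have h5 : d ^ 2 * ((1 + e / 2) * (1 - 3 * (e / 100))) ≤ d ^ 2 * ((1 + e / 10) * (1 + e / 10)) := by
    linarith
  have h6 := le_of_mul_le_mul_left h5 (by positivity)
  nlinarith

omit [Fintype G] in
/-- Step 3: consequences of the sifting. -/
lemma sift_conseq {B B' M A L : Finset G} {b₀ : G} {η P : ℝ} (hη : 0 < η) (hP0 : 0 < P)
    (hB : B.Nonempty) (hB' : B'.Nonempty) (hM : M ⊆ B) (hA : A ⊆ B')
    (hMA : η * P * (#B * #B') ≤ ∑ β ∈ A, ∑ b ∈ M, (2 * η - (1 - ind L (b₀ + β - b)))) :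
    P / 2 * #B ≤ #M ∧ P / 2 * #B' ≤ #A ∧ M.Nonempty ∧ A.Nonempty ∧
      1 - 2 * η ≤ av (-A) fun a => av M fun y => ind L (b₀ - a - y) := by
  have hpB : (0 : ℝ) < #B := by exact_mod_cast hB.card_pos
  have hpB' : (0 : ℝ) < #B' := by exact_mod_cast hB'.card_pos
  have hs1 : ∑ β ∈ A, ∑ b ∈ M, (2 * η - (1 - ind L (b₀ + β - b))) ≤ 2 * η * (#M * #A) := by
    calc _ ≤ ∑ β ∈ A, ∑ b ∈ M, 2 * η :=
          sum_le_sum fun β _ => sum_le_sum fun b _ => by linarith [(un_ind L (b₀ + β - b)).2]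
      _ = _ := by simp only [sum_const, nsmul_eq_mul]; ring
  have hs2 : P / 2 * (#B * #B') ≤ (#M : ℝ) * #A := by
    have := hMA.trans hs1
    have h2 : η * (P * (#B * #B')) ≤ η * (2 * (#M * #A)) := by linarith
    have := le_of_mul_le_mul_left h2 hη
    linarith
  have hMB : (#M : ℝ) ≤ #B := by exact_mod_cast card_le_card hM
  have hAB : (#A : ℝ) ≤ #B' := by exact_mod_cast card_le_card hA
  have hM0 : (0 : ℝ) ≤ #M := Nat.cast_nonneg _
  have hA0 : (0 : ℝ) ≤ #A := Nat.cast_nonneg _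
  have hMl : P / 2 * #B ≤ #M := by
    have : P / 2 * #B * #B' ≤ #M * #B' := by nlinarith
    exact le_of_mul_le_mul_right this hpB'
  have hAl : P / 2 * #B' ≤ #A := by
    have : P / 2 * #B' * #B ≤ #A * #B := by nlinarith
    exact le_of_mul_le_mul_right this hpB
  have hMp : (0 : ℝ) < #M := lt_of_lt_of_le (by positivity) hMl
  have hAp : (0 : ℝ) < #A := lt_of_lt_of_le (by positivity) hAl
  refine ⟨hMl, hAl, by rw [← card_pos]; exact_mod_cast hMp, by rw [← card_pos]; exact_mod_cast hAp,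
    ?_⟩
  rw [av_neg]
  simp only [av, ← sum_div, sub_neg_eq_add]
  rw [div_div, le_div_iff₀ (by positivity)]
  have h0 : 0 ≤ η * P * (#B * #B') := by positivity
  have h1 := h0.trans hMA
  simp only [sum_sub_distrib, sum_const, nsmul_eq_mul] at h1
  linarith

end UL89

open UL89 in
theorem ulStmt (h : APBStmt) : ULStmt := by
  classical
  obtain ⟨K, hK⟩ := h
  refine ⟨K * 100 ^ K, ?_⟩
  intro G _ _ _ C B B' S X κ d e θ p w hC hB hB' hS hBs hB's hCi hBi hBB hBS hd hd1 he he1 hθ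
    hκ1 hκ2 hp hw hθw hX htail
  have hpB : (0 : ℝ) < #B := by exact_mod_cast hB.card_pos
  have hpB' : (0 : ℝ) < #B' := by exact_mod_cast hB'.card_pos
  obtain ⟨b₀, -, hb₀⟩ := exists_base hB hB' hBi hκ1 htail
  set τ : ℝ := (1 + e) * d ^ 2 with hτ
  have hτ0 : 0 < τ := by positivity
  set P : ℝ := θ / 2 * τ ^ p with hPdef
  have hP0 : 0 < P := by positivity
  have hP : P ≤ av B' fun β => av B fun b => cod C (ind X) (ind X) b (b₀ + β) ^ p := by
    calc P ≤ (av B' fun β => av B fun b =>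
          if τ < cod C (ind X) (ind X) b (b₀ + β) then 1 else 0) * τ ^ p :=
          mul_le_mul_of_nonneg_right hb₀ (by positivity)
      _ ≤ _ := by
          rw [← av_mul_right]
          refine av_mono fun β _ => ?_
          rw [← av_mul_right]
          refine av_mono fun b _ => ?_
          split_ifs with hc
          · rw [one_mul]; exact pow_le_pow_left₀ hτ0.le hc.le p
          · rw [zero_mul]; exact pow_nonneg (cod_nonneg _ _ _ _) p
  set L : Finset G := (b₀ +ᵥ (B + B')).filter fun δ => (1 + e / 2) * d ^ 2 ≤ cor C X δ with hL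
  have hτP : ((1 + 3 * e / 4) * d ^ 2) ^ p ≤ e / 100 * P := by
    rw [hPdef, hτ, mul_pow, mul_pow]
    have := mul_le_mul_of_nonneg_right hp (show 0 ≤ (d ^ 2) ^ p by positivity)
    linarith
  obtain ⟨M, A, hM, hA, hMA⟩ := exists_sift (X := X) (L := L) (b₀ := b₀) (η := e / 100) p hC hB hB'
    (by positivity) hP (by positivity) hτP (by
      intro b hb β hβ hn
      have h1 : b₀ + β - b ∈ b₀ +ᵥ (B + B') :=
        Finset.mem_vadd_finset.2 ⟨-b + β, Finset.add_mem_add (hBs b hb) hβ, by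
          rw [vadd_eq_add]; abel⟩
      have h2 : cor C X (b₀ + β - b) < (1 + e / 2) * d ^ 2 := by
        by_contra h3
        exact hn (mem_filter.2 ⟨h1, not_lt.1 h3⟩)
      have h3 := cod_le_cor (X := X) hC (hCi b hb) (b₀ + β)
      linarith)
  obtain ⟨hMl, hAl, hMne, hAne, hF⟩ := sift_conseq (by positivity) hP0 hB hB' hM hA hMA
  have hPw : 2 ≤ P / 2 * 2 ^ w := by
    have h1 : d ^ (2 * p) ≤ τ ^ p := by
      rw [pow_mul]
      exact pow_le_pow_left₀ (by positivity) (by rw [hτ]; nlinarith [sq_nonneg d]) p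
    have h2 : θ * d ^ (2 * p) * 2 ^ w ≤ θ * τ ^ p * 2 ^ w := by gcongr
    rw [hPdef]
    linarith
  have hc1 : #(-A + S) ≤ 2 ^ w * #(-A) := by
    have h1 : -A + S ⊆ B' + S := Finset.add_subset_add_right fun x hx => by
      have := hB's _ (hA (Finset.mem_neg'.1 hx))
      simpa using this
    have h2 : (#(-A + S) : ℝ) ≤ 2 * #B' := by exact_mod_cast (card_le_card h1).trans hBS
    have h3 : (2 : ℝ) * #B' ≤ 2 ^ w * #A := by
      have : (0 : ℝ) ≤ 2 ^ w := by positivity
      nlinarith [mul_le_mul_of_nonneg_left hAl this]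
    rw [Finset.card_neg]
    exact_mod_cast h2.trans h3
  have hc2 : #L ≤ 2 ^ w * #M := by
    have h2 : (#L : ℝ) ≤ 2 * #B := by
      have : #L ≤ #(B + B') := (card_filter_le _ _).trans (Finset.card_vadd_finset _ _).le
      exact_mod_cast this.trans hBB
    have h3 : (2 : ℝ) * #B ≤ 2 ^ w * #M := by
      have : (0 : ℝ) ≤ 2 ^ w := by positivity
      nlinarith [mul_le_mul_of_nonneg_left hMl this]
    exact_mod_cast h2.trans h3
  obtain ⟨Λ, hΛ, σ, hσ0, hσ1, hσ⟩ := hK G (-A) M L S w (e / 100) hAne.neg hMne hS hw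
    (by positivity) (by linarith) hc1 hc2
  have hwe : (1 : ℝ) ≤ w / e := by
    rw [le_div_iff₀ he]
    have : (1 : ℝ) ≤ w := by exact_mod_cast hw
    linarith
  have hKK : (K : ℝ) * (w / (e / 100)) ^ K ≤ ((K * 100 ^ K : ℕ) : ℝ) * (w / e) ^ (K * 100 ^ K) := by
    have e1 : (w : ℝ) / (e / 100) = 100 * (w / e) := by field_simp
    rw [e1, mul_pow, ← mul_assoc]
    push_cast
    refine mul_le_mul_of_nonneg_left (pow_le_pow_right₀ hwe ?_) (by positivity)
    exact Nat.le_mul_of_pos_right K (by positivity)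
  refine ⟨Λ, hΛ.trans hKK, fun T hT hTi => ?_⟩
  have hexp := Real.exp_le_exp.2 (neg_le_neg hKK)
  refine final_step (b₀ := b₀) (L := L) hd he he1 hT hAne.neg hMne hX hσ0 hσ1
    (fun δ hδ => (mem_filter.1 hδ).2) fun t ht => ?_
  have := hσ b₀ t ((hTi t ht).1.mono hexp) (bohr_mono subset_rfl hexp (hTi t ht).2)
  linarith

end Crest.Agent.T49.Fib
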