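import Crest.Agent.T49.SanW_66
import Crest.Agent.T49.FibDefs_59

/-!
# Row 49 (helper66): `Fib.APBStmt`
-/

set_option autoImplicit false
set_option linter.unusedSectionVars false

namespace Crest.Agent.T49.San

open Finset Real
open scoped Pointwise

variable {G : Type} [AddCommGroup G] [Fintype G] [DecidableEq G]

theorem filter_le_of_inv {κ : ℝ} {S : Finset G} {t : G} (h : Fib.Inv κ S t) :
    (#(S.filter fun s => s + t ∉ S) : ℝ) ≤ κ * #S := by
  refine le_trans ?_ h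
  rw [← card_sdiff_comm (card_vadd_finset t S)]
  exact_mod_cast card_le_card_of_injOn (fun s => t + s) (fun s hs => by
    obtain ⟨h1, h2⟩ := mem_filter.1 hs
    exact mem_sdiff.2 ⟨vadd_mem_vadd_finset h1, by rwa [add_comm] at h2⟩) fun _ _ _ _ h =>
      add_left_cancel h

theorem av_av_eq (A M L : Finset G) (x : G) :
    (Fib.av A fun a => Fib.av M fun y => Fib.ind L (x - a - y)) = cv3 A M L x := by
  simp only [Fib.av, cv3, cv, ← sum_div]
  rw [sum_comm, div_right_comm]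
  simp only [sub_right_comm x]
  rfl

/-- the sup-norm form with the parameters of `Fib.APBStmt`, for weights -/
theorem wapb' {C : ℕ} (hC : 2 ^ 25 ≤ C) {A M L S : Finset G} {α μ f : G → ℝ} (hα : Pr A α)
    (hμ : Pr M μ) (hf : Fn L f) (hS : S.Nonempty) {w ε : ℝ} (hw : 1 ≤ w) (hε : 0 < ε)
    (hε1 : ε ≤ 1) (hK : ∀ a ∈ A, α a * #(A + S) ≤ exp w)
    (hL : ∀ y ∈ M, μ y * ∑ z ∈ L, f z ≤ exp w) :
    ∃ Λ : Finset (AddChar G ℂ), (#Λ : ℝ) ≤ C * (w / ε) ^ C ∧
      ∀ x t, Fib.Inv (exp (-(C * (w / ε) ^ C))) S t → t ∈ Fib.bohr Λ (exp (-(C * (w / ε) ^ C))) →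
        |wcv3 A α M μ f (x + t) - wcv3 A α M μ f x| ≤ ε := by
  classical
  set u := w / ε with hu
  have hu1 : w ≤ u := by rw [hu, le_div_iff₀ hε]; nlinarith
  have hu2 : 1 ≤ u * ε := by rw [hu, div_mul_cancel₀ _ hε.ne']; exact hw
  have hu3 : 1 ≤ u := hw.trans hu1
  have hu4 : exp (-u) ≤ ε := by
    rw [exp_neg, inv_le_iff_one_le_mul₀ (exp_pos _)]
    nlinarith [add_one_le_exp u]
  have hu7 : 1 ≤ u ^ 7 := one_le_pow₀ hu3
  have hu8 : u ≤ u ^ 7 := le_self_pow₀ hu3 (by norm_num)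
  obtain ⟨N, hN1, hN2⟩ : ∃ N : ℕ, 2 ^ 22 * u ^ 5 / ε ^ 2 ≤ N ∧ N ≤ 2 ^ 23 * u ^ 7 := by
    refine ⟨⌈_⌉₊, Nat.le_ceil _, (Nat.ceil_lt_add_one (by positivity)).le.trans ?_⟩
    have h1 : 2 ^ 22 * u ^ 5 / ε ^ 2 ≤ 2 ^ 22 * u ^ 7 := by
      rw [div_le_iff₀ (by positivity),
        show 2 ^ 22 * u ^ 7 * ε ^ 2 = 2 ^ 22 * u ^ 5 * (u * ε) ^ 2 by ring]
      exact le_mul_of_one_le_right (by positivity) (one_le_pow₀ hu2)
    linarith
  have hCu : 2 ^ 25 * u ^ 7 ≤ C * u ^ C := by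
    have h1 : (2 : ℝ) ^ 25 ≤ C := by exact_mod_cast hC
    have h2 : u ^ 7 ≤ u ^ C := pow_le_pow_right₀ hu3 (by omega)
    gcongr
  have he : exp w ≤ exp u := exp_le_exp.2 hu1
  obtain ⟨n, hn, l, -, -, h⟩ := wapb sep_finite hα hμ hf hS univ hu3
    (fun a ha => (hK a ha).trans he) (fun y hy => (hL y hy).trans he) hu4 hε1 hN1
  refine ⟨univ.image l, ?_, fun x t h1 h2 => ?_⟩
  · have h1 : #(univ.image l) ≤ N := card_image_le.trans (by simpa using hn)
    have h2 : (#(univ.image l) : ℝ) ≤ N := by exact_mod_cast h1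
    linarith
  · refine (h x (mem_univ _) t (mem_univ _) _ _ (filter_le_of_inv h1) (exp_pos _).le
      fun i => Fib.mem_bohr.1 h2 _ (mem_image_of_mem _ (mem_univ i))).trans ?_
    have h3 : (3 : ℝ) ^ N ≤ exp (2 * N) := by
      rw [mul_comm, exp_nat_mul]
      gcongr
      linarith [add_one_le_exp (2 : ℝ)]
    have h4 : (N : ℝ) ≤ exp (2 * N) := by
      linarith [add_one_le_exp (2 * N : ℝ), Nat.cast_nonneg (α := ℝ) N]
    have h5 : exp (-(C * u ^ C)) ≤ exp (-u) * exp (-u) * exp (-(2 * N)) * exp (-13) := by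
      simp only [← exp_add]
      exact exp_le_exp.2 (by linarith)
    have h6 : exp (-13 : ℝ) ≤ 1 / 14 := by
      rw [exp_neg, inv_le_comm₀ (exp_pos _) (by norm_num)]
      linarith [add_one_le_exp (13 : ℝ)]
    have h7 : exp u * exp (-u) = 1 := by rw [← exp_add]; simp
    have h8 : exp (2 * N : ℝ) * exp (-(2 * N)) = 1 := by rw [← exp_add]; simp
    have h9 : exp u * (2 * 3 ^ (N + 1) * exp (-(C * u ^ C)) + N * exp (-(C * u ^ C))) ≤
        exp u * (7 * exp (2 * N) * (exp (-u) * ε * exp (-(2 * N)) * (1 / 14))) := by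
      have h10 : exp (-(C * u ^ C)) ≤ exp (-u) * ε * exp (-(2 * N)) * (1 / 14) :=
        h5.trans (by gcongr)
      rw [← add_mul, pow_succ]
      gcongr
      linarith
    have h11 : exp u * (7 * exp (2 * N) * (exp (-u) * ε * exp (-(2 * N)) * (1 / 14))) =
        (exp u * exp (-u)) * (exp (2 * N : ℝ) * exp (-(2 * N))) * (ε / 2) := by ring
    rw [h11, h7, h8] at h9
    linarith

/-- local sup-norm almost periodicity -/
theorem apbStmt : Fib.APBStmt := by
  obtain ⟨C, hC⟩ : ∃ C : ℕ, 2 ^ 25 ≤ C := ⟨_, le_rfl⟩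
  refine ⟨C, fun G _ _ _ A M L S w ε hA hM hS hw hε hε1 hK hL => ?_⟩
  have h2 : (2 : ℝ) ^ w ≤ exp w := by
    rw [← mul_one (w : ℝ), exp_nat_mul]
    gcongr
    linarith [add_one_le_exp (1 : ℝ)]
  have hc : (0 : ℝ) < #A := by exact_mod_cast hA.card_pos
  have hcM : (0 : ℝ) < #M := by exact_mod_cast hM.card_pos
  obtain ⟨Λ, h1, h⟩ := wapb' hC (pr_unif hA) (pr_unif hM) (fn_ind L) hS (w := w)
    (by exact_mod_cast hw) hε hε1
    (fun _ _ => by
      rw [inv_mul_le_iff₀ hc]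
      have : (#(A + S) : ℝ) ≤ 2 ^ w * #A := by exact_mod_cast hK
      nlinarith)
    (fun _ _ => by
      rw [inv_mul_le_iff₀ hcM]
      have h3 : (#L : ℝ) ≤ 2 ^ w * #M := by exact_mod_cast hL
      have h4 := sum_ind_le L L 0
      simp only [sub_zero] at h4
      nlinarith)
  refine ⟨Λ, h1, fun s => if s = 0 then 1 else 0, fun s => by positivity, by simp,
    fun x t h3 h4 => ?_⟩
  have h5 := (abs_le.1 (h x t h3 h4)).1
  simp only [ite_mul, one_mul, zero_mul, sum_ite_eq', mem_univ, if_true, add_zero, av_av_eq]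
  simp only [wcv3_unif] at h5
  linarith

end Crest.Agent.T49.San
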