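import Crest.Agent.T49.FibMain_59
import Crest.Agent.T49.FibTS_85
import Crest.Agent.T49.FibUL_89
import Crest.Agent.T49.FibPrune_81
import Crest.Agent.T49.SanApb_66

/-! Row 49: the fibre theorem FT, unconditional. -/

namespace Crest.Agent.T49.Fib

/-- The fibre theorem (Kelley–Meka block of row 49), with all leaves discharged. -/
theorem ftStmt : FTStmt := ftStmt_of tsStmt (ulStmt San.apbStmt) pruneStmt

end Crest.Agent.T49.Fib
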