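import Crest.Agent.T49.Stage_10

/-!
Row 49 (helper10).  The cube machine: `(∀ r, Stage S r) → RAT S r`.
-/

set_option autoImplicit false

noncomputable section

namespace Crest.Agent.T49.Ginc

open Finset Crest.Agent.T49.Gow Crest.Agent.T49.Tor Crest.Agent.T49.Rat

variable {ι : Type} [Fintype ι] [DecidableEq ι]

theorem St.mono {N r : ℕ} {m m' : ℝ} {P Q : (ι → ℤ) → ℝ} (h : St N r m P Q) (hm : m ≤ m') :
    St N r m' P Q := by
  obtain ⟨E, B, h1, h2, h3⟩ := h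
  exact ⟨E, B, h1, h2, le_trans (mul_le_mul_of_nonneg_right
    (Real.exp_le_exp.2 (by linarith)) (by positivity)) h3⟩

theorem machine {S : WinSys (ι → ℤ)} (hS : ∀ j m m', m ≤ m' → S.W j m ⊆ S.W j m')
    (h : ∀ r, Stage S r) : ∀ r : ℕ, ∃ C : ℕ, 1 ≤ C ∧ ∀ (m : ℝ) (N : ℕ) (P Q : (ι → ℤ) → ℝ),
      2 ≤ m → Real.exp (m ^ C) ≤ N → Wt N P → Wt N Q → St N r m P Q →
      ∃ κ ∈ S.W r (m ^ C), Real.exp (-m ^ C) * (#(box ι N) : ℝ)
        ≤ ∑ u ∈ box ι N, κ u * (P u - (1 - 1 / m) ^ r * Q u)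
  | 0 => by
    refine ⟨1, le_rfl, fun m N P Q hm _ _ _ ⟨E, B, hE, _, hst⟩ => ⟨fun _ => 1,
      S.one (by rwa [pow_one]), ?_⟩⟩
    have e : ∀ (F : (ι → ℤ) → ℝ) (h : Fin 0 → ι → ℤ) (v : ι → ℤ),
        cub (Function.update B (top 0) F) h v = F v := fun F h v => by
      rw [cub, Fintype.prod_subsingleton _ (top 0), Function.update_self]
      simp [vtx]
    have hH : Hs ι N 0 = {default} := by
      ext h
      simp only [Hs, Fintype.mem_piFinset, mem_singleton]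
      exact ⟨fun _ => Subsingleton.elim _ _, fun _ i => i.elim0⟩
    simp only [e, hH, sum_singleton, zero_add, pow_one] at hst
    simp only [pow_one, pow_zero, one_mul]
    have h0 : 0 < Real.exp (-m) * (#(box ι N) : ℝ) := mul_pos (Real.exp_pos _) (card_box_pos N)
    have h1 := hE default
    have h2 : 0 ≤ ∑ v ∈ box ι N, (P v - Q v) := by
      by_contra a
      have := mul_nonpos_of_nonneg_of_nonpos h1.1 (not_le.1 a).le
      linarith
    exact hst.trans (mul_le_of_le_one_left h2 h1.2)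
  | r + 1 => by
    obtain ⟨C₁, h₁⟩ := h r
    obtain ⟨C₂, hC₂, h₂⟩ := machine hS h r
    obtain ⟨C₃, h₃⟩ := S.mul (r + 1)
    obtain ⟨C, hC, hb⟩ := PB.exists_le (f := fun m => m ^ C₁ + (m ^ C₁ + m) ^ C₂ +
      ((m ^ C₁ + m) ^ C₂ + m ^ C₁) ^ C₃) (by fun_prop)
    refine ⟨C, hC, fun m N P Q hm hN hP hQ hst => ?_⟩
    have hb := hb m hm
    have p₁ : 0 ≤ m ^ C₁ := by positivity
    have p₂ : 2 ≤ (m ^ C₁ + m) ^ C₂ := PB.two_le_pow (by linarith) hC₂
    have p₃ : 0 ≤ ((m ^ C₁ + m) ^ C₂ + m ^ C₁) ^ C₃ := by positivity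
    have hl0 : 0 ≤ 1 - 1 / m := by
      rw [sub_nonneg, div_le_one (by linarith)]; linarith
    have hl1 : 1 - 1 / m ≤ 1 := by
      have : 0 ≤ 1 / m := by positivity
      linarith
    obtain ⟨χ, hχ, hst₁⟩ := h₁ m N P Q hm ((Real.exp_le_exp.2 (by linarith)).trans hN) hP hQ hst
    have hχ01 : In01 χ := S.bdd hχ
    obtain ⟨κ, hκ, hs⟩ := h₂ (m ^ C₁ + m) N _ _ (by linarith)
      ((Real.exp_le_exp.2 (by linarith)).trans hN) (Wt.mul hχ01 hP)
      (Wt.mul hχ01 (Wt.mul (χ := fun _ => 1 - 1 / m) (fun _ => ⟨hl0, hl1⟩) hQ))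
      (hst₁.mono (by linarith))
    refine ⟨fun v => κ v * χ v, hS _ _ _ (by linarith) (h₃ (m := (m ^ C₁ + m) ^ C₂ + m ^ C₁)
      (by linarith) (S.mono (Nat.le_succ r) p₂ (by linarith) hκ) (hS _ _ _ (by linarith) hχ)), ?_⟩
    refine le_trans (mul_le_mul_of_nonneg_right (Real.exp_le_exp.2 (by linarith)) (by positivity))
      (hs.trans (sum_le_sum fun u _ => ?_))
    rw [mul_assoc]
    refine mul_le_mul_of_nonneg_left ?_ (S.bdd hκ u).1
    have a1 : 1 - 1 / m ≤ 1 - 1 / (m ^ C₁ + m) := by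
      have := one_div_le_one_div_of_le (show 0 < m by linarith) (show m ≤ m ^ C₁ + m by linarith)
      linarith
    have a2 := pow_le_pow_left₀ hl0 a1 r
    have a3 : 0 ≤ χ u * ((1 - 1 / m) * Q u) := mul_nonneg (hχ01 u).1 (mul_nonneg hl0 (hQ.1 u).1)
    have a4 := mul_le_mul_of_nonneg_right a2 a3
    rw [pow_succ]
    nlinarith

omit [Fintype ι] [DecidableEq ι] in
theorem prod_ssum {r : ℕ} (g : (Fin (r + 1) → Bool) → (ι → ℤ) → ℝ) (F : (ι → ℤ) → ℝ) (v : ι → ℤ)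
    (h : Fin r → ι → ℤ) :
    (∏ a ∈ univ.erase (fun _ => true), g a (ssum a (Fin.cons v h : Fin (r + 1) → ι → ℤ))) *
      F (∑ j, (Fin.cons v h : Fin (r + 1) → ι → ℤ) j) =
    cub (fun w => g (Fin.cons false w)) h 0 *
      cub (Function.update (fun w => g (Fin.cons true w)) (top r) F) h v := by
  have h1 := cub_cons g F v h 0
  rw [zero_add] at h1
  rw [← h1, cub_update, mul_comm]
  simp only [vtx, zero_add, top, if_true]
  rfl

/-- **the ratio theorem from the stages** -/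
theorem rat {S : WinSys (ι → ℤ)} (hS : ∀ j m m', m ≤ m' → S.W j m ⊆ S.W j m')
    (h : ∀ r, Stage S r) (r : ℕ) : RAT S r := by
  obtain ⟨C, -, hC⟩ := machine hS h r
  refine ⟨C, fun m N hm hN g P Q hg hgs hP hQ hPs hQs hyp => hC m N P Q hm hN ⟨hP, hPs⟩ ⟨hQ, hQs⟩
    ⟨fun h => cub (fun w => g (Fin.cons false w)) h 0, fun w => g (Fin.cons true w),
      fun h => in01_cub (fun w => hg _) h 0, fun w => ⟨hg _, hgs _⟩, hyp.trans (le_of_eq ?_)⟩⟩
  rw [sum_piFinset_succ, sum_comm, Hs]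
  refine sum_congr rfl fun h _ => ?_
  rw [mul_sum]
  refine sum_congr rfl fun v _ => ?_
  rw [mul_sub, mul_sub, prod_ssum, prod_ssum]

/-- `RAT` from the fibre theorem, the inverse theorems and the windows -/
theorem rat_of {Nil : Cls ι} {S : WinSys (ι → ℤ)} (hN : Basic Nil) (hM : Mono Nil)
    (hS : ∀ j m m', m ≤ m' → S.W j m ⊆ S.W j m') (hF : FTZ ι) (hG : ∀ r, GI Nil (r + 1))
    (hW : ∀ r, Win Nil S (r + 1) r) (r : ℕ) : RAT S r :=
  rat hS (fun r => stage hM hS hF (lin hN hM (hG r)) (hW r)) r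

end Crest.Agent.T49.Ginc
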