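import Crest.Agent.T49.Win_56
import Crest.Agent.T49.C0_50
import Crest.Agent.T49.Rat_10
import Crest.Agent.T49.Fib_59
import Crest.Agent.T49.LT_65

/-!
Row 49 (helper56).  Block (C) assembled: the absolute increment theorem from the inverse theorem.
-/

set_option autoImplicit false

namespace Crest.Agent.T49.Win
open Nil

theorem win (σ : Type) [Fintype σ] [DecidableEq σ] (s r : ℕ) :
    Ginc.Win (nilCls σ) (nilWin σ) (s + 1) r := win_of_lt ltStmt σ s r

theorem rat_of_gi (hG : ∀ t, GI.GI1 (t + 1)) (σ : Type) [Fintype σ] [DecidableEq σ] [Nonempty σ]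
    (r : ℕ) : Rat.RAT (nilWin σ) r :=
  Ginc.rat_of (Nil := nilCls σ) (S := nilWin σ) basic_isNil (fun _ _ _ _ h hm => h.mono hm)
    (fun _ _ _ hm _ h => mem_nilWin.2 ⟨h.1, h.2.mono hm⟩) (Rat.ftz Fib.ftStmt) (fun r => gi_box (hG r))
    (fun r => win σ r r) r

theorem ginc_of_gi (hG : ∀ t, GI.GI1 (t + 1)) (σ : Type) [Fintype σ] [DecidableEq σ] [Nonempty σ]
    {k : ℕ} (hk : 3 ≤ k) : Rat.GINC (nilWin σ) k :=
  Rat.ginc_of_rat _ hk (rat_of_gi hG σ _)

end Crest.Agent.T49.Win
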