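import Crest.Agent.T49.TopStep_55
import Crest.Agent.T49.Iter_61
import Crest.Agent.T49.Ginc_56
import Crest.Agent.T49.GiAll_9

/-!
# Row 49 (helper55): the outer iteration; the statement of S0068 from the interfaces of `Fr_26`
-/

set_option autoImplicit false

noncomputable section

namespace Crest.Agent.T49.Top

open Finset MvPolynomial Crest.Agent.T49.Tw Crest.Agent.T49.Fr

/-- the initial cell -/
def cell0 (N : ℕ) (hN : N ≠ 0) : Cell Unit where
  rk _ := 0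
  a _ := (N : ℝ)⁻¹
  B _ := 0
  a_ne _ := inv_ne_zero (Nat.cast_ne_zero.2 hN)
  B_mem _ := zero_mem _
  lev _ := 1
  lev_pos _ := one_pos
  deg _ m hm := by simp at hm

theorem cell0_wgt (N : ℕ) (hN : N ≠ 0) (z : Unit → ℤ) :
    (cell0 N hN).wgt z = Real.exp (-Real.pi * ((N : ℝ)⁻¹ * z ()) ^ 2) := by
  simp [Tri.wgt, Tri.th, cell0, ev]

theorem cell0_M (N : ℕ) (hN : N ≠ 0) : (N : ℝ) ≤ (cell0 N hN).M := by
  have h0 : (0 : ℝ) < N := by positivity
  have h1 : (cell0 N hN).M = ∑' n : ℤ, Real.exp (-Real.pi * ((N : ℝ)⁻¹ ^ 2) * (n : ℝ) ^ 2) := by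
    rw [Tri.M, ← (Equiv.funUnique Unit ℤ).tsum_eq]
    refine tsum_congr fun z => ?_
    rw [cell0_wgt]
    congr 1
    simp [mul_pow, mul_assoc]
  rw [h1, Real.tsum_exp_neg_mul_int_sq (by positivity)]
  have h2 : 1 / ((N : ℝ)⁻¹ ^ 2) ^ (1 / 2 : ℝ) = N := by
    rw [← Real.sqrt_eq_rpow, Real.sqrt_sq (by positivity)]
    simp
  have h3 : Summable fun n : ℤ => Real.exp (-Real.pi / (N : ℝ)⁻¹ ^ 2 * (n : ℝ) ^ 2) := by
    refine (gauss_one h0.ne' 0).1.congr fun n => ?_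
    congr 1
    field_simp
    ring
  have h4 := h3.le_tsum 0 fun _ _ => (Real.exp_pos _).le
  rw [h2]
  refine le_mul_of_one_le_right h0.le (le_trans ?_ h4)
  simp

/-- the initial state -/
def st0 (s N : ℕ) (hs : 1 ≤ s) (hN : N ≠ 0) : Stt s (Real.log N) where
  ι := Unit
  U := cell0 N hN
  p := X ()
  Y := 0
  int := isInt_X _
  deg := degLe_X (w := fun _ => 1) ()
  lev _ := hs
  mu := by
    have h1 := cell0_M N hN
    have h2 : (cell0 N hN).mu = N := by simp [Tri.mu, cell0]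
    have h3 : (0 : ℝ) ≤ N := Nat.cast_nonneg N
    linarith
  Y0 := le_rfl
  sep z z' h _ := by
    have : z = z' := funext fun c => by simpa [ev] using h
    left
    simp [this, Rg.Dj]
  lm := by simp [Rg.lm, cell0]

theorem st0_kap (s N : ℕ) (hs : 1 ≤ s) (hN : N ≠ 0) (l : ℕ) : (st0 s N hs hN).U.kap l ≤ 3 := by
  have h0 : (1 : ℝ) ≤ N := by exact_mod_cast Nat.one_le_iff_ne_zero.2 hN
  have h1 : Real.log (1 + |(N : ℝ)⁻¹|) ≤ 1 := by
    rw [abs_of_pos (by positivity)]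
    have := Real.log_le_sub_one_of_pos (show 0 < 1 + (N : ℝ)⁻¹ by positivity)
    linarith [inv_le_one_of_one_le₀ h0]
  have h2 : ∑ c ∈ univ.filter (fun c => (cell0 N hN).lev c = l),
      (1 + Real.log (1 + |(cell0 N hN).a c|)) ≤ ∑ c, (1 + Real.log (1 + |(cell0 N hN).a c|)) :=
    sum_le_sum_of_subset_of_nonneg (filter_subset _ _) fun c _ _ =>
      zero_le_one.trans (Cell.one_le_term _)
  have h3 : ∑ c, (1 + Real.log (1 + |(cell0 N hN).a c|)) = 1 + Real.log (1 + |(N : ℝ)⁻¹|) := by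
    simp [cell0]
  change (cell0 N hN).kap l ≤ 3
  rw [Cell.kap]
  linarith

theorem st0_dn (s N : ℕ) (hs : 1 ≤ s) (hN : N ≠ 0) (A : Finset ℕ) (hA : A ⊆ Icc 1 N) :
    Real.exp (-5) * (#A / N) ≤ (st0 s N hs hN).dn (Nat.cast '' (A : Set ℕ)) := by
  classical
  have h0 : (1 : ℝ) ≤ N := by exact_mod_cast Nat.one_le_iff_ne_zero.2 hN
  set T := cell0 N hN with hT
  set f := indA (Nat.cast '' (A : Set ℕ)) (X () : Pl Unit) with hf
  have h1 : T.M ≤ 1 + N := by simpa [hT, cell0] using T.M_le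
  have h2 : Summable fun z => T.wgt z * f z := T.summable_mul_real (K := 1) fun z =>
    abs_le.2 ⟨by linarith [(indA_mem _ _ z : 0 ≤ f z ∧ f z ≤ 1).1], (indA_mem _ _ z).2⟩
  have h3 := h2.sum_le_tsum (A.image fun a : ℕ => fun _ : Unit => (a : ℤ)) fun z _ =>
    mul_nonneg (T.wgt_nonneg z) (indA_mem _ _ z).1
  rw [sum_image fun a _ b _ h => by simpa using congrFun h ()] at h3
  have h4 : #A • Real.exp (-4) ≤ ∑ a ∈ A, T.wgt (fun _ => (a : ℤ)) * f fun _ => (a : ℤ) := by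
    refine card_nsmul_le_sum _ _ _ fun a ha => ?_
    have e1 : f (fun _ => (a : ℤ)) = 1 := by
      rw [hf, indA, if_pos]
      exact ⟨a, ha, by simp [ev]⟩
    have e2 : (a : ℝ) ≤ N := by exact_mod_cast (mem_Icc.1 (hA ha)).2
    have e3 : ((N : ℝ)⁻¹ * ((a : ℤ) : ℝ)) ^ 2 ≤ 1 := by
      refine pow_le_one₀ (by positivity) ?_
      rw [inv_mul_le_iff₀ (by positivity)]
      simpa using e2
    rw [e1, mul_one, hT, cell0_wgt]
    refine Real.exp_le_exp.2 ?_
    nlinarith [Real.pi_le_four, Real.pi_pos]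
  change _ ≤ (∑' z, T.wgt z * f z) / T.M
  rw [le_div_iff₀ T.M_pos]
  refine le_trans ?_ (h4.trans h3)
  have e1 : Real.exp (-5) = Real.exp (-4) * Real.exp (-1) := by rw [← Real.exp_add]; norm_num
  have e2 : Real.exp (-1) ≤ 1 / 2 := by
    rw [Real.exp_neg, inv_le_comm₀ (Real.exp_pos _) (by norm_num)]
    linarith [Real.add_one_le_exp (1 : ℝ)]
  have e3 : Real.exp (-1) * T.M ≤ N := by nlinarith [T.M_pos, Real.exp_pos (-1)]
  rw [nsmul_eq_mul, e1]
  calc _ = #A * Real.exp (-4) * (Real.exp (-1) * T.M / N) := by ring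
    _ ≤ _ := mul_le_of_le_one_right (by positivity) (div_le_one_of_le₀ e3 (by positivity))

theorem apf_int {k : ℕ} (hk : 1 ≤ k) {A : Finset ℕ}
    (h : ∀ a d : ℕ, 0 < d → ∃ i, i < k ∧ a + i * d ∉ A) (a d : ℤ) (hd : d ≠ 0) :
    ∃ i : ℕ, i < k ∧ a + i * d ∉ (Nat.cast '' (A : Set ℕ) : Set ℤ) := by
  have key : ∀ a d : ℤ, 0 < d → ∃ i : ℕ, i < k ∧ a + i * d ∉ (Nat.cast '' (A : Set ℕ) : Set ℤ) := by
    intro a d hd
    by_contra hc
    push Not at hc
    obtain ⟨a0, -, h0⟩ := hc 0 hk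
    lift d to ℕ using hd.le
    obtain ⟨i, hi, h1⟩ := h a0 d (by exact_mod_cast hd)
    obtain ⟨b, hb, h2⟩ := hc i hi
    have : b = a0 + i * d := by
      have : (b : ℤ) = a0 + i * d := by rw [h2, h0]; simp
      exact_mod_cast this
    exact h1 (this ▸ hb)
  rcases hd.lt_or_gt with h1 | h1
  · obtain ⟨i, hi, h2⟩ := key (a + (k - 1 : ℕ) * d) (-d) (by omega)
    refine ⟨k - 1 - i, by omega, ?_⟩
    convert h2 using 2
    rw [Nat.cast_sub (by omega)]
    ring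
  · exact key a d h1

/-- the costs of a state -/
def Stt.cst {s : ℕ} {LN : ℝ} (x : Stt s LN) (j : ℕ) : ℝ :=
  if j = 0 then Fintype.card x.ι else if j ≤ s then x.U.kap (s + 1 - j) else x.Y

theorem Stt.cst_nonneg {s : ℕ} {LN : ℝ} (x : Stt s LN) (j : ℕ) : 0 ≤ x.cst j := by
  unfold Stt.cst
  split_ifs
  exacts [Nat.cast_nonneg _, kap_nonneg _ _, x.Y0]

theorem Stt.sum_cst {s : ℕ} {LN : ℝ} (x : Stt s LN) (j : ℕ) (hj : j ≤ s) :
    ∑ i ∈ range (j + 1), x.cst i = Fintype.card x.ι + ∑ l ∈ Ioc (s - j) s, x.U.kap l := by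
  induction j with
  | zero => simp [Stt.cst]
  | succ j ih =>
    have e : Ioc (s - (j + 1)) s = insert (s - j) (Ioc (s - j) s) := by
      ext l
      simp only [mem_Ioc, mem_insert]
      omega
    rw [sum_range_succ, ih (by omega), Stt.cst, if_neg (by omega), if_pos hj, e,
      sum_insert (by simp), show s + 1 - (j + 1) = s - j by omega]
    ring

theorem sum_fin_lt {r : ℕ} (f : ℕ → ℝ) (j : Fin r) :
    ∑ i ∈ univ.filter (· < j), f i = ∑ i ∈ range j, f i := by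
  rw [sum_filter]
  simp only [Fin.lt_def]
  rw [Fin.sum_univ_eq_sum_range (fun i => if i < (j : ℕ) then f i else 0) r, ← sum_filter]
  congr 1
  ext i
  have := j.2
  simp only [mem_filter, mem_range]
  omega

theorem exp_gt (K : ℕ) : ∃ m0 : ℕ, ∀ m : ℝ, m0 ≤ m → m ^ K < Real.exp m := by
  refine ⟨(K + 1).factorial + 1, fun m hm => ?_⟩
  push_cast at hm
  have h0 : (0 : ℝ) < (K + 1).factorial := by positivity
  have h1 := Real.pow_div_factorial_le_exp m (by linarith) (K + 1)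
  rw [div_le_iff₀ h0, pow_succ] at h1
  have h2 : 0 < m ^ K := pow_pos (by linarith) K
  nlinarith [Real.exp_pos m]

theorem top_s {s : ℕ} (hs : 1 ≤ s) (hI : Inc s) (hO : OReg s) (hN : NondegStmt) :
    ∃ C c ε : ℝ, 0 < C ∧ 0 < c ∧ 0 < ε ∧ ∀ N : ℕ, 2 ≤ N → ∀ A : Finset ℕ,
      A ⊆ Finset.Icc 1 N → (∀ a d : ℕ, 0 < d → ∃ i, i < s + 2 ∧ a + i * d ∉ A) →
        (A.card : ℝ) ≤ C * N * Real.exp (-(c * Real.log N ^ ε)) := by
  obtain ⟨K, hK, h⟩ := step hI hO hN
  obtain ⟨K', hK'⟩ := Itr.iterP.{1} (s + 2) K hK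
  obtain ⟨m0, hm0⟩ := exp_gt K'
  obtain ⟨K2, -, h2⟩ := PB.exists_le (f := fun m => (m + 5 + m0) ^ K') (by fun_prop)
  refine Itr.final (s + 2) K2 fun N A m hN2 hm hA hAP hd => ?_
  have hm' : (2 : ℝ) ≤ m := by exact_mod_cast hm
  have hN0 : N ≠ 0 := by omega
  have m00 : (0 : ℝ) ≤ m0 := Nat.cast_nonneg _
  set m1 : ℝ := m + 5 + m0 with hm1
  have hm2 : 2 ≤ m1 := by linarith
  have hd' : Real.exp (-(m : ℝ)) ≤ #A / N := by
    have h1 : (N : ℝ) ≤ 2 ^ m * #A := by exact_mod_cast hd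
    have h2 : (2 : ℝ) ^ m ≤ Real.exp m := by
      rw [← mul_one (m : ℝ), Real.exp_nat_mul]
      refine pow_le_pow_left₀ (by norm_num) ?_ _
      linarith [Real.add_one_le_exp (1 : ℝ)]
    rw [le_div_iff₀ (by positivity), Real.exp_neg, inv_mul_le_iff₀ (Real.exp_pos _)]
    exact h1.trans (mul_le_mul_of_nonneg_right h2 (by positivity))
  have key := hK' (Stt s (Real.log N)) (fun x => x.dn (Nat.cast '' (A : Set ℕ)))
    (fun x j => x.cst j) m1 (min (Real.log N) (Real.exp m1)) (st0 s N hs hN0) hm2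
    (fun x => (dens_mem _ (indA_mem _ _)).2) (fun x j => x.cst_nonneg j) ?_ ?_ ?_
  · rcases min_le_iff.1 key with h3 | h3
    · exact h3.trans (h2 m hm')
    · exact absurd h3 (not_le.2 (hm0 m1 (by linarith)))
  · refine le_trans ?_ (st0_dn s N hs hN0 A hA)
    calc Real.exp (-m1) ≤ Real.exp (-5) * Real.exp (-(m : ℝ)) := by
          rw [← Real.exp_add]; exact Real.exp_le_exp.2 (by linarith)
      _ ≤ _ := by gcongr
  · intro j
    refine le_trans ?_ (PB.le_pow hm2 hK)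
    unfold Stt.cst
    split_ifs
    · change ((Fintype.card Unit : ℕ) : ℝ) ≤ m1
      simp only [Fintype.card_unit, Nat.cast_one]
      linarith
    · linarith [st0_kap s N hs hN0 (s + 1 - j)]
    · change (0 : ℝ) ≤ m1
      linarith
  · intro x hx hB
    have e0 : ∑ j : Fin (s + 2), x.cst j =
        Fintype.card x.ι + ∑ l ∈ Ioc 0 s, x.U.kap l + x.Y := by
      rw [Fin.sum_univ_eq_sum_range x.cst, sum_range_succ, x.sum_cst s le_rfl, Nat.sub_self,
        Stt.cst, if_neg (by omega), if_neg (by omega)]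
    rw [e0, le_min_iff] at hB
    have S0 : ∀ l, 0 ≤ ∑ l' ∈ Ioc l s, x.U.kap l' := fun l => sum_nonneg fun _ _ => kap_nonneg _ _
    have n0 : (0 : ℝ) ≤ Fintype.card x.ι := Nat.cast_nonneg _
    have Y0 := x.Y0
    obtain ⟨x', i1, i2, i3, i4⟩ := h _ m1 _ x hm2 (apf_int (by omega) hAP) hx (fun l => by
      by_cases hl : l = 0 ∨ s < l
      · rw [O26.kap_eq_one x.U x.lev hl]
        exact Real.one_le_exp (by linarith)
      · have := single_le_sum (f := x.U.kap) (s := Ioc 0 s) (fun _ _ => kap_nonneg _ _) (a := l)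
          (mem_Ioc.2 (by omega))
        exact le_trans (le_trans (by linarith) (PB.le_pow (by linarith [S0 0]) hK)) hB.2) hB.1
    refine ⟨x', i1, fun j => ?_⟩
    have e1 : ∑ i ∈ range j, x.cst i ≤ ∑ i ∈ univ.filter (· < j), (x'.cst i + x.cst i) := by
      rw [← sum_fin_lt]
      exact sum_le_sum fun i _ => le_add_of_nonneg_left (x'.cst_nonneg i)
    refine le_trans ?_ (add_le_add le_rfl (pow_le_pow_left₀
      (add_nonneg (by linarith) (sum_nonneg fun i _ => x.cst_nonneg i)) (add_le_add le_rfl e1) K))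
    obtain ⟨j, hj⟩ := j
    rcases j with _ | j
    · simpa [Stt.cst] using i2
    · dsimp only
      rw [x.sum_cst j (by omega)]
      unfold Stt.cst
      rw [if_neg (by omega), if_neg (Nat.succ_ne_zero j)]
      split_ifs with h1
      · rw [show s + 1 - (j + 1) = s - j by omega]
        exact i3 _
      · rw [show s - j = 0 by omega]
        exact i4

/-- **S0068 from the interfaces** -/
theorem top_of (hS : StartStmt) (hB : BulkStmt) (hG : GlueStmt) (hE : EndStmt) (hO : ORegStmt)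
    (hN : NondegStmt) (k : ℕ) (hk : 3 ≤ k) :
    ∃ C c ε : ℝ, 0 < C ∧ 0 < c ∧ 0 < ε ∧ ∀ N : ℕ, 2 ≤ N → ∀ A : Finset ℕ,
      A ⊆ Finset.Icc 1 N → (∀ a d : ℕ, 0 < d → ∃ i, i < k ∧ a + i * d ∉ A) →
        (A.card : ℝ) ≤ C * N * Real.exp (-(c * Real.log N ^ ε)) := by
  obtain ⟨s, rfl⟩ : ∃ s, k = s + 2 := ⟨k - 2, by omega⟩
  have hs : 1 ≤ s := by omega
  refine top_s hs (inc_of hs (fun D hD => hS s D hs hD ?_) hB hG hE) (hO s hs) hN
  have : Nonempty (Fin D) := ⟨⟨0, hD⟩⟩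
  exact Win.ginc_of_gi GI.gi1 (Fin D) hk

end Crest.Agent.T49.Top
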