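import Crest.Agent.T49.GauA_64

/-!
# Row 49 (helper64): Gaussian lattice library, part B (positivity, scaling, tails, bias, smoothing)
-/

set_option autoImplicit false
set_option linter.unusedSectionVars false

noncomputable section

namespace Crest.Agent.T49.Gau

open MeasureTheory Real Complex
open scoped InnerProductSpace
open Crest.Agent.T49.Lat (cast cast_apply)

variable {ι : Type*} [Fintype ι] {E : Type*} [NormedAddCommGroup E] [InnerProductSpace ℝ E]
variable {A B : (ι → ℝ) →ₗ[ℝ] E}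

/-- the twisted theta value -/
def thc (A : (ι → ℝ) →ₗ[ℝ] E) (c : E) (t : ι → ℝ) : ℂ :=
  ∑' x : ι → ℤ, (rho (A (cast x) + c) : ℂ) * e (t ⬝ᵥ cast x)

theorem summable_thc (hA : Function.Injective A) (c : E) (t : ι → ℝ) :
    Summable fun x : ι → ℤ => (rho (A (cast x) + c) : ℂ) * e (t ⬝ᵥ cast x) :=
  summable_rho_mul hA c (M := 1) fun _ => (norm_e _).le

theorem thc_zero (A : (ι → ℝ) →ₗ[ℝ] E) (c : E) : thc A c 0 = th A c := by
  unfold thc th
  rw [Complex.ofReal_tsum]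
  simp

theorem thc_add_cast (A : (ι → ℝ) →ₗ[ℝ] E) (c : E) (t : ι → ℝ) (k : ι → ℤ) :
    thc A c (t + cast k) = thc A c t := by
  unfold thc
  refine tsum_congr fun x => ?_
  rw [add_dotProduct, e_add, e_cast_dot, mul_one]

theorem norm_tsum_rho_mul_le (hA : Function.Injective A) (c : E) {f : (ι → ℤ) → ℂ} {M : ℝ}
    (hf : ∀ x, ‖f x‖ ≤ M) : ‖∑' x : ι → ℤ, (rho (A (cast x) + c) : ℂ) * f x‖ ≤ M * th A c := by
  refine tsum_of_norm_bounded (g := fun x => M * rho (A (cast x) + c))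
    ((summable_rho hA c).hasSum.mul_left M) fun x => ?_
  rw [norm_mul, Complex.norm_real, Real.norm_of_nonneg (rho_pos _).le, mul_comm]
  exact mul_le_mul_of_nonneg_right (hf x) (rho_pos _).le

theorem norm_thc_le_th (hA : Function.Injective A) (c : E) (t : ι → ℝ) :
    ‖thc A c t‖ ≤ th A c := by
  have := norm_tsum_rho_mul_le hA c (M := 1) (f := fun x => e (t ⬝ᵥ cast x))
    fun _ => (norm_e _).le
  rwa [one_mul] at this

/-- `w` is orthogonal to the span of the lattice -/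
def Perp (A : (ι → ℝ) →ₗ[ℝ] E) (w : E) : Prop := ∀ v, ⟪A v, w⟫_ℝ = 0

theorem perp_zero (A : (ι → ℝ) →ₗ[ℝ] E) : Perp A 0 := fun _ => inner_zero_right _

theorem exists_perp (hA : Function.Injective A) (c : E) :
    ∃ (u : ι → ℝ) (w : E), Perp A w ∧ c = A u + w := by
  obtain ⟨B, h⟩ := exists_dual hA
  obtain ⟨u, hu⟩ := h.exists_proj c
  exact ⟨u, c - A u, hu, by abel⟩

theorem Perp.rho_add {w : E} (hw : Perp A w) (v : ι → ℝ) : rho (A v + w) = rho (A v) * rho w :=
  rho_add_of_inner (hw v)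

theorem Perp.norm_le {w : E} (hw : Perp A w) (v : ι → ℝ) : ‖A v‖ ≤ ‖A v + w‖ := by
  refine (pow_le_pow_iff_left₀ (norm_nonneg _) (norm_nonneg _) two_ne_zero).1 ?_
  rw [norm_add_sq_real, hw v]
  nlinarith [sq_nonneg ‖w‖]

theorem Perp.norm_le' {w : E} (hw : Perp A w) (v : ι → ℝ) : ‖w‖ ≤ ‖A v + w‖ := by
  refine (pow_le_pow_iff_left₀ (norm_nonneg _) (norm_nonneg _) two_ne_zero).1 ?_
  rw [norm_add_sq_real, hw v]
  nlinarith [sq_nonneg ‖A v‖]

theorem Perp.smul {w : E} (hw : Perp A w) (s r : ℝ) : Perp (s • A) (r • w) := fun v => by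
  rw [LinearMap.smul_apply, real_inner_smul_left, real_inner_smul_right, hw v]; simp

theorem Perp.thc {w : E} (hw : Perp A w) (u t : ι → ℝ) :
    thc A (A u + w) t = rho w * thc A (A u) t := by
  unfold Gau.thc
  rw [← tsum_mul_left]
  refine tsum_congr fun x => ?_
  rw [← add_assoc, ← map_add, hw.rho_add]
  push_cast
  ring

theorem Perp.th {w : E} (hw : Perp A w) (u : ι → ℝ) : th A (A u + w) = rho w * th A (A u) := by
  have := hw.thc u 0
  rw [thc_zero, thc_zero] at this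
  exact_mod_cast this

/-- Poisson summation for `thc` -/
theorem IsDual.thc_eq (h : IsDual A B) (u t : ι → ℝ) :
    thc A (A u) t = kap A * e (-(t ⬝ᵥ u)) * thc B (B (-t)) u := by
  have h1 := poisson h u t
  have h2 : ∑' x : ι → ℤ, (rho (A (cast x) + A u) : ℂ) * e (t ⬝ᵥ (cast x + u)) =
      e (t ⬝ᵥ u) * thc A (A u) t := by
    unfold thc
    rw [← tsum_mul_left]
    refine tsum_congr fun x => ?_
    rw [dotProduct_add, e_add]; ring
  have h3 : ∑' k : ι → ℤ, (rho (B (cast k) + B (-t)) : ℂ) * e (cast k ⬝ᵥ u) =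
      thc B (B (-t)) u := tsum_congr fun k => by rw [dotProduct_comm]
  rw [h2, h3] at h1
  have h4 : e (-(t ⬝ᵥ u)) * e (t ⬝ᵥ u) = 1 := by rw [← e_add]; simp
  calc thc A (A u) t = (e (-(t ⬝ᵥ u)) * e (t ⬝ᵥ u)) * thc A (A u) t := by rw [h4, one_mul]
    _ = e (-(t ⬝ᵥ u)) * (e (t ⬝ᵥ u) * thc A (A u) t) := by ring
    _ = _ := by rw [h1]; ring

/-- the centred twisted sum is a positive real number -/
theorem IsDual.thc_zero_eq (h : IsDual A B) (t : ι → ℝ) :
    thc A 0 t = ((kap A * th B (B (-t)) : ℝ) : ℂ) := by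
  have := h.thc_eq 0 t
  rw [map_zero, dotProduct_zero, neg_zero, e_zero, mul_one, thc_zero] at this
  rw [this]; push_cast; ring

theorem IsDual.th_eq (h : IsDual A B) (u : ι → ℝ) :
    (th A (A u) : ℂ) = kap A * thc B 0 u := by
  have := h.thc_eq u 0
  rw [thc_zero, zero_dotProduct, neg_zero, neg_zero, e_zero, mul_one, map_zero] at this
  exact this

theorem IsDual.th_zero_eq (h : IsDual A B) : th A 0 = kap A * th B 0 := by
  have := h.th_eq 0
  rw [map_zero, thc_zero] at this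
  exact_mod_cast this

theorem IsDual.kap_mul (h : IsDual A B) : kap A * kap B = 1 := by
  have h1 := h.th_zero_eq
  have h2 := h.symm.th_zero_eq
  have h3 := th_pos h.inj 0
  rw [h2, ← mul_assoc] at h1
  exact mul_right_cancel₀ h3.ne' (by rw [← h1, one_mul])

theorem IsDual.norm_thc_perp_le (h : IsDual A B) {w : E} (hw : Perp A w) (u t : ι → ℝ) :
    ‖thc A (A u + w) t‖ ≤ rho w * (kap A * th B (B (-t))) := by
  rw [hw.thc, h.thc_eq, norm_mul, norm_mul, norm_mul, norm_e, mul_one, Complex.norm_real,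
    Complex.norm_real, Real.norm_of_nonneg (rho_pos _).le,
    Real.norm_of_nonneg (kap_pos h.inj).le]
  exact mul_le_mul_of_nonneg_left
    (mul_le_mul_of_nonneg_left (norm_thc_le_th h.inj' _ _) (kap_pos h.inj).le) (rho_pos _).le

theorem IsDual.norm_thc_le (h : IsDual A B) (c : E) (t : ι → ℝ) :
    ‖thc A c t‖ ≤ kap A * th B (B (-t)) := by
  obtain ⟨u, w, hw, rfl⟩ := exists_perp h.inj c
  refine (h.norm_thc_perp_le hw u t).trans ?_
  exact mul_le_of_le_one_left (mul_nonneg (kap_pos h.inj).le (th_nonneg _ _)) (rho_le_one w)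

/-- **positivity**: shifting the centre can only decrease the twisted sum -/
theorem norm_thc_le_re (hA : Function.Injective A) (c : E) (t : ι → ℝ) :
    ‖thc A c t‖ ≤ (thc A 0 t).re := by
  obtain ⟨B, h⟩ := exists_dual hA
  rw [h.thc_zero_eq, Complex.ofReal_re]
  exact h.norm_thc_le c t

theorem norm_thc_perp_le_re (hA : Function.Injective A) {w : E} (hw : Perp A w) (u t : ι → ℝ) :
    ‖thc A (A u + w) t‖ ≤ rho w * (thc A 0 t).re := by
  obtain ⟨B, h⟩ := exists_dual hA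
  rw [h.thc_zero_eq, Complex.ofReal_re]
  exact h.norm_thc_perp_le hw u t

theorem thc_zero_re_pos (hA : Function.Injective A) (t : ι → ℝ) : 0 < (thc A 0 t).re := by
  obtain ⟨B, h⟩ := exists_dual hA
  rw [h.thc_zero_eq, Complex.ofReal_re]
  exact mul_pos (kap_pos hA) (th_pos h.inj' _)

theorem thc_zero_im (hA : Function.Injective A) (t : ι → ℝ) : (thc A 0 t).im = 0 := by
  obtain ⟨B, h⟩ := exists_dual hA
  rw [h.thc_zero_eq, Complex.ofReal_im]

theorem th_le_th_zero (hA : Function.Injective A) (c : E) : th A c ≤ th A 0 := by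
  have := norm_thc_le_re hA c 0
  rwa [thc_zero, thc_zero, Complex.ofReal_re, Complex.norm_real,
    Real.norm_of_nonneg (th_nonneg _ _)] at this

theorem rho_mul_le_th (hA : Function.Injective A) (c : E) : rho c * th A 0 ≤ th A c := by
  have h1 : 2 * th A c = ∑' x : ι → ℤ, (rho (A (cast x) + c) + rho (A (cast x) + -c)) := by
    rw [(summable_rho hA c).tsum_add (summable_rho hA (-c)), two_mul]
    congr 1
    exact (th_neg A c).symm
  have h2 : 2 * (rho c * th A 0) = ∑' x : ι → ℤ, 2 * (rho c * rho (A (cast x) + 0)) := by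
    rw [tsum_mul_left, tsum_mul_left]; rfl
  have h3 : 2 * (rho c * th A 0) ≤ 2 * th A c := by
    rw [h1, h2]
    refine Summable.tsum_le_tsum (fun x => ?_) (((summable_rho hA 0).mul_left _).mul_left _)
      ((summable_rho hA c).add (summable_rho hA (-c)))
    rw [add_zero, rho_add, rho_add, rho_neg, inner_neg_right]
    set a := ⟪A (cast x), c⟫_ℝ
    have e1 := Real.add_one_le_exp (-2 * π * a)
    have e2 := Real.add_one_le_exp (-2 * π * -a)
    have e3 : 0 < rho (A (cast x)) * rho c := mul_pos (rho_pos _) (rho_pos _)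
    nlinarith
  linarith

theorem kap_le_th (hA : Function.Injective A) : kap A ≤ th A 0 := by
  obtain ⟨B, h⟩ := exists_dual hA
  rw [h.th_zero_eq]
  exact le_mul_of_one_le_right (kap_pos hA).le (one_le_th h.inj')

/-! ### change of the quadratic form -/

theorem kap_comp (A : (ι → ℝ) →ₗ[ℝ] E) {T : (ι → ℝ) →ₗ[ℝ] (ι → ℝ)} (hT : LinearMap.det T ≠ 0) :
    kap (A.comp T) = |(LinearMap.det T)⁻¹| * kap A := by
  unfold kap
  have h := Measure.map_linearMap_addHaar_eq_smul_addHaar (volume : Measure (ι → ℝ)) hT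
  have h1 : ∫ v, rho (A (T v)) = ∫ v, rho (A v) ∂(Measure.map T volume) :=
    (integral_map T.continuous_of_finiteDimensional.aemeasurable
      (continuous_rho.comp (continuous_lin A)).aestronglyMeasurable).symm
  simp only [LinearMap.comp_apply]
  rw [h1, h, integral_smul_measure, ENNReal.toReal_ofReal (abs_nonneg _), smul_eq_mul]

theorem kap_smul (A : (ι → ℝ) →ₗ[ℝ] E) {s : ℝ} (hs : 0 ≤ s) :
    kap (s • A) = (s ^ Fintype.card ι)⁻¹ * kap A := by
  unfold kap
  have := Measure.integral_comp_smul_of_nonneg (volume : Measure (ι → ℝ))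
    (fun v => rho (A v)) s (hR := hs)
  simp only [map_smul, Module.finrank_pi, smul_eq_mul] at this
  simpa only [LinearMap.smul_apply] using this

theorem inj_smul (hA : Function.Injective A) {s : ℝ} (hs : s ≠ 0) :
    Function.Injective (s • A) := fun _ _ h => hA (smul_right_injective E hs h)

section Mono

variable {F : Type*} [NormedAddCommGroup F] [InnerProductSpace ℝ F]
variable {A' B' : (ι → ℝ) →ₗ[ℝ] F}

theorem inj_of_le (hA' : Function.Injective A') (h : ∀ v, ‖A' v‖ ≤ ‖A v‖) :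
    Function.Injective A := by
  refine (injective_iff_map_eq_zero A).2 fun v hv => hA' ?_
  have := h v
  rw [hv, norm_zero] at this
  rw [map_zero, norm_le_zero_iff.1 this]

/-- wider windows have more mass -/
theorem th_zero_mono (hA' : Function.Injective A') (h : ∀ v, ‖A' v‖ ≤ ‖A v‖) :
    th A 0 ≤ th A' 0 :=
  Summable.tsum_le_tsum (fun x => rho_le_of_norm_le (by simpa using h (cast x)))
    (summable_rho (inj_of_le hA' h) 0) (summable_rho hA' 0)

theorem kap_mono (hA' : Function.Injective A') (h : ∀ v, ‖A' v‖ ≤ ‖A v‖) : kap A ≤ kap A' := by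
  have h1 := integrable_rho (inj_of_le hA' h) 0
  have h2 := integrable_rho hA' 0
  simp only [add_zero] at h1 h2
  exact integral_mono h1 h2 fun v => rho_le_of_norm_le (h v)

theorem IsDual.norm_mono (h : IsDual A B) (h' : IsDual A' B') (hle : ∀ v, ‖A' v‖ ≤ ‖A v‖)
    (t : ι → ℝ) : ‖B t‖ ≤ ‖B' t‖ :=
  h.norm_le (norm_nonneg _) fun v => (le_abs_self _).trans
    ((h'.abs_dot_le t v).trans (mul_le_mul_of_nonneg_left (hle v) (norm_nonneg _)))

/-- the ratio mass / volume -/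
def rat (A : (ι → ℝ) →ₗ[ℝ] E) : ℝ := th A 0 / kap A

theorem IsDual.rat_eq (h : IsDual A B) : rat A = th B 0 := by
  rw [rat, h.th_zero_eq, mul_div_cancel_left₀ _ (kap_pos h.inj).ne']

theorem th_zero_eq_rat (hA : Function.Injective A) : th A 0 = kap A * rat A := by
  rw [rat, mul_div_cancel₀ _ (kap_pos hA).ne']

theorem one_le_rat (hA : Function.Injective A) : 1 ≤ rat A := by
  obtain ⟨B, h⟩ := exists_dual hA
  rw [h.rat_eq]; exact one_le_th h.inj'

/-- wider windows have a smaller ratio -/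
theorem rat_mono (hA' : Function.Injective A') (h : ∀ v, ‖A' v‖ ≤ ‖A v‖) : rat A' ≤ rat A := by
  obtain ⟨B, d⟩ := exists_dual (inj_of_le hA' h)
  obtain ⟨B', d'⟩ := exists_dual hA'
  rw [d.rat_eq, d'.rat_eq]
  exact th_zero_mono d.inj' (d.norm_mono d' h)

end Mono

theorem norm_smul_apply_le (A : (ι → ℝ) →ₗ[ℝ] E) {s : ℝ} (hs : 0 ≤ s) (hs1 : s ≤ 1) (v : ι → ℝ) :
    ‖(s • A) v‖ ≤ ‖A v‖ := by
  rw [LinearMap.smul_apply, norm_smul, Real.norm_of_nonneg hs]
  exact mul_le_of_le_one_left (norm_nonneg _) hs1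

/-- **scaling** -/
theorem th_smul_le (hA : Function.Injective A) {s : ℝ} (hs : 0 < s) (hs1 : s ≤ 1) (c : E) :
    th (s • A) c ≤ (s ^ Fintype.card ι)⁻¹ * th A 0 := by
  have h1 := inj_smul hA hs.ne'
  refine (th_le_th_zero h1 c).trans ?_
  rw [th_zero_eq_rat h1, th_zero_eq_rat hA, kap_smul A hs.le, mul_assoc]
  exact mul_le_mul_of_nonneg_left (mul_le_mul_of_nonneg_left
    (rat_mono h1 (norm_smul_apply_le A hs.le hs1)) (kap_pos hA).le) (by positivity)

/-- narrowing the window multiplies the ratio by at most `s ^ n` -/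
theorem rat_smul_le (hA : Function.Injective A) {s : ℝ} (hs : 1 ≤ s) :
    rat (s • A) ≤ s ^ Fintype.card ι * rat A := by
  have hs0 : 0 < s := by linarith
  obtain ⟨B, h⟩ := exists_dual hA
  rw [(h.smul hs0.ne').rat_eq, h.rat_eq]
  have := th_smul_le h.inj' (inv_pos.2 hs0) (inv_le_one_of_one_le₀ hs) 0
  rwa [inv_pow, inv_inv] at this

/-! ### tails -/

theorem rho_le_of_le_norm {v : E} {R s : ℝ} (hR : 0 ≤ R) (hs1 : s ^ 2 ≤ 1) (hv : R ≤ ‖v‖) :
    rho v ≤ Real.exp (-π * (1 - s ^ 2) * R ^ 2) * rho (s • v) := by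
  rw [rho_smul, ← Real.exp_add]
  unfold rho
  refine Real.exp_le_exp.2 ?_
  have h2 : R ^ 2 ≤ ‖v‖ ^ 2 := pow_le_pow_left₀ hR hv 2
  have h3 : 0 ≤ π * (1 - s ^ 2) := mul_nonneg Real.pi_pos.le (by linarith)
  nlinarith

/-- **Banaszczyk tail bound**, general form -/
theorem tail_le_gen (hA : Function.Injective A) (c : E) {R s : ℝ} (hR : 0 ≤ R) (hs : 0 < s)
    (hs1 : s ≤ 1) {f : (ι → ℤ) → ℝ} (hf1 : ∀ x, |f x| ≤ 1)
    (hf : ∀ x, ‖A (cast x) + c‖ < R → f x ≤ 0) :
    ∑' x : ι → ℤ, rho (A (cast x) + c) * f x ≤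
      (s ^ Fintype.card ι)⁻¹ * Real.exp (-π * (1 - s ^ 2) * R ^ 2) * th A 0 := by
  have h1 := inj_smul hA hs.ne'
  calc ∑' x : ι → ℤ, rho (A (cast x) + c) * f x
      ≤ ∑' x : ι → ℤ, Real.exp (-π * (1 - s ^ 2) * R ^ 2) * rho ((s • A) (cast x) + s • c) := by
        refine Summable.tsum_le_tsum (fun x => ?_) (summable_rho_mul_real hA c hf1)
          ((summable_rho h1 _).mul_left _)
        by_cases hx : ‖A (cast x) + c‖ < R
        · exact (mul_nonpos_of_nonneg_of_nonpos (rho_pos _).le (hf x hx)).trans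
            (mul_pos (Real.exp_pos _) (rho_pos _)).le
        · rw [LinearMap.smul_apply, ← smul_add]
          refine (mul_le_of_le_one_right (rho_pos _).le ((le_abs_self _).trans (hf1 x))).trans ?_
          exact rho_le_of_le_norm hR (by nlinarith) (not_lt.1 hx)
    _ = Real.exp (-π * (1 - s ^ 2) * R ^ 2) * th (s • A) (s • c) := tsum_mul_left
    _ ≤ Real.exp (-π * (1 - s ^ 2) * R ^ 2) * ((s ^ Fintype.card ι)⁻¹ * th A 0) :=
        mul_le_mul_of_nonneg_left (th_smul_le hA hs hs1 _) (Real.exp_pos _).le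
    _ = _ := by ring

theorem tail_const (n : ℕ) (R : ℝ) :
    (((2 / 3 : ℝ)) ^ n)⁻¹ * Real.exp (-π * (1 - (2 / 3 : ℝ) ^ 2) * R ^ 2) ≤
      Real.exp (n / 2 - 3 / 2 * R ^ 2) := by
  have h1 : (((2 / 3 : ℝ)) ^ n)⁻¹ ≤ Real.exp (n / 2) := by
    rw [← inv_pow, show (n / 2 : ℝ) = n * (1 / 2) by ring, Real.exp_nat_mul]
    refine pow_le_pow_left₀ (by norm_num) ?_ n
    have := Real.add_one_le_exp (1 / 2 : ℝ)
    linarith
  rw [sub_eq_add_neg (n / 2 : ℝ), Real.exp_add]
  refine mul_le_mul h1 (Real.exp_le_exp.2 ?_) (Real.exp_pos _).le (Real.exp_pos _).le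
  nlinarith [Real.pi_gt_three, sq_nonneg R]

/-- **Banaszczyk tail bound** -/
theorem tail_le (hA : Function.Injective A) (c : E) {R : ℝ} (hR : 0 ≤ R)
    {f : (ι → ℤ) → ℝ} (hf1 : ∀ x, |f x| ≤ 1) (hf : ∀ x, ‖A (cast x) + c‖ < R → f x ≤ 0) :
    ∑' x : ι → ℤ, rho (A (cast x) + c) * f x ≤
      Real.exp (Fintype.card ι / 2 - 3 / 2 * R ^ 2) * th A 0 :=
  (tail_le_gen hA c hR (s := 2 / 3) (by norm_num) (by norm_num) hf1 hf).trans
    (mul_le_mul_of_nonneg_right (tail_const _ R) (th_nonneg _ _))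

/-- if no point of the shifted lattice is short then its mass is small -/
theorem th_le_of_far (hA : Function.Injective A) (c : E) {R : ℝ} (hR : 0 ≤ R)
    (h : ∀ x : ι → ℤ, R ≤ ‖A (cast x) + c‖) :
    th A c ≤ Real.exp (Fintype.card ι / 2 - 3 / 2 * R ^ 2) * th A 0 := by
  have := tail_le hA c hR (f := fun _ => 1) (fun _ => by simp)
    fun x hx => absurd (h x) (not_le.2 hx)
  simp only [mul_one] at this
  exact this

theorem exp_sqrt_lt (n : ℕ) {δ : ℝ} (hδ : 0 < δ) (hδ1 : δ ≤ 1) :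
    Real.exp (n / 2 - 3 / 2 * √(n + 1 + Real.log δ⁻¹) ^ 2) < δ := by
  have hl : 0 ≤ Real.log δ⁻¹ := Real.log_nonneg ((one_le_inv₀ hδ).2 hδ1)
  rw [Real.sq_sqrt (by positivity)]
  conv_rhs => rw [← Real.exp_log hδ]
  refine Real.exp_lt_exp.2 ?_
  rw [Real.log_inv] at hl ⊢
  have : (0 : ℝ) ≤ n := Nat.cast_nonneg n
  linarith

/-- a shifted lattice with mass `δ` has a short point -/
theorem exists_short (hA : Function.Injective A) (c : E) {δ : ℝ} (hδ : 0 < δ)
    (h : δ * th A 0 ≤ th A c) :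
    ∃ x : ι → ℤ, ‖A (cast x) + c‖ < √(Fintype.card ι + 1 + Real.log δ⁻¹) := by
  have h0 := th_pos hA 0
  have hδ1 : δ ≤ 1 := le_of_mul_le_mul_right
    (by rw [one_mul]; exact h.trans (th_le_th_zero hA c)) h0
  by_contra hc
  push Not at hc
  have h1 := th_le_of_far hA c (Real.sqrt_nonneg _) hc
  have h2 := mul_lt_mul_of_pos_right (exp_sqrt_lt (Fintype.card ι) hδ hδ1) h0
  linarith

/-- **bias implies relation** (any lattice, any centre) -/
theorem IsDual.exists_of_bias_perp (h : IsDual A B) {w : E} (hw : Perp A w) (u t : ι → ℝ)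
    {δ : ℝ} (hδ : 0 < δ) (hb : δ * (rho w * th A 0) ≤ ‖thc A (A u + w) t‖) :
    ∃ k : ι → ℤ, ‖B (t - cast k)‖ < √(Fintype.card ι + 1 + Real.log δ⁻¹) := by
  have h1 := hb.trans (h.norm_thc_perp_le hw u t)
  rw [h.th_zero_eq] at h1
  have h2 : δ * th B 0 ≤ th B (B (-t)) := by
    have h3 : 0 < rho w * kap A := mul_pos (rho_pos w) (kap_pos h.inj)
    refine le_of_mul_le_mul_left ?_ h3
    calc rho w * kap A * (δ * th B 0) = δ * (rho w * (kap A * th B 0)) := by ring
      _ ≤ _ := h1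
      _ = _ := by ring
  obtain ⟨k, hk⟩ := exists_short h.inj' _ hδ h2
  refine ⟨k, ?_⟩
  rwa [← map_add, ← norm_neg, ← map_neg, neg_add, neg_neg, add_comm, ← sub_eq_add_neg] at hk

theorem IsDual.exists_of_bias (h : IsDual A B) (c : E) (t : ι → ℝ)
    {δ : ℝ} (hδ : 0 < δ) (hb : δ * th A 0 ≤ ‖thc A c t‖) :
    ∃ k : ι → ℤ, ‖B (t - cast k)‖ < √(Fintype.card ι + 1 + Real.log δ⁻¹) := by
  obtain ⟨u, w, hw, rfl⟩ := exists_perp h.inj c
  refine h.exists_of_bias_perp hw u t hδ (le_trans ?_ hb)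
  exact mul_le_mul_of_nonneg_left (mul_le_of_le_one_left (th_nonneg _ _) (rho_le_one w)) hδ.le

/-- **bias implies relation**, dual-free form -/
theorem exists_of_bias (hA : Function.Injective A) (c : E) (t : ι → ℝ)
    {δ : ℝ} (hδ : 0 < δ) (hb : δ * th A 0 ≤ ‖thc A c t‖) :
    ∃ k : ι → ℤ, ∀ v, |(t - cast k) ⬝ᵥ v| ≤ √(Fintype.card ι + 1 + Real.log δ⁻¹) * ‖A v‖ := by
  obtain ⟨B, h⟩ := exists_dual hA
  obtain ⟨k, hk⟩ := h.exists_of_bias c t hδ hb
  exact ⟨k, fun v => (h.abs_dot_le _ v).trans (mul_le_mul_of_nonneg_right hk.le (norm_nonneg _))⟩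

/-- the contrapositive: far from the dual lattice implies a tiny twisted sum -/
theorem IsDual.norm_thc_le_of_far (h : IsDual A B) (c : E) (t : ι → ℝ) {R : ℝ} (hR : 0 ≤ R)
    (hf : ∀ k : ι → ℤ, R ≤ ‖B (t - cast k)‖) :
    ‖thc A c t‖ ≤ Real.exp (Fintype.card ι / 2 - 3 / 2 * R ^ 2) * th A 0 := by
  refine (h.norm_thc_le c t).trans ?_
  rw [h.th_zero_eq, mul_left_comm]
  refine mul_le_mul_of_nonneg_left (th_le_of_far h.inj' _ hR fun k => ?_) (kap_pos h.inj).le
  rw [← map_add, ← norm_neg, ← map_neg, neg_add, neg_neg, add_comm, ← sub_eq_add_neg]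
  exact hf k

/-! ### smoothing -/

theorem th_zero_sub_one (hA : Function.Injective A) :
    th A 0 - 1 = ∑' x : ι → ℤ, rho (A (cast x) + 0) * (if x = 0 then 0 else 1) := by
  classical
  unfold th
  rw [(summable_rho hA 0).tsum_eq_add_tsum_ite 0]
  simp only [cast_zero, map_zero, add_zero, rho_zero, add_sub_cancel_left]
  refine tsum_congr fun x => ?_
  split_ifs <;> simp

/-- **smoothing**: all translates have almost the same mass -/
theorem abs_th_sub_le (hA : Function.Injective A) (u : ι → ℝ) :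
    |th A (A u) - kap A| ≤ kap A * (rat A - 1) := by
  classical
  obtain ⟨B, h⟩ := exists_dual hA
  have h1 : ((th A (A u) - kap A : ℝ) : ℂ) = kap A * ∑' k : ι → ℤ,
      (rho (B (cast k) + 0) : ℂ) * (if k = 0 then 0 else e (u ⬝ᵥ cast k)) := by
    push_cast
    rw [h.th_eq, thc, (summable_thc h.inj' 0 u).tsum_eq_add_tsum_ite 0]
    simp only [cast_zero, map_zero, add_zero, rho_zero, dotProduct_zero, e_zero]
    rw [mul_add]
    push_cast
    rw [mul_one, mul_one, add_sub_cancel_left]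
    congr 1
    refine tsum_congr fun k => ?_
    split_ifs <;> simp
  rw [← Real.norm_eq_abs, ← Complex.norm_real, h1, norm_mul, Complex.norm_real,
    Real.norm_of_nonneg (kap_pos hA).le, h.rat_eq, th_zero_sub_one h.inj']
  refine mul_le_mul_of_nonneg_left ?_ (kap_pos hA).le
  refine tsum_of_norm_bounded (summable_rho_mul_real h.inj' 0 (M := 1) fun k => ?_).hasSum
    fun k => ?_
  · split_ifs <;> simp
  · rw [norm_mul, Complex.norm_real, Real.norm_of_nonneg (rho_pos _).le]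
    split_ifs <;> simp

theorem abs_th_perp_sub_le (hA : Function.Injective A) {w : E} (hw : Perp A w) (u : ι → ℝ) :
    |th A (A u + w) - rho w * kap A| ≤ rho w * kap A * (rat A - 1) := by
  rw [hw.th, ← mul_sub, abs_mul, abs_of_pos (rho_pos w), mul_assoc]
  exact mul_le_mul_of_nonneg_left (abs_th_sub_le hA u) (rho_pos w).le

theorem le_th_of_rat (hA : Function.Injective A) (u : ι → ℝ) :
    kap A * (2 - rat A) ≤ th A (A u) := by
  have := (abs_le.1 (abs_th_sub_le hA u)).1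
  linarith

/-- no short nonzero vector implies theta close to one -/
theorem th_zero_le_of_min (hA : Function.Injective A) {R : ℝ} (hR : 0 ≤ R)
    (h : ∀ x : ι → ℤ, x ≠ 0 → R ≤ ‖A (cast x)‖) :
    th A 0 - 1 ≤ Real.exp (Fintype.card ι / 2 - 3 / 2 * R ^ 2) * th A 0 := by
  classical
  rw [th_zero_sub_one hA]
  refine tail_le hA 0 hR (fun x => ?_) fun x hx => ?_
  · split_ifs <;> simp
  · split_ifs with h0
    · exact le_rfl
    · exact absurd (h x h0) (by simpa using hx)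

theorem th_zero_le_of_min' (hA : Function.Injective A) {η : ℝ} (hη : 0 < η) (hη1 : η ≤ 1)
    (h : ∀ x : ι → ℤ, x ≠ 0 → √(Fintype.card ι + 1 + Real.log η⁻¹) ≤ ‖A (cast x)‖) :
    th A 0 ≤ 1 + η := by
  have h1 := th_zero_le_of_min hA (Real.sqrt_nonneg _) h
  have hl : 0 ≤ Real.log η⁻¹ := Real.log_nonneg ((one_le_inv₀ hη).2 hη1)
  have h2 : Real.exp (Fintype.card ι / 2 - 3 / 2 * √(Fintype.card ι + 1 + Real.log η⁻¹) ^ 2)
      ≤ η / 2 := by
    rw [Real.sq_sqrt (by positivity)]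
    have h3 : Real.exp (-1 + Real.log η) ≤ η / 2 := by
      rw [Real.exp_add, Real.exp_log hη, Real.exp_neg]
      have : (Real.exp 1)⁻¹ ≤ 1 / 2 := by
        rw [one_div]
        exact inv_anti₀ two_pos (by linarith [Real.add_one_le_exp (1 : ℝ)])
      nlinarith
    refine le_trans (Real.exp_le_exp.2 ?_) h3
    rw [Real.log_inv] at hl ⊢
    have : (0 : ℝ) ≤ Fintype.card ι := Nat.cast_nonneg _
    linarith
  have h0 := th_pos hA 0
  have h4 : th A 0 - 1 ≤ η / 2 * th A 0 := h1.trans (mul_le_mul_of_nonneg_right h2 h0.le)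
  have h5 : th A 0 ≤ 2 := by nlinarith
  nlinarith

/-- theta close to one implies no short nonzero vector -/
theorem two_rho_le (hA : Function.Injective A) {x : ι → ℤ} (hx : x ≠ 0) :
    2 * rho (A (cast x)) ≤ th A 0 - 1 := by
  classical
  have hne : x ≠ -x := fun h => hx (by
    funext i
    have := congrFun h i
    simp only [Pi.neg_apply] at this
    simp only [Pi.zero_apply]
    omega)
  have hn0 : -x ≠ 0 := neg_ne_zero.2 hx
  have h1 := (summable_rho hA 0).sum_le_tsum {0, x, -x} fun y _ => (rho_pos _).le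
  rw [Finset.sum_insert (by simp [hx.symm, hn0.symm]), Finset.sum_pair hne] at h1
  simp only [cast_zero, map_zero, add_zero, rho_zero, cast_neg, map_neg, rho_neg] at h1
  have h2 : ∑' y : ι → ℤ, rho (A (cast y)) = th A 0 := by simp [th]
  linarith

theorem IsDual.rat_le_of_min (h : IsDual A B) {η : ℝ} (hη : 0 < η) (hη1 : η ≤ 1)
    (hk : ∀ k : ι → ℤ, k ≠ 0 → √(Fintype.card ι + 1 + Real.log η⁻¹) ≤ ‖B (cast k)‖) :
    rat A ≤ 1 + η := by
  rw [h.rat_eq]; exact th_zero_le_of_min' h.inj' hη hη1 hk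

theorem IsDual.two_rho_le (h : IsDual A B) {k : ι → ℤ} (hk : k ≠ 0) :
    2 * rho (B (cast k)) ≤ rat A - 1 := by
  rw [h.rat_eq]; exact Gau.two_rho_le h.inj' hk

/-- a dense lattice has no short dual vector -/
theorem IsDual.le_norm_of_dense (h : IsDual A B) {τ : ℝ}
    (hd : ∀ u : ι → ℝ, ∃ x : ι → ℤ, ‖A (u - cast x)‖ ≤ τ) {k : ι → ℤ} (hk : k ≠ 0) :
    1 ≤ 2 * τ * ‖B (cast k)‖ := by
  classical
  obtain ⟨i, hi⟩ := Function.ne_iff.1 hk
  have hi' : (k i : ℝ) ≠ 0 := by exact_mod_cast hi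
  obtain ⟨x, hx⟩ := hd (Pi.single i (1 / (2 * k i)))
  have h1 := h.abs_dot_le (cast k) (Pi.single i (1 / (2 * (k i : ℝ))) - cast x)
  rw [dotProduct_sub, dotProduct_single, cast_dot, cast_apply] at h1
  have h2 : (k i : ℝ) * (1 / (2 * k i)) = 1 / 2 := by field_simp
  rw [h2] at h1
  have h3 : (1 / 2 : ℝ) ≤ |1 / 2 - ((k ⬝ᵥ x : ℤ) : ℝ)| := by
    rcases le_or_gt (k ⬝ᵥ x) 0 with h0 | h0
    · have : ((k ⬝ᵥ x : ℤ) : ℝ) ≤ 0 := by exact_mod_cast h0
      exact le_trans (by linarith) (le_abs_self _)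
    · have : (1 : ℝ) ≤ ((k ⬝ᵥ x : ℤ) : ℝ) := by exact_mod_cast h0
      exact le_trans (by linarith) (neg_le_abs _)
  have h4 := mul_le_mul_of_nonneg_left hx (norm_nonneg (B (cast k)))
  linarith

/-- a dense lattice is smooth -/
theorem rat_le_of_dense (hA : Function.Injective A) {τ η : ℝ} (hη : 0 < η) (hη1 : η ≤ 1)
    (hd : ∀ u : ι → ℝ, ∃ x : ι → ℤ, ‖A (u - cast x)‖ ≤ τ)
    (hτ : 2 * τ * √(Fintype.card ι + 1 + Real.log η⁻¹) ≤ 1) : rat A ≤ 1 + η := by
  obtain ⟨B, h⟩ := exists_dual hA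
  refine h.rat_le_of_min hη hη1 fun k hk => ?_
  have h1 := h.le_norm_of_dense hd hk
  have hτ0 : 0 < τ := by
    by_contra h0
    nlinarith [norm_nonneg (B (cast k))]
  exact le_of_mul_le_mul_left (hτ.trans h1) (by positivity)

/-- **transference**: a smooth lattice is dense -/
theorem exists_near_of_rat (hA : Function.Injective A) (hr : rat A ≤ 4 / 3) (u : ι → ℝ) :
    ∃ x : ι → ℤ, ‖A (u - cast x)‖ < √(Fintype.card ι + 2) := by
  have h1 := le_th_of_rat hA (-u)
  have h2 : (1 / 2 : ℝ) * th A 0 ≤ th A (A (-u)) := by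
    rw [th_zero_eq_rat hA]
    nlinarith [kap_pos hA]
  obtain ⟨x, hx⟩ := exists_short hA _ (by norm_num) h2
  refine ⟨x, lt_of_lt_of_le ?_ (Real.sqrt_le_sqrt (y := Fintype.card ι + 2)
    (x := Fintype.card ι + 1 + Real.log (1 / 2 : ℝ)⁻¹) ?_)⟩
  · rwa [← map_add, ← norm_neg, ← map_neg, neg_add, neg_neg, add_comm, ← sub_eq_add_neg] at hx
  · have := Real.log_le_sub_one_of_pos (x := (1 / 2 : ℝ)⁻¹) (by norm_num)
    norm_num at this ⊢
    linarith

/-- the same at scale `s` -/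
theorem exists_near_of_rat_smul (hA : Function.Injective A) {s : ℝ} (hs : 0 < s)
    (hr : rat (s • A) ≤ 4 / 3) (u : ι → ℝ) :
    ∃ x : ι → ℤ, ‖A (u - cast x)‖ < √(Fintype.card ι + 2) / s := by
  obtain ⟨x, hx⟩ := exists_near_of_rat (inj_smul hA hs.ne') hr u
  refine ⟨x, ?_⟩
  rw [LinearMap.smul_apply, norm_smul, Real.norm_of_nonneg hs.le] at hx
  rw [lt_div_iff₀ hs, mul_comm]
  exact hx

end Crest.Agent.T49.Gau
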