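import Mathlib

/-! Row 49, Sanders block, part 1: Croot-Sisask almost periodicity in sup norm
(exponential moments, Jensen and Markov; no `L^p` norms). -/

set_option autoImplicit false

namespace Crest.Agent.T49.AH

open Finset
open scoped BigOperators

/-- Jensen for the exponential. -/
lemma exp_expect_le {α : Type*} {s : Finset α} (hs : s.Nonempty) (u : α → ℝ) :
    Real.exp (𝔼 i ∈ s, u i) ≤ 𝔼 i ∈ s, Real.exp (u i) := by
  set m : ℝ := 𝔼 i ∈ s, u i with hm
  have h1 : ∀ i ∈ s, Real.exp m * (1 + (u i - m)) ≤ Real.exp (u i) := by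
    intro i _
    have := Real.add_one_le_exp (u i - m)
    calc Real.exp m * (1 + (u i - m)) ≤ Real.exp m * Real.exp (u i - m) := by
          apply mul_le_mul_of_nonneg_left (by linarith) (Real.exp_pos _).le
      _ = Real.exp (u i) := by rw [← Real.exp_add]; ring_nf
  refine le_trans (le_of_eq ?_) (expect_le_expect h1)
  rw [← mul_expect, expect_add_distrib, expect_sub_distrib, expect_const hs, expect_const hs, ← hm]
  ring

/-- exponential moment of a centred variable bounded by one. -/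
lemma expect_exp_le {α : Type*} {s : Finset α} (hs : s.Nonempty) (u : α → ℝ)
    (hu : ∀ i ∈ s, |u i| ≤ 1) (h0 : 𝔼 i ∈ s, u i = 0) (l : ℝ) :
    𝔼 i ∈ s, Real.exp (u i * l) ≤ Real.exp (l ^ 2 / 2) := by
  have h1 : ∀ i ∈ s, Real.exp (u i * l) ≤ Real.cosh l + u i * Real.sinh l :=
    fun i hi => Real.exp_mul_le_cosh_add_mul_sinh (hu i hi) l
  refine (expect_le_expect h1).trans ?_
  rw [expect_add_distrib, expect_const hs, ← expect_mul, h0, zero_mul, add_zero]
  exact Real.cosh_le_exp_half_sq l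

/-- average over a subset of a nonnegative function. -/
lemma expect_sub_le {α : Type*} {s t : Finset α} (hst : s ⊆ t) (hs : s.Nonempty) (u : α → ℝ)
    (hu : ∀ i ∈ t, 0 ≤ u i) : 𝔼 i ∈ s, u i ≤ (#t / #s : ℝ) * 𝔼 i ∈ t, u i := by
  have hs0 : (0 : ℝ) < #s := by exact_mod_cast hs.card_pos
  have ht0 : (0 : ℝ) < #t := by exact_mod_cast (hs.mono hst).card_pos
  rw [expect_eq_sum_div_card, expect_eq_sum_div_card]
  have : ∑ i ∈ s, u i ≤ ∑ i ∈ t, u i :=
    sum_le_sum_of_subset_of_nonneg hst fun i hi _ => hu i hi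
  rw [div_mul_div_comm, mul_comm (#s : ℝ), mul_div_mul_left _ _ ht0.ne']
  exact div_le_div_of_nonneg_right this hs0.le

/-- Markov: at least half of the points are below twice the bound on the mean. -/
lemma half_le_card_filter {α : Type*} {s : Finset α} (u : α → ℝ) (hu : ∀ i ∈ s, 0 ≤ u i)
    {B : ℝ} (hB : 0 < B) (h : 𝔼 i ∈ s, u i ≤ B) :
    (#s : ℝ) ≤ 2 * #{i ∈ s | u i ≤ 2 * B} := by
  classical
  rcases s.eq_empty_or_nonempty with rfl | hs
  · simp
  have hs0 : (0 : ℝ) < #s := by exact_mod_cast hs.card_pos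
  rw [expect_eq_sum_div_card, div_le_iff₀ hs0] at h
  have h1 : (#{i ∈ s | ¬ u i ≤ 2 * B} : ℝ) * (2 * B) ≤ ∑ i ∈ s, u i := by
    calc (#{i ∈ s | ¬ u i ≤ 2 * B} : ℝ) * (2 * B)
        = ∑ _i ∈ {i ∈ s | ¬ u i ≤ 2 * B}, 2 * B := by rw [sum_const, nsmul_eq_mul]
      _ ≤ ∑ i ∈ {i ∈ s | ¬ u i ≤ 2 * B}, u i :=
          sum_le_sum fun i hi => (not_le.1 (mem_filter.1 hi).2).le
      _ ≤ ∑ i ∈ s, u i :=
          sum_le_sum_of_subset_of_nonneg (filter_subset _ _) fun i hi _ => hu i hi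
  have h2 : (#{i ∈ s | u i ≤ 2 * B} : ℝ) + #{i ∈ s | ¬ u i ≤ 2 * B} = #s := by
    exact_mod_cast card_filter_add_card_filter_not (s := s) (fun i => u i ≤ 2 * B)
  have h3 : (#{i ∈ s | ¬ u i ≤ 2 * B} : ℝ) * 2 ≤ #s := by
    have : (#{i ∈ s | ¬ u i ≤ 2 * B} : ℝ) * 2 * B ≤ #s * B := by nlinarith
    exact le_of_mul_le_mul_right this hB
  linarith

variable {G : Type*} [AddCommGroup G] [Fintype G]

/-- the triple convolution. -/
noncomputable def tri (A M : Finset G) (f : G → ℝ) (y : G) : ℝ :=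
  𝔼 a ∈ A, 𝔼 b ∈ M, f (y + a + b)

/-- many `k`-tuples of `A` sample the triple convolution uniformly well. -/
lemma many_samples (A M : Finset G) (hA : A.Nonempty) (hM : M.Nonempty) (f : G → ℝ)
    (hf0 : ∀ x, 0 ≤ f x) (hf1 : ∀ x, f x ≤ 1) {ε : ℝ} (hε : 0 < ε) (k : ℕ)
    (hk : 2 * Real.log (4 * (Fintype.card G / #M)) ≤ ε ^ 2 * k) :
    ∃ L : Finset (Fin k → G), (#A : ℝ) ^ k ≤ 2 * #L ∧ ∀ a ∈ L, ∀ y,
      |∑ i, 𝔼 b ∈ M, f (y + a i + b) - k * tri A M f y| ≤ ε * k := by
  classical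
  set F : G → ℝ := fun x => 𝔼 a ∈ A, f (x + a) with hF
  have hF0 : ∀ x, 0 ≤ F x := fun x => expect_nonneg fun a _ => hf0 _
  have hF1 : ∀ x, F x ≤ 1 := fun x => expect_le hA fun a _ => hf1 _
  set S : (Fin k → G) → G → ℝ := fun a x => ∑ i, (f (x + a i) - F x) with hS
  set P : Finset (Fin k → G) := Fintype.piFinset fun _ : Fin k => A with hP
  have hmom : ∀ (l : ℝ) (x : G), 𝔼 a ∈ P, Real.exp (S a x * l) ≤ Real.exp (k * (l ^ 2 / 2)) := by
    intro l x
    have h1 : 𝔼 a ∈ P, Real.exp (S a x * l) = (𝔼 a ∈ A, Real.exp ((f (x + a) - F x) * l)) ^ k := by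
      rw [expect_pow]
      refine expect_congr rfl fun a _ => ?_
      rw [← Real.exp_sum, hS]
      simp only [sum_mul]
    rw [h1, Real.exp_nat_mul]
    refine pow_le_pow_left₀ (expect_nonneg fun a _ => (Real.exp_pos _).le) ?_ k
    refine expect_exp_le hA _ (fun a _ => ?_) ?_ l
    · rw [abs_le]; constructor <;> linarith [hf0 (x + a), hf1 (x + a), hF0 x, hF1 x]
    · rw [expect_sub_distrib, expect_const hA]; simp [hF]
  set Φ : (Fin k → G) → ℝ := fun a =>
    𝔼 x : G, (Real.exp (S a x * ε) + Real.exp (S a x * (-ε))) with hΦ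
  have hΦ0 : ∀ a, 0 ≤ Φ a := fun a => expect_nonneg fun x _ => by positivity
  have hΦm : 𝔼 a ∈ P, Φ a ≤ 2 * Real.exp (k * (ε ^ 2 / 2)) := by
    rw [hΦ]
    simp only
    rw [expect_comm]
    refine expect_le univ_nonempty fun x _ => ?_
    rw [expect_add_distrib]
    have h1 := hmom ε x
    have h2 := hmom (-ε) x
    rw [neg_sq] at h2
    linarith
  have hcard := half_le_card_filter (s := P) Φ (fun a _ => hΦ0 a) (by positivity) hΦm
  refine ⟨{a ∈ P | Φ a ≤ 2 * (2 * Real.exp (k * (ε ^ 2 / 2)))}, ?_, ?_⟩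
  · have : (#P : ℝ) = (#A : ℝ) ^ k := by simp [hP]
    rw [← this]; exact hcard
  intro a ha y
  have haΦ := (mem_filter.1 ha).2
  have hM0 : (0 : ℝ) < #M := by exact_mod_cast hM.card_pos
  have hG0 : (0 : ℝ) < Fintype.card G := by exact_mod_cast Fintype.card_pos
  -- the quantity is the average of S over y + M
  have hq : ∑ i, 𝔼 b ∈ M, f (y + a i + b) - k * tri A M f y = 𝔼 b ∈ M, S a (y + b) := by
    rw [hS]
    simp only
    rw [expect_sum_comm]
    simp only [expect_sub_distrib, sum_sub_distrib, sum_const, card_univ, Fintype.card_fin,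
      nsmul_eq_mul]
    congr 1
    · refine sum_congr rfl fun i _ => expect_congr rfl fun b _ => ?_
      congr 1; abel
    · congr 1
      unfold tri
      rw [expect_comm]
      refine expect_congr rfl fun b _ => ?_
      rw [hF]
      refine expect_congr rfl fun a _ => ?_
      congr 1; abel
  rw [hq]
  set z : ℝ := 𝔼 b ∈ M, S a (y + b) with hz
  have key : ∀ l : ℝ, l = ε ∨ l = -ε →
      Real.exp (z * l) ≤ (Fintype.card G / #M) * (4 * Real.exp (k * (ε ^ 2 / 2))) := by
    intro l hl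
    have h1 : Real.exp (z * l) ≤ 𝔼 b ∈ M, Real.exp (S a (y + b) * l) := by
      rw [hz, expect_mul]; exact exp_expect_le hM _
    have h2 := expect_sub_le (subset_univ M) hM (fun b => Real.exp (S a (y + b) * l))
      (fun b _ => (Real.exp_pos _).le)
    have h3 : 𝔼 b : G, Real.exp (S a (y + b) * l) = 𝔼 x : G, Real.exp (S a x * l) :=
      Fintype.expect_equiv (Equiv.addLeft y) _ _ fun b => rfl
    have h4 : 𝔼 x : G, Real.exp (S a x * l) ≤ Φ a := by
      refine expect_le_expect fun x _ => ?_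
      rcases hl with rfl | rfl
      · linarith [Real.exp_pos (S a x * -l)]
      · linarith [Real.exp_pos (S a x * ε)]
    rw [card_univ, h3] at h2
    refine h1.trans (h2.trans ?_)
    apply mul_le_mul_of_nonneg_left _ (by positivity)
    linarith
  have key2 : ∀ l : ℝ, l = ε ∨ l = -ε → z * l ≤ ε ^ 2 * k := by
    intro l hl
    have h1 := key l hl
    have h2 : (Fintype.card G / #M : ℝ) * (4 * Real.exp (k * (ε ^ 2 / 2))) =
        Real.exp (Real.log (4 * (Fintype.card G / #M)) + k * (ε ^ 2 / 2)) := by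
      rw [Real.exp_add, Real.exp_log (by positivity)]; ring
    rw [h2, Real.exp_le_exp] at h1
    linarith
  have h1 := key2 ε (Or.inl rfl)
  have h2 := key2 (-ε) (Or.inr rfl)
  rw [abs_le]
  constructor
  · by_contra hc
    push Not at hc
    nlinarith
  · by_contra hc
    push Not at hc
    nlinarith

/-- **Croot-Sisask** in sup norm. -/
theorem croot_sisask (A M : Finset G) (hA : A.Nonempty) (hM : M.Nonempty) (f : G → ℝ)
    (hf0 : ∀ x, 0 ≤ f x) (hf1 : ∀ x, f x ≤ 1) {ε : ℝ} (hε : 0 < ε) (k : ℕ) (hk0 : 0 < k)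
    (hk : 2 * Real.log (4 * (Fintype.card G / #M)) ≤ ε ^ 2 * k) :
    ∃ T : Finset G, (#A / Fintype.card G : ℝ) ^ k * Fintype.card G ≤ 2 * #T ∧
      ∀ t ∈ T, ∀ t' ∈ T, ∀ y, |tri A M f (y + t - t') - tri A M f y| ≤ 2 * ε := by
  classical
  obtain ⟨L, hL, hLs⟩ := many_samples A M hA hM f hf0 hf1 hε k hk
  have hG0 : (0 : ℝ) < Fintype.card G := by exact_mod_cast Fintype.card_pos
  set T : (Fin k → G) → Finset G := fun a => {t | (fun i => a i + t) ∈ L} with hT
  have hsum : ∑ a : Fin k → G, (#(T a) : ℝ) = Fintype.card G * #L := by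
    have h1 : ∀ a, (#(T a) : ℝ) = ∑ t : G, if (fun i => a i + t) ∈ L then (1 : ℝ) else 0 := by
      intro a; rw [hT]; simp
    simp_rw [h1]
    rw [sum_comm]
    have h2 : ∀ t : G, ∑ a : Fin k → G, (if (fun i => a i + t) ∈ L then (1 : ℝ) else 0) = #L := by
      intro t
      have := Fintype.sum_equiv (Equiv.addRight (fun _ : Fin k => t))
        (fun a : Fin k → G => if (fun i => a i + t) ∈ L then (1 : ℝ) else 0)
        (fun a => if a ∈ L then (1 : ℝ) else 0) (fun a => rfl)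
      rw [this]; simp
    simp_rw [h2]
    rw [sum_const, card_univ, nsmul_eq_mul]
  have hex : ∃ a : Fin k → G, Fintype.card G * #L / (Fintype.card G : ℝ) ^ k ≤ #(T a) := by
    have : (Fintype.card G * #L / (Fintype.card G : ℝ) ^ k) ≤ 𝔼 a : Fin k → G, (#(T a) : ℝ) := by
      rw [Fintype.expect_eq_sum_div_card, hsum]; simp
    obtain ⟨a, -, ha⟩ := exists_le_of_le_expect univ_nonempty this
    exact ⟨a, ha⟩
  obtain ⟨a, ha⟩ := hex
  refine ⟨T a, ?_, ?_⟩
  · rw [div_pow, div_mul_eq_mul_div, div_le_iff₀ (by positivity)]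
    rw [div_le_iff₀ (by positivity)] at ha
    nlinarith
  intro t ht t' ht' y
  have h1 := hLs _ (mem_filter.1 ht).2 y
  have h2 := hLs _ (mem_filter.1 ht').2 (y + t - t')
  have h3 : ∑ i, 𝔼 b ∈ M, f (y + t - t' + (a i + t') + b) = ∑ i, 𝔼 b ∈ M, f (y + (a i + t) + b) := by
    refine sum_congr rfl fun i _ => expect_congr rfl fun b _ => ?_
    congr 1; abel
  rw [h3] at h2
  have hk1 : (0 : ℝ) < k := by exact_mod_cast hk0
  rw [abs_le] at h1 h2 ⊢
  constructor
  · by_contra hc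
    push Not at hc
    nlinarith
  · by_contra hc
    push Not at hc
    nlinarith

end Crest.Agent.T49.AH
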