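import Crest.Agent.T49.Ah1_9

/-! Row 49, Sanders block, part 2: Chang's lemma and Fourier tools on a finite abelian group. -/

set_option autoImplicit false

namespace Crest.Agent.T49.AH

open Finset
open scoped BigOperators ComplexConjugate

variable {G : Type*} [AddCommGroup G] [Fintype G]

/-- Fourier coefficient of the uniform measure on `X`. -/
noncomputable def mu (X : Finset G) (ψ : AddChar G ℂ) : ℂ := 𝔼 x ∈ X, ψ x

lemma norm_char (ψ : AddChar G ℂ) (x : G) : ‖ψ x‖ = 1 := AddChar.norm_apply ψ x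

lemma norm_mu_le (X : Finset G) (ψ : AddChar G ℂ) : ‖mu X ψ‖ ≤ 1 := by
  rcases X.eq_empty_or_nonempty with rfl | hX
  · simp [mu]
  refine (RCLike.norm_expect_le (K := ℂ)).trans ?_
  exact expect_le hX fun x _ => (norm_char ψ x).le

/-- **Chang's lemma** for dissociated subsets of the large spectrum. -/
theorem chang_diss (X : Finset G) (hX : X.Nonempty) {η : ℝ} (hη : 0 < η)
    (Λ : Finset (AddChar G ℂ)) (hΛ : AddDissociated (Λ : Set (AddChar G ℂ)))
    (hs : ∀ ψ ∈ Λ, η ≤ ‖mu X ψ‖) :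
    η ^ 2 * #Λ ≤ 2 * Real.log (Fintype.card G / #X) := by
  classical
  set c : AddChar G ℂ → ℂ := fun ψ => conj (mu X ψ) / ‖mu X ψ‖ with hc
  have hc1 : ∀ ψ ∈ Λ, ‖c ψ‖ = 1 := by
    intro ψ hψ
    have : ‖mu X ψ‖ ≠ 0 := (hη.trans_le (hs ψ hψ)).ne'
    simp [hc, this]
  have hc2 : ∀ ψ ∈ Λ, (c ψ * mu X ψ).re = ‖mu X ψ‖ := by
    intro ψ hψ
    have h0 : (‖mu X ψ‖ : ℂ) ≠ 0 := by exact_mod_cast (hη.trans_le (hs ψ hψ)).ne'
    have : c ψ * mu X ψ = (‖mu X ψ‖ : ℂ) := by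
      rw [hc]
      simp only
      rw [div_mul_eq_mul_div, Complex.conj_mul', div_eq_iff h0]; ring
    rw [this, Complex.ofReal_re]
  set u : G → ℝ := fun a => ∑ ψ ∈ Λ, (c ψ * ψ a).re * η with hu
  have hrand := AddDissociated.randomisation (G := G)
    (fun ψ => if ψ ∈ Λ then Real.cosh η else 1)
    (fun ψ => if ψ ∈ Λ then (Real.sinh η : ℂ) * c ψ else 0)
    (hΛ.subset fun ψ hψ => by
      by_contra h
      simp only [mem_coe] at h
      simp [h] at hψ)
  have hpt : ∀ a, Real.exp (u a) ≤ ∏ ψ, ((if ψ ∈ Λ then Real.cosh η else 1) +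
      ((if ψ ∈ Λ then (Real.sinh η : ℂ) * c ψ else 0) * ψ a).re) := by
    intro a
    rw [← prod_subset (subset_univ Λ) (fun ψ _ hψ => by simp [hψ]), hu, Real.exp_sum]
    refine prod_le_prod (fun ψ _ => (Real.exp_pos _).le) fun ψ hψ => ?_
    have h1 : |(c ψ * ψ a).re| ≤ 1 := by
      refine (Complex.abs_re_le_norm _).trans ?_
      rw [norm_mul, hc1 ψ hψ, norm_char, mul_one]
    refine (Real.exp_mul_le_cosh_add_mul_sinh h1 η).trans (le_of_eq ?_)
    simp only [hψ, if_true]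
    rw [mul_assoc, Complex.re_ofReal_mul]; ring
  have hG : 𝔼 a, Real.exp (u a) ≤ Real.exp (#Λ * (η ^ 2 / 2)) := by
    refine (expect_le_expect fun a _ => hpt a).trans ?_
    rw [hrand, ← prod_subset (subset_univ Λ) (fun ψ _ hψ => by simp [hψ]), Real.exp_nat_mul]
    rw [prod_congr rfl (g := fun _ => Real.cosh η) (fun ψ hψ => by simp [hψ]), prod_const]
    exact pow_le_pow_left₀ (Real.cosh_pos η).le (Real.cosh_le_exp_half_sq η) _
  have hXu : η ^ 2 * #Λ ≤ 𝔼 a ∈ X, u a := by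
    rw [hu]
    simp only
    rw [expect_sum_comm]
    have : ∀ ψ ∈ Λ, η ^ 2 ≤ 𝔼 a ∈ X, (c ψ * ψ a).re * η := by
      intro ψ hψ
      rw [← expect_mul, ← Complex.re_expect, ← mul_expect]
      change _ ≤ (c ψ * mu X ψ).re * η
      rw [hc2 ψ hψ, sq]
      exact mul_le_mul_of_nonneg_right (hs ψ hψ) hη.le
    calc η ^ 2 * #Λ = ∑ _ψ ∈ Λ, η ^ 2 := by rw [sum_const, nsmul_eq_mul, mul_comm]
      _ ≤ _ := sum_le_sum this
  have hX0 : (0 : ℝ) < #X := by exact_mod_cast hX.card_pos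
  have hG0 : (0 : ℝ) < Fintype.card G := by exact_mod_cast Fintype.card_pos
  have h1 := exp_expect_le hX u
  have h2 := expect_sub_le (subset_univ X) hX (fun a => Real.exp (u a))
    (fun a _ => (Real.exp_pos _).le)
  rw [card_univ] at h2
  have h3 : Real.exp (η ^ 2 * #Λ) ≤
      Real.exp (Real.log (Fintype.card G / #X) + #Λ * (η ^ 2 / 2)) := by
    rw [Real.exp_add, Real.exp_log (by positivity)]
    refine (Real.exp_le_exp.2 hXu).trans (h1.trans (h2.trans ?_))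
    exact mul_le_mul_of_nonneg_left hG (by positivity)
  rw [Real.exp_le_exp] at h3
  linarith

lemma norm_prod_sub_one_le {ι : Type*} (s : Finset ι) (z : ι → ℂ) (hz : ∀ i ∈ s, ‖z i‖ ≤ 1) :
    ‖∏ i ∈ s, z i - 1‖ ≤ ∑ i ∈ s, ‖z i - 1‖ := by
  classical
  induction s using Finset.induction_on with
  | empty => simp
  | insert a s ha ih =>
    rw [prod_insert ha, sum_insert ha]
    have h1 := ih fun i hi => hz i (mem_insert_of_mem hi)
    have h2 := hz a (mem_insert_self _ _)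
    calc ‖z a * ∏ i ∈ s, z i - 1‖ = ‖(z a - 1) + z a * (∏ i ∈ s, z i - 1)‖ := by ring_nf
      _ ≤ ‖z a - 1‖ + ‖z a * (∏ i ∈ s, z i - 1)‖ := norm_add_le _ _
      _ ≤ ‖z a - 1‖ + ‖∏ i ∈ s, z i - 1‖ := by
          rw [norm_mul]
          nlinarith [norm_nonneg (∏ i ∈ s, z i - 1), norm_nonneg (z a)]
      _ ≤ _ := by linarith

/-- **Chang's lemma**: the large spectrum is controlled by few characters. -/
theorem chang (X : Finset G) (hX : X.Nonempty) {η : ℝ} (hη : 0 < η) :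
    ∃ Γ : Finset (AddChar G ℂ), η ^ 2 * #Γ ≤ 2 * Real.log (Fintype.card G / #X) ∧
      ∀ (t : G) (ρ : ℝ), (∀ ψ ∈ Γ, ‖ψ t - 1‖ ≤ ρ) →
        ∀ ψ, η ≤ ‖mu X ψ‖ → ‖ψ t - 1‖ ≤ #Γ * ρ := by
  classical
  set B : ℝ := 2 * Real.log (Fintype.card G / #X) with hB
  set S : Finset (AddChar G ℂ) := {ψ | η ≤ ‖mu X ψ‖} with hS
  have hη2 : 0 < η ^ 2 := by positivity
  obtain ⟨Γ, hΓS, hΓd, hsp⟩ := exists_subset_addSpan_card_le_of_forall_addDissociated
    (s := S) (d := ⌊B / η ^ 2⌋₊) (fun s' hs' hd => by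
      refine Nat.le_floor ?_
      rw [le_div_iff₀ hη2, mul_comm]
      exact chang_diss X hX hη s' hd fun ψ hψ => (mem_filter.1 (hs' hψ)).2)
  have hB0 : 0 ≤ B := by
    have := chang_diss X hX hη ∅ (by simp) (by simp)
    rw [hB]; simpa using this
  refine ⟨Γ, ?_, ?_⟩
  · have h1 : (#Γ : ℝ) ≤ B / η ^ 2 :=
      (Nat.cast_le.2 hΓd).trans (Nat.floor_le (by positivity))
    rwa [le_div_iff₀ hη2, mul_comm] at h1
  intro t ρ hρ ψ hψ
  obtain ⟨e, he, rfl⟩ := mem_addSpan.1 (hsp (mem_filter.2 ⟨mem_univ _, hψ⟩))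
  rw [AddChar.sum_apply]
  refine (norm_prod_sub_one_le _ _ fun φ _ => (norm_char _ _).le).trans ?_
  have : ∀ φ ∈ Γ, ‖(e φ • φ) t - 1‖ ≤ ρ := by
    intro φ hφ
    have h0 : 0 ≤ ρ := (norm_nonneg _).trans (hρ φ hφ)
    rcases he φ with h | h | h
    · rw [h, neg_zsmul, one_zsmul, AddChar.neg_apply, AddChar.map_neg_eq_conj]
      have : conj (φ t) - 1 = conj (φ t - 1) := by simp
      rw [this, Complex.norm_conj]; exact hρ φ hφ
    · rw [h, zero_zsmul]; simpa using h0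
    · rw [h, one_zsmul]; exact hρ φ hφ
  calc _ ≤ ∑ _φ ∈ Γ, ρ := sum_le_sum this
    _ = _ := by rw [sum_const, nsmul_eq_mul]

/-- Fourier inversion. -/
lemma inversion (f : G → ℂ) (x : G) :
    f x = ∑ ψ : AddChar G ℂ, (𝔼 y, f y * conj (ψ y)) * ψ x := by
  classical
  have h1 : ∀ ψ : AddChar G ℂ, (𝔼 y, f y * conj (ψ y)) * ψ x = 𝔼 y, f y * ψ (x - y) := by
    intro ψ
    rw [expect_mul]
    refine expect_congr rfl fun y _ => ?_
    rw [sub_eq_add_neg, AddChar.map_add_eq_mul, AddChar.map_neg_eq_conj]; ring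
  simp_rw [h1]
  rw [← expect_sum_comm]
  simp_rw [← mul_sum, AddChar.sum_apply_eq_ite]
  rw [Fintype.expect_eq_sum_div_card]
  have hG0 : (Fintype.card G : ℂ) ≠ 0 := by exact_mod_cast Fintype.card_ne_zero
  rw [eq_div_iff hG0, sum_eq_single x]
  · simp
  · intro y _ hy
    simp [sub_eq_zero, hy.symm]
  · simp

lemma conj_expect {α : Type*} (s : Finset α) (f : α → ℂ) :
    conj (𝔼 a ∈ s, f a) = 𝔼 a ∈ s, conj (f a) := by
  rw [expect_eq_sum_div_card, expect_eq_sum_div_card, map_div₀, map_sum]; simp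

/-- Parseval for uniform measures. -/
lemma sum_norm_mu_sq (X : Finset G) (hX : X.Nonempty) :
    ∑ ψ : AddChar G ℂ, ‖mu X ψ‖ ^ 2 = Fintype.card G / #X := by
  classical
  have hX0 : (#X : ℂ) ≠ 0 := by exact_mod_cast hX.card_pos.ne'
  apply Complex.ofReal_injective
  push_cast
  have h1 : ∀ ψ : AddChar G ℂ, (‖mu X ψ‖ : ℂ) ^ 2 = 𝔼 a ∈ X, 𝔼 b ∈ X, ψ (a - b) := by
    intro ψ
    rw [← Complex.mul_conj', mu, conj_expect, expect_mul_expect]
    refine expect_congr rfl fun a _ => expect_congr rfl fun b _ => ?_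
    rw [sub_eq_add_neg, AddChar.map_add_eq_mul, AddChar.map_neg_eq_conj]
  simp_rw [h1]
  rw [← expect_sum_comm]
  refine (expect_congr rfl (g := fun _ => (Fintype.card G : ℂ) / #X) fun a ha => ?_).trans
    (expect_const hX _)
  rw [← expect_sum_comm]
  simp_rw [AddChar.sum_apply_eq_ite]
  rw [expect_eq_sum_div_card, sum_eq_single a]
  · simp
  · intro y _ hy
    simp [sub_eq_zero, hy.symm]
  · intro h; exact absurd ha h

end Crest.Agent.T49.AH
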