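import Crest.Agent.T49.Ah2_9

/-! Row 49, Sanders block, part 3: the quasi-polynomial Bogolyubov lemma of Sanders. -/

set_option autoImplicit false

namespace Crest.Agent.T49.AH

open Finset
open scoped BigOperators ComplexConjugate

variable {G : Type*} [AddCommGroup G] [Fintype G]

/-- averaging over differences of `T`. -/
noncomputable def avg (T : Finset G) (g : G → ℝ) (y : G) : ℝ :=
  𝔼 t ∈ T, 𝔼 t' ∈ T, g (y + t - t')

omit [Fintype G] in
lemma avg_iter_close (T : Finset G) (hT : T.Nonempty) (g : G → ℝ) {e : ℝ}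
    (h : ∀ t ∈ T, ∀ t' ∈ T, ∀ y, |g (y + t - t') - g y| ≤ e) (j : ℕ) (y : G) :
    |(avg T)^[j] g y - g y| ≤ j * e := by
  induction j generalizing y with
  | zero => simp
  | succ j ih =>
    rw [Function.iterate_succ_apply']
    have h1 : avg T ((avg T)^[j] g) y - g y =
        𝔼 t ∈ T, 𝔼 t' ∈ T, ((avg T)^[j] g (y + t - t') - g y) := by
      simp only [expect_sub_distrib, expect_const hT, avg]
    rw [h1]
    refine (abs_expect_le _ _).trans (expect_le hT fun t ht => ?_)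
    refine (abs_expect_le _ _).trans (expect_le hT fun t' ht' => ?_)
    have h2 := ih (y + t - t')
    have h3 := h t ht t' ht' y
    have h4 := abs_sub_le ((avg T)^[j] g (y + t - t')) (g (y + t - t')) (g y)
    push_cast
    linarith

lemma avg_fourier (T : Finset G) (g : G → ℝ) (c : AddChar G ℂ → ℂ)
    (h : ∀ y, (g y : ℂ) = ∑ ψ, c ψ * ψ y) (y : G) :
    (avg T g y : ℂ) = ∑ ψ, (c ψ * (‖mu T ψ‖ : ℂ) ^ 2) * ψ y := by
  rw [avg, Complex.ofReal_expect]
  simp_rw [Complex.ofReal_expect, h]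
  simp_rw [expect_sum_comm]
  refine sum_congr rfl fun ψ _ => ?_
  rw [← Complex.mul_conj', mu, conj_expect, expect_mul_expect, mul_expect, expect_mul]
  refine expect_congr rfl fun t _ => ?_
  rw [mul_expect, expect_mul]
  refine expect_congr rfl fun t' _ => ?_
  rw [sub_eq_add_neg, AddChar.map_add_eq_mul, AddChar.map_add_eq_mul, AddChar.map_neg_eq_conj]
  ring

lemma avg_iter_fourier (T : Finset G) (g : G → ℝ) (c : AddChar G ℂ → ℂ)
    (h : ∀ y, (g y : ℂ) = ∑ ψ, c ψ * ψ y) (j : ℕ) (y : G) :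
    (((avg T)^[j] g y : ℝ) : ℂ) = ∑ ψ, (c ψ * ((‖mu T ψ‖ : ℂ) ^ 2) ^ j) * ψ y := by
  induction j generalizing y with
  | zero => simpa using h y
  | succ j ih =>
    rw [Function.iterate_succ_apply', avg_fourier T _ _ ih]
    refine sum_congr rfl fun ψ _ => ?_
    ring

lemma tri_fourier (A M : Finset G) (f : G → ℝ) (y : G) :
    (tri A M f y : ℂ) =
      ∑ ψ : AddChar G ℂ, ((𝔼 x, (f x : ℂ) * conj (ψ x)) * (mu A ψ * mu M ψ)) * ψ y := by
  rw [tri, Complex.ofReal_expect]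
  simp_rw [Complex.ofReal_expect]
  have h := fun x => inversion (fun x => (f x : ℂ)) x
  rw [expect_congr rfl fun a _ => expect_congr rfl fun b _ => h (y + a + b)]
  simp_rw [expect_sum_comm]
  refine sum_congr rfl fun ψ _ => ?_
  rw [mu, mu, expect_mul_expect, mul_expect, expect_mul]
  refine expect_congr rfl fun a _ => ?_
  rw [mul_expect, expect_mul]
  refine expect_congr rfl fun b _ => ?_
  rw [AddChar.map_add_eq_mul, AddChar.map_add_eq_mul]
  ring

lemma sum_norm_mu_mul_le (A M : Finset G) (hA : A.Nonempty) (hM : M.Nonempty) {B : ℝ}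
    (hAB : (Fintype.card G / #A : ℝ) ≤ B) (hMB : (Fintype.card G / #M : ℝ) ≤ B) :
    ∑ ψ : AddChar G ℂ, ‖mu A ψ‖ * ‖mu M ψ‖ ≤ B := by
  have h1 := sum_norm_mu_sq A hA
  have h2 := sum_norm_mu_sq M hM
  have h3 : ∑ ψ : AddChar G ℂ, ‖mu A ψ‖ * ‖mu M ψ‖ ≤
      ∑ ψ : AddChar G ℂ, (‖mu A ψ‖ ^ 2 + ‖mu M ψ‖ ^ 2) / 2 :=
    sum_le_sum fun ψ _ => by nlinarith [sq_nonneg (‖mu A ψ‖ - ‖mu M ψ‖)]
  rw [← sum_div, sum_add_distrib, h1, h2] at h3
  linarith

/-- Almost periodicity along a Bohr set, given almost periodicity along `T - T`. -/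
theorem bohr_period (A M : Finset G) (hA : A.Nonempty) (hM : M.Nonempty) (f : G → ℝ)
    (hf0 : ∀ x, 0 ≤ f x) (hf1 : ∀ x, f x ≤ 1) {B : ℝ}
    (hAB : (Fintype.card G / #A : ℝ) ≤ B) (hMB : (Fintype.card G / #M : ℝ) ≤ B)
    (T : Finset G) (hT : T.Nonempty) {e : ℝ}
    (h : ∀ t ∈ T, ∀ t' ∈ T, ∀ y, |tri A M f (y + t - t') - tri A M f y| ≤ e) (j : ℕ)
    (t : G) {ρ : ℝ} (hρ : 0 ≤ ρ) (ht : ∀ ψ, (1 / 2 : ℝ) ≤ ‖mu T ψ‖ → ‖ψ t - 1‖ ≤ ρ) (y : G) :
    |tri A M f (y + t) - tri A M f y| ≤ 2 * (j * e) + B * (ρ + 2 * (1 / 4) ^ j) := by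
  have h1 := avg_iter_close T hT _ h j y
  have h2 := avg_iter_close T hT _ h j (y + t)
  set c : AddChar G ℂ → ℂ := fun ψ => (𝔼 x, (f x : ℂ) * conj (ψ x)) * (mu A ψ * mu M ψ) with hc
  have hF := avg_iter_fourier T _ c (tri_fourier A M f) j
  have h3 : |(avg T)^[j] (tri A M f) (y + t) - (avg T)^[j] (tri A M f) y| ≤
      B * (ρ + 2 * (1 / 4) ^ j) := by
    rw [← Real.norm_eq_abs, ← Complex.norm_real]
    push_cast
    rw [hF, hF, ← sum_sub_distrib]
    refine (norm_sum_le _ _).trans ?_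
    have hb : ∀ ψ : AddChar G ℂ, ‖c ψ * ((‖mu T ψ‖ : ℂ) ^ 2) ^ j * ψ (y + t) -
        c ψ * ((‖mu T ψ‖ : ℂ) ^ 2) ^ j * ψ y‖ ≤
        (‖mu A ψ‖ * ‖mu M ψ‖) * (ρ + 2 * (1 / 4) ^ j) := by
      intro ψ
      have e1 : c ψ * ((‖mu T ψ‖ : ℂ) ^ 2) ^ j * ψ (y + t) - c ψ * ((‖mu T ψ‖ : ℂ) ^ 2) ^ j * ψ y =
          c ψ * ψ y * (((‖mu T ψ‖ : ℂ) ^ 2) ^ j * (ψ t - 1)) := by
        rw [AddChar.map_add_eq_mul]; ring
      rw [e1, norm_mul, norm_mul, norm_char, mul_one]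
      have hc1 : ‖c ψ‖ ≤ ‖mu A ψ‖ * ‖mu M ψ‖ := by
        rw [hc]
        simp only
        rw [norm_mul, norm_mul]
        have : ‖𝔼 x, (f x : ℂ) * conj (ψ x)‖ ≤ 1 := by
          refine (RCLike.norm_expect_le (K := ℂ)).trans (expect_le univ_nonempty fun x _ => ?_)
          rw [norm_mul, Complex.norm_conj, norm_char, mul_one, Complex.norm_real, Real.norm_eq_abs,
            abs_of_nonneg (hf0 x)]
          exact hf1 x
        exact mul_le_of_le_one_left (by positivity) this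
      refine mul_le_mul hc1 ?_ (norm_nonneg _) (by positivity)
      rw [norm_mul, norm_pow, norm_pow, Complex.norm_real, norm_norm]
      by_cases hψ : (1 / 2 : ℝ) ≤ ‖mu T ψ‖
      · have a1 : (‖mu T ψ‖ ^ 2) ^ j ≤ 1 :=
          pow_le_one₀ (by positivity) (pow_le_one₀ (norm_nonneg _) (norm_mu_le T ψ))
        have a2 := ht ψ hψ
        have a3 : (0 : ℝ) ≤ 2 * (1 / 4) ^ j := by positivity
        nlinarith [norm_nonneg (ψ t - 1)]
      · push Not at hψ
        have a1 : (‖mu T ψ‖ ^ 2) ^ j ≤ (1 / 4) ^ j :=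
          pow_le_pow_left₀ (by positivity) (by nlinarith [norm_nonneg (mu T ψ)]) j
        have a2 : ‖ψ t - 1‖ ≤ 2 := by
          refine (norm_sub_le _ _).trans ?_
          rw [norm_char, norm_one]; norm_num
        have a3 : (‖mu T ψ‖ ^ 2) ^ j * ‖ψ t - 1‖ ≤ (1 / 4) ^ j * 2 :=
          mul_le_mul a1 a2 (norm_nonneg _) (by positivity)
        linarith
    refine (sum_le_sum fun ψ _ => hb ψ).trans ?_
    rw [← sum_mul]
    exact mul_le_mul_of_nonneg_right (sum_norm_mu_mul_le A M hA hM hAB hMB) (by positivity)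
  rw [abs_le] at h1 h2 h3 ⊢
  constructor <;> linarith [h1.1, h1.2, h2.1, h2.2, h3.1, h3.2]

/-- **Sanders' quasi-polynomial almost periodicity** for triple convolutions. -/
theorem sanders_period (A M : Finset G) (f : G → ℝ) (hf0 : ∀ x, 0 ≤ f x) (hf1 : ∀ x, f x ≤ 1)
    {m : ℝ} (hm : 1 ≤ m) (hA : Real.exp (-m) * Fintype.card G ≤ #A)
    (hM : Real.exp (-m) * Fintype.card G ≤ #M) :
    ∃ Γ : Finset (AddChar G ℂ), (#Γ : ℝ) ≤ 2 ^ 22 * m ^ 4 ∧
      ∀ t, (∀ ψ ∈ Γ, ‖ψ t - 1‖ ≤ Real.exp (-m) / (2 ^ 25 * m ^ 4)) →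
        ∀ y, |tri A M f (y + t) - tri A M f y| ≤ 1 / 2 := by
  have hG0 : (0 : ℝ) < Fintype.card G := by exact_mod_cast Fintype.card_pos
  have hE := Real.exp_pos (-m)
  have hA0 : (0 : ℝ) < #A := lt_of_lt_of_le (by positivity) hA
  have hM0 : (0 : ℝ) < #M := lt_of_lt_of_le (by positivity) hM
  have hAn : A.Nonempty := card_pos.1 (by exact_mod_cast hA0)
  have hMn : M.Nonempty := card_pos.1 (by exact_mod_cast hM0)
  have hEE : Real.exp m * Real.exp (-m) = 1 := by rw [← Real.exp_add]; simp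
  have hAB : (Fintype.card G / #A : ℝ) ≤ Real.exp m := by
    rw [div_le_iff₀ hA0]
    have := mul_le_mul_of_nonneg_left hA (Real.exp_pos m).le
    rwa [← mul_assoc, hEE, one_mul] at this
  have hMB : (Fintype.card G / #M : ℝ) ≤ Real.exp m := by
    rw [div_le_iff₀ hM0]
    have := mul_le_mul_of_nonneg_left hM (Real.exp_pos m).le
    rwa [← mul_assoc, hEE, one_mul] at this
  set j : ℕ := ⌈m⌉₊ + 2 with hj
  have hjm : m + 2 ≤ j := by rw [hj]; push_cast; linarith [Nat.le_ceil m]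
  have hjm' : (j : ℝ) ≤ 4 * m := by
    rw [hj]; push_cast; linarith [(Nat.ceil_lt_add_one (by linarith : 0 ≤ m)).le]
  have hj0 : (0 : ℝ) < j := by linarith
  have hε : (0 : ℝ) < 1 / (16 * j) := by positivity
  have hlog4 : Real.log 4 ≤ 2 := by
    have : Real.log 4 = 2 * Real.log 2 := by
      rw [show (4 : ℝ) = 2 ^ 2 by norm_num, Real.log_pow]; norm_num
    rw [this]; linarith [Real.log_two_lt_d9]
  obtain ⟨T, hT, hTp⟩ := croot_sisask A M hAn hMn f hf0 hf1 hε (512 * j ^ 3)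
    (by have : 0 < j := by exact_mod_cast hj0
        positivity)
    (by
      have h1 : Real.log (4 * (Fintype.card G / #M)) ≤ j := by
        rw [Real.log_mul (by norm_num) (by positivity)]
        have : Real.log (Fintype.card G / #M) ≤ m := by
          rw [Real.log_le_iff_le_exp (by positivity)]; exact hMB
        linarith
      have h2 : (1 / (16 * j) : ℝ) ^ 2 * ((512 * j ^ 3 : ℕ) : ℝ) = 2 * j := by
        push_cast; field_simp; norm_num
      rw [h2]; linarith)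
  set k : ℕ := 512 * j ^ 3 with hk
  have hα : Real.exp (-m) ≤ (#A / Fintype.card G : ℝ) := by rwa [le_div_iff₀ hG0]
  have hT1 : Real.exp (-(k * m)) * Fintype.card G ≤ 2 * #T := by
    refine le_trans ?_ hT
    refine mul_le_mul_of_nonneg_right ?_ hG0.le
    rw [show -(k * m) = k * (-m) by ring, Real.exp_nat_mul]
    exact pow_le_pow_left₀ hE.le hα k
  have hT0 : (0 : ℝ) < #T := by
    have : 0 < Real.exp (-(k * m)) * Fintype.card G := by positivity
    linarith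
  have hTn : T.Nonempty := card_pos.1 (by exact_mod_cast hT0)
  obtain ⟨Γ, hΓ, hΓp⟩ := chang T hTn (η := 1 / 2) (by norm_num)
  have hlogT : Real.log (Fintype.card G / #T) ≤ k * m + 1 := by
    rw [Real.log_le_iff_le_exp (by positivity), div_le_iff₀ hT0, Real.exp_add]
    have h1 := mul_le_mul_of_nonneg_left hT1 (Real.exp_pos (k * m)).le
    rw [← mul_assoc, ← Real.exp_add, add_neg_cancel, Real.exp_zero, one_mul] at h1
    have h2 : (2 : ℝ) ≤ Real.exp 1 := by linarith [Real.add_one_le_exp 1]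
    have h3 : Real.exp (k * m) * (2 * #T) ≤ Real.exp (k * m) * Real.exp 1 * #T := by
      rw [mul_assoc]
      exact mul_le_mul_of_nonneg_left (mul_le_mul_of_nonneg_right h2 hT0.le) (Real.exp_pos _).le
    linarith
  have hm4 : 1 ≤ m ^ 4 := one_le_pow₀ hm
  have hΓc : (#Γ : ℝ) ≤ 2 ^ 22 * m ^ 4 := by
    have h1 : (k : ℝ) ≤ 512 * (4 * m) ^ 3 := by
      rw [hk]; push_cast
      exact mul_le_mul_of_nonneg_left (pow_le_pow_left₀ hj0.le hjm' 3) (by norm_num)
    have h2 : (k : ℝ) * m ≤ 512 * (4 * m) ^ 3 * m := mul_le_mul_of_nonneg_right h1 (by linarith)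
    have h3 : 512 * (4 * m) ^ 3 * m = 32768 * m ^ 4 := by ring
    have h4 : (2 : ℝ) ^ 22 = 4194304 := by norm_num
    rw [h3] at h2
    rw [h4]
    generalize m ^ 4 = z at *
    linarith
  refine ⟨Γ, hΓc, fun t ht y => ?_⟩
  have hρ0 : 0 ≤ Real.exp (-m) / (2 ^ 25 * m ^ 4) := by positivity
  have hb := bohr_period A M hAn hMn f hf0 hf1 hAB hMB T hTn hTp j t
    (ρ := #Γ * (Real.exp (-m) / (2 ^ 25 * m ^ 4))) (by positivity) (hΓp t _ ht) y
  refine hb.trans ?_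
  have e1 : 2 * (j * (2 * (1 / (16 * j)))) = (1 / 4 : ℝ) := by field_simp; norm_num
  have e2 : Real.exp m * (#Γ * (Real.exp (-m) / (2 ^ 25 * m ^ 4))) ≤ 1 / 8 := by
    have : Real.exp m * (#Γ * (Real.exp (-m) / (2 ^ 25 * m ^ 4))) =
        #Γ / (2 ^ 25 * m ^ 4) * (Real.exp m * Real.exp (-m)) := by ring
    rw [this, hEE, mul_one, div_le_iff₀ (by positivity)]
    linarith
  have e3 : Real.exp m * (2 * (1 / 4) ^ j) ≤ 1 / 8 := by
    have h1 : Real.exp m ≤ 4 ^ ⌈m⌉₊ := by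
      calc Real.exp m ≤ Real.exp (⌈m⌉₊ * 1) := Real.exp_le_exp.2 (by linarith [Nat.le_ceil m])
        _ = Real.exp 1 ^ ⌈m⌉₊ := Real.exp_nat_mul _ _
        _ ≤ 4 ^ ⌈m⌉₊ := pow_le_pow_left₀ (Real.exp_pos _).le
            (by linarith [Real.exp_one_lt_d9]) _
    have h2 : (4 : ℝ) ^ ⌈m⌉₊ * (2 * (1 / 4) ^ j) = 1 / 8 := by
      rw [hj, pow_add, one_div, inv_pow]; field_simp; norm_num
    rw [← h2]
    exact mul_le_mul_of_nonneg_right h1 (by positivity)
  rw [mul_add]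
  linarith

/-- **Sanders' quasi-polynomial Bogolyubov lemma**. -/
theorem sanders (A : Finset G) {m : ℝ} (hm : 1 ≤ m) (hA : Real.exp (-m) * Fintype.card G ≤ #A) :
    ∃ Γ : Finset (AddChar G ℂ), (#Γ : ℝ) ≤ 2 ^ 22 * m ^ 4 ∧
      ∀ t, (∀ ψ ∈ Γ, ‖ψ t - 1‖ ≤ Real.exp (-m) / (2 ^ 25 * m ^ 4)) →
        ∃ a₁ ∈ A, ∃ a₂ ∈ A, ∃ a₃ ∈ A, ∃ a₄ ∈ A, t = a₁ + a₂ - a₃ - a₄ := by
  classical
  set M : Finset G := A.image fun a => -a with hMd
  have hMc : #M = #A := card_image_of_injective _ neg_injective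
  set f : G → ℝ := fun x => if ∃ a ∈ A, ∃ b ∈ A, x = a - b then 1 else 0 with hf
  have hf0 : ∀ x, 0 ≤ f x := fun x => by rw [hf]; simp only; split_ifs <;> norm_num
  have hf1 : ∀ x, f x ≤ 1 := fun x => by rw [hf]; simp only; split_ifs <;> norm_num
  obtain ⟨Γ, hΓ, h⟩ := sanders_period A M f hf0 hf1 hm hA (by rwa [hMc])
  refine ⟨Γ, hΓ, fun t ht => ?_⟩
  have hG0 : (0 : ℝ) < Fintype.card G := by exact_mod_cast Fintype.card_pos
  have hA0 : (0 : ℝ) < #A := lt_of_lt_of_le (by positivity) hA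
  have hAn : A.Nonempty := card_pos.1 (by exact_mod_cast hA0)
  have hMn : M.Nonempty := hAn.image _
  have h0 : tri A M f 0 = 1 := by
    rw [tri, expect_congr rfl (g := fun _ => 1), expect_const hAn]
    intro a ha
    rw [expect_congr rfl (g := fun _ => 1), expect_const hMn]
    intro b hb
    obtain ⟨b', hb', rfl⟩ := mem_image.1 hb
    rw [hf]
    exact if_pos ⟨a, ha, b', hb', by abel⟩
  have h1 := h t ht 0
  rw [h0, zero_add, abs_le] at h1
  have h2 : 0 < tri A M f t := by linarith [h1.1]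
  obtain ⟨a, ha, h3⟩ := exists_lt_of_lt_expect hAn h2
  obtain ⟨b, hb, h4⟩ := exists_lt_of_lt_expect hMn h3
  obtain ⟨b', hb', rfl⟩ := mem_image.1 hb
  rw [hf] at h4
  simp only at h4
  split_ifs at h4 with h5
  · obtain ⟨c, hc, d, hd, h6⟩ := h5
    refine ⟨c, hc, b', hb', d, hd, a, ha, ?_⟩
    have : t = (t + a + -b') + b' - a := by abel
    rw [this, h6]; abel
  · exact absurd h4 (lt_irrefl _)

end Crest.Agent.T49.AH
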