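import Crest.Agent.T49.Ah2_9
import Crest.Agent.R51.AddBSG

/-! Row 49, Sanders block, part 4: many additive quadruples give a Freiman homomorphism on a
dense part (Balog-Szemeredi-Gowers, Pluennecke-Ruzsa, a filter by few characters). -/

set_option autoImplicit false

namespace Crest.Agent.T49.AH

open Finset
open scoped BigOperators ComplexConjugate Pointwise

/-- pigeonhole principle, real form. -/
lemma pigeon {α β : Type*} [DecidableEq β] (H : Finset α) (T : Finset β) (hT : T.Nonempty)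
    (c : α → β) (hc : ∀ x ∈ H, c x ∈ T) :
    ∃ y ∈ T, (#H : ℝ) ≤ #T * #{x ∈ H | c x = y} := by
  have h1 : (#H : ℝ) = ∑ y ∈ T, (#{x ∈ H | c x = y} : ℝ) := by
    exact_mod_cast card_eq_sum_card_fiberwise (f := c) (s := H) (t := T) hc
  have hT0 : (0 : ℝ) < #T := by exact_mod_cast hT.card_pos
  have h2 : (#H : ℝ) / #T ≤ 𝔼 y ∈ T, (#{x ∈ H | c x = y} : ℝ) := by
    rw [expect_eq_sum_div_card, h1]
  obtain ⟨y, hy, h3⟩ := exists_le_of_le_expect hT h2
  exact ⟨y, hy, by rwa [div_le_iff₀ hT0, mul_comm] at h3⟩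

/-- pigeonholing finitely many real functions into short intervals. -/
lemma exists_cells {α J : Type*} [Fintype J] (H : Finset α) (u : J → α → ℝ) (lo : J → ℤ) (M : ℕ)
    (hM : 0 < M) (hu : ∀ j, ∀ x ∈ H, (lo j : ℝ) ≤ u j x ∧ u j x < lo j + M) :
    ∃ H' ⊆ H, (#H : ℝ) ≤ (M : ℝ) ^ Fintype.card J * #H' ∧
      ∀ j, ∀ x ∈ H', ∀ y ∈ H', |u j x - u j y| < 1 := by
  classical
  obtain ⟨c, -, hc⟩ := pigeon H (Fintype.piFinset fun j => Ico (lo j) (lo j + M))
    (Fintype.piFinset_nonempty.2 fun j => ⟨lo j, by simp [hM]⟩)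
    (fun x j => ⌊u j x⌋) (fun x hx => by
      rw [Fintype.mem_piFinset]
      intro j
      rw [mem_Ico, Int.le_floor, Int.floor_lt]
      exact_mod_cast hu j x hx)
  refine ⟨_, filter_subset (fun x => (fun j => ⌊u j x⌋) = c) H, ?_, ?_⟩
  · simpa using hc
  · intro j x hx y hy
    have h1 := congrFun (mem_filter.1 hx).2 j
    have h2 := congrFun (mem_filter.1 hy).2 j
    exact Int.abs_sub_lt_one_of_floor_eq_floor (h1.trans h2.symm)

/-- Balog-Szemeredi-Gowers from additive quadruples in four sets. -/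
theorem bsg_energy {Z : Type*} [AddCommGroup Z] [DecidableEq Z] (A₁ A₂ A₃ A₄ : Finset Z)
    {N K : ℝ} (hN : 0 < N) (hK : 1 ≤ K) (h₁ : #A₁ ≤ N) (h₂ : #A₂ ≤ N) (h₃ : #A₃ ≤ N) (h₄ : #A₄ ≤ N)
    (hQ : 2 * N ^ 3 ≤
      K * #{q ∈ (A₁ ×ˢ A₂) ×ˢ (A₃ ×ˢ A₄) | q.1.1 + q.1.2 = q.2.1 + q.2.2}) :
    ∃ A' ⊆ A₁, ∃ B' ⊆ A₂, N ≤ 6 * K ^ 2 * #A' ∧ N ≤ 4 * K ^ 2 * #B' ∧
      (#(A' + B') : ℝ) ≤ 3072 * K ^ 9 * N := by
  have hK0 : 0 < K := by linarith
  set r : Z → ℝ := fun s => #{p ∈ A₃ ×ˢ A₄ | s = p.1 + p.2} with hr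
  have hr0 : ∀ s, 0 ≤ r s := fun s => Nat.cast_nonneg _
  have hrN : ∀ s, r s ≤ N := by
    intro s
    refine le_trans ?_ h₃
    rw [hr]
    simp only [Nat.cast_le]
    refine card_le_card_of_injOn (fun p => p.1) (fun p hp => ?_) fun p hp q hq hpq => ?_
    · exact (mem_product.1 (mem_filter.1 hp).1).1
    · have e1 := (mem_filter.1 hp).2
      have e2 := (mem_filter.1 hq).2
      refine Prod.ext hpq ?_
      simp only at hpq
      rw [e1, hpq] at e2
      exact add_left_cancel e2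
  have hQr : (#{q ∈ (A₁ ×ˢ A₂) ×ˢ (A₃ ×ˢ A₄) | q.1.1 + q.1.2 = q.2.1 + q.2.2} : ℝ) =
      ∑ p ∈ A₁ ×ˢ A₂, r (p.1 + p.2) := by
    rw [card_filter, sum_product]
    push_cast
    refine sum_congr rfl fun p _ => ?_
    rw [hr]
    simp only
    rw [card_filter]
    push_cast
    rfl
  set E : Finset (Z × Z) := {p ∈ A₁ ×ˢ A₂ | N / K ≤ r (p.1 + p.2)} with hE
  have hA12 : (#A₁ : ℝ) * #A₂ ≤ N ^ 2 := by
    rw [sq]; exact mul_le_mul h₁ h₂ (Nat.cast_nonneg _) hN.le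
  have hEc : N ^ 2 ≤ K * #E := by
    have e1 : ∑ p ∈ A₁ ×ˢ A₂, r (p.1 + p.2) ≤
        ∑ p ∈ A₁ ×ˢ A₂, ((if N / K ≤ r (p.1 + p.2) then N else 0) + N / K) := by
      refine sum_le_sum fun p _ => ?_
      have : 0 ≤ N / K := by positivity
      split_ifs with h
      · linarith [hrN (p.1 + p.2)]
      · linarith
    rw [sum_add_distrib, ← sum_filter, sum_const, sum_const, nsmul_eq_mul, nsmul_eq_mul,
      card_product, ← hE] at e1
    push_cast at e1
    rw [hQr] at hQ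
    have e2 : K * ((#A₁ : ℝ) * #A₂ * (N / K)) ≤ N ^ 3 := by
      have : K * ((#A₁ : ℝ) * #A₂ * (N / K)) = #A₁ * #A₂ * N := by field_simp
      rw [this]; nlinarith
    have e3 := mul_le_mul_of_nonneg_left e1 hK0.le
    have e4 : N ^ 2 * N ≤ K * #E * N := by nlinarith
    exact le_of_mul_le_mul_right e4 hN
  have hEA : (#E : ℝ) ≤ #A₁ * #A₂ := by
    have : #E ≤ #(A₁ ×ˢ A₂) := card_filter_le _ _
    rw [card_product] at this
    exact_mod_cast this
  have hE0 : (0 : ℝ) < #E := by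
    by_contra h
    push Not at h
    nlinarith [sq_pos_of_pos hN]
  have hA1 : N ≤ K * #A₁ := by
    have : N * N ≤ K * #A₁ * N := by
      have := mul_le_mul_of_nonneg_left h₂ (Nat.cast_nonneg (α := ℝ) #A₁)
      nlinarith
    exact le_of_mul_le_mul_right this hN
  have hA2 : N ≤ K * #A₂ := by
    have : N * N ≤ K * #A₂ * N := by
      have := mul_le_mul_of_nonneg_right h₁ (Nat.cast_nonneg (α := ℝ) #A₂)
      nlinarith
    exact le_of_mul_le_mul_right this hN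
  have hA1n : A₁.Nonempty := by
    rw [← card_pos, ← Nat.cast_pos (α := ℝ)]
    by_contra h
    push Not at h
    nlinarith
  have hA2n : A₂.Nonempty := by
    rw [← card_pos, ← Nat.cast_pos (α := ℝ)]
    by_contra h
    push Not at h
    nlinarith
  obtain ⟨A', hA', B', hB', e1, e2, e3⟩ := R51.bsg_add A₁ A₂ E (filter_subset _ _) hA1n hA2n K hK
    (hA12.trans hEc)
  set S : Finset Z := E.image fun p => p.1 + p.2 with hS
  have hSc : (#S : ℝ) ≤ K * N := by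
    have f1 : (#S : ℝ) * (N / K) ≤ ∑ s ∈ S, r s := by
      rw [← nsmul_eq_mul, ← sum_const]
      refine sum_le_sum fun s hs => ?_
      obtain ⟨p, hp, rfl⟩ := mem_image.1 hs
      exact (mem_filter.1 hp).2
    have f2 : ∑ s ∈ S, r s ≤ N ^ 2 := by
      have g1 : ∑ s ∈ S, r s = ∑ p ∈ A₃ ×ˢ A₄, ∑ s ∈ S, if s = p.1 + p.2 then (1 : ℝ) else 0 := by
        rw [sum_comm]
        refine sum_congr rfl fun s _ => ?_
        rw [hr]
        simp only
        rw [card_filter]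
        push_cast
        rfl
      have g2 : ∀ p ∈ A₃ ×ˢ A₄, (∑ s ∈ S, if s = p.1 + p.2 then (1 : ℝ) else 0) ≤ 1 := by
        intro p _
        rw [sum_ite_eq']
        split_ifs <;> norm_num
      rw [g1]
      refine (sum_le_sum g2).trans ?_
      rw [sum_const, card_product, nsmul_eq_mul, mul_one, sq]
      push_cast
      exact mul_le_mul h₃ h₄ (Nat.cast_nonneg _) hN.le
    have f3 : (#S : ℝ) * N ≤ K * N * N := by
      have : (#S : ℝ) * N = K * (#S * (N / K)) := by field_simp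
      rw [this]; nlinarith
    exact le_of_mul_le_mul_right f3 hN
  refine ⟨A', hA', B', hB', by nlinarith, by nlinarith, ?_⟩
  have f1 : (#S : ℝ) ^ 3 ≤ (K * N) ^ 3 := pow_le_pow_left₀ (Nat.cast_nonneg _) hSc 3
  have f2 : (#(A' + B') : ℝ) * N ^ 2 ≤ 3072 * K ^ 9 * N * N ^ 2 := by
    have g1 : (#(A' + B') : ℝ) * N ^ 2 ≤ #(A' + B') * (K * (#A₁ * #A₂)) :=
      mul_le_mul_of_nonneg_left (hEc.trans (mul_le_mul_of_nonneg_left hEA hK0.le))
        (Nat.cast_nonneg _)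
    have g2 : K * ((#(A' + B') : ℝ) * (#A₁ * #A₂)) ≤ K * (3072 * K ^ 5 * (K * N) ^ 3) :=
      mul_le_mul_of_nonneg_left (e3.trans (mul_le_mul_of_nonneg_left f1 (by positivity))) hK0.le
    calc (#(A' + B') : ℝ) * N ^ 2 ≤ K * ((#(A' + B') : ℝ) * (#A₁ * #A₂)) := by linarith
      _ ≤ _ := g2
      _ = _ := by ring
  exact le_of_mul_le_mul_right f2 (by positivity)

section Sep

variable {Y : Type*} [AddCommGroup Y] [Fintype Y]

lemma char_third (F : Finset Y) (hF : (0 : Y) ∉ F) :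
    ∃ χ : AddChar Y ℂ, 3 * (#{y ∈ F | ¬ (χ y).re ≤ 1 / 2} : ℝ) ≤ 2 * #F := by
  classical
  have h1 : 𝔼 χ : AddChar Y ℂ, ∑ y ∈ F, (χ y).re ≤ 0 := by
    rw [expect_sum_comm]
    refine le_of_eq (sum_eq_zero fun y hy => ?_)
    rw [← Complex.re_expect, AddChar.expect_apply_eq_zero_iff_ne_zero.2 (fun h => hF (h ▸ hy))]
    rfl
  obtain ⟨χ, -, hχ⟩ := exists_le_of_expect_le univ_nonempty h1
  refine ⟨χ, ?_⟩
  have h2 : ∑ y ∈ F, ((if ¬ (χ y).re ≤ 1 / 2 then (3 / 2 : ℝ) else 0) - 1) ≤ ∑ y ∈ F, (χ y).re := by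
    refine sum_le_sum fun y _ => ?_
    have := (abs_le.1 ((Complex.abs_re_le_norm (χ y)).trans (norm_char χ y).le)).1
    split_ifs with h
    · linarith
    · push Not at h; linarith
  rw [sum_sub_distrib, ← sum_filter, sum_const, sum_const, nsmul_eq_mul, nsmul_eq_mul] at h2
  linarith

lemma exists_sep (r : ℕ) (F : Finset Y) (hF : (0 : Y) ∉ F) (hr : (#F : ℝ) < (3 / 2) ^ r) :
    ∃ χ : Fin r → AddChar Y ℂ, ∀ y ∈ F, ∃ j, (χ j y).re ≤ 1 / 2 := by
  classical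
  induction r generalizing F with
  | zero =>
    have : #F = 0 := by
      have : (#F : ℝ) < 1 := by simpa using hr
      have : #F < 1 := by exact_mod_cast this
      omega
    rw [card_eq_zero] at this
    exact ⟨Fin.elim0, by simp [this]⟩
  | succ r ih =>
    obtain ⟨χ₀, h0⟩ := char_third F hF
    obtain ⟨χ, hχ⟩ := ih {y ∈ F | ¬ (χ₀ y).re ≤ 1 / 2} (fun h => hF (mem_filter.1 h).1)
      (by rw [pow_succ] at hr; linarith)
    refine ⟨Fin.cons χ₀ χ, fun y hy => ?_⟩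
    by_cases h : (χ₀ y).re ≤ 1 / 2
    · exact ⟨0, by simpa using h⟩
    · obtain ⟨j, hj⟩ := hχ y (mem_filter.2 ⟨hy, h⟩)
      exact ⟨j.succ, by simpa using hj⟩

end Sep

/-- `f` is a Freiman homomorphism of order `n` on `H`. -/
def IsFr {G Y : Type*} [AddCommGroup G] [AddCommGroup Y] (n : ℕ) (H : Finset G) (f : G → Y) :
    Prop :=
  ∀ a b : Fin n → G, (∀ i, a i ∈ H) → (∀ i, b i ∈ H) → ∑ i, a i = ∑ i, b i →
    ∑ i, f (a i) = ∑ i, f (b i)

lemma sum_mem_nsmul {Z : Type*} [AddCommGroup Z] [DecidableEq Z] {A : Finset Z} {n : ℕ}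
    (a : Fin n → Z) (ha : ∀ i, a i ∈ A) : ∑ i, a i ∈ n • A := by
  rw [mem_nsmul]
  exact ⟨fun i => ⟨a i, ha i⟩, by rw [List.sum_ofFn]⟩

/-- Many respected additive quadruples give a Freiman homomorphism on a dense part. -/
theorem exists_freiman {G Y : Type*} [AddCommGroup G] [DecidableEq G] [AddCommGroup Y] [Fintype Y]
    [DecidableEq Y] (H₁ H₂ H₃ H₄ : Finset G) (f₁ f₂ f₃ f₄ : G → Y) {N : ℝ} (hN : 0 < N)
    (h₁ : #H₁ ≤ N) (h₂ : #H₂ ≤ N) (h₃ : #H₃ ≤ N) (h₄ : #H₄ ≤ N) (k : ℕ) (hk : 1 ≤ k)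
    (hQ : 2 * N ^ 3 ≤ 2 ^ k * #{q ∈ (H₁ ×ˢ H₂) ×ˢ (H₃ ×ˢ H₄) | q.1.1 + q.1.2 = q.2.1 + q.2.2 ∧
      f₁ q.1.1 + f₂ q.1.2 = f₃ q.2.1 + f₄ q.2.2}) :
    ∃ H' ⊆ H₁, N ≤ 2 ^ (10000 * k) * #H' ∧ IsFr 6 H' f₁ := by
  set gr : (G → Y) → G → G × Y := fun f x => (x, f x) with hgr
  have hinj : ∀ f, Function.Injective (gr f) := fun f x y h => congrArg Prod.fst h
  set K : ℝ := 2 ^ k with hKd
  have hK : 1 ≤ K := one_le_pow₀ (by norm_num)
  have hK0 : 0 < K := by linarith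
  obtain ⟨A', hA', B', hB', e1, e2, e3⟩ := bsg_energy (H₁.image (gr f₁)) (H₂.image (gr f₂))
    (H₃.image (gr f₃)) (H₄.image (gr f₄)) hN hK
    (by rwa [card_image_of_injective _ (hinj _)]) (by rwa [card_image_of_injective _ (hinj _)])
    (by rwa [card_image_of_injective _ (hinj _)]) (by rwa [card_image_of_injective _ (hinj _)])
    (by
      refine hQ.trans (mul_le_mul_of_nonneg_left ?_ hK0.le)
      rw [Nat.cast_le]
      refine card_le_card_of_injOn
        (fun q => ((gr f₁ q.1.1, gr f₂ q.1.2), (gr f₃ q.2.1, gr f₄ q.2.2))) ?_ ?_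
      · intro q hq
        simp only [coe_filter, mem_product, Set.mem_ofPred_eq] at hq ⊢
        obtain ⟨⟨⟨a1, a2⟩, a3, a4⟩, a5, a6⟩ := hq
        exact ⟨⟨⟨mem_image_of_mem _ a1, mem_image_of_mem _ a2⟩, mem_image_of_mem _ a3,
          mem_image_of_mem _ a4⟩, Prod.ext a5 a6⟩
      · intro q _ q' _ h
        simp only [Prod.mk.injEq] at h
        exact Prod.ext (Prod.ext (hinj _ h.1.1) (hinj _ h.1.2))
          (Prod.ext (hinj _ h.2.1) (hinj _ h.2.2)))
  have hA0 : (0 : ℝ) < #A' := by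
    by_contra h
    push Not at h
    nlinarith [sq_pos_of_pos hK0]
  have hB0 : (0 : ℝ) < #B' := by
    by_contra h
    push Not at h
    nlinarith [sq_pos_of_pos hK0]
  have hBn : B'.Nonempty := card_pos.1 (by exact_mod_cast hB0)
  have hBN : (#B' : ℝ) ≤ N := by
    refine le_trans ?_ h₂
    rw [← card_image_of_injective _ (hinj f₂)]
    exact_mod_cast card_le_card hB'
  have hgrA : ∀ a ∈ A', a.1 ∈ H₁ ∧ a = gr f₁ a.1 := by
    intro a ha
    obtain ⟨x, hx, rfl⟩ := mem_image.1 (hA' ha)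
    exact ⟨hx, rfl⟩
  set F : Finset Y := {y | y ≠ 0 ∧ ((0 : G), y) ∈ 6 • A' - 6 • A'} with hF
  have hFc : (#F : ℝ) * #A' ≤ #(7 • A' - 6 • A') := by
    rw [← Nat.cast_mul, ← card_product, Nat.cast_le]
    refine card_le_card_of_injOn (fun p => p.2 + ((0 : G), p.1)) ?_ ?_
    · intro p hp
      simp only [coe_product, Set.mem_prod, mem_coe] at hp
      obtain ⟨u, hu, v, hv, huv⟩ := mem_sub.1 (mem_filter.1 hp.1).2.2
      rw [mem_coe, show (7 : ℕ) = 6 + 1 from rfl, succ_nsmul]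
      refine mem_sub.2 ⟨u + p.2, add_mem_add hu hp.2, v, hv, ?_⟩
      simp only
      rw [← huv]; abel
    · intro p hp q hq h
      simp only [coe_product, Set.mem_prod, mem_coe] at hp hq
      have g1 : p.2.1 = q.2.1 := by simpa using congrArg Prod.fst h
      have g2 : p.2 = q.2 := by rw [(hgrA _ hp.2).2, (hgrA _ hq.2).2, g1]
      simp only [g2, add_right_inj, Prod.mk.injEq, true_and] at h
      exact Prod.ext h g2
  have hPl : (#(7 • A' - 6 • A') : ℝ) ≤ (#(B' + A') / #B') ^ 13 * #B' := by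
    have := pluennecke_ruzsa_inequality_nsmul_sub_nsmul_add hBn A' 7 6
    have h2 := (NNRat.cast_le (K := ℝ)).2 this
    push_cast at h2
    exact h2
  have hrat : (#(B' + A') / #B' : ℝ) ≤ 2 ^ 14 * K ^ 11 := by
    rw [div_le_iff₀ hB0, add_comm]
    refine e3.trans ?_
    have : 3072 * K ^ 9 * N ≤ 3072 * K ^ 9 * (4 * K ^ 2 * #B') :=
      mul_le_mul_of_nonneg_left e2 (by positivity)
    refine this.trans ?_
    have h3 : 0 ≤ K ^ 11 * #B' := by positivity
    nlinarith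
  set t : ℕ := 185 + 145 * k with ht
  have hFt : (#F : ℝ) ≤ 2 ^ t := by
    have g1 : (#F : ℝ) * #A' ≤ (2 ^ 14 * K ^ 11) ^ 13 * (8 * K ^ 2 * #A') := by
      refine hFc.trans (hPl.trans ?_)
      refine mul_le_mul (pow_le_pow_left₀ (by positivity) hrat 13) ?_ hB0.le (by positivity)
      have : 0 ≤ K ^ 2 * #A' := by positivity
      nlinarith
    have g2 : (2 ^ 14 * K ^ 11) ^ 13 * (8 * K ^ 2 * #A') = 2 ^ t * #A' := by
      rw [ht, hKd, pow_add, mul_comm 145 k, pow_mul]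
      generalize (2 : ℝ) ^ k = z
      rw [show (8 : ℝ) = 2 ^ 3 by norm_num]
      ring
    rw [g2] at g1
    exact le_of_mul_le_mul_right g1 hA0
  obtain ⟨χ, hχ⟩ := exists_sep (2 * t) F (fun h => (mem_filter.1 h).2.1 rfl) (by
    refine hFt.trans_lt ?_
    rw [pow_mul]
    exact pow_lt_pow_left₀ (by norm_num) (by norm_num) (by omega))
  obtain ⟨A'', hA'', c1, c2⟩ := exists_cells A'
    (fun (j : Fin (2 * t) × Bool) a => 48 * (if j.2 then (χ j.1 a.2).re else (χ j.1 a.2).im))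
    (fun _ => -48) 97 (by norm_num) (fun j a _ => by
      have g1 := abs_le.1 ((Complex.abs_re_le_norm (χ j.1 a.2)).trans (norm_char _ _).le)
      have g2 := abs_le.1 ((Complex.abs_im_le_norm (χ j.1 a.2)).trans (norm_char _ _).le)
      push_cast
      split_ifs <;> constructor <;> linarith [g1.1, g1.2, g2.1, g2.2])
  have hinjA : Set.InjOn (Prod.fst : G × Y → G) A'' := by
    intro p hp q hq h
    rw [(hgrA _ (hA'' hp)).2, (hgrA _ (hA'' hq)).2, h]
  refine ⟨A''.image Prod.fst, ?_, ?_, ?_⟩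
  · intro x hx
    obtain ⟨a, ha, rfl⟩ := mem_image.1 hx
    exact (hgrA a (hA'' ha)).1
  · rw [card_image_of_injOn hinjA]
    refine e1.trans ?_
    have g1 : ((97 : ℕ) : ℝ) ^ Fintype.card (Fin (2 * t) × Bool) ≤ 2 ^ (28 * t) := by
      rw [Fintype.card_prod, Fintype.card_fin, Fintype.card_bool, show 28 * t = 7 * (2 * t * 2) by ring,
        pow_mul (2 : ℝ) 7]
      exact pow_le_pow_left₀ (by norm_num) (by norm_num) _
    have g2 : (#A' : ℝ) ≤ 2 ^ (28 * t) * #A'' :=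
      c1.trans (mul_le_mul_of_nonneg_right g1 (Nat.cast_nonneg _))
    have g3 : 6 * K ^ 2 * 2 ^ (28 * t) ≤ 2 ^ (10000 * k) := by
      calc 6 * K ^ 2 * 2 ^ (28 * t) ≤ 2 ^ 3 * K ^ 2 * 2 ^ (28 * t) := by gcongr; norm_num
        _ = 2 ^ (3 + k * 2 + 28 * t) := by rw [hKd, ← pow_mul, ← pow_add, ← pow_add]
        _ ≤ _ := pow_le_pow_right₀ (by norm_num) (by omega)
    calc 6 * K ^ 2 * #A' ≤ 6 * K ^ 2 * (2 ^ (28 * t) * #A'') :=
          mul_le_mul_of_nonneg_left g2 (by positivity)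
      _ = 6 * K ^ 2 * 2 ^ (28 * t) * #A'' := by ring
      _ ≤ _ := mul_le_mul_of_nonneg_right g3 (Nat.cast_nonneg _)
  · intro a b ha hb hab
    have hmem : ∀ x ∈ A''.image Prod.fst, gr f₁ x ∈ A'' := by
      intro x hx
      obtain ⟨p, hp, rfl⟩ := mem_image.1 hx
      rw [← (hgrA _ (hA'' hp)).2]; exact hp
    by_contra hne
    have hy : ∑ i, f₁ (a i) - ∑ i, f₁ (b i) ∈ F := by
      refine mem_filter.2 ⟨mem_univ _, sub_ne_zero.2 hne, ?_⟩
      refine mem_sub.2 ⟨_, sum_mem_nsmul (fun i => gr f₁ (a i)) fun i => hA'' (hmem _ (ha i)), _,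
        sum_mem_nsmul (fun i => gr f₁ (b i)) fun i => hA'' (hmem _ (hb i)), ?_⟩
      refine Prod.ext ?_ ?_
      · simp only [Prod.fst_sub, Prod.fst_sum, hgr, hab, sub_self]
      · simp only [Prod.snd_sub, Prod.snd_sum, hgr]
    obtain ⟨j, hj⟩ := hχ _ hy
    have g1 : χ j (∑ i, f₁ (a i) - ∑ i, f₁ (b i)) = ∏ i, χ j (f₁ (a i) - f₁ (b i)) := by
      rw [← sum_sub_distrib]
      exact map_sum (χ j).toAddMonoidHom _ _
    have g2 : ∀ i, ‖χ j (f₁ (a i) - f₁ (b i)) - 1‖ ≤ 1 / 24 := by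
      intro i
      have k1 : χ j (f₁ (a i) - f₁ (b i)) - 1 =
          (χ j (f₁ (a i)) - χ j (f₁ (b i))) * χ j (- f₁ (b i)) := by
        rw [sub_mul, ← AddChar.map_add_eq_mul, ← AddChar.map_add_eq_mul, add_neg_cancel,
          AddChar.map_zero_eq_one, ← sub_eq_add_neg]
      rw [k1, norm_mul, norm_char, mul_one]
      refine (Complex.norm_le_abs_re_add_abs_im _).trans ?_
      have k2 := c2 (j, true) _ (hmem _ (ha i)) _ (hmem _ (hb i))
      have k3 := c2 (j, false) _ (hmem _ (ha i)) _ (hmem _ (hb i))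
      simp only [hgr, if_true, Bool.false_eq_true, if_false] at k2 k3
      rw [← mul_sub, abs_mul, abs_of_pos (by norm_num : (0 : ℝ) < 48)] at k2 k3
      rw [Complex.sub_re, Complex.sub_im]
      linarith
    have g3 : ‖χ j (∑ i, f₁ (a i) - ∑ i, f₁ (b i)) - 1‖ ≤ 1 / 4 := by
      rw [g1]
      refine (norm_prod_sub_one_le _ _ fun i _ => (norm_char _ _).le).trans ?_
      refine (sum_le_sum fun i _ => g2 i).trans ?_
      simp; norm_num
    have g4 := (abs_le.1 ((Complex.abs_re_le_norm _).trans g3)).1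
    rw [Complex.sub_re, Complex.one_re] at g4
    linarith

end Crest.Agent.T49.AH
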