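import Mathlib

/-!
# Row 49 (helper74): quasi-orthogonal (reduced) bases of lattices for an arbitrary norm

* `exists_red` : a lattice in a normed space of dimension `n` has a basis `b` with
  `|t i| * ‖b i‖ ≤ (2 n) ^ n * ‖∑ t j • b j‖`;
* `Red A` / `exists_Red` : the same for `ℤ ^ ι` with the norm `‖A x‖`, with the dual basis;
* `Red.transference`, `Red.abs_coZ_le`, `Red.norm_le_of_co` : transference and the
  comparison of the ball with a proper progression.
-/

set_option autoImplicit false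
set_option linter.unusedSectionVars false

namespace Crest.Agent.T49.Lat

open Module Submodule

universe u

theorem exists_shortest {V : Type*} [NormedAddCommGroup V] [NormedSpace ℝ V]
    [FiniteDimensional ℝ V] (L : Submodule ℤ V) [DiscreteTopology L] {v : V} (hv : v ∈ L)
    (hv0 : v ≠ 0) : ∃ b ∈ L, b ≠ 0 ∧ ∀ x ∈ L, x ≠ 0 → ‖b‖ ≤ ‖x‖ := by
  have hcl : IsClosed (L : Set V) := by
    have : DiscreteTopology L.toAddSubgroup := ‹_›
    exact AddSubgroup.isClosed_of_discrete (H := L.toAddSubgroup)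
  have hfin : (Metric.closedBall (0 : V) ‖v‖ ∩ (L : Set V)).Finite :=
    Metric.finite_isBounded_inter_isClosed (isDiscrete_iff_discreteTopology.2 ‹_›)
      Metric.isBounded_closedBall hcl
  have hfin' : ({x | x ∈ L ∧ x ≠ 0 ∧ ‖x‖ ≤ ‖v‖} : Set V).Finite :=
    hfin.subset fun x hx => ⟨by simpa using hx.2.2, hx.1⟩
  obtain ⟨b, hb, hmin⟩ := Set.exists_min_image _ (fun x => ‖x‖) hfin' ⟨v, hv, hv0, le_rfl⟩
  refine ⟨b, hb.1, hb.2.1, fun x hx hx0 => ?_⟩
  by_cases h : ‖x‖ ≤ ‖v‖
  · exact hmin x ⟨hx, hx0, h⟩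
  · exact hb.2.2.trans (not_le.1 h).le

theorem norm_round_le {V : Type*} [NormedAddCommGroup V] [NormedSpace ℝ V] (b x : V) (t : ℝ) :
    ‖x - round t • b‖ ≤ ‖x - t • b‖ + ‖b‖ / 2 := by
  have e : x - round t • b = (x - t • b) + (t - round t) • b := by
    rw [sub_smul, ← Int.cast_smul_eq_zsmul ℝ]; abel
  rw [e]
  refine (norm_add_le _ _).trans (add_le_add le_rfl ?_)
  rw [norm_smul, Real.norm_eq_abs]
  have := abs_sub_round t
  nlinarith [norm_nonneg b]

/-- **quasi-orthogonal basis** -/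
theorem exists_red (n : ℕ) : ∀ (V : Type u) [NormedAddCommGroup V] [NormedSpace ℝ V]
    [FiniteDimensional ℝ V] (L : Submodule ℤ V) [DiscreteTopology L] [IsZLattice ℝ L],
    finrank ℝ V = n → ∃ b : Fin n → V, span ℤ (Set.range b) = L ∧
      ∀ (t : Fin n → ℝ) (i : Fin n), |t i| * ‖b i‖ ≤ (2 * n) ^ n * ‖∑ j, t j • b j‖ := by
  induction n with
  | zero =>
    intro V _ _ _ L _ _ hn
    have : Subsingleton V := finrank_zero_iff.1 hn
    exact ⟨Fin.elim0, Subsingleton.elim _ _, fun _ i => i.elim0⟩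
  | succ n ih =>
    intro V _ _ _ L _ hL hn
    obtain ⟨v, hv, hv0⟩ : ∃ v ∈ L, v ≠ 0 := by
      by_contra h
      push Not at h
      have h1 : span ℝ (L : Set V) ≤ ⊥ := span_le.2 fun x hx => h x hx
      rw [hL.span_top, top_le_iff] at h1
      have : Subsingleton V := (Submodule.subsingleton_iff ℝ).1 (subsingleton_of_bot_eq_top h1)
      rw [finrank_zero_of_subsingleton] at hn
      omega
    obtain ⟨b₀, hb₀, hb0, hmin⟩ := exists_shortest L hv hv0
    have hbpos : 0 < ‖b₀‖ := norm_pos_iff.2 hb0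
    let S : Submodule ℝ V := span ℝ {b₀}
    have hS : IsClosed (S : Set V) := S.closed_of_finiteDimensional
    let π : V →ₗ[ℝ] V ⧸ S := S.mkQ
    have hπb : π b₀ = 0 := (Submodule.Quotient.mk_eq_zero S).2 (mem_span_singleton_self b₀)
    have hker : ∀ x ∈ L, π x = 0 → ∃ k : ℤ, x = k • b₀ := by
      intro x hx h0
      obtain ⟨t, ht⟩ := mem_span_singleton.1 ((Submodule.Quotient.mk_eq_zero S).1 h0)
      refine ⟨round t, ?_⟩
      by_contra hne
      have h1 := hmin _ (L.sub_mem hx (L.smul_mem (round t) hb₀)) (sub_ne_zero.2 hne)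
      have h2 := norm_round_le b₀ x t
      rw [ht, sub_self, norm_zero] at h2
      linarith
    have hlift : ∀ x ∈ L, π x ≠ 0 →
        ‖b₀‖ ≤ 2 * ‖π x‖ ∧ ∃ x' ∈ L, π x' = π x ∧ ‖x'‖ ≤ 2 * ‖π x‖ := by
      intro x hx h0
      obtain ⟨y, hy, hd⟩ := hS.exists_infDist_eq_dist ⟨0, S.zero_mem⟩ x
      obtain ⟨t, rfl⟩ := mem_span_singleton.1 hy
      have h1 : ‖π x‖ = ‖x - t • b₀‖ := by
        rw [← dist_eq_norm, ← hd]
        exact QuotientAddGroup.norm_mk (S := S.toAddSubgroup) x
      have h2 := norm_round_le b₀ x t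
      have h3 : π (x - round t • b₀) = π x := by rw [map_sub, map_zsmul, hπb, smul_zero, sub_zero]
      have h4 := L.sub_mem hx (L.smul_mem (round t) hb₀)
      have h5 := hmin _ h4 (fun h => h0 (by rw [← h3, h, map_zero]))
      exact ⟨by linarith, _, h4, h3, by linarith⟩
    let L' : Submodule ℤ (V ⧸ S) := L.map (π.restrictScalars ℤ)
    have : DiscreteTopology L' := by
      refine discreteTopology_of_isOpen_singleton_zero ?_
      have e : ({0} : Set L') = Metric.ball 0 (‖b₀‖ / 2) := by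
        ext ⟨y, x, hx, rfl⟩
        simp only [Set.mem_singleton_iff, mem_ball_zero_iff]
        constructor
        · intro h; rw [h, norm_zero]; linarith
        · intro h
          by_contra hne
          have h1 := (hlift x hx fun h0 => hne (Subtype.ext h0)).1
          have h2 : ‖π x‖ < ‖b₀‖ / 2 := h
          linarith
      rw [e]; exact Metric.isOpen_ball
    have : IsZLattice ℝ L' := ⟨by
      have e : (L' : Set (V ⧸ S)) = π '' (L : Set V) := rfl
      rw [e, ← Submodule.map_span, hL.span_top, Submodule.map_top, LinearMap.range_eq_top]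
      exact S.mkQ_surjective⟩
    have hrk : finrank ℝ (V ⧸ S) = n := by
      have h1 := S.finrank_quotient_add_finrank
      rw [finrank_span_singleton hb0, hn] at h1
      omega
    obtain ⟨c, hc, hq⟩ := ih (V ⧸ S) L' hrk
    have hl : ∀ i, ∃ x ∈ L, π x = c i ∧ ‖x‖ ≤ 2 * ‖c i‖ := fun i => by
      have : c i ∈ L' := hc ▸ subset_span ⟨i, rfl⟩
      obtain ⟨x, hx, e⟩ := this
      have e' : π x = c i := e
      by_cases h0 : π x = 0
      · exact ⟨0, L.zero_mem, by rw [map_zero, ← e', h0], by simp⟩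
      · obtain ⟨x', h1, h2, h3⟩ := (hlift x hx h0).2
        exact ⟨x', h1, h2.trans e', e' ▸ h3⟩
    choose b hbL hbπ hbn using hl
    refine ⟨Fin.cons b₀ b, le_antisymm (span_le.2 ?_) fun x hx => ?_, fun t i => ?_⟩
    · rintro _ ⟨i, rfl⟩
      refine Fin.cases ?_ (fun i => ?_) i
      · exact hb₀
      · exact hbL i
    · have h1 : π x ∈ span ℤ (Set.range c) := hc ▸ ⟨x, hx, rfl⟩
      obtain ⟨k, hk⟩ := (mem_span_range_iff_exists_fun ℤ).1 h1
      have h2 : ∑ j, k j • b j ∈ L := L.sum_mem fun j _ => L.smul_mem _ (hbL j)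
      obtain ⟨k₀, hk₀⟩ := hker _ (L.sub_mem hx h2) (by
        rw [map_sub, map_sum, ← hk, sub_eq_zero]
        exact Finset.sum_congr rfl fun j _ => by rw [map_zsmul, hbπ])
      rw [eq_add_of_sub_eq hk₀]
      refine add_mem (smul_mem _ _ (subset_span ⟨0, rfl⟩))
        (sum_mem fun j _ => smul_mem _ _ (subset_span ⟨j.succ, rfl⟩))
    · set x := ∑ j, t j • (Fin.cons b₀ b : Fin (n + 1) → V) j with hx
      have hx' : x = t 0 • b₀ + ∑ j : Fin n, t j.succ • b j := by
        rw [hx, Fin.sum_univ_succ]; rfl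
      have hπx : π x = ∑ j : Fin n, t j.succ • c j := by
        rw [hx', map_add, map_smul, hπb, smul_zero, zero_add, map_sum]
        exact Finset.sum_congr rfl fun j _ => by rw [map_smul, hbπ]
      have hle : ‖π x‖ ≤ ‖x‖ := Submodule.Quotient.norm_mk_le S x
      have hC : (0 : ℝ) ≤ (2 * n) ^ n := by positivity
      have hj : ∀ j : Fin n, |t j.succ| * ‖b j‖ ≤ 2 * (2 * n) ^ n * ‖x‖ := fun j => by
        have h1 := hq (fun j => t j.succ) j
        rw [← hπx] at h1
        calc |t j.succ| * ‖b j‖ ≤ |t j.succ| * (2 * ‖c j‖) :=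
              mul_le_mul_of_nonneg_left (hbn j) (abs_nonneg _)
          _ = 2 * (|t j.succ| * ‖c j‖) := by ring
          _ ≤ 2 * ((2 * n) ^ n * ‖x‖) :=
              mul_le_mul_of_nonneg_left (h1.trans (mul_le_mul_of_nonneg_left hle hC)) zero_le_two
          _ = _ := by ring
      have hnum : (1 : ℝ) + n * (2 * (2 * n) ^ n) ≤ (2 * (n + 1 : ℕ)) ^ (n + 1) := by
        have h1 : (2 * n) ^ (n + 1) < (2 * (n + 1)) ^ (n + 1) :=
          Nat.pow_lt_pow_left (by omega) (by omega)
        have h2 : 1 + n * (2 * (2 * n) ^ n) ≤ (2 * (n + 1)) ^ (n + 1) := by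
          have : n * (2 * (2 * n) ^ n) = (2 * n) ^ (n + 1) := by ring
          omega
        exact_mod_cast h2
      refine le_trans ?_ (mul_le_mul_of_nonneg_right hnum (norm_nonneg x))
      refine Fin.cases ?_ (fun j => ?_) i
      · have h1 : t 0 • b₀ = x - ∑ j : Fin n, t j.succ • b j := by rw [hx']; abel
        have h2 : |t 0| * ‖b₀‖ ≤ ‖x‖ + ∑ j : Fin n, |t j.succ| * ‖b j‖ := by
          rw [← Real.norm_eq_abs, ← norm_smul, h1]
          refine (norm_sub_le _ _).trans (add_le_add le_rfl ((norm_sum_le _ _).trans ?_))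
          exact le_of_eq (Finset.sum_congr rfl fun j _ => by rw [norm_smul, Real.norm_eq_abs])
        have h3 : ∑ j : Fin n, |t j.succ| * ‖b j‖ ≤ n * (2 * (2 * n) ^ n * ‖x‖) := by
          refine (Finset.sum_le_sum fun j _ => hj j).trans ?_
          simp
        change |t 0| * ‖b₀‖ ≤ _
        nlinarith
      · have h1 := hj j
        have h2 : (1 : ℝ) ≤ n := by exact_mod_cast j.pos
        have h3 : 0 ≤ 2 * (2 * (n : ℝ)) ^ n * ‖x‖ := by positivity
        change |t j.succ| * ‖b j‖ ≤ _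
        nlinarith [norm_nonneg x]

section Int

variable {ι E : Type*} [Fintype ι] [DecidableEq ι] [NormedAddCommGroup E] [NormedSpace ℝ E]

/-- an integer vector as a real vector -/
def cast (x : ι → ℤ) : ι → ℝ := fun k => (x k : ℝ)

@[simp] theorem cast_apply (x : ι → ℤ) (k : ι) : cast x k = (x k : ℝ) := rfl

/-- the constant `(2 d) ^ d` -/
def cst (ι : Type*) [Fintype ι] : ℝ := (2 * Fintype.card ι) ^ Fintype.card ι

/-- a reduced basis `b` of `ℤ ^ ι` for the norm `‖A x‖`, with its dual basis `ξ` -/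
structure Red (A : (ι → ℝ) →ₗ[ℝ] E) where
  b : ι → ι → ℤ
  ξ : ι → ι → ℤ
  dual : ∀ i j, ∑ k, ξ i k * b j k = if i = j then 1 else 0
  dual' : ∀ k l, ∑ i, ξ i k * b i l = if k = l then 1 else 0
  bound : ∀ (x : ι → ℝ) (i : ι), |∑ k, (ξ i k : ℝ) * x k| * ‖A (cast (b i))‖ ≤ cst ι * ‖A x‖

/-- **existence of reduced bases** -/
theorem exists_Red (A : (ι → ℝ) →ₗ[ℝ] E) (hA : Function.Injective A) : Nonempty (Red A) := by
  let V := LinearMap.range A
  let e : (ι → ℝ) ≃ₗ[ℝ] V := LinearEquiv.ofInjective A hA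
  let B : Basis ι ℝ V := (Pi.basisFun ℝ ι).map e
  have hrk : finrank ℝ V = Fintype.card ι := finrank_eq_card_basis B
  obtain ⟨c, hc, hq⟩ := exists_red (Fintype.card ι) V (span ℤ (Set.range B)) hrk
  let σ := Fintype.equivFin ι
  have hcast : ∀ x : ι → ℤ, e (cast x) = ∑ k, x k • B k := fun x => by
    conv_lhs => rw [← (Pi.basisFun ℝ ι).sum_repr (cast x)]
    rw [map_sum]
    exact Finset.sum_congr rfl fun k _ => by
      rw [map_smul, Pi.basisFun_repr, cast_apply, Int.cast_smul_eq_zsmul]; rfl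
  have h1 : ∀ i, ∃ x : ι → ℤ, e (cast x) = c (σ i) := fun i => by
    have : c (σ i) ∈ span ℤ (Set.range B) := hc ▸ subset_span ⟨σ i, rfl⟩
    obtain ⟨x, hx⟩ := (mem_span_range_iff_exists_fun ℤ).1 this
    exact ⟨x, (hcast x).trans hx⟩
  choose b hb using h1
  have h2 : ∀ k, ∃ y : ι → ℤ, ∑ i, y i • c (σ i) = B k := fun k => by
    have : B k ∈ span ℤ (Set.range c) := hc ▸ subset_span ⟨k, rfl⟩
    obtain ⟨y, hy⟩ := (mem_span_range_iff_exists_fun ℤ).1 this
    exact ⟨fun i => y (σ i), (σ.sum_comp fun j => y j • c j).trans hy⟩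
  choose y hy using h2
  have hd' : ∀ k l, ∑ i, y k i * b i l = if k = l then 1 else 0 := fun k l => by
    have h3 : ∑ i, y k i • cast (b i) = Pi.basisFun ℝ ι k := e.injective (by
      rw [map_sum]
      refine Eq.trans (Finset.sum_congr rfl fun i _ => ?_) (hy k)
      rw [map_zsmul, hb])
    have h4 := congrFun h3 l
    simp only [Finset.sum_apply, Pi.smul_apply, cast_apply, Pi.basisFun_apply,
      Pi.single_apply] at h4
    simp only [zsmul_eq_mul] at h4
    have h5 : ((∑ i, y k i * b i l : ℤ) : ℝ) = ((if k = l then 1 else 0 : ℤ) : ℝ) := by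
      push_cast
      rw [h4]
      simp only [eq_comm]
    exact_mod_cast h5
  have hM : Matrix.of y * Matrix.of b = 1 := by
    ext k l; rw [Matrix.mul_apply, Matrix.one_apply]; exact hd' k l
  have hM' := mul_eq_one_comm.1 hM
  refine ⟨⟨b, fun i k => y k i, fun i j => ?_, hd', fun x i => ?_⟩⟩
  · have := congrFun (congrFun hM' j) i
    rw [Matrix.mul_apply, Matrix.one_apply] at this
    simp only [Matrix.of_apply] at this
    rw [show (if i = j then (1 : ℤ) else 0) = if j = i then 1 else 0 by simp only [eq_comm], ← this]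
    exact Finset.sum_congr rfl fun k _ => mul_comm _ _
  · have h3 := hq (fun j => ∑ k, (y k (σ.symm j) : ℝ) * x k) (σ i)
    have h4 : ∑ j, (∑ k, (y k (σ.symm j) : ℝ) * x k) • c j = e x := by
      rw [← σ.sum_comp]
      conv_rhs => rw [← (Pi.basisFun ℝ ι).sum_repr x, map_sum]
      simp only [Equiv.symm_apply_apply, Finset.sum_smul]
      rw [Finset.sum_comm]
      refine Finset.sum_congr rfl fun k _ => ?_
      rw [map_smul, Pi.basisFun_repr, show e (Pi.basisFun ℝ ι k) = B k from rfl, ← hy k,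
        Finset.smul_sum]
      exact Finset.sum_congr rfl fun i _ => by
        rw [mul_comm, mul_smul, Int.cast_smul_eq_zsmul]
    rw [h4, Equiv.symm_apply_apply, ← hb] at h3
    exact h3

theorem one_le_cst (ι : Type*) [Fintype ι] : 1 ≤ cst ι := by
  unfold cst
  rcases Nat.eq_zero_or_pos (Fintype.card ι) with h | h
  · simp [h]
  · have : (1 : ℝ) ≤ Fintype.card ι := by exact_mod_cast h
    exact one_le_pow₀ (by linarith)

namespace Red

variable {A : (ι → ℝ) →ₗ[ℝ] E} (R : Red A)

/-- the `i`-th coordinate of a real vector -/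
def co (i : ι) : (ι → ℝ) →ₗ[ℝ] ℝ where
  toFun x := ∑ k, (R.ξ i k : ℝ) * x k
  map_add' x y := by simp [mul_add, Finset.sum_add_distrib]
  map_smul' c x := by simp [Finset.mul_sum, mul_left_comm]

/-- the `i`-th coordinate of an integer vector -/
def coZ (i : ι) (x : ι → ℤ) : ℤ := ∑ k, R.ξ i k * x k

theorem co_apply (i : ι) (x : ι → ℝ) : R.co i x = ∑ k, (R.ξ i k : ℝ) * x k := rfl

theorem co_cast (i : ι) (x : ι → ℤ) : R.co i (cast x) = R.coZ i x := by
  simp [co_apply, coZ]

theorem coZ_b (i j : ι) : R.coZ i (R.b j) = if i = j then 1 else 0 := R.dual i j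

theorem co_b (i j : ι) : R.co i (cast (R.b j)) = if i = j then 1 else 0 := by
  rw [co_cast, coZ_b]; split_ifs <;> simp

/-- expansion of an integer vector -/
theorem sum_coZ (x : ι → ℤ) : ∑ i, R.coZ i x • R.b i = x := by
  ext l
  simp only [Finset.sum_apply, Pi.smul_apply, smul_eq_mul, coZ, Finset.sum_mul]
  rw [Finset.sum_comm]
  have : ∀ k, ∑ i, R.ξ i k * x k * R.b i l = x k * if k = l then 1 else 0 := fun k => by
    rw [← R.dual', Finset.mul_sum]
    exact Finset.sum_congr rfl fun i _ => by ring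
  simp [this]

/-- expansion of a real vector -/
theorem sum_co (x : ι → ℝ) : ∑ i, R.co i x • cast (R.b i) = x := by
  ext l
  simp only [Finset.sum_apply, Pi.smul_apply, smul_eq_mul, co_apply, Finset.sum_mul, cast_apply]
  rw [Finset.sum_comm]
  have : ∀ k, ∑ i, (R.ξ i k : ℝ) * x k * R.b i l = x k * if k = l then 1 else 0 := fun k => by
    have h : (∑ i, (R.ξ i k : ℝ) * R.b i l) = if k = l then 1 else 0 := by
      have := congrArg (Int.cast : ℤ → ℝ) (R.dual' k l)
      push_cast at this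
      exact this
    rw [← h, Finset.mul_sum]
    exact Finset.sum_congr rfl fun i _ => by ring
  simp [this]

theorem co_sum (t : ι → ℝ) (i : ι) : R.co i (∑ j, t j • cast (R.b j)) = t i := by
  simp [map_sum, co_b]

theorem coZ_sum (t : ι → ℤ) (i : ι) : R.coZ i (∑ j, t j • R.b j) = t i := by
  have h : ∀ j, R.coZ i (t j • R.b j) = t j * R.coZ i (R.b j) := fun j => by
    simp [coZ, Finset.mul_sum, mul_left_comm]
  have h2 : R.coZ i (∑ j, t j • R.b j) = ∑ j, R.coZ i (t j • R.b j) := by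
    simp only [coZ, Finset.sum_apply, Finset.mul_sum]
    exact Finset.sum_comm
  rw [h2]
  simp only [h, coZ_b]
  simp

/-- the coordinates of a vector are bounded by its norm -/
theorem abs_co_le (x : ι → ℝ) (i : ι) : |R.co i x| * ‖A (cast (R.b i))‖ ≤ cst ι * ‖A x‖ :=
  R.bound x i

/-- the norm of a vector is bounded by its coordinates -/
theorem norm_le (x : ι → ℝ) : ‖A x‖ ≤ ∑ i, |R.co i x| * ‖A (cast (R.b i))‖ := by
  conv_lhs => rw [← R.sum_co x, map_sum]
  refine (norm_sum_le _ _).trans (le_of_eq (Finset.sum_congr rfl fun i _ => ?_))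
  rw [map_smul, norm_smul, Real.norm_eq_abs]

/-- short lattice vectors have no coordinates along the long basis vectors -/
theorem coZ_eq_zero {x : ι → ℤ} {i : ι} (h : cst ι * ‖A (cast x)‖ < ‖A (cast (R.b i))‖) :
    R.coZ i x = 0 := by
  by_contra h0
  have h1 := R.abs_co_le (cast x) i
  rw [co_cast] at h1
  have h2 : (1 : ℝ) ≤ |(R.coZ i x : ℝ)| := by exact_mod_cast Int.one_le_abs h0
  nlinarith [norm_nonneg (A (cast (R.b i)))]

/-- the span of the basis vectors of norm `≤ t` -/
def U (t : ℝ) : Submodule ℝ (ι → ℝ) :=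
  span ℝ ((fun i => cast (R.b i)) '' {i | ‖A (cast (R.b i))‖ ≤ t})

theorem mem_U {t : ℝ} {x : ι → ℝ} : x ∈ R.U t ↔ ∀ i, t < ‖A (cast (R.b i))‖ → R.co i x = 0 := by
  constructor
  · intro hx i hi
    have : R.U t ≤ LinearMap.ker (R.co i) := span_le.2 (by
      rintro _ ⟨j, hj, rfl⟩
      have hne : i ≠ j := fun h => absurd hj (not_le.2 (h ▸ hi))
      simp [co_b, hne])
    exact this hx
  · intro h
    rw [← R.sum_co x]
    refine sum_mem fun i _ => ?_
    by_cases hi : ‖A (cast (R.b i))‖ ≤ t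
    · exact smul_mem _ _ (subset_span ⟨i, hi, rfl⟩)
    · rw [h i (not_le.1 hi), zero_smul]; exact zero_mem _

/-- short lattice vectors lie in `U t` -/
theorem cast_mem_U {t : ℝ} {x : ι → ℤ} (h : cst ι * ‖A (cast x)‖ ≤ t) : cast x ∈ R.U t :=
  R.mem_U.2 fun i hi => by rw [co_cast, R.coZ_eq_zero (h.trans_lt hi), Int.cast_zero]

/-- **transference**: the equations of `U t` are short dual vectors -/
theorem transference {t : ℝ} {i : ι} (hi : t < ‖A (cast (R.b i))‖) (x : ι → ℝ) :
    |R.co i x| * t ≤ cst ι * ‖A x‖ :=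
  (mul_le_mul_of_nonneg_left hi.le (abs_nonneg _)).trans (R.abs_co_le x i)

/-- the lattice points of `U t` are dense in `U t` -/
theorem exists_near {t : ℝ} (ht : 0 ≤ t) {x : ι → ℝ} (hx : x ∈ R.U t) :
    ∃ z : ι → ℤ, cast z ∈ R.U t ∧ ‖A (x - cast z)‖ ≤ Fintype.card ι * t / 2 := by
  have e : cast (∑ j, round (R.co j x) • R.b j) =
      ∑ j, (round (R.co j x) : ℝ) • cast (R.b j) := by
    ext l; simp
  have hco : ∀ i, R.co i (cast (∑ j, round (R.co j x) • R.b j)) = round (R.co i x) := fun i => by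
    rw [e, co_sum]
  refine ⟨∑ j, round (R.co j x) • R.b j, R.mem_U.2 fun i hi => ?_, (R.norm_le _).trans ?_⟩
  · rw [hco, R.mem_U.1 hx i hi]; simp
  · have : ∀ i, |R.co i (x - cast (∑ j, round (R.co j x) • R.b j))| * ‖A (cast (R.b i))‖ ≤
        t / 2 := fun i => by
      rw [map_sub, hco]
      by_cases hi : ‖A (cast (R.b i))‖ ≤ t
      · have := abs_sub_round (R.co i x)
        nlinarith [abs_nonneg (R.co i x - round (R.co i x)), norm_nonneg (A (cast (R.b i)))]
      · rw [R.mem_U.1 hx i (not_le.1 hi)]; simp; linarith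
    refine (Finset.sum_le_sum fun i _ => this i).trans (le_of_eq ?_)
    simp; ring

theorem norm_b_pos (hA : Function.Injective A) (i : ι) : 0 < ‖A (cast (R.b i))‖ := by
  rw [norm_pos_iff, map_ne_zero_iff A hA]
  intro h
  have := R.co_b i i
  rw [h, map_zero, if_pos rfl] at this
  exact zero_ne_one this

/-- lattice points of a ball lie in a proper progression -/
theorem abs_coZ_le (hA : Function.Injective A) {x : ι → ℤ} {r : ℝ} (hx : ‖A (cast x)‖ ≤ r)
    (i : ι) : |(R.coZ i x : ℝ)| ≤ cst ι * r / ‖A (cast (R.b i))‖ := by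
  rw [le_div_iff₀ (R.norm_b_pos hA i), ← co_cast]
  exact (R.abs_co_le _ i).trans
    (mul_le_mul_of_nonneg_left hx (zero_le_one.trans (one_le_cst ι)))

/-- a proper progression inside the ball -/
theorem norm_le_of_co {x : ι → ℝ} {r : ℝ}
    (hx : ∀ i, |R.co i x| * ‖A (cast (R.b i))‖ ≤ r) : ‖A x‖ ≤ Fintype.card ι * r := by
  refine (R.norm_le x).trans ((Finset.sum_le_sum fun i _ => hx i).trans (le_of_eq ?_))
  simp

theorem coZ_injective : Function.Injective fun (x : ι → ℤ) i => R.coZ i x := fun x y h => by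
  rw [← R.sum_coZ x, ← R.sum_coZ y]
  exact Finset.sum_congr rfl fun i _ => by rw [show R.coZ i x = R.coZ i y from congrFun h i]

theorem coZ_surjective : Function.Surjective fun (x : ι → ℤ) i => R.coZ i x :=
  fun t => ⟨∑ j, t j • R.b j, funext fun i => R.coZ_sum t i⟩

end Red

end Int

end Crest.Agent.T49.Lat
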