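import Crest.Agent.T49.Ah3_9
import Crest.Agent.T49.Ah4_9
import Crest.Agent.T49.Red_74

/-! Row 49, Sanders block, part 5: local homomorphisms on lattice balls are linear; a Freiman
homomorphism on a dense set gives a local homomorphism on a Bohr set. -/

set_option autoImplicit false

namespace Crest.Agent.T49.AH

open Finset
open scoped BigOperators

section Local

variable {Λ Y : Type*} [AddCommGroup Λ] [AddCommGroup Y] {ν : Λ → ℝ} {φ : Λ → Y} {ρ : ℝ}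

/-- `φ` is additive on the `ν`-ball of radius `ρ`. -/
def LocAdd (ν : Λ → ℝ) (ρ : ℝ) (φ : Λ → Y) : Prop :=
  ∀ x y, ν x ≤ ρ → ν y ≤ ρ → ν (x + y) ≤ ρ → φ (x + y) = φ x + φ y

lemma LocAdd.zero (h : LocAdd ν ρ φ) (h0 : ν 0 ≤ ρ) : φ 0 = 0 := by
  have := h 0 0 h0 h0 (by rwa [add_zero])
  rw [add_zero] at this
  exact left_eq_add.1 this

lemma LocAdd.sum {ι : Type*} (h : LocAdd ν ρ φ) (h0 : ν 0 = 0) (hp : ∀ x, 0 ≤ ν x)
    (hadd : ∀ x y, ν (x + y) ≤ ν x + ν y) (s : Finset ι) (v : ι → Λ)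
    (hs : ∑ i ∈ s, ν (v i) ≤ ρ) :
    ν (∑ i ∈ s, v i) ≤ ∑ i ∈ s, ν (v i) ∧ φ (∑ i ∈ s, v i) = ∑ i ∈ s, φ (v i) := by
  classical
  induction s using Finset.induction_on with
  | empty =>
    simp only [sum_empty] at hs ⊢
    exact ⟨h0.le, h.zero (by rwa [h0])⟩
  | insert a s ha ih =>
    rw [sum_insert ha] at hs
    have h1 : 0 ≤ ∑ i ∈ s, ν (v i) := sum_nonneg fun i _ => hp _
    obtain ⟨h2, h3⟩ := ih (by linarith [hp (v a)])
    have h4 := hadd (v a) (∑ i ∈ s, v i)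
    rw [sum_insert ha, sum_insert ha, sum_insert ha]
    refine ⟨by linarith, ?_⟩
    rw [h _ _ (by linarith) (by linarith [hp (v a)]) (by linarith), h3]

lemma LocAdd.zsmul (h : LocAdd ν ρ φ) (h0 : ν 0 = 0) (hp : ∀ x, 0 ≤ ν x)
    (hadd : ∀ x y, ν (x + y) ≤ ν x + ν y) (hneg : ∀ x, ν (-x) = ν x) (n : ℤ) (v : Λ)
    (hn : |(n : ℝ)| * ν v ≤ ρ) : φ (n • v) = n • φ v := by
  have hρ : 0 ≤ ρ := le_trans (mul_nonneg (abs_nonneg _) (hp v)) hn
  have hnat : ∀ (k : ℕ) (w : Λ), (k : ℝ) * ν w ≤ ρ → ν (k • w) ≤ k * ν w ∧ φ (k • w) = k • φ w := by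
    intro k w hk
    have := h.sum h0 hp hadd (range k) (fun _ => w) (by simpa using hk)
    simpa using this
  obtain ⟨k, rfl | rfl⟩ := n.eq_nat_or_neg
  · rw [natCast_zsmul, natCast_zsmul]
    exact (hnat k v (by simpa using hn)).2
  · have hk : (k : ℝ) * ν v ≤ ρ := by simpa using hn
    obtain ⟨h1, h2⟩ := hnat k v hk
    rw [neg_zsmul, neg_zsmul, natCast_zsmul, natCast_zsmul, ← h2]
    have h3 := h (k • v) (-(k • v)) (h1.trans hk) (by rw [hneg]; exact h1.trans hk)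
      (by rw [add_neg_cancel, h0]; exact hρ)
    rw [add_neg_cancel, h.zero (by rwa [h0])] at h3
    exact (neg_eq_of_add_eq_zero_right h3.symm).symm

end Local

/-- A local homomorphism on a ball of `ℤ ^ ι` is linear on a smaller ball. -/
theorem local_ext {ι E Y : Type*} [Fintype ι] [DecidableEq ι] [NormedAddCommGroup E]
    [NormedSpace ℝ E] [AddCommGroup Y] (A : (ι → ℝ) →ₗ[ℝ] E) (hA : Function.Injective A)
    (φ : (ι → ℤ) → Y) {ρ : ℝ} (h : LocAdd (fun x => ‖A (Lat.cast x)‖) ρ φ) :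
    ∃ c : ι → Y, ∀ x : ι → ℤ, Fintype.card ι * Lat.cst ι * ‖A (Lat.cast x)‖ ≤ ρ →
      φ x = ∑ k, x k • c k := by
  obtain ⟨R⟩ := Lat.exists_Red A hA
  have h0 : ‖A (Lat.cast (0 : ι → ℤ))‖ = 0 := by
    have : Lat.cast (0 : ι → ℤ) = 0 := by ext k; simp
    rw [this, map_zero, norm_zero]
  have hadd : ∀ x y : ι → ℤ, ‖A (Lat.cast (x + y))‖ ≤ ‖A (Lat.cast x)‖ + ‖A (Lat.cast y)‖ := by
    intro x y
    have : Lat.cast (x + y) = Lat.cast x + Lat.cast y := by ext k; simp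
    rw [this, map_add]; exact norm_add_le _ _
  have hneg : ∀ x : ι → ℤ, ‖A (Lat.cast (-x))‖ = ‖A (Lat.cast x)‖ := by
    intro x
    have : Lat.cast (-x) = -Lat.cast x := by ext k; simp
    rw [this, map_neg, norm_neg]
  have hsm : ∀ (n : ℤ) (x : ι → ℤ), ‖A (Lat.cast (n • x))‖ = |(n : ℝ)| * ‖A (Lat.cast x)‖ := by
    intro n x
    have : Lat.cast (n • x) = (n : ℝ) • Lat.cast x := by ext k; simp
    rw [this, map_smul, norm_smul, Real.norm_eq_abs]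
  refine ⟨fun k => ∑ i, R.ξ i k • φ (R.b i), fun x hx => ?_⟩
  have hb : ∀ i, |(R.coZ i x : ℝ)| * ‖A (Lat.cast (R.b i))‖ ≤ Lat.cst ι * ‖A (Lat.cast x)‖ := by
    intro i
    rw [← R.co_cast]; exact R.abs_co_le _ i
  have hs : ∑ i, ‖A (Lat.cast (R.coZ i x • R.b i))‖ ≤ ρ := by
    refine le_trans (sum_le_sum fun i _ => (hsm _ _).le.trans (hb i)) ?_
    rw [sum_const, card_univ, nsmul_eq_mul, ← mul_assoc]; exact hx
  have h1 := (h.sum h0 (fun _ => norm_nonneg _) hadd univ (fun i => R.coZ i x • R.b i) hs).2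
  rw [R.sum_coZ] at h1
  rw [h1]
  have h2 : ∀ i, φ (R.coZ i x • R.b i) = R.coZ i x • φ (R.b i) := by
    intro i
    refine h.zsmul h0 (fun _ => norm_nonneg _) hadd hneg _ _ ?_
    rw [← hsm]
    exact (single_le_sum (f := fun i => ‖A (Lat.cast (R.coZ i x • R.b i))‖)
      (fun i _ => norm_nonneg _) (mem_univ i)).trans hs
  simp_rw [h2, smul_sum, Lat.Red.coZ, sum_smul]
  rw [sum_comm]
  refine sum_congr rfl fun k _ => sum_congr rfl fun i _ => ?_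
  rw [smul_smul, mul_comm]

/-- A Freiman homomorphism on a dense set induces a local homomorphism on a Bohr set. -/
theorem freiman_bohr {G Y : Type*} [AddCommGroup G] [Fintype G] [AddCommGroup Y]
    (H : Finset G) (f : G → Y) (hf : IsFr 6 H f) {m : ℝ} (hm : 1 ≤ m)
    (hH : Real.exp (-m) * Fintype.card G ≤ #H) :
    ∃ (Γ : Finset (AddChar G ℂ)) (φ : G → Y), (#Γ : ℝ) ≤ 2 ^ 22 * m ^ 4 ∧
      (∀ s t, (∀ ψ ∈ Γ, ‖ψ s - 1‖ ≤ Real.exp (-m) / (2 ^ 25 * m ^ 4)) →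
        (∀ ψ ∈ Γ, ‖ψ t - 1‖ ≤ Real.exp (-m) / (2 ^ 25 * m ^ 4)) →
        (∀ ψ ∈ Γ, ‖ψ (s + t) - 1‖ ≤ Real.exp (-m) / (2 ^ 25 * m ^ 4)) →
        φ (s + t) = φ s + φ t) ∧
      ∀ x ∈ H, ∀ y ∈ H, f x - f y = φ (x - y) := by
  classical
  obtain ⟨Γ, hΓ, h⟩ := sanders H hm hH
  set P : G → (Fin 4 → G) → Prop := fun t a => (∀ i, a i ∈ H) ∧ t = a 0 + a 1 - a 2 - a 3 with hP
  set val : (Fin 4 → G) → Y := fun a => f (a 0) + f (a 1) - f (a 2) - f (a 3) with hval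
  set φ : G → Y := fun t => if h : ∃ a, P t a then val h.choose else 0 with hφ
  have hrep : ∀ t, (∃ a, P t a) → ∃ a, P t a ∧ φ t = val a := by
    intro t ht
    exact ⟨ht.choose, ht.choose_spec, by rw [hφ]; simp only; rw [dif_pos ht]⟩
  have hB : ∀ t, (∀ ψ ∈ Γ, ‖ψ t - 1‖ ≤ Real.exp (-m) / (2 ^ 25 * m ^ 4)) → ∃ a, P t a := by
    intro t ht
    obtain ⟨a₁, h₁, a₂, h₂, a₃, h₃, a₄, h₄, e⟩ := h t ht
    refine ⟨![a₁, a₂, a₃, a₄], fun i => ?_, by simpa using e⟩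
    fin_cases i <;> simpa
  refine ⟨Γ, φ, hΓ, fun s t hs ht hst => ?_, fun x hx y hy => ?_⟩
  · obtain ⟨a, ⟨ha, ea⟩, fa⟩ := hrep s (hB s hs)
    obtain ⟨b, ⟨hb, eb⟩, fb⟩ := hrep t (hB t ht)
    obtain ⟨c, ⟨hc, ec⟩, fc⟩ := hrep (s + t) (hB _ hst)
    have := hf ![a 0, a 1, b 0, b 1, c 2, c 3] ![a 2, a 3, b 2, b 3, c 0, c 1]
      (fun i => by fin_cases i <;> simp [ha, hb, hc]) (fun i => by fin_cases i <;> simp [ha, hb, hc])
      (by
        simp only [Fin.sum_univ_six, Matrix.cons_val]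
        have e : a 0 + a 1 - a 2 - a 3 + (b 0 + b 1 - b 2 - b 3) = c 0 + c 1 - c 2 - c 3 := by
          rw [← ea, ← eb, ← ec]
        rw [← sub_eq_zero] at e ⊢
        rw [← e]; abel)
    simp only [Fin.sum_univ_six, Matrix.cons_val] at this
    rw [fa, fb, fc, hval]
    simp only
    rw [← sub_eq_zero] at this ⊢
    rw [← neg_eq_zero, ← this]; abel
  · obtain ⟨a, ⟨ha, ea⟩, fa⟩ := hrep (x - y)
      ⟨![x, y, y, y], fun i => by fin_cases i <;> simpa, by simp⟩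
    have := hf ![x, a 2, a 3, y, y, y] ![y, a 0, a 1, y, y, y]
      (fun i => by fin_cases i <;> simp [ha, hx, hy]) (fun i => by fin_cases i <;> simp [ha, hy])
      (by
        simp only [Fin.sum_univ_six, Matrix.cons_val]
        rw [← sub_eq_zero] at ea ⊢
        rw [← ea]; abel)
    simp only [Fin.sum_univ_six, Matrix.cons_val] at this
    rw [fa, hval]
    simp only
    rw [← sub_eq_zero] at this ⊢
    rw [← this]; abel

end Crest.Agent.T49.AH
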