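import Crest.Agent.T49.Ah5_9

/-! Row 49, Sanders block, part 6: a map on a box of `ℤ ^ ι` that respects many additive
quadruples is bracket-linear on a quasi-polynomially dense part (exact version, any finite
target group). -/

set_option autoImplicit false

namespace Crest.Agent.T49.AH

open Finset
open scoped BigOperators

/-- characters of a group pulled back to `ℤ ^ ι` are given by real frequency vectors. -/
lemma exists_freq {ι G : Type*} [Fintype ι] [DecidableEq ι] [AddCommGroup G] [Fintype G]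
    (π : (ι → ℤ) →+ G) (L : ι → ℕ) (hL : ∀ i, π (Pi.single i (L i : ℤ)) = 0) (ψ : AddChar G ℂ) :
    ∃ β : ι → ℝ, (∀ i, ∃ n : ℤ, β i * L i = n) ∧
      ∀ h : ι → ℤ, ψ (π h) = Complex.exp (Complex.I * ((2 * Real.pi * ∑ i, β i * h i : ℝ) : ℂ)) := by
  have hpi : (2 * Real.pi : ℝ) ≠ 0 := by positivity
  set β : ι → ℝ := fun i => Complex.arg (ψ (π (Pi.single i 1))) / (2 * Real.pi) with hβ
  have h1 : ∀ (i : ι) (n : ℤ), ψ (π (Pi.single i n)) =
      Complex.exp (Complex.I * ((2 * Real.pi * (β i * n) : ℝ) : ℂ)) := by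
    intro i n
    have e1 : (Pi.single i n : ι → ℤ) = n • Pi.single i 1 := by
      rw [← Pi.single_smul]; simp
    have e2 := Complex.norm_mul_exp_arg_mul_I (ψ (π (Pi.single i 1)))
    rw [norm_char, Complex.ofReal_one, one_mul] at e2
    rw [e1, map_zsmul, AddChar.map_zsmul_eq_zpow, ← e2, ← Complex.exp_int_mul]
    congr 1
    have : 2 * Real.pi * (β i * n) = Complex.arg (ψ (π (Pi.single i 1))) * n := by
      rw [hβ]; field_simp
    rw [this]; push_cast; ring
  refine ⟨β, fun i => ?_, fun h => ?_⟩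
  · have e := h1 i (L i)
    rw [hL, AddChar.map_zero_eq_one, eq_comm, Complex.exp_eq_one_iff] at e
    obtain ⟨n, hn⟩ := e
    refine ⟨n, ?_⟩
    have e3 : ((2 * Real.pi * (β i * ((L i : ℤ) : ℝ)) : ℝ) : ℂ) = ((2 * Real.pi * n : ℝ) : ℂ) := by
      apply mul_left_cancel₀ Complex.I_ne_zero
      rw [hn]; push_cast; ring
    have e4 := mul_left_cancel₀ hpi (Complex.ofReal_injective e3)
    simpa using e4
  · have e1 : h = ∑ i, Pi.single i (h i) := (univ_sum_single h).symm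
    have e2 : ψ (π h) = ∏ i, ψ (π (Pi.single i (h i))) := by
      conv_lhs => rw [e1, map_sum]
      exact map_sum ψ.toAddMonoidHom _ _
    rw [e2]
    simp_rw [h1]
    rw [← Complex.exp_sum]
    congr 1
    push_cast
    rw [mul_sum, mul_sum]

lemma norm_exp_sub_one_le (x : ℝ) (z : ℤ) :
    ‖Complex.exp (Complex.I * ((2 * Real.pi * x : ℝ) : ℂ)) - 1‖ ≤ 7 * |x - z| := by
  have e : Complex.exp (Complex.I * ((2 * Real.pi * x : ℝ) : ℂ)) =
      Complex.exp (Complex.I * ((2 * Real.pi * (x - z) : ℝ) : ℂ)) := by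
    rw [Complex.exp_eq_exp_iff_exists_int]
    exact ⟨z, by push_cast; ring⟩
  rw [e]
  refine Real.norm_exp_I_mul_ofReal_sub_one_le.trans ?_
  rw [Real.norm_eq_abs, abs_mul, abs_of_pos (by positivity)]
  exact mul_le_mul_of_nonneg_right (by linarith [Real.pi_lt_d2]) (abs_nonneg _)

/-- the linear map `(h, z) ↦ (h / L, β h - z)`. -/
noncomputable def bohrMap {ι J : Type*} [Fintype ι] (L : ι → ℕ) (β : J → ι → ℝ) :
    (ι ⊕ J → ℝ) →ₗ[ℝ] (ι ⊕ J → ℝ) where
  toFun x := Sum.elim (fun i => x (Sum.inl i) / L i)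
    (fun j => ∑ i, β j i * x (Sum.inl i) - x (Sum.inr j))
  map_add' x y := by
    ext (i | j)
    · simp [add_div]
    · simp [mul_add, sum_add_distrib]; ring
  map_smul' c x := by
    ext (i | j)
    · simp [mul_div_assoc]
    · simp [mul_sub, mul_sum, mul_left_comm]

lemma bohrMap_injective {ι J : Type*} [Fintype ι] (L : ι → ℕ) (hL : ∀ i, 0 < L i)
    (β : J → ι → ℝ) : Function.Injective (bohrMap L β) := by
  rw [injective_iff_map_eq_zero]
  intro x hx
  have h1 : ∀ i, x (Sum.inl i) = 0 := by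
    intro i
    have := congrFun hx (Sum.inl i)
    have h0 : (L i : ℝ) ≠ 0 := by exact_mod_cast (hL i).ne'
    simpa [bohrMap, h0] using this
  ext (i | j)
  · exact h1 i
  · have := congrFun hx (Sum.inr j)
    simpa [bohrMap, h1] using this

/-- A Freiman homomorphism on a dense subset of `∏ ℤ / L i`, pulled back to a box. -/
theorem freiman_bracket {ι Y : Type*} [Fintype ι] [DecidableEq ι] [AddCommGroup Y]
    {G : Type*} [AddCommGroup G] [Fintype G] [DecidableEq G] (π : (ι → ℤ) →+ G)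
    (L : ι → ℕ) (hL : ∀ i, 0 < L i) (hπ : ∀ i, π (Pi.single i (L i : ℤ)) = 0)
    (H : Finset (ι → ℤ)) (hH : ∀ x ∈ H, ∀ y ∈ H, ∀ i, |x i - y i| < L i)
    (F : G → Y) (hF : IsFr 6 (H.image π) F) {m D : ℝ} (hm : 1 ≤ m)
    (hd : Real.exp (-m) * Fintype.card G ≤ #(H.image π))
    (hD : Fintype.card ι + 2 ^ 22 * m ^ 4 ≤ D) :
    ∃ H' ⊆ H, (#H : ℝ) ≤ Real.exp (4 * D ^ 3) * #H' ∧ ∃ r : ℕ, (r : ℝ) ≤ D ∧
      ∃ (β : Fin r → ι → ℝ) (a : ι → Y) (b : Fin r → Y) (γ : Y),
        (∀ j i, ∃ n : ℤ, β j i * L i = n) ∧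
        ∀ h ∈ H', F (π h) = γ + ∑ i, h i • a i + ∑ j, ⌊∑ i, β j i * h i⌋ • b j := by
  obtain ⟨Γ, φ, hΓ, hφ, hFφ⟩ := freiman_bohr (H.image π) F hF hm hd
  set ρ₀ : ℝ := Real.exp (-m) / (2 ^ 25 * m ^ 4) with hρ₀
  have hρ0 : 0 < ρ₀ := by positivity
  choose β hβ1 hβ2 using fun j : Fin #Γ => exists_freq π L hπ (Γ.equivFin.symm j)
  set A := bohrMap L β with hA
  have hBohr : ∀ x : ι ⊕ Fin #Γ → ℤ, ‖A (Lat.cast x)‖ ≤ ρ₀ / 7 →
      ∀ ψ ∈ Γ, ‖ψ (π fun i => x (Sum.inl i)) - 1‖ ≤ ρ₀ := by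
    intro x hx ψ hψ
    have e : ψ = (Γ.equivFin.symm (Γ.equivFin ⟨ψ, hψ⟩) : AddChar G ℂ) := by simp
    rw [e, hβ2]
    refine (norm_exp_sub_one_le _ (x (Sum.inr (Γ.equivFin ⟨ψ, hψ⟩)))).trans ?_
    have := (norm_le_pi_norm (A (Lat.cast x)) (Sum.inr (Γ.equivFin ⟨ψ, hψ⟩))).trans hx
    rw [Real.norm_eq_abs] at this
    have e2 : A (Lat.cast x) (Sum.inr (Γ.equivFin ⟨ψ, hψ⟩)) =
      ∑ i, β (Γ.equivFin ⟨ψ, hψ⟩) i * x (Sum.inl i) - x (Sum.inr (Γ.equivFin ⟨ψ, hψ⟩)) := rfl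
    rw [e2] at this
    linarith
  obtain ⟨c, hc⟩ := local_ext A (bohrMap_injective L hL β)
    (fun x => φ (π fun i => x (Sum.inl i))) (ρ := ρ₀ / 7) (fun x y hx hy hxy => by
      have e : (π fun i => (x + y) (Sum.inl i)) =
          (π fun i => x (Sum.inl i)) + π fun i => y (Sum.inl i) := by
        rw [← map_add]; rfl
      have := hBohr _ hxy
      beta_reduce
      rw [e] at this ⊢
      exact hφ _ _ (hBohr x hx) (hBohr y hy) this)
  -- numerical bounds
  have hm4 : 1 ≤ m ^ 4 := one_le_pow₀ hm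
  have hι0 : (0 : ℝ) ≤ Fintype.card ι := Nat.cast_nonneg _
  have h22 : (2 : ℝ) ^ 22 = 4194304 := by norm_num
  have hDm : m ≤ D := by
    have : m ≤ m ^ 4 := le_self_pow₀ hm (by norm_num)
    rw [h22] at hD; linarith
  have hD30 : 30 ≤ D := by rw [h22] at hD; linarith
  set d : ℕ := Fintype.card (ι ⊕ Fin #Γ) with hdd
  have hdD : (d : ℝ) ≤ D := by
    rw [hdd, Fintype.card_sum, Fintype.card_fin]; push_cast; linarith
  set E : ℝ := Real.exp (3 * D ^ 2) with hE
  have hE1 : 1 ≤ E := Real.one_le_exp (by positivity)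
  have hexp : ∀ x : ℝ, x ≤ Real.exp x := fun x => by linarith [Real.add_one_le_exp x]
  have hcst : d * Lat.cst (ι ⊕ Fin #Γ) ≤ E * (ρ₀ / 7) := by
    have g1 : Lat.cst (ι ⊕ Fin #Γ) ≤ Real.exp (2 * D ^ 2) := by
      rw [Lat.cst, ← hdd]
      calc (2 * d : ℝ) ^ d ≤ Real.exp (2 * D) ^ d :=
            pow_le_pow_left₀ (by positivity) ((by linarith : (2 * d : ℝ) ≤ 2 * D).trans (hexp _)) d
        _ = Real.exp (d * (2 * D)) := (Real.exp_nat_mul _ _).symm
        _ ≤ _ := Real.exp_le_exp.2 (by nlinarith)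
    have g2 : (d : ℝ) ≤ Real.exp D := hdD.trans (hexp D)
    have g3 : 2 ^ 25 * m ^ 4 * 7 ≤ Real.exp (2 * D) := by
      have k1 : 2 ^ 22 * m ^ 4 ≤ Real.exp D := le_trans (by linarith) (hexp D)
      have k2 : (56 : ℝ) ≤ Real.exp D := by
        have : Real.exp D = Real.exp (D / 2) ^ 2 := by rw [← Real.exp_nat_mul]; congr 1; push_cast; ring
        rw [this]
        nlinarith [hexp (D / 2)]
      have : Real.exp (2 * D) = Real.exp D * Real.exp D := by rw [← Real.exp_add]; ring_nf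
      rw [this]
      have k3 := mul_le_mul k1 k2 (by norm_num) (Real.exp_pos _).le
      calc 2 ^ 25 * m ^ 4 * 7 = 2 ^ 22 * m ^ 4 * 56 := by ring
        _ ≤ _ := k3
    have g4 : E * (ρ₀ / 7) = Real.exp (3 * D ^ 2 - m) / (2 ^ 25 * m ^ 4 * 7) := by
      rw [hE, hρ₀, sub_eq_add_neg, Real.exp_add]; field_simp
    rw [g4, le_div_iff₀ (by positivity)]
    calc d * Lat.cst (ι ⊕ Fin #Γ) * (2 ^ 25 * m ^ 4 * 7)
        ≤ Real.exp D * Real.exp (2 * D ^ 2) * Real.exp (2 * D) := by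
          have := Lat.one_le_cst (ι ⊕ Fin #Γ)
          gcongr
      _ = Real.exp (D + 2 * D ^ 2 + 2 * D) := by rw [Real.exp_add, Real.exp_add]
      _ ≤ _ := Real.exp_le_exp.2 (by nlinarith)
  set M : ℕ := ⌈E⌉₊ with hM
  have hME : E ≤ M := Nat.le_ceil E
  have hM2 : (M : ℝ) ≤ E + 1 := (Nat.ceil_lt_add_one (by linarith)).le
  have hM0 : (0 : ℝ) < M := by linarith
  have hG0 : (0 : ℝ) < Fintype.card G := by exact_mod_cast Fintype.card_pos
  have hHn : H.Nonempty := by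
    have : (0 : ℝ) < #(H.image π) := lt_of_lt_of_le (by positivity) hd
    exact (card_pos.1 (by exact_mod_cast this)).of_image
  obtain ⟨x₀, hx₀⟩ := hHn
  obtain ⟨H', hH', c1, c2⟩ := exists_cells H
    (fun (j : ι ⊕ Fin #Γ) h => M * Sum.elim (fun i => ((h i : ℝ) - x₀ i) / L i)
      (fun j => Int.fract (∑ i, β j i * h i)) j)
    (fun _ => -M) (2 * M) (by have : 0 < M := by exact_mod_cast hM0
                              omega) (fun j h hh => by
      have key : ∀ u : ℝ, -1 ≤ u → u < 1 →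
          (((-M : ℤ) : ℝ) ≤ M * u ∧ M * u < ((-M : ℤ) : ℝ) + ((2 * M : ℕ) : ℝ)) := by
        intro u h1 h2
        push_cast
        constructor <;> nlinarith
      rcases j with i | j
      · have l0 : (0 : ℝ) < L i := by exact_mod_cast hL i
        have l1 : |(h i : ℝ) - x₀ i| < L i := by exact_mod_cast hH h hh x₀ hx₀ i
        rw [abs_lt] at l1
        refine key _ ?_ ?_
        · simp only [Sum.elim_inl]; rw [le_div_iff₀ l0]; linarith [l1.1]
        · simp only [Sum.elim_inl]; rw [div_lt_iff₀ l0]; linarith [l1.2]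
      · refine key _ ?_ ?_
        · simp only [Sum.elim_inr]; linarith [Int.fract_nonneg (∑ i, β j i * h i)]
        · simp only [Sum.elim_inr]; exact Int.fract_lt_one _)
  have hH'n : H'.Nonempty := by
    rw [← card_pos]
    by_contra h
    have h0 : #H' = 0 := by omega
    have h1 : (0 : ℝ) < #H := by exact_mod_cast card_pos.2 ⟨x₀, hx₀⟩
    rw [h0] at c1
    simp only [Nat.cast_zero, mul_zero] at c1
    linarith
  obtain ⟨y, hy⟩ := hH'n
  refine ⟨H', hH', c1.trans (mul_le_mul_of_nonneg_right ?_ (Nat.cast_nonneg _)), #Γ, by linarith,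
    β, fun i => c (Sum.inl i), fun j => c (Sum.inr j),
    F (π y) - ∑ i, y i • c (Sum.inl i) - ∑ j, ⌊∑ i, β j i * y i⌋ • c (Sum.inr j), hβ1, ?_⟩
  · rw [← hdd]
    have g1 : ((2 * M : ℕ) : ℝ) ≤ Real.exp (4 * D ^ 2) := by
      have : Real.exp (4 * D ^ 2) = E * Real.exp (D ^ 2) := by
        rw [hE, ← Real.exp_add]; ring_nf
      rw [this]
      have k : 4 ≤ Real.exp (D ^ 2) := le_trans (by nlinarith) (hexp _)
      push_cast
      nlinarith
    calc ((2 * M : ℕ) : ℝ) ^ d ≤ Real.exp (4 * D ^ 2) ^ d := pow_le_pow_left₀ (by positivity) g1 d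
      _ = Real.exp (d * (4 * D ^ 2)) := (Real.exp_nat_mul _ _).symm
      _ ≤ _ := Real.exp_le_exp.2 (by nlinarith [sq_nonneg D])
  intro h hh
  set x : ι ⊕ Fin #Γ → ℤ := Sum.elim (fun i => h i - y i)
    (fun j => ⌊∑ i, β j i * h i⌋ - ⌊∑ i, β j i * y i⌋) with hx
  have hxn : ‖A (Lat.cast x)‖ ≤ 1 / M := by
    refine (pi_norm_le_iff_of_nonneg (by positivity)).2 fun j => ?_
    have k := c2 j h hh y hy
    rw [← mul_sub, abs_mul, abs_of_pos hM0] at k
    rw [Real.norm_eq_abs, le_div_iff₀ hM0, mul_comm]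
    refine le_trans (le_of_eq ?_) k.le
    congr 2
    rcases j with i | j
    · simp only [Sum.elim_inl]
      change ((x (Sum.inl i) : ℤ) : ℝ) / L i = _
      rw [hx]; simp only [Sum.elim_inl]; push_cast; ring
    · simp only [Sum.elim_inr]
      change ∑ i, β j i * ((x (Sum.inl i) : ℤ) : ℝ) - ((x (Sum.inr j) : ℤ) : ℝ) = _
      rw [hx]; simp only [Sum.elim_inl, Sum.elim_inr, Int.fract]
      push_cast
      simp only [mul_sub, sum_sub_distrib]
      ring
  have h1 := hc x (by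
    have k0 : 0 ≤ d * Lat.cst (ι ⊕ Fin #Γ) := by
      have := Lat.one_le_cst (ι ⊕ Fin #Γ)
      positivity
    refine (mul_le_mul hcst hxn (norm_nonneg _) (by positivity)).trans ?_
    rw [mul_one_div, div_le_iff₀ hM0, mul_comm]
    exact mul_le_mul_of_nonneg_left hME (by positivity))
  have h2 := hFφ _ (mem_image_of_mem π (hH' hh)) _ (mem_image_of_mem π (hH' hy))
  have h3 : (π fun i => x (Sum.inl i)) = π h - π y := by rw [← map_sub]; rfl
  rw [h3, ← h2, Fintype.sum_sum_type, hx] at h1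
  simp only [Sum.elim_inl, Sum.elim_inr, sub_smul, sum_sub_distrib] at h1
  rw [sub_eq_iff_eq_add] at h1
  rw [h1]; abel

end Crest.Agent.T49.AH
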