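import Crest.Agent.T49.Ah6_9

/-! Row 49, Sanders block, final part: the approximate homomorphism lemma. -/

set_option autoImplicit false

namespace Crest.Agent.T49.AH

open Finset
open scoped BigOperators

/-- reduction of `ℤ ^ ι` modulo `L`. -/
def red {ι : Type*} (L : ι → ℕ) : (ι → ℤ) →+ (∀ i, ZMod (L i)) where
  toFun h i := (h i : ZMod (L i))
  map_zero' := by ext i; simp
  map_add' x y := by ext i; simp

lemma red_injOn {ι : Type*} (L : ι → ℕ) (H : Finset (ι → ℤ))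
    (hH : ∀ x ∈ H, ∀ y ∈ H, ∀ i, |x i - y i| < L i) : Set.InjOn (red L) H := by
  intro x hx y hy h
  ext i
  have h1 : ((x i : ℤ) : ZMod (L i)) = (y i : ZMod (L i)) := congrFun h i
  rw [eq_comm, ZMod.intCast_eq_intCast_iff_dvd_sub] at h1
  exact sub_eq_zero.1 (Int.eq_zero_of_abs_lt_dvd h1 (hH x hx y hy i))

lemma exists_lift {α G Y : Type*} [Zero Y] (π : α → G) (H : Finset α) (hπ : Set.InjOn π H)
    (f : α → Y) : ∃ F : G → Y, ∀ x ∈ H, F (π x) = f x := by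
  classical
  refine ⟨fun g => if h : ∃ x ∈ H, π x = g then f h.choose else 0, fun x hx => ?_⟩
  have h : ∃ y ∈ H, π y = π x := ⟨x, hx, rfl⟩
  simp only
  rw [dif_pos h, hπ h.choose_spec.1 hx h.choose_spec.2]

/-- many respected quadruples give a Freiman homomorphism into `Y` on a dense part. -/
def FrProp.{u, v} (Y : Type v) [AddCommGroup Y] : Prop :=
  ∀ (G : Type u) [AddCommGroup G] [DecidableEq G] [DecidableEq Y] (H₁ H₂ H₃ H₄ : Finset G)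
    (f₁ f₂ f₃ f₄ : G → Y) {N : ℝ}, 0 < N → #H₁ ≤ N → #H₂ ≤ N → #H₃ ≤ N → #H₄ ≤ N →
    ∀ k : ℕ, 1 ≤ k →
    2 * N ^ 3 ≤ 2 ^ k * #{q ∈ (H₁ ×ˢ H₂) ×ˢ (H₃ ×ˢ H₄) | q.1.1 + q.1.2 = q.2.1 + q.2.2 ∧
      f₁ q.1.1 + f₂ q.1.2 = f₃ q.2.1 + f₄ q.2.2} →
    ∃ H' ⊆ H₁, N ≤ 2 ^ (10000 * k) * #H' ∧ IsFr 6 H' f₁

theorem frProp_finite.{u, v} (Y : Type v) [AddCommGroup Y] [Finite Y] : FrProp.{u, v} Y := by
  intro G _ _ _ H₁ H₂ H₃ H₄ f₁ f₂ f₃ f₄ N hN h₁ h₂ h₃ h₄ k hk hQ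
  haveI : Fintype Y := Fintype.ofFinite Y
  exact exists_freiman H₁ H₂ H₃ H₄ f₁ f₂ f₃ f₄ hN h₁ h₂ h₃ h₄ k hk hQ

theorem frProp_int.{u, v} (κ : Type v) [Fintype κ] : FrProp.{u, v} (κ → ℤ) := by
  intro G _ _ _ H₁ H₂ H₃ H₄ f₁ f₂ f₃ f₄ N hN h₁ h₂ h₃ h₄ k hk hQ
  classical
  set B : ℕ := ∑ x ∈ H₁, ∑ l, (f₁ x l).natAbs with hB
  have hBle : ∀ x ∈ H₁, ∀ l, |f₁ x l| ≤ B := by
    intro x hx l
    have e1 : (f₁ x l).natAbs ≤ ∑ l, (f₁ x l).natAbs :=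
      single_le_sum (f := fun l => (f₁ x l).natAbs) (fun _ _ => Nat.zero_le _) (mem_univ l)
    have e2 : ∑ l, (f₁ x l).natAbs ≤ B :=
      single_le_sum (f := fun x => ∑ l, (f₁ x l).natAbs) (fun _ _ => Nat.zero_le _) hx
    rw [← Int.natCast_natAbs]
    exact_mod_cast e1.trans e2
  set ρ := red (fun _ : κ => 12 * B + 1) with hρ
  obtain ⟨H', hH', hc, hf⟩ := exists_freiman H₁ H₂ H₃ H₄ (fun x => ρ (f₁ x)) (fun x => ρ (f₂ x))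
    (fun x => ρ (f₃ x)) (fun x => ρ (f₄ x)) hN h₁ h₂ h₃ h₄ k hk (by
      refine hQ.trans (mul_le_mul_of_nonneg_left ?_ (by positivity))
      rw [Nat.cast_le]
      refine card_le_card fun q hq => ?_
      obtain ⟨a1, a2, a3⟩ := mem_filter.1 hq
      exact mem_filter.2 ⟨a1, a2, by rw [← map_add, ← map_add, a3]⟩)
  refine ⟨H', hH', hc, fun a b ha hb hab => ?_⟩
  have e := hf a b ha hb hab
  rw [← map_sum, ← map_sum] at e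
  refine red_injOn (fun _ : κ => 12 * B + 1) {∑ i, f₁ (a i), ∑ i, f₁ (b i)} ?_ (by simp) (by simp) e
  have key : ∀ c : Fin 6 → G, (∀ i, c i ∈ H') → ∀ l, |(∑ i, f₁ (c i)) l| ≤ 6 * B := by
    intro c hc l
    rw [Finset.sum_apply]
    refine (abs_sum_le_sum_abs _ _).trans ?_
    refine (sum_le_sum fun i _ => hBle _ (hH' (hc i)) l).trans ?_
    simp
  have key2 : ∀ x ∈ ({∑ i, f₁ (a i), ∑ i, f₁ (b i)} : Finset (κ → ℤ)), ∀ l, |x l| ≤ 6 * B := by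
    intro x hx l
    rcases mem_insert.1 hx with rfl | hx
    · exact key a ha l
    · rw [mem_singleton.1 hx]; exact key b hb l
  intro x hx y hy l
  have e1 := abs_le.1 (key2 x hx l)
  have e2 := abs_le.1 (key2 y hy l)
  rw [abs_lt]
  push_cast
  constructor <;> linarith [e1.1, e1.2, e2.1, e2.2]

/-- **Exact version.** Four maps from boxes of `ℤ ^ ι` to an abelian group that respect
many additive quadruples: the first one is bracket-linear on a quasi-polynomially dense part. -/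
theorem exact_hom_of.{u, v} {m : ℝ} (hm : 2 ≤ m) {ι : Type u} [Fintype ι]
    (hι : (Fintype.card ι : ℝ) ≤ m)
    {Y : Type v} [AddCommGroup Y] (hY : FrProp.{u, v} Y) (L : ι → ℕ) (hL : ∀ i, 0 < L i)
    (H₁ H₂ H₃ H₄ : Finset (ι → ℤ))
    (h₁ : ∀ x ∈ H₁, ∀ y ∈ H₁, ∀ i, |x i - y i| < L i)
    (h₂ : ∀ x ∈ H₂, ∀ y ∈ H₂, ∀ i, |x i - y i| < L i)
    (h₃ : ∀ x ∈ H₃, ∀ y ∈ H₃, ∀ i, |x i - y i| < L i)
    (h₄ : ∀ x ∈ H₄, ∀ y ∈ H₄, ∀ i, |x i - y i| < L i)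
    (f₁ f₂ f₃ f₄ : (ι → ℤ) → Y) (Q : Finset ((ι → ℤ) × (ι → ℤ) × (ι → ℤ) × (ι → ℤ)))
    (hQ : ∀ q ∈ Q, q.1 ∈ H₁ ∧ q.2.1 ∈ H₂ ∧ q.2.2.1 ∈ H₃ ∧ q.2.2.2 ∈ H₄ ∧
      q.1 + q.2.1 = q.2.2.1 + q.2.2.2 ∧ f₁ q.1 + f₂ q.2.1 = f₃ q.2.2.1 + f₄ q.2.2.2)
    (hc : Real.exp (-m) * (∏ i, (L i : ℝ)) ^ 3 ≤ #Q) :
    ∃ H' ⊆ H₁, Real.exp (-m ^ 300) * ∏ i, (L i : ℝ) ≤ #H' ∧ ∃ r : ℕ, (r : ℝ) ≤ m ^ 91 ∧
      ∃ (β : Fin r → ι → ℝ) (a : ι → Y) (b : Fin r → Y) (γ : Y),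
        (∀ j i, ∃ n : ℤ, β j i * L i = n) ∧
        ∀ h ∈ H', f₁ h = γ + ∑ i, h i • a i + ∑ j, ⌊∑ i, β j i * h i⌋ • b j := by
  classical
  haveI : ∀ i, NeZero (L i) := fun i => ⟨(hL i).ne'⟩
  set π := red L with hπ
  set N : ℝ := ∏ i, (L i : ℝ) with hN
  have hNc : (Fintype.card (∀ i, ZMod (L i)) : ℝ) = N := by
    rw [Fintype.card_pi, hN]; simp
  have hN0 : 0 < N := by rw [← hNc]; exact_mod_cast Fintype.card_pos
  have hle : ∀ S : Finset (∀ i, ZMod (L i)), (#S : ℝ) ≤ N := by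
    intro S; rw [← hNc]; exact_mod_cast card_le_univ S
  obtain ⟨F₁, e₁⟩ := exists_lift π H₁ (red_injOn L H₁ h₁) f₁
  obtain ⟨F₂, e₂⟩ := exists_lift π H₂ (red_injOn L H₂ h₂) f₂
  obtain ⟨F₃, e₃⟩ := exists_lift π H₃ (red_injOn L H₃ h₃) f₃
  obtain ⟨F₄, e₄⟩ := exists_lift π H₄ (red_injOn L H₄ h₄) f₄
  set k : ℕ := 2 * ⌈m⌉₊ + 1 with hk
  have hkm : (k : ℝ) ≤ 4 * m := by
    rw [hk]; push_cast; linarith [(Nat.ceil_lt_add_one (by linarith : 0 ≤ m)).le]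
  have hk1 : 1 ≤ k := by omega
  have h2k : 2 * Real.exp m ≤ 2 ^ k := by
    rw [hk, pow_succ, pow_mul, mul_comm]
    refine mul_le_mul_of_nonneg_right ?_ (by norm_num)
    calc Real.exp m ≤ Real.exp (⌈m⌉₊ * 1) := Real.exp_le_exp.2 (by linarith [Nat.le_ceil m])
      _ = Real.exp 1 ^ ⌈m⌉₊ := Real.exp_nat_mul _ _
      _ ≤ _ := pow_le_pow_left₀ (Real.exp_pos _).le (by linarith [Real.exp_one_lt_d9]) _
  obtain ⟨K, hK, hKc, hKf⟩ := hY _ (H₁.image π) (H₂.image π) (H₃.image π) (H₄.image π)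
    F₁ F₂ F₃ F₄ hN0 (hle _) (hle _) (hle _) (hle _) k hk1 (by
      have g1 : 2 * N ^ 3 ≤ 2 ^ k * #Q := by
        have : 2 * N ^ 3 = 2 * Real.exp m * (Real.exp (-m) * N ^ 3) := by
          rw [mul_assoc, ← mul_assoc (Real.exp m), ← Real.exp_add]; simp
        rw [this]
        exact mul_le_mul h2k hc (by positivity) (by positivity)
      refine g1.trans (mul_le_mul_of_nonneg_left ?_ (by positivity))
      rw [Nat.cast_le]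
      refine card_le_card_of_injOn
        (fun q => ((π q.1, π q.2.1), (π q.2.2.1, π q.2.2.2))) ?_ ?_
      · intro q hq
        obtain ⟨a1, a2, a3, a4, a5, a6⟩ := hQ q hq
        simp only [coe_filter, mem_product, Set.mem_ofPred_eq]
        refine ⟨⟨⟨mem_image_of_mem _ a1, mem_image_of_mem _ a2⟩, mem_image_of_mem _ a3,
          mem_image_of_mem _ a4⟩, ?_, ?_⟩
        · rw [← map_add, ← map_add, a5]
        · rw [e₁ _ a1, e₂ _ a2, e₃ _ a3, e₄ _ a4, a6]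
      · intro q hq q' hq' h
        obtain ⟨a1, a2, a3, a4, -⟩ := hQ q hq
        obtain ⟨b1, b2, b3, b4, -⟩ := hQ q' hq'
        simp only [Prod.mk.injEq] at h
        exact Prod.ext (red_injOn L H₁ h₁ a1 b1 h.1.1) (Prod.ext (red_injOn L H₂ h₂ a2 b2 h.1.2)
          (Prod.ext (red_injOn L H₃ h₃ a3 b3 h.2.1) (red_injOn L H₄ h₄ a4 b4 h.2.2))))
  set H : Finset (ι → ℤ) := {h ∈ H₁ | π h ∈ K} with hH
  have hHK : H.image π = K := by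
    ext g
    constructor
    · intro hg
      obtain ⟨x, hx, rfl⟩ := mem_image.1 hg
      exact (mem_filter.1 hx).2
    · intro hg
      obtain ⟨x, hx, rfl⟩ := mem_image.1 (hK hg)
      exact mem_image_of_mem _ (mem_filter.2 ⟨hx, hg⟩)
  set m₁ : ℝ := 10000 * k with hm₁
  have hk1' : (1 : ℝ) ≤ k := by exact_mod_cast hk1
  have hKd : Real.exp (-m₁) * N ≤ #K := by
    have g1 : (2 : ℝ) ^ (10000 * k) ≤ Real.exp m₁ := by
      rw [hm₁, show (10000 * k : ℝ) = ((10000 * k : ℕ) : ℝ) * 1 by push_cast; ring,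
        Real.exp_nat_mul]
      exact pow_le_pow_left₀ (by norm_num) (by linarith [Real.add_one_le_exp 1]) _
    have g2 : N ≤ Real.exp m₁ * #K :=
      hKc.trans (mul_le_mul_of_nonneg_right g1 (Nat.cast_nonneg _))
    have g3 := mul_le_mul_of_nonneg_left g2 (Real.exp_pos (-m₁)).le
    rwa [← mul_assoc, ← Real.exp_add, neg_add_cancel, Real.exp_zero, one_mul] at g3
  have hm1 : 1 ≤ m := by linarith
  have hpow : ∀ a b : ℕ, (2 : ℝ) ^ a * m ^ b ≤ m ^ (a + b) := by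
    intro a b
    rw [pow_add]
    exact mul_le_mul_of_nonneg_right (pow_le_pow_left₀ (by norm_num) hm a) (by positivity)
  have hm₁m : m₁ ≤ 2 ^ 16 * m := by rw [hm₁]; norm_num; linarith
  have hD : Fintype.card ι + 2 ^ 22 * m₁ ^ 4 ≤ m ^ 91 := by
    have g1 : m₁ ^ 4 ≤ (2 ^ 16 * m) ^ 4 := pow_le_pow_left₀ (by positivity) hm₁m 4
    have g2 : 2 ^ 22 * (2 ^ 16 * m) ^ 4 = 2 ^ 86 * m ^ 4 := by ring
    have g3 := hpow 86 4
    have g4 := hpow 1 90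
    have g5 : m ≤ m ^ 90 := le_self_pow₀ hm1 (by norm_num)
    have g6 : 2 ^ 22 * m₁ ^ 4 ≤ 2 ^ 22 * (2 ^ 16 * m) ^ 4 :=
      mul_le_mul_of_nonneg_left g1 (by positivity)
    rw [g2] at g6
    have g7 := g6.trans g3
    rw [pow_one] at g4
    change 2 ^ 22 * m₁ ^ 4 ≤ m ^ 90 at g7
    change 2 * m ^ 90 ≤ m ^ 91 at g4
    linarith
  obtain ⟨H', hH', c1, r, hr, β, a, b, γ, hβ, hF⟩ := freiman_bracket π L hL
    (fun i => by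
      ext j
      by_cases hij : j = i
      · subst hij; simp [hπ, red]
      · simp [hπ, red, Pi.single_eq_of_ne hij])
    H (fun x hx y hy => h₁ x (mem_filter.1 hx).1 y (mem_filter.1 hy).1) F₁
    (by rwa [hHK]) (m := m₁) (by rw [hm₁]; linarith) (by rwa [hHK, hNc]) hD
  refine ⟨H', hH'.trans (filter_subset _ _), ?_, r, hr, β, a, b, γ, hβ, fun h hh => ?_⟩
  · have g1 : (#K : ℝ) ≤ #H := by rw [← hHK]; exact_mod_cast card_image_le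
    have g2 := mul_le_mul_of_nonneg_left (hKd.trans (g1.trans c1))
      (Real.exp_pos (-(4 * (m ^ 91) ^ 3))).le
    rw [← mul_assoc, ← mul_assoc, ← Real.exp_add, ← Real.exp_add, neg_add_cancel, Real.exp_zero,
      one_mul] at g2
    refine le_trans (mul_le_mul_of_nonneg_right (Real.exp_le_exp.2 ?_) hN0.le) g2
    have g3 := hpow 16 1
    have g4 := hpow 3 273
    have g5 : m ^ (16 + 1) ≤ m ^ 273 := pow_le_pow_right₀ hm1 (by norm_num)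
    have g6 : m ^ (3 + 273) ≤ m ^ 300 := pow_le_pow_right₀ hm1 (by norm_num)
    have g7 : (m ^ 91) ^ 3 = m ^ 273 := by rw [← pow_mul]
    have g8 : 0 ≤ m ^ 273 := by positivity
    rw [pow_one] at g3
    rw [g7]
    have g9 : (2 : ℝ) ^ 3 = 8 := by norm_num
    rw [g9] at g4
    generalize m ^ 273 = u at *
    generalize m ^ 300 = v at *
    linarith
  · rw [← e₁ h (mem_filter.1 (hH' hh)).1]
    exact hF h hh

/-- **Exact version**, finite target. -/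
theorem exact_hom {m : ℝ} (hm : 2 ≤ m) {ι : Type*} [Fintype ι] (hι : (Fintype.card ι : ℝ) ≤ m)
    {Y : Type*} [AddCommGroup Y] [Finite Y] (L : ι → ℕ) (hL : ∀ i, 0 < L i)
    (H₁ H₂ H₃ H₄ : Finset (ι → ℤ))
    (h₁ : ∀ x ∈ H₁, ∀ y ∈ H₁, ∀ i, |x i - y i| < L i)
    (h₂ : ∀ x ∈ H₂, ∀ y ∈ H₂, ∀ i, |x i - y i| < L i)
    (h₃ : ∀ x ∈ H₃, ∀ y ∈ H₃, ∀ i, |x i - y i| < L i)
    (h₄ : ∀ x ∈ H₄, ∀ y ∈ H₄, ∀ i, |x i - y i| < L i)
    (f₁ f₂ f₃ f₄ : (ι → ℤ) → Y) (Q : Finset ((ι → ℤ) × (ι → ℤ) × (ι → ℤ) × (ι → ℤ)))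
    (hQ : ∀ q ∈ Q, q.1 ∈ H₁ ∧ q.2.1 ∈ H₂ ∧ q.2.2.1 ∈ H₃ ∧ q.2.2.2 ∈ H₄ ∧
      q.1 + q.2.1 = q.2.2.1 + q.2.2.2 ∧ f₁ q.1 + f₂ q.2.1 = f₃ q.2.2.1 + f₄ q.2.2.2)
    (hc : Real.exp (-m) * (∏ i, (L i : ℝ)) ^ 3 ≤ #Q) :
    ∃ H' ⊆ H₁, Real.exp (-m ^ 300) * ∏ i, (L i : ℝ) ≤ #H' ∧ ∃ r : ℕ, (r : ℝ) ≤ m ^ 91 ∧
      ∃ (β : Fin r → ι → ℝ) (a : ι → Y) (b : Fin r → Y) (γ : Y),
        (∀ j i, ∃ n : ℤ, β j i * L i = n) ∧
        ∀ h ∈ H', f₁ h = γ + ∑ i, h i • a i + ∑ j, ⌊∑ i, β j i * h i⌋ • b j :=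
  exact_hom_of hm hι (frProp_finite Y) L hL H₁ H₂ H₃ H₄ h₁ h₂ h₃ h₄ f₁ f₂ f₃ f₄ Q hQ hc

/-- **Approximate homomorphism lemma.** -/
theorem approx_hom : ∃ C : ℕ, ∀ {m : ℝ}, 2 ≤ m → ∀ {ι κ : Type} [Fintype ι] [Fintype κ],
    (Fintype.card ι : ℝ) ≤ m → (Fintype.card κ : ℝ) ≤ m → ∀ (L : ι → ℕ), (∀ i, 0 < L i) →
    ∀ (H₁ H₂ H₃ H₄ : Finset (ι → ℤ)),
    (∀ x ∈ H₁, ∀ y ∈ H₁, ∀ i, |x i - y i| < L i) → (∀ x ∈ H₂, ∀ y ∈ H₂, ∀ i, |x i - y i| < L i) →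
    (∀ x ∈ H₃, ∀ y ∈ H₃, ∀ i, |x i - y i| < L i) → (∀ x ∈ H₄, ∀ y ∈ H₄, ∀ i, |x i - y i| < L i) →
    ∀ (f₁ f₂ f₃ f₄ : (ι → ℤ) → κ → ℝ) (q₀ : ℕ), 0 < q₀ →
    ∀ (Q : Finset ((ι → ℤ) × (ι → ℤ) × (ι → ℤ) × (ι → ℤ))),
    (∀ q ∈ Q, q.1 ∈ H₁ ∧ q.2.1 ∈ H₂ ∧ q.2.2.1 ∈ H₃ ∧ q.2.2.2 ∈ H₄ ∧
      q.1 + q.2.1 = q.2.2.1 + q.2.2.2 ∧
      ∀ l, ∃ n : ℤ, |f₁ q.1 l + f₂ q.2.1 l - f₃ q.2.2.1 l - f₄ q.2.2.2 l - n| ≤ 1 / q₀) →
    Real.exp (-m) * (∏ i, (L i : ℝ)) ^ 3 ≤ #Q →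
    ∃ H' ⊆ H₁, Real.exp (-m ^ C) * ∏ i, (L i : ℝ) ≤ #H' ∧ ∃ r : ℕ, (r : ℝ) ≤ m ^ C ∧
      ∃ (β : Fin r → ι → ℝ) (a : ι → κ → ℝ) (b : Fin r → κ → ℝ) (γ : κ → ℝ),
        (∀ j i, ∃ n : ℤ, β j i * L i = n) ∧
        ∀ h ∈ H', ∀ l, ∃ n : ℤ,
          |f₁ h l - (γ l + ∑ i, h i * a i l + ∑ j, ⌊∑ i, β j i * h i⌋ * b j l) - n| ≤ 1 / q₀ := by
  refine ⟨900, ?_⟩
  intro m hm ι κ _ _ hι hκ L hL H₁ H₂ H₃ H₄ h₁ h₂ h₃ h₄ f₁ f₂ f₃ f₄ q₀ hq Q hQ hc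
  classical
  haveI : NeZero q₀ := ⟨hq.ne'⟩
  have hq0 : (0 : ℝ) < q₀ := by exact_mod_cast hq
  set g : ((ι → ℤ) → κ → ℝ) → (ι → ℤ) → κ → ℤ := fun f x l => ⌊q₀ * f x l⌋ with hg
  have hQ' : ∀ q : (ι → ℤ) × (ι → ℤ) × (ι → ℤ) × (ι → ℤ), ∀ l, ∃ n : ℤ, q ∈ Q →
      |f₁ q.1 l + f₂ q.2.1 l - f₃ q.2.2.1 l - f₄ q.2.2.2 l - n| ≤ 1 / q₀ := by
    intro q l
    by_cases h : q ∈ Q
    · obtain ⟨n, hn⟩ := (hQ q h).2.2.2.2.2 l
      exact ⟨n, fun _ => hn⟩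
    · exact ⟨0, fun h' => absurd h' h⟩
  choose n hn using hQ'
  set df : (ι → ℤ) × (ι → ℤ) × (ι → ℤ) × (ι → ℤ) → κ → ℤ := fun q l =>
    g f₁ q.1 l + g f₂ q.2.1 l - g f₃ q.2.2.1 l - g f₄ q.2.2.2 l - q₀ * n q l with hdf
  obtain ⟨c, -, hcc⟩ := pigeon Q (Fintype.piFinset fun _ : κ => Icc (-2 : ℤ) 2)
    (Fintype.piFinset_nonempty.2 fun _ => ⟨0, by simp⟩) df (fun q hq => by
      rw [Fintype.mem_piFinset]
      intro l
      have k := hn q l hq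
      rw [le_div_iff₀ hq0, ← abs_of_pos hq0, ← abs_mul, abs_le] at k
      have a1 := Int.floor_le (q₀ * f₁ q.1 l)
      have a2 := Int.floor_le (q₀ * f₂ q.2.1 l)
      have a3 := Int.floor_le (q₀ * f₃ q.2.2.1 l)
      have a4 := Int.floor_le (q₀ * f₄ q.2.2.2 l)
      have b1 := Int.lt_floor_add_one (q₀ * f₁ q.1 l)
      have b2 := Int.lt_floor_add_one (q₀ * f₂ q.2.1 l)
      have b3 := Int.lt_floor_add_one (q₀ * f₃ q.2.2.1 l)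
      have b4 := Int.lt_floor_add_one (q₀ * f₄ q.2.2.2 l)
      have c1 : (-3 : ℝ) < (df q l : ℝ) := by
        rw [hdf, hg]; push_cast; nlinarith [k.1, k.2]
      have c2 : (df q l : ℝ) < 3 := by
        rw [hdf, hg]; push_cast; nlinarith [k.1, k.2]
      have c3 : (-3 : ℤ) < df q l := by exact_mod_cast c1
      have c4 : df q l < 3 := by exact_mod_cast c2
      rw [mem_Icc]; omega)
  have hm1 : 1 ≤ m := by linarith
  have hm3 : 3 * m ≤ m ^ 3 := by nlinarith [mul_le_mul hm hm (by norm_num) (by linarith)]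
  have hcard : ((#(Fintype.piFinset fun _ : κ => Icc (-2 : ℤ) 2) : ℕ) : ℝ) ≤ Real.exp (2 * m) := by
    rw [Fintype.card_piFinset, prod_const, card_univ]
    have h5 : (5 : ℝ) ≤ Real.exp 2 := by
      have : Real.exp 2 = Real.exp 1 ^ 2 := by rw [← Real.exp_nat_mul]; norm_num
      rw [this]; nlinarith [Real.exp_one_gt_d9]
    calc (((#(Icc (-2 : ℤ) 2)) ^ Fintype.card κ : ℕ) : ℝ) = 5 ^ Fintype.card κ := by simp
      _ ≤ Real.exp 2 ^ Fintype.card κ := pow_le_pow_left₀ (by norm_num) h5 _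
      _ = Real.exp (Fintype.card κ * 2) := (Real.exp_nat_mul _ _).symm
      _ ≤ _ := Real.exp_le_exp.2 (by linarith)
  set N : ℝ := ∏ i, (L i : ℝ) with hN
  have hN0 : 0 ≤ N := prod_nonneg fun i _ => Nat.cast_nonneg _
  obtain ⟨H', hH', c1, r, hr, β, a, b, γ, hβ, hF⟩ := exact_hom (m := m ^ 3) (by linarith)
    (by linarith) (Y := κ → ZMod q₀) L hL H₁ H₂ H₃ H₄ h₁ h₂ h₃ h₄
    (fun x l => g f₁ x l) (fun x l => g f₂ x l) (fun x l => g f₃ x l)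
    (fun x l => ((g f₄ x l + c l : ℤ) : ZMod q₀)) {q ∈ Q | df q = c} (fun q hq => by
      obtain ⟨a1, a2, a3, a4, a5, -⟩ := hQ q (mem_filter.1 hq).1
      refine ⟨a1, a2, a3, a4, a5, ?_⟩
      ext l
      have k := congrFun (mem_filter.1 hq).2 l
      simp only [Pi.add_apply]
      rw [← k, hdf]
      push_cast
      simp)
    (by
      have g1 := hc.trans (hcc.trans (mul_le_mul_of_nonneg_right hcard (Nat.cast_nonneg _)))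
      have g2 := mul_le_mul_of_nonneg_left g1 (Real.exp_pos (-(2 * m))).le
      rw [← mul_assoc, ← mul_assoc, ← Real.exp_add, ← Real.exp_add, neg_add_cancel, Real.exp_zero,
        one_mul] at g2
      exact le_trans (mul_le_mul_of_nonneg_right (Real.exp_le_exp.2 (by linarith))
        (by positivity)) g2)
  rw [← pow_mul] at c1 hr
  refine ⟨H', hH', c1, r, hr.trans (pow_le_pow_right₀ hm1 (by norm_num)), β,
    fun i l => (a i l).val / q₀, fun j l => (b j l).val / q₀, fun l => (γ l).val / q₀, hβ, ?_⟩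
  intro h hh l
  have k := congrFun (hF h hh) l
  simp only [Pi.add_apply, Finset.sum_apply, Pi.smul_apply, zsmul_eq_mul] at k
  have k2 : ((((γ l).val : ℤ) + ∑ i, h i * ((a i l).val : ℤ) +
      ∑ j, ⌊∑ i, β j i * h i⌋ * ((b j l).val : ℤ) : ℤ) : ZMod q₀) = (g f₁ h l : ZMod q₀) := by
    rw [k]; push_cast; simp
  rw [ZMod.intCast_eq_intCast_iff_dvd_sub] at k2
  obtain ⟨z, hz⟩ := k2
  refine ⟨z, ?_⟩
  have k3 : ((g f₁ h l : ℤ) : ℝ) - ((γ l).val + ∑ i, (h i : ℝ) * (a i l).val +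
      ∑ j, (⌊∑ i, β j i * h i⌋ : ℝ) * (b j l).val) = q₀ * z := by exact_mod_cast hz
  have k4 : f₁ h l - (((γ l).val : ℝ) / q₀ + ∑ i, (h i : ℝ) * ((a i l).val / q₀) +
      ∑ j, (⌊∑ i, β j i * h i⌋ : ℝ) * ((b j l).val / q₀)) - z =
      (q₀ * f₁ h l - (g f₁ h l : ℤ)) / q₀ := by
    simp only [← mul_div_assoc, ← sum_div]
    field_simp
    linarith
  rw [k4, abs_div, abs_of_pos hq0]
  refine div_le_div_of_nonneg_right ?_ hq0.le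
  have a1 := Int.floor_le (q₀ * f₁ h l)
  have b1 := Int.lt_floor_add_one (q₀ * f₁ h l)
  rw [hg, abs_le]
  constructor <;> linarith

end Crest.Agent.T49.AH
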