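import Crest.Agent.T49.AhTw_60
import Crest.Agent.T49.TwTri_51
import Crest.Agent.T49.TwPoly_91
import Crest.Agent.T49.Qp_85

/-! # Row 49 (helper60): approximate homomorphisms on a Gaussian lattice -/

set_option autoImplicit false
set_option linter.unusedSectionVars false

namespace Crest.Agent.T49.AH

open Finset

/-- the bracket-linear element -/
noncomputable def brl {ι W : Type} [Fintype ι] [AddCommGroup W] [Module ℝ W] {r : ℕ}
    (β : Fin r → ι → ℝ) (a : ι → W) (b : Fin r → W) (γ : W) (h : ι → ℤ) : W :=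
  γ + ∑ i, (h i : ℝ) • a i + ∑ j, (⌊∑ i, β j i * h i⌋ : ℝ) • b j

/-- the approximate homomorphism lemma on boxes holds for the values in `V` and the notion
`Sh x B` (`x` is `B`-short modulo the lattice); `n` is the dimension -/
def ShOK {W : Type} [AddCommGroup W] [Module ℝ W] (Sh : W → ℝ → Prop) (V : Submodule ℝ W) (n : ℝ)
    (C : ℕ) : Prop :=
  ∀ m : ℝ, 2 ≤ m → n ≤ m → ∀ (ι : Type) [Fintype ι], (Fintype.card ι : ℝ) ≤ m →
    ∀ (L : ι → ℕ), (∀ i, 0 < L i) → ∀ (H : Finset (ι → ℤ)),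
    (∀ x ∈ H, ∀ y ∈ H, ∀ i, |x i - y i| < L i) → ∀ (f₁ f₂ f₃ f₄ : (ι → ℤ) → W),
    (∀ h, f₁ h ∈ V ∧ f₂ h ∈ V ∧ f₃ h ∈ V ∧ f₄ h ∈ V) →
    ∀ (Q : Finset ((ι → ℤ) × (ι → ℤ) × (ι → ℤ))) (B : ℝ), 0 < B →
    (∀ q ∈ Q, q.1 ∈ H ∧ q.2.1 ∈ H ∧ q.2.2 ∈ H ∧ q.1 + q.2.1 - q.2.2 ∈ H ∧
      Sh (f₁ q.1 + f₂ q.2.1 - f₃ q.2.2 - f₄ (q.1 + q.2.1 - q.2.2)) B) →
    Real.exp (-m) * (∏ i, (L i : ℝ)) ^ 3 ≤ #Q →
    ∃ H' : Finset (ι → ℤ), (∀ h ∈ H', ∃ q ∈ Q, q.1 = h) ∧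
      Real.exp (-m ^ C) * ∏ i, (L i : ℝ) ≤ #H' ∧ ∃ r : ℕ, (r : ℝ) ≤ m ^ C ∧
      ∃ (β : Fin r → ι → ℝ) (a : ι → W) (b : Fin r → W) (γ : W), (∀ i, a i ∈ V) ∧
        (∀ j, b j ∈ V) ∧ γ ∈ V ∧ ∀ h ∈ H', Sh (f₁ h - brl β a b γ h) (Real.exp (m ^ C) * B)

/-- coordinates: `V` is the image of `κ → ℝ`, the lattice is `ℤ ^ κ`, the norm is `‖A x‖` -/
theorem shOK_of_coord : ∃ C : ℕ, 1 ≤ C ∧ ∀ {κ E W : Type} [Fintype κ] [NormedAddCommGroup E]
    [NormedSpace ℝ E] [AddCommGroup W] [Module ℝ W] (A : (κ → ℝ) →ₗ[ℝ] E)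
    (P : (κ → ℝ) →ₗ[ℝ] W) (Sh : W → ℝ → Prop) (V : Submodule ℝ W) (n : ℝ),
    Function.Injective A → (Fintype.card κ : ℝ) ≤ n → (∀ x, P x ∈ V) → (∀ v ∈ V, ∃ x, P x = v) →
    (∀ x B, 0 < B → Sh (P x) B → ∃ z : κ → ℤ, ‖A (x - Lat.cast z)‖ ≤ B) →
    (∀ x B (z : κ → ℤ), ‖A (x - Lat.cast z)‖ ≤ B → Sh (P x) (Real.exp n * B)) →
    (∀ x B B', Sh x B → B ≤ B' → Sh x B') → ShOK Sh V n C := by
  obtain ⟨C, hC1, hC⟩ := twisted_int
  refine ⟨C + 1, by omega, ?_⟩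
  intro κ E W _ _ _ _ _ A P Sh V n hA hκ hP hV h1 h2 h3 m hm hn ι _ hι L hL H hH f₁ f₂ f₃ f₄ hf Q B
    hB hQ hc
  classical
  choose! g hg using hV
  have hinj : Function.Injective fun q : (ι → ℤ) × (ι → ℤ) × (ι → ℤ) =>
      (q.1, q.2.1, q.2.2, q.1 + q.2.1 - q.2.2) := fun q q' e => by
    simp only [Prod.mk.injEq] at e
    exact Prod.ext e.1 (Prod.ext e.2.1 e.2.2.1)
  obtain ⟨H', hH', c1, r, hr, β, a, b, γ, -, hF⟩ := hC hm A hA hι (hκ.trans hn) (L := L)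
    (H₁ := Q.image fun q => q.1) (H₂ := H) (H₃ := H) (H₄ := H) (f₁ := fun h => g (f₁ h))
    (f₂ := fun h => g (f₂ h)) (f₃ := fun h => g (f₃ h)) (f₄ := fun h => g (f₄ h))
    (Q := Q.image fun q => (q.1, q.2.1, q.2.2, q.1 + q.2.1 - q.2.2)) hB
    ⟨hL, fun x hx y hy => by
      obtain ⟨q, hq, rfl⟩ := mem_image.1 hx
      obtain ⟨q', hq', rfl⟩ := mem_image.1 hy
      exact hH _ (hQ q hq).1 _ (hQ q' hq').1, hH, hH, hH, fun q' hq' => by
      obtain ⟨q, hq, rfl⟩ := mem_image.1 hq'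
      obtain ⟨-, a2, a3, a4, a5⟩ := hQ q hq
      refine ⟨mem_image_of_mem _ hq, a2, a3, a4, by simp, ?_⟩
      obtain ⟨z, hz⟩ := h1 (g (f₁ q.1) + g (f₂ q.2.1) - g (f₃ q.2.2) - g (f₄ (q.1 + q.2.1 - q.2.2)))
        B hB (by
          rwa [map_sub, map_sub, map_add, hg _ (hf _).1, hg _ (hf _).2.1, hg _ (hf _).2.2.1,
            hg _ (hf _).2.2.2])
      exact ⟨Lat.cast z, fun l => ⟨z l, rfl⟩, hz⟩, by rwa [card_image_of_injective _ hinj]⟩
  have hle : m ^ C ≤ m ^ (C + 1) := pow_le_pow_right₀ (by linarith) (by omega)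
  refine ⟨H', fun h hh => ?_, le_trans (mul_le_mul_of_nonneg_right (Real.exp_le_exp.2 (by linarith))
    (prod_nonneg fun i _ => Nat.cast_nonneg _)) c1, r, hr.trans hle, β, fun i => P (a i),
    fun j => P (b j), P γ, fun _ => hP _, fun _ => hP _, hP _, fun h hh => ?_⟩
  · simpa using hH' hh
  · obtain ⟨ω, hω, h4⟩ := hF h hh
    choose z hz using hω
    obtain rfl : Lat.cast z = ω := funext fun l => (hz l).symm
    have h5 := h2 _ _ z h4
    simp only [map_sub, map_add, map_sum, map_smul, hg _ (hf h).1] at h5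
    refine h3 _ _ _ h5 ?_
    rw [← mul_assoc, ← Real.exp_add]
    refine mul_le_mul_of_nonneg_right (Real.exp_le_exp.2 ?_) hB.le
    have : m ≤ m ^ C := le_self_pow₀ (by linarith) (by omega)
    rw [pow_succ]; nlinarith

section Gauss

variable {σ E : Type} [Fintype σ] [NormedAddCommGroup E] [NormedSpace ℝ E]

/-- the Gaussian weight of a lattice point -/
noncomputable def gw (A : (σ → ℝ) →ₗ[ℝ] E) (h : σ → ℤ) : ℝ :=
  Real.exp (-Real.pi * ‖A (Lat.cast h)‖ ^ 2)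

theorem gw_pos (A : (σ → ℝ) →ₗ[ℝ] E) (h : σ → ℤ) : 0 < gw A h := Real.exp_pos _

theorem gw_le_one (A : (σ → ℝ) →ₗ[ℝ] E) (h : σ → ℤ) : gw A h ≤ 1 :=
  Real.exp_le_one_iff.2 (by nlinarith [Real.pi_pos, sq_nonneg ‖A (Lat.cast h)‖])

variable [DecidableEq σ] {A : (σ → ℝ) →ₗ[ℝ] E} (R : Lat.Red A)

/-- comparison quantity -/
noncomputable def nR : ℝ := ∏ i, (1 + ‖A (Lat.cast (R.b i))‖⁻¹)

theorem nR_pos : 0 < nR R := prod_pos fun i _ => by positivity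

/-- the coordinates as an equivalence -/
noncomputable def coE : (σ → ℤ) ≃ (σ → ℤ) :=
  Equiv.ofBijective (fun x i => R.coZ i x) ⟨R.coZ_injective, R.coZ_surjective⟩

theorem brl_co {W : Type} [AddCommGroup W] [Module ℝ W] {r : ℕ} (β : Fin r → σ → ℝ) (a : σ → W)
    (b : Fin r → W) (γ : W) (y : σ → ℤ) :
    brl (fun j k => ∑ i, β j i * R.ξ i k) (fun k => ∑ i, (R.ξ i k : ℝ) • a i) b γ y =
      brl β a b γ (coE R y) := by
  have hy : ∀ i, (coE R y i : ℝ) = ∑ k, (R.ξ i k : ℝ) * y k := fun i => by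
    change ((R.coZ i y : ℤ) : ℝ) = _
    simp [Lat.Red.coZ]
  simp only [brl, hy, smul_sum, smul_smul, sum_mul, mul_sum, sum_smul, mul_assoc]
  congr 1
  · congr 1
    rw [sum_comm]
    exact sum_congr rfl fun i _ => sum_congr rfl fun k _ => by rw [mul_comm]
  · exact sum_congr rfl fun j _ => by rw [sum_comm]

theorem gauss_upper (hA : Function.Injective A) {s : ℝ} (hs : 1 ≤ s) :
    Summable (fun h => Real.exp (-Real.pi * (‖A (Lat.cast h)‖ / s) ^ 2)) ∧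
      ∑' h, Real.exp (-Real.pi * (‖A (Lat.cast h)‖ / s) ^ 2) ≤
        (s * Lat.cst σ * (Fintype.card σ + 1)) ^ Fintype.card σ * nR R := by
  have hc := Lat.one_le_cst σ
  set k : ℝ := Fintype.card σ + 1 with hk
  have hk1 : 1 ≤ k := by rw [hk]; linarith [Nat.cast_nonneg (α := ℝ) (Fintype.card σ)]
  have hK : 1 ≤ s * Lat.cst σ * k :=
    one_le_mul_of_one_le_of_one_le (one_le_mul_of_one_le_of_one_le hs hc) hk1
  set a : σ → ℝ := fun i => ‖A (Lat.cast (R.b i))‖ / (s * Lat.cst σ * k) with ha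
  have ha0 : ∀ i, 0 < a i := fun i => div_pos (R.norm_b_pos hA i) (by linarith)
  obtain ⟨h1, h2⟩ := Tw.tri_sum (fun _ => 0) a (fun i => (ha0 i).ne') (fun _ _ => 0)
    fun _ _ _ _ => rfl
  simp only [add_zero] at h1 h2
  have h3 := (coE R).summable_iff.2 h1
  have h4 := (coE R).tsum_eq fun z : σ → ℤ => Real.exp (-Real.pi * ∑ c, (a c * z c) ^ 2)
  have hle : ∀ h, Real.exp (-Real.pi * (‖A (Lat.cast h)‖ / s) ^ 2) ≤
      Real.exp (-Real.pi * ∑ c, (a c * (coE R h c : ℝ)) ^ 2) := by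
    intro h
    refine Real.exp_le_exp.2 (mul_le_mul_of_nonpos_left ?_ (by linarith [Real.pi_pos]))
    have h5 : ∀ c, (a c * (coE R h c : ℝ)) ^ 2 ≤ (‖A (Lat.cast h)‖ / s / k) ^ 2 := fun c => by
      rw [← sq_abs, abs_mul, abs_of_pos (ha0 c)]
      refine pow_le_pow_left₀ (by have := ha0 c; positivity) ?_ 2
      have h6 := R.abs_co_le (Lat.cast h) c
      rw [R.co_cast] at h6
      change _ * |(R.coZ c h : ℝ)| ≤ _
      rw [ha, div_mul_eq_mul_div, div_div, div_le_div_iff₀ (by linarith) (by positivity)]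
      have : 0 ≤ s * k := by positivity
      nlinarith
    refine (sum_le_sum fun c _ => h5 c).trans ?_
    rw [sum_const, card_univ, nsmul_eq_mul, div_pow _ k, mul_div_assoc', div_le_iff₀ (by positivity),
      mul_comm]
    refine mul_le_mul_of_nonneg_left ?_ (sq_nonneg _)
    nlinarith
  have hS := Summable.of_nonneg_of_le (fun h => (Real.exp_pos _).le) hle h3
  refine ⟨hS, (hS.tsum_le_tsum hle h3).trans (h4.le.trans (h2.trans ?_))⟩
  rw [nR, ← card_univ, ← prod_const, ← prod_mul_distrib]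
  refine prod_le_prod (fun i _ => by positivity) fun i _ => ?_
  rw [abs_of_pos (ha0 i), ha, inv_div, div_eq_mul_inv, mul_add, mul_one]
  linarith

theorem summable_gw (hA : Function.Injective A) : Summable (gw A) := by
  obtain ⟨R⟩ := Lat.exists_Red A hA
  have h := (gauss_upper R hA le_rfl).1
  simp only [div_one] at h
  exact h

/-- the box of half sides `⌊t / ‖A (b i)‖⌋` in the reduced coordinates -/
noncomputable def bx (t : ℝ) : Finset (σ → ℤ) :=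
  Fintype.piFinset fun i => Icc (-(⌊t / ‖A (Lat.cast (R.b i))‖⌋₊ : ℤ)) ⌊t / ‖A (Lat.cast (R.b i))‖⌋₊

theorem card_bx (t : ℝ) :
    (#(bx R t) : ℝ) = ∏ i, ((2 * ⌊t / ‖A (Lat.cast (R.b i))‖⌋₊ + 1 : ℕ) : ℝ) := by
  rw [bx, Fintype.card_piFinset, Nat.cast_prod]
  refine prod_congr rfl fun i _ => ?_
  rw [Int.card_Icc]
  congr 1
  omega

theorem card_bx_le (hA : Function.Injective A) {t : ℝ} (ht : 1 ≤ t) :
    (#(bx R t) : ℝ) ≤ (2 * t) ^ Fintype.card σ * nR R := by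
  rw [card_bx, nR, ← card_univ, ← prod_const, ← prod_mul_distrib]
  refine prod_le_prod (fun i _ => by positivity) fun i _ => ?_
  have h0 := R.norm_b_pos hA i
  have h1 := Nat.floor_le (show 0 ≤ t / ‖A (Lat.cast (R.b i))‖ by positivity)
  push_cast
  rw [div_eq_mul_inv] at h1 ⊢
  linarith

theorem le_card_bx {t : ℝ} (ht : 0 < t) (ht1 : t ≤ 1) :
    (t / 2) ^ Fintype.card σ * nR R ≤ #(bx R t) := by
  rw [card_bx, nR, ← card_univ, ← prod_const, ← prod_mul_distrib]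
  refine prod_le_prod (fun i _ => by positivity) fun i _ => ?_
  have h1 := Nat.lt_floor_add_one (t / ‖A (Lat.cast (R.b i))‖)
  have h2 : (0 : ℝ) ≤ ⌊t / ‖A (Lat.cast (R.b i))‖⌋₊ := Nat.cast_nonneg _
  push_cast
  rw [div_eq_mul_inv t ‖_‖] at h1 h2 ⊢
  linarith

theorem bx_mono {t t' : ℝ} (h : t ≤ t') : bx R t ⊆ bx R t' :=
  Fintype.piFinset_subset _ _ fun i => by
    have := Nat.floor_mono (div_le_div_of_nonneg_right h (norm_nonneg (A (Lat.cast (R.b i)))))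
    exact Icc_subset_Icc (by omega) (by omega)

theorem co_mem_bx (hA : Function.Injective A) {h : σ → ℤ} {r : ℝ} (hh : ‖A (Lat.cast h)‖ ≤ r) :
    coE R h ∈ bx R (Lat.cst σ * r) := by
  refine Fintype.mem_piFinset.2 fun i => mem_Icc.2 (abs_le.1 ?_)
  have h1 := R.abs_coZ_le hA hh i
  rw [← Int.cast_abs, ← Int.natCast_natAbs, Int.cast_natCast] at h1
  change |R.coZ i h| ≤ _
  rw [← Int.natCast_natAbs]
  exact_mod_cast Nat.le_floor h1

theorem norm_le_of_mem_bx (hA : Function.Injective A) {h : σ → ℤ} {t : ℝ} (ht : 0 ≤ t)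
    (hh : coE R h ∈ bx R t) : ‖A (Lat.cast h)‖ ≤ Fintype.card σ * t := by
  refine R.norm_le_of_co fun i => ?_
  have h1 := abs_le.2 (mem_Icc.1 (Fintype.mem_piFinset.1 hh i))
  have h2 : |(R.coZ i h : ℝ)| ≤ (⌊t / ‖A (Lat.cast (R.b i))‖⌋₊ : ℝ) := by exact_mod_cast h1
  rw [R.co_cast, ← le_div_iff₀ (R.norm_b_pos hA i)]
  exact h2.trans (Nat.floor_le (by positivity))

theorem gauss_lower (hA : Function.Injective A) :
    nR R ≤ Real.exp Real.pi * (2 * (Fintype.card σ + 1)) ^ Fintype.card σ * ∑' h, gw A h := by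
  set k : ℝ := Fintype.card σ + 1 with hk
  have hd : (0 : ℝ) ≤ Fintype.card σ := Nat.cast_nonneg _
  have hk0 : 0 < k := by linarith
  have h1 := le_card_bx R (inv_pos.2 hk0) (inv_le_one_of_one_le₀ (by linarith))
  have h2 : Real.exp (-Real.pi) * #(bx R k⁻¹) ≤ ∑' h, gw A h := by
    refine le_trans ?_ ((summable_gw hA).sum_le_tsum ((bx R k⁻¹).map (coE R).symm.toEmbedding)
      fun h _ => (gw_pos A h).le)
    rw [← card_map (coE R).symm.toEmbedding, mul_comm, ← nsmul_eq_mul]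
    refine card_nsmul_le_sum _ _ _ fun h hh => Real.exp_le_exp.2 ?_
    have h3 := norm_le_of_mem_bx R hA (inv_pos.2 hk0).le (h := h) (by simpa using hh)
    have h4 : ‖A (Lat.cast h)‖ ≤ 1 := h3.trans (by
      rw [← div_eq_mul_inv, div_le_one hk0]; linarith)
    have h5 : ‖A (Lat.cast h)‖ ^ 2 ≤ 1 := pow_le_one₀ (norm_nonneg _) h4
    nlinarith [Real.pi_pos]
  calc nR R = Real.exp Real.pi * (2 * k) ^ Fintype.card σ *
        (Real.exp (-Real.pi) * ((k⁻¹ / 2) ^ Fintype.card σ * nR R)) := by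
        have : (2 * k) ^ Fintype.card σ * (k⁻¹ / 2) ^ Fintype.card σ = 1 := by
          rw [← mul_pow, show 2 * k * (k⁻¹ / 2) = 1 by field_simp, one_pow]
        have h3 : Real.exp Real.pi * Real.exp (-Real.pi) = 1 := by rw [← Real.exp_add]; simp
        linear_combination (-nR R) * this - (2 * k) ^ Fintype.card σ * (k⁻¹ / 2) ^ Fintype.card σ *
          nR R * h3
    _ ≤ _ := by gcongr; exact le_trans (by gcongr) h2

theorem gauss_tail (hA : Function.Injective A) {r : ℝ} (hr : 0 ≤ r) (S : Finset (σ → ℤ))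
    (hS : ∀ h, ‖A (Lat.cast h)‖ ≤ r → h ∈ S) :
    ∑' h, gw A h - ∑ h ∈ S, gw A h ≤
      Real.exp (-r ^ 2) * ((2 * Lat.cst σ * (Fintype.card σ + 1)) ^ Fintype.card σ * nR R) := by
  obtain ⟨h1, h2⟩ := gauss_upper R hA (one_le_two (α := ℝ))
  have h3 : ∀ h, gw A h ≤ (if h ∈ S then gw A h else 0) +
      Real.exp (-r ^ 2) * Real.exp (-Real.pi * (‖A (Lat.cast h)‖ / 2) ^ 2) := fun h => by
    split_ifs with hh
    · exact le_add_of_nonneg_right (by positivity)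
    · rw [zero_add, ← Real.exp_add]
      refine Real.exp_le_exp.2 ?_
      have h4 : r < ‖A (Lat.cast h)‖ := not_le.1 fun h' => hh (hS h h')
      have h5 : r ^ 2 ≤ ‖A (Lat.cast h)‖ ^ 2 := pow_le_pow_left₀ hr h4.le 2
      nlinarith [Real.pi_gt_three, sq_nonneg r]
  have h6 : Summable fun h => if h ∈ S then gw A h else 0 :=
    summable_of_ne_finset_zero (s := S) fun h hh => if_neg hh
  have h7 := (summable_gw hA).tsum_le_tsum h3 (h6.add (h1.mul_left _))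
  rw [h6.tsum_add (h1.mul_left _), tsum_mul_left, tsum_eq_sum (s := S) fun h hh => if_neg hh,
    sum_congr rfl fun h hh => if_pos hh] at h7
  have h8 := mul_le_mul_of_nonneg_left h2 (Real.exp_pos (-r ^ 2)).le
  linarith

end Gauss

set_option maxHeartbeats 1000000 in
open Classical in
/-- **approximate homomorphisms on a Gaussian lattice** -/
theorem sh_gauss (C₀ : ℕ) : ∃ C : ℕ, 1 ≤ C ∧ ∀ {W : Type} [AddCommGroup W] [Module ℝ W]
    (Sh : W → ℝ → Prop) (V : Submodule ℝ W) (n m : ℝ), ShOK Sh V n C₀ →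
    (∀ x B B', Sh x B → B ≤ B' → Sh x B') → 2 ≤ m → n ≤ m →
    ∀ {σ E : Type} [Fintype σ] [NormedAddCommGroup E] [NormedSpace ℝ E] (A : (σ → ℝ) →ₗ[ℝ] E),
    Function.Injective A → (Fintype.card σ : ℝ) ≤ m → ∀ (f₁ f₂ f₃ f₄ : (σ → ℤ) → W),
    (∀ h, f₁ h ∈ V ∧ f₂ h ∈ V ∧ f₃ h ∈ V ∧ f₄ h ∈ V) →
    ∀ (G : (σ → ℤ) × (σ → ℤ) × (σ → ℤ) → Prop) (B : ℝ), 0 < B →
    (∀ q, G q → Sh (f₁ q.1 + f₂ q.2.1 - f₃ q.2.2 - f₄ (q.1 + q.2.1 - q.2.2)) B) →
    Real.exp (-m) * (∑' h, gw A h) ^ 3 ≤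
      (∑' q : (σ → ℤ) × (σ → ℤ) × (σ → ℤ), if G q then gw A q.1 * (gw A q.2.1 * gw A q.2.2) else 0) →
    ∃ H' : Finset (σ → ℤ), (∀ h ∈ H', ‖A (Lat.cast h)‖ ≤ m ^ C ∧ ∃ q, G q ∧ q.1 = h) ∧
      Real.exp (-m ^ C) * ∑' h, gw A h ≤ ∑ h ∈ H', gw A h ∧ ∃ r : ℕ, (r : ℝ) ≤ m ^ C ∧
      ∃ (β : Fin r → σ → ℝ) (a : σ → W) (b : Fin r → W) (γ : W), (∀ i, a i ∈ V) ∧
        (∀ j, b j ∈ V) ∧ γ ∈ V ∧ ∀ h ∈ H', Sh (f₁ h - brl β a b γ h) (Real.exp (m ^ C) * B) := by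
  obtain ⟨C₂, hC₂⟩ : ∃ C : ℕ, ∀ (m ε : ℝ) (d : ℕ), 2 ≤ m → (d : ℝ) ≤ m → 0 ≤ ε →
      ε ≤ Real.exp (-m ^ C) → (2 * (2 * (d : ℝ)) ^ d * ((d : ℝ) + 1)) ^ d *
        (Real.exp 4 * (2 * ((d : ℝ) + 1)) ^ d) * ε ≤ Real.exp (-m) / 6 := by qp
  obtain ⟨C₁, hC₁⟩ : ∃ C : ℕ, ∀ (m : ℝ) (d : ℕ), 2 ≤ m → (d : ℝ) ≤ m → m ≤ m ^ C ∧
      Real.exp (-m ^ C) ≤ Real.exp (-m) / 2 / ((2 * ((2 * (d : ℝ)) ^ d * (3 * m ^ C₂) + 1)) ^ d *
        (Real.exp 4 * (2 * ((d : ℝ) + 1)) ^ d)) ^ 3 := by qp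
  obtain ⟨C, hC⟩ : ∃ C : ℕ, ∀ (m : ℝ) (d : ℕ), 2 ≤ m → (d : ℝ) ≤ m → (m ^ C₁) ^ C₀ ≤ m ^ C ∧
      m ^ C₂ ≤ m ^ C ∧
      Real.exp (-m ^ C) ≤ Real.exp (-(4 * (m ^ C₂) ^ 2)) * Real.exp (-(m ^ C₁) ^ C₀) * (1 / 2) ^ d /
        ((1 * (2 * (d : ℝ)) ^ d + 1) * ((d : ℝ) + 1)) ^ d := by qp
  refine ⟨C + 1, by omega, ?_⟩
  intro W _ _ Sh V n m hOK hmono hm hn σ E _ _ _ A hA hσ f₁ f₂ f₃ f₄ hf G B hB hG hQ
  obtain ⟨k1, k2⟩ := hC₁ m _ hm hσ
  obtain ⟨k3, k6, k4⟩ := hC m _ hm hσ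
  have k5 : m ^ C ≤ m ^ (C + 1) := pow_le_pow_right₀ (by linarith) (by omega)
  obtain ⟨R⟩ := Lat.exists_Red A hA
  set d := Fintype.card σ with hd
  have hcst : Lat.cst σ = (2 * (d : ℝ)) ^ d := rfl
  have hc1 := Lat.one_le_cst σ
  set ρ := ∑' h, gw A h with hρ
  have hS := summable_gw hA
  have hm3 : 1 ≤ m ^ C₂ := one_le_pow₀ (by linarith)
  have hN := nR_pos R
  have hlow : nR R ≤ Real.exp 4 * (2 * ((d : ℝ) + 1)) ^ d * ρ := by
    refine (gauss_lower R hA).trans (mul_le_mul_of_nonneg_right (mul_le_mul_of_nonneg_right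
      (Real.exp_le_exp.2 Real.pi_le_four) (by positivity)) (tsum_nonneg fun h => (gw_pos A h).le))
  have hρ0 : 0 < ρ := by
    by_contra h
    have : Real.exp 4 * (2 * ((d : ℝ) + 1)) ^ d * ρ ≤ 0 :=
      mul_nonpos_of_nonneg_of_nonpos (by positivity) (not_lt.1 h)
    linarith
  set t : ℝ := Lat.cst σ * (3 * m ^ C₂) + 1 with ht
  have ht1 : 1 ≤ t := le_add_of_nonneg_left (by positivity)
  have hbox : ∀ h, ‖A (Lat.cast h)‖ ≤ 3 * m ^ C₂ → coE R h ∈ bx R t := fun h hh =>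
    bx_mono R (by linarith) (co_mem_bx R hA hh)
  set S : Finset (σ → ℤ) :=
    ((bx R t).map (coE R).symm.toEmbedding).filter fun h => ‖A (Lat.cast h)‖ ≤ m ^ C₂ with hSdef
  have hmemS : ∀ h, h ∈ S ↔ ‖A (Lat.cast h)‖ ≤ m ^ C₂ := fun h =>
    ⟨fun hh => (mem_filter.1 hh).2, fun hh => mem_filter.2 ⟨by
      simpa using hbox h (by linarith), hh⟩⟩
  -- truncation
  have htail : ρ - ∑ h ∈ S, gw A h ≤ Real.exp (-m) / 6 * ρ := by
    refine (gauss_tail R hA (by positivity) S fun h hh => (hmemS h).2 hh).trans ?_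
    have h1 := hC₂ m (Real.exp (-(m ^ C₂) ^ 2)) d hm hσ (Real.exp_pos _).le
      (Real.exp_le_exp.2 (by nlinarith))
    calc _ ≤ Real.exp (-(m ^ C₂) ^ 2) * ((2 * Lat.cst σ * ((d : ℝ) + 1)) ^ d *
          (Real.exp 4 * (2 * ((d : ℝ) + 1)) ^ d * ρ)) := by gcongr
      _ = (2 * (2 * (d : ℝ)) ^ d * ((d : ℝ) + 1)) ^ d *
          (Real.exp 4 * (2 * ((d : ℝ) + 1)) ^ d) * Real.exp (-(m ^ C₂) ^ 2) * ρ := by
          rw [hcst]; ring
      _ ≤ _ := by gcongr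
  set w : (σ → ℤ) × (σ → ℤ) × (σ → ℤ) → ℝ := fun q => gw A q.1 * (gw A q.2.1 * gw A q.2.2) with hw
  have hw0 : ∀ q, 0 ≤ w q := fun q =>
    mul_nonneg (gw_pos A _).le (mul_nonneg (gw_pos A _).le (gw_pos A _).le)
  have hg0 : 0 ≤ gw A := fun h => (gw_pos A h).le
  have hS2 := hS.mul_of_nonneg hS hg0 hg0
  have hS3 : Summable w := hS.mul_of_nonneg hS2 hg0 fun q => mul_nonneg (hg0 _) (hg0 _)
  have hw3 : ∑' q, w q = ρ ^ 3 := by
    rw [hw, ← hS.tsum_mul_tsum hS2 hS3, ← hS.tsum_mul_tsum hS hS2]; ring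
  have hF : Summable fun q => if G q then w q else 0 :=
    Summable.of_nonneg_of_le (fun q => by split_ifs; exacts [hw0 q, le_rfl])
      (fun q => by split_ifs; exacts [le_rfl, hw0 q]) hS3
  set Q₀ := (S ×ˢ S ×ˢ S).filter G with hQ₀
  have hcount : Real.exp (-m) / 2 * ρ ^ 3 ≤ #Q₀ := by
    have h1 := (hS3.sub hF).sum_le_tsum (S ×ˢ S ×ˢ S) fun q _ => by
      split_ifs; exacts [by simp, by simpa using hw0 q]
    rw [hS3.tsum_sub hF, hw3, sum_sub_distrib, ← sum_filter, ← hQ₀] at h1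
    have h2 : ∑ q ∈ S ×ˢ S ×ˢ S, w q = (∑ h ∈ S, gw A h) ^ 3 := by
      simp only [hw, sum_product, ← mul_sum, ← sum_mul]; ring
    have h3 : ∑ q ∈ Q₀, w q ≤ #Q₀ := by
      simpa using sum_le_card_nsmul Q₀ w 1 fun q _ =>
        mul_le_one₀ (gw_le_one A _) (mul_nonneg (hg0 _) (hg0 _))
          (mul_le_one₀ (gw_le_one A _) (hg0 _) (gw_le_one A _))
    have h4 : ∑ h ∈ S, gw A h ≤ ρ := hS.sum_le_tsum S fun h _ => hg0 h
    have h5 : 0 ≤ ∑ h ∈ S, gw A h := sum_nonneg fun h _ => hg0 h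
    set u := ∑ h ∈ S, gw A h
    have h6 : ρ ^ 3 - u ^ 3 ≤ (ρ - u) * (3 * ρ ^ 2) := by
      have : ρ ^ 3 - u ^ 3 = (ρ - u) * (ρ ^ 2 + ρ * u + u ^ 2) := by ring
      rw [this]
      refine mul_le_mul_of_nonneg_left ?_ (by linarith)
      nlinarith
    have h7 := mul_le_mul_of_nonneg_right htail (by positivity : 0 ≤ 3 * ρ ^ 2)
    change Real.exp (-m) * ρ ^ 3 ≤ ∑' q, if G q then w q else 0 at hQ
    nlinarith
  have hadd : ∀ x y z, coE R (x + y - z) = coE R x + coE R y - coE R z := fun x y z => by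
    funext i
    change R.coZ i _ = R.coZ i _ + R.coZ i _ - R.coZ i _
    simp [Lat.Red.coZ, mul_add, mul_sub, sum_add_distrib, sum_sub_distrib]
  let e3 := (coE R).prodCongr ((coE R).prodCongr (coE R))
  have hL : (∏ i, ((2 * ⌊t / ‖A (Lat.cast (R.b i))‖⌋₊ + 1 : ℕ) : ℝ)) = #(bx R t) := (card_bx R t).symm
  obtain ⟨H', hH', c1, r, hr, β, a, b, γ, ha, hb, hγ, hSh⟩ := hOK (m ^ C₁) (by linarith) (by linarith)
    σ (by linarith) (fun i => 2 * ⌊t / ‖A (Lat.cast (R.b i))‖⌋₊ + 1) (fun i => by omega) (bx R t)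
    (fun x hx y hy i => by
      have h1 := mem_Icc.1 (Fintype.mem_piFinset.1 hx i)
      have h2 := mem_Icc.1 (Fintype.mem_piFinset.1 hy i)
      rw [abs_lt]; push_cast; constructor <;> omega)
    (fun x => f₁ ((coE R).symm x)) (fun x => f₂ ((coE R).symm x)) (fun x => f₃ ((coE R).symm x))
    (fun x => f₄ ((coE R).symm x)) (fun x => hf _) (Q₀.map e3.toEmbedding) B hB (fun q' hq' => by
      obtain ⟨q, hq, rfl⟩ := mem_map.1 hq'
      obtain ⟨hq1, hq2⟩ := mem_filter.1 hq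
      simp only [mem_product, hmemS] at hq1
      have h4 : ‖A (Lat.cast (q.1 + q.2.1 - q.2.2))‖ ≤ 3 * m ^ C₂ := by
        have : Lat.cast (q.1 + q.2.1 - q.2.2) = Lat.cast q.1 + Lat.cast q.2.1 - Lat.cast q.2.2 := by
          ext i; simp
        rw [this, map_sub, map_add]
        linarith [norm_sub_le (A (Lat.cast q.1) + A (Lat.cast q.2.1)) (A (Lat.cast q.2.2)),
          norm_add_le (A (Lat.cast q.1)) (A (Lat.cast q.2.1)), hq1.1, hq1.2.1, hq1.2.2]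
      change coE R q.1 ∈ _ ∧ coE R q.2.1 ∈ _ ∧ coE R q.2.2 ∈ _ ∧
        coE R q.1 + coE R q.2.1 - coE R q.2.2 ∈ _ ∧ Sh (f₁ ((coE R).symm (coE R q.1)) +
          f₂ ((coE R).symm (coE R q.2.1)) - f₃ ((coE R).symm (coE R q.2.2)) -
          f₄ ((coE R).symm (coE R q.1 + coE R q.2.1 - coE R q.2.2))) B
      rw [← hadd]
      simp only [Equiv.symm_apply_apply]
      exact ⟨hbox _ (by linarith [hq1.1]), hbox _ (by linarith [hq1.2.1]),
        hbox _ (by linarith [hq1.2.2]), hbox _ h4, hG q hq2⟩)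
    (by
      rw [card_map, hL]
      refine le_trans ?_ hcount
      have h1 : (#(bx R t) : ℝ) ≤ (2 * t) ^ d * (Real.exp 4 * (2 * ((d : ℝ) + 1)) ^ d) * ρ := by
        refine (card_bx_le R hA ht1).trans ?_
        rw [mul_assoc]
        exact mul_le_mul_of_nonneg_left hlow (by positivity)
      rw [← hcst, ← ht, le_div_iff₀ (by positivity)] at k2
      calc _ ≤ Real.exp (-m ^ C₁) * ((2 * t) ^ d * (Real.exp 4 * (2 * ((d : ℝ) + 1)) ^ d) * ρ) ^ 3 := by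
            gcongr
        _ = Real.exp (-m ^ C₁) * ((2 * t) ^ d * (Real.exp 4 * (2 * ((d : ℝ) + 1)) ^ d)) ^ 3 * ρ ^ 3 := by
            ring
        _ ≤ _ := by gcongr)
  have hH'' : ∀ x ∈ H', ‖A (Lat.cast ((coE R).symm x))‖ ≤ m ^ C₂ ∧ ∃ q, G q ∧ q.1 = (coE R).symm x := by
    intro x hx
    obtain ⟨q', hq', rfl⟩ := hH' x hx
    obtain ⟨q, hq, rfl⟩ := mem_map.1 hq'
    obtain ⟨hq1, hq2⟩ := mem_filter.1 hq
    change ‖A (Lat.cast ((coE R).symm (coE R q.1)))‖ ≤ _ ∧ ∃ q', G q' ∧ q'.1 = (coE R).symm (coE R q.1)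
    rw [Equiv.symm_apply_apply]
    exact ⟨(hmemS _).1 (mem_product.1 hq1).1, q, hq2, rfl⟩
  refine ⟨H'.map (coE R).symm.toEmbedding, fun h hh => ?_, ?_, r, by linarith,
    fun j k => ∑ i, β j i * R.ξ i k, fun k => ∑ i, (R.ξ i k : ℝ) • a i, b, γ,
    fun k => V.sum_mem fun i _ => V.smul_mem _ (ha i), hb, hγ, fun h hh => ?_⟩
  · obtain ⟨x, hx, rfl⟩ := mem_map.1 hh
    exact ⟨(hH'' x hx).1.trans (k6.trans k5), (hH'' x hx).2⟩
  · rw [sum_map]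
    have h1 : Real.exp (-(4 * (m ^ C₂) ^ 2)) * #H' ≤ ∑ x ∈ H', gw A ((coE R).symm.toEmbedding x) := by
      rw [mul_comm, ← nsmul_eq_mul]
      refine card_nsmul_le_sum _ _ _ fun x hx => Real.exp_le_exp.2 ?_
      have h2 : ‖A (Lat.cast ((coE R).symm x))‖ ^ 2 ≤ (m ^ C₂) ^ 2 :=
        pow_le_pow_left₀ (norm_nonneg _) (hH'' x hx).1 2
      have h3 := mul_le_mul Real.pi_le_four h2 (sq_nonneg _) (by norm_num)
      change _ ≤ -Real.pi * ‖A (Lat.cast ((coE R).symm x))‖ ^ 2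
      linarith
    rw [hL] at c1
    have h2 : (1 / 2) ^ d * nR R ≤ #(bx R t) :=
      (le_card_bx R one_pos le_rfl).trans (by exact_mod_cast card_le_card (bx_mono R ht1))
    have h3 : ρ ≤ ((1 * (2 * (d : ℝ)) ^ d + 1) * ((d : ℝ) + 1)) ^ d * nR R := by
      have h4 := (gauss_upper R hA le_rfl).2
      simp only [div_one] at h4
      refine h4.trans ?_
      rw [hcst]
      gcongr
      linarith
    rw [le_div_iff₀ (by positivity)] at k4
    calc Real.exp (-m ^ (C + 1)) * ρ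
        ≤ Real.exp (-m ^ C) * (((1 * (2 * (d : ℝ)) ^ d + 1) * ((d : ℝ) + 1)) ^ d * nR R) := by gcongr
      _ ≤ Real.exp (-(4 * (m ^ C₂) ^ 2)) * Real.exp (-(m ^ C₁) ^ C₀) * (1 / 2) ^ d * nR R := by
          rw [← mul_assoc]; gcongr
      _ = Real.exp (-(4 * (m ^ C₂) ^ 2)) * (Real.exp (-(m ^ C₁) ^ C₀) * ((1 / 2) ^ d * nR R)) := by ring
      _ ≤ Real.exp (-(4 * (m ^ C₂) ^ 2)) * #H' := by
          gcongr
          exact le_trans (by gcongr) c1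
      _ ≤ _ := h1
  · obtain ⟨x, hx, rfl⟩ := mem_map.1 hh
    refine hmono _ _ _ ?_ (mul_le_mul_of_nonneg_right (Real.exp_le_exp.2 (k3.trans k5)) hB.le)
    rw [brl_co]
    simpa using hSh x hx

section Poly

open MvPolynomial Tw

variable {ι : Type}

/-- families of polynomials supported on the monomials in `M` -/
def supM (κ : Type) (M : Finset (ι →₀ ℕ)) : Submodule ℝ (κ → Pl ι) where
  carrier := {F | ∀ l m, m ∉ M → coeff m (F l) = 0}
  add_mem' hF hG l m hm := by simp [hF l m hm, hG l m hm]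
  zero_mem' l m _ := by simp
  smul_mem' r F hF l m hm := by simp [hF l m hm]

/-- `F = Θ e` modulo integer polynomials, `e` supported on `M` and of norm `≤ B` -/
def ShP {κ : Type} (Θ : Pl ι →ₗ[ℝ] Pl ι) (M : Finset (ι →₀ ℕ)) (F : κ → Pl ι) (B : ℝ) : Prop :=
  ∀ l, ∃ e : Pl ι, (∀ m, m ∉ M → coeff m e = 0) ∧ nrm e ≤ B ∧ IsInt (F l - Θ e)

theorem ShP.mono {κ : Type} {Θ : Pl ι →ₗ[ℝ] Pl ι} {M : Finset (ι →₀ ℕ)} (F : κ → Pl ι) (B B' : ℝ)
    (h : ShP Θ M F B) (hB : B ≤ B') : ShP Θ M F B' := fun l =>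
  let ⟨e, h1, h2, h3⟩ := h l; ⟨e, h1, h2.trans hB, h3⟩

/-- **polynomial form** -/
theorem shOK_poly : ∃ C : ℕ, 1 ≤ C ∧ ∀ {ι κ : Type} [Fintype κ] (Θ : Pl ι →ₗ[ℝ] Pl ι)
    (M : Finset (ι →₀ ℕ)) (n : ℝ), Function.Injective Θ →
    (∀ e : Pl ι, (∀ m, m ∉ M → coeff m e = 0) → ∀ m, m ∉ M → coeff m (Θ e) = 0) →
    (Fintype.card κ : ℝ) * #M ≤ n → (#M : ℝ) ≤ n → ShOK (ShP (κ := κ) Θ M) (supM κ M) n C := by
  obtain ⟨C, hC1, hC⟩ := shOK_of_coord
  refine ⟨C, hC1, fun {ι κ} _ Θ M n hΘ hΘM hn hM => ?_⟩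
  classical
  let P₁ : (M → ℝ) →ₗ[ℝ] Pl ι := ∑ μ : M, (monomial μ.1) ∘ₗ LinearMap.proj μ
  have hP₁ : ∀ x m, coeff m (P₁ x) = if h : m ∈ M then x ⟨m, h⟩ else 0 := fun x m => by
    simp only [P₁, LinearMap.sum_apply, LinearMap.comp_apply, LinearMap.proj_apply, coeff_sum,
      coeff_monomial]
    split_ifs with h
    · rw [sum_eq_single ⟨m, h⟩ (fun b _ hb => if_neg fun e => hb (Subtype.ext e)) (by simp)]
      simp
    · exact sum_eq_zero fun b _ => if_neg fun (e : b.1 = m) => h (e ▸ b.2)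
  have hP₁s : ∀ e : Pl ι, (∀ m, m ∉ M → coeff m e = 0) → P₁ (fun μ => coeff μ.1 e) = e :=
    fun e he => MvPolynomial.ext _ _ fun m => by
      rw [hP₁]; split_ifs with h
      · rfl
      · exact (he m h).symm
  let P : (κ × M → ℝ) →ₗ[ℝ] κ → Pl ι :=
    LinearMap.pi fun l => P₁ ∘ₗ LinearMap.funLeft ℝ ℝ fun μ => (l, μ)
  have hP : ∀ x l, P x l = P₁ fun μ => x (l, μ) := fun _ _ => rfl
  let T : (κ × M → ℝ) →ₗ[ℝ] κ × M → ℝ :=
    LinearMap.pi fun p => lcoeff ℝ p.2.1 ∘ₗ Θ ∘ₗ LinearMap.proj p.1 ∘ₗ P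
  have hT : ∀ x p, T x p = coeff p.2.1 (Θ (P x p.1)) := fun _ _ => rfl
  have hPz : ∀ x l m, m ∉ M → coeff m (P x l) = 0 := fun x l m hm => by rw [hP, hP₁, dif_neg hm]
  have hPT : ∀ x l, P (T x) l = Θ (P x l) := fun x l => hP₁s _ (hΘM _ (hPz x l))
  have hPc : ∀ x (p : κ × M), coeff p.2.1 (P x p.1) = x p := fun x p => by
    rw [hP, hP₁, dif_pos p.2.2]
  have hTi : Function.Injective T := fun x y e => funext fun p => by
    rw [← hPc x, ← hPc y, hΘ (show Θ (P x p.1) = Θ (P y p.1) by rw [← hPT, ← hPT, e])]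
  let T' := LinearEquiv.ofInjectiveEndo T hTi
  have hint : ∀ (z : κ × M → ℤ) l, IsInt (P (Lat.cast z) l) := fun z l m => by
    rw [hP, hP₁]; split_ifs with h
    · exact ⟨_, rfl⟩
    · exact ⟨0, by simp⟩
  refine hC T'.symm.toLinearMap P _ _ n T'.symm.injective (by simpa using hn) hPz
    (fun v hv => ⟨fun p => coeff p.2.1 (v p.1), funext fun l => hP₁s _ (hv l)⟩)
    (fun x B hB h => ?_) (fun x B z h l => ?_) ShP.mono
  · choose e he1 he2 he3 using h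
    choose z hz using he3
    refine ⟨fun p => z p.1 p.2.1, ?_⟩
    have h1 : x - Lat.cast (fun p : κ × M => z p.1 p.2.1) = T' fun p => coeff p.2.1 (e p.1) := by
      funext p
      change x p - _ = T _ p
      rw [hT, hP, hP₁s _ (he1 p.1), Lat.cast_apply, ← hz, coeff_sub, hPc]
      ring
    rw [h1]
    change ‖T'.symm (T' _)‖ ≤ B
    rw [LinearEquiv.symm_apply_apply]
    exact (pi_norm_le_iff_of_nonneg hB.le).2 fun p => (abs_coeff_le_nrm _ _).trans (he2 p.1)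
  · change ‖T'.symm _‖ ≤ B at h
    refine ⟨P (T'.symm (x - Lat.cast z)) l, hPz _ l, ?_, ?_⟩
    · have hB : 0 ≤ B := (norm_nonneg _).trans h
      refine (nrm_le_card_mul (s := M) (K := B) (fun m hm => by
        by_contra h'; exact mem_support_iff.1 hm (hPz _ l m h')) fun m hm => ?_).trans ?_
      · rw [hPc _ (l, ⟨m, hm⟩)]
        exact (norm_le_pi_norm _ _).trans h
      · exact mul_le_mul_of_nonneg_right (by linarith [Real.add_one_le_exp n]) hB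
    · rw [← hPT]
      change IsInt (P x l - P (T' (T'.symm _)) l)
      rw [LinearEquiv.apply_symm_apply, map_sub]
      simpa using hint z l

/-- the monomials of weight `d` -/
theorem exists_monos [Fintype ι] {w : ι → ℕ} (hw : ∀ c, 0 < w c) (d : ℕ) :
    ∃ M : Finset (ι →₀ ℕ), (∀ m, m ∈ M ↔ Finsupp.weight w m = d) ∧
      #M ≤ (d + 1) * (Fintype.card ι + d + 1) ^ d := by
  classical
  refine ⟨((range (d + 1)).biUnion fun n => finsuppAntidiag univ n).filter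
    fun m => Finsupp.weight w m = d, fun m => ⟨fun h => (mem_filter.1 h).2, fun h =>
      mem_filter.2 ⟨mem_biUnion.2 ⟨m.degree, mem_range.2 (Nat.lt_succ_of_le ?_), ?_⟩, h⟩⟩, ?_⟩
  · rw [← h, Finsupp.degree_apply, Finsupp.weight_apply, Finsupp.sum]
    exact sum_le_sum fun c _ => by simpa using Nat.le_mul_of_pos_right _ (hw c)
  · rw [mem_finsuppAntidiag, Finsupp.degree_eq_sum]
    exact ⟨rfl, subset_univ _⟩
  · refine (card_filter_le _ _).trans (card_biUnion_le.trans ?_)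
    refine (sum_le_card_nsmul _ _ ((Fintype.card ι + d + 1) ^ d) fun n hn => ?_).trans (by simp)
    have := mem_range.1 hn
    rw [card_finsuppAntidiag_nat_eq_choose, card_univ]
    exact (Nat.choose_le_pow _ _).trans ((Nat.pow_le_pow_left (by omega) _).trans
      (Nat.pow_le_pow_right (by omega) (by omega)))

/-- families of weighted homogeneous polynomials -/
noncomputable def homV (κ : Type) (w : ι → ℕ) (d : ℕ) : Submodule ℝ (κ → Pl ι) :=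
  Submodule.pi Set.univ fun _ => weightedHomogeneousSubmodule ℝ w d

theorem mem_homV {κ : Type} {w : ι → ℕ} {d : ℕ} {F : κ → Pl ι} :
    F ∈ homV κ w d ↔ ∀ l, IsWeightedHomogeneous w (F l) d := by
  simp [homV, Submodule.mem_pi]

/-- `F = Θ e` modulo integer polynomials, `e` homogeneous of weight `d` and of norm `≤ B` -/
def ShH {κ : Type} (Θ : Pl ι →ₗ[ℝ] Pl ι) (w : ι → ℕ) (d : ℕ) (F : κ → Pl ι) (B : ℝ) : Prop :=
  ∀ l, ∃ e : Pl ι, IsWeightedHomogeneous w e d ∧ nrm e ≤ B ∧ IsInt (F l - Θ e)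

theorem ShH.mono {κ : Type} {Θ : Pl ι →ₗ[ℝ] Pl ι} {w : ι → ℕ} {d : ℕ} (F : κ → Pl ι) (B B' : ℝ)
    (h : ShH Θ w d F B) (hB : B ≤ B') : ShH Θ w d F B' := fun l =>
  let ⟨e, h1, h2, h3⟩ := h l; ⟨e, h1, h2.trans hB, h3⟩

/-- **homogeneous form** (take `Θ = T.TTh.toLinearMap`, `w = T.lev` for a cell `T`) -/
theorem shOK_hom : ∃ C : ℕ, 1 ≤ C ∧ ∀ {ι κ : Type} [Fintype ι] [Fintype κ]
    (Θ : Pl ι →ₗ[ℝ] Pl ι) (w : ι → ℕ) (d : ℕ) (n : ℝ), (∀ c, 0 < w c) → Function.Injective Θ →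
    (∀ e, IsWeightedHomogeneous w e d → IsWeightedHomogeneous w (Θ e) d) →
    ((Fintype.card κ : ℝ) + 1) * ((d + 1) * (Fintype.card ι + d + 1) ^ d) ≤ n →
    ShOK (ShH (κ := κ) Θ w d) (homV κ w d) n C := by
  obtain ⟨C, hC1, hC⟩ := shOK_poly
  refine ⟨C, hC1, fun {ι κ} _ _ Θ w d n hw hΘ hh hn => ?_⟩
  obtain ⟨M, hM, hc⟩ := exists_monos hw d
  have hc' : (#M : ℝ) ≤ (d + 1) * (Fintype.card ι + d + 1) ^ d := by exact_mod_cast hc
  have key : ∀ e : Pl ι, (∀ m, m ∉ M → coeff m e = 0) ↔ IsWeightedHomogeneous w e d := fun e =>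
    ⟨fun h m hm => (hM m).1 (by by_contra h'; exact hm (h m h')), fun h m hm => by
      by_contra h'; exact hm ((hM m).2 (h h'))⟩
  have h0 : (0 : ℝ) ≤ Fintype.card κ := Nat.cast_nonneg _
  have h1 : (0 : ℝ) ≤ #M := Nat.cast_nonneg _
  have h2 := mul_le_mul_of_nonneg_left hc' (by linarith : (0 : ℝ) ≤ Fintype.card κ + 1)
  have := hC (κ := κ) Θ M n hΘ (fun e he => (key _).2 (hh e ((key e).1 he))) (by nlinarith)
    (by nlinarith)
  convert this using 1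
  · funext F B
    simp only [ShH, ShP, key]
  · ext F
    rw [mem_homV]
    exact forall_congr' fun l => (key _).symm

end Poly

end Crest.Agent.T49.AH
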