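import Crest.Agent.T49.Ah8_9
import Crest.Agent.T49.Red_74

/-! # Row 49 (helper60): approximate homomorphisms modulo a lattice, for an arbitrary norm -/

set_option autoImplicit false

namespace Crest.Agent.T49.AH

open Finset

/-- the conclusion of the approximate homomorphism lemma modulo `Ω`, error measured by `ν` -/
def TwOut {ι W : Type} [Fintype ι] [AddCommGroup W] [Module ℝ W] (ν : W → ℝ) (Ω : W → Prop)
    (L : ι → ℕ) (H : Finset (ι → ℤ)) (f : (ι → ℤ) → W) (M B : ℝ) : Prop :=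
  ∃ H' ⊆ H, Real.exp (-M) * ∏ i, (L i : ℝ) ≤ #H' ∧ ∃ r : ℕ, (r : ℝ) ≤ M ∧
    ∃ (β : Fin r → ι → ℝ) (a : ι → W) (b : Fin r → W) (γ : W),
      (∀ j i, ∃ n : ℤ, β j i * L i = n) ∧ ∀ h ∈ H', ∃ ω, Ω ω ∧
        ν (f h - (γ + ∑ i, (h i : ℝ) • a i + ∑ j, (⌊∑ i, β j i * h i⌋ : ℝ) • b j) - ω) ≤
          Real.exp M * B

/-- the hypothesis: many additive quadruples are respected modulo `Ω` up to `B` -/
structure TwIn {ι W : Type} [Fintype ι] [AddCommGroup W] (ν : W → ℝ) (Ω : W → Prop)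
    (L : ι → ℕ) (H₁ H₂ H₃ H₄ : Finset (ι → ℤ)) (f₁ f₂ f₃ f₄ : (ι → ℤ) → W)
    (Q : Finset ((ι → ℤ) × (ι → ℤ) × (ι → ℤ) × (ι → ℤ))) (m B : ℝ) : Prop where
  pos : ∀ i, 0 < L i
  d₁ : ∀ x ∈ H₁, ∀ y ∈ H₁, ∀ i, |x i - y i| < L i
  d₂ : ∀ x ∈ H₂, ∀ y ∈ H₂, ∀ i, |x i - y i| < L i
  d₃ : ∀ x ∈ H₃, ∀ y ∈ H₃, ∀ i, |x i - y i| < L i
  d₄ : ∀ x ∈ H₄, ∀ y ∈ H₄, ∀ i, |x i - y i| < L i
  quad : ∀ q ∈ Q, q.1 ∈ H₁ ∧ q.2.1 ∈ H₂ ∧ q.2.2.1 ∈ H₃ ∧ q.2.2.2 ∈ H₄ ∧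
    q.1 + q.2.1 = q.2.2.1 + q.2.2.2 ∧
    ∃ ω, Ω ω ∧ ν (f₁ q.1 + f₂ q.2.1 - f₃ q.2.2.1 - f₄ q.2.2.2 - ω) ≤ B
  dense : Real.exp (-m) * (∏ i, (L i : ℝ)) ^ 3 ≤ #Q

/-- core form: a quasi-orthogonal basis `v` of `Ω` with coordinates `co` -/
theorem twisted_core : ∃ C : ℕ, 1 ≤ C ∧ ∀ {m : ℝ}, 2 ≤ m → ∀ {ι κ W E : Type} [Fintype ι]
    [Fintype κ] [AddCommGroup W] [Module ℝ W] [NormedAddCommGroup E] [NormedSpace ℝ E]
    (A : W →ₗ[ℝ] E) (Ω : W → Prop) (v : κ → W) (co : κ → W →ₗ[ℝ] ℝ),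
    (Fintype.card ι : ℝ) ≤ m → (Fintype.card κ : ℝ) ≤ m → (∀ x, ∑ j, co j x • v j = x) →
    (∀ j, 0 < ‖A (v j)‖) → (∀ x j, |co j x| * ‖A (v j)‖ ≤ Lat.cst κ * ‖A x‖) →
    (∀ ω, Ω ω → ∀ j, ∃ n : ℤ, co j ω = n) → (∀ n : κ → ℤ, Ω (∑ j, (n j : ℝ) • v j)) →
    ∀ {L : ι → ℕ} {H₁ H₂ H₃ H₄ : Finset (ι → ℤ)} {f₁ f₂ f₃ f₄ : (ι → ℤ) → W}
      {Q : Finset ((ι → ℤ) × (ι → ℤ) × (ι → ℤ) × (ι → ℤ))} {B : ℝ}, 0 < B →
      TwIn (fun x => ‖A x‖) Ω L H₁ H₂ H₃ H₄ f₁ f₂ f₃ f₄ Q m B →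
      TwOut (fun x => ‖A x‖) Ω L H₁ f₁ (m ^ C) B := by
  obtain ⟨C, hC⟩ := real_hom
  refine ⟨3 * (C + 1), by omega, ?_⟩
  intro m hm ι κ W E _ _ _ _ _ _ A Ω v co hι hκ hsum hv hco hΩ hΩ' L H₁ H₂ H₃ H₄ f₁ f₂ f₃ f₄ Q B
    hB h
  classical
  have hc1 := Lat.one_le_cst κ
  set s : κ → ℝ := fun j => ‖A (v j)‖ / (Lat.cst κ * B) with hs
  have hs0 : ∀ j, 0 < s j := fun j => div_pos (hv j) (by positivity)
  set g : ((ι → ℤ) → W) → (ι → ℤ) → κ → ℝ := fun f x j => Int.fract (co j (f x)) with hg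
  set dl : (ι → ℤ) × (ι → ℤ) × (ι → ℤ) × (ι → ℤ) → κ → ℝ := fun q j =>
    g f₁ q.1 j + g f₂ q.2.1 j - g f₃ q.2.2.1 j - g f₄ q.2.2.2 j with hdl
  obtain ⟨c, -, hcc⟩ := pigeon Q (Fintype.piFinset fun _ : κ => Icc (-2 : ℤ) 2)
    (Fintype.piFinset_nonempty.2 fun _ => ⟨0, by simp⟩) (fun q j => round (dl q j)) (fun q _ => by
      rw [Fintype.mem_piFinset]
      intro l
      have a1 := Int.fract_nonneg (co l (f₁ q.1))
      have a2 := Int.fract_nonneg (co l (f₂ q.2.1))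
      have a3 := Int.fract_nonneg (co l (f₃ q.2.2.1))
      have a4 := Int.fract_nonneg (co l (f₄ q.2.2.2))
      have b1 := Int.fract_lt_one (co l (f₁ q.1))
      have b2 := Int.fract_lt_one (co l (f₂ q.2.1))
      have b3 := Int.fract_lt_one (co l (f₃ q.2.2.1))
      have b4 := Int.fract_lt_one (co l (f₄ q.2.2.2))
      have k := abs_le.1 (abs_sub_round (dl q l))
      have c1 : (-3 : ℝ) < (round (dl q l) : ℝ) := by
        simp only [hdl, hg] at k ⊢; linarith [k.2]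
      have c2 : (round (dl q l) : ℝ) < 3 := by
        simp only [hdl, hg] at k ⊢; linarith [k.1]
      have c3 : (-3 : ℤ) < round (dl q l) := by exact_mod_cast c1
      have c4 : round (dl q l) < 3 := by exact_mod_cast c2
      rw [mem_Icc]; omega)
  have hm1 : 1 ≤ m := by linarith
  have hm3 : 3 * m ≤ m ^ 3 := by nlinarith [mul_le_mul hm hm (by norm_num) (by linarith)]
  have hcard : ((#(Fintype.piFinset fun _ : κ => Icc (-2 : ℤ) 2) : ℕ) : ℝ) ≤ Real.exp (2 * m) := by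
    rw [Fintype.card_piFinset, prod_const, card_univ]
    have h5 : (5 : ℝ) ≤ Real.exp 2 := by
      have : Real.exp 2 = Real.exp 1 ^ 2 := by rw [← Real.exp_nat_mul]; norm_num
      rw [this]; nlinarith [Real.exp_one_gt_d9]
    calc (((#(Icc (-2 : ℤ) 2)) ^ Fintype.card κ : ℕ) : ℝ) = 5 ^ Fintype.card κ := by simp
      _ ≤ Real.exp 2 ^ Fintype.card κ := pow_le_pow_left₀ (by norm_num) h5 _
      _ = Real.exp (Fintype.card κ * 2) := (Real.exp_nat_mul _ _).symm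
      _ ≤ _ := Real.exp_le_exp.2 (by linarith)
  set N : ℝ := ∏ i, (L i : ℝ) with hN
  have hN0 : 0 ≤ N := prod_nonneg fun i _ => Nat.cast_nonneg _
  obtain ⟨H', hH', c1, r, hr, β, a, b, γ, hβ, hF⟩ := hC (m := m ^ 3) (by linarith)
    (ι := ι) (κ := κ) (by linarith) (by linarith) L h.pos H₁ H₂ H₃ H₄ h.d₁ h.d₂ h.d₃ h.d₄
    (fun x l => g f₁ x l * s l) (fun x l => g f₂ x l * s l) (fun x l => g f₃ x l * s l)
    (fun x l => (g f₄ x l + c l) * s l) {q ∈ Q | (fun j => round (dl q j)) = c} (fun q hq => by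
      obtain ⟨a1, a2, a3, a4, a5, ω, hω, a6⟩ := h.quad q (mem_filter.1 hq).1
      refine ⟨a1, a2, a3, a4, a5, fun l => ?_⟩
      have k : round (dl q l) = c l := congrFun (mem_filter.1 hq).2 l
      obtain ⟨n, hn⟩ := hΩ ω hω l
      have k1 := round_le (dl q l) (n - ⌊co l (f₁ q.1)⌋ - ⌊co l (f₂ q.2.1)⌋ + ⌊co l (f₃ q.2.2.1)⌋ +
        ⌊co l (f₄ q.2.2.2)⌋)
      have k2 := (hco _ l).trans (mul_le_mul_of_nonneg_left a6 (by linarith))
      have k3 : dl q l - ((n - ⌊co l (f₁ q.1)⌋ - ⌊co l (f₂ q.2.1)⌋ + ⌊co l (f₃ q.2.2.1)⌋ +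
          ⌊co l (f₄ q.2.2.2)⌋ : ℤ) : ℝ) =
          co l (f₁ q.1 + f₂ q.2.1 - f₃ q.2.2.1 - f₄ q.2.2.2 - ω) := by
        simp only [hdl, hg, Int.fract, map_sub, map_add, hn]; push_cast; ring
      rw [k3, k] at k1
      have k4 : g f₁ q.1 l * s l + g f₂ q.2.1 l * s l - g f₃ q.2.2.1 l * s l -
          (g f₄ q.2.2.2 l + c l) * s l = (dl q l - c l) * s l := by simp only [hdl]; ring
      rw [k4, abs_mul, abs_of_pos (hs0 l), hs, ← mul_div_assoc, div_le_one (by positivity)]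
      exact (mul_le_mul_of_nonneg_right k1 (norm_nonneg _)).trans k2)
    (by
      have g1 := h.dense.trans (hcc.trans (mul_le_mul_of_nonneg_right hcard (Nat.cast_nonneg _)))
      have g2 := mul_le_mul_of_nonneg_left g1 (Real.exp_pos (-(2 * m))).le
      rw [← mul_assoc, ← mul_assoc, ← Real.exp_add, ← Real.exp_add, neg_add_cancel, Real.exp_zero,
        one_mul] at g2
      exact le_trans (mul_le_mul_of_nonneg_right (Real.exp_le_exp.2 (by linarith))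
        (by positivity)) g2)
  have hle : (m ^ 3) ^ C ≤ m ^ (3 * (C + 1)) := by
    rw [← pow_mul]; exact pow_le_pow_right₀ hm1 (by omega)
  let lift : (κ → ℤ) → W := fun z => ∑ j, ((z j : ℝ) / s j) • v j
  refine ⟨H', hH', le_trans (mul_le_mul_of_nonneg_right (Real.exp_le_exp.2 (neg_le_neg hle)) hN0) c1,
    r, hr.trans hle, β, fun i => lift (a i), fun j => lift (b j), lift γ, hβ, fun x hx =>
    ⟨_, hΩ' fun j => ⌊co j (f₁ x)⌋, ?_⟩⟩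
  have e : f₁ x - (lift γ + ∑ i, (x i : ℝ) • lift (a i) + ∑ j, (⌊∑ i, β j i * x i⌋ : ℝ) • lift (b j)) -
      ∑ j, ((⌊co j (f₁ x)⌋ : ℤ) : ℝ) • v j =
      ∑ l, ((g f₁ x l * s l - (γ l + ∑ i, (x i : ℝ) * a i l +
        ∑ j, (⌊∑ i, β j i * x i⌋ : ℝ) * b j l)) / s l) • v l := by
    have e1 : ∀ {τ : Type} [Fintype τ] (t : τ → ℝ) (z : τ → κ → ℤ),
        ∑ i, t i • lift (z i) = ∑ l, ((∑ i, t i * z i l) / s l) • v l := by
      intro τ _ t z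
      simp only [lift, smul_sum, smul_smul, sum_div, sum_smul, mul_div_assoc]
      exact sum_comm
    rw [e1, e1, sub_eq_iff_eq_add, sub_eq_iff_eq_add]
    refine (hsum (f₁ x)).symm.trans ?_
    simp only [lift, ← sum_add_distrib, ← add_smul]
    refine sum_congr rfl fun l _ => ?_
    congr 1
    have := (hs0 l).ne'
    simp only [hg, Int.fract]
    field_simp
    ring
  change ‖A _‖ ≤ _
  rw [e, map_sum]
  refine (norm_sum_le _ _).trans ((sum_le_sum (g := fun _ => Lat.cst κ * B) fun l _ => ?_).trans ?_)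
  · rw [map_smul, norm_smul, Real.norm_eq_abs, abs_div, abs_of_pos (hs0 l)]
    refine (mul_le_mul_of_nonneg_right (div_le_div_of_nonneg_right (hF x hx l) (hs0 l).le)
      (norm_nonneg _)).trans (le_of_eq ?_)
    have := (hv l).ne'
    rw [hs]; field_simp
  · rw [sum_const, card_univ, nsmul_eq_mul, ← mul_assoc]
    refine mul_le_mul_of_nonneg_right ?_ hB.le
    have h1 : 2 * m ≤ Real.exp m := by
      have := Real.add_one_le_exp (m / 2)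
      have h2 : Real.exp m = Real.exp (m / 2) * Real.exp (m / 2) := by rw [← Real.exp_add]; ring_nf
      nlinarith [sq_nonneg (m / 2 - 1)]
    have h0 : (0 : ℝ) ≤ Fintype.card κ := Nat.cast_nonneg _
    calc (Fintype.card κ : ℝ) * Lat.cst κ ≤ Real.exp m * Real.exp m ^ Fintype.card κ := by
          unfold Lat.cst
          gcongr <;> linarith
      _ = Real.exp (m + Fintype.card κ * m) := by rw [Real.exp_add, Real.exp_nat_mul]
      _ ≤ _ := Real.exp_le_exp.2 (by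
          have h3 : m ^ 3 ≤ m ^ (3 * (C + 1)) := pow_le_pow_right₀ hm1 (by omega)
          have h4 : (Fintype.card κ : ℝ) * m ≤ m * m := by gcongr
          have h5 : 2 * (m * m) ≤ m * (m * m) := by gcongr
          nlinarith)

/-- **twisted AH in coordinates**: `Ω = ℤ ^ κ`, norm `‖A x‖` -/
theorem twisted_int : ∃ C : ℕ, 1 ≤ C ∧ ∀ {m : ℝ}, 2 ≤ m → ∀ {ι κ E : Type} [Fintype ι]
    [Fintype κ] [NormedAddCommGroup E] [NormedSpace ℝ E] (A : (κ → ℝ) →ₗ[ℝ] E),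
    Function.Injective A → (Fintype.card ι : ℝ) ≤ m → (Fintype.card κ : ℝ) ≤ m →
    ∀ {L : ι → ℕ} {H₁ H₂ H₃ H₄ : Finset (ι → ℤ)} {f₁ f₂ f₃ f₄ : (ι → ℤ) → κ → ℝ}
      {Q : Finset ((ι → ℤ) × (ι → ℤ) × (ι → ℤ) × (ι → ℤ))} {B : ℝ}, 0 < B →
      TwIn (fun x => ‖A x‖) (fun ω => ∀ l, ∃ n : ℤ, ω l = n) L H₁ H₂ H₃ H₄ f₁ f₂ f₃ f₄ Q m B →
      TwOut (fun x => ‖A x‖) (fun ω => ∀ l, ∃ n : ℤ, ω l = n) L H₁ f₁ (m ^ C) B := by
  obtain ⟨C, hC1, hC⟩ := twisted_core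
  refine ⟨C, hC1, fun {m} hm ι κ E _ _ _ _ A hA hι hκ => ?_⟩
  classical
  obtain ⟨R⟩ := Lat.exists_Red A hA
  refine hC hm A _ (fun j => Lat.cast (R.b j)) R.co hι hκ R.sum_co (R.norm_b_pos hA) R.abs_co_le
    (fun ω hω j => ?_) fun n l => ⟨∑ j, n j * R.b j l, by simp⟩
  choose z hz using hω
  exact ⟨R.coZ j z, by rw [← R.co_cast]; congr 1; exact funext hz⟩

/-- **twisted AH for a lattice in a normed space** -/
theorem twisted_lat : ∃ C : ℕ, 1 ≤ C ∧ ∀ {m : ℝ}, 2 ≤ m → ∀ {ι W : Type} [Fintype ι]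
    [NormedAddCommGroup W] [NormedSpace ℝ W] [FiniteDimensional ℝ W] (Ω : Submodule ℤ W)
    [DiscreteTopology Ω] [IsZLattice ℝ Ω], (Fintype.card ι : ℝ) ≤ m →
    (Module.finrank ℝ W : ℝ) ≤ m →
    ∀ {L : ι → ℕ} {H₁ H₂ H₃ H₄ : Finset (ι → ℤ)} {f₁ f₂ f₃ f₄ : (ι → ℤ) → W}
      {Q : Finset ((ι → ℤ) × (ι → ℤ) × (ι → ℤ) × (ι → ℤ))} {B : ℝ}, 0 < B →
      TwIn (fun x => ‖x‖) (· ∈ Ω) L H₁ H₂ H₃ H₄ f₁ f₂ f₃ f₄ Q m B →
      TwOut (fun x => ‖x‖) (· ∈ Ω) L H₁ f₁ (m ^ C) B := by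
  obtain ⟨C, hC1, hC⟩ := twisted_core
  refine ⟨C, hC1, fun {m} hm ι W _ _ _ _ Ω _ _ hι hW L H₁ H₂ H₃ H₄ f₁ f₂ f₃ f₄ Q B hB h => ?_⟩
  obtain ⟨b, hb, hq⟩ := Lat.exists_red _ W Ω rfl
  have hsp : ⊤ ≤ Submodule.span ℝ (Set.range b) := by
    rw [← IsZLattice.span_top (K := ℝ) (L := Ω), ← hb, Submodule.span_span_of_tower]
  let v := basisOfTopLeSpanOfCardEqFinrank b hsp (Fintype.card_fin _)
  have hv : ∀ j, v j = b j := fun j => by simp [v]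
  have hsum : ∀ x, ∑ j, v.coord j x • b j = x := fun x => by
    simpa only [hv, Module.Basis.coord_apply] using v.sum_repr x
  refine hC hm LinearMap.id _ b v.coord hι (by simpa using hW) hsum
    (fun j => norm_pos_iff.2 (hv j ▸ v.ne_zero j)) (fun x j => ?_) (fun ω hω j => ?_)
    (fun n => ?_) hB h
  · have := hq (fun j => v.coord j x) j
    rw [hsum] at this
    simpa [Lat.cst] using this
  · rw [← hb, Submodule.mem_span_range_iff_exists_fun] at hω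
    obtain ⟨z, rfl⟩ := hω
    refine ⟨z j, ?_⟩
    simp [← hv, Finsupp.single_apply]
  · rw [← hb]
    exact Submodule.sum_mem _ fun j _ => by
      rw [Int.cast_smul_eq_zsmul]
      exact Submodule.smul_mem _ _ (Submodule.subset_span ⟨j, rfl⟩)

end Crest.Agent.T49.AH
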