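import Mathlib

/-!
# Row 49 (helper16): the Baker-Campbell-Hausdorff series, part A (formal part)

* `ev f w` : evaluation of a bracket word;
* `FB` : filtered bilinear structures with an Euler operator, `phi`, existence and uniqueness of
  the solution of `phi z = v`;
* `bch S : Lib` : the formal solution, a finite rational combination of words in two letters.
-/

set_option autoImplicit false

noncomputable section

namespace Crest.Agent.T49.Bch

open Finset
open scoped Nat

/-- evaluation of a bracket word -/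
def ev {α L : Type*} [Bracket L L] (f : α → L) : FreeMagma α → L
  | .of a => f a
  | .mul u v => ⁅ev f u, ev f v⁆

@[simp] theorem ev_of {α L : Type*} [Bracket L L] (f : α → L) (a : α) :
    ev f (FreeMagma.of a) = f a := rfl

@[simp] theorem ev_mul {α L : Type*} [Bracket L L] (f : α → L) (u v : FreeMagma α) :
    ev f (u * v) = ⁅ev f u, ev f v⁆ := rfl

theorem map_ev {α L L' : Type*} [Bracket L L] [Bracket L' L'] (g : L → L')
    (hg : ∀ a b, g ⁅a, b⁆ = ⁅g a, g b⁆) (f : α → L) (w : FreeMagma α) :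
    g (ev f w) = ev (fun a => g (f a)) w := by
  induction w using FreeMagma.recOnMul with
  | ih1 a => rfl
  | ih2 u v hu hv => rw [ev_mul, ev_mul, hg, hu, hv]

@[simp] theorem length_of {α : Type*} (a : α) : (FreeMagma.of a).length = 1 := rfl

@[simp] theorem length_mul {α : Type*} (u v : FreeMagma α) :
    (u * v).length = u.length + v.length := rfl

/-- A filtered bilinear structure with an Euler operator. -/
structure FB (A : Type*) [AddCommGroup A] [Module ℚ A] where
  br : A →ₗ[ℚ] A →ₗ[ℚ] A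
  E : A →ₗ[ℚ] A
  F : ℕ → Submodule ℚ A
  anti : ∀ i, F (i + 1) ≤ F i
  mul : ∀ {i j : ℕ} {a b : A}, a ∈ F i → b ∈ F j → br a b ∈ F (i + j)
  eul : ∀ {i : ℕ} {a : A}, a ∈ F i → E a - (i : ℚ) • a ∈ F (i + 1)

/-- `∑_{k < S} (ad z)^k (E z) / (k+1)!` -/
def phi {A : Type*} [AddCommGroup A] [Module ℚ A] (br : A →ₗ[ℚ] A →ₗ[ℚ] A) (E : A →ₗ[ℚ] A)
    (S : ℕ) (z : A) : A :=
  ∑ k ∈ range S, ((k + 1)! : ℚ)⁻¹ • (br z ^ k) (E z)

namespace FB

variable {A : Type*} [AddCommGroup A] [Module ℚ A] (B : FB A)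

theorem mono {i j : ℕ} (h : i ≤ j) : B.F j ≤ B.F i :=
  antitone_nat_of_succ_le B.anti h

theorem E_mem {i : ℕ} {a : A} (h : a ∈ B.F i) : B.E a ∈ B.F i := by
  have := add_mem (B.anti i (B.eul h)) (Submodule.smul_mem _ (i : ℚ) h)
  simpa using this

theorem pow_mem {i : ℕ} {z a : A} (hz : z ∈ B.F 1) (h : a ∈ B.F i) (k : ℕ) :
    (B.br z ^ k) a ∈ B.F (k + i) := by
  induction k with
  | zero => simpa using h
  | succ k ih =>
    rw [pow_succ', Module.End.mul_apply, show k + 1 + i = 1 + (k + i) by ring]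
    exact B.mul hz ih

theorem pow_sub_mem {n : ℕ} {z z' : A} (hz : z ∈ B.F 1) (hz' : z' ∈ B.F 1)
    (h : z' - z ∈ B.F n) (k : ℕ) :
    (B.br z' ^ k) (B.E z') - (B.br z ^ k) (B.E z) ∈ B.F (k + n) := by
  induction k with
  | zero => simpa using B.E_mem h
  | succ k ih =>
    rw [pow_succ', pow_succ', Module.End.mul_apply, Module.End.mul_apply]
    have e : B.br z' ((B.br z' ^ k) (B.E z')) - B.br z ((B.br z ^ k) (B.E z)) =
        B.br z' ((B.br z' ^ k) (B.E z') - (B.br z ^ k) (B.E z)) +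
          B.br (z' - z) ((B.br z ^ k) (B.E z)) := by
      simp only [map_sub, LinearMap.sub_apply]
      abel
    rw [e]
    refine add_mem ?_ ?_
    · rw [show k + 1 + n = 1 + (k + n) by ring]
      exact B.mul hz' ih
    · rw [show k + 1 + n = n + (k + 1) by ring]
      exact B.mul h (B.pow_mem hz (B.E_mem hz) k)

theorem phi_sub {n S : ℕ} {z z' : A} (hz : z ∈ B.F 1) (hz' : z' ∈ B.F 1)
    (h : z' - z ∈ B.F n) :
    phi B.br B.E (S + 1) z' - phi B.br B.E (S + 1) z - (n : ℚ) • (z' - z) ∈ B.F (n + 1) := by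
  unfold phi
  rw [← sum_sub_distrib, sum_range_succ', add_sub_assoc]
  refine add_mem (Submodule.sum_mem _ fun k _ => ?_) ?_
  · rw [← smul_sub]
    exact Submodule.smul_mem _ _ (B.mono (by omega) (B.pow_sub_mem hz hz' h (k + 1)))
  · simpa using B.eul h

theorem phi_zero (S : ℕ) : phi B.br B.E S 0 = 0 := by simp [phi]

theorem exists_sol (S : ℕ) {v : A} (hv : v ∈ B.F 1) (n : ℕ) :
    ∃ z ∈ B.F 1, phi B.br B.E (S + 1) z - v ∈ B.F (n + 1) := by
  induction n with
  | zero => exact ⟨0, zero_mem _, by simpa [B.phi_zero] using hv⟩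
  | succ n ih =>
    obtain ⟨z, hz, hr⟩ := ih
    set r := phi B.br B.E (S + 1) z - v with hrdef
    have hu : -(((n + 1 : ℕ) : ℚ)⁻¹ • r) ∈ B.F (n + 1) := neg_mem (Submodule.smul_mem _ _ hr)
    have hz' : z - ((n + 1 : ℕ) : ℚ)⁻¹ • r ∈ B.F 1 :=
      sub_mem hz (B.mono (by omega) (Submodule.smul_mem _ _ hr))
    refine ⟨_, hz', ?_⟩
    have := B.phi_sub (S := S) hz hz' (n := n + 1) (by simpa using hu)
    convert this using 1
    have h0 : ((n + 1 : ℕ) : ℚ) ≠ 0 := by positivity
    rw [sub_sub_cancel_left, smul_neg, smul_smul, mul_inv_cancel₀ h0, one_smul, hrdef]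
    abel

theorem uniq {S n : ℕ} {z z' : A} (hz : z ∈ B.F 1) (hz' : z' ∈ B.F 1)
    (h : phi B.br B.E (S + 1) z' - phi B.br B.E (S + 1) z ∈ B.F (n + 1)) :
    z' - z ∈ B.F (n + 1) := by
  induction n with
  | zero => exact sub_mem hz' hz
  | succ n ih =>
    have h1 := B.phi_sub (S := S) hz hz' (ih (B.anti _ h))
    have h2 := sub_mem h h1
    rw [sub_sub_cancel] at h2
    have h0 : ((n + 1 : ℕ) : ℚ) ≠ 0 := by positivity
    have := Submodule.smul_mem _ ((n + 1 : ℕ) : ℚ)⁻¹ h2
    rwa [smul_smul, inv_mul_cancel₀ h0, one_smul] at this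

end FB

/-- formal rational combinations of bracket words in two letters -/
abbrev Lib := FreeMagma Bool →₀ ℚ

namespace Lib

/-- the formal bracket -/
def br : Lib →ₗ[ℚ] Lib →ₗ[ℚ] Lib :=
  Finsupp.linearCombination ℚ fun u => Finsupp.linearCombination ℚ fun v => Finsupp.single (u * v) 1

theorem br_single (u v : FreeMagma Bool) (a b : ℚ) :
    br (Finsupp.single u a) (Finsupp.single v b) = Finsupp.single (u * v) (a * b) := by
  simp [br]

/-- the formal Euler operator -/
def E : Lib →ₗ[ℚ] Lib :=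
  Finsupp.linearCombination ℚ fun w => Finsupp.single w (w.length : ℚ)

theorem E_single (w : FreeMagma Bool) (a : ℚ) :
    E (Finsupp.single w a) = Finsupp.single w (a * w.length) := by
  simp [E]

/-- combinations of words of length at least `i` -/
def F (i : ℕ) : Submodule ℚ Lib := Finsupp.supported ℚ ℚ {w | i ≤ w.length}

theorem F_induction {i : ℕ} {p : Lib → Prop} {a : Lib} (ha : a ∈ F i)
    (hs : ∀ (w : FreeMagma Bool) (c : ℚ), i ≤ w.length → p (Finsupp.single w c)) (h0 : p 0)
    (hadd : ∀ a b, p a → p b → p (a + b)) : p a := by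
  rw [← a.sum_single, Finsupp.sum]
  exact Finset.sum_induction _ p hadd h0 fun w hw => hs w _ (ha hw)

theorem single_mem {i : ℕ} {w : FreeMagma Bool} (h : i ≤ w.length) (c : ℚ) :
    Finsupp.single w c ∈ F i := Finsupp.single_mem_supported ℚ c h

theorem mem_F_one (a : Lib) : a ∈ F 1 := fun w _ => w.length_pos

/-- the formal filtered structure -/
def fb : FB Lib where
  br := br
  E := E
  F := F
  anti _ := Finsupp.supported_mono fun _ h => Nat.le_of_succ_le h
  mul {i j a b} ha hb := by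
    refine F_induction (p := fun a => br a b ∈ F (i + j)) ha (fun u c hu => ?_) (by simp)
      fun a a' h h' => by simpa using add_mem h h'
    refine F_induction (p := fun b => br (Finsupp.single u c) b ∈ F (i + j)) hb
      (fun v d hv => ?_) (by simp) fun a a' h h' => by simpa using add_mem h h'
    rw [br_single]
    exact single_mem (by simpa using Nat.add_le_add hu hv) _
  eul {i a} ha := by
    refine F_induction (p := fun a => E a - (i : ℚ) • a ∈ F (i + 1)) ha (fun w c hw => ?_)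
      (by simp) fun a a' h h' => ?_
    · rw [E_single, Finsupp.smul_single, ← Finsupp.single_sub]
      rcases hw.eq_or_lt with h | h
      · simp [h, mul_comm]
      · exact single_mem h _
    · convert add_mem h h' using 1
      rw [map_add, smul_add]
      abel

/-- the first letter -/
def X : Lib := Finsupp.single (.of true) 1

/-- the second letter -/
def Y : Lib := Finsupp.single (.of false) 1

/-- `X + exp (ad X) Y`, truncated -/
def rhs (S : ℕ) : Lib := X + ∑ k ∈ range S, (k ! : ℚ)⁻¹ • (br X ^ k) Y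

end Lib

/-- **The BCH series** up to length `S`. -/
def bch (S : ℕ) : Lib := (Lib.fb.exists_sol S (Lib.mem_F_one (Lib.rhs (S + 1))) S).choose

theorem bch_spec (S : ℕ) :
    phi Lib.br Lib.E (S + 1) (bch S) - Lib.rhs (S + 1) ∈ Lib.F (S + 1) :=
  (Lib.fb.exists_sol S (Lib.mem_F_one (Lib.rhs (S + 1))) S).choose_spec.2

open Lib in
theorem bch_sub_mem_two {S : ℕ} (hS : 1 ≤ S) : bch S - (X + Y) ∈ F 2 := by
  refine Lib.fb.uniq (S := S) (n := 1) (mem_F_one _) (mem_F_one _) ?_
  have h1 : phi br E (S + 1) (bch S) - rhs (S + 1) ∈ F 2 := fb.mono (by omega) (bch_spec S)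
  have h2 : rhs (S + 1) - phi br E (S + 1) (X + Y) ∈ F 2 := by
    have e : E (X + Y) = X + Y := by simp [X, Y, E_single]
    rw [rhs, phi, sum_range_succ', sum_range_succ', e]
    simp only [pow_zero, Module.End.one_apply, Nat.factorial_zero, zero_add, Nat.factorial_one,
      Nat.cast_one, inv_one, one_smul]
    rw [show ∀ a b : Lib, X + (a + Y) - (b + (X + Y)) = a - b from fun a b => by abel]
    refine sub_mem (Submodule.sum_mem _ fun k _ => Submodule.smul_mem _ _ ?_)
      (Submodule.sum_mem _ fun k _ => Submodule.smul_mem _ _ ?_)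
    · exact fb.mono (by omega) (fb.pow_mem (mem_F_one _) (mem_F_one _) (k + 1))
    · exact fb.mono (by omega) (fb.pow_mem (mem_F_one _) (mem_F_one _) (k + 1))
  have h3 := add_mem h1 h2
  rw [sub_add_sub_cancel] at h3
  exact h3

open Lib in
theorem bch_sub_mem_three {S : ℕ} (hS : 2 ≤ S) :
    bch S - (X + Y + ((1 / 2 : ℚ) • br X Y - (1 / 4 : ℚ) • br (X + Y) (X + Y))) ∈ F 3 := by
  refine Lib.fb.uniq (S := S) (n := 2) (mem_F_one _) (mem_F_one _) ?_
  set u : Lib := (1 / 2 : ℚ) • br X Y - (1 / 4 : ℚ) • br (X + Y) (X + Y) with hu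
  have hu2 : u ∈ F 2 := sub_mem
    (Submodule.smul_mem _ _ (fb.mul (mem_F_one _) (mem_F_one _)))
    (Submodule.smul_mem _ _ (fb.mul (mem_F_one _) (mem_F_one _)))
  have h1 : phi br E (S + 1) (bch S) - rhs (S + 1) ∈ F 3 := fb.mono (by omega) (bch_spec S)
  have h2 : phi br E (S + 1) (X + Y + u) - phi br E (S + 1) (X + Y) -
      ((2 : ℕ) : ℚ) • (X + Y + u - (X + Y)) ∈ F 3 :=
    fb.phi_sub (S := S) (n := 2) (mem_F_one (X + Y)) (mem_F_one (X + Y + u))
      (by rw [add_sub_cancel_left]; exact hu2)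
  rw [add_sub_cancel_left, Nat.cast_ofNat] at h2
  have h3 : rhs (S + 1) - phi br E (S + 1) (X + Y) - (2 : ℚ) • u ∈ F 3 := by
    obtain ⟨S, rfl⟩ : ∃ T, S = T + 1 := ⟨S - 1, by omega⟩
    have e : E (X + Y) = X + Y := by simp [X, Y, E_single]
    rw [rhs, phi, sum_range_succ', sum_range_succ', sum_range_succ', sum_range_succ', e, hu]
    simp only [pow_zero, Module.End.one_apply, Nat.factorial_zero, zero_add, Nat.factorial_one,
      Nat.cast_one, inv_one, one_smul, pow_one]
    rw [show ∀ a b : Lib, X + (a + br X Y + Y) -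
        (b + (((1 + 1)! : ℕ) : ℚ)⁻¹ • br (X + Y) (X + Y) + (X + Y)) -
        (2 : ℚ) • ((1 / 2 : ℚ) • br X Y - (1 / 4 : ℚ) • br (X + Y) (X + Y)) = a - b from
      fun a b => by
        rw [show (((1 + 1)! : ℕ) : ℚ)⁻¹ = 1 / 2 by norm_num [Nat.factorial]]
        module]
    refine sub_mem (Submodule.sum_mem _ fun k _ => Submodule.smul_mem _ _ ?_)
      (Submodule.sum_mem _ fun k _ => Submodule.smul_mem _ _ ?_)
    · exact fb.mono (by omega) (fb.pow_mem (mem_F_one _) (mem_F_one _) (k + 1 + 1))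
    · exact fb.mono (by omega) (fb.pow_mem (mem_F_one _) (mem_F_one _) (k + 1 + 1))
  have h4 := sub_mem (add_mem h1 h3) h2
  change phi br E (S + 1) (bch S) - phi br E (S + 1) (X + Y + u) ∈ F 3
  convert h4 using 1
  abel

end Crest.Agent.T49.Bch
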