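import Crest.Agent.T49.BchDef_16

/-!
# Row 49 (helper16): BCH, part B (filtered associative algebras)

`exp x * exp y = exp (bch (x, y))` for `x`, `y` in the first step of a finite multiplicative
filtration of an associative `ℚ`-algebra.
-/

set_option autoImplicit false

noncomputable section

namespace Crest.Agent.T49.Bch

open Finset IsNilpotent Polynomial
open scoped Nat

section LieQ

variable {L : Type*} [LieRing L] [LieAlgebra ℚ L]

/-- the bracket as a bilinear map -/
def adL (L : Type*) [LieRing L] [LieAlgebra ℚ L] : L →ₗ[ℚ] L →ₗ[ℚ] L :=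
  LinearMap.mk₂ ℚ (fun x y => ⁅x, y⁆) add_lie smul_lie lie_add fun c x y => lie_smul c x y

@[simp] theorem adL_apply (x y : L) : adL L x y = ⁅x, y⁆ := rfl

/-- evaluation of a formal combination of words -/
def evL (x y : L) : Lib →ₗ[ℚ] L := Finsupp.linearCombination ℚ (ev (two x y))

theorem evL_single (x y : L) (w : FreeMagma Bool) (c : ℚ) :
    evL x y (Finsupp.single w c) = c • ev (two x y) w := by simp [evL]

@[simp] theorem evL_X (x y : L) : evL x y Lib.X = x := by simp [Lib.X, evL_single]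

@[simp] theorem evL_Y (x y : L) : evL x y Lib.Y = y := by simp [Lib.Y, evL_single]

theorem evL_br (x y : L) (p q : Lib) : evL x y (Lib.br p q) = ⁅evL x y p, evL x y q⁆ := by
  induction p using Finsupp.induction_linear with
  | zero => simp
  | add p p' h h' => simp [h, h']
  | single u a =>
    induction q using Finsupp.induction_linear with
    | zero => simp
    | add q q' h h' => simp [h, h']
    | single v b =>
      rw [Lib.br_single, evL_single, evL_single, evL_single, ev_mul, smul_lie, lie_smul, smul_smul]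

theorem evL_pow (x y : L) (p q : Lib) (k : ℕ) :
    evL x y ((Lib.br p ^ k) q) = (adL L (evL x y p) ^ k) (evL x y q) := by
  induction k with
  | zero => simp
  | succ k ih => rw [pow_succ', pow_succ', Module.End.mul_apply, Module.End.mul_apply, evL_br, ih,
      adL_apply]

theorem der_ev {α : Type*} (D : L →ₗ[ℚ] L) (hD : ∀ a b, D ⁅a, b⁆ = ⁅D a, b⁆ + ⁅a, D b⁆)
    (f : α → L) (hf : ∀ a, D (f a) = f a) (w : FreeMagma α) :
    D (ev f w) = (w.length : ℚ) • ev f w := by
  induction w using FreeMagma.recOnMul with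
  | ih1 a => simp [hf]
  | ih2 u v hu hv => simp [hD, hu, hv, add_smul]

theorem evL_E (D : L →ₗ[ℚ] L) (hD : ∀ a b, D ⁅a, b⁆ = ⁅D a, b⁆ + ⁅a, D b⁆) {x y : L}
    (hx : D x = x) (hy : D y = y) (p : Lib) : evL x y (Lib.E p) = D (evL x y p) := by
  induction p using Finsupp.induction_linear with
  | zero => simp
  | add p p' h h' => simp [h, h']
  | single u a =>
    rw [Lib.E_single, evL_single, evL_single, map_smul,
      der_ev D hD _ (fun b => by cases b; exacts [hy, hx]), smul_smul]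

theorem evL_mem (F : ℕ → Submodule ℚ L) (hanti : Antitone F)
    (hF : ∀ i j a b, a ∈ F i → b ∈ F j → ⁅a, b⁆ ∈ F (i + j)) {x y : L} (hx : x ∈ F 1)
    (hy : y ∈ F 1) {i : ℕ} {p : Lib} (hp : p ∈ Lib.F i) : evL x y p ∈ F i := by
  refine Lib.F_induction (p := fun p => evL x y p ∈ F i) hp (fun w c hw => ?_) (by simp)
    fun a b h h' => by simpa using add_mem h h'
  rw [evL_single]
  exact Submodule.smul_mem _ _ (hanti hw (ev_mem_filtration (fun i => (F i : Set L)) hF _
    (fun b => by cases b; exacts [hy, hx]) w))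

theorem map_evL {L' : Type*} [LieRing L'] [LieAlgebra ℚ L'] (g : L →+ L')
    (hg : ∀ a b, g ⁅a, b⁆ = ⁅g a, g b⁆) (x y : L) (p : Lib) :
    g (evL x y p) = evL (g x) (g y) p := by
  induction p using Finsupp.induction_linear with
  | zero => simp
  | add p p' h h' => simp [h, h']
  | single u a => rw [evL_single, evL_single, map_rat_smul, map_ev g hg, map_two]

theorem map_adL_pow {L' : Type*} [LieRing L'] [LieAlgebra ℚ L'] (g : L →+ L')
    (hg : ∀ a b, g ⁅a, b⁆ = ⁅g a, g b⁆) (x y : L) (k : ℕ) :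
    g ((adL L x ^ k) y) = (adL L' (g x) ^ k) (g y) := by
  induction k with
  | zero => simp
  | succ k ih => rw [pow_succ', pow_succ', Module.End.mul_apply, Module.End.mul_apply, adL_apply,
      adL_apply, hg, ih]

end LieQ

attribute [local instance 100] LieRing.ofAssociativeRing

variable {A : Type*} [Ring A] [Algebra ℚ A]

theorem exp_apply_eq_sum {M : Type*} [AddCommGroup M] [Module ℚ M] {T : Module.End ℚ M}
    (hT : IsNilpotent T) {m : M} {k : ℕ} (h : (T ^ k) m = 0) :
    exp T m = ∑ i ∈ range k, (i ! : ℚ)⁻¹ • (T ^ i) m :=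
  exp_smul_eq_sum (a := T) (m := m) h hT

theorem exp_conj {z : A} (hz : IsNilpotent z) {a : A} {k : ℕ} (h : (adL A z ^ k) a = 0) :
    exp z * a * exp (-z) = ∑ i ∈ range k, (i ! : ℚ)⁻¹ • (adL A z ^ i) a := by
  have hL : IsNilpotent (LinearMap.mulLeft ℚ z) := (LinearMap.isNilpotent_mulLeft_iff ℚ z).2 hz
  have hR : IsNilpotent (LinearMap.mulRight ℚ (-z)) :=
    (LinearMap.isNilpotent_mulRight_iff ℚ (-z)).2 hz.neg
  have hc : Commute (LinearMap.mulLeft ℚ z) (LinearMap.mulRight ℚ (-z)) :=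
    LinearMap.commute_mulLeft_right z (-z)
  have e : adL A z = LinearMap.mulLeft ℚ z + LinearMap.mulRight ℚ (-z) := by
    ext b
    simp [LieRing.of_associative_ring_bracket, sub_eq_add_neg]
  rw [← exp_apply_eq_sum (by rw [e]; exact hc.isNilpotent_add hL hR) h, e,
    exp_add_of_commute hc hL hR, Module.End.mul_apply]
  obtain ⟨n, hn⟩ := hz
  have hn' : (-z) ^ n = 0 := by rw [neg_pow, hn, mul_zero]
  rw [exp_apply_eq_sum hL (k := n) (by simp [LinearMap.pow_mulLeft, hn]),
    exp_apply_eq_sum hR (k := n) (by simp [LinearMap.pow_mulRight, hn']),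
    exp_eq_sum hn, exp_eq_sum hn', mul_assoc, sum_mul]
  refine sum_congr rfl fun i _ => ?_
  rw [LinearMap.pow_mulLeft, LinearMap.mulLeft_apply, smul_mul_assoc, mul_sum]
  congr 2
  refine sum_congr rfl fun j _ => ?_
  rw [LinearMap.pow_mulRight, LinearMap.mulRight_apply, mul_smul_comm]

/-- a finite multiplicative filtration of an associative algebra -/
structure Filt (A : Type*) [Ring A] [Algebra ℚ A] (S : ℕ) where
  J : ℕ → Submodule ℚ A
  anti : Antitone J
  mul : ∀ {i j : ℕ} {a b : A}, a ∈ J i → b ∈ J j → a * b ∈ J (i + j)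
  bot : ∀ {a : A}, a ∈ J (S + 1) → a = 0

namespace Filt

variable {S : ℕ} (T : Filt A S)

theorem lie {i j : ℕ} {a b : A} (ha : a ∈ T.J i) (hb : b ∈ T.J j) : ⁅a, b⁆ ∈ T.J (i + j) :=
  sub_mem (T.mul ha hb) (add_comm j i ▸ T.mul hb ha)

theorem pow_succ_mem {a : A} (ha : a ∈ T.J 1) (k : ℕ) : a ^ (k + 1) ∈ T.J (k + 1) := by
  induction k with
  | zero => simpa using ha
  | succ k ih => rw [_root_.pow_succ]; exact T.mul ih ha

theorem pow_eq_zero {a : A} (ha : a ∈ T.J 1) : a ^ (S + 1) = 0 := T.bot (T.pow_succ_mem ha S)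

theorem isNilpotent {a : A} (ha : a ∈ T.J 1) : IsNilpotent a := ⟨_, T.pow_eq_zero ha⟩

theorem ad_pow_mem {i : ℕ} {z a : A} (hz : z ∈ T.J 1) (h : a ∈ T.J i) (k : ℕ) :
    (adL A z ^ k) a ∈ T.J (k + i) := by
  induction k with
  | zero => simpa using h
  | succ k ih =>
    rw [pow_succ', Module.End.mul_apply, show k + 1 + i = 1 + (k + i) by ring]
    exact T.lie hz ih

theorem pow_sub_pow_mem {n : ℕ} {a b : A} (ha : a ∈ T.J 1) (hb : b ∈ T.J 1) (h : a - b ∈ T.J n)
    (k : ℕ) : a ^ (k + 1) - b ^ (k + 1) ∈ T.J (n + k) := by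
  induction k with
  | zero => simpa using h
  | succ k ih =>
    rw [show a ^ (k + 1 + 1) - b ^ (k + 1 + 1) =
      (a ^ (k + 1) - b ^ (k + 1)) * a + b ^ (k + 1) * (a - b) by
        rw [_root_.pow_succ a (k + 1), _root_.pow_succ b (k + 1)]; noncomm_ring]
    exact add_mem (T.mul (i := n + k) (j := 1) ih ha)
      (add_comm (k + 1) n ▸ T.mul (T.pow_succ_mem hb k) h)

theorem exp_sub_exp_mem {n : ℕ} {a b : A} (ha : a ∈ T.J 1) (hb : b ∈ T.J 1) (h : a - b ∈ T.J n) :
    exp a - exp b - (a - b) ∈ T.J (n + 1) := by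
  rw [exp_eq_sum (pow_eq_zero_of_le (Nat.le_succ _) (T.pow_eq_zero ha)),
    exp_eq_sum (pow_eq_zero_of_le (Nat.le_succ _) (T.pow_eq_zero hb)), ← sum_sub_distrib,
    sum_range_succ', sum_range_succ']
  simp only [zero_add, Nat.factorial_one, Nat.cast_one, inv_one, pow_one, one_smul, pow_zero,
    sub_self, add_zero, add_sub_cancel_right]
  refine Submodule.sum_mem _ fun k _ => ?_
  rw [← smul_sub]
  exact Submodule.smul_mem _ _ (T.anti (by omega) (T.pow_sub_pow_mem ha hb h (k + 1)))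

theorem exp_injective {a b : A} (ha : a ∈ T.J 1) (hb : b ∈ T.J 1) (h : exp a = exp b) : a = b := by
  have key : ∀ n, a - b ∈ T.J (n + 1) := by
    intro n
    induction n with
    | zero => exact sub_mem ha hb
    | succ n ih =>
      have := T.exp_sub_exp_mem ha hb ih
      rwa [h, sub_self, zero_sub, neg_mem_iff] at this
  exact sub_eq_zero.1 (T.bot (key S))

theorem exp_sub_one_mem {a : A} (ha : a ∈ T.J 1) : exp a - 1 ∈ T.J 1 := by
  have := T.exp_sub_exp_mem (n := 1) ha (zero_mem _) (by simpa using ha)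
  rw [exp_zero, sub_zero] at this
  simpa using add_mem (T.anti (by omega) this : _ ∈ T.J 1) ha

theorem mul_sub_one_mem {g h : A} (hg : g - 1 ∈ T.J 1) (hh : h - 1 ∈ T.J 1) :
    g * h - 1 ∈ T.J 1 := by
  rw [show g * h - 1 = (g - 1) * (h - 1) + (g - 1) + (h - 1) by noncomm_ring]
  exact add_mem (add_mem (T.anti (by omega) (T.mul hg hh)) hg) hh

/-- conjugation by `exp z` -/
theorem exp_conj {z a : A} (hz : z ∈ T.J 1) (ha : a ∈ T.J 1) :
    exp z * a * exp (-z) = ∑ i ∈ range S, (i ! : ℚ)⁻¹ • (adL A z ^ i) a :=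
  Bch.exp_conj (T.isNilpotent hz) (T.bot (T.ad_pow_mem hz ha S))

theorem exp_conj' {z a : A} (hz : z ∈ T.J 1) (ha : a ∈ T.J 1) :
    exp z * a * exp (-z) = ∑ i ∈ range (S + 1), (i ! : ℚ)⁻¹ • (adL A z ^ i) a :=
  Bch.exp_conj (T.isNilpotent hz) (T.bot (T.anti (by omega) (T.ad_pow_mem hz ha (S + 1))))

theorem exp_conj_exp {z a : A} (hz : z ∈ T.J 1) (ha : a ∈ T.J 1) :
    exp z * exp a * exp (-z) = exp (exp z * a * exp (-z)) := by
  have h1 := exp_mul_exp_neg_self (T.isNilpotent hz)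
  have h2 := exp_neg_mul_exp_self (T.isNilpotent hz)
  let u : Aˣ := ⟨exp z, exp (-z), h1, h2⟩
  exact map_exp (T.isNilpotent ha) (MulSemiringAction.toRingHom (ConjAct Aˣ) A (ConjAct.toConjAct u))

section Euler

variable {e : A}

theorem ad_pow_euler (z e : A) (k : ℕ) :
    (adL A z ^ (k + 1)) e = -(adL A z ^ k) (adL A e z) := by
  rw [_root_.pow_succ, Module.End.mul_apply, ← map_neg, adL_apply, adL_apply, lie_skew]

theorem exp_conj_euler {z : A} (hz : z ∈ T.J 1) (hez : ⁅e, z⁆ ∈ T.J 1) :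
    exp z * e * exp (-z) = e - phi (adL A) (adL A e) (S + 1) z := by
  rw [Bch.exp_conj (T.isNilpotent hz) (k := S + 1 + 1) (by
    rw [ad_pow_euler, neg_eq_zero]
    exact T.bot (T.anti (Nat.le_succ _) (T.ad_pow_mem hz hez (S + 1)))), sum_range_succ', phi]
  simp only [ad_pow_euler, smul_neg, sum_neg_distrib, Nat.factorial_zero, Nat.cast_one, inv_one,
    pow_zero, Module.End.one_apply, one_smul]
  abel

theorem lie_mem_of_eul (he : ∀ {i : ℕ} {a : A}, a ∈ T.J i → ⁅e, a⁆ - (i : ℚ) • a ∈ T.J (i + 1))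
    {i : ℕ} {a : A} (h : a ∈ T.J i) : ⁅e, a⁆ ∈ T.J i := by
  simpa using add_mem (T.anti (Nat.le_succ i) (he h)) (Submodule.smul_mem _ (i : ℚ) h)

theorem eq_one_of_comm (he : ∀ {i : ℕ} {a : A}, a ∈ T.J i → ⁅e, a⁆ - (i : ℚ) • a ∈ T.J (i + 1))
    {g : A} (hg : g - 1 ∈ T.J 1) (hc : g * e = e * g) : g = 1 := by
  have key : ∀ n, g - 1 ∈ T.J (n + 1) := by
    intro n
    induction n with
    | zero => exact hg
    | succ n ih =>
      have h1 := he ih
      rw [show ⁅e, g - 1⁆ = 0 by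
        rw [LieRing.of_associative_ring_bracket, mul_sub, sub_mul, hc]; simp, zero_sub,
        neg_mem_iff] at h1
      have h0 : ((n + 1 : ℕ) : ℚ) ≠ 0 := by positivity
      have := Submodule.smul_mem _ ((n + 1 : ℕ) : ℚ)⁻¹ h1
      rwa [smul_smul, inv_mul_cancel₀ h0, one_smul] at this
  exact sub_eq_zero.1 (T.bot (key S))

/-- the cocycle criterion -/
theorem exp_mul_exp_of_phi
    (he : ∀ {i : ℕ} {a : A}, a ∈ T.J i → ⁅e, a⁆ - (i : ℚ) • a ∈ T.J (i + 1))
    {a b z : A} (ha : a ∈ T.J 1) (hb : b ∈ T.J 1) (hz : z ∈ T.J 1)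
    (h : phi (adL A) (adL A e) (S + 1) z = phi (adL A) (adL A e) (S + 1) a +
      exp a * phi (adL A) (adL A e) (S + 1) b * exp (-a)) :
    exp a * exp b = exp z := by
  have h1 := T.exp_conj_euler ha (T.lie_mem_of_eul he ha)
  have h2 := T.exp_conj_euler hb (T.lie_mem_of_eul he hb)
  have h3 := T.exp_conj_euler hz (T.lie_mem_of_eul he hz)
  have a1 := exp_neg_mul_exp_self (T.isNilpotent ha)
  have b1 := exp_neg_mul_exp_self (T.isNilpotent hb)
  have z1 := exp_neg_mul_exp_self (T.isNilpotent hz)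
  have z2 := exp_mul_exp_neg_self (T.isNilpotent hz)
  have h4 : exp a * (exp b * e * exp (-b)) * exp (-a) = exp z * e * exp (-z) := by
    rw [h2, h3, h, mul_sub, sub_mul, h1]
    abel
  have h5 : exp (-z) * (exp a * exp b) = 1 := by
    refine T.eq_one_of_comm he (T.mul_sub_one_mem (T.exp_sub_one_mem (neg_mem hz))
      (T.mul_sub_one_mem (T.exp_sub_one_mem ha) (T.exp_sub_one_mem hb))) ?_
    calc exp (-z) * (exp a * exp b) * e
        = exp (-z) * (exp a * exp b) * e * (exp (-b) * (exp (-a) * exp a) * exp b) := by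
          rw [a1, mul_one, b1, mul_one]
      _ = exp (-z) * (exp a * (exp b * e * exp (-b)) * exp (-a)) * (exp a * exp b) := by
          simp only [mul_assoc]
      _ = (exp (-z) * exp z) * e * (exp (-z) * (exp a * exp b)) := by
          rw [h4]; simp only [mul_assoc]
      _ = _ := by rw [z1, one_mul]
  calc exp a * exp b = (exp z * exp (-z)) * (exp a * exp b) := by rw [z2, one_mul]
    _ = exp z := by rw [mul_assoc, h5, mul_one]

/-- the span of the eigenvectors of `ad e` -/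
def gr (e : A) : Filt A S where
  J i := Submodule.span ℚ {a | ∃ n : ℕ, i ≤ n ∧ a ∈ T.J n ∧ ⁅e, a⁆ = (n : ℚ) • a}
  anti _ _ h := Submodule.span_mono fun _ ⟨n, hn, h'⟩ => ⟨n, h.trans hn, h'⟩
  mul {i j a b} ha hb := by
    refine Submodule.span_induction₂ (p := fun a b _ _ => a * b ∈ Submodule.span ℚ
      {a | ∃ n : ℕ, i + j ≤ n ∧ a ∈ T.J n ∧ ⁅e, a⁆ = (n : ℚ) • a}) ?_ (by simp) (by simp)
      (fun _ _ _ _ _ _ h h' => by rw [add_mul]; exact add_mem h h')
      (fun _ _ _ _ _ _ h h' => by rw [mul_add]; exact add_mem h h')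
      (fun _ _ _ _ _ h => by rw [smul_mul_assoc]; exact Submodule.smul_mem _ _ h)
      (fun _ _ _ _ _ h => by rw [mul_smul_comm]; exact Submodule.smul_mem _ _ h) ha hb
    rintro a b ⟨n, hn, ha, ea⟩ ⟨m, hm, hb, eb⟩
    refine Submodule.subset_span ⟨n + m, Nat.add_le_add hn hm, T.mul ha hb, ?_⟩
    rw [show ⁅e, a * b⁆ = ⁅e, a⁆ * b + a * ⁅e, b⁆ by
      simp only [LieRing.of_associative_ring_bracket]; noncomm_ring, ea, eb, smul_mul_assoc,
      mul_smul_comm, Nat.cast_add, add_smul]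
  bot {a} ha := by
    refine (Submodule.span_eq_bot.2 ?_).le ha
    rintro a ⟨n, hn, ha, -⟩
    exact T.bot (T.anti hn ha)

theorem gr_eul (e : A) {i : ℕ} {a : A} (ha : a ∈ (T.gr e).J i) :
    ⁅e, a⁆ - (i : ℚ) • a ∈ (T.gr e).J (i + 1) := by
  refine Submodule.span_induction (p := fun a _ => ⁅e, a⁆ - (i : ℚ) • a ∈ (T.gr e).J (i + 1))
    ?_ (by simp) (fun a b _ _ h h' => ?_) (fun c a _ h => ?_) ha
  · rintro a ⟨n, hn, ha, ea⟩
    rw [ea, ← sub_smul]
    rcases hn.eq_or_lt with h | h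
    · simp [h]
    · exact Submodule.smul_mem _ _ (Submodule.subset_span ⟨n, h, ha, ea⟩)
  · convert add_mem h h' using 1
    rw [lie_add, smul_add]
    abel
  · convert Submodule.smul_mem _ c h using 1
    rw [lie_smul, smul_sub, smul_comm]

theorem mem_gr_one {x : A} (hx : x ∈ T.J 1) (ex : ⁅e, x⁆ = x) : x ∈ (T.gr e).J 1 :=
  Submodule.subset_span ⟨1, le_rfl, hx, by simpa using ex⟩

theorem phi_of_lie_eq_zero {z : A} (h : ⁅z, ⁅e, z⁆⁆ = 0) :
    phi (adL A) (adL A e) (S + 1) z = ⁅e, z⁆ := by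
  rw [phi, sum_range_succ']
  simp [_root_.pow_succ, h]

/-- BCH for homogeneous elements of degree one -/
theorem exp_mul_exp_hom {x y : A} (hx : x ∈ T.J 1) (hy : y ∈ T.J 1) (ex : ⁅e, x⁆ = x)
    (ey : ⁅e, y⁆ = y) : exp x * exp y = exp (evL x y (bch S)) := by
  have hx' := T.mem_gr_one hx ex
  have hy' := T.mem_gr_one hy ey
  have hF : ∀ i j a b, a ∈ (T.gr e).J i → b ∈ (T.gr e).J j → ⁅a, b⁆ ∈ (T.gr e).J (i + j) :=
    fun _ _ _ _ => (T.gr e).lie
  refine (T.gr e).exp_mul_exp_of_phi (T.gr_eul e) hx' hy'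
    (evL_mem _ (T.gr e).anti hF hx' hy' (Lib.mem_F_one _)) ?_
  have h0 := (T.gr e).bot (evL_mem _ (T.gr e).anti hF hx' hy' (bch_spec S))
  rw [map_sub, sub_eq_zero] at h0
  rw [phi_of_lie_eq_zero (z := x) (by simp [ex]), phi_of_lie_eq_zero (z := y) (by simp [ey]),
    ex, ey, T.exp_conj' hx hy]
  have hD : ∀ a b : A, adL A e ⁅a, b⁆ = ⁅adL A e a, b⁆ + ⁅a, adL A e b⁆ := fun a b =>
    leibniz_lie e a b
  simpa only [phi, Lib.rhs, map_sum, map_smul, map_add, evL_pow, evL_X, evL_Y,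
    evL_E (adL A e) hD ex ey] using h0

/-- the first-order formula for homogeneous elements of degree one -/
theorem exp_first_order {x u : A} (hx : x ∈ T.J 1) (hu : u ∈ T.J 1) (ex : ⁅e, x⁆ = x)
    (eu : ⁅e, u⁆ = u) (hc : ∀ k l, ⁅(adL A x ^ k) u, (adL A x ^ l) u⁆ = 0) :
    exp (∑ k ∈ range S, ((k + 1)! : ℚ)⁻¹ • (adL A x ^ k) u) * exp x = exp (x + u) := by
  have hx' := T.mem_gr_one hx ex
  have hu' := T.mem_gr_one hu eu
  set v := ∑ k ∈ range S, ((k + 1)! : ℚ)⁻¹ • (adL A x ^ k) u with hv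
  have hv' : v ∈ (T.gr e).J 1 := Submodule.sum_mem _ fun k _ => Submodule.smul_mem _ _
    ((T.gr e).anti (by omega) ((T.gr e).ad_pow_mem hx' hu' k))
  have ek : ∀ k : ℕ, ⁅e, (adL A x ^ k) u⁆ = ((k + 1 : ℕ) : ℚ) • (adL A x ^ k) u := by
    intro k
    induction k with
    | zero => simpa using eu
    | succ k ih =>
      rw [pow_succ', Module.End.mul_apply, adL_apply, leibniz_lie, ex, ih, lie_smul,
        Nat.cast_succ (k + 1), add_smul, one_smul, add_comm]
  have hvk : ∀ l, ⁅v, (adL A x ^ l) u⁆ = 0 := fun l => by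
    simp only [hv, sum_lie, smul_lie, hc, smul_zero, sum_const_zero]
  have ev' : ⁅e, v⁆ = ∑ k ∈ range S, (k ! : ℚ)⁻¹ • (adL A x ^ k) u := by
    rw [hv, lie_sum]
    refine sum_congr rfl fun k _ => ?_
    rw [lie_smul, ek, smul_smul, Nat.factorial_succ, Nat.cast_mul, mul_inv, mul_right_comm,
      inv_mul_cancel₀ (by positivity), one_mul]
  have xv : ⁅x, v⁆ = ∑ k ∈ range S, ((k + 1)! : ℚ)⁻¹ • (adL A x ^ (k + 1)) u := by
    rw [hv, lie_sum]
    refine sum_congr rfl fun k _ => ?_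
    rw [lie_smul, pow_succ', Module.End.mul_apply, adL_apply]
  refine (T.gr e).exp_mul_exp_of_phi (T.gr_eul e) hv' hx' (add_mem hx' hu') ?_
  have exu : ⁅e, x + u⁆ = x + u := by rw [lie_add, ex, eu]
  rw [phi_of_lie_eq_zero (z := x) (by simp [ex]), phi_of_lie_eq_zero (z := x + u) (by simp [exu]),
    phi_of_lie_eq_zero (z := v) (by
      simp only [ev', lie_sum, lie_smul, hvk, smul_zero, sum_const_zero]), ex, exu,
    Bch.exp_conj ((T.gr e).isNilpotent hv') (k := 2) (by
      rw [pow_two, Module.End.mul_apply, adL_apply, adL_apply, ← lie_skew v x, xv]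
      simp only [lie_neg, lie_sum, lie_smul, hvk, smul_zero, sum_const_zero, neg_zero])]
  have h2 := sum_range_succ' (fun k => (k ! : ℚ)⁻¹ • (adL A x ^ k) u) S
  rw [sum_range_succ, T.bot (T.ad_pow_mem hx hu S), smul_zero, add_zero, ← ev', ← xv] at h2
  rw [h2, sum_range_succ, sum_range_one, pow_one, adL_apply, ← lie_skew v x]
  simp only [Nat.factorial_zero, Nat.factorial_one, Nat.cast_one, inv_one, pow_zero,
    Module.End.one_apply, one_smul]
  abel

end Euler

/-- the filtration of `End (A[X])` by left multiplications -/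
def poly : Filt (Module.End ℚ A[X]) S where
  J i := (⨅ m : ℕ, (T.J i).comap ((lcoeff A m).restrictScalars ℚ)).map
    (Algebra.lmul ℚ A[X]).toLinearMap
  anti _ _ h := Submodule.map_mono (iInf_mono fun _ => Submodule.comap_mono (T.anti h))
  mul := by
    rintro i j _ _ ⟨p, hp, rfl⟩ ⟨q, hq, rfl⟩
    refine ⟨p * q, ?_, map_mul (Algebra.lmul ℚ A[X]) p q⟩
    simp only [SetLike.mem_coe, Submodule.mem_iInf, Submodule.mem_comap,
      LinearMap.restrictScalars_apply, lcoeff_apply] at hp hq ⊢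
    intro m
    rw [coeff_mul]
    exact Submodule.sum_mem _ fun c _ => T.mul (hp _) (hq _)
  bot := by
    rintro _ ⟨p, hp, rfl⟩
    simp only [SetLike.mem_coe, Submodule.mem_iInf, Submodule.mem_comap,
      LinearMap.restrictScalars_apply, lcoeff_apply] at hp
    rw [show p = 0 from Polynomial.ext fun m => T.bot (hp m), map_zero]

theorem mem_poly {x : A} (hx : x ∈ T.J 1) :
    Algebra.lmul ℚ A[X] (monomial 1 x) ∈ T.poly.J 1 := by
  refine ⟨monomial 1 x, ?_, rfl⟩
  simp only [SetLike.mem_coe, Submodule.mem_iInf, Submodule.mem_comap,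
    LinearMap.restrictScalars_apply, lcoeff_apply, coeff_monomial]
  intro m
  split_ifs
  exacts [hx, zero_mem _]

/-- **BCH in a filtered associative algebra.** -/
theorem exp_mul_exp {x y : A} (hx : x ∈ T.J 1) (hy : y ∈ T.J 1) :
    exp x * exp y = exp (evL x y (bch S)) := by
  let Φ := Algebra.lmul ℚ A[X]
  have hΦ : Function.Injective Φ := Algebra.lmul_injective
  let e : Module.End ℚ A[X] := Φ X * (derivative (R := A)).restrictScalars ℚ
  have he : ∀ x : A, ⁅e, Φ (monomial 1 x)⁆ = Φ (monomial 1 x) := by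
    intro x
    refine LinearMap.ext fun p => ?_
    simp only [e, Φ, LieRing.of_associative_ring_bracket, LinearMap.sub_apply,
      Module.End.mul_apply, Algebra.coe_lmul_eq_mul, LinearMap.mul_apply',
      LinearMap.restrictScalars_apply, derivative_mul, ← C_mul_X_eq_monomial, derivative_C,
      derivative_X, zero_mul, zero_add, mul_one, mul_add]
    rw [← mul_assoc, ← mul_assoc, ← mul_assoc, ← mul_assoc, X_mul_C, add_sub_cancel_right]
  have h := T.poly.exp_mul_exp_hom (T.mem_poly hx) (T.mem_poly hy) (he x) (he y)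
  have nil : ∀ p : A[X], Φ p ∈ T.poly.J 1 → IsNilpotent p := fun p hp =>
    ⟨S + 1, hΦ (by rw [map_pow, T.poly.pow_eq_zero hp, map_zero])⟩
  have hm := map_evL (Φ : A[X] →+* Module.End ℚ A[X]).toAddMonoidHom
    (fun a b => by simp [LieRing.of_associative_ring_bracket]) (monomial 1 x) (monomial 1 y)
    (bch S)
  have hm' : Φ (evL (monomial 1 x) (monomial 1 y) (bch S)) =
      evL (Φ (monomial 1 x)) (Φ (monomial 1 y)) (bch S) := hm
  have n3 : IsNilpotent (evL (monomial 1 x) (monomial 1 y) (bch S)) := nil _ (by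
    rw [hm']
    exact evL_mem _ T.poly.anti (fun _ _ _ _ => T.poly.lie) (T.mem_poly hx) (T.mem_poly hy)
      (Lib.mem_F_one _))
  rw [← hm', ← map_exp (nil _ (T.mem_poly hx)) Φ, ← map_exp (nil _ (T.mem_poly hy)) Φ,
    ← map_exp n3 Φ, ← map_mul] at h
  let π : A[X] →+* A := eval₂RingHom' (RingHom.id A) 1 fun a => Commute.one_right a
  have hπ : ∀ a : A, π (monomial 1 a) = a := fun a => by
    simp [π, eval₂RingHom']
  have h' := congrArg π (hΦ h)
  have hm2 : π (evL (monomial 1 x) (monomial 1 y) (bch S)) =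
      evL (π (monomial 1 x)) (π (monomial 1 y)) (bch S) := map_evL π.toAddMonoidHom
    (fun a b => by simp [LieRing.of_associative_ring_bracket]) (monomial 1 x) (monomial 1 y)
    (bch S)
  rwa [map_mul, map_exp (nil _ (T.mem_poly hx)), map_exp (nil _ (T.mem_poly hy)), map_exp n3, hm2,
    hπ, hπ] at h'

end Filt

end Crest.Agent.T49.Bch
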