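import Crest.Agent.T49.BchB_16

/-!
# Row 49 (helper16): BCH, part C (the graded cover `ℚ[X] ⊗ L` and its nilpotent representation)

Associativity, conjugation formula and first-order formula for `evL x y (bch s)` in a rational Lie
algebra of class `≤ s`.
-/

set_option autoImplicit false

noncomputable section

namespace Crest.Agent.T49.Bch

open Finset IsNilpotent Polynomial
open scoped Nat TensorProduct

attribute [local instance 100] LieRing.ofAssociativeRing

/-- the filtration of `End M` defined by a finite filtration of `M` -/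
def Filt.ofMod {M : Type*} [AddCommGroup M] [Module ℚ M] {S : ℕ} (V : ℕ → Submodule ℚ M)
    (anti : Antitone V) (h0 : ∀ v, v ∈ V 0) (hS : ∀ v ∈ V (S + 1), v = 0) :
    Filt (Module.End ℚ M) S where
  J i :=
    { carrier := {f | ∀ k, ∀ v ∈ V k, f v ∈ V (k + i)}
      add_mem' := fun ha hb k v hv => add_mem (ha k v hv) (hb k v hv)
      zero_mem' := fun _ _ _ => zero_mem _
      smul_mem' := fun c _ ha k v hv => Submodule.smul_mem _ c (ha k v hv) }
  anti _ _ h _ hf k v hv := anti (Nat.add_le_add_left h k) (hf k v hv)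
  mul {i j a b} ha hb k v hv := by
    rw [show k + (i + j) = k + j + i by ring]
    exact ha _ _ (hb k v hv)
  bot {a} ha := LinearMap.ext fun v => hS _ (by simpa using ha 0 v (h0 v))

namespace Cover

/-- `X d/dX` -/
def eul : ℚ[X] →ₗ[ℚ] ℚ[X] := LinearMap.mulLeft ℚ X ∘ₗ derivative

theorem eul_apply (p : ℚ[X]) : eul p = X * derivative p := rfl

theorem eul_mul (p q : ℚ[X]) : eul (p * q) = eul p * q + p * eul q := by
  simp only [eul_apply, derivative_mul]; ring

/-- `X^n ↦ 1/n` -/
def inv : ℚ[X] →ₗ[ℚ] ℚ := Polynomial.lsum fun n : ℕ => LinearMap.mulLeft ℚ (n : ℚ)⁻¹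

theorem inv_monomial (n : ℕ) (a : ℚ) : inv (monomial n a) = (n : ℚ)⁻¹ * a := by
  simp [inv, lsum_apply, sum_monomial_index]

theorem inv_eul (p : ℚ[X]) : inv (eul p) = p.eval 1 - p.eval 0 := by
  induction p using Polynomial.induction_on' with
  | add p q hp hq => rw [map_add, map_add, hp, hq, eval_add, eval_add]; ring
  | monomial n a =>
    rw [eul_apply, derivative_monomial]
    rcases n with _ | n
    · simp
    · rw [X_mul_monomial, inv_monomial]
      simp only [Nat.add_sub_cancel, eval_monomial, one_pow, mul_one, ne_eq, Nat.add_eq_zero_iff,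
        one_ne_zero, and_false, not_false_eq_true, zero_pow, mul_zero, sub_zero]
      have : ((n + 1 : ℕ) : ℚ) ≠ 0 := by positivity
      field_simp

variable (L : Type*) [LieRing L] [LieAlgebra ℚ L]

/-- the cover -/
def K : Type _ := ℚ[X] ⊗[ℚ] L

instance : LieRing (K L) := inferInstanceAs (LieRing (ℚ[X] ⊗[ℚ] L))

instance : LieAlgebra ℚ (K L) := inferInstanceAs (LieAlgebra ℚ (ℚ[X] ⊗[ℚ] L))

/-- the Euler derivation -/
def E : K L →ₗ[ℚ] K L := (eul.rTensor L : ℚ[X] ⊗[ℚ] L →ₗ[ℚ] ℚ[X] ⊗[ℚ] L)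

/-- contraction with a linear form -/
def con (l : ℚ[X] →ₗ[ℚ] ℚ) : K L →ₗ[ℚ] L :=
  ((TensorProduct.lid ℚ L).toLinearMap ∘ₗ l.rTensor L : ℚ[X] ⊗[ℚ] L →ₗ[ℚ] L)

/-- evaluation at `c` -/
def at' (c : ℚ) : K L →ₗ[ℚ] L := con L (leval c)

variable {L}

/-- pure tensors -/
def tm (p : ℚ[X]) (x : L) : K L := p ⊗ₜ[ℚ] x

theorem K.induction {P : K L → Prop} (a : K L) (zero : P 0) (tmul : ∀ p x, P (tm p x))
    (add : ∀ a b, P a → P b → P (a + b)) : P a :=
  TensorProduct.induction_on (motive := P) a zero tmul add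

theorem tm_lie (p q : ℚ[X]) (x y : L) : ⁅tm p x, tm q y⁆ = tm (p * q) ⁅x, y⁆ := rfl

theorem add_tm (p q : ℚ[X]) (x : L) : tm (p + q) x = tm p x + tm q x :=
  TensorProduct.add_tmul p q x

theorem tm_zero (p : ℚ[X]) : tm p (0 : L) = 0 := TensorProduct.tmul_zero L p

theorem E_tmul (p : ℚ[X]) (x : L) : E L (tm p x) = tm (eul p) x := rfl

theorem con_tmul (l : ℚ[X] →ₗ[ℚ] ℚ) (p : ℚ[X]) (x : L) : con L l (tm p x) = l p • x := rfl

theorem at_tmul (c : ℚ) (p : ℚ[X]) (x : L) : at' L c (tm p x) = p.eval c • x := by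
  simp [at', con_tmul]

theorem E_lie (a b : K L) : E L ⁅a, b⁆ = ⁅E L a, b⁆ + ⁅a, E L b⁆ := by
  induction a using K.induction with
  | zero => simp
  | add a a' h h' => simp only [add_lie, map_add, h, h']; abel
  | tmul p x =>
    induction b using K.induction with
    | zero => simp
    | add b b' h h' => simp only [lie_add, map_add, h, h']; abel
    | tmul q y =>
      simp only [tm_lie, E_tmul, eul_mul, add_tm]

theorem at_lie (c : ℚ) (a b : K L) : at' L c ⁅a, b⁆ = ⁅at' L c a, at' L c b⁆ := by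
  induction a using K.induction with
  | zero => simp
  | add a a' h h' => simp only [add_lie, map_add, h, h']
  | tmul p x =>
    induction b using K.induction with
    | zero => simp
    | add b b' h h' => simp only [lie_add, map_add, h, h']
    | tmul q y =>
      simp only [tm_lie, at_tmul, eval_mul, smul_lie, lie_smul,
        smul_smul, mul_comm]

theorem con_inv_E (a : K L) : con L inv (E L a) = at' L 1 a - at' L 0 a := by
  induction a using K.induction with
  | zero => simp
  | add a a' h h' => simp only [map_add, h, h']; abel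
  | tmul p x => rw [E_tmul, con_tmul, inv_eul, at_tmul, at_tmul, sub_smul]

/-- the section `x ↦ X ⊗ x` -/
def j (x : L) : K L := tm X x

@[simp] theorem at_one_j (x : L) : at' L 1 (j x) = x := by simp [j, at_tmul]

@[simp] theorem at_zero_j (x : L) : at' L 0 (j x) = 0 := by simp [j, at_tmul]

theorem E_j (x : L) : E L (j x) = j x := by simp [j, E_tmul, eul_apply]

theorem ad_pow_j (x u : L) (k : ℕ) :
    (adL (K L) (j x) ^ k) (j u) = tm (X ^ (k + 1)) ((adL L x ^ k) u) := by
  induction k with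
  | zero => simp [j]
  | succ k ih =>
    rw [pow_succ', Module.End.mul_apply, ih, adL_apply, j, tm_lie,
      pow_succ' (adL L x), Module.End.mul_apply, adL_apply, pow_succ' X (k + 1)]

variable (L)

/-- the lower central filtration of the cover -/
def F (i : ℕ) : Submodule ℚ (K L) :=
  Submodule.span ℚ {a | ∃ (p : ℚ[X]) (w : FreeMagma L), i ≤ w.length ∧ a = tm p (ev id w)}

/-- the representation -/
def rho : K L →ₗ[ℚ] Module.End ℚ (K L × ℚ) :=
  LinearMap.mk₂ ℚ (fun a v => (⁅a, v.1⁆ - v.2 • E L a, 0))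
    (fun a b v => by ext <;> simp [add_lie]; abel)
    (fun c a v => by ext <;> simp [smul_sub, smul_comm c])
    (fun a v w => by ext <;> simp [lie_add, add_smul]; abel)
    (fun c a v => by ext <;> simp [smul_sub, mul_smul])

/-- the Euler operator in the representation -/
def eul' : Module.End ℚ (K L × ℚ) := (E L).prodMap 0

/-- the filtration of the representation space -/
def V : ℕ → Submodule ℚ (K L × ℚ)
  | 0 => ⊤
  | k + 1 => (F L (k + 1)).prod ⊥

variable {L}

theorem rho_apply (a : K L) (v : K L × ℚ) : rho L a v = (⁅a, v.1⁆ - v.2 • E L a, 0) := rfl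

theorem F_anti : Antitone (F L) :=
  fun _ _ h => Submodule.span_mono fun _ ⟨p, w, hw, e⟩ => ⟨p, w, h.trans hw, e⟩

theorem mem_F_one (a : K L) : a ∈ F L 1 := by
  induction a using K.induction with
  | zero => exact zero_mem _
  | add a a' h h' => exact add_mem h h'
  | tmul p x => exact Submodule.subset_span ⟨p, .of x, le_rfl, rfl⟩

theorem lie_mem_F {i k : ℕ} {a b : K L} (ha : a ∈ F L i) (hb : b ∈ F L k) :
    ⁅a, b⁆ ∈ F L (i + k) := by
  refine Submodule.span_induction₂ (p := fun a b _ _ => ⁅a, b⁆ ∈ F L (i + k)) ?_ (by simp) (by simp)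
    (fun _ _ _ _ _ _ h h' => by rw [add_lie]; exact add_mem h h')
    (fun _ _ _ _ _ _ h h' => by rw [lie_add]; exact add_mem h h')
    (fun _ _ _ _ _ h => by rw [smul_lie]; exact Submodule.smul_mem _ _ h)
    (fun _ _ _ _ _ h => by rw [lie_smul]; exact Submodule.smul_mem _ _ h) ha hb
  rintro _ _ ⟨p, u, hu, rfl⟩ ⟨q, v, hv, rfl⟩
  exact Submodule.subset_span ⟨p * q, u * v, Nat.add_le_add hu hv, rfl⟩

theorem F_eq_zero {s : ℕ} [Nil s L] {a : K L} (ha : a ∈ F L (s + 1)) : a = 0 := by
  refine (Submodule.span_eq_bot.2 ?_).le ha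
  rintro _ ⟨p, w, hw, rfl⟩
  rw [Nil.out (s := s) w hw, tm_zero]

theorem V_anti : Antitone (V L) := by
  refine antitone_nat_of_succ_le fun k => ?_
  rcases k with _ | k
  · exact le_top
  · exact Submodule.prod_mono (F_anti (Nat.le_succ _)) le_rfl

variable (L) in
/-- the filtration of the endomorphism algebra -/
def T (s : ℕ) [Nil s L] : Filt (Module.End ℚ (K L × ℚ)) s :=
  Filt.ofMod (V L) V_anti (fun _ => Submodule.mem_top)
    fun _ hv => Prod.ext (F_eq_zero hv.1) hv.2

theorem rho_mem (s : ℕ) [Nil s L] (a : K L) : rho L a ∈ (T L s).J 1 := by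
  intro k v hv
  rcases k with _ | k
  · exact ⟨mem_F_one _, rfl⟩
  · refine ⟨?_, rfl⟩
    have h2 : v.2 = 0 := hv.2
    rw [rho_apply, h2, zero_smul, sub_zero, add_comm (k + 1) 1]
    exact lie_mem_F (mem_F_one a) hv.1

theorem rho_lie (a b : K L) : rho L ⁅a, b⁆ = rho L a * rho L b - rho L b * rho L a := by
  refine LinearMap.ext fun v => Prod.ext ?_ (by simp [rho_apply])
  simp only [rho_apply, LinearMap.sub_apply, Module.End.mul_apply, Prod.fst_sub, zero_smul,
    sub_zero, lie_sub, lie_smul, E_lie, lie_lie, smul_add]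
  rw [← lie_skew (E L a) b, smul_neg]
  abel

theorem eul'_rho (a : K L) : eul' L * rho L a - rho L a * eul' L = rho L (E L a) := by
  refine LinearMap.ext fun v => Prod.ext ?_ (by simp [rho_apply, eul'])
  simp only [rho_apply, eul', LinearMap.sub_apply, Module.End.mul_apply, Prod.fst_sub,
    LinearMap.prodMap_apply, map_sub, map_smul, E_lie, LinearMap.zero_apply, zero_smul, sub_zero]
  abel

theorem eq_of_rho {a b : K L} (h : rho L a = rho L b) (h0 : at' L 0 a = at' L 0 b) :
    at' L 1 a = at' L 1 b := by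
  have h1 : E L a = E L b := by
    simpa [rho_apply] using congrArg (fun f : Module.End ℚ (K L × ℚ) => (f (0, 1)).1) h
  have h2 := con_inv_E a
  rw [h1, con_inv_E, h0] at h2
  exact (sub_left_inj.1 h2).symm

theorem rho_evL (a b : K L) (p : Lib) : rho L (evL a b p) = evL (rho L a) (rho L b) p :=
  map_evL (rho L).toAddMonoidHom rho_lie a b p

theorem rho_ad_pow (a b : K L) (k : ℕ) :
    rho L ((adL _ a ^ k) b) = (adL _ (rho L a) ^ k) (rho L b) :=
  map_adL_pow (rho L).toAddMonoidHom rho_lie a b k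

theorem at_evL (c : ℚ) (a b : K L) (p : Lib) :
    at' L c (evL a b p) = evL (at' L c a) (at' L c b) p :=
  map_evL (at' L c).toAddMonoidHom (at_lie c) a b p

theorem at_ad_pow (c : ℚ) (a b : K L) (k : ℕ) :
    at' L c ((adL _ a ^ k) b) = (adL _ (at' L c a) ^ k) (at' L c b) :=
  map_adL_pow (at' L c).toAddMonoidHom (at_lie c) a b k

theorem exp_rho_evL (s : ℕ) [Nil s L] (a b : K L) :
    exp (rho L (evL a b (bch s))) = exp (rho L a) * exp (rho L b) := by
  rw [rho_evL, (T L s).exp_mul_exp (rho_mem s a) (rho_mem s b)]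

theorem eq_of_exp (s : ℕ) [Nil s L] {a b : K L} (h : exp (rho L a) = exp (rho L b))
    (h0 : at' L 0 a = at' L 0 b) : at' L 1 a = at' L 1 b :=
  eq_of_rho ((T L s).exp_injective (rho_mem s a) (rho_mem s b) h) h0

end Cover

open Cover

variable {L : Type*} [LieRing L] [LieAlgebra ℚ L]

theorem evL_zero_zero (p : Lib) : evL (0 : L) 0 p = 0 := by
  have := map_evL (0 : L →+ L) (by simp) 0 0 p
  simpa using this.symm

theorem evL_assoc (s : ℕ) [Nil s L] (x y z : L) :
    evL (evL x y (bch s)) z (bch s) = evL x (evL y z (bch s)) (bch s) := by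
  have := eq_of_exp s (a := evL (evL (j x) (j y) (bch s)) (j z) (bch s))
    (b := evL (j x) (evL (j y) (j z) (bch s)) (bch s))
    (by simp only [exp_rho_evL, mul_assoc]) (by simp only [at_evL, at_zero_j, evL_zero_zero])
  simpa only [at_evL, at_one_j] using this

theorem evL_conj (s : ℕ) [Nil s L] (x y : L) :
    evL (evL x y (bch s)) (-x) (bch s) = ∑ i ∈ range s, (i ! : ℚ)⁻¹ • (adL L x ^ i) y := by
  have := eq_of_exp s (a := evL (evL (j x) (j y) (bch s)) (-j x) (bch s))
    (b := ∑ i ∈ range s, (i ! : ℚ)⁻¹ • (adL _ (j x) ^ i) (j y))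
    (by
      simp only [exp_rho_evL, map_neg, map_sum, map_smul, rho_ad_pow]
      rw [(T L s).exp_conj_exp (rho_mem s _) (rho_mem s _),
        (T L s).exp_conj (rho_mem s _) (rho_mem s _)])
    (by simp only [at_evL, at_zero_j, evL_zero_zero, map_neg, neg_zero, map_sum, map_smul,
      at_ad_pow, map_zero, smul_zero, sum_const_zero])
  simpa only [at_evL, at_one_j, map_neg, map_sum, map_smul, at_ad_pow] using this

theorem evL_first_order (s : ℕ) [Nil s L] (x u : L)
    (hc : ∀ k l, ⁅(adL L x ^ k) u, (adL L x ^ l) u⁆ = 0) :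
    evL (∑ k ∈ range s, ((k + 1)! : ℚ)⁻¹ • (adL L x ^ k) u) x (bch s) = x + u := by
  have he : ∀ y : L, ⁅eul' L, rho L (j y)⁆ = rho L (j y) := fun y => by
    have := eul'_rho (j y)
    rwa [E_j] at this
  have := eq_of_exp s
    (a := evL (∑ k ∈ range s, ((k + 1)! : ℚ)⁻¹ • (adL _ (j x) ^ k) (j u)) (j x) (bch s))
    (b := j x + j u)
    (by
      simp only [exp_rho_evL, map_add, map_sum, map_smul, rho_ad_pow]
      refine (T L s).exp_first_order (rho_mem s _) (rho_mem s _) (he x) (he u) fun k l => ?_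
      rw [← rho_ad_pow, ← rho_ad_pow]
      refine (rho_lie _ _).symm.trans ?_
      rw [ad_pow_j, ad_pow_j, tm_lie, hc, tm_zero, map_zero])
    (by simp only [at_evL, at_zero_j, evL_zero_zero, map_add, add_zero, map_sum, map_smul,
      at_ad_pow, map_zero, smul_zero, sum_const_zero])
  simpa only [at_evL, at_one_j, map_add, map_sum, map_smul, at_ad_pow] using this

end Crest.Agent.T49.Bch
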