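import Crest.Agent.T49.TwPoly_91

/-!
# Row 49: algebra of the bundle lemma (helper52)
-/

set_option autoImplicit false

open MvPolynomial

namespace Crest.Agent.T49.Tw

section gen
variable {ι κ : Type}

theorem hom_coord52 {I : Type} {w : ι → I → ℕ} {f : Pl ι} {d : I → ℕ}
    (h : IsWeightedHomogeneous w f d) (i : I) :
    IsWeightedHomogeneous (fun c => w c i) f (d i) := by
  intro m hm
  rw [← h hm]
  simp [Finsupp.weight_apply, Finsupp.sum, Finset.sum_apply]

theorem hom_of_coord52 {I : Type} {w : ι → I → ℕ} {f : Pl ι} {d : I → ℕ}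
    (h : ∀ i, IsWeightedHomogeneous (fun c => w c i) f (d i)) : IsWeightedHomogeneous w f d := by
  intro m hm
  funext i
  rw [← h i hm]
  simp [Finsupp.weight_apply, Finsupp.sum, Finset.sum_apply]

theorem mem_supported_of_hom_zero52 {w : ι → ℕ} {f : Pl ι} (h : IsWeightedHomogeneous w f 0) :
    f ∈ supported ℝ {c | w c = 0} := by
  rw [mem_supported]
  intro c hc
  obtain ⟨m, hm, hcm⟩ := (mem_vars c).1 hc
  have h1 := weight_pos_le w m hcm
  rw [h (mem_support_iff.1 hm)] at h1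
  exact Nat.le_zero.1 h1

/-- substitution treating the variables of weight zero and the others separately -/
noncomputable def sg (w : ι → ℕ) (bs u : ι → Pl κ) : Pl ι →ₐ[ℝ] Pl κ :=
  bind₁ fun c => if w c = 0 then bs c else u c

theorem sg_zero {w : ι → ℕ} (bs u u' : ι → Pl κ) {f : Pl ι} (h : IsWeightedHomogeneous w f 0) :
    sg w bs u f = sg w bs u' f :=
  bind_congr_supp (fun c hc => by simp [show w c = 0 from hc]) (mem_supported_of_hom_zero52 h)

/-- a polynomial of weight one is linear in the variables of positive weight -/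
theorem sg_lin {w : ι → ℕ} (bs : ι → Pl κ) {J : Type} (s : Finset J) (a : J → Pl κ)
    (u : J → ι → Pl κ) {f : Pl ι} (h : IsWeightedHomogeneous w f 1) :
    sg w bs (fun c => ∑ j ∈ s, a j * u j c) f = ∑ j ∈ s, a j * sg w bs (u j) f := by
  classical
  rw [f.as_sum]
  simp only [map_sum, Finset.mul_sum]
  rw [Finset.sum_comm]
  refine Finset.sum_congr rfl fun m hm => ?_
  have hw : Finsupp.weight w m = 1 := h (mem_support_iff.1 hm)
  obtain ⟨c, hc, hwc⟩ : ∃ c ∈ m.support, w c ≠ 0 := by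
    by_contra hcon
    push Not at hcon
    rw [Finsupp.weight_apply, Finsupp.sum, Finset.sum_eq_zero fun c hc => by simp [hcon c hc]] at hw
    exact zero_ne_one hw
  have hle : Finsupp.single c 1 ≤ m := by
    rw [Finsupp.single_le_iff]
    exact Nat.one_le_iff_ne_zero.2 (Finsupp.mem_support_iff.1 hc)
  obtain ⟨m', rfl⟩ := exists_add_of_le hle
  have hw' : Finsupp.weight w m' = 0 := by
    rw [map_add, Finsupp.weight_apply, Finsupp.sum_single_index (by simp)] at hw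
    simp only [one_smul] at hw
    omega
  have hm' : ∀ r : ℝ, IsWeightedHomogeneous w (monomial m' r : Pl ι) 0 := fun r =>
    isWeightedHomogeneous_monomial _ _ _ hw'
  have e : ∀ r : ℝ, (monomial (Finsupp.single c 1 + m') r : Pl ι) = X c * monomial m' r := by
    intro r
    rw [X, monomial_mul, one_mul]
  rw [e, map_mul]
  have e1 : sg w bs (fun c => ∑ j ∈ s, a j * u j c) (X c) = ∑ j ∈ s, a j * u j c := by
    simp [sg, hwc]
  rw [e1, Finset.sum_mul]
  refine Finset.sum_congr rfl fun j _ => ?_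
  rw [map_mul, sg_zero bs _ (u j) (hm' _)]
  have e2 : sg w bs (u j) (X c) = u j c := by simp [sg, hwc]
  rw [e2, mul_assoc]

theorem sg_add {w : ι → ℕ} (bs u u' : ι → Pl κ) {f : Pl ι} (h : IsWeightedHomogeneous w f 1) :
    sg w bs (fun c => u c + u' c) f = sg w bs u f + sg w bs u' f := by
  have := sg_lin bs Finset.univ (fun _ : Bool => 1) (fun b => if b then u else u') h
  simpa using this

theorem bind_sg {μ : Type} (g : κ → Pl μ) (w : ι → ℕ) (bs u : ι → Pl κ) (f : Pl ι) :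
    bind₁ g (sg w bs u f) = sg w (fun c => bind₁ g (bs c)) (fun c => bind₁ g (u c)) f := by
  rw [sg, sg, bind₁_bind₁]
  congr 2
  funext c
  split_ifs <;> rfl

theorem coeff_scale52 (w : ι → ℕ) (t : ℝ) (f : Pl ι) (m : ι →₀ ℕ) :
    coeff m (bind₁ (fun c => C (t ^ w c) * X c) f) = t ^ Finsupp.weight w m * coeff m f := by
  classical
  have key : ∀ (m' : ι →₀ ℕ) (r : ℝ), bind₁ (fun c => C (t ^ w c) * X c) (monomial m' r : Pl ι) =
      monomial m' (t ^ Finsupp.weight w m' * r) := by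
    intro m' r
    rw [bind₁_monomial, monomial_eq, Finsupp.weight_apply, Finsupp.sum, Finsupp.prod,
      ← Finset.prod_pow_eq_pow_sum]
    simp only [mul_pow, Finset.prod_mul_distrib, ← map_pow, ← map_prod, smul_eq_mul, map_mul]
    have : ∀ i, (t ^ w i) ^ m' i = t ^ (m' i * w i) := fun i => by rw [← pow_mul, mul_comm]
    simp only [this]
    ring
  induction f using MvPolynomial.induction_on' with
  | monomial m' r =>
    rw [key, coeff_monomial, coeff_monomial]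
    split_ifs with h
    · rw [h]
    · simp
  | add p q hp hq => rw [map_add, coeff_add, coeff_add, hp, hq, mul_add]

end gen

namespace MT
variable {ι : Type} {n : ℕ}

theorem Form.degLe52 {T : MT ι n} {e : Pl ι} (h : T.Form e) : DegLe (fun _ => 1) e n := by
  intro m hm
  have h1 : Finsupp.weight T.wt m = 1 := h.1 (mem_support_iff.1 hm)
  have h2 : ∑ i, Finsupp.weight T.wt m i = n := by simp [h1]
  rw [← h2]
  simp only [Finsupp.weight_apply, Finsupp.sum, Finset.sum_apply, Pi.smul_apply]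
  rw [Finset.sum_comm]
  refine Finset.sum_le_sum fun c hc => ?_
  have hact : T.wt c ≠ 0 := (mem_supported.1 h.2) ((mem_vars c).2 ⟨m, hm, hc⟩)
  obtain ⟨i, hi⟩ := Function.ne_iff.1 hact
  refine le_trans ?_ (Finset.single_le_sum (f := fun i => m c • T.wt c i)
    (fun _ _ => Nat.zero_le _) (Finset.mem_univ i))
  exact Nat.mul_le_mul_left _ (Nat.pos_of_ne_zero hi)

theorem Form.add52 {T : MT ι n} {e e' : Pl ι} (h : T.Form e) (h' : T.Form e') : T.Form (e + e') :=
  ⟨h.1.add h'.1, add_mem h.2 h'.2⟩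

theorem Form.smul52 {T : MT ι n} {e : Pl ι} (h : T.Form e) (t : ℝ) : T.Form (t • e) :=
  ⟨(weightedHomogeneousSubmodule ℝ T.wt 1).smul_mem t h.1, Subalgebra.smul_mem _ h.2 t⟩

theorem Form.C_mul52 {T : MT ι n} {e : Pl ι} (h : T.Form e) (t : ℝ) : T.Form (C t * e) := by
  rw [← smul_eq_C_mul]; exact h.smul52 t

theorem Form.sub52 {T : MT ι n} {e e' : Pl ι} (h : T.Form e) (h' : T.Form e') : T.Form (e - e') := by
  rw [sub_eq_add_neg, ← neg_one_smul ℝ e']; exact h.add52 (h'.smul52 _)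

theorem form_zero52 (T : MT ι n) : T.Form 0 := ⟨isWeightedHomogeneous_zero _ _ _, zero_mem _⟩

/-- the space of forms52 -/
def forms52 (T : MT ι n) : Submodule ℝ (Pl ι) where
  carrier := {e | T.Form e}
  add_mem' := Form.add52
  zero_mem' := T.form_zero52
  smul_mem' t _ h := Form.smul52 h t

theorem th_mem52 {T : MT ι n} (hT : T.Clean) {c : ι} (hc : c ∈ T.act) :
    T.th c ∈ supported ℝ T.act :=
  add_mem (mul_mem (C_mem_supp _ _) (X_mem_supp hc)) (hT c)

theorem Form.Th52 {T : MT ι n} (hT : T.Clean) {e : Pl ι} (h : T.Form e) : T.Form (T.Th e) :=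
  ⟨hom_bind (AddMonoidHom.id _) T.th_hom h.1, bind_mem_supported (fun _ hc => th_mem52 hT hc) h.2⟩

variable (T : MT ι (n + 1))

/-- weight of slot `0` -/
def w0 (c : ι) : ℕ := T.wt c 0

theorem Form.w052 {T : MT ι (n + 1)} {e : Pl ι} (h : T.Form e) : IsWeightedHomogeneous T.w0 e 1 :=
  hom_coord52 h.1 0

theorem th_w0_one52 {c : ι} (hc : T.wt c 0 ≠ 0) : IsWeightedHomogeneous T.w0 (T.th c) 1 := by
  have := hom_coord52 (T.th_hom c) 0
  rwa [show T.wt c 0 = 1 from le_antisymm (T.wt_le c 0) (Nat.pos_of_ne_zero hc)] at this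

theorem th_w0_zero52 {c : ι} (hc : T.wt c 0 = 0) : IsWeightedHomogeneous T.w0 (T.th c) 0 := by
  have := hom_coord52 (T.th_hom c) 0
  rwa [hc] at this

theorem tail_ne52 {c : ι} (hc : c ∈ T.act) (h0 : T.wt c 0 = 0) : Fin.tail (T.wt c) ≠ 0 := by
  intro h
  apply hc
  funext i
  refine Fin.cases h0 (fun j => ?_) i
  exact congrFun h j

/-- image of a base variable -/
noncomputable def bsU (k : ℕ) (c : ι) : Pl (T.UT k) :=
  if h : T.wt c 0 = 0 then (if Fin.tail (T.wt c) = 0 then 0 else X (Sum.inl ⟨c, h⟩)) else 0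

/-- image of a variable of slot `0` -/
noncomputable def uU {k : ℕ} (x : T.C0 → ℤ) (i : Fin k) (c : ι) : Pl (T.UT k) :=
  if Fin.tail (T.wt c) = 0 then C (T.ext0 x c : ℝ) else X (T.cp i c)

theorem unfold_wt52 {k : ℕ} (s : Fin k → ℝ) (c : T.UT k) :
    (T.unfold s).wt c = Fin.tail (T.wt (T.pr k c)) := rfl

theorem step_wt52 {k : ℕ} (s : Fin k → ℝ) (p : Fin k → T.C0 → ℤ) (c : T.UT k) :
    (T.step s p).wt c = Fin.tail (T.wt (T.pr k c)) := rfl

theorem res_eq52 {k : ℕ} (s : Fin k → ℝ) (p : Fin k → T.C0 → ℤ) (i : Fin k) (F : Pl ι) :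
    T.res s p i F = sg T.w0 (T.bsU k) (T.uU (p i) i) F := by
  rw [res, sub, bind₁_rename, sg]
  congr 2
  funext c
  simp only [Function.comp, unfold_wt52, pr_cp, w0, bsU, uU]
  by_cases h0 : T.wt c 0 = 0
  · by_cases h1 : Fin.tail (T.wt c) = 0
    · simp [h0, h1, cp, ext]
    · simp [h0, h1, cp]
  · by_cases h1 : Fin.tail (T.wt c) = 0
    · simp [h0, h1, cp, ext, ext0]
    · simp [h0, h1]

theorem sub_base52 {k : ℕ} (s : Fin k → ℝ) (p : Fin k → T.C0 → ℤ) (F : Pl ι) :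
    (T.unfold s).sub (T.ext p) (T.base k F) = sg T.w0 (T.bsU k) (fun _ => 0) F := by
  rw [sub, base, bind₁_bind₁, sg]
  congr 2
  funext c
  by_cases h0 : T.wt c 0 = 0
  · by_cases h1 : Fin.tail (T.wt c) = 0
    · simp [h0, h1, w0, bsU, unfold_wt52, pr, ext]
    · simp [h0, h1, w0, bsU, unfold_wt52, pr]
  · simp [h0, w0]

theorem step_th_inl52 {k : ℕ} (s : Fin k → ℝ) (p : Fin k → T.C0 → ℤ) (c : {c // T.wt c 0 = 0})
    (hc : Fin.tail (T.wt c.1) ≠ 0) :
    (T.step s p).th (Sum.inl c) = sg T.w0 (T.bsU k) (fun _ => 0) (T.th c.1) := by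
  have e1 : (T.step s p).a (Sum.inl c) = T.a c.1 := one_mul _
  have e2 : (T.step s p).B (Sum.inl c) =
      (T.unfold s).sub (T.ext p) (C 1 * T.base k (T.B c.1)) := rfl
  rw [Tri.th, e1, e2, C_1, one_mul, sub_base52, Tri.th, map_add, map_mul]
  congr 2
  · simp [sg]
  · simp [sg, w0, c.2, bsU, hc]

theorem step_th_inr52 {k : ℕ} (s : Fin k → ℝ) (p : Fin k → T.C0 → ℤ) (c : {c // T.wt c 0 ≠ 0})
    (i : Fin k) (hc : Fin.tail (T.wt c.1) ≠ 0) :
    (T.step s p).th (Sum.inr (c, i)) = T.res s p i (T.th c.1) := by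
  have hf : T.fac (fun i => if s i = 0 then 1 else s i) (Sum.inr (c, i)) = 1 := by
    simp [fac, hc]
  have e1 : (T.step s p).a (Sum.inr (c, i)) =
      T.fac (fun i => if s i = 0 then 1 else s i) (Sum.inr (c, i)) * T.a c.1 := rfl
  have e2 : (T.step s p).B (Sum.inr (c, i)) = (T.unfold s).sub (T.ext p)
      (C (T.fac (fun i => if s i = 0 then 1 else s i) (Sum.inr (c, i))) *
        rename (T.cp i) (T.B c.1)) := rfl
  rw [Tri.th, e1, e2, hf, C_1, one_mul, one_mul, Tri.th, res, map_add, map_add, map_mul, map_mul]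
  congr 2
  · simp [sub]
  · simp [sub, unfold_wt52, pr_cp, hc, cp, c.2, pr]

theorem step_th_cp52 {k : ℕ} (s : Fin k → ℝ) (p : Fin k → T.C0 → ℤ) (i : Fin k) {c : ι}
    (hc : Fin.tail (T.wt c) ≠ 0) : (T.step s p).th (T.cp i c) = T.res s p i (T.th c) := by
  unfold cp
  split_ifs with h
  · rw [step_th_inl52 _ _ _ _ hc, res_eq52]
    exact sg_zero _ _ _ (T.th_w0_zero52 h)
  · exact step_th_inr52 _ _ _ _ _ hc

/-- linear substitution among the copies -/
noncomputable def mx {k k' : ℕ} (α : Fin k → Fin k' → ℕ) : Pl (T.UT k) →ₐ[ℝ] Pl (T.UT k') :=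
  bind₁ fun c => match c with
    | Sum.inl c => X (Sum.inl c)
    | Sum.inr c => ∑ j, C (α c.2 j : ℝ) * X (Sum.inr (c.1, j))

theorem mx_inl {k k' : ℕ} (α : Fin k → Fin k' → ℕ) (c : {c // T.wt c 0 = 0}) :
    T.mx α (X (Sum.inl c)) = X (Sum.inl c) := by simp [mx]

theorem mx_inr {k k' : ℕ} (α : Fin k → Fin k' → ℕ) (c : {c // T.wt c 0 ≠ 0}) (i : Fin k) :
    T.mx α (X (Sum.inr (c, i))) = ∑ j, C (α i j : ℝ) * X (Sum.inr (c, j)) := by simp [mx]

theorem mx_mx {k k' k'' : ℕ} (α : Fin k → Fin k' → ℕ) (β : Fin k' → Fin k'' → ℕ)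
    (f : Pl (T.UT k)) : T.mx β (T.mx α f) = T.mx (fun i l => ∑ j, α i j * β j l) f := by
  have : (T.mx β).comp (T.mx α) = T.mx (fun i l => ∑ j, α i j * β j l) := by
    refine MvPolynomial.algHom_ext fun c => ?_
    rcases c with c | ⟨c, i⟩
    · simp [mx_inl]
    · simp only [AlgHom.comp_apply, mx_inr, map_sum, map_mul, algHom_C, algebraMap_eq,
        Finset.mul_sum, Nat.cast_sum, Nat.cast_mul, Finset.sum_mul]
      rw [Finset.sum_comm]
      refine Finset.sum_congr rfl fun l _ => Finset.sum_congr rfl fun j _ => by ring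
  exact DFunLike.congr_fun this f

theorem mx_zero_zero (α : Fin 0 → Fin 0 → ℕ) (f : Pl (T.UT 0)) : T.mx α f = f := by
  have : T.mx α = AlgHom.id ℝ _ := by
    refine MvPolynomial.algHom_ext fun c => ?_
    rcases c with c | ⟨c, i⟩
    · simp [mx_inl]
    · exact i.elim0
  rw [this]; rfl

theorem mx_one_eq (t : ℕ) (f : Pl (T.UT 1)) : T.mx (fun _ _ => t) f =
    bind₁ (fun c => C ((t : ℝ) ^ T.w0 (T.pr 1 c)) * X c) f := by
  have : T.mx (fun (_ _ : Fin 1) => t) =
      bind₁ (fun c => C ((t : ℝ) ^ T.w0 (T.pr 1 c)) * X c) := by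
    refine MvPolynomial.algHom_ext fun c => ?_
    rcases c with c | ⟨c, i⟩
    · simp [mx_inl, pr, w0, c.2]
    · have h1 : T.wt c.1 0 = 1 := le_antisymm (T.wt_le c.1 0) (Nat.pos_of_ne_zero c.2)
      simp [mx_inr, pr, w0, h1, Subsingleton.elim i 0]
  rw [this]

theorem mx_one_one (f : Pl (T.UT 1)) : T.mx (fun _ _ => 1) f = f := by
  rw [mx_one_eq]; simp

theorem isInt_mx {k k' : ℕ} (α : Fin k → Fin k' → ℕ) {f : Pl (T.UT k)} (hf : IsInt f) :
    IsInt (T.mx α f) := by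
  refine IsInt.bind (fun c => ?_) hf
  rcases c with c | c
  · exact isInt_X _
  · exact isInt_sum fun j _ => (isInt_C_nat _).mul (isInt_X _)

theorem form_mx {k k' : ℕ} (α : Fin k → Fin k' → ℕ) (s : Fin k → ℝ) (p : Fin k → T.C0 → ℤ)
    (s' : Fin k' → ℝ) (p' : Fin k' → T.C0 → ℤ) {f : Pl (T.UT k)} (hf : (T.step s p).Form f) :
    (T.step s' p').Form (T.mx α f) := by
  refine ⟨hom_bind (AddMonoidHom.id _) (fun c => ?_) hf.1,
    bind_mem_supported (fun c hc => ?_) hf.2⟩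
  · rcases c with c | c
    · exact isWeightedHomogeneous_X _ _ _
    · refine IsWeightedHomogeneous.sum _ _ _ fun j _ => ?_
      have := (isWeightedHomogeneous_C (T.step s' p').wt ((α c.2 j : ℝ))).mul
        (isWeightedHomogeneous_X ℝ (T.step s' p').wt (Sum.inr (c.1, j)))
      rw [zero_add] at this
      exact this
  · rcases c with c | c
    · exact X_mem_supp hc
    · exact sum_mem fun j _ => mul_mem (C_mem_supp _ _) (X_mem_supp hc)

theorem nrm_mx_le {k k' : ℕ} (α : Fin k → Fin k' → ℕ) {K : ℕ} (hK : 1 ≤ K)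
    (hα : ∀ i, ∑ j, α i j ≤ K) {s : Fin k → ℝ} {p : Fin k → T.C0 → ℤ} {f : Pl (T.UT k)}
    (hf : (T.step s p).Form f) : nrm (T.mx α f) ≤ nrm f * (K : ℝ) ^ n := by
  refine nrm_bind_le_of_pos (fun _ => one_pos) (fun c => ?_) (by exact_mod_cast hK) hf.degLe52
  rcases c with c | c
  · rw [nrm_X]; exact_mod_cast hK
  · refine (nrm_sum_le _ _).trans (le_trans (Finset.sum_le_sum (g := fun j => (α c.2 j : ℝ))
      fun j _ => ?_) (by exact_mod_cast hα c.2))
    refine (nrm_mul_le _ _).trans ?_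
    rw [nrm_C, nrm_X, mul_one, Nat.abs_cast]

theorem mx_bsU {k k' : ℕ} (α : Fin k → Fin k' → ℕ) (c : ι) : T.mx α (T.bsU k c) = T.bsU k' c := by
  unfold bsU
  split_ifs <;> simp [mx_inl]

theorem mx_sg {k k' : ℕ} (α : Fin k → Fin k' → ℕ) (u : ι → Pl (T.UT k)) (F : Pl ι) :
    T.mx α (sg T.w0 (T.bsU k) u F) = sg T.w0 (T.bsU k') (fun c => T.mx α (u c)) F := by
  have := bind_sg (fun c => T.mx α (X c)) T.w0 (T.bsU k) u F
  have e : bind₁ (fun c => T.mx α (X c)) = T.mx α := MvPolynomial.algHom_ext fun c => by simp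
  rw [e] at this
  rw [this]
  congr 2
  funext c
  exact T.mx_bsU α c

theorem sg_congr {κ : Type} (bs : ι → Pl κ) {u u' : ι → Pl κ} (h : ∀ c, T.wt c 0 ≠ 0 → u c = u' c)
    (F : Pl ι) : sg T.w0 bs u F = sg T.w0 bs u' F := by
  rw [sg, sg]
  congr 2
  funext c
  by_cases h0 : T.w0 c = 0
  · simp [h0]
  · simp [h0, h c h0]

theorem mx_res {k k' : ℕ} (α : Fin k → Fin k' → ℕ) (s : Fin k → ℝ) (p : Fin k → T.C0 → ℤ)
    (s' : Fin k' → ℝ) (p' : Fin k' → T.C0 → ℤ) (i : Fin k) (hp : p i = ∑ j, α i j • p' j)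
    {F : Pl ι} (hF : IsWeightedHomogeneous T.w0 F 1) :
    T.mx α (T.res s p i F) = ∑ j, C (α i j : ℝ) * T.res s' p' j F := by
  simp only [res_eq52]
  rw [mx_sg, ← sg_lin _ _ _ _ hF]
  refine T.sg_congr _ (fun c hc => ?_) F
  unfold uU
  by_cases h1 : Fin.tail (T.wt c) = 0
  · simp only [h1, if_true, algHom_C, algebraMap_eq, ← map_mul, ← map_sum]
    congr 1
    simp [ext0, hc, h1, hp, Finset.sum_apply]
  · simp only [h1, if_false, cp, hc, dite_false, mx_inr]

theorem mx_Th {k k' : ℕ} (α : Fin k → Fin k' → ℕ) (s : Fin k → ℝ) (p : Fin k → T.C0 → ℤ)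
    (s' : Fin k' → ℝ) (p' : Fin k' → T.C0 → ℤ) (hp : ∀ i, p i = ∑ j, α i j • p' j)
    {e : Pl (T.UT k)} (he : e ∈ supported ℝ (T.step s p).act) :
    T.mx α ((T.step s p).Th e) = (T.step s' p').Th (T.mx α e) := by
  have e1 : T.mx α ((T.step s p).Th e) = bind₁ (fun c => T.mx α ((T.step s p).th c)) e := by
    rw [Tri.Th, mx, bind₁_bind₁]
  have e2 : (T.step s' p').Th (T.mx α e) =
      bind₁ (fun c => (T.step s' p').Th (T.mx α (X c))) e := by
    rw [Tri.Th, mx, bind₁_bind₁]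
    simp
  rw [e1, e2]
  refine bind_congr_supp (fun c hc => ?_) he
  rcases c with c | ⟨c, i⟩
  · have hc' : Fin.tail (T.wt c.1) ≠ 0 := hc
    rw [mx_inl, Tri.Th, bind₁_X_right, step_th_inl52 _ _ _ _ hc', step_th_inl52 _ _ _ _ hc', mx_sg]
    simp
  · have hc' : Fin.tail (T.wt c.1) ≠ 0 := hc
    rw [mx_inr, step_th_inr52 _ _ _ _ _ hc', T.mx_res α s p s' p' i (hp i) (T.th_w0_one52 c.2),
      map_sum]
    refine Finset.sum_congr rfl fun j _ => ?_
    rw [map_mul, algHom_C, algebraMap_eq, Tri.Th, bind₁_X_right, step_th_inr52 _ _ _ _ _ hc']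

/-- restriction of `Θ (lift e)` -/
theorem res_Th_lift52 (s : Fin 1 → ℝ) (p : Fin 1 → T.C0 → ℤ) {e : Pl (T.UT 1)}
    (he : e ∈ supported ℝ (T.step s p).act) :
    T.res s p 0 (T.Th (rename (T.pr 1) e)) = (T.step s p).Th e := by
  have e1 : T.res s p 0 (T.Th (rename (T.pr 1) e)) =
      bind₁ (fun c => T.res s p 0 (T.th (T.pr 1 c))) e := by
    rw [Tri.Th, bind₁_rename, res_eq52, sg, bind₁_bind₁]
    congr 2
    funext c
    rw [res_eq52, sg]
    rfl
  rw [e1, Tri.Th]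
  refine bind_congr_supp (fun c hc => ?_) he
  have hc' : Fin.tail (T.wt (T.pr 1 c)) ≠ 0 := hc
  rw [← step_th_cp52 _ _ _ _ hc']
  congr 1
  rcases c with c | ⟨c, i⟩
  · simp [cp, pr, c.2]
  · simp [cp, pr, c.2, Subsingleton.elim i 0]

theorem lift_sg52 {k : ℕ} (u : ι → Pl (T.UT k)) {F : Pl ι} (hF : F ∈ supported ℝ T.act) :
    rename (T.pr k) (sg T.w0 (T.bsU k) u F) =
      sg T.w0 X (fun c => rename (T.pr k) (u c)) F := by
  rw [rename_eq_bind, bind_sg, sg, sg]
  refine bind_congr_supp (fun c hc => ?_) hF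
  by_cases h0 : T.wt c 0 = 0
  · simp [w0, h0, bsU, T.tail_ne52 hc h0, pr]
  · simp [w0, h0, ← rename_eq_bind]

theorem sg_X_X (F : Pl ι) : sg T.w0 X X F = F := by
  rw [sg]; simp

theorem lift_Th52 {T : MT ι (n + 1)} (hT : T.Clean) (s : Fin 0 → ℝ) (p : Fin 0 → T.C0 → ℤ)
    {e : Pl (T.UT 0)} (he : e ∈ supported ℝ (T.step s p).act) :
    rename (T.pr 0) ((T.step s p).Th e) = T.Th (rename (T.pr 0) e) := by
  rw [Tri.Th, Tri.Th, bind₁_rename, rename_bind₁]
  refine bind_congr_supp (fun c hc => ?_) he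
  rcases c with c | ⟨c, i⟩
  · have hc' : Fin.tail (T.wt c.1) ≠ 0 := hc
    have hact : c.1 ∈ T.act := fun h => hc' (by rw [h]; rfl)
    rw [step_th_inl52 _ _ _ _ hc', lift_sg52 _ _ (th_mem52 hT hact),
      sg_zero _ _ X (T.th_w0_zero52 c.2), sg_X_X]
    rfl
  · exact i.elim0

theorem lift_mem52 {k : ℕ} (s : Fin k → ℝ) (p : Fin k → T.C0 → ℤ) {e : Pl (T.UT k)}
    (he : e ∈ supported ℝ (T.step s p).act) : rename (T.pr k) e ∈ supported ℝ T.act := by
  rw [rename_eq_bind]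
  refine bind_mem_supported (s := (T.step s p).act) (fun c hc => X_mem_supp ?_) he
  intro h
  exact hc (by rw [step_wt52, h]; rfl)

theorem lift_hom52 {k : ℕ} (s : Fin k → ℝ) (p : Fin k → T.C0 → ℤ) {e : Pl (T.UT k)} {d : ℕ}
    (he : IsWeightedHomogeneous (T.step s p).wt e 1)
    (h0 : IsWeightedHomogeneous (fun c => T.w0 (T.pr k c)) e d) :
    IsWeightedHomogeneous T.wt (rename (T.pr k) e) (Fin.cons d 1) := by
  rw [rename_eq_bind]
  refine hom_bind (AddMonoidHom.id _) (w := fun c => T.wt (T.pr k c)) (w' := T.wt)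
    (g := fun c => X (T.pr k c))
    (fun c => isWeightedHomogeneous_X ℝ T.wt (T.pr k c)) (hom_of_coord52 fun i => ?_)
  refine Fin.cases h0 (fun j => ?_) i
  exact hom_coord52 he j

end MT

end Crest.Agent.T49.Tw
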