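import Crest.Agent.T49.BrDef_62
import Crest.Agent.T49.TwBunA_52

/-!
# Row 49 (helper52): `Br.AffStmt`
-/

set_option autoImplicit false

noncomputable section

namespace Crest.Agent.T49.Br

open Finset MvPolynomial Crest.Agent.T49.Nil Crest.Agent.T49.Nil.ND Crest.Agent.T49.GI
open Crest.Agent.T49.Tw (Pl nrm DegLe)

namespace A52

variable {β κ : Type}

/-- scaling of the marked variables -/
def scl (β κ : Type) (n : ℤ) : Pl (V β κ Unit) →ₐ[ℝ] Pl (V β κ Unit) :=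
  bind₁ (sub β κ fun _ _ => n)

theorem scl_eq (n : ℤ) (f : Pl (V β κ Unit)) :
    scl β κ n f = bind₁ (fun v => C ((n : ℝ) ^ mk β κ Unit v) * X v) f := by
  unfold scl
  congr 2
  funext v
  rcases v with v | ⟨⟨⟩, c⟩ <;> simp [sub, mk]

theorem scl_one (f : Pl (V β κ Unit)) : scl β κ 1 f = f := by
  rw [scl_eq]; simp

theorem scl_zero (f : Pl (V β κ Unit)) :
    scl β κ 0 f = bind₁ (up β κ Unit) (bind₁ (dw β κ Unit) f) := by
  rw [scl, bind₁_bind₁]
  congr 2
  funext v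
  rcases v with v | ⟨⟨⟩, c⟩ <;> simp [sub, up, dw]

theorem sub_rs (t : Fin 3 → ℤ) (i : Fin 4) (f : Pl (V β κ Unit)) :
    bind₁ (sub β κ fun a (_ : Unit) => t a) (bind₁ (rs β κ i) f) =
      scl β κ (∑ a, rol i a * t a) f := by
  rw [scl, bind₁_bind₁]
  congr 2
  funext v
  rcases v with v | ⟨⟨⟩, c⟩
  · simp [sub, rs]
  · simp [sub, rs, sum_mul, mul_assoc]

theorem sub_up (t : Fin 3 → ℤ) (c : Pl β) :
    bind₁ (sub β κ fun a (_ : Unit) => t a) (bind₁ (up β κ (Fin 3)) c) =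
      bind₁ (up β κ Unit) c := by
  rw [bind₁_bind₁]
  congr 2
  funext v
  simp [sub, up]

theorem dw_rs (i : Fin 4) (f : Pl (V β κ Unit)) :
    bind₁ (dw β κ (Fin 3)) (bind₁ (rs β κ i) f) = bind₁ (dw β κ Unit) f := by
  rw [bind₁_bind₁]
  congr 2
  funext v
  rcases v with v | ⟨⟨⟩, c⟩ <;> simp [sub, rs, dw]

theorem dw_up (c : Pl β) : bind₁ (dw β κ (Fin 3)) (bind₁ (up β κ (Fin 3)) c) = c := by
  rw [bind₁_bind₁]
  simp [up, dw]

theorem core {f : Fin 4 → Pl (V β κ Unit)} {c : Pl β}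
    (h : ∑ i, bind₁ (rs β κ i) (f i) = bind₁ (up β κ (Fin 3)) c) :
    ∑ i, bind₁ (dw β κ Unit) (f i) = c ∧
      f 0 - scl β κ 0 (f 0) = f 1 - scl β κ 0 (f 1) ∧
      IsWeightedHomogeneous (mk β κ Unit) (f 0 - scl β κ 0 (f 0)) 1 := by
  have key : ∀ t : Fin 3 → ℤ, scl β κ (t 0) (f 0) + scl β κ (t 1) (f 1) + scl β κ (t 2) (f 2) +
      scl β κ (t 0 + t 1 - t 2) (f 3) = bind₁ (up β κ Unit) c := by
    intro t
    have := congrArg (bind₁ (sub β κ fun a (_ : Unit) => t a)) h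
    simp only [map_sum, sub_rs, sub_up] at this
    simpa [Fin.sum_univ_four, Fin.sum_univ_three, rol, sub_eq_add_neg] using this
  have k0 := key ![0, 0, 0]
  have k1 := key ![1, 0, 0]
  have k2 := key ![0, 1, 0]
  have k3 := key ![1, 1, 0]
  simp only [Matrix.cons_val, add_zero, zero_add, sub_zero, scl_one, Int.reduceAdd] at k0 k1 k2 k3
  have e0 : f 0 - scl β κ 0 (f 0) = -(f 3 - scl β κ 0 (f 3)) := by linear_combination k1 - k0
  have e2 : scl β κ 2 (f 3) = 2 * f 3 - scl β κ 0 (f 3) := by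
    linear_combination k3 - k1 - k2 + k0
  refine ⟨?_, by linear_combination k1 - k2, fun m hm => ?_⟩
  · have := congrArg (bind₁ (dw β κ (Fin 3))) h
    simpa only [map_sum, dw_rs, dw_up] using this
  · rw [e0, coeff_neg, coeff_sub, scl_eq, Tw.coeff_scale52] at hm
    have e3 := congrArg (coeff m) e2
    rw [coeff_sub, scl_eq, scl_eq, Tw.coeff_scale52, Tw.coeff_scale52, two_mul, coeff_add] at e3
    generalize Finsupp.weight (mk β κ Unit) m = w at hm e3
    have hc : coeff m (f 3) ≠ 0 := fun h0 => hm (by simp [h0])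
    match w, hm, e3 with
    | 0, hm, _ => simp at hm
    | 1, _, _ => rfl
    | w + 2, _, e3 =>
      exfalso
      have h2 : ((2 : ℝ) ^ (w + 2) - 2) * coeff m (f 3) = 0 := by
        simp only [Int.cast_ofNat, Int.cast_zero, ne_eq, Nat.add_eq_zero_iff, OfNat.ofNat_ne_zero,
          and_false, not_false_eq_true, zero_pow, zero_mul, sub_zero] at e3
        linear_combination e3
      have h3 : (1 : ℝ) ≤ 2 ^ w := one_le_pow₀ one_le_two
      rcases mul_eq_zero.1 h2 with h4 | h4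
      · rw [pow_add] at h4; linarith
      · exact hc h4

open Classical in
/-- extraction of the coefficient of `u_c` -/
def evc (β : Type) (c : κ) : V β κ Unit → Pl β :=
  Sum.elim X fun p => if p.2 = c then 1 else 0

theorem lin_eq [Fintype κ] {F : Pl (V β κ Unit)} (hF : IsWeightedHomogeneous (mk β κ Unit) F 1) :
    F = ∑ c, X (Sum.inr ((), c)) * bind₁ (up β κ Unit) (bind₁ (evc β c) F) := by
  classical
  have := Tw.bind_lin hF univ (fun c : κ => (X (Sum.inr ((), c)) : Pl (V β κ Unit)))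
    (fun c v => bind₁ (up β κ Unit) (evc β c v)) X (fun c _ v hv => ?_) fun v hv => ?_
  · simpa only [bind₁_X_left, AlgHom.id_apply, bind₁_bind₁] using this
  · rcases v with v | ⟨⟨⟩, c'⟩
    · simp [evc, up]
    · simp [mk] at hv
  · rcases v with v | ⟨⟨⟩, c'⟩
    · simp [mk] at hv
    · simp [evc, apply_ite (bind₁ (up β κ Unit))]

theorem subst_mem_Uo {ι σ τ : Type} [Fintype ι] {g : ND ι} {U : Submodule ℝ g.L} (r : σ → Pl τ)
    {x : g.PS σ} (hx : x ∈ Uo σ U) : g.subst r x ∈ Uo τ U := by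
  classical
  intro α
  have : g.cv α (g.subst r x) = ∑ m ∈ univ.biUnion fun k => (x k).support,
      coeff α (bind₁ r (monomial m 1)) • g.cv m x := by
    ext k
    rw [ND.sum_apply]
    simp only [cv_apply, ND.smul_apply, smul_eq_mul]
    change coeff α (bind₁ r (x k)) = _
    have h1 : x k = ∑ m ∈ univ.biUnion fun k => (x k).support,
        C (coeff m (x k)) * monomial m 1 := by
      conv_lhs => rw [(x k).as_sum]
      rw [sum_subset (subset_biUnion_of_mem (fun k => (x k).support) (mem_univ k))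
        fun m _ hm => by rw [notMem_support_iff.1 hm, map_zero]]
      exact sum_congr rfl fun m _ => by rw [C_mul_monomial, mul_one]
    conv_lhs => rw [h1, map_sum, coeff_sum]
    refine sum_congr rfl fun m _ => ?_
    rw [map_mul, bind₁_C_right, coeff_C_mul, mul_comm]
  show g.cv α (g.subst r x) ∈ U
  rw [this]
  exact Submodule.sum_mem _ fun m _ => Submodule.smul_mem _ _ (hx m)

theorem weight_cast {σ : Type} (w : σ → ℕ) (m : σ →₀ ℕ) :
    Finsupp.weight (fun v => (w v : ℤ)) m = (Finsupp.weight w m : ℕ) := by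
  simp [Finsupp.weight_apply, Finsupp.sum]

theorem evc_wt {ρ : Type} (𝓜 : Mk β κ ρ) {F : Pl (V β κ Unit)} {d : ℕ}
    (hF : IsWeightedHomogeneous (mk β κ Unit) F 1) (hd : IsWeightedHomogeneous (𝓜.lev Unit) F d)
    (c : κ) {α : β →₀ ℕ} (hα : coeff α (bind₁ (evc β c) F) ≠ 0) :
    Finsupp.weight 𝓜.c0.lev α + 𝓜.lv c = d := by
  classical
  have h1 : IsWeightedHomogeneous
      (fun v => (𝓜.lev Unit v : ℤ) - 𝓜.lv c * mk β κ Unit v) F ((d : ℤ) - 𝓜.lv c) := by
    intro m hm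
    have e : Finsupp.weight (fun v => (𝓜.lev Unit v : ℤ) - 𝓜.lv c * mk β κ Unit v) m =
        (Finsupp.weight (𝓜.lev Unit) m : ℕ) - 𝓜.lv c * (Finsupp.weight (mk β κ Unit) m : ℕ) := by
      simp only [Finsupp.weight_apply, Finsupp.sum, smul_eq_mul, nsmul_eq_mul, Nat.cast_sum,
        Nat.cast_mul, mul_sum, ← sum_sub_distrib]
      exact sum_congr rfl fun v _ => by ring
    rw [e, hF hm, hd hm]
    simp
  have h2 := Tw.hom_bind (AddMonoidHom.id ℤ) (w' := fun v => (𝓜.c0.lev v : ℤ)) (g := evc β c)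
    (fun v => by
      rcases v with v | ⟨⟨⟩, c'⟩
      · simpa [evc, mk, Mk.lev] using isWeightedHomogeneous_X ℝ (fun v => (𝓜.c0.lev v : ℤ)) v
      · by_cases h : c' = c
        · simpa [evc, mk, Mk.lev, h] using isWeightedHomogeneous_one ℝ fun v => (𝓜.c0.lev v : ℤ)
        · simpa [evc, h] using isWeightedHomogeneous_zero ℝ (fun v => (𝓜.c0.lev v : ℤ)) _) h1 hα
  rw [weight_cast] at h2
  simp only [AddMonoidHom.id_apply] at h2
  omega

theorem scl_zero_hom {ρ : Type} (𝓜 : Mk β κ ρ) {f : Pl (V β κ Unit)} {d : ℕ}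
    (hd : IsWeightedHomogeneous (𝓜.lev Unit) f d) :
    IsWeightedHomogeneous (𝓜.lev Unit) (f - scl β κ 0 f) d := by
  intro m hm
  refine hd fun h => hm ?_
  rw [coeff_sub, scl_eq, Tw.coeff_scale52, h, mul_zero, sub_zero]

theorem quad_card {Γ : Type} [AddCommGroup Γ] [DecidableEq Γ] {B : Finset Γ}
    {Q : Finset (Fin 4 → Γ)} (hQ : ∀ q ∈ Q, IsQ B q) {A0 A1 : Finset Γ}
    (h0 : ∀ q ∈ Q, q 0 ∈ A0) (h1 : ∀ q ∈ Q, q 1 ∈ A1) : #Q ≤ #A0 * #A1 * #B := by
  rw [← card_product, ← card_product]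
  refine card_le_card_of_injOn (fun q => ((q 0, q 1), q 2)) (fun q hq => ?_) fun q hq q' hq' h => ?_
  · exact mem_coe.2 (mem_product.2 ⟨mem_product.2 ⟨h0 q hq, h1 q hq⟩, (hQ q hq).1 2⟩)
  · simp only [Prod.mk.injEq] at h
    have e1 := (hQ q hq).2
    have e2 := (hQ q' hq').2
    funext i
    fin_cases i
    exacts [h.1.1, h.1.2, h.2, by
      rw [h.1.1, h.1.2, h.2, e2] at e1
      exact (add_left_cancel e1).symm]

/-- a label that depends on role `0` only and on role `1` only has a large class -/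
theorem exists_class {Γ Z : Type} [AddCommGroup Γ] {B : Finset Γ} {N δ : ℝ}
    {Q : Finset (Fin 4 → Γ)} (hN : 0 < N) (hδ : 0 < δ) (hB : (#B : ℝ) ≤ N) (hQ : ∀ q ∈ Q, IsQ B q)
    (hd : δ * N ^ 3 ≤ #Q) (F0 F1 : Γ → Z) (h : ∀ q ∈ Q, F0 (q 0) = F1 (q 1)) :
    ∃ Q' ⊆ Q, δ ^ 2 * N ^ 3 ≤ #Q' ∧ ∃ z, ∀ q ∈ Q', F0 (q 0) = z := by
  classical
  by_contra hcon
  push Not at hcon
  set I := Q.image fun q => F0 (q 0) with hI
  have hne : I.Nonempty := by
    refine (card_pos.1 ?_).image _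
    have : 0 < δ * N ^ 3 := by positivity
    exact_mod_cast this.trans_le hd
  have h1 : (#Q : ℝ) = ∑ z ∈ I, (#{q ∈ Q | F0 (q 0) = z} : ℝ) := by
    exact_mod_cast card_eq_sum_card_fiberwise fun q hq => mem_image_of_mem _ hq
  have hs : ∀ F : Γ → Z, ∑ z ∈ I, (#{x ∈ B | F x = z} : ℝ) ≤ N := fun F => by
    refine le_trans ?_ hB
    exact_mod_cast (card_biUnion (s := I) (t := fun z => {x ∈ B | F x = z}) fun z _ z' _ hz =>
      disjoint_filter.2 fun x _ e e' => hz (e.symm.trans e')).symm.trans_le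
      (card_le_card (biUnion_subset.2 fun z _ => filter_subset _ _))
  have h2 : ∀ z ∈ I, (#{q ∈ Q | F0 (q 0) = z} : ℝ) <
      δ * N ^ 2 / 2 * ((#{x ∈ B | F0 x = z} : ℝ) + #{x ∈ B | F1 x = z}) := by
    intro z hz
    have a1 : (#{q ∈ Q | F0 (q 0) = z} : ℝ) < δ ^ 2 * N ^ 3 := by
      by_contra hc
      obtain ⟨q, hq, hne⟩ := hcon _ (filter_subset _ _) (not_lt.1 hc) z
      exact hne (mem_filter.1 hq).2
    have a2 : (#{q ∈ Q | F0 (q 0) = z} : ℝ) ≤ #{x ∈ B | F0 x = z} * #{x ∈ B | F1 x = z} * N := by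
      refine le_trans ?_ (mul_le_mul_of_nonneg_left hB (by positivity))
      exact_mod_cast quad_card (Q := {q ∈ Q | F0 (q 0) = z}) (A0 := {x ∈ B | F0 x = z})
        (A1 := {x ∈ B | F1 x = z}) (fun q hq => hQ q (mem_filter.1 hq).1)
        (fun q hq => mem_filter.2 ⟨(hQ q (mem_filter.1 hq).1).1 0, (mem_filter.1 hq).2⟩)
        fun q hq => mem_filter.2 ⟨(hQ q (mem_filter.1 hq).1).1 1,
          (h q (mem_filter.1 hq).1).symm.trans (mem_filter.1 hq).2⟩
    have a3 : (0 : ℝ) < #{q ∈ Q | F0 (q 0) = z} := by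
      obtain ⟨q, hq, rfl⟩ := mem_image.1 hz
      exact_mod_cast card_pos.2 (⟨q, mem_filter.2 ⟨hq, rfl⟩⟩ :
        ({q' ∈ Q | F0 (q' 0) = F0 (q 0)}).Nonempty)
    generalize (#{q ∈ Q | F0 (q 0) = z} : ℝ) = x at a1 a2 a3
    have ha : (0 : ℝ) ≤ #{x ∈ B | F0 x = z} := by positivity
    have hb : (0 : ℝ) ≤ #{x ∈ B | F1 x = z} := by positivity
    generalize (#{x ∈ B | F0 x = z} : ℝ) = a at a2 ha
    generalize (#{x ∈ B | F1 x = z} : ℝ) = b at a2 hb
    refine lt_of_pow_lt_pow_left₀ 2 (by positivity) ?_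
    have a4 : x * x < δ ^ 2 * N ^ 3 * x := mul_lt_mul_of_pos_right a1 a3
    have a5 : δ ^ 2 * N ^ 3 * x ≤ δ ^ 2 * N ^ 3 * (a * b * N) := by gcongr
    have a6 : 0 ≤ δ ^ 2 * N ^ 4 * (a - b) ^ 2 := by positivity
    nlinarith
  have h3 := sum_lt_sum_of_nonempty hne h2
  rw [← h1, ← mul_sum, sum_add_distrib] at h3
  have h4 := mul_le_mul_of_nonneg_left (add_le_add (hs F0) (hs F1))
    (show 0 ≤ δ * N ^ 2 / 2 by positivity)
  nlinarith

end A52

open A52 in
theorem affStmt : AffStmt := by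
  intro m ι β κ Γ _ _ _ g B N Q f c hN hB hQ hd hf
  have hk : ∀ q ∈ Q, ∀ k, _ := fun q hq k =>
    core (f := fun i => f i (q i) k) (c := c q k) (by
      have := congrFun (hf q hq) k
      rwa [ND.sum_apply] at this)
  obtain ⟨Q', hQ', hd', z, hz⟩ := exists_class hN (Real.exp_pos _) hB hQ hd
    (fun h k => f 0 h k - scl β κ 0 (f 0 h k)) (fun h k => f 1 h k - scl β κ 0 (f 1 h k))
    fun q hq => funext fun k => (hk q hq k).2.1
  refine ⟨Q', hQ', ?_, fun v => g.subst (evc β v) z, fun q hq => ⟨?_, ?_, fun U hU v => ?_,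
    fun ρ 𝓜 h v k α hα => ?_⟩⟩
  · rwa [← Real.exp_nat_mul, Nat.cast_ofNat, mul_neg] at hd'
  · ext k
    rw [ND.sum_apply, ← (hk q (hQ' hq) k).1]
    rfl
  · refine pts_ext fun k => ?_
    have e := lin_eq (hk q (hQ' hq) k).2.2
    rw [congrFun (hz q hq) k] at e
    have e2 := congrFun (hz q hq) k
    rw [scl_zero, e, sub_eq_iff_eq_add'] at e2
    rw [ND.add_apply, linM, ND.sum_apply]
    exact e2
  · refine subst_mem_Uo _ ?_
    have e : z = f 0 (q 0) - g.subst (sub β κ fun _ _ => 0) (f 0 (q 0)) := (hz q hq).symm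
    rw [e]
    exact sub_mem hU (subst_mem_Uo _ hU)
  · have e := congrFun (hz q hq) k
    exact evc_wt 𝓜 (e ▸ (hk q (hQ' hq) k).2.2) (e ▸ scl_zero_hom 𝓜 (h k)) v hα

end Crest.Agent.T49.Br
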