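import Crest.Agent.T49.AhTw_60
import Crest.Agent.T49.BrDef_62

/-! # Row 49 (helper60): approximate homomorphisms modulo a separated subgroup (`TwAHStmt`) -/

set_option autoImplicit false

namespace Crest.Agent.T49.AH

open Finset

/-- core form with the explicit lattice element: the nearest point in the coordinates `co` -/
theorem core_rd : ∃ C : ℕ, 1 ≤ C ∧ ∀ {m : ℝ}, 2 ≤ m → ∀ {ι κ W E : Type} [Fintype ι]
    [Fintype κ] [AddCommGroup W] [Module ℝ W] [NormedAddCommGroup E] [NormedSpace ℝ E]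
    (A : W →ₗ[ℝ] E) (Ω Ω' : W → Prop) (v : κ → W) (co : κ → W →ₗ[ℝ] ℝ),
    (Fintype.card ι : ℝ) ≤ m → (Fintype.card κ : ℝ) ≤ m → (∀ x, ∑ j, co j x • v j = x) →
    (∀ j, 0 < ‖A (v j)‖) → (∀ x j, |co j x| * ‖A (v j)‖ ≤ Lat.cst κ * ‖A x‖) →
    (∀ ω, Ω ω → ∀ j, ∃ n : ℤ, co j ω = n) →
    ∀ {L : ι → ℕ} {H₁ H₂ H₃ H₄ : Finset (ι → ℤ)} {f₁ f₂ f₃ f₄ : (ι → ℤ) → W}
      {Q : Finset ((ι → ℤ) × (ι → ℤ) × (ι → ℤ) × (ι → ℤ))} {B : ℝ}, 0 < B →
      (∀ x ∈ H₁, Ω' (∑ j, (round (co j (f₁ x)) : ℝ) • v j)) →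
      TwIn (fun x => ‖A x‖) Ω L H₁ H₂ H₃ H₄ f₁ f₂ f₃ f₄ Q m B →
      TwOut (fun x => ‖A x‖) Ω' L H₁ f₁ (m ^ C) B := by
  obtain ⟨C, hC⟩ := real_hom
  refine ⟨3 * (C + 1), by omega, ?_⟩
  intro m hm ι κ W E _ _ _ _ _ _ A Ω Ω' v co hι hκ hsum hv hco hΩ L H₁ H₂ H₃ H₄ f₁ f₂ f₃ f₄ Q B
    hB hΩ' h
  classical
  have hc1 := Lat.one_le_cst κ
  set s : κ → ℝ := fun j => ‖A (v j)‖ / (Lat.cst κ * B) with hs
  have hs0 : ∀ j, 0 < s j := fun j => div_pos (hv j) (by positivity)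
  set g : ((ι → ℤ) → W) → (ι → ℤ) → κ → ℝ := fun f x j => co j (f x) - round (co j (f x)) with hg
  set dl : (ι → ℤ) × (ι → ℤ) × (ι → ℤ) × (ι → ℤ) → κ → ℝ := fun q j =>
    g f₁ q.1 j + g f₂ q.2.1 j - g f₃ q.2.2.1 j - g f₄ q.2.2.2 j with hdl
  obtain ⟨c, -, hcc⟩ := pigeon Q (Fintype.piFinset fun _ : κ => Icc (-2 : ℤ) 2)
    (Fintype.piFinset_nonempty.2 fun _ => ⟨0, by simp⟩) (fun q j => round (dl q j)) (fun q _ => by
      rw [Fintype.mem_piFinset]
      intro l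
      have a1 := abs_le.1 (abs_sub_round (co l (f₁ q.1)))
      have a2 := abs_le.1 (abs_sub_round (co l (f₂ q.2.1)))
      have a3 := abs_le.1 (abs_sub_round (co l (f₃ q.2.2.1)))
      have a4 := abs_le.1 (abs_sub_round (co l (f₄ q.2.2.2)))
      have k := abs_le.1 (abs_sub_round (dl q l))
      have c1 : (-3 : ℝ) < (round (dl q l) : ℝ) := by
        simp only [hdl, hg] at k ⊢; linarith [k.2, a1.1, a2.1, a3.2, a4.2]
      have c2 : (round (dl q l) : ℝ) < 3 := by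
        simp only [hdl, hg] at k ⊢; linarith [k.1, a1.2, a2.2, a3.1, a4.1]
      have c3 : (-3 : ℤ) < round (dl q l) := by exact_mod_cast c1
      have c4 : round (dl q l) < 3 := by exact_mod_cast c2
      rw [mem_Icc]; omega)
  have hm1 : 1 ≤ m := by linarith
  have hm3 : 3 * m ≤ m ^ 3 := by nlinarith [mul_le_mul hm hm (by norm_num) (by linarith)]
  have hcard : ((#(Fintype.piFinset fun _ : κ => Icc (-2 : ℤ) 2) : ℕ) : ℝ) ≤ Real.exp (2 * m) := by
    rw [Fintype.card_piFinset, prod_const, card_univ]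
    have h5 : (5 : ℝ) ≤ Real.exp 2 := by
      have : Real.exp 2 = Real.exp 1 ^ 2 := by rw [← Real.exp_nat_mul]; norm_num
      rw [this]; nlinarith [Real.exp_one_gt_d9]
    calc (((#(Icc (-2 : ℤ) 2)) ^ Fintype.card κ : ℕ) : ℝ) = 5 ^ Fintype.card κ := by simp
      _ ≤ Real.exp 2 ^ Fintype.card κ := pow_le_pow_left₀ (by norm_num) h5 _
      _ = Real.exp (Fintype.card κ * 2) := (Real.exp_nat_mul _ _).symm
      _ ≤ _ := Real.exp_le_exp.2 (by linarith)
  set N : ℝ := ∏ i, (L i : ℝ) with hN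
  have hN0 : 0 ≤ N := prod_nonneg fun i _ => Nat.cast_nonneg _
  obtain ⟨H', hH', c1, r, hr, β, a, b, γ, hβ, hF⟩ := hC (m := m ^ 3) (by linarith)
    (ι := ι) (κ := κ) (by linarith) (by linarith) L h.pos H₁ H₂ H₃ H₄ h.d₁ h.d₂ h.d₃ h.d₄
    (fun x l => g f₁ x l * s l) (fun x l => g f₂ x l * s l) (fun x l => g f₃ x l * s l)
    (fun x l => (g f₄ x l + c l) * s l) {q ∈ Q | (fun j => round (dl q j)) = c} (fun q hq => by
      obtain ⟨a1, a2, a3, a4, a5, ω, hω, a6⟩ := h.quad q (mem_filter.1 hq).1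
      refine ⟨a1, a2, a3, a4, a5, fun l => ?_⟩
      have k : round (dl q l) = c l := congrFun (mem_filter.1 hq).2 l
      obtain ⟨n, hn⟩ := hΩ ω hω l
      have k1 := round_le (dl q l) (n - round (co l (f₁ q.1)) - round (co l (f₂ q.2.1)) + round (co l (f₃ q.2.2.1)) +
        round (co l (f₄ q.2.2.2)))
      have k2 := (hco _ l).trans (mul_le_mul_of_nonneg_left a6 (by linarith))
      have k3 : dl q l - ((n - round (co l (f₁ q.1)) - round (co l (f₂ q.2.1)) + round (co l (f₃ q.2.2.1)) +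
          round (co l (f₄ q.2.2.2)) : ℤ) : ℝ) =
          co l (f₁ q.1 + f₂ q.2.1 - f₃ q.2.2.1 - f₄ q.2.2.2 - ω) := by
        simp only [hdl, hg, map_sub, map_add, hn]; push_cast; ring
      rw [k3, k] at k1
      have k4 : g f₁ q.1 l * s l + g f₂ q.2.1 l * s l - g f₃ q.2.2.1 l * s l -
          (g f₄ q.2.2.2 l + c l) * s l = (dl q l - c l) * s l := by simp only [hdl]; ring
      rw [k4, abs_mul, abs_of_pos (hs0 l), hs, ← mul_div_assoc, div_le_one (by positivity)]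
      exact (mul_le_mul_of_nonneg_right k1 (norm_nonneg _)).trans k2)
    (by
      have g1 := h.dense.trans (hcc.trans (mul_le_mul_of_nonneg_right hcard (Nat.cast_nonneg _)))
      have g2 := mul_le_mul_of_nonneg_left g1 (Real.exp_pos (-(2 * m))).le
      rw [← mul_assoc, ← mul_assoc, ← Real.exp_add, ← Real.exp_add, neg_add_cancel, Real.exp_zero,
        one_mul] at g2
      exact le_trans (mul_le_mul_of_nonneg_right (Real.exp_le_exp.2 (by linarith))
        (by positivity)) g2)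
  have hle : (m ^ 3) ^ C ≤ m ^ (3 * (C + 1)) := by
    rw [← pow_mul]; exact pow_le_pow_right₀ hm1 (by omega)
  let lift : (κ → ℤ) → W := fun z => ∑ j, ((z j : ℝ) / s j) • v j
  refine ⟨H', hH', le_trans (mul_le_mul_of_nonneg_right (Real.exp_le_exp.2 (neg_le_neg hle)) hN0) c1,
    r, hr.trans hle, β, fun i => lift (a i), fun j => lift (b j), lift γ, hβ, fun x hx =>
    ⟨_, hΩ' x (hH' hx), ?_⟩⟩
  have e : f₁ x - (lift γ + ∑ i, (x i : ℝ) • lift (a i) + ∑ j, (⌊∑ i, β j i * x i⌋ : ℝ) • lift (b j)) -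
      ∑ j, ((round (co j (f₁ x)) : ℤ) : ℝ) • v j =
      ∑ l, ((g f₁ x l * s l - (γ l + ∑ i, (x i : ℝ) * a i l +
        ∑ j, (⌊∑ i, β j i * x i⌋ : ℝ) * b j l)) / s l) • v l := by
    have e1 : ∀ {τ : Type} [Fintype τ] (t : τ → ℝ) (z : τ → κ → ℤ),
        ∑ i, t i • lift (z i) = ∑ l, ((∑ i, t i * z i l) / s l) • v l := by
      intro τ _ t z
      simp only [lift, smul_sum, smul_smul, sum_div, sum_smul, mul_div_assoc]
      exact sum_comm
    rw [e1, e1, sub_eq_iff_eq_add, sub_eq_iff_eq_add]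
    refine (hsum (f₁ x)).symm.trans ?_
    simp only [lift, ← sum_add_distrib, ← add_smul]
    refine sum_congr rfl fun l _ => ?_
    congr 1
    have := (hs0 l).ne'
    simp only [hg]
    field_simp
    ring
  change ‖A _‖ ≤ _
  rw [e, map_sum]
  refine (norm_sum_le _ _).trans ((sum_le_sum (g := fun _ => Lat.cst κ * B) fun l _ => ?_).trans ?_)
  · rw [map_smul, norm_smul, Real.norm_eq_abs, abs_div, abs_of_pos (hs0 l)]
    refine (mul_le_mul_of_nonneg_right (div_le_div_of_nonneg_right (hF x hx l) (hs0 l).le)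
      (norm_nonneg _)).trans (le_of_eq ?_)
    have := (hv l).ne'
    rw [hs]; field_simp
  · rw [sum_const, card_univ, nsmul_eq_mul, ← mul_assoc]
    refine mul_le_mul_of_nonneg_right ?_ hB.le
    have h1 : 2 * m ≤ Real.exp m := by
      have := Real.add_one_le_exp (m / 2)
      have h2 : Real.exp m = Real.exp (m / 2) * Real.exp (m / 2) := by rw [← Real.exp_add]; ring_nf
      nlinarith [sq_nonneg (m / 2 - 1)]
    have h0 : (0 : ℝ) ≤ Fintype.card κ := Nat.cast_nonneg _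
    calc (Fintype.card κ : ℝ) * Lat.cst κ ≤ Real.exp m * Real.exp m ^ Fintype.card κ := by
          unfold Lat.cst
          gcongr <;> linarith
      _ = Real.exp (m + Fintype.card κ * m) := by rw [Real.exp_add, Real.exp_nat_mul]
      _ ≤ _ := Real.exp_le_exp.2 (by
          have h3 : m ^ 3 ≤ m ^ (3 * (C + 1)) := pow_le_pow_right₀ hm1 (by omega)
          have h4 : (Fintype.card κ : ℝ) * m ≤ m * m := by gcongr
          have h5 : 2 * (m * m) ≤ m * (m * m) := by gcongr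
          nlinarith)

/-- a discrete subgroup is the set of short vectors of a full lattice -/
theorem exists_full {W : Type} [NormedAddCommGroup W] [NormedSpace ℝ W] [FiniteDimensional ℝ W]
    (Ω : Submodule ℤ W) {R : ℝ} (hR : 0 ≤ R) : ∃ Ω' : Submodule ℤ W, Ω ≤ Ω' ∧
      Submodule.span ℝ (Ω' : Set W) = ⊤ ∧ ∀ x ∈ Ω', ‖x‖ ≤ R → x ∈ Ω := by
  obtain ⟨W₁, hW⟩ := (Submodule.span ℝ (Ω : Set W)).exists_isCompl
  let b := Module.finBasis ℝ W₁
  let φ : W →ₗ[ℝ] Fin (Module.finrank ℝ W₁) → ℝ :=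
    b.equivFun.toLinearMap ∘ₗ W₁.projectionOnto _ hW.symm
  obtain ⟨K, hK, hφ⟩ := (LinearMap.toContinuousLinearMap φ).bound
  have hT : 0 < K * R + 1 := by positivity
  refine ⟨Ω ⊔ Submodule.span ℤ (Set.range fun i => (K * R + 1) • (b i : W)), le_sup_left, ?_,
    fun x hx hn => ?_⟩
  · rw [eq_top_iff, ← hW.sup_eq_top]
    refine sup_le (Submodule.span_mono fun x hx => Submodule.mem_sup_left hx) fun y hy => ?_
    have h1 := congrArg Subtype.val (b.sum_repr ⟨y, hy⟩)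
    simp only [Submodule.coe_sum, Submodule.coe_smul] at h1
    rw [← h1]
    refine Submodule.sum_mem _ fun i _ => ?_
    rw [← div_mul_cancel₀ (b.repr ⟨y, hy⟩ i) hT.ne', mul_smul]
    exact Submodule.smul_mem _ _ (Submodule.subset_span
      (Submodule.mem_sup_right (Submodule.subset_span ⟨i, rfl⟩)))
  · obtain ⟨ω, hω, y, hy, rfl⟩ := Submodule.mem_sup.1 hx
    obtain ⟨z, rfl⟩ := (Submodule.mem_span_range_iff_exists_fun _).1 hy
    have h0 : φ ω = 0 := by
      simp [φ, Submodule.projectionOnto_apply_of_mem_right hW.symm (Submodule.subset_span hω)]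
    have h1 : ∀ i, z i = 0 := fun i => by
      have h2 : φ (ω + ∑ j, z j • (K * R + 1) • (b j : W)) i = z i * (K * R + 1) := by
        rw [map_add, h0, zero_add, map_sum]
        simp [φ, Finsupp.single_apply, mul_comm]
      have h3 := (norm_le_pi_norm _ i).trans ((hφ _).trans (mul_le_mul_of_nonneg_left hn hK.le))
      rw [LinearMap.coe_toContinuousLinearMap', h2, Real.norm_eq_abs, abs_mul, abs_of_pos hT] at h3
      have h4 : |(z i : ℝ)| < 1 := by
        by_contra h5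
        nlinarith [not_lt.1 h5]
      exact Int.abs_lt_one_iff.1 (by exact_mod_cast h4)
    simpa [h1] using hω

/-- **twisted AH modulo a discrete subgroup** -/
theorem twisted_disc : ∃ C : ℕ, 1 ≤ C ∧ ∀ {m : ℝ}, 2 ≤ m → ∀ {ι W : Type} [Fintype ι]
    [NormedAddCommGroup W] [NormedSpace ℝ W] [FiniteDimensional ℝ W] (Ω : AddSubgroup W) {ε : ℝ},
    0 < ε → (∀ ω ∈ Ω, ‖ω‖ < ε → ω = 0) → (Fintype.card ι : ℝ) ≤ m →
    (Module.finrank ℝ W : ℝ) ≤ m →
    ∀ {L : ι → ℕ} {H₁ H₂ H₃ H₄ : Finset (ι → ℤ)} {f₁ f₂ f₃ f₄ : (ι → ℤ) → W}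
      {Q : Finset ((ι → ℤ) × (ι → ℤ) × (ι → ℤ) × (ι → ℤ))} {B : ℝ}, 0 < B →
      TwIn (fun x => ‖x‖) (· ∈ Ω) L H₁ H₂ H₃ H₄ f₁ f₂ f₃ f₄ Q m B →
      TwOut (fun x => ‖x‖) (· ∈ Ω) L H₁ f₁ (m ^ C) B := by
  obtain ⟨C, hC1, hC⟩ := core_rd
  refine ⟨C, hC1, fun {m} hm ι W _ _ _ _ Ω ε hε hΩ hι hW L H₁ H₂ H₃ H₄ f₁ f₂ f₃ f₄ Q B hB h => ?_⟩
  set K := Lat.cst (Fin (Module.finrank ℝ W)) with hK
  have hK1 : 1 ≤ K := Lat.one_le_cst _
  have hs0 : 0 ≤ ∑ x ∈ H₁, ‖f₁ x‖ := sum_nonneg fun _ _ => norm_nonneg _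
  obtain ⟨Λ, h1, h2, h3⟩ := exists_full Ω.toIntSubmodule
    (R := ε + 2 * (K * ∑ x ∈ H₁, ‖f₁ x‖)) (by positivity)
  have : DiscreteTopology Λ := discreteTopology_of_isOpen_singleton_zero (by
    have : ({0} : Set Λ) = Metric.ball 0 ε := by
      ext x
      rw [mem_ball_zero_iff, Set.mem_singleton_iff]
      refine ⟨fun e => by simpa [e] using hε, fun e => Subtype.ext (hΩ _ (h3 _ x.2 ?_) e)⟩
      exact le_trans (le_of_lt e) (le_add_of_nonneg_right (by positivity))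
    exact this ▸ Metric.isOpen_ball)
  have : IsZLattice ℝ Λ := ⟨h2⟩
  obtain ⟨b, hb, hq⟩ := Lat.exists_red _ W Λ rfl
  have hsp : ⊤ ≤ Submodule.span ℝ (Set.range b) := by
    rw [← h2, ← hb, Submodule.span_span_of_tower]
  let v := basisOfTopLeSpanOfCardEqFinrank b hsp (Fintype.card_fin _)
  have hv : ∀ j, v j = b j := fun j => by simp [v]
  have hsum : ∀ x, ∑ j, v.coord j x • b j = x := fun x => by
    simpa only [hv, Module.Basis.coord_apply] using v.sum_repr x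
  have hco : ∀ x j, |v.coord j x| * ‖b j‖ ≤ K * ‖x‖ := fun x j => by
    have := hq (fun j => v.coord j x) j
    rw [hsum] at this
    simpa [hK, Lat.cst] using this
  refine hC hm LinearMap.id (· ∈ Ω) (· ∈ Ω) b v.coord hι (by simpa using hW) hsum
    (fun j => norm_pos_iff.2 (hv j ▸ v.ne_zero j)) hco (fun ω hω j => ?_) hB (fun x hx => ?_) h
  · have hω' : ω ∈ Λ := h1 hω
    rw [← hb, Submodule.mem_span_range_iff_exists_fun] at hω'
    obtain ⟨z, rfl⟩ := hω'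
    refine ⟨z j, ?_⟩
    simp [← hv, Finsupp.single_apply]
  · refine Ω.sum_mem fun j _ => ?_
    rw [Int.cast_smul_eq_zsmul]
    by_cases h0 : round (v.coord j (f₁ x)) = 0
    · rw [h0, zero_smul]; exact Ω.zero_mem
    refine Ω.zsmul_mem (h3 _ (hb ▸ Submodule.subset_span ⟨j, rfl⟩) ?_) _
    have h4 : 1 / 2 ≤ |v.coord j (f₁ x)| := by
      have h5 : (1 : ℝ) ≤ |(round (v.coord j (f₁ x)) : ℝ)| := by exact_mod_cast Int.one_le_abs h0
      have h6 := abs_sub_round (v.coord j (f₁ x))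
      have h7 := abs_sub_abs_le_abs_sub (round (v.coord j (f₁ x)) : ℝ) (v.coord j (f₁ x))
      rw [abs_sub_comm] at h7
      linarith
    have h5 := (mul_le_mul_of_nonneg_right h4 (norm_nonneg _)).trans ((hco _ j).trans
      (mul_le_mul_of_nonneg_left (single_le_sum (f := fun x => ‖f₁ x‖) (fun _ _ => norm_nonneg _) hx) (by linarith)))
    linarith

end Crest.Agent.T49.AH

namespace Crest.Agent.T49.Br

open Finset AH

theorem twAHStmt : TwAHStmt := by
  obtain ⟨C, hC1, hC⟩ := twisted_disc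
  refine ⟨C + 1, by omega, ?_⟩
  intro m hm ρ W _ _ _ _ ν Ω L B f Q hρ hW hadd hsm hν hΩ hB hQ hd
  classical
  let _ : NormedAddCommGroup W := AddGroupNorm.toNormedAddCommGroup
    { toFun := ν
      map_zero' := by simpa using hsm 0 0
      add_le' := hadd
      neg' := fun v => by simpa using hsm (-1) v
      eq_zero_of_map_eq_zero' := hν }
  let _ : NormedSpace ℝ W := ⟨fun t v => (hsm t v).le⟩
  have hinj : Function.Injective fun q : Fin 4 → ρ → ℤ => (q 0, q 1, q 2, q 3) := fun q q' e => by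
    simp only [Prod.mk.injEq] at e
    funext i
    fin_cases i
    exacts [e.1, e.2.1, e.2.2.1, e.2.2.2]
  obtain ⟨H', hH', c1, r, hr, β, a, b, γ, -, hF⟩ := hC hm Ω (Real.exp_pos (m ^ (C + 1)))
    (fun ω hω hn => hΩ ω hω hn.le) hρ hW (L := L) (H₁ := Q.image fun q => q 0) (H₂ := B) (H₃ := B)
    (H₄ := B) (f₁ := f 0) (f₂ := f 1) (f₃ := fun h => -f 2 h) (f₄ := fun h => -f 3 h)
    (Q := Q.image fun q => (q 0, q 1, q 2, q 3)) (Real.exp_pos m)
    ⟨hB.1, fun x hx y hy => by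
      obtain ⟨q, hq, rfl⟩ := mem_image.1 hx
      obtain ⟨q', hq', rfl⟩ := mem_image.1 hy
      exact hB.2 _ ((hQ q hq).1.1 0) _ ((hQ q' hq').1.1 0), hB.2, hB.2, hB.2, fun q' hq' => by
      obtain ⟨q, hq, rfl⟩ := mem_image.1 hq'
      obtain ⟨⟨a1, a2⟩, ω, hω, a3⟩ := hQ q hq
      refine ⟨mem_image_of_mem _ hq, a1 1, a1 2, a1 3, a2, ω, hω, ?_⟩
      rw [Fin.sum_univ_four] at a3
      simp only [sub_neg_eq_add]
      exact a3, by rwa [card_image_of_injective _ hinj]⟩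
  have hle : m ^ C ≤ m ^ (C + 1) := pow_le_pow_right₀ (by linarith) (by omega)
  refine ⟨H', fun h hh => by simpa using hH' hh, le_trans (mul_le_mul_of_nonneg_right
    (Real.exp_le_exp.2 (by linarith)) (prod_nonneg fun i _ => Nat.cast_nonneg _)) c1, r, β, γ, a, b,
    hr.trans hle, fun h hh => ?_⟩
  obtain ⟨ω, hω, h4⟩ := hF h hh
  refine ⟨ω, hω, ?_⟩
  rw [lamR, ← add_assoc]
  refine le_trans h4 ?_
  rw [← Real.exp_add]
  have : m ≤ m ^ C := le_self_pow₀ (by linarith) (by omega)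
  exact Real.exp_le_exp.2 (by rw [pow_succ]; nlinarith)

end Crest.Agent.T49.Br
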