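import Crest.Agent.T49.BrAff_52

/-!
# Row 49 (helper52): `Br.AuxRStmt`
-/

set_option autoImplicit false

noncomputable section

namespace Crest.Agent.T49.Br

open Finset

namespace A52

/-- codegrees -/
theorem codeg {Γ X : Type} [DecidableEq X] (P : Finset Γ) (U : Finset X) (A : Γ → Finset X)
    (hA : ∀ h ∈ P, A h ⊆ U) :
    (∑ h ∈ P, (#(A h) : ℝ)) ^ 2 ≤ #U * ∑ h ∈ P, ∑ h' ∈ P, (#(A h ∩ A h') : ℝ) := by
  have e1 : ∀ h ∈ P, (#(A h) : ℝ) = ∑ x ∈ U, if x ∈ A h then 1 else 0 := fun h hh => by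
    rw [← sum_filter, filter_mem_eq_inter, inter_eq_right.2 (hA h hh)]; simp
  have e2 : ∀ h ∈ P, ∀ h' ∈ P, (#(A h ∩ A h') : ℝ) =
      ∑ x ∈ U, (if x ∈ A h then 1 else 0) * if x ∈ A h' then 1 else 0 := fun h hh h' _ => by
    have : ∀ x, ((if x ∈ A h then 1 else 0) * if x ∈ A h' then 1 else 0 : ℝ) =
        if x ∈ A h ∩ A h' then 1 else 0 := fun x => by
      by_cases a : x ∈ A h <;> by_cases b : x ∈ A h' <;> simp [a, b]
    simp only [this]
    rw [← sum_filter, filter_mem_eq_inter,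
      inter_eq_right.2 (inter_subset_left.trans (hA h hh))]; simp
  rw [sum_congr rfl e1, sum_congr rfl fun h hh => sum_congr rfl (e2 h hh), sum_comm]
  refine sq_sum_le_card_mul_sum_sq.trans (le_of_eq ?_)
  congr 1
  simp only [sq, sum_mul_sum]
  rw [sum_comm]
  exact sum_congr rfl fun h _ => sum_comm

theorem ot_facts : ∀ (i : Fin 4) (a : Fin 3) (j : Fin 4), j ≠ ot i a →
    j = i ∨ j = ot i (a + 1) ∨ j = ot i (a + 2) := by decide

theorem quad_ext {Γ : Type} [AddCommGroup Γ] {B : Finset Γ} {q q' : Fin 4 → Γ} (hq : IsQ B q)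
    (hq' : IsQ B q') (k : Fin 4) (h : ∀ j, j ≠ k → q j = q' j) : q = q' := by
  have e1 := hq.2
  have e2 := hq'.2
  funext j
  by_cases hj : j = k
  · subst hj
    fin_cases j
    · rw [h 1 (by decide), h 2 (by decide), h 3 (by decide), ← e2] at e1
      exact add_right_cancel e1
    · rw [h 0 (by decide), h 2 (by decide), h 3 (by decide), ← e2] at e1
      exact add_left_cancel e1
    · rw [h 0 (by decide), h 1 (by decide), h 3 (by decide), e2] at e1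
      exact (add_right_cancel e1).symm
    · rw [h 0 (by decide), h 1 (by decide), h 2 (by decide), e2] at e1
      exact (add_left_cancel e1).symm
  · exact h j hj

section
variable {Γ : Type} [AddCommGroup Γ] [DecidableEq Γ] {B : Finset Γ} {Q : Finset (Fin 4 → Γ)}

/-- the links of `h` on the line `a` -/
def lk (Q : Finset (Fin 4 → Γ)) (i : Fin 4) (a : Fin 3) (h : Γ) : Finset (Γ × Γ) :=
  ({q ∈ Q | q i = h}).image fun q => (q (ot i (a + 1)), q (ot i (a + 2)))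

theorem lk_sub (hQ : ∀ q ∈ Q, IsQ B q) (i : Fin 4) (a : Fin 3) (h : Γ) : lk Q i a h ⊆ B ×ˢ B := by
  intro x hx
  obtain ⟨q, hq, rfl⟩ := mem_image.1 hx
  exact mem_product.2 ⟨(hQ q (mem_filter.1 hq).1).1 _, (hQ q (mem_filter.1 hq).1).1 _⟩

theorem card_lk (hQ : ∀ q ∈ Q, IsQ B q) (i : Fin 4) (a : Fin 3) (h : Γ) :
    #(lk Q i a h) = #{q ∈ Q | q i = h} := by
  refine card_image_of_injOn fun x hx y hy e => ?_
  obtain ⟨hx1, hx2⟩ := mem_filter.1 (mem_coe.1 hx)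
  obtain ⟨hy1, hy2⟩ := mem_filter.1 (mem_coe.1 hy)
  simp only [Prod.mk.injEq] at e
  refine quad_ext (hQ x hx1) (hQ y hy1) (ot i a) fun j hj => ?_
  rcases ot_facts i a j hj with rfl | rfl | rfl
  exacts [hx2.trans hy2.symm, e.1, e.2]

open Classical in
theorem edge_of (G : (Fin 6 → Γ) → Prop) (i : Fin 4) {h h' : Γ} (hQ : ∀ q ∈ Q, IsQ B q)
    (H : ∀ a, #{z ∈ (B ×ˢ B) ×ˢ (B ×ˢ B) | ¬ G ![h, h', z.1.1, z.1.2, z.2.1, z.2.2]} <
      #(lk Q i a h ∩ lk Q i a h') ^ 2) : Edge Q G i h h' := by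
  intro a
  have := H a
  rw [sq, ← card_product] at this
  obtain ⟨z, hz, hz'⟩ := exists_mem_notMem_of_card_lt_card this
  obtain ⟨z1, z2⟩ := mem_product.1 hz
  have hG : G ![h, h', z.1.1, z.1.2, z.2.1, z.2.2] := by
    by_contra hG
    exact hz' (mem_filter.2 ⟨mem_product.2 ⟨lk_sub hQ i a h (mem_inter.1 z1).1,
      lk_sub hQ i a h (mem_inter.1 z2).1⟩, hG⟩)
  obtain ⟨q0, a0, b0⟩ := mem_image.1 (mem_inter.1 z1).1
  obtain ⟨q0', a0', b0'⟩ := mem_image.1 (mem_inter.1 z1).2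
  obtain ⟨q1, a1, b1⟩ := mem_image.1 (mem_inter.1 z2).1
  obtain ⟨q1', a1', b1'⟩ := mem_image.1 (mem_inter.1 z2).2
  rw [mem_filter] at a0 a0' a1 a1'
  refine ⟨![q0, q1], ![q0', q1'], fun e => ?_, ?_⟩
  · fin_cases e
    · exact ⟨a0.1, a0'.1, a0.2, a0'.2, congrArg Prod.fst (b0.trans b0'.symm),
        congrArg Prod.snd (b0.trans b0'.symm)⟩
    · exact ⟨a1.1, a1'.1, a1.2, a1'.2, congrArg Prod.fst (b1.trans b1'.symm),
        congrArg Prod.snd (b1.trans b1'.symm)⟩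
  · rw [← b0, ← b1] at hG
    exact hG

open Classical in
omit [AddCommGroup Γ] [DecidableEq Γ] in
theorem sum_bad {X Y : Type} {k : ℕ} {N ε : ℝ} {G : (Fin k → Γ) → Prop}
    (hG : Most B N ε G) (S : Finset X) (T : Finset Y) (t : X → Y → Fin k → Γ)
    (ht : ∀ x ∈ S, ∀ y ∈ T, ∀ j, t x y j ∈ B)
    (hi : ∀ x y x' y', t x y = t x' y' → x = x' ∧ y = y') :
    ∑ x ∈ S, (#{y ∈ T | ¬ G (t x y)} : ℝ) ≤ ε * N ^ k := by
  refine le_trans ?_ hG
  have e : ∑ x ∈ S, #{y ∈ T | ¬ G (t x y)} = #{z ∈ S ×ˢ T | ¬ G (t z.1 z.2)} := by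
    simp only [card_filter]
    rw [sum_product]
  norm_cast
  rw [e]
  refine card_le_card_of_injOn (fun z => t z.1 z.2) (fun z hz => ?_) fun z _ z' _ h => ?_
  · obtain ⟨h1, h2⟩ := mem_filter.1 (mem_coe.1 hz)
    exact mem_coe.2 (mem_filter.2 ⟨Fintype.mem_piFinset.2
      (ht _ (mem_product.1 h1).1 _ (mem_product.1 h1).2), h2⟩)
  · exact Prod.ext (hi _ _ _ _ h).1 (hi _ _ _ _ h).2

open Classical in
/-- many pairs of popular values are edges -/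
theorem many_edges {N d : ℝ} (hN : 0 < N) (hd : 0 < d) (hB : (#B : ℝ) ≤ N)
    (hQ : ∀ q ∈ Q, IsQ B q) (i : Fin 4) {G : (Fin 6 → Γ) → Prop} {P : Finset Γ} (hP : P ⊆ B)
    (hPc : d * N ≤ #P) (hdeg : ∀ h ∈ P, d * N ^ 2 ≤ #{q ∈ Q | q i = h})
    (hG : Most B N ((d ^ 8 / 3) ^ 3) G) :
    d ^ 8 / 3 * N ^ 2 ≤ ∑ h ∈ P, (#{h' ∈ P | Edge Q G i h h'} : ℝ) := by
  set κ := d ^ 8 / 3 with hκ
  have hκ0 : 0 < κ := by positivity
  have hPN : (#P : ℝ) ≤ N := le_trans (by exact_mod_cast card_le_card hP) hB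
  have hBB : (#(B ×ˢ B) : ℝ) ≤ N ^ 2 := by
    rw [card_product, sq]; push_cast; gcongr
  have h1 := codeg P (Fintype.piFinset fun _ : Fin 3 => B ×ˢ B)
    (fun h => Fintype.piFinset fun a => lk Q i a h)
    fun h _ => Fintype.piFinset_subset _ _ fun a => lk_sub hQ i a h
  have h2 : d ^ 4 * N ^ 7 ≤ ∑ h ∈ P, (#(Fintype.piFinset fun a => lk Q i a h) : ℝ) := by
    calc d ^ 4 * N ^ 7 = d * N * (d * N ^ 2) ^ 3 := by ring
      _ ≤ #P * (d * N ^ 2) ^ 3 := by gcongr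
      _ = ∑ _h ∈ P, (d * N ^ 2) ^ 3 := by simp
      _ ≤ _ := sum_le_sum fun h hh => by
        simp only [Fintype.card_piFinset, card_lk hQ, prod_const, card_univ, Fintype.card_fin,
          Nat.cast_pow]
        exact pow_le_pow_left₀ (by positivity) (hdeg h hh) 3
  have h3 : (#(Fintype.piFinset fun _ : Fin 3 => B ×ˢ B) : ℝ) ≤ N ^ 6 := by
    simp only [Fintype.card_piFinset, prod_const, card_univ, Fintype.card_fin, Nat.cast_pow]
    calc _ ≤ (N ^ 2) ^ 3 := pow_le_pow_left₀ (by positivity) hBB 3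
      _ = _ := by ring
  let bad : Γ × Γ → ℝ := fun x =>
    #{z ∈ (B ×ˢ B) ×ˢ (B ×ˢ B) | ¬ G ![x.1, x.2, z.1.1, z.1.2, z.2.1, z.2.2]}
  have h4 : ∑ x ∈ P ×ˢ P, bad x ≤ κ ^ 3 * N ^ 6 :=
    sum_bad hG (P ×ˢ P) ((B ×ˢ B) ×ˢ (B ×ˢ B))
      (fun x z => ![x.1, x.2, z.1.1, z.1.2, z.2.1, z.2.2]) (fun x hx z hz j => by
        simp only [mem_product] at hx hz
        fin_cases j
        exacts [hP hx.1, hP hx.2, hz.1.1, hz.1.2, hz.2.1, hz.2.2]) fun x z x' z' h =>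
      ⟨Prod.ext (congrFun h 0) (congrFun h 1), Prod.ext (Prod.ext (congrFun h 2) (congrFun h 3))
        (Prod.ext (congrFun h 4) (congrFun h 5))⟩
  have h5 : ∀ h ∈ P, ∀ h' ∈ P, (#((Fintype.piFinset fun a => lk Q i a h) ∩
      Fintype.piFinset fun a => lk Q i a h') : ℝ) ≤
      N ^ 6 * (if Edge Q G i h h' then 1 else 0) + κ * N ^ 6 + N ^ 2 / κ ^ 2 * bad (h, h') := by
    intro h _ h' _
    have hc : ∀ a, (#(lk Q i a h ∩ lk Q i a h') : ℝ) ≤ N ^ 2 := fun a =>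
      le_trans (by exact_mod_cast card_le_card (inter_subset_left.trans (lk_sub hQ i a h))) hBB
    have hb0 : 0 ≤ bad (h, h') := Nat.cast_nonneg _
    have e : ((Fintype.piFinset fun a => lk Q i a h) ∩ Fintype.piFinset fun a => lk Q i a h') =
        Fintype.piFinset fun a => lk Q i a h ∩ lk Q i a h' := by
      ext x; simp [Fintype.mem_piFinset, forall_and]
    rw [e, Fintype.card_piFinset, Nat.cast_prod]
    have hall : ∏ a, (#(lk Q i a h ∩ lk Q i a h') : ℝ) ≤ N ^ 6 := by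
      calc _ ≤ ∏ _a : Fin 3, N ^ 2 := prod_le_prod (fun _ _ => by positivity) fun a _ => hc a
        _ = _ := by simp; ring
    have p1 : 0 ≤ κ * N ^ 6 := by positivity
    have p2 : 0 ≤ N ^ 2 / κ ^ 2 * bad (h, h') := by positivity
    by_cases hE : Edge Q G i h h'
    · rw [if_pos hE]; linarith
    · rw [if_neg hE, mul_zero, zero_add]
      by_cases hs : ∃ a, (#(lk Q i a h ∩ lk Q i a h') : ℝ) ≤ κ * N ^ 2
      · obtain ⟨a, ha⟩ := hs
        rw [← mul_prod_erase _ _ (mem_univ a)]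
        have : ∏ a' ∈ univ.erase a, (#(lk Q i a' h ∩ lk Q i a' h') : ℝ) ≤ N ^ 4 := by
          calc _ ≤ ∏ _a ∈ univ.erase a, N ^ 2 :=
                prod_le_prod (fun _ _ => by positivity) fun a _ => hc a
            _ = _ := by simp; ring
        have := mul_le_mul ha this (prod_nonneg fun _ _ => by positivity) (by positivity)
        nlinarith
      · push Not at hs
        obtain ⟨a, ha⟩ : ∃ a, (#(lk Q i a h ∩ lk Q i a h') : ℝ) ^ 2 ≤ bad (h, h') := by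
          by_contra hcon
          push Not at hcon
          exact hE (edge_of G i hQ fun a => by
            have := hcon a
            simp only [bad] at this
            exact_mod_cast this)
        have q1 : (κ * N ^ 2) ^ 2 ≤ bad (h, h') :=
          (pow_le_pow_left₀ (by positivity) (hs a).le 2).trans ha
        have q2 : N ^ 6 ≤ N ^ 2 / κ ^ 2 * bad (h, h') := by
          calc N ^ 6 = N ^ 2 / κ ^ 2 * (κ * N ^ 2) ^ 2 := by field_simp
            _ ≤ _ := by gcongr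
        linarith
  have h6 := sum_le_sum fun h hh => sum_le_sum (h5 h hh)
  simp only [sum_add_distrib, ← mul_sum, sum_const, nsmul_eq_mul, sum_boole] at h6
  rw [← sum_product' (f := fun h h' => bad (h, h'))] at h6
  have h7 : N ^ 2 / κ ^ 2 * ∑ x ∈ P ×ˢ P, bad (x.1, x.2) ≤ κ * N ^ 8 := by
    calc _ ≤ N ^ 2 / κ ^ 2 * (κ ^ 3 * N ^ 6) := by gcongr
      _ = _ := by field_simp
  have h8 : (#P : ℝ) * (#P * (κ * N ^ 6)) ≤ κ * N ^ 8 := by
    calc _ ≤ N * (N * (κ * N ^ 6)) := by gcongr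
      _ = _ := by ring
  have h9 : (d ^ 4 * N ^ 7) ^ 2 ≤ N ^ 6 * (N ^ 6 * ∑ h ∈ P, (#{h' ∈ P | Edge Q G i h h'} : ℝ) +
      2 * (κ * N ^ 8)) :=
    (pow_le_pow_left₀ (by positivity) h2 2).trans (h1.trans (mul_le_mul h3 (by linarith)
      (sum_nonneg fun _ _ => sum_nonneg fun _ _ => by positivity) (by positivity)))
  have h10 : (d ^ 4 * N ^ 7) ^ 2 = N ^ 12 * (3 * κ * N ^ 2) := by rw [hκ]; ring
  refine le_of_mul_le_mul_left ?_ (show 0 < N ^ 12 by positivity)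
  nlinarith

open Classical in
omit [AddCommGroup Γ] in
/-- generic four-cycles -/
theorem exists_c4 {N κ : ℝ} (hN : 0 < N) (hκ : 0 < κ) (hB : (#B : ℝ) ≤ N) {P : Finset Γ}
    (hP : P ⊆ B) (E : Γ → Γ → Prop) {G : (Fin 4 → Γ) → Prop} (hG : Most B N (κ ^ 4 / 2) G)
    (hE : κ * N ^ 2 ≤ ∑ h ∈ P, (#{h' ∈ P | E h h'} : ℝ)) :
    ∃ a b0 b1, E a b0 ∧ E a b1 ∧
      κ ^ 4 / 2 * N ≤ #{h ∈ P | E h b0 ∧ E h b1 ∧ G ![h, a, b0, b1]} := by
  have hPN : (#P : ℝ) ≤ N := le_trans (by exact_mod_cast card_le_card hP) hB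
  have h1 := codeg P P (fun h => {h' ∈ P | E h h'}) fun _ _ => filter_subset _ _
  rw [← sum_product' (f := fun h h' => (#({x ∈ P | E h x} ∩ {x ∈ P | E h' x}) : ℝ))] at h1
  have h2 := sq_sum_le_card_mul_sum_sq (s := P ×ˢ P)
    (f := fun x => (#({y ∈ P | E x.1 y} ∩ {y ∈ P | E x.2 y}) : ℝ))
  have hPP : (#(P ×ˢ P) : ℝ) ≤ N ^ 2 := by
    rw [card_product, sq]; push_cast; gcongr
  obtain ⟨S1, hS1⟩ : ∃ S, S = ∑ x ∈ P ×ˢ P, (#({y ∈ P | E x.1 y} ∩ {y ∈ P | E x.2 y}) : ℝ) :=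
    ⟨_, rfl⟩
  obtain ⟨S2, hS2⟩ : ∃ S, S = ∑ x ∈ P ×ˢ P, (#({y ∈ P | E x.1 y} ∩ {y ∈ P | E x.2 y}) : ℝ) ^ 2 :=
    ⟨_, rfl⟩
  rw [← hS1] at h1 h2
  rw [← hS2] at h2
  have p1 : 0 ≤ S1 := hS1 ▸ sum_nonneg fun _ _ => Nat.cast_nonneg _
  have p2 : 0 ≤ S2 := hS2 ▸ sum_nonneg fun _ _ => sq_nonneg _
  have h3 : κ ^ 2 * N ^ 3 ≤ S1 := by
    refine le_of_mul_le_mul_left ?_ hN
    calc N * (κ ^ 2 * N ^ 3) = (κ * N ^ 2) ^ 2 := by ring
      _ ≤ #P * S1 := (pow_le_pow_left₀ (by positivity) hE 2).trans h1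
      _ ≤ _ := by gcongr
  have h4 : κ ^ 4 * N ^ 4 ≤ S2 := by
    refine le_of_mul_le_mul_left ?_ (show 0 < N ^ 2 by positivity)
    calc N ^ 2 * (κ ^ 4 * N ^ 4) = (κ ^ 2 * N ^ 3) ^ 2 := by ring
      _ ≤ #(P ×ˢ P) * S2 := (pow_le_pow_left₀ (by positivity) h3 2).trans h2
      _ ≤ _ := by gcongr
  have h5 : ∑ t ∈ P ×ˢ (P ×ˢ P), (#{h ∈ P | ¬ G ![h, t.1, t.2.1, t.2.2]} : ℝ) ≤
      κ ^ 4 / 2 * N ^ 4 :=
    sum_bad hG (P ×ˢ (P ×ˢ P)) P (fun t h => ![h, t.1, t.2.1, t.2.2]) (fun t ht h hh j => by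
        simp only [mem_product] at ht
        fin_cases j
        exacts [hP hh, hP ht.1, hP ht.2.1, hP ht.2.2]) fun x z x' z' h =>
      ⟨Prod.ext (congrFun h 1) (Prod.ext (congrFun h 2) (congrFun h 3)), congrFun h 0⟩
  have h6 : S2 = ∑ t ∈ P ×ˢ (P ×ˢ P),
      (#{h ∈ P | (E t.1 t.2.1 ∧ E t.1 t.2.2) ∧ E h t.2.1 ∧ E h t.2.2} : ℝ) := by
    have e : ∀ x : Γ × Γ, (#({y ∈ P | E x.1 y} ∩ {y ∈ P | E x.2 y}) : ℝ) ^ 2 =
        ∑ b ∈ P ×ˢ P, if (E x.1 b.1 ∧ E x.1 b.2) ∧ E x.2 b.1 ∧ E x.2 b.2 then 1 else 0 := by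
      intro x
      rw [sum_boole, sq, ← Nat.cast_mul, ← card_product]
      congr 2
      ext b
      simp only [mem_product, mem_inter, mem_filter]
      tauto
    simp only [hS2, e, card_filter, Nat.cast_sum, Nat.cast_ite, Nat.cast_one, Nat.cast_zero]
    rw [sum_product, sum_product]
    exact sum_congr rfl fun a _ => sum_comm
  by_contra hcon
  push Not at hcon
  have h7 : ∀ t ∈ P ×ˢ (P ×ˢ P),
      (#{h ∈ P | (E t.1 t.2.1 ∧ E t.1 t.2.2) ∧ E h t.2.1 ∧ E h t.2.2} : ℝ) <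
        κ ^ 4 / 2 * N + #{h ∈ P | ¬ G ![h, t.1, t.2.1, t.2.2]} := by
    intro t _
    by_cases ht : E t.1 t.2.1 ∧ E t.1 t.2.2
    · refine lt_of_le_of_lt ?_ (add_lt_add_left (hcon _ _ _ ht.1 ht.2) _)
      norm_cast
      refine le_trans (card_le_card fun h hh => ?_) (card_union_le _ _)
      rw [mem_filter] at hh
      by_cases hg : G ![h, t.1, t.2.1, t.2.2]
      · exact mem_union_left _ (mem_filter.2 ⟨hh.1, hh.2.2.1, hh.2.2.2, hg⟩)
      · exact mem_union_right _ (mem_filter.2 ⟨hh.1, hg⟩)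
    · rw [filter_false_of_mem fun h _ hh => ht hh.1]
      simp only [card_empty, Nat.cast_zero]
      positivity
  have hne : (P ×ˢ (P ×ˢ P)).Nonempty := by
    by_contra h
    rw [not_nonempty_iff_eq_empty.1 h, sum_empty] at h6
    have : 0 < κ ^ 4 * N ^ 4 := by positivity
    linarith
  have h8 := sum_lt_sum_of_nonempty hne h7
  rw [← h6, sum_add_distrib, sum_const, nsmul_eq_mul, card_product] at h8
  push_cast at h8
  have h9 : (#P : ℝ) * #(P ×ˢ P) * (κ ^ 4 / 2 * N) ≤ κ ^ 4 / 2 * N ^ 4 := by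
    calc _ ≤ N * N ^ 2 * (κ ^ 4 / 2 * N) := by gcongr
      _ = _ := by ring
  linarith

end

end A52

open A52 in
theorem auxRStmt : AuxRStmt := by
  refine ⟨7, by norm_num, ?_⟩
  intro m hm Γ _ B N Q G6 G4 i hN hB hQ hd h6 h4
  classical
  set d := Real.exp (-m) / 2 with hdd
  have hd0 : 0 < d := by positivity
  set P := {h ∈ B | d * N ^ 2 ≤ #{q ∈ Q | q i = h}} with hP
  have hBB : (#(B ×ˢ B) : ℝ) ≤ N ^ 2 := by
    rw [card_product, sq]; push_cast; gcongr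
  have hdeg : ∀ h, (#{q ∈ Q | q i = h} : ℝ) ≤ N ^ 2 := fun h => by
    rw [← card_lk hQ i 0 h]
    exact le_trans (by exact_mod_cast card_le_card (lk_sub hQ i 0 h)) hBB
  have hPc : d * N ≤ #P := by
    have h1 : (#Q : ℝ) = ∑ h ∈ B, (#{q ∈ Q | q i = h} : ℝ) := by
      exact_mod_cast card_eq_sum_card_fiberwise fun q hq => (hQ q hq).1 i
    have h2 : ∑ h ∈ B, (#{q ∈ Q | q i = h} : ℝ) ≤ ∑ h ∈ B,
        (N ^ 2 * (if d * N ^ 2 ≤ #{q ∈ Q | q i = h} then 1 else 0) + d * N ^ 2) :=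
      sum_le_sum fun h _ => by
        have := hdeg h
        have : 0 ≤ d * N ^ 2 := by positivity
        split_ifs with hh <;> linarith
    simp only [sum_add_distrib, ← mul_sum, sum_boole, sum_const, nsmul_eq_mul] at h2
    have h3 : (#B : ℝ) * (d * N ^ 2) ≤ N * (d * N ^ 2) := by gcongr
    refine le_of_mul_le_mul_left ?_ (show 0 < N ^ 2 by positivity)
    rw [← hP] at h2
    have : Real.exp (-m) = 2 * d := by rw [hdd]; ring
    rw [this] at hd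
    nlinarith
  have hem : Real.exp (-1) ≤ 1 / 2 := Real.exp_neg_one_lt_d9.le.trans (by norm_num)
  have hd1 : Real.exp (-(m + 1)) ≤ d := by
    rw [neg_add, Real.exp_add, hdd]
    nlinarith [Real.exp_pos (-m)]
  have hκ1 : Real.exp (-(8 * m + 10)) ≤ d ^ 8 / 3 := by
    have h1 : Real.exp (-(8 * m + 10)) = Real.exp (-(m + 1)) ^ 8 * Real.exp (-1) ^ 2 := by
      rw [← Real.exp_nat_mul, ← Real.exp_nat_mul, ← Real.exp_add]; congr 1; push_cast; ring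
    have h2 : Real.exp (-1) ^ 2 ≤ 1 / 3 := by nlinarith [Real.exp_pos (-1)]
    rw [h1, div_eq_mul_one_div]
    gcongr
  set κ := d ^ 8 / 3 with hκ
  have hκ0 : 0 < κ := by positivity
  have hm7 : 33 * m + 42 ≤ m ^ 7 := by
    have h5 : (2 : ℝ) ^ 6 ≤ m ^ 6 := pow_le_pow_left₀ (by norm_num) hm 6
    have : m ^ 7 = m ^ 6 * m := by ring
    nlinarith
  have hκ4 : Real.exp (-(32 * m + 41)) ≤ κ ^ 4 / 2 := by
    have h1 : Real.exp (-(32 * m + 41)) = Real.exp (-(8 * m + 10)) ^ 4 * Real.exp (-1) := by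
      rw [← Real.exp_nat_mul, ← Real.exp_add]; congr 1; push_cast; ring
    rw [h1, div_eq_mul_one_div]
    gcongr
  have hκ3 : Real.exp (-m ^ 7) ≤ κ ^ 3 := by
    refine le_trans ?_ (pow_le_pow_left₀ (Real.exp_pos _).le hκ1 3)
    rw [← Real.exp_nat_mul]
    exact Real.exp_le_exp.2 (by push_cast; linarith)
  have hE := many_edges hN hd0 hB hQ i (filter_subset _ _) hPc (fun h hh => (mem_filter.1 hh).2)
    (h6.mono hN.le hκ3 fun _ h => h)
  obtain ⟨a, b0, b1, e0, e1, hc⟩ := exists_c4 hN hκ0 hB (filter_subset _ _) (Edge Q G6 i)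
    (h4.mono hN.le ((Real.exp_le_exp.2 (by linarith)).trans hκ4) fun _ h => h) hE
  set H := {h ∈ P | Edge Q G6 i h b0 ∧ Edge Q G6 i h b1 ∧ G4 ![h, a, b0, b1]} with hH
  refine ⟨a, ![b0, b1], {q ∈ Q | q i ∈ H}, filter_subset _ _, ?_, fun j => ?_, fun q hq => ⟨fun j => ?_,
    (mem_filter.1 (mem_filter.1 hq).2).2.2.2⟩⟩
  · have h1 : (#{q ∈ Q | q i ∈ H} : ℝ) = ∑ h ∈ H, (#{q ∈ Q | q i = h} : ℝ) := by
      rw [card_eq_sum_card_fiberwise (f := fun q : Fin 4 → Γ => q i) (s := {q ∈ Q | q i ∈ H})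
        (t := H) fun q hq => (mem_filter.1 hq).2]
      push_cast
      refine sum_congr rfl fun h hh => ?_
      congr 2
      ext q
      simp only [mem_filter]
      exact ⟨fun x => ⟨x.1.1, x.2⟩, fun x => ⟨⟨x.1, x.2 ▸ hh⟩, x.2⟩⟩
    have h2 : (#H : ℝ) * (d * N ^ 2) ≤ ∑ h ∈ H, (#{q ∈ Q | q i = h} : ℝ) := by
      rw [← nsmul_eq_mul]
      exact card_nsmul_le_sum _ _ _ fun h hh => (mem_filter.1 (mem_filter.1 hh).1).2
    rw [h1]
    refine le_trans ?_ h2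
    calc Real.exp (-m ^ 7) * N ^ 3 ≤
          Real.exp (-(32 * m + 41)) * Real.exp (-(m + 1)) * N ^ 3 := by
          rw [← Real.exp_add]
          gcongr
          linarith
      _ ≤ κ ^ 4 / 2 * d * N ^ 3 := by gcongr
      _ = κ ^ 4 / 2 * N * (d * N ^ 2) := by ring
      _ ≤ _ := by gcongr
  · fin_cases j
    exacts [e0, e1]
  · fin_cases j
    exacts [(mem_filter.1 (mem_filter.1 hq).2).2.1, (mem_filter.1 (mem_filter.1 hq).2).2.2.1]

end Crest.Agent.T49.Br
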