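import Crest.Agent.T49.BrDef_62
import Crest.Agent.T49.BchND_16
import Crest.Agent.T49.Gf_84

/-!
# Row 49 (helper14): `ClosRStmt`, closure properties of symbols over a coefficient structure
-/

set_option autoImplicit false

noncomputable section

namespace Crest.Agent.T49.Br

open Finset MvPolynomial Crest.Agent.T49.Nil Crest.Agent.T49.Nil.ND Crest.Agent.T49.GI
open Crest.Agent.T49.Bch (star expAd Gauge cb star_assoc map_star neg_star_star star_star_neg)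
open Crest.Agent.T49.Tw (Pl nrm DegLe)

variable {ι ι' : Type} [Fintype ι] [Fintype ι'] {σ τ : Type}

namespace C14

/-- the `ℓ¹` norm of the coefficients as a gauge -/
def gN (g : ND ι) (σ : Type) {B : ℝ} (hB : ∀ i j k, |(g.c i j k : ℝ)| ≤ B) (hB0 : 0 ≤ B) :
    Gauge (g.PS σ) ((Fintype.card ι : ℝ) ^ 2 * B) where
  le x a := 0 ≤ a ∧ ∀ k, nrm (x k) ≤ a
  nonneg h := h.1
  zero := ⟨le_rfl, fun k => by simp⟩
  mono h hab := ⟨h.1.trans hab, fun k => (h.2 k).trans hab⟩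
  add h h' := ⟨add_nonneg h.1 h'.1, fun k =>
    (Tw.nrm_add_le _ _).trans (add_le_add (h.2 k) (h'.2 k))⟩
  smul c _ _ h := ⟨mul_nonneg (abs_nonneg c) h.1, fun k => by
    rw [ND.smul_apply, Tw.nrm_smul]
    exact mul_le_mul_of_nonneg_left (h.2 k) (abs_nonneg c)⟩
  lie {x y a b} h h' := ⟨by have := h.1; have := h'.1; positivity, fun k => by
    have ha := h.1
    have hb := h'.1
    rw [lie_apply]
    calc nrm (∑ i, ∑ j, (g.c i j k : Pl σ) * x i * y j)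
        ≤ ∑ i, ∑ j, nrm ((g.c i j k : Pl σ) * x i * y j) :=
          (Tw.nrm_sum_le _ _).trans (sum_le_sum fun i _ => Tw.nrm_sum_le _ _)
      _ ≤ ∑ _i : ι, ∑ _j : ι, B * a * b := by
          refine sum_le_sum fun i _ => sum_le_sum fun j _ => ?_
          rw [mul_assoc, ← map_intCast (C : ℝ →+* Pl σ), Tw.nrm_C_mul, mul_assoc]
          exact mul_le_mul (hB i j k) ((Tw.nrm_mul_le _ _).trans
            (mul_le_mul (h.2 i) (h'.2 j) (Tw.nrm_nonneg _) ha)) (Tw.nrm_nonneg _) hB0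
      _ = _ := by simp only [sum_const, card_univ, nsmul_eq_mul]; ring⟩

theorem lie_mem_Hm {g : ND ι} (hg : Graded g) {lev : σ → ℕ} {x y : g.PS σ} (hx : x ∈ Hm lev g)
    (hy : y ∈ Hm lev g) : ⁅x, y⁆ ∈ Hm lev g := fun k => by
  rw [lie_apply]
  refine IsWeightedHomogeneous.sum _ _ _ fun i _ => IsWeightedHomogeneous.sum _ _ _ fun j _ => ?_
  by_cases hc : g.c i j k = 0
  · rw [hc, Int.cast_zero, zero_mul, zero_mul]
    exact isWeightedHomogeneous_zero _ _ _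
  · rw [← hg i j k hc, mul_assoc, ← map_intCast (C : ℝ →+* Pl σ)]
    exact Tw.hom_C_mul ((hx i).mul (hy j)) _

theorem star_mem_Hm {g : ND ι} (hg : Graded g) (S : ℕ) {lev : σ → ℕ} {x y : g.PS σ}
    (hx : x ∈ Hm lev g) (hy : y ∈ Hm lev g) : star S x y ∈ Hm lev g :=
  St.star_mem S _ (fun _ ha _ hb => lie_mem_Hm hg ha hb) hx hy

theorem expAd_mem_Hm {g : ND ι} (hg : Graded g) (S : ℕ) {lev : σ → ℕ} {x y : g.PS σ}
    (hx : x ∈ Hm lev g) (hy : y ∈ Hm lev g) : expAd S x y ∈ Hm lev g :=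
  Bch.adS_mem _ S _ (fun _ hm => lie_mem_Hm hg hx hm) hy

theorem subst_mem_Hm {g : ND ι} {lev : σ → ℕ} {lev' : τ → ℕ} {r : σ → Pl τ}
    (hr : ∀ v, IsWeightedHomogeneous lev' (r v) (lev v)) {x : g.PS σ} (hx : x ∈ Hm lev g) :
    g.subst r x ∈ Hm lev' g := fun k => Tw.hom_bind' hr (hx k)

theorem cv_cw (g : ND ι) (op : Pl σ →ₗ[ℝ] Pl τ) (α : τ →₀ ℕ) (P : g.PS σ) (s : Finset (σ →₀ ℕ))
    (hs : ∀ k, (P k).support ⊆ s) :
    g.cv α (cw g op P) = ∑ m ∈ s, coeff α (op (monomial m 1)) • g.cv m P := by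
  ext k
  rw [ND.sum_apply]
  simp only [cv_apply, ND.smul_apply, smul_eq_mul]
  change coeff α (op (P k)) = _
  have h1 : P k = ∑ m ∈ s, coeff m (P k) • monomial m (1 : ℝ) := by
    conv_lhs => rw [(P k).as_sum]
    rw [sum_subset (hs k) fun m _ hm => by rw [notMem_support_iff.1 hm, map_zero]]
    exact sum_congr rfl fun m _ => by rw [smul_monomial, smul_eq_mul, mul_one]
  conv_lhs => rw [h1, map_sum, coeff_sum]
  refine sum_congr rfl fun m _ => ?_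
  rw [map_smul, coeff_smul, smul_eq_mul, mul_comm]

theorem cw_mem_Uo {g : ND ι} {U : Submodule ℝ g.L} (op : Pl σ →ₗ[ℝ] Pl τ) {x : g.PS σ}
    (hx : x ∈ Uo σ U) : cw g op x ∈ Uo τ U := by
  classical
  intro α
  rw [cv_cw g op α x (univ.biUnion fun k => (x k).support)
    fun k => subset_biUnion_of_mem (fun k => (x k).support) (mem_univ k)]
  exact Submodule.sum_mem _ fun m _ => Submodule.smul_mem _ _ (hx m)

theorem subst_eq_cw (g : ND ι) (r : σ → Pl τ) (x : g.PS σ) :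
    g.subst r x = cw g (aeval r : Pl σ →ₐ[ℝ] Pl τ).toLinearMap x := rfl

theorem subst_mem_Uo {g : ND ι} {U : Submodule ℝ g.L} (r : σ → Pl τ) {x : g.PS σ}
    (hx : x ∈ Uo σ U) : g.subst r x ∈ Uo τ U := by
  rw [subst_eq_cw]; exact cw_mem_Uo _ hx

theorem lie_mem_Uo {g : ND ι} {U U' U'' : Submodule ℝ g.L}
    (h : ∀ x ∈ U, ∀ y ∈ U', ⁅x, y⁆ ∈ U'') {x y : g.PS σ} (hx : x ∈ Uo σ U) (hy : y ∈ Uo σ U') :
    ⁅x, y⁆ ∈ Uo σ U'' :=
  lie_mem_cf (W := fun _ => U) (W' := fun _ => U') (W'' := fun _ => U'') (fun _ _ => h) hx hy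

theorem star_mem_Uo {g : ND ι} (S : ℕ) {U : Submodule ℝ g.L} (h : ∀ x ∈ U, ∀ y ∈ U, ⁅x, y⁆ ∈ U)
    {x y : g.PS σ} (hx : x ∈ Uo σ U) (hy : y ∈ Uo σ U) : star S x y ∈ Uo σ U :=
  St.star_mem S _ (fun _ ha _ hb => lie_mem_Uo h ha hb) hx hy

theorem bcl_mem_Uo {g : ND ι} {g' : ND ι'} {U : Submodule ℝ g.L} (φ : g'.L →ₗ[ℝ] g.L)
    (x : g'.PS σ) : bcl φ (Pl σ) x ∈ Uo σ U ↔ x ∈ Uo σ (U.comap φ) := by
  simp only [mem_Uo, cv_bcl, Submodule.mem_comap]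

theorem smR_hm {c : Cs σ} {g : ND ι} {m : ℝ} {x : g.PS σ} (h : SmR c g m x) : x ∈ Hm c.lev g := by
  obtain ⟨e, h1, -, rfl⟩ := h
  exact subst_mem_Hm c.hom h1

theorem smR_neg {c : Cs σ} {g : ND ι} {m : ℝ} {x : g.PS σ} (h : SmR c g m x) : SmR c g m (-x) := by
  obtain ⟨e, h1, h2, rfl⟩ := h
  exact ⟨-e, neg_mem h1, fun k => by rw [ND.neg_apply, Tw.nrm_neg]; exact h2 k, (map_neg _ _).symm⟩

theorem smR_zero (c : Cs σ) (g : ND ι) (m : ℝ) : SmR c g m 0 :=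
  ⟨0, zero_mem _, fun k => by rw [ND.zero_apply, Tw.nrm_zero]; positivity, (map_zero _).symm⟩

theorem smR_add {c : Cs σ} {g : ND ι} {m : ℝ} {x y : g.PS σ} (hx : SmR c g m x)
    (hy : SmR c g m y) : SmR c g (m + 1) (x + y) := by
  obtain ⟨e, h1, h2, rfl⟩ := hx
  obtain ⟨e', h1', h2', rfl⟩ := hy
  refine ⟨e + e', add_mem h1 h1', fun k => ((Tw.nrm_add_le _ _).trans
    (add_le_add (h2 k) (h2' k))).trans ?_, (map_add _ _ _).symm⟩
  rw [Real.exp_add]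
  have := Real.add_one_le_exp (1 : ℝ)
  have := Real.exp_pos m
  nlinarith

theorem rtR_neg {lev : σ → ℕ} {g : ND ι} {m : ℝ} {x : g.PS σ} (h : RtR lev g m x) :
    RtR lev g m (-x) := by
  obtain ⟨h0, q, h1, h2, h3⟩ := h
  exact ⟨neg_mem h0, q, h1, h2, St.RatP_neg h3⟩

theorem rtR_zero (lev : σ → ℕ) (g : ND ι) {m : ℝ} (hm : 0 ≤ m) : RtR lev g m 0 :=
  ⟨zero_mem _, 1, le_rfl, by simpa using hm, St.RatP_zero 1⟩

theorem rtR_add {lev : σ → ℕ} {g : ND ι} {m m' : ℝ} {x y : g.PS σ} (hx : RtR lev g m x)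
    (hy : RtR lev g m' y) : RtR lev g (m + m') (x + y) := by
  obtain ⟨h0, q, h1, h2, h3⟩ := hx
  obtain ⟨h0', q', h1', h2', h3'⟩ := hy
  refine ⟨add_mem h0 h0', q * q', Nat.mul_pos h1 h1', ?_,
    St.RatP_add (h3.of_dvd (dvd_mul_right _ _)) (h3'.of_dvd (dvd_mul_left _ _))⟩
  rw [Real.exp_add, Nat.cast_mul]
  exact mul_le_mul h2 h2' (by positivity) (by positivity)

theorem ratP_star (S : ℕ) {g : ND ι} {q : ℕ} {x y : g.PS σ} (hx : g.RatP q x) (hy : g.RatP q y) :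
    g.RatP (Bch.dn S * q ^ (S + 1)) (star S x y) :=
  smul_mem_intP.1 (Bch.den_star_mem S _ lie_mem_intP S.le_succ (by omega) (smul_mem_intP.2 hx)
    (smul_mem_intP.2 hy))

/-- a morphism maps smooth symbols to smooth symbols -/
theorem smR_subst {c : Cs σ} {c' : Cs τ} {K : ℝ} {r : σ → Pl τ} (hr : Mor c c' K r) (hK : 1 ≤ K)
    {g : ND ι} {S : ℕ} (hS : ∀ k, g.wt k ≤ S) {m m' : ℝ} (hm : Real.exp m * K ^ S ≤ Real.exp m')
    {x : g.PS σ} (hx : SmR c g m x) : SmR c' g m' (g.subst r x) := by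
  obtain ⟨e, h1, h2, rfl⟩ := hx
  choose E hE1 hE2 hE3 using hr.th
  refine ⟨g.subst E e, subst_mem_Hm hE1 h1, fun k => ?_, ?_⟩
  · refine (Tw.nrm_bind_le_of_pos c.pos hE2 hK (Tw.DegLe.of_hom (h1 k))).trans (le_trans ?_ hm)
    exact mul_le_mul (h2 k) (pow_le_pow_right₀ hK (hS k)) (by positivity) (by positivity)
  · rw [Gf.subst_subst, Gf.subst_subst]
    congr 2
    funext v
    exact hE3 v

theorem rtR_subst {c : Cs σ} {c' : Cs τ} {K : ℝ} {r : σ → Pl τ} (hr : Mor c c' K r) {g : ND ι}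
    {m : ℝ} {x : g.PS σ} (hx : RtR c.lev g m x) : RtR c'.lev g m (g.subst r x) := by
  obtain ⟨h0, q, h1, h2, h3⟩ := hx
  exact ⟨subst_mem_Hm hr.hom h0, q, h1, h2, Gf.ratP_subst hr.int h3⟩

end C14

open C14

theorem closRStmt : ClosRStmt := by
  refine ⟨fun S ι σ _ g lev hg => ⟨fun x hx y hy => ⟨lie_mem_Hm hg hx hy, star_mem_Hm hg S hx hy,
      expAd_mem_Hm hg S hx hy⟩, fun τ lev' r hr x hx => subst_mem_Hm hr hx⟩,
    fun ι σ τ _ g U => ⟨fun op x hx => cw_mem_Uo op hx,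
      fun U' U'' h x hx y hy => lie_mem_Uo h hx hy, fun ι' _ g' φ x => bcl_mem_Uo φ x⟩, fun S => ?_⟩
  obtain ⟨C, hC⟩ : ∃ C : ℕ, ∀ (m : ℝ) (d q q' : ℕ), 2 ≤ m → (d : ℝ) ≤ m → (q : ℝ) ≤ Real.exp m →
      (q' : ℝ) ≤ Real.exp m →
      cb S * (((d : ℝ) ^ 2 + 1) * Real.exp m) ^ (2 * S + 1) ≤ Real.exp (m ^ C) ∧
      Real.exp m * Real.exp m ^ S ≤ Real.exp (m ^ C) ∧
      ((Bch.dn S * (q * q') ^ (S + 1) : ℕ) : ℝ) ≤ Real.exp (m ^ C) := by qp
  refine ⟨C + 2, by omega, fun m hm ι σ _ g c hg => ?_⟩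
  have hup : Real.exp (m ^ C) ≤ Real.exp (m ^ (C + 2)) := Qp.exp_pw_mono hm (by omega)
  have h2m : m + m ≤ m ^ (C + 2) := by
    have : m ^ 2 ≤ m ^ (C + 2) := pow_le_pow_right₀ (by linarith) (by omega)
    nlinarith
  have := ND.nil hg.wt_le (Pl σ)
  have he : 1 ≤ Real.exp m := Real.one_le_exp (by linarith)
  set K : ℝ := ((Fintype.card ι : ℝ) ^ 2 + 1) * Real.exp m with hK
  have hK0 : Real.exp m ≤ K := le_mul_of_one_le_left (by positivity) (by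
    have : (0 : ℝ) ≤ (Fintype.card ι : ℝ) ^ 2 := by positivity
    linarith)
  have hK1 : 1 ≤ K := he.trans hK0
  have hK2 : (Fintype.card ι : ℝ) ^ 2 * Real.exp m ≤ K :=
    mul_le_mul_of_nonneg_right (by linarith) (by positivity)
  obtain ⟨c1, c2, -⟩ := hC m _ 1 1 hm hg.dim (by simpa using he) (by simpa using he)
  have h1 : ∀ x y, SmR c g m x → SmR c g m y → SmR c g (m ^ (C + 2)) (star S x y) := by
    rintro _ _ ⟨e, a1, a2, rfl⟩ ⟨e', b1, b2, rfl⟩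
    exact ⟨star S e e', star_mem_Hm hg.gr S a1 b1, fun k =>
      (((gN g σ hg.c_le (by positivity)).star_le S hK2 hK1
        ⟨by linarith, fun k => (a2 k).trans hK0⟩ ⟨by linarith, fun k => (b2 k).trans hK0⟩).2 k).trans
        (c1.trans hup), (map_star S _ _ _).symm⟩
  have h2 : ∀ x y, RtR c.lev g m x → RtR c.lev g m y →
      RtR c.lev g (m ^ (C + 2)) (star S x y) := by
    rintro x y ⟨a0, q, a1, a2, a3⟩ ⟨b0, q', b1, b2, b3⟩
    exact ⟨star_mem_Hm hg.gr S a0 b0, Bch.dn S * (q * q') ^ (S + 1),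
      Nat.mul_pos (Bch.dn_pos S) (by positivity), (hC m _ q q' hm hg.dim a2 b2).2.2.trans hup,
      ratP_star S (a3.of_dvd (dvd_mul_right _ _)) (b3.of_dvd (dvd_mul_left _ _))⟩
  refine ⟨fun x y hx hy => ⟨h1 x y hx hy, (smR_add hx hy).mono (by linarith), smR_neg hx,
      smR_hm hx⟩,
    fun x y hx hy => ⟨h2 x y hx hy, (rtR_add hx hy).mono h2m, rtR_neg hx⟩,
    fun U ε x γ hε hγ => ⟨?_, ?_⟩, fun τ c' r hr => ⟨fun x hx =>
      smR_subst hr he hg.wt_le (c2.trans hup) hx, fun q x hx => Gf.ratP_subst hr.int hx,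
      fun x hx => rtR_subst hr hx, ?_⟩⟩
  · rintro ⟨ε', y, γ', a1, a2, a3, a4, rfl⟩
    exact ⟨star S ε ε', y, star S γ' γ, h1 _ _ hε a1, a2, a3, h2 _ _ a4 hγ, by
      simp only [star_assoc]⟩
  · rintro ⟨ε', y, γ', a1, a2, a3, a4, e⟩
    refine ⟨star S (-ε) ε', y, star S γ' (-γ), h1 _ _ (smR_neg hε) a1, a2, a3,
      h2 _ _ a4 (rtR_neg hγ), ?_⟩
    rw [star_assoc, ← star_assoc S y, ← star_assoc S ε', ← e, ← star_assoc, neg_star_star,
      star_star_neg]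
  · rintro U _ ⟨ε, y, γ, a1, a2, a3, a4, rfl⟩
    exact ⟨g.subst r ε, g.subst r y, g.subst r γ, smR_subst hr he hg.wt_le (c2.trans hup) a1,
      subst_mem_Hm hr.hom a2, subst_mem_Uo r a3, (rtR_subst hr a4).mono (by linarith), by
      rw [Bch.map_star, Bch.map_star]⟩

end Crest.Agent.T49.Br
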