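import Crest.Agent.T49.BrDef_62
import Crest.Agent.T49.GiStructA_60
import Crest.Agent.T49.GiPush_14
import Crest.Agent.T49.Qp_85

/-!
# Row 49 (helper27): the last step `FinStmt` of the relative structure theorem
-/

set_option autoImplicit false

noncomputable section

namespace Crest.Agent.T49.Br

open Finset MvPolynomial Crest.Agent.T49.Nil Crest.Agent.T49.Nil.ND Crest.Agent.T49.GI
open Crest.Agent.T49.Bch (star expAd)
open Crest.Agent.T49.Tw (Pl nrm DegLe)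

namespace Fin27

/-! ### the group computation -/

theorem grp {L : Type*} [LieRing L] [LieAlgebra ℝ L] (S : ℕ) [Bch.Nil S L]
    (𝔥 : LieSubalgebra ℝ L) (N K : Submodule ℝ L) (KN : K ≤ N) (NH : ∀ x ∈ N, x ∈ 𝔥)
    (lieN : ∀ x ∈ 𝔥, ∀ y ∈ N, ⁅x, y⁆ ∈ N) (lieK : ∀ x ∈ 𝔥, ∀ y ∈ K, ⁅x, y⁆ ∈ K)
    (abel : ∀ x ∈ N, ∀ y ∈ N, ⁅x, y⁆ ∈ K) {Y ν E R Λ c : L} (hY : Y ∈ 𝔥) (hν : ν ∈ N)
    (hE : E ∈ N) (hR : R ∈ N) (hΛ : Λ ∈ N) (hc : c ∈ N)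
    (h : ν - E - expAd S Y R - (c + Λ) ∈ K) :
    star S (-E) (star S (star S ν Y) (-R)) ∈ 𝔥 ∧
      star S (-E) (star S (star S ν Y) (-R)) - star S Λ (star S c Y) ∈ K := by
  have hst : ∀ u ∈ N, ∀ v ∈ N, star S u v - (u + v) ∈ K := fun u hu v hv =>
    Bch.star_sub_mem S _ (lieK _ (NH _ hu)) (lieK _ (NH _ hv)) (abel _ hu _ hv)
  have hN : ∀ u ∈ N, ∀ v ∈ N, star S u v ∈ N := fun u hu v hv => by
    simpa using add_mem (KN (hst u hu v hv)) (add_mem hu hv)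
  have hA : -expAd S Y R ∈ N := neg_mem (Bch.adS_mem _ S N (lieN _ hY) hR)
  refine ⟨Bch.star_mem S _ (NH _ (neg_mem hE)) (Bch.star_mem S _
    (Bch.star_mem S _ (NH _ hν) hY) (NH _ (neg_mem hR))), ?_⟩
  have e1 : star S (-E) (star S (star S ν Y) (-R)) =
      star S (star S (-E) (star S ν (-expAd S Y R))) Y := by
    rw [Bch.star_assoc S ν, Bch.star_eq_Ad_star S Y (-R), map_neg, Bch.Ad_eq]
    simp only [Bch.star_assoc]
  rw [e1, ← Bch.star_assoc S Λ]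
  refine S60.star_congr_sub S 𝔥 K lieK (NH _ (hN _ (neg_mem hE) _ (hN _ hν _ hA)))
    (NH _ (hN _ hΛ _ hc)) hY hY ?_ (by simp)
  convert add_mem (sub_mem (add_mem (hst _ (neg_mem hE) _ (hN _ hν _ hA)) (hst _ hν _ hA))
    (hst _ hΛ _ hc)) h using 1
  abel

/-! ### coefficientwise facts -/

variable {ι : Type} [Fintype ι] {σ τ : Type} {g : ND ι}

theorem lie_Uo {U U' U'' : Submodule ℝ g.L} (h : ∀ x ∈ U, ∀ y ∈ U', ⁅x, y⁆ ∈ U'') :
    ∀ x ∈ Uo σ U, ∀ y ∈ Uo σ U', ⁅x, y⁆ ∈ Uo σ U'' := fun _ hx _ hy =>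
  lie_mem_cf (fun _ _ => h) hx hy

theorem Uo_mono {U U' : Submodule ℝ g.L} (h : U ≤ U') : Uo σ U ≤ Uo σ U' :=
  fun _ hx α => h (hx α)

/-- `𝔥 ⊗ Pl σ` as a subalgebra -/
def UoL (σ : Type) (𝔥 : LieSubalgebra ℝ g.L) : LieSubalgebra ℝ (g.PS σ) :=
  { Uo σ 𝔥.toSubmodule with
    lie_mem' := fun hx hy => lie_Uo (fun _ h1 _ h2 => 𝔥.lie_mem h1 h2) _ hx _ hy }

theorem bcl_eq_zero {p : g.L →ₗ[ℝ] g.L} {x : g.PS σ} :
    bcl p (Pl σ) x = 0 ↔ x ∈ Uo σ (LinearMap.ker p) := by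
  refine ⟨fun h α => ?_, fun h => ps_ext fun α => ?_⟩
  · rw [LinearMap.mem_ker, ← cv_bcl, h, map_zero]
  · rw [cv_bcl, map_zero]; exact h α

theorem finrank_Hm [Fintype σ] {lev : σ → ℕ} (hl : ∀ c, 0 < lev c) {S : ℕ}
    (hS : ∀ k, g.wt k ≤ S) : FiniteDimensional ℝ (Hm lev g) ∧
      Module.finrank ℝ (Hm lev g) ≤ Fintype.card ι * ((S + 1) * (Fintype.card σ + S + 1) ^ S) := by
  classical
  let A : Finset (σ →₀ ℕ) := (range (S + 1)).biUnion fun n => finsuppAntidiag univ n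
  have hA : #A ≤ (S + 1) * (Fintype.card σ + S + 1) ^ S := by
    refine card_biUnion_le.trans ?_
    refine (sum_le_card_nsmul _ _ ((Fintype.card σ + S + 1) ^ S) fun n hn => ?_).trans (by simp)
    have := mem_range.1 hn
    rw [card_finsuppAntidiag_nat_eq_choose, card_univ]
    exact (Nat.choose_le_pow _ _).trans ((Nat.pow_le_pow_left (by omega) _).trans
      (Nat.pow_le_pow_right (by omega) (by omega)))
  let φ : Hm lev g →ₗ[ℝ] (ι × A → ℝ) :=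
    { toFun := fun w p => coeff p.2.1 (w.1 p.1)
      map_add' := fun v w => funext fun p => coeff_add _ _ _
      map_smul' := fun r w => funext fun p => coeff_smul _ _ _ }
  have hφ : Function.Injective φ := by
    rw [injective_iff_map_eq_zero]
    intro w hw
    refine Subtype.ext (pts_ext fun k => MvPolynomial.ext _ _ fun α => ?_)
    by_contra hne
    have h0 : coeff α (w.1 k) ≠ 0 := hne
    have h1 : α.degree ≤ S := (Tw.degree_le_weight hl α).trans ((w.2 k h0).le.trans (hS k))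
    have h2 : α ∈ A := mem_biUnion.2 ⟨α.degree, mem_range.2 (Nat.lt_succ_of_le h1), by
      rw [mem_finsuppAntidiag, Finsupp.degree_eq_sum]; exact ⟨rfl, subset_univ _⟩⟩
    exact h0 (congrFun hw (k, ⟨α, h2⟩))
  refine ⟨FiniteDimensional.of_injective φ hφ,
    (LinearMap.finrank_le_finrank_of_injective hφ).trans ?_⟩
  rw [Module.finrank_fintype_fun_eq_card, Fintype.card_prod, Fintype.card_coe]
  exact Nat.mul_le_mul_left _ hA

theorem subst_eq_zero {c : Cs σ} {S : ℕ} {Q : ℝ} (hQ : 0 < Q) (hc : c.ND S Q)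
    (hS : ∀ k, g.wt k ≤ S) {e : g.PS σ} (he : e ∈ Hm c.lev g) (h : g.subst c.th e = 0) :
    e = 0 := by
  refine pts_ext fun k => ?_
  have h1 : aeval c.th (e k) = 0 := congrFun h k
  have h2 := Tw.nrm_nonneg (e k)
  have ht : 0 < Q / (nrm (e k) + 1) := by positivity
  have h3 := hc (g.wt k) (g.wt_pos k) (hS k) ((Q / (nrm (e k) + 1)) • e k)
    ((weightedHomogeneousSubmodule ℝ c.lev (g.wt k)).smul_mem _ (he k))
    (by
      rw [Tw.nrm_smul, abs_of_pos ht, div_mul_eq_mul_div, div_le_iff₀ (by positivity)]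
      nlinarith)
    (by rw [map_smul, h1, smul_zero]; exact Tw.isInt_zero)
  exact (smul_eq_zero.1 h3).resolve_left ht.ne'

theorem ratP_zero (q : ℕ) : g.RatP q (0 : g.PS σ) := fun α => den_iff.2 fun k => ⟨0, by simp⟩

theorem ratP_add {q : ℕ} {x y : g.PS σ} (hx : g.RatP q x) (hy : g.RatP q y) :
    g.RatP q (x + y) := fun α => den_iff.2 fun k => by
  obtain ⟨a, ha⟩ := den_iff.1 (hx α) k
  obtain ⟨b, hb⟩ := den_iff.1 (hy α) k
  refine ⟨a + b, ?_⟩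
  rw [map_add, ND.add_apply, mul_add, ha, hb, Int.cast_add]

theorem ratP_neg {q : ℕ} {x : g.PS σ} (hx : g.RatP q x) : g.RatP q (-x) :=
  fun α => den_iff.2 fun k => by
  obtain ⟨a, ha⟩ := den_iff.1 (hx α) k
  refine ⟨-a, ?_⟩
  rw [map_neg, ND.neg_apply, mul_neg, ha, Int.cast_neg]

theorem map_lamR {E E' : Type*} [AddCommGroup E] [Module ℝ E] [AddCommGroup E'] [Module ℝ E']
    (φ : E →ₗ[ℝ] E') {ρ : Type} [Fintype ρ] {r : ℕ} (β : Fin r → ρ → ℝ) (a : ρ → E)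
    (b : Fin r → E) (h : ρ → ℤ) :
    φ (lamR β a b h) = lamR β (fun i => φ (a i)) (fun j => φ (b j)) h := by
  simp [lamR]

theorem num (S : ℕ) : ∃ C : ℕ, 1 ≤ C ∧ ∀ (a d n : ℝ), 2 ≤ a → 0 ≤ d → 0 ≤ n → d ≤ a → n ≤ a →
    d * (((S : ℝ) + 1) * (n + S + 1) ^ S) ≤ a ^ C ∧ d * Real.exp a ≤ Real.exp (a ^ C) := by
  have : ∃ C : ℕ, ∀ (a d n : ℝ), 2 ≤ a → |d| ≤ a → |n| ≤ a →
      d * (((S : ℝ) + 1) * (n + S + 1) ^ S) ≤ a ^ C ∧ d * Real.exp a ≤ Real.exp (a ^ C) := by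
    qp
  obtain ⟨C, hC⟩ := this
  refine ⟨C + 1, by omega, fun a d n ha h0 h1 h2 h3 => ?_⟩
  obtain ⟨e1, e2⟩ := hC a d n ha (by rwa [abs_of_nonneg h0]) (by rwa [abs_of_nonneg h1])
  have := Qp.pw_mono ha (Nat.le_succ C)
  exact ⟨e1.trans this, e2.trans (Real.exp_le_exp.2 this)⟩

/-! ### the approximate homomorphism step -/

theorem ah (hClos : ClosRStmt) (hPush : PushRStmt) (hUniq : UniqRStmt) (hAH : TwAHStmt) (S : ℕ) :
    ∃ C : ℕ, 1 ≤ C ∧ ∀ (m : ℝ), 2 ≤ m → ∀ (ι β ρ : Type) [Fintype ι] [Fintype β] [Fintype ρ]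
      (g : ND ι) (c : Cs β) (η : ι → ℤ) (𝔥 : LieSubalgebra ℝ g.L) (Nn K : Submodule ℝ g.L)
      (y : g.PS β) (L : ρ → ℕ) (B : Finset (ρ → ℤ)) (Q : Finset (Fin 4 → ρ → ℤ)) (D : ℕ)
      (f : Fin 4 → (ρ → ℤ) → g.PS β), Gd g S m → (Fintype.card β : ℝ) ≤ m →
      (Fintype.card ρ : ℝ) ≤ m → c.ND S (Real.exp (m ^ C)) → Tri g m η 𝔥 Nn K →
      y ∈ Hm c.lev g → y ∈ Uo β 𝔥.toSubmodule → 1 ≤ D → (D : ℝ) ≤ Real.exp m →
      (∀ i h, f i h ∈ Hm c.lev g ∧ f i h ∈ Uo β Nn) → Diam B L →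
      (∀ q ∈ Q, IsQ B q ∧ ∃ e r, SmR c g m e ∧ r ∈ Uo β Nn ∧ r ∈ Hm c.lev g ∧ g.RatP D r ∧
        ∑ i, f i (q i) - e - expAd S y r ∈ Uo β K) →
      Real.exp (-m) * (∏ i, (L i : ℝ)) ^ 3 ≤ #Q →
      ∃ H' : Finset (ρ → ℤ), (∀ h ∈ H', ∃ q ∈ Q, q 0 = h) ∧
        Real.exp (-m ^ C) * ∏ i, (L i : ℝ) ≤ #H' ∧ ∃ (r : ℕ) (βj : Fin r → ρ → ℝ) (c' : g.PS β)
          (a : ρ → g.PS β) (b : Fin r → g.PS β), (r : ℝ) ≤ m ^ C ∧
          (c' ∈ Hm c.lev g ∧ c' ∈ Uo β Nn) ∧ (∀ i, a i ∈ Hm c.lev g ∧ a i ∈ Uo β Nn) ∧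
          (∀ j, b j ∈ Hm c.lev g ∧ b j ∈ Uo β Nn) ∧
          ∀ h ∈ H', ∃ e ∈ Uo β Nn, ∃ r ∈ Uo β Nn, SmR c g (m ^ C) e ∧ r ∈ Hm c.lev g ∧
            g.RatP D r ∧ f 0 h - (c' + lamR βj a b h) - e - expAd S y r ∈ Uo β K := by
  obtain ⟨C1, hC1, h1⟩ := GI.pushStmt
  obtain ⟨C2, hC2, h2⟩ := hPush
  obtain ⟨C3, hC3, h3⟩ := num S
  obtain ⟨C4, hC4, h4⟩ := hAH
  obtain ⟨C5, hC5, h5⟩ := hUniq S
  refine ⟨C1 * C2 * C3 * C4 * C2 * C5, Nat.succ_le_of_lt (by positivity), ?_⟩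
  intro m hm ι β ρ _ _ _ g c η 𝔥 Nn K y L B Q D f hg hβ hρ hND hT hy hyU hD1 hD hf hB hQ hd
  simp only [pow_mul] at hND ⊢
  obtain ⟨b1, l1⟩ := S60.up hm hC1
  obtain ⟨p, hp, hker⟩ := (h1 m hm ι ι g g hg.dim hg.dim).2.2.2.2 K hT.grK
  generalize m ^ C1 = a1 at *
  obtain ⟨b2, l2⟩ := S60.up b1 hC2
  have hP1 := h2 a1 b1 ι ι g g (hg.dim.trans l1) (hg.dim.trans l1)
  obtain ⟨ρ', hρ', hρN, hρp⟩ := hP1.2.2.1 p Nn hp (gr_mono hT.grN l1)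
  obtain ⟨hPH, hPS, -, -⟩ := hP1.1 β c p (rmap_of_gmap hp (by linarith))
  generalize a1 ^ C2 = a2 at *
  obtain ⟨b3, l3⟩ := S60.up b2 hC3
  obtain ⟨n1, n2⟩ := h3 a2 (Fintype.card ι) (Fintype.card β) b2 (by positivity) (by positivity)
    (by linarith [hg.dim]) (by linarith)
  generalize a2 ^ C3 = a3 at *
  obtain ⟨b4, l4⟩ := S60.up b3 hC4
  have h4 := h4 a3 b3
  generalize a3 ^ C4 = a4 at *
  obtain ⟨b5, l5⟩ := S60.up b4 hC2
  obtain ⟨hRH, hRS, -, -⟩ := (h2 a4 b4 ι ι g g (by linarith [hg.dim]) (by linarith [hg.dim])).1 β c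
    ρ' (hρ'.mono (by linarith))
  generalize a4 ^ C2 = a5 at *
  obtain ⟨b6, l6⟩ := S60.up b5 hC5
  have hU := (h5 a5 b5 ι β g c K (gd_mono hg (by linarith)) hND (gr_mono hT.grK (by linarith))).2.1
  generalize a5 ^ C5 = a6 at *
  obtain ⟨hH, hsub⟩ := hClos.1 S ι β g c.lev hg.gr
  -- the maps
  set P := bcl p (Pl β) with hP
  set R := bcl ρ' (Pl β) with hR
  have hPK : ∀ {x}, P x = 0 ↔ x ∈ Uo β K := fun {x} => by rw [← hker]; exact bcl_eq_zero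
  have hRN : ∀ z, R z ∈ Uo β Nn := fun z α => by rw [hR, cv_bcl]; exact hρN _
  have hRP : ∀ x ∈ Uo β Nn, x - R (P x) ∈ Uo β K := fun x hx α => by
    rw [map_sub, hR, hP, cv_bcl, cv_bcl, ← hker, LinearMap.mem_ker, map_sub, hρp _ (hx α), sub_self]
  have hyN : ∀ x ∈ Uo β Nn, ⁅y, x⁆ ∈ Uo β Nn := lie_Uo hT.lieN y hyU
  have hyK : ∀ x ∈ Uo β K, ⁅y, x⁆ ∈ Uo β K := lie_Uo hT.lieK y hyU
  have hAN : ∀ x ∈ Uo β Nn, expAd S y x ∈ Uo β Nn := fun x hx => Bch.adS_mem _ S _ hyN hx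
  obtain ⟨hfin, hrank⟩ := finrank_Hm (g := g) c.pos hg.wt_le
  let Θ : Hm c.lev g →ₗ[ℝ] Hm c.lev g :=
    (g.subst c.th).toLinearMap.restrict fun x hx => hsub β c.lev c.th c.hom x hx
  have hΘ : ∀ w, (Θ w).1 = g.subst c.th w.1 := fun _ => rfl
  have hΘi : Function.Injective Θ := by
    rw [injective_iff_map_eq_zero]
    intro w hw
    exact Subtype.ext (subst_eq_zero (Real.exp_pos _) hND hg.wt_le w.2 (congrArg Subtype.val hw))
  obtain ⟨Ψ, hΨ⟩ := (LinearMap.injective_iff_surjective.1 hΘi).hasRightInverse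
  let ν : Hm c.lev g → ℝ := fun w => ∑ k, nrm (w.1 k)
  have hν : ∀ w k, nrm (w.1 k) ≤ ν w := fun w k =>
    single_le_sum (f := fun k => nrm (w.1 k)) (fun _ _ => Tw.nrm_nonneg _) (mem_univ k)
  have hνS : ∀ w, ν w ≤ Real.exp a4 → SmR c g a5 (R (Θ w).1) := fun w hw =>
    hRS _ ⟨w.1, w.2, fun k => (hν w k).trans hw, rfl⟩
  let Ω : AddSubgroup (Hm c.lev g) :=
    { carrier := {w | ∃ r ∈ Hm c.lev g, r ∈ Uo β Nn ∧ g.RatP D r ∧ (Θ w).1 = P (expAd S y r)}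
      zero_mem' := ⟨0, zero_mem _, zero_mem _, ratP_zero D, by simp⟩
      add_mem' := by
        rintro v w ⟨r, e1, e2, e3, e4⟩ ⟨r', e1', e2', e3', e4'⟩
        exact ⟨r + r', add_mem e1 e1', add_mem e2 e2', ratP_add e3 e3', by
          rw [map_add, Submodule.coe_add, e4, e4', map_add, map_add]⟩
      neg_mem' := by
        rintro v ⟨r, e1, e2, e3, e4⟩
        exact ⟨-r, neg_mem e1, neg_mem e2, ratP_neg e3, by
          rw [map_neg, Submodule.coe_neg, e4, map_neg, map_neg]⟩ }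
  let F : Fin 4 → (ρ → ℤ) → Hm c.lev g := fun i h => Ψ ⟨P (f i h), hPH _ (hf i h).1⟩
  have hF : ∀ i h, (Θ (F i h)).1 = P (f i h) := fun i h => congrArg Subtype.val (hΨ _)
  obtain ⟨H', e1, e2, r, βj, c', a, b, e3, e4⟩ := h4 ρ (Hm c.lev g) ν Ω L B F Q (by linarith)
    (le_trans (by exact_mod_cast hrank) n1)
    (fun v w => by
      simp only [ν, ← sum_add_distrib]
      exact sum_le_sum fun k _ => Tw.nrm_add_le _ _)
    (fun t v => by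
      simp only [ν, mul_sum]
      exact sum_congr rfl fun k _ => Tw.nrm_smul _ _)
    (fun v hv => Subtype.ext (pts_ext fun k =>
      Tw.nrm_eq_zero.1 (le_antisymm ((hν v k).trans hv.le) (Tw.nrm_nonneg _))))
    (by
      rintro ω ⟨r, e1, e2, e3, e4⟩ hω
      have h6 := hU y (R (Θ ω).1) (-r) hy hyK (hνS ω hω)
        ⟨neg_mem e1, D, hD1, hD.trans (ex_mono (by linarith)), ratP_neg e3⟩ (by
          have := neg_mem (hRP _ (hAN r e2))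
          rwa [← e4, neg_sub, sub_eq_add_neg, ← map_neg] at this)
      have h7 : expAd S y r ∈ Uo β K := Bch.adS_mem _ S _ hyK (neg_mem_iff.1 h6.2)
      refine hΘi (Subtype.ext ?_)
      rw [e4, hPK.2 h7, map_zero]; rfl)
    hB
    (fun q hq => by
      obtain ⟨hq0, e, r, he, hrN, hrH, hrD, hrel⟩ := hQ q hq
      obtain ⟨e', he', hn, hee⟩ := hPS e (he.mono l1)
      refine ⟨hq0, ∑ i, F i (q i) - ⟨e', he'⟩, ⟨r, hrH, hrN, hrD, ?_⟩, ?_⟩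
      · have h6 := hPK.2 hrel
        rw [map_sub, map_sub, sub_eq_zero, map_sum] at h6
        rw [map_sub, map_sum, Submodule.coe_sub, Submodule.coe_sum, hΘ ⟨e', he'⟩, ← h6]
        simp only [hF]
        rw [← hee]
      · rw [sub_sub_cancel]
        refine le_trans ?_ n2
        simpa using sum_le_card_nsmul univ (fun k => nrm (e' k)) _ fun k _ => hn k)
    (S60.dens_le (by positivity) hd (by linarith))
  have hRΘ : ∀ w, R (Θ w).1 ∈ Hm c.lev g ∧ R (Θ w).1 ∈ Uo β Nn := fun w => ⟨hRH _ (Θ w).2, hRN _⟩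
  refine ⟨H', e1, S60.dens_le (by positivity) e2 (by linarith), r, βj, R (Θ c').1,
    fun i => R (Θ (a i)).1, fun j => R (Θ (b j)).1, by linarith, hRΘ _, fun i => hRΘ _,
    fun j => hRΘ _, fun h hh => ?_⟩
  obtain ⟨ω, ⟨r', f1, f2, f3, f4⟩, hω⟩ := e4 h hh
  refine ⟨_, hRN _, r', f2, (hνS _ hω).mono l6, f1, f3, ?_⟩
  have h6 := map_lamR (R ∘ₗ (Hm c.lev g).subtype ∘ₗ Θ) βj a b h
  simp only [LinearMap.comp_apply, Submodule.subtype_apply] at h6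
  rw [← h6]
  simp only [map_sub, map_add, Submodule.coe_sub, Submodule.coe_add, hF, f4]
  convert sub_mem (hRP _ (hf 0 h).2) (hRP _ (hAN _ f2)) using 1
  abel

end Fin27

open Fin27 in
theorem finStmt (hClos : ClosRStmt) (hPush : PushRStmt) (hUniq : UniqRStmt) (hPet : Petal3Stmt)
    (hMk : MkRStmt) (hAH : TwAHStmt) : FinStmt := by
  intro S
  obtain ⟨Cp, hCp, hPet⟩ := hPet
  obtain ⟨Ca, hCa, hA⟩ := ah hClos hPush hUniq hAH S
  obtain ⟨hC1, hC2, hC3⟩ := hClos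
  obtain ⟨Cc, hCc, hC3⟩ := hC3 S
  refine ⟨Cp * Ca * Cc * Cc * Cc, Nat.succ_le_of_lt (by positivity), ?_⟩
  intro m M hm hM ι β κ ρ _ _ _ _ 𝓜 g η 𝔥 L B Q x ys ν D f ℓ hS hν hL
  simp only [pow_mul] at hM ⊢
  have hg := hS.gd
  obtain ⟨b1, l1⟩ := S60.up hm hCp
  have hT := (hPet m hm ι g η 𝔥 hg.dim hS.gr hS.kill).1 0
  generalize m ^ Cp = a1 at *
  obtain ⟨b2, l2⟩ := S60.up b1 hCa
  have hA := hA a1 b1
  generalize a1 ^ Ca = a2 at *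
  obtain ⟨b3, l3⟩ := S60.up b2 hCc
  have h3 := hC3 a2 b2
  have h4 := hC3 _ b3
  obtain ⟨b4, l4⟩ := S60.up b3 hCc
  have h5 := hC3 _ b4
  obtain ⟨b5, l5⟩ := S60.up b4 hCc
  clear hC3
  generalize a2 ^ Cc = a3 at *
  generalize a3 ^ Cc = a4 at *
  generalize a4 ^ Cc = a5 at *
  have hND : 𝓜.c0.ND S (Real.exp M) := by
    classical
    have h0 := hS.gen 0 (by norm_num)
    refine (hMk.1 β κ ρ (Fin 0) (Fin 0) 𝓜 Fin.elim0 Fin.elim0).2.2.2.2 S _ ?_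
    by_contra hne
    rw [Most, pow_zero, mul_one] at h0
    have h1 : (1 : ℝ) ≤ Real.exp (-M) := by
      refine le_trans ?_ h0
      rw [Nat.one_le_cast, one_le_card]
      exact ⟨Fin.elim0, mem_filter.2 ⟨Fintype.mem_piFinset.2 fun i => i.elim0, hne⟩⟩
    have := Real.exp_lt_one_iff.2 (show -M < 0 by linarith)
    linarith
  set y : g.PS β := pr g _ 0 ys with hydef
  have hy : y ∈ Hm 𝓜.c0.lev g := fun k => hν.hys (0, k)
  have hyU : y ∈ Uo β (pH 𝔥 0).toSubmodule := fun α => ⟨_, hν.uys α, rfl⟩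
  obtain ⟨H', e1, e2, r, βj, c', a, b, e3, hc', ha, hb, e4⟩ := hA ι β ρ g 𝓜.c0 η _ _ _ y L B Q D f
    (gd_mono hg l1) (hS.cβ.trans l1) (hS.cρ.trans l1) (hND.mono (ex_mono (by linarith))) hT hy hyU
    hL.D_pos (hL.D_le.trans (ex_mono l1)) hL.hf hS.diam
    (fun q hq => by
      obtain ⟨e, -, r, f1, f2, f3, f4, f5⟩ := hL.rel q hq
      exact ⟨hS.quad q hq, e, r, f2.mono l1, f1, f3, f4, f5⟩)
    (S60.dens_le (by positivity) hS.dense l1)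
  have hNH := Uo_mono (σ := β) hT.NH
  refine ⟨H', e1, S60.dens_le (by positivity) e2 (by linarith), pH 𝔥 0, pN3 𝔥 0, pK 𝔥 0,
    star S c' y, r, βj, a, b, ℓ, S60.tri_mono hT (by linarith), by linarith,
    ((hC1 S ι β g _ hg.gr).1 _ hc'.1 _ hy).2.1,
    Bch.star_mem S (UoL β (pH 𝔥 0)) (hNH hc'.2) hyU, ha, hb, hL.hℓ, hL.uℓ, fun h hh => ?_⟩
  obtain ⟨q, hq, rfl⟩ := e1 h hh
  obtain ⟨e2, he2, r2, hr2, s2, t2, u2, v2⟩ := e4 _ hh
  obtain ⟨e, he, r1, hr, s1, t1, v1⟩ := hL.rep q hq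
  obtain ⟨ε, γ, hε, hγ, hx⟩ := hν.cg q hq 0
  have hmor : Mor 𝓜.c0 (𝓜.cs fun _ : Unit => q 0) (Real.exp a2) (up β κ Unit) :=
    (hMk.1 β κ ρ Unit Unit 𝓜 (fun _ => q 0) fun _ => q 0).2.2.2.1.mono
      (Real.one_le_exp (by linarith))
  set cs := 𝓜.cs fun _ : Unit => q 0 with hcs
  set u := g.subst (up β κ Unit) with hu
  have hup : ∀ (U : Submodule ℝ g.L), ∀ z ∈ Uo β U, u z ∈ Uo _ U := fun U z hz =>
    (hC2 ι β _ g U).1 (aeval (up β κ Unit)).toLinearMap z hz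
  obtain ⟨m1, -, m3, -⟩ := (h3 ι β g 𝓜.c0 (gd_mono hg (by linarith))).2.2.2 _ cs _ hmor
  obtain ⟨n1, n2, -⟩ := h4 ι _ g cs (gd_mono hg (by linarith))
  obtain ⟨o1, o2, -⟩ := h5 ι _ g cs (gd_mono hg (by linarith))
  have hE := n1 e (u e2) (s1.mono (by linarith)) (m1 _ s2)
  have hR := n2 r1 (u r2) (t1.mono (by linarith))
    ((m3 _ ⟨t2, D, hL.D_pos, hL.D_le.trans (ex_mono (by linarith)), u2⟩).mono l3)
  have hEE := o1 (e + u e2) (e + u e2) hE.2.1 hE.2.1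
  have hH := (hC1 S ι _ g cs.lev hg.gr).1
  have hY : u y ∈ Hm cs.lev g := (hC1 S ι β g _ hg.gr).2 _ _ _ hmor.hom y hy
  have := ND.nil hg.wt_le (Pl (V β κ Unit))
  have hΛ : u (lamR βj a b (q 0)) + linM g ℓ ∈ Uo (V β κ Unit) (pN3 𝔥 0) :=
    add_mem (hup _ _ (add_mem (Submodule.sum_mem _ fun i _ => Submodule.smul_mem _ _ (ha i).2)
      (Submodule.sum_mem _ fun j _ => Submodule.smul_mem _ _ (hb j).2)))
      (Submodule.sum_mem _ fun v _ => (hC2 ι _ _ g _).1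
        (LinearMap.mulLeft ℝ (X (Sum.inr ((), v)))) _ (hup _ _ (hL.uℓ v)))
  obtain ⟨w1, w2⟩ := grp S (UoL (V β κ Unit) (pH 𝔥 0)) (Uo _ (pN3 𝔥 0)) (Uo _ (pK 𝔥 0))
    (Uo_mono hT.KN) (fun z hz => Uo_mono hT.NH hz) (lie_Uo hT.lieN) (lie_Uo hT.lieK)
    (lie_Uo hT.abel) (hup _ _ hyU) (hν.hν 0 (q 0)).2 (add_mem he (hup _ _ he2))
    (add_mem hr (hup _ _ hr2)) hΛ (hup _ _ hc'.2) (by
      have h6 := hup _ _ v2
      have h7 : u (expAd S y r2) = expAd S (u y) (u r2) := Bch.map_adS u _ S y r2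
      simp only [map_sub, map_add, h7] at h6 ⊢
      convert add_mem v1 h6 using 1
      abel)
  refine ⟨star S ε (e + u e2), _, star S (r1 + u r2) γ,
    (o1 ε _ (hε.mono (by linarith)) hE.2.1).1, (o2 _ γ hR.2.1 (hγ.mono (by linarith))).1,
    (hH _ (neg_mem hEE.2.2.2) _ (hH _ (hH _ (hν.hν 0 (q 0)).1 _ hY).2.1 _
      (neg_mem hR.2.1.1)).2.1).2.1, w1, ?_, ?_⟩
  · rw [Bch.map_star]; exact w2
  · rw [hx]
    simp only [Bch.star_assoc, Bch.star_neg_star, Bch.neg_star_star]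
    rfl

end Crest.Agent.T49.Br
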