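import Crest.Agent.T49.BrGaugeA_62

/-!
# Row 49 (helper62): the gauge lemma
-/

set_option autoImplicit false

noncomputable section

namespace Crest.Agent.T49.Br

open Finset MvPolynomial
open Crest.Agent.T49.Tw (Pl nrm DegLe)

namespace G62

open Classical in
theorem cherry {α Y : Type*} (Q : Finset α) (π : α → Y) (T : Finset Y) (h : ∀ q ∈ Q, π q ∈ T) :
    (#Q : ℝ) ^ 2 ≤ #T * #{p ∈ Q ×ˢ Q | π p.1 = π p.2} := by
  have h1 : #Q = ∑ y ∈ T, #{q ∈ Q | π q = y} := card_eq_sum_card_fiberwise h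
  have h2 : #{p ∈ Q ×ˢ Q | π p.1 = π p.2} = ∑ y ∈ T, #{q ∈ Q | π q = y} ^ 2 := by
    rw [card_eq_sum_card_fiberwise (f := fun p => π p.1) (t := T) fun p hp => by
      simp only [coe_filter, mem_product, Set.mem_ofPred_eq] at hp
      exact h _ hp.1.1]
    refine sum_congr rfl fun y _ => ?_
    rw [sq, ← card_product]
    congr 1
    ext p
    simp only [mem_filter, mem_product]
    constructor
    · rintro ⟨⟨⟨a, b⟩, c⟩, d⟩
      exact ⟨⟨a, d⟩, b, c ▸ d⟩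
    · rintro ⟨⟨a, b⟩, c, d⟩
      exact ⟨⟨⟨a, c⟩, b.trans d.symm⟩, b⟩
  rw [h2, h1]
  push_cast
  exact sq_sum_le_card_mul_sum_sq

open Classical in
theorem ref {α X ρ : Type*} (Q : Finset α) (φ : α → X) (R : Finset ρ) (hR : R.Nonempty)
    (good : α → ρ → Prop) : ∃ r : X → ρ,
      (#{p ∈ Q ×ˢ R | good p.1 p.2} : ℝ) ≤ #R * #{q ∈ Q | good q (r (φ q))} := by
  choose r _ hr using fun x => exists_max_image R (fun r => #{q ∈ Q | φ q = x ∧ good q r}) hR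
  refine ⟨r, ?_⟩
  have h1 : #{p ∈ Q ×ˢ R | good p.1 p.2} =
      ∑ x ∈ Q.image φ, ∑ r ∈ R, #{q ∈ Q | φ q = x ∧ good q r} := by
    rw [← sum_product', card_eq_sum_card_fiberwise (f := fun p => (φ p.1, p.2))
      (t := Q.image φ ×ˢ R) fun p hp => by
        simp only [coe_filter, mem_product, Set.mem_ofPred_eq] at hp
        exact mem_coe.2 (mem_product.2 ⟨mem_image_of_mem _ hp.1.1, hp.1.2⟩)]
    refine sum_congr rfl fun z hz => ?_
    refine card_bij (fun p _ => p.1) (fun p hp => ?_) (fun p hp p' hp' e => ?_) fun q hq => ?_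
    · simp only [mem_filter, mem_product, Prod.ext_iff] at hp ⊢
      exact ⟨hp.1.1.1, hp.2.1, hp.2.2 ▸ hp.1.2⟩
    · simp only [mem_filter, mem_product, Prod.ext_iff] at hp hp' ⊢
      exact ⟨e, hp.2.2.trans hp'.2.2.symm⟩
    · simp only [mem_filter] at hq
      exact ⟨(q, z.2), by simp [hq.1, hq.2.1, hq.2.2, (mem_product.1 hz).2], rfl⟩
  have h2 : #{q ∈ Q | good q (r (φ q))} = ∑ x ∈ Q.image φ, #{q ∈ Q | φ q = x ∧ good q (r x)} := by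
    rw [card_eq_sum_card_fiberwise (f := φ) (t := Q.image φ) fun q hq =>
      mem_coe.2 (mem_image_of_mem _ (mem_filter.1 (mem_coe.1 hq)).1)]
    refine sum_congr rfl fun x _ => ?_
    congr 1
    ext q
    simp only [mem_filter]
    constructor
    · rintro ⟨⟨a, b⟩, rfl⟩
      exact ⟨a, rfl, b⟩
    · rintro ⟨a, rfl, b⟩
      exact ⟨⟨a, b⟩, rfl⟩
  rw [h1, h2]
  norm_cast
  rw [mul_sum]
  exact sum_le_sum fun x _ => sum_le_card_nsmul _ _ _ (hr x)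

theorem cherry' {α Y : Type*} (Q : Finset α) (π : α → Y) (T : Finset Y) (h : ∀ q ∈ Q, π q ∈ T) :
    ∃ P : Finset (α × α), (∀ p ∈ P, p.1 ∈ Q ∧ p.2 ∈ Q ∧ π p.1 = π p.2) ∧ (#Q : ℝ) ^ 2 ≤ #T * #P :=
  ⟨_, fun p hp => by
    simp only [mem_filter, mem_product] at hp
    exact ⟨hp.1.1, hp.1.2, hp.2⟩, cherry Q π T h⟩

theorem ref' {α X ρ : Type*} (Q : Finset α) (φ : α → X) (R : Finset ρ) (hR : R.Nonempty)
    (Z : Finset (α × ρ)) (hZ : ∀ z ∈ Z, z.1 ∈ Q ∧ z.2 ∈ R) : ∃ r : X → ρ, ∃ Q' ⊆ Q,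
      (∀ q ∈ Q', (q, r (φ q)) ∈ Z) ∧ (#Z : ℝ) ≤ #R * #Q' := by
  obtain ⟨r, hr⟩ := ref Q φ R hR fun q r => (q, r) ∈ Z
  refine ⟨r, _, ?_, fun q hq => ?_, le_trans (Nat.cast_le.2 ?_) hr⟩
  · intro q hq
    simp only [mem_filter] at hq
    exact hq.1
  · simp only [mem_filter] at hq
    exact hq.2
  · refine card_le_card fun z hz => ?_
    simp only [mem_filter, mem_product]
    exact ⟨hZ z hz, hz⟩

theorem det3 {Γ : Type} [AddCommGroup Γ] {B : Finset Γ} {q q' : Fin 4 → Γ} (h : IsQ B q)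
    (h' : IsQ B q') {i j k : Fin 4} (hd : i ≠ j ∧ i ≠ k ∧ j ≠ k) (hi : q i = q' i) (hj : q j = q' j)
    (hk : q k = q' k) : q = q' := by
  have key : ∀ i j k l : Fin 4, i ≠ j ∧ i ≠ k ∧ j ≠ k →
      l = i ∨ l = j ∨ l = k ∨ ∀ n, n ≠ l → n = i ∨ n = j ∨ n = k := by decide
  funext l
  rcases key i j k l hd with rfl | rfl | rfl | h1
  · exact hi
  · exact hj
  · exact hk
  have h2 : ∀ n, n ≠ l → q n = q' n := fun n hn => by
    rcases h1 n hn with rfl | rfl | rfl <;> assumption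
  have h3 := h.2
  have h4 := h'.2
  fin_cases l
  · rw [h2 1 (by decide), h2 2 (by decide), h2 3 (by decide), ← h4] at h3
    exact add_right_cancel h3
  · rw [h2 0 (by decide), h2 2 (by decide), h2 3 (by decide), ← h4] at h3
    exact add_left_cancel h3
  · rw [h2 0 (by decide), h2 1 (by decide), h2 3 (by decide), h4] at h3
    exact (add_right_cancel h3).symm
  · rw [h2 0 (by decide), h2 1 (by decide), h2 2 (by decide), h4] at h3
    exact (add_left_cancel h3).symm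

theorem ne_of_dense {α : Type*} {Q : Finset α} {x : ℝ} (hx : 0 < x) (h : x ≤ #Q) : Q.Nonempty :=
  card_pos.1 (by exact_mod_cast hx.trans_le h)

/-- one reference in role `j` (for every value of `φ`) -/
theorem cref {Γ X : Type} [AddCommGroup Γ] {B : Finset Γ} {N δ : ℝ} {Q : Finset (Fin 4 → Γ)}
    (hN : 0 < N) (hB : (#B : ℝ) ≤ N) (hQ : ∀ q ∈ Q, IsQ B q) (hδ : 0 < δ) (hd : δ * N ^ 3 ≤ #Q)
    {i j k : Fin 4} (hijk : i ≠ j ∧ i ≠ k ∧ j ≠ k) (φ : (Fin 4 → Γ) → X) :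
    ∃ r : X → Γ, ∃ Q' ⊆ Q, δ ^ 2 * N ^ 3 ≤ #Q' ∧
      ∀ q ∈ Q', ∃ q' ∈ Q, q' i = q i ∧ q' k = q k ∧ q' j = r (φ q) := by
  classical
  obtain ⟨q₀, hq₀⟩ := ne_of_dense (by positivity) hd
  obtain ⟨P, hP, h1⟩ := cherry' Q (fun q => (q i, q k)) (B ×ˢ B) fun q hq =>
    mem_product.2 ⟨(hQ q hq).1 i, (hQ q hq).1 k⟩
  simp only [Prod.mk.injEq] at hP
  obtain ⟨r, Q', hs, hr, h2⟩ := ref' Q φ B ⟨_, (hQ q₀ hq₀).1 0⟩ (P.image fun p => (p.1, p.2 j))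
    fun z hz => by
      obtain ⟨p, hp, rfl⟩ := mem_image.1 hz
      exact ⟨(hP p hp).1, (hQ _ (hP p hp).2.1).1 j⟩
  rw [card_image_of_injOn fun p hp p' hp' e => by
    simp only [Prod.mk.injEq] at e
    refine Prod.ext e.1 (det3 (hQ _ (hP p hp).2.1) (hQ _ (hP p' hp').2.1) hijk ?_ e.2 ?_)
    · rw [← (hP p hp).2.2.1, ← (hP p' hp').2.2.1, e.1]
    · rw [← (hP p hp).2.2.2, ← (hP p' hp').2.2.2, e.1]] at h2
  refine ⟨r, Q', hs, ?_, fun q hq => ?_⟩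
  · rw [card_product, Nat.cast_mul] at h1
    refine le_of_mul_le_mul_left (a := N * N * N) ?_ (by positivity)
    calc N * N * N * (δ ^ 2 * N ^ 3) = (δ * N ^ 3) ^ 2 := by ring
      _ ≤ _ := (pow_le_pow_left₀ (by positivity) hd 2).trans h1
      _ ≤ N * N * (N * #Q') := mul_le_mul (by gcongr) (h2.trans (by gcongr)) (by positivity)
        (by positivity)
      _ = _ := by ring
  · obtain ⟨p, hp, e⟩ := mem_image.1 (hr q hq)
    simp only [Prod.mk.injEq] at e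
    exact ⟨p.2, (hP p hp).2.1, by rw [← e.1, (hP p hp).2.2.1], by rw [← e.1, (hP p hp).2.2.2], e.2⟩

/-- `v` depends only on the roles `i`, `j` -/
def Dep {Γ W : Type} (Q : Finset (Fin 4 → Γ)) (v : (Fin 4 → Γ) → W) (i j : Fin 4) : Prop :=
  ∀ q ∈ Q, ∀ q' ∈ Q, q i = q' i → q j = q' j → v q = v q'

theorem Dep.mono {Γ W : Type} {Q Q' : Finset (Fin 4 → Γ)} {v : (Fin 4 → Γ) → W} {i j : Fin 4}
    (h : Dep Q v i j) (hQ : Q' ⊆ Q) : Dep Q' v i j :=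
  fun q hq q' hq' => h q (hQ hq) q' (hQ hq')

theorem Dep.symm {Γ W : Type} {Q : Finset (Fin 4 → Γ)} {v : (Fin 4 → Γ) → W} {i j : Fin 4}
    (h : Dep Q v i j) : Dep Q v j i := fun q hq q' hq' a b => h q hq q' hq' b a

/-- VAL -/
theorem val {Γ W : Type} [AddCommGroup Γ] {B : Finset Γ} {N δ : ℝ} {Q : Finset (Fin 4 → Γ)}
    (hN : 0 < N) (hB : (#B : ℝ) ≤ N) (hQ : ∀ q ∈ Q, IsQ B q) (hδ : 0 < δ) (hd : δ * N ^ 3 ≤ #Q)
    {i j k : Fin 4} (hijk : i ≠ j ∧ i ≠ k ∧ j ≠ k) {v : (Fin 4 → Γ) → W} (h1 : Dep Q v i j)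
    (h2 : Dep Q v i k) : ∃ Q' ⊆ Q, δ ^ 2 * N ^ 3 ≤ #Q' ∧ Dep Q' v i i := by
  obtain ⟨r, Q', hs, hd', h⟩ := cref hN hB hQ hδ hd hijk fun q => q i
  refine ⟨Q', hs, hd', fun q hq q' hq' e _ => ?_⟩
  obtain ⟨p, hp, a1, a2, a3⟩ := h q hq
  obtain ⟨p', hp', b1, b2, b3⟩ := h q' hq'
  rw [← h2 p hp q (hs hq) a1 a2, ← h2 p' hp' q' (hs hq') b1 b2]
  exact h1 p hp p' hp' (by rw [a1, b1, e]) (by rw [a3, b3, e])

/-- a reference edge in every fibre -/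
theorem c4ref {α Γ W : Type} {Q : Finset α} {B : Finset Γ} {N δ ε : ℝ} (y e y' e' : α → Γ)
    (w : α → W) {G : (Fin 5 → Γ) → Prop} (hN : 0 < N) (hB : (#B : ℝ) ≤ N) (hδ : 0 < δ)
    (hm : ∀ q ∈ Q, y q ∈ B ∧ e q ∈ B ∧ y' q ∈ B ∧ e' q ∈ B)
    (hinj : ∀ q ∈ Q, ∀ q' ∈ Q, w q = w q' → y q = y q' → y' q = y' q' → q = q')
    (hw1 : ∀ q ∈ Q, ∀ q' ∈ Q, y q = y q' → e q = e q' → w q = w q')
    (hw2 : ∀ q ∈ Q, ∀ q' ∈ Q, y' q = y' q' → e' q = e' q' → w q = w q')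
    (hd : δ * N ^ 3 ≤ #Q) (hG : Most B N ε G) :
    ∃ r : W → Γ × Γ, ∃ Q' ⊆ Q, (δ ^ 4 - ε) * N ^ 3 ≤ #Q' ∧ ∀ q ∈ Q',
      (∃ p ∈ Q, w p = w q ∧ y p = y q ∧ y' p = (r (w q)).2) ∧
      (∃ p ∈ Q, w p = w q ∧ y p = (r (w q)).1 ∧ y' p = y' q) ∧
      (∃ p ∈ Q, w p = w q ∧ y p = (r (w q)).1 ∧ y' p = (r (w q)).2) ∧
      G ![y q, (r (w q)).1, y' q, (r (w q)).2, e q] := by
  classical
  obtain ⟨q₀, hq₀⟩ := ne_of_dense (by positivity) hd
  obtain ⟨P, hP, h1⟩ := cherry' Q (fun q => (y q, e q)) (B ×ˢ B) fun q hq =>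
    mem_product.2 ⟨(hm q hq).1, (hm q hq).2.1⟩
  simp only [Prod.mk.injEq] at hP
  have hPm : ∀ p ∈ P, p.1 ∈ Q ∧ p.2 ∈ Q ∧ y p.1 = y p.2 ∧ w p.1 = w p.2 := fun p hp =>
    ⟨(hP p hp).1, (hP p hp).2.1, (hP p hp).2.2.1,
      hw1 _ (hP p hp).1 _ (hP p hp).2.1 (hP p hp).2.2.1 (hP p hp).2.2.2⟩
  obtain ⟨P2, hP2, h2⟩ := cherry' P (fun p => (y' p.1, e' p.1, y' p.2)) (B ×ˢ B ×ˢ B) fun p hp =>
    mem_product.2 ⟨(hm _ (hPm p hp).1).2.2.1, mem_product.2 ⟨(hm _ (hPm p hp).1).2.2.2,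
      (hm _ (hPm p hp).2.1).2.2.1⟩⟩
  simp only [Prod.mk.injEq] at hP2
  have hP2m : ∀ z ∈ P2, z.1 ∈ P ∧ z.2 ∈ P ∧ y' z.1.1 = y' z.2.1 ∧ y' z.1.2 = y' z.2.2 ∧
      w z.1.1 = w z.2.1 := fun z hz => by
    obtain ⟨a1, a2, a3, a4, a5⟩ := hP2 z hz
    exact ⟨a1, a2, a3, a5, hw2 _ (hPm _ a1).1 _ (hPm _ a2).1 a3 a4⟩
  obtain ⟨Z, hZ⟩ : ∃ Z, Z = P2.image fun z => (z.1.1, y z.2.1, y' z.1.2) := ⟨_, rfl⟩
  have h3 : #Z = #P2 := by
    rw [hZ]
    refine card_image_of_injOn fun z hz z' hz' h => ?_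
    obtain ⟨a1, a2, a3, a4, a5⟩ := hP2m z hz
    obtain ⟨b1, b2, b3, b4⟩ := hPm _ a1
    obtain ⟨c1, c2, c3, c4⟩ := hPm _ a2
    obtain ⟨a1', a2', a3', a4', a5'⟩ := hP2m z' hz'
    obtain ⟨b1', b2', b3', b4'⟩ := hPm _ a1'
    obtain ⟨c1', c2', c3', c4'⟩ := hPm _ a2'
    simp only [Prod.mk.injEq] at h
    obtain ⟨d1, d2, d3⟩ := h
    refine Prod.ext (Prod.ext d1 (hinj _ b2 _ b2' ?_ ?_ d3))
      (Prod.ext (hinj _ c1 _ c1' ?_ d2 ?_) (hinj _ c2 _ c2' ?_ ?_ ?_))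
    · rw [← b4, ← b4', d1]
    · rw [← b3, ← b3', d1]
    · rw [← a5, ← a5', d1]
    · rw [← a3, ← a3', d1]
    · rw [← c4, ← c4', ← a5, ← a5', d1]
    · rw [← c3, ← c3', d2]
    · rw [← a4, ← a4', d3]
  have hZm : ∀ p ∈ Z, (p.1 ∈ Q ∧ p.2 ∈ B ×ˢ B) ∧
      (∃ x ∈ Q, w x = w p.1 ∧ y x = y p.1 ∧ y' x = p.2.2) ∧
      (∃ x ∈ Q, w x = w p.1 ∧ y x = p.2.1 ∧ y' x = y' p.1) ∧
      ∃ x ∈ Q, w x = w p.1 ∧ y x = p.2.1 ∧ y' x = p.2.2 := fun p hp => by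
    rw [hZ] at hp
    obtain ⟨z, hz, rfl⟩ := mem_image.1 hp
    obtain ⟨a1, a2, a3, a4, a5⟩ := hP2m z hz
    obtain ⟨b1, b2, b3, b4⟩ := hPm _ a1
    obtain ⟨c1, c2, c3, c4⟩ := hPm _ a2
    exact ⟨⟨b1, mem_product.2 ⟨(hm _ c1).1, (hm _ b2).2.2.1⟩⟩, ⟨_, b2, b4.symm, b3.symm, rfl⟩,
      ⟨_, c1, a5.symm, rfl, a3.symm⟩, _, c2, c4.symm.trans a5.symm, c3.symm, a4.symm⟩
  have h4 : (#{p ∈ Z | ¬ G ![y p.1, p.2.1, y' p.1, p.2.2, e p.1]} : ℝ) ≤ ε * N ^ 5 := by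
    refine le_trans (Nat.cast_le.2 ?_) hG
    refine card_le_card_of_injOn (fun p => ![y p.1, p.2.1, y' p.1, p.2.2, e p.1])
      (fun p hp => ?_) fun p hp p' hp' h => ?_
    · simp only [coe_filter, Set.mem_ofPred_eq, Fintype.mem_piFinset] at hp ⊢
      obtain ⟨a0, a4⟩ := (hZm p hp.1).1
      obtain ⟨a1, a2, a3, -⟩ := hm _ a0
      refine ⟨fun l => ?_, hp.2⟩
      fin_cases l
      exacts [a1, (mem_product.1 a4).1, a3, (mem_product.1 a4).2, a2]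
    · simp only [coe_filter, Set.mem_ofPred_eq] at hp hp'
      have k0 : y p.1 = y p'.1 := congrFun h 0
      have a := (hZm p hp.1).1.1
      have a' := (hZm p' hp'.1).1.1
      exact Prod.ext (hinj _ a _ a' (hw1 _ a _ a' k0 (congrFun h 4)) k0
        (congrFun h 2)) (Prod.ext (congrFun h 1) (congrFun h 3))
  obtain ⟨r, Q', hs, hr, h5⟩ := ref' Q w (B ×ˢ B)
    ⟨(y q₀, y q₀), mem_product.2 ⟨(hm _ hq₀).1, (hm _ hq₀).1⟩⟩
    {p ∈ Z | G ![y p.1, p.2.1, y' p.1, p.2.2, e p.1]} fun z hz => (hZm z (mem_filter.1 hz).1).1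
  refine ⟨r, Q', hs, ?_, fun q hq => ?_⟩
  swap
  · obtain ⟨a1, a2⟩ := mem_filter.1 (hr q hq)
    obtain ⟨-, b1, b2, b3⟩ := hZm _ a1
    exact ⟨b1, b2, b3, a2⟩
  have h6 : (#{p ∈ Z | G ![y p.1, p.2.1, y' p.1, p.2.2, e p.1]} : ℝ) +
      #{p ∈ Z | ¬ G ![y p.1, p.2.1, y' p.1, p.2.2, e p.1]} = #P2 := by
    rw [← h3, ← Nat.cast_add, card_filter_add_card_filter_not]
  rw [card_product, Nat.cast_mul] at h1 h5
  rw [card_product, card_product, Nat.cast_mul, Nat.cast_mul] at h2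
  have k1 : δ ^ 2 * N ^ 4 ≤ #P := by
    refine le_of_mul_le_mul_left (a := N * N) ?_ (by positivity)
    calc N * N * (δ ^ 2 * N ^ 4) = (δ * N ^ 3) ^ 2 := by ring
      _ ≤ _ := (pow_le_pow_left₀ (by positivity) hd 2).trans h1
      _ ≤ _ := by gcongr
  have k2 : δ ^ 4 * N ^ 5 ≤ #P2 := by
    refine le_of_mul_le_mul_left (a := N * (N * N)) ?_ (by positivity)
    calc N * (N * N) * (δ ^ 4 * N ^ 5) = (δ ^ 2 * N ^ 4) ^ 2 := by ring
      _ ≤ _ := (pow_le_pow_left₀ (by positivity) k1 2).trans h2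
      _ ≤ _ := by gcongr
  refine le_of_mul_le_mul_left (a := N * N) ?_ (by positivity)
  calc N * N * ((δ ^ 4 - ε) * N ^ 3) = δ ^ 4 * N ^ 5 - ε * N ^ 5 := by ring
    _ ≤ _ := by linarith
    _ ≤ _ := h5
    _ ≤ _ := by gcongr

/-- the matrices of a grid -/
def gm (a b c : Fin 4 → ℤ) (s : ℤ) (u v : Fin 2) (e : Fin 3) : Fin 5 → ℤ :=
  a e.castSucc • ![![1, 0, 0, 0, 0], ![0, 1, 0, 0, 0]] u +
    b e.castSucc • ![![0, 0, 1, 0, 0], ![0, 0, 0, 1, 0]] v + c e.castSucc • ![1, 0, 0, 0, s]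

variable {β κ Γ J : Type} [AddCommGroup Γ]

/-- the hypothesis on grids -/
def GridH (Q : Finset (Fin 4 → Γ)) (G : (Fin 5 → Γ) → Prop)
    (Y : (Fin 4 → Γ) → J → Pl (V β κ (Fin 3))) : Prop :=
  ∀ t, G t → ∀ (M : Fin 2 → Fin 2 → Fin 3 → Fin 5 → ℤ) (q : Fin 2 → Fin 2 → Fin 4 → Γ),
    (∀ a b e, ∑ l, |M a b e l| ≤ 3) → (∀ a b, q a b ∈ Q ∧ ∀ e, q3 (q a b) e = ∑ l, M a b e l • t l) →
    (∀ i, (∀ a, row (M a 0) i = row (M a 1) i) ∨ ∀ b, row (M 0 b) i = row (M 1 b) i) →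
    ∀ j, aeval (sub β κ (M 0 0)) (Y (q 0 0) j) - aeval (sub β κ (M 0 1)) (Y (q 0 1) j) -
      aeval (sub β κ (M 1 0)) (Y (q 1 0) j) + aeval (sub β κ (M 1 1)) (Y (q 1 1) j) = 0

theorem GridH.mono {Q Q' : Finset (Fin 4 → Γ)} {G : (Fin 5 → Γ) → Prop}
    {Y : (Fin 4 → Γ) → J → Pl (V β κ (Fin 3))} (h : GridH Q G Y) (hQ : Q' ⊆ Q) : GridH Q' G Y :=
  fun t ht M q h1 h2 => h t ht M q h1 fun a b => ⟨hQ (h2 a b).1, (h2 a b).2⟩

/-- `Y` splits along a pairing, with pieces that depend only on their own roles -/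
def Dec (Q : Finset (Fin 4 → Γ)) (Y : (Fin 4 → Γ) → J → Pl (V β κ (Fin 3))) (i j k l : Fin 4) :
    Prop :=
  ∃ A A' : Γ → Γ → J → Pl (V β κ (Fin 2)), ∀ q ∈ Q, ∀ n,
    Y q n = pl β κ i j (A (q i) (q j) n) + pl β κ k l (A' (q k) (q l) n)

omit [AddCommGroup Γ] in
theorem Dec.mono {Q Q' : Finset (Fin 4 → Γ)} {Y : (Fin 4 → Γ) → J → Pl (V β κ (Fin 3))}
    {i j k l : Fin 4} (h : Dec Q Y i j k l) (hQ : Q' ⊆ Q) : Dec Q' Y i j k l := by
  obtain ⟨A, A', h⟩ := h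
  exact ⟨A, A', fun q hq => h q (hQ hq)⟩

omit [AddCommGroup Γ] in
theorem Dec.left {Q : Finset (Fin 4 → Γ)} {Y : (Fin 4 → Γ) → J → Pl (V β κ (Fin 3))}
    {i j k l : Fin 4} (h : Dec Q Y i j k l) (φ : Pl (V β κ (Fin 3)) →ₗ[ℝ] Pl (V β κ Unit))
    (hφ : ∀ b, φ (pl β κ k l b) = 0) : Dep Q (fun q n => φ (Y q n)) i j := by
  obtain ⟨A, A', h⟩ := h
  intro q hq q' hq' a b
  funext n
  simp only [h q hq, h q' hq', map_add, hφ, a, b]

omit [AddCommGroup Γ] in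
theorem Dec.right {Q : Finset (Fin 4 → Γ)} {Y : (Fin 4 → Γ) → J → Pl (V β κ (Fin 3))}
    {i j k l : Fin 4} (h : Dec Q Y i j k l) (φ : Pl (V β κ (Fin 3)) →ₗ[ℝ] Pl (V β κ Unit))
    (hφ : ∀ b, φ (pl β κ i j b) = 0) : Dep Q (fun q n => φ (Y q n)) k l := by
  obtain ⟨A, A', h⟩ := h
  intro q hq q' hq' a b
  funext n
  simp only [h q hq, h q' hq', map_add, hφ, a, b]

theorem dec {B : Finset Γ} {N δ ε : ℝ} {Q : Finset (Fin 4 → Γ)} {G : (Fin 5 → Γ) → Prop}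
    {Y : (Fin 4 → Γ) → J → Pl (V β κ (Fin 3))} (hN : 0 < N) (hB : (#B : ℝ) ≤ N)
    (hQ : ∀ q ∈ Q, IsQ B q) (hδ : 0 < δ) (hd : δ * N ^ 3 ≤ #Q) (hG : Most B N ε G)
    (hY : GridH Q G Y) (i j k l : Fin 4) (a b c : Fin 4 → ℤ) (s : ℤ)
    (H1 : ∀ q : Fin 4 → Γ, q 0 + q 1 = q 2 + q 3 →
      q = fun r => a r • q i + b r • q k + c r • (q i + s • q j))
    (H2 : ∀ q : Fin 4 → Γ, q 0 + q 1 = q 2 + q 3 → q i + s • q j = q k + s • q l)
    (H3 : ∀ u v e, ∑ l, |gm a b c s u v e l| ≤ 3)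
    (H4 : ∀ i, (∀ u, row (gm a b c s u 0) i = row (gm a b c s u 1) i) ∨
      ∀ v, row (gm a b c s 0 v) i = row (gm a b c s 1 v) i)
    (H5 : ∀ e e', (∑ n, gm a b c s 0 0 e n • ![rol i, 0, rol k, 0, rol j] n) e' =
      if e = e' then 1 else 0)
    (H6 : ∀ e, ∑ n, gm a b c s 0 1 e n • ![rol i, 0, rol k, 0, rol j] n =
      ∑ n, ![a e.castSucc + c e.castSucc, c e.castSucc * s] n • ![rol i, rol j] n)
    (H7 : ∀ e, ∑ n, gm a b c s 1 0 e n • ![rol i, 0, rol k, 0, rol j] n =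
      ∑ n, ![b e.castSucc + c e.castSucc, c e.castSucc * s] n • ![rol k, rol l] n)
    (H8 : ∀ e, ∑ n, gm a b c s 1 1 e n • ![rol i, 0, rol k, 0, rol j] n =
      ∑ n, ![c e.castSucc, c e.castSucc * s] n • ![rol i, rol j] n) :
    ∃ Q' ⊆ Q, (δ ^ 4 - ε) * N ^ 3 ≤ #Q' ∧ Dec Q' Y i j k l := by
  let mq : Γ → Γ → Γ → Fin 4 → Γ := fun y y' w r => a r • y + b r • y' + c r • w
  have hmq : ∀ p ∈ Q, ∀ {y y' w}, p i + s • p j = w → p i = y → p k = y' → mq y y' w = p := by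
    rintro p hp _ _ _ rfl rfl rfl
    exact (H1 p (hQ p hp).2).symm
  obtain ⟨r, Q', hs, hd', h⟩ := c4ref (Q := Q) (fun q => q i) (fun q => q j) (fun q => q k)
    (fun q => q l) (fun q => q i + s • q j) hN hB hδ
    (fun q hq => ⟨(hQ q hq).1 i, (hQ q hq).1 j, (hQ q hq).1 k, (hQ q hq).1 l⟩)
    (fun q hq q' hq' e1 e2 e3 => (hmq q hq e1 e2 e3).symm.trans (hmq q' hq' rfl rfl rfl))
    (fun q _ q' _ e1 e2 => by simp only [e1, e2])
    (fun q hq q' hq' e1 e2 => by simp only [H2 q (hQ q hq).2, H2 q' (hQ q' hq').2, e1, e2]) hd hG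
  refine ⟨Q', hs, hd', fun y y' n =>
    sb β κ (fun e : Fin 3 => ![a e.castSucc + c e.castSucc, c e.castSucc * s])
      (Y (mq y (r (y + s • y')).2 (y + s • y')) n) -
    sb β κ (fun e : Fin 3 => ![c e.castSucc, c e.castSucc * s])
      (Y (mq (r (y + s • y')).1 (r (y + s • y')).2 (y + s • y')) n), fun y y' n =>
    sb β κ (fun e : Fin 3 => ![b e.castSucc + c e.castSucc, c e.castSucc * s])
      (Y (mq (r (y + s • y')).1 y (y + s • y')) n), fun q hq n => ?_⟩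
  obtain ⟨⟨p1, m1, a1, a2, a3⟩, ⟨p2, m2, b1, b2, b3⟩, ⟨p3, m3, c1, c2, c3⟩, hg⟩ := h q hq
  beta_reduce
  rw [← H2 q (hQ q (hs hq)).2]
  have e0 := hmq q (hs hq) rfl rfl rfl
  have e1 := hmq p1 m1 a1 a2 a3
  have e2 := hmq p2 m2 b1 b2 b3
  have e3 := hmq p3 m3 c1 c2 c3
  have key := hY _ hg (gm a b c s) ![![q, p1], ![p2, p3]] H3 (fun u v => by
    have hv : ∀ (u v : Fin 2) (e : Fin 3), ∑ l, gm a b c s u v e l •
        ![q i, (r (q i + s • q j)).1, q k, (r (q i + s • q j)).2, q j] l =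
        mq (![q i, (r (q i + s • q j)).1] u) (![q k, (r (q i + s • q j)).2] v) (q i + s • q j)
          e.castSucc := fun u v e => by
      fin_cases u <;> fin_cases v <;>
        simp [gm, mq, Fin.sum_univ_five, add_smul, mul_smul, smul_add] <;> abel
    simp only [hv, q3]
    fin_cases u <;> fin_cases v
    · exact ⟨hs hq, fun e => (congrFun e0 _).symm⟩
    · exact ⟨m1, fun e => (congrFun e1 _).symm⟩
    · exact ⟨m2, fun e => (congrFun e2 _).symm⟩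
    · exact ⟨m3, fun e => (congrFun e3 _).symm⟩) H4 n
  have key' := congrArg (sb β κ ![rol i, 0, rol k, 0, rol j]) key
  simp only [map_add, map_sub, map_zero, sb_sb, H6, H7, H8] at key'
  rw [sb_id H5] at key'
  simp only [map_sub, sb_sb, e1, e2, e3]
  simp only [Matrix.cons_val_zero, Matrix.cons_val_one] at key'
  linear_combination key'

theorem dens {m N x : ℝ} (hm : 2 ≤ m) (hN : 0 < N) {n : ℕ} (hn : 1 ≤ n) (hn' : n ≤ 25)
    (h : (Real.exp (-m * n) ^ 4 - Real.exp (-m ^ 15)) * N ^ 3 ≤ x) :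
    Real.exp (-m * (5 * n : ℕ)) * N ^ 3 ≤ x := by
  refine le_trans (mul_le_mul_of_nonneg_right ?_ (by positivity)) h
  have h1 : (1 : ℝ) ≤ n := by exact_mod_cast hn
  have h2 : (n : ℝ) ≤ 25 := by exact_mod_cast hn'
  have h3 : (2 : ℝ) ^ 14 ≤ m ^ 14 := by gcongr
  have h4 : Real.exp (-m ^ 15) ≤ Real.exp (-m * (5 * n : ℕ)) := by
    refine Real.exp_le_exp.2 ?_
    push_cast
    nlinarith
  have h5 : Real.exp (-m * n) ^ 4 = Real.exp (m * n) * Real.exp (-m * (5 * n : ℕ)) := by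
    rw [← Real.exp_nat_mul, ← Real.exp_add]; push_cast; ring_nf
  have h6 : 2 ≤ Real.exp (m * n) := by nlinarith [Real.add_one_le_exp (m * n)]
  rw [h5]
  nlinarith [Real.exp_pos (-m * (5 * n : ℕ))]

theorem sw (i j : Fin 4) (b : Pl (V β κ (Fin 2))) : ∃ b', pl β κ i j b = pl β κ j i b' := by
  refine ⟨sb β κ ![![0, 1], ![1, 0]] b, ?_⟩
  have h : (fun a : Fin 2 => ∑ e, ![![(0 : ℤ), 1], ![1, 0]] a e • ![rol j, rol i] e) =
      ![rol i, rol j] := by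
    funext e
    fin_cases e <;> simp
  rw [sb_sb, h]

theorem sq_exp (m : ℝ) (n : ℕ) : Real.exp (-m * n) ^ 2 = Real.exp (-m * (2 * n : ℕ)) := by
  rw [← Real.exp_nat_mul]; push_cast; ring_nf

end G62

open G62

theorem gaugeStmt : GaugeStmt := by
  intro S
  let oA : Fin 4 → ∀ β κ : Type, Pl (V β κ (Fin 3)) →ₗ[ℝ] Pl (V β κ Unit) := fun i β κ =>
    nl β κ S i + ![0, ln β κ (rol 1) - ln β κ (rol 0), 0, ln β κ (rol 0)] i
  let oB : Fin 4 → ∀ β κ : Type, Pl (V β κ (Fin 3)) →ₗ[ℝ] Pl (V β κ Unit) := fun i β κ =>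
    ![ln β κ (rol 0), ln β κ (rol 0), ln β κ (rol 2), -ln β κ (rol 0)] i
  obtain ⟨D, hD, hnice⟩ := nf_all (S := S) (op := Sum.elim oA oB) (by
    rintro (i | i)
    · refine (nf_nl S i).add ?_
      fin_cases i
      exacts [NF.zero S, (nf_ln S 1).sub (nf_ln S 0), NF.zero S, nf_ln S 0]
    · fin_cases i
      exacts [nf_ln S 0, nf_ln S 0, nf_ln S 2, (nf_ln S 0).neg])
  refine ⟨15, D, by norm_num, hD, fun β κ => ⟨fun i => oA i β κ, fun i => oB i β κ,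
    fun i => ⟨hnice (.inl i) β κ, hnice (.inr i) β κ⟩, ?_⟩⟩
  intro m hm Γ J _ B N Q G Y hN hB hQ hd hG hdeg hY
  change GridH Q G Y at hY
  have hd0 : Real.exp (-m * (1 : ℕ)) * N ^ 3 ≤ #Q := by simpa using hd
  obtain ⟨Q1, s1, d1, D1⟩ := dec hN hB hQ (Real.exp_pos _) hd0 hG hY 0 3 2 1 ![1, 0, 0, 1]
    ![0, 1, 1, 0] ![0, -1, 0, -1] (-1)
    (fun q h => funext fun r => by
      fin_cases r <;> simp
      rw [← sub_eq_zero, ← sub_eq_zero.2 h]; abel)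
    (fun q h => by rw [← sub_eq_zero, ← sub_eq_zero.2 h]; simp; abel)
    (by decide) (by decide) (by decide) (by decide) (by decide) (by decide)
  replace d1 := dens hm hN le_rfl (by norm_num) d1
  have hQ1 := fun q hq => hQ q (s1 hq)
  obtain ⟨Q2, s2, d2, D2⟩ := dec hN hB hQ1 (Real.exp_pos _) d1 hG (hY.mono s1) 0 2 3 1 ![1, 0, 1, 0]
    ![0, 1, 0, 1] ![0, -1, -1, 0] (-1)
    (fun q h => funext fun r => by
      fin_cases r <;> simp
      rw [← sub_eq_zero, ← sub_eq_zero.2 h]; abel)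
    (fun q h => by rw [← sub_eq_zero, ← sub_eq_zero.2 h]; simp; abel)
    (by decide) (by decide) (by decide) (by decide) (by decide) (by decide)
  replace d2 := dens hm hN (by norm_num) (by norm_num) d2
  have hQ2 := fun q hq => hQ1 q (s2 hq)
  obtain ⟨Q3, s3, d3, D3⟩ := dec hN hB hQ2 (Real.exp_pos _) d2 hG ((hY.mono s1).mono s2) 0 1 2 3
    ![1, -1, 0, 0] ![0, 0, 1, -1] ![0, 1, 0, 1] 1
    (fun q h => funext fun r => by
      fin_cases r <;> simp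
      rw [h]; abel)
    (fun q h => by simpa using h)
    (by decide) (by decide) (by decide) (by decide) (by decide) (by decide)
  replace d3 := dens hm hN (by norm_num) (by norm_num) d3
  have hQ3 := fun q hq => hQ2 q (s3 hq)
  replace D1 := (D1.mono s2).mono s3
  replace D2 := D2.mono s3
  -- dependences on `Q3`
  have n03 := D1.left _ (nl_pl S 0 2 1 (by decide))
  have n02 := D2.left _ (nl_pl S 0 3 1 (by decide))
  have n12 := (D1.right _ (nl_pl S 1 0 3 (by decide))).symm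
  have n13 := (D2.right _ (nl_pl S 1 0 2 (by decide))).symm
  have n21 := D1.right _ (nl_pl S 2 0 3 (by decide))
  have n20 := (D2.left _ (nl_pl S 2 3 1 (by decide))).symm
  have n30 := (D1.left _ (nl_pl S 3 2 1 (by decide))).symm
  have n31 := D2.right _ (nl_pl S 3 0 2 (by decide))
  have l03 := D1.left _ (ln_pl (rol 0) 2 1 (by decide))
  have l23 := D3.right _ (ln_pl (rol 2) 0 1 (by decide))
  have l02 := D2.left _ (ln_pl (rol 0 + rol 2) 3 1 (by decide))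
  have l21 := D1.right _ (ln_pl (rol 1 + rol 2) 0 3 (by decide))
  have l01 := D3.left _ (ln_pl (rol 1 - rol 0) 2 3 (by decide))
  have lsub : ∀ f, ln β κ (rol 1 - rol 0) f = ln β κ (rol 1) f - ln β κ (rol 0) f := fun f => by
    rw [eq_sub_iff_add_eq, ← ln_add, sub_add_cancel]
  simp only [ln_add, lsub] at l02 l21 l01
  obtain ⟨o, Q4, s4, d4, hκ⟩ := cref hN hB hQ3 (Real.exp_pos _) d3 (i := 0) (j := 3) (k := 2)
    (by decide) fun _ => ()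
  choose! k hk k0 k2 k3 using hκ
  rw [sq_exp] at d4
  have hQ4 := fun q hq => hQ3 q (s4 hq)
  have u0 : ∀ q ∈ Q4, ∀ q' ∈ Q4, q 0 = q' 0 → ∀ n,
      ln β κ (rol 0) (Y (k q) n) = ln β κ (rol 0) (Y (k q') n) := fun q hq q' hq' e =>
    congrFun (l03 _ (hk q hq) _ (hk q' hq') (by rw [k0 q hq, k0 q' hq', e])
      (by rw [k3 q hq, k3 q' hq']))
  have u2 : ∀ q ∈ Q4, ∀ q' ∈ Q4, q 2 = q' 2 → ∀ n,
      ln β κ (rol 2) (Y (k q) n) = ln β κ (rol 2) (Y (k q') n) := fun q hq q' hq' e =>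
    congrFun (l23 _ (hk q hq) _ (hk q' hq') (by rw [k2 q hq, k2 q' hq', e])
      (by rw [k3 q hq, k3 q' hq']))
  have u02 : ∀ q ∈ Q4, ∀ n, ln β κ (rol 0) (Y (k q) n) + ln β κ (rol 2) (Y (k q) n) =
      ln β κ (rol 0) (Y q n) + ln β κ (rol 2) (Y q n) := fun q hq =>
    congrFun (l02 _ (hk q hq) _ (s4 hq) (k0 q hq) (k2 q hq))
  obtain ⟨Q5, s5, d5, v3⟩ := val hN hB hQ4 (Real.exp_pos _) d4 (i := 3) (j := 0) (k := 2)
    (by decide) (v := fun q n => ln β κ (rol 0) (Y q n) - ln β κ (rol 0) (Y (k q) n))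
    (fun q hq q' hq' a b => funext fun n => by
      have := congrFun (l03 _ (s4 hq) _ (s4 hq') b a) n
      linear_combination this - u0 q hq q' hq' b n)
    (fun q hq q' hq' a b => funext fun n => by
      have := congrFun (l23 _ (s4 hq) _ (s4 hq') b a) n
      linear_combination u2 q hq q' hq' b n - this - u02 q hq n + u02 q' hq' n)
  rw [sq_exp] at d5
  have hQ5 := fun q hq => hQ4 q (s5 hq)
  obtain ⟨Q6, s6, d6, v1⟩ := val hN hB hQ5 (Real.exp_pos _) d5 (i := 1) (j := 0) (k := 2)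
    (by decide) (v := fun q n => ln β κ (rol 1) (Y q n) - ln β κ (rol 0) (Y q n) +
      ln β κ (rol 0) (Y (k q) n))
    (fun q hq q' hq' a b => funext fun n => by
      have := congrFun (l01 _ (s4 (s5 hq)) _ (s4 (s5 hq')) b a) n
      linear_combination this + u0 q (s5 hq) q' (s5 hq') b n)
    (fun q hq q' hq' a b => funext fun n => by
      have := congrFun (l21 _ (s4 (s5 hq)) _ (s4 (s5 hq')) b a) n
      linear_combination this - u2 q (s5 hq) q' (s5 hq') b n + u02 q (s5 hq) n - u02 q' (s5 hq') n)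
  rw [sq_exp] at d6
  have t6 : Q6 ⊆ Q3 := s6.trans (s5.trans s4)
  obtain ⟨Q7, s7, d7, w0⟩ := val hN hB (fun q hq => hQ3 q (t6 hq)) (Real.exp_pos _) d6 (by decide)
    (n03.mono t6) (n02.mono t6)
  rw [sq_exp] at d7
  have t7 : Q7 ⊆ Q3 := s7.trans t6
  obtain ⟨Q8, s8, d8, w1⟩ := val hN hB (fun q hq => hQ3 q (t7 hq)) (Real.exp_pos _) d7 (by decide)
    (n12.mono t7) (n13.mono t7)
  rw [sq_exp] at d8
  have t8 : Q8 ⊆ Q3 := s8.trans t7
  obtain ⟨Q9, s9, d9, w2⟩ := val hN hB (fun q hq => hQ3 q (t8 hq)) (Real.exp_pos _) d8 (by decide)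
    (n21.mono t8) (n20.mono t8)
  rw [sq_exp] at d9
  have t9 : Q9 ⊆ Q3 := s9.trans t8
  obtain ⟨Q', s', d', w3⟩ := val hN hB (fun q hq => hQ3 q (t9 hq)) (Real.exp_pos _) d9 (by decide)
    (n30.mono t9) (n31.mono t9)
  rw [sq_exp] at d'
  have t' : Q' ⊆ Q3 := s'.trans t9
  have r8 : Q' ⊆ Q8 := s'.trans s9
  have r7 : Q' ⊆ Q7 := r8.trans s8
  have r6 : Q' ⊆ Q6 := r7.trans s7
  have r5 : Q' ⊆ Q5 := r6.trans s6
  have r4 : Q' ⊆ Q4 := r5.trans s5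
  have tQ : Q3 ⊆ Q := s3.trans (s2.trans s1)
  have hdep : ∀ i, ∀ q ∈ Q', ∀ q' ∈ Q', q i = q' i → ∀ n,
      oA i β κ (Y q n) + oB i β κ (Y (k q) n) = oA i β κ (Y q' n) + oB i β κ (Y (k q') n) := by
    intro i q hq q' hq' e n
    fin_cases i
    · have := congrFun (w0 q (r7 hq) q' (r7 hq') e e) n
      simp only [oA, oB, LinearMap.add_apply, Fin.zero_eta, Matrix.cons_val_zero,
        LinearMap.zero_apply]
      linear_combination this + u0 q (r4 hq) q' (r4 hq') e n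
    · have := congrFun (w1 q (r8 hq) q' (r8 hq') e e) n
      have h2 := congrFun (v1 q (r6 hq) q' (r6 hq') e e) n
      simp only [oA, oB, LinearMap.add_apply, Fin.mk_one, Matrix.cons_val_one,
        Matrix.cons_val_zero, LinearMap.sub_apply]
      linear_combination this + h2
    · have := congrFun (w2 q (s' hq) q' (s' hq') e e) n
      simp only [oA, oB, LinearMap.add_apply, Fin.reduceFinMk, Matrix.cons_val,
        LinearMap.zero_apply]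
      linear_combination this + u2 q (r4 hq) q' (r4 hq') e n
    · have := congrFun (w3 q hq q' hq' e e) n
      have h2 := congrFun (v3 q (r5 hq) q' (r5 hq') e e) n
      simp only [oA, oB, LinearMap.add_apply, Fin.reduceFinMk, Matrix.cons_val,
        LinearMap.neg_apply]
      linear_combination this + h2
  have hτ : ∀ i h, ∃ t : J → Pl (V β κ Unit), ∀ q ∈ Q', q i = h → ∀ n,
      t n = oA i β κ (Y q n) + oB i β κ (Y (k q) n) := fun i h => by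
    by_cases hh : ∃ q ∈ Q', q i = h
    · obtain ⟨q₀, h0, e0⟩ := hh
      exact ⟨_, fun q hq e n => hdep i q₀ h0 q hq (e0.trans e.symm) n⟩
    · exact ⟨0, fun q hq e => absurd ⟨q, hq, e⟩ hh⟩
  choose τ hτ using hτ
  refine ⟨Q', t'.trans tQ, le_trans ?_ d', τ, fun q hq => ⟨fun n => ?_, fun i =>
    ⟨q, tQ (t' hq), k q, tQ (hk q (r4 hq)), hτ i _ q hq rfl⟩⟩⟩
  · refine mul_le_mul_of_nonneg_right (Real.exp_le_exp.2 ?_) (by positivity)
    have h3 : (2 : ℝ) ^ 14 ≤ m ^ 14 := by gcongr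
    push_cast
    nlinarith
  · obtain ⟨A1, A1', e1⟩ := D1
    obtain ⟨A2, A2', e2⟩ := D2
    obtain ⟨A3, A3', e3⟩ := D3
    obtain ⟨b1, hb1⟩ := sw 2 1 (A1' (q 2) (q 1) n)
    obtain ⟨b2, hb2⟩ := sw 3 1 (A2' (q 3) (q 1) n)
    have f1 := e1 q (t' hq) n
    have f2 := e2 q (t' hq) n
    rw [hb1] at f1
    rw [hb2] at f2
    have key := sep (hdeg q (tQ (t' hq)) n) ⟨_, _, f1⟩ ⟨_, _, f2⟩ ⟨_, _, e3 q (t' hq) n⟩
      ![ln β κ (rol 0) (Y (k q) n), ln β κ (rol 1) (Y q n) - ln β κ (rol 0) (Y q n) +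
        ln β κ (rol 0) (Y (k q) n), ln β κ (rol 2) (Y (k q) n),
        ln β κ (rol 0) (Y q n) - ln β κ (rol 0) (Y (k q) n)]
      (Tw.hom_sub (ln_hom _ _) (ln_hom _ _)) (by simp) (by simp)
      (by
        simp only [Matrix.cons_val]
        linear_combination -u02 q (r4 hq) n)
    refine key.trans (congrArg₂ _ (sum_congr rfl fun i _ => congrArg _ ?_) rfl)
    rw [hτ i _ q hq rfl n]
    fin_cases i <;> simp [oA, oB] <;> ring

end Crest.Agent.T49.Br
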