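import Crest.Agent.T49.BrGour_85

/-!
# Row 49 (helper9): the leaf `GRID` of the relative structure theorem
-/

set_option autoImplicit false

noncomputable section

namespace Crest.Agent.T49.Br

open Finset MvPolynomial Crest.Agent.T49.Nil Crest.Agent.T49.Nil.ND Crest.Agent.T49.GI
open Crest.Agent.T49.Bch (star expAd)
open Crest.Agent.T49.Tw (Pl nrm DegLe)
open Crest.Agent.T49.GI.Gour32 (gd_pw cong)
open Gr85

namespace G9

variable {ι : Type} [Fintype ι] {g : ND ι} {σ τ υ : Type}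

theorem subst_subst (r : σ → Pl τ) (r' : τ → Pl υ) (x : g.PS σ) :
    g.subst r' (g.subst r x) = g.subst (fun v => aeval r' (r v)) x :=
  pts_ext fun k => AlgHom.congr_fun (comp_aeval (f := r) (aeval r')) (x k)

theorem subst_X (x : g.PS σ) : g.subst X x = x := pts_ext fun k => aeval_X_left_apply (x k)

theorem subst_tup2 (r : σ → Pl τ) (x y : g.PS σ) :
    (pw g (Fin 2)).subst r (tup ![x, y]) = tup ![g.subst r x, g.subst r y] :=
  pw_ext fun j => by fin_cases j <;> rfl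

theorem star_tup2 (S : ℕ) (x y x' y' : g.PS σ) :
    star S (tup ![x, y] : (pw g (Fin 2)).PS σ) (tup ![x', y']) =
      tup ![star S x x', star S y y'] := by
  rw [star_tup]
  exact pw_ext fun j => by fin_cases j <;> rfl

theorem hm_tup2 {lev : σ → ℕ} {x y : g.PS σ} (hx : x ∈ Hm lev g) (hy : y ∈ Hm lev g) :
    (tup ![x, y] : (pw g (Fin 2)).PS σ) ∈ Hm lev (pw g (Fin 2)) :=
  hm_tup fun a => by
    fin_cases a
    exacts [hx, hy]

theorem smR_zero {c : Cs σ} {m : ℝ} : SmR c g m 0 :=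
  ⟨0, zero_mem _, fun _ => by simpa using (Real.exp_pos m).le, (map_zero _).symm⟩

theorem smR_neg {c : Cs σ} {m : ℝ} {x : g.PS σ} (h : SmR c g m x) : SmR c g m (-x) := by
  obtain ⟨e, h1, h2, rfl⟩ := h
  exact ⟨-e, neg_mem h1, fun k => by simpa using h2 k, (map_neg _ _).symm⟩

theorem smR_tup2 {c : Cs σ} {m : ℝ} {x y : g.PS σ} (hx : SmR c g m x) (hy : SmR c g m y) :
    SmR c (pw g (Fin 2)) m (tup ![x, y]) := by
  obtain ⟨e, h1, h2, rfl⟩ := hx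
  obtain ⟨e', h1', h2', rfl⟩ := hy
  refine ⟨tup ![e, e'], hm_tup2 h1 h1', fun k => ?_, (subst_tup2 _ _ _).symm⟩
  obtain ⟨a, k⟩ := k
  fin_cases a
  exacts [h2 k, h2' k]

theorem rtR_zero {lev : σ → ℕ} {m : ℝ} (hm : 0 ≤ m) : RtR lev g m 0 :=
  ⟨zero_mem _, 1, le_rfl, by simpa using hm, fun α => den_iff.2 fun k => ⟨0, by simp⟩⟩

theorem rtR_neg {lev : σ → ℕ} {m : ℝ} {x : g.PS σ} (h : RtR lev g m x) : RtR lev g m (-x) := by
  obtain ⟨h0, q, h1, h2, h3⟩ := h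
  refine ⟨neg_mem h0, q, h1, h2, fun α => den_iff.2 fun k => ?_⟩
  obtain ⟨z, hz⟩ := den_iff.1 (h3 α) k
  exact ⟨-z, by rw [map_neg, ND.neg_apply, mul_neg, hz, Int.cast_neg]⟩

theorem rtR_tup2 {lev : σ → ℕ} {m : ℝ} {x y : g.PS σ} (hx : RtR lev g m x) (hy : RtR lev g m y) :
    RtR lev (pw g (Fin 2)) (2 * m) (tup ![x, y]) := by
  obtain ⟨h0, q, h1, h2, h3⟩ := hx
  obtain ⟨h0', q', h1', h2', h3'⟩ := hy
  refine ⟨hm_tup2 h0 h0', q * q', Nat.mul_pos h1 h1', ?_, fun α => den_iff.2 fun k => ?_⟩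
  · rw [two_mul, Real.exp_add, Nat.cast_mul]
    exact mul_le_mul h2 h2' (Nat.cast_nonneg _) (Real.exp_pos _).le
  · obtain ⟨a, k⟩ := k
    fin_cases a
    exacts [den_iff.1 (h3.of_dvd (dvd_mul_right q q') α) k,
      den_iff.1 (h3'.of_dvd (dvd_mul_left q' q) α) k]

theorem uo_lie {U U' U'' : Submodule ℝ g.L} (h : ∀ x ∈ U, ∀ y ∈ U', ⁅x, y⁆ ∈ U'') {x y : g.PS σ}
    (hx : x ∈ Uo σ U) (hy : y ∈ Uo σ U') : ⁅x, y⁆ ∈ Uo σ U'' :=
  lie_mem_cf (W := fun _ => U) (W' := fun _ => U') (W'' := fun _ => U'') (fun _ _ => h) hx hy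

theorem uo_subst (hCl : ClosRStmt) {U : Submodule ℝ g.L} (r : σ → Pl τ) {x : g.PS σ}
    (hx : x ∈ Uo σ U) : g.subst r x ∈ Uo τ U :=
  (hCl.2.1 ι σ τ g U).1 (aeval r).toLinearMap x hx

theorem hm_star (hCl : ClosRStmt) (S : ℕ) (hg : Graded g) {lev : σ → ℕ} {x y : g.PS σ}
    (hx : x ∈ Hm lev g) (hy : y ∈ Hm lev g) : star S x y ∈ Hm lev g :=
  ((hCl.1 S ι σ g lev hg).1 x hx y hy).2.1

theorem hm_subst (hCl : ClosRStmt) (hg : Graded g) {lev : σ → ℕ} {lev' : τ → ℕ} {r : σ → Pl τ}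
    (hr : ∀ v, IsWeightedHomogeneous lev' (r v) (lev v)) {x : g.PS σ} (hx : x ∈ Hm lev g) :
    g.subst r x ∈ Hm lev' g := (hCl.1 0 ι σ g lev hg).2 τ lev' r hr x hx

theorem hm_of_smR (hCl : ClosRStmt) (hg : Graded g) {c : Cs σ} {m : ℝ} {x : g.PS σ}
    (h : SmR c g m x) : x ∈ Hm c.lev g := by
  obtain ⟨e, h1, -, rfl⟩ := h
  exact hm_subst hCl hg c.hom h1

/-! ### congruence modulo `N` inside `H` -/

/-- `N` is an ideal of the subalgebra `H` -/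
structure HN (H N : Submodule ℝ g.L) : Prop where
  lieH : ∀ x ∈ H, ∀ y ∈ H, ⁅x, y⁆ ∈ H
  lieN : ∀ x ∈ H, ∀ y ∈ N, ⁅x, y⁆ ∈ N
  le : N ≤ H

/-- congruence -/
structure E (H N : Submodule ℝ g.L) (x y : g.PS σ) : Prop where
  l : x ∈ Uo σ H
  r : y ∈ Uo σ H
  d : x - y ∈ Uo σ N

variable {H N : Submodule ℝ g.L} {x y z x' y' : g.PS σ}

/-- `H ⊗ Pl σ` as a subalgebra -/
def HN.alg (h : HN H N) (σ : Type) : LieSubalgebra ℝ (g.PS σ) where
  toSubmodule := Uo σ H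
  lie_mem' ha hb := uo_lie h.lieH ha hb

theorem HN.star (h : HN H N) (S : ℕ) (hx : x ∈ Uo σ H) (hy : y ∈ Uo σ H) :
    star S x y ∈ Uo σ H := Bch.star_mem S (h.alg σ) hx hy

theorem E.refl (hx : x ∈ Uo σ H) : E H N x x := ⟨hx, hx, by rw [sub_self]; exact zero_mem _⟩

theorem E.symm (h : E H N x y) : E H N y x :=
  ⟨h.r, h.l, by rw [← neg_sub]; exact neg_mem h.d⟩

theorem E.trans (h : E H N x y) (h' : E H N y z) : E H N x z :=
  ⟨h.l, h'.r, by rw [← sub_add_sub_cancel x y z]; exact add_mem h.d h'.d⟩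

theorem E.star (hh : HN H N) (S : ℕ) (h : E H N x y) (h' : E H N x' y') :
    E H N (star S x x') (star S y y') :=
  ⟨hh.star S h.l h'.l, hh.star S h.r h'.r,
    cong S (hh.alg σ) (Uo σ N) (fun _ ha _ hb => uo_lie hh.lieN ha hb) h.r h'.r h.l h'.l h.d h'.d⟩

theorem E.sand (hh : HN H N) (S : ℕ) (h : E H N x y) (hl : x' ∈ Uo σ H) (hr : y' ∈ Uo σ H) :
    E H N (Bch.star S x' (Bch.star S x y')) (Bch.star S x' (Bch.star S y y')) :=
  (E.refl hl).star hh S (h.star hh S (E.refl hr))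

theorem E.subst (hCl : ClosRStmt) (h : E H N x y) (r : σ → Pl τ) :
    E H N (g.subst r x) (g.subst r y) :=
  ⟨uo_subst hCl r h.l, uo_subst hCl r h.r, by rw [← map_sub]; exact uo_subst hCl r h.d⟩

theorem E.of_mem (hh : HN H N) (hx : x ∈ Uo σ N) : E H N x 0 :=
  ⟨fun α => hh.le (hx α), zero_mem _, by rwa [sub_zero]⟩

theorem E.p2 (h : E H N x y) : (tup ![x, y] : (pw g (Fin 2)).PS σ) ∈ Uo σ (p2 H N) := fun α =>
  mem_p2.2 ⟨h.l α, h.r α, by have := h.d α; rwa [map_sub] at this⟩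

theorem E.of_p2 (h : (tup ![x, y] : (pw g (Fin 2)).PS σ) ∈ Uo σ (Br.p2 H N)) : E H N x y :=
  ⟨fun α => (mem_p2.1 (h α)).1, fun α => (mem_p2.1 (h α)).2.1, fun α => by
    rw [map_sub]; exact (mem_p2.1 (h α)).2.2⟩

section alg

variable (hh : HN H N) (S : ℕ) [Bch.Nil S (g.PS σ)]
include hh

theorem E.of_neg_star (hx : x ∈ Uo σ H) (h : Bch.star S (-x) y ∈ Uo σ N) : E H N x y := by
  simpa using ((E.refl hx).star hh S (E.of_mem hh h)).symm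

theorem E.of_star_neg (hy : y ∈ Uo σ H) (h : Bch.star S x (-y) ∈ Uo σ N) : E H N x y := by
  simpa using (E.of_mem hh h).star hh S (E.refl hy)

/-- the 4-cycle -/
theorem cycle {A B : Fin 2 → g.PS σ} {e c : Fin 2 → Fin 2 → g.PS σ} (he : ∀ i j, e i j ∈ Uo σ H)
    (hc : ∀ i j, c i j ∈ Uo σ H) (h : ∀ i j, E H N (A i) (star S (e i j) (star S (B j) (c i j)))) :
    E H N (star S (star S (-star S (e 0 0) (-e 1 0)) (star S (e 0 1) (-e 1 1)))
      (star S (A 1) (star S (star S (-c 1 1) (c 0 1)) (-star S (-c 1 0) (c 0 0))))) (A 1) := by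
  have h1 : ∀ j, E H N (star S (-e 1 j) (star S (A 1) (-c 1 j))) (B j) := fun j => by
    simpa [Bch.star_assoc] using (h 1 j).sand hh S (neg_mem (he 1 j)) (neg_mem (hc 1 j))
  have h2 : ∀ j, E H N (star S (e 0 j) (star S (star S (-e 1 j) (star S (A 1) (-c 1 j))) (c 0 j)))
      (A 0) := fun j => ((h1 j).sand hh S (he 0 j) (hc 0 j)).trans (h 0 j).symm
  have h3 := ((h2 1).trans (h2 0).symm).sand hh S
    (neg_mem (hh.star S (he 0 0) (neg_mem (he 1 0))))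
    (neg_mem (hh.star S (neg_mem (hc 1 0)) (hc 0 0)))
  simpa [Bch.star_assoc, Bch.neg_star] using h3

end alg

/-! ### partial maps of labels -/

section pm

variable {β κ ρ Λ Λ' Λ'' : Type}

/-- relabel some blocks, kill the others -/
def pm (β κ : Type) {Λ Λ' : Type} (p : Λ → Option Λ') : V β κ Λ → Pl (V β κ Λ') :=
  Sum.elim (fun v => X (Sum.inl v)) fun q => (p q.1).elim 0 fun a => X (Sum.inr (a, q.2))

theorem ren_eq (f : Λ → Λ') : ren β κ f = pm β κ fun a => some (f a) :=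
  funext fun v => by cases v <;> rfl

theorem pm_some : pm β κ (some : Λ → Option Λ) = X := funext fun v => by cases v <;> rfl

theorem subst_pm_pm (p : Λ → Option Λ') (p' : Λ' → Option Λ'') (x : g.PS (V β κ Λ)) :
    g.subst (pm β κ p') (g.subst (pm β κ p) x) = g.subst (pm β κ fun a => (p a).bind p') x := by
  rw [subst_subst]
  congr 2
  funext v
  rcases v with v | ⟨a, c⟩
  · simp [pm]
  · cases h : p a <;> simp [pm, h]

theorem subst_up_dw (x : g.PS (V β κ Λ)) :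
    g.subst (up β κ Λ') (g.subst (dw β κ Λ) x) = g.subst (pm β κ fun _ => none) x := by
  rw [subst_subst]
  congr 2
  funext v
  rcases v with v | ⟨a, c⟩ <;> simp [pm, up, dw]

theorem subst_pm_up (p : Λ → Option Λ') (y : g.PS β) :
    g.subst (pm β κ p) (g.subst (up β κ Λ) y) = g.subst (up β κ Λ') y := by
  rw [subst_subst]
  congr 2
  funext v
  simp [pm, up]

theorem pm_hom (𝓜 : Mk β κ ρ) (p : Λ → Option Λ') (v : V β κ Λ) :
    IsWeightedHomogeneous (𝓜.lev Λ') (pm β κ p v) (𝓜.lev Λ v) := by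
  rcases v with v | ⟨a, c⟩
  · exact isWeightedHomogeneous_X ℝ (𝓜.lev Λ') (Sum.inl v)
  · cases h : p a with
    | none => simpa [pm, h] using isWeightedHomogeneous_zero _ _ _
    | some a' =>
      simp only [pm, Sum.elim_inr, h, Option.elim]
      exact isWeightedHomogeneous_X ℝ (𝓜.lev Λ') (Sum.inr (a', c))

theorem dw_hom (𝓜 : Mk β κ ρ) (v : V β κ Λ) :
    IsWeightedHomogeneous 𝓜.c0.lev (dw β κ Λ v) (𝓜.lev Λ v) := by
  rcases v with v | ⟨a, c⟩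
  · exact isWeightedHomogeneous_X ℝ 𝓜.c0.lev v
  · exact isWeightedHomogeneous_zero _ _ _

theorem up_hom (𝓜 : Mk β κ ρ) (v : β) :
    IsWeightedHomogeneous (𝓜.lev Λ) (up β κ Λ v) (𝓜.c0.lev v) :=
  isWeightedHomogeneous_X ℝ (𝓜.lev Λ) (Sum.inl v)

/-- the trivial coefficient structure -/
def triv (𝓜 : Mk β κ ρ) (Λ : Type) : Cs (V β κ Λ) where
  lev := 𝓜.lev Λ
  th := X
  pos v := by
    cases v with
    | inl v => exact 𝓜.c0.pos v
    | inr p => exact 𝓜.pos p.2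
  hom v := isWeightedHomogeneous_X ℝ _ v

theorem pm_mor (𝓜 : Mk β κ ρ) (p : Λ → Option Λ') :
    Mor (triv 𝓜 Λ) (triv 𝓜 Λ') 1 (pm β κ p) := by
  refine ⟨fun v => ?_, pm_hom 𝓜 p, fun v => ⟨pm β κ p v, pm_hom 𝓜 p v, ?_, ?_⟩⟩
  · rcases v with v | ⟨a, c⟩
    · exact Tw.isInt_X _
    · cases h : p a with
      | none => simpa [pm, h] using Tw.isInt_zero
      | some a' => simpa [pm, h] using Tw.isInt_X _
  · rcases v with v | ⟨a, c⟩
    · simp [pm]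
    · cases h : p a <;> simp [pm, h]
  · simp [triv]

theorem smR_triv {𝓜 : Mk β κ ρ} {m : ℝ} {e : g.PS (V β κ Λ)} :
    SmR (triv 𝓜 Λ) g m e ↔ e ∈ Hm (𝓜.lev Λ) g ∧ ∀ k, nrm (e k) ≤ Real.exp m := by
  refine ⟨fun ⟨e', h1, h2, h3⟩ => ?_, fun h => ⟨e, h.1, h.2, (subst_X e).symm⟩⟩
  obtain rfl : e = e' := h3.trans (subst_X e')
  exact ⟨h1, h2⟩

end pm

/-! ### the tools along one chain of levels -/

/-- all tools, one level per application -/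
structure Kit (S : ℕ) (μ : ℕ → ℝ) : Prop where
  two : ∀ k, 2 ≤ μ k
  mono : Monotone μ
  dbl : ∀ k, 2 * μ k ≤ μ (k + 1)
  sm : ∀ k {ι σ : Type} [Fintype ι] {g : ND ι} {c : Cs σ}, Gd g S (μ 0) → ∀ {x y : g.PS σ},
    SmR c g (μ k) x → SmR c g (μ k) y → SmR c g (μ (k + 1)) (star S x y)
  rt : ∀ k {ι σ : Type} [Fintype ι] {g : ND ι} (c : Cs σ), Gd g S (μ 0) → ∀ {x y : g.PS σ},
    RtR c.lev g (μ k) x → RtR c.lev g (μ k) y → RtR c.lev g (μ (k + 1)) (star S x y)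
  near : ∀ k {ι σ : Type} [Fintype ι] {g : ND ι} {c : Cs σ}, Gd g S (μ 0) →
    ∀ {U : Submodule ℝ g.L} {ε x γ : g.PS σ}, SmR c g (μ k) ε → RtR c.lev g (μ k) γ →
    NearR c g S (μ k) U (star S ε (star S x γ)) → NearR c g S (μ (k + 1)) U x
  mor : ∀ k {ι σ τ : Type} [Fintype ι] {g : ND ι} {c : Cs σ} {c' : Cs τ} {r : σ → Pl τ},
    Gd g S (μ 0) → Mor c c' 1 r →
    (∀ x, SmR c g (μ k) x → SmR c' g (μ (k + 1)) (g.subst r x)) ∧
    (∀ x, RtR c.lev g (μ k) x → RtR c'.lev g (μ k) (g.subst r x)) ∧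
    ∀ U x, NearR c g S (μ k) U x → NearR c' g S (μ (k + 1)) U (g.subst r x)
  uq : ∀ k {ι σ : Type} [Fintype ι] {g : ND ι} {c : Cs σ} {U : Submodule ℝ g.L}, Gd g S (μ 0) →
    c.ND S (Real.exp (μ (k + 1))) → GR g (μ k) U →
    (∀ e ∈ Hm c.lev g, g.subst c.th e ∈ Uo σ U → e ∈ Uo σ U) ∧
    ((∀ x ∈ U, ∀ y ∈ U, ⁅x, y⁆ ∈ U) → ∀ y ε γ : g.PS σ, y ∈ Hm c.lev g → y ∈ Uo σ U →
      SmR c g (μ k) ε → RtR c.lev g (μ k) γ → star S ε (star S y γ) ∈ Uo σ U →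
      ε ∈ Uo σ U ∧ γ ∈ Uo σ U)
  go : ∀ k {ι σ : Type} [Fintype ι] {g : ND ι} {c : Cs σ} {H N : Submodule ℝ g.L}, Gd g S (μ 0) →
    c.ND S (Real.exp (μ (k + 1))) → GS g (μ 0) H → GR g (μ 0) N → HN H N →
    (∀ x y z : g.PS σ, NearR c (pw g (Fin 2)) S (μ k) (p2 H N) (tup ![x, y]) →
      NearR c (pw g (Fin 2)) S (μ k) (p2 H N) (tup ![y, z]) →
      NearR c (pw g (Fin 2)) S (μ (k + 1)) (p2 H N) (tup ![x, z])) ∧
    ∀ x y : g.PS σ, y ∈ Uo σ H → NearR c (pw g (Fin 2)) S (μ k) (p2 H N) (tup ![x, y]) →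
      ∃ ν ∈ Hm c.lev g, ν ∈ Uo σ N ∧ Cg c g S (μ (k + 1)) ν y x
  lr : ∀ k {ι β κ ρ : Type} [Fintype ι] [Fintype κ] [Fintype ρ] {g : ND ι} {𝓜 : Mk β κ ρ}
    {U : Submodule ℝ g.L} (hI hJ hJ' : Unit → ρ → ℤ) (x : g.PS (V β κ Unit)), Gd g S (μ 0) →
    GS g (μ k) U → (𝓜.cs (Sum.elim hI (Sum.elim hJ hJ'))).ND S (Real.exp (μ (k + 1))) →
    NearR (𝓜.cs (Sum.elim hI hJ)) g S (μ k) U (g.subst (ren β κ Sum.inl) x) →
    NearR (𝓜.cs (Sum.elim hI hJ')) g S (μ k) U (g.subst (ren β κ Sum.inl) x) →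
    NearR (𝓜.cs hI) g S (μ k) U x
  gs : ∀ {ι : Type} [Fintype ι] {g : ND ι} {H N : Submodule ℝ g.L}, Gd g S (μ 0) → GS g (μ 0) H →
    GR g (μ 0) N → HN H N → GS (pw g (Fin 2)) (μ 1) (p2 H N)

theorem exists_kit (hCl : ClosRStmt) (hUq : UniqRStmt) (hGo : GourRStmt) (hMk : MkRStmt) (S : ℕ) :
    ∃ D : ℕ, 1 ≤ D ∧ ∀ m : ℝ, 2 ≤ m → Kit S fun k => m ^ (2 * D ^ k) := by
  obtain ⟨C1, -, cl⟩ := hCl.2.2 S
  obtain ⟨C2, -, uq⟩ := hUq S
  obtain ⟨C3, -, go⟩ := hGo S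
  obtain ⟨C4, -, lr⟩ := hMk.2 S
  obtain ⟨C5, -, gs⟩ := exists_gs_p2
  obtain ⟨D, hD⟩ : ∃ D, D = C1 + C2 + C3 + C4 + C5 + 2 := ⟨_, rfl⟩
  refine ⟨D, by omega, fun m hm => ?_⟩
  obtain ⟨μ, hμ⟩ : ∃ μ : ℕ → ℝ, μ = fun k => m ^ (2 * D ^ k) := ⟨_, rfl⟩
  rw [← hμ]
  have mono : Monotone μ := fun k l h => by
    rw [hμ]
    exact pow_le_pow_right₀ (by linarith)
      (Nat.mul_le_mul_left _ (Nat.pow_le_pow_right (by omega) h))
  have two : ∀ k, 2 ≤ μ k := fun k => le_trans (by simp only [hμ, pow_zero, mul_one]; nlinarith)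
    (mono k.zero_le)
  have up : ∀ k C, C ≤ D → μ k ^ C ≤ μ (k + 1) := fun k C hC => by
    have : μ (k + 1) = μ k ^ D := by simp only [hμ]; rw [← pow_mul, pow_succ, mul_assoc]
    rw [this]
    exact pow_le_pow_right₀ (by linarith [two k]) hC
  have z : ∀ k, μ 0 ≤ μ k := fun k => mono k.zero_le
  have u1 := fun k => up k C1 (by omega)
  refine ⟨two, mono, fun k => le_trans (by nlinarith [two k]) (up k 2 (by omega)), ?_, ?_, ?_, ?_,
    ?_, ?_, ?_, ?_⟩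
  · intro k ι σ _ g c hg x y hx hy
    exact ((cl _ (two k) ι σ g c (gd_mono hg (z k))).1 x y hx hy).1.mono (u1 k)
  · intro k ι σ _ g c hg x y hx hy
    exact ((cl _ (two k) ι σ g c (gd_mono hg (z k))).2.1 x y hx hy).1.mono (u1 k)
  · intro k ι σ _ g c hg U ε x γ h1 h2 h3
    exact (((cl _ (two k) ι σ g c (gd_mono hg (z k))).2.2.1 U ε x γ h1 h2).2 h3).mono (u1 k) le_rfl
  · intro k ι σ τ _ g c c' r hg hr
    obtain ⟨a1, -, a2, a3⟩ := (cl _ (two k) ι σ g c (gd_mono hg (z k))).2.2.2 τ c' r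
      (hr.mono (Real.one_le_exp (by linarith [two k])))
    exact ⟨fun x hx => (a1 x hx).mono (u1 k), a2, fun U x hx => (a3 U x hx).mono (u1 k) le_rfl⟩
  · intro k ι σ _ g c U hg hc hU
    obtain ⟨a1, -, a2⟩ := uq _ (two k) ι σ g c U (gd_mono hg (z k))
      (hc.mono (ex_mono (up k C2 (by omega)))) hU
    exact ⟨a1, a2⟩
  · intro k ι σ _ g c H N hg hc hH hN hh
    have u3 := up k C3 (by omega)
    obtain ⟨a1, a2⟩ := (go _ (two k) ι σ g c (gd_mono hg (z k)) (hc.mono (ex_mono u3))).2 H N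
      (hH.mono (z k)) (gr_mono hN (z k)) hh.le hh.lieN
    exact ⟨fun x y w h1 h2 => (a1 x y w h1 h2).mono u3 le_rfl,
      fun x y h1 h2 => (a2 x y h1 h2).imp fun _ h => ⟨h.1, h.2.1, h.2.2.mono u3⟩⟩
  · intro k ι β κ ρ _ _ _ g 𝓜 U hI hJ hJ' x hg hU hc h1 h2
    exact (lr _ (two k) ι β κ ρ Unit Unit g 𝓜 U hJ hJ' (gd_mono hg (z k)) hU).1 hI x
      (hc.mono (ex_mono (up k C4 (by omega)))) h1 h2
  · intro ι _ g H N hg hH hN hh
    exact (gs _ (two 0) ι g H N hg.dim hH hN hh.lieN).mono (up 0 C5 (by omega))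

variable {S : ℕ} {μ : ℕ → ℝ}

/-- rigidity modulo `N` -/
theorem Kit.rig (K : Kit S μ) (k : ℕ) {c : Cs σ} (hg2 : Gd (pw g (Fin 2)) S (μ 0))
    (hp : GS (pw g (Fin 2)) (μ 1) (p2 H N)) (hc : c.ND S (Real.exp (μ (k + 2))))
    {A ε γ : g.PS σ} (hA : A ∈ Hm c.lev g) (hε : SmR c g (μ k) ε) (hγ : RtR c.lev g (μ k) γ)
    (h : E H N (star S ε (star S A γ)) A) : ε ∈ Uo σ N ∧ γ ∈ Uo σ N := by
  obtain ⟨h1, h2⟩ := (K.uq (k + 1) hg2 hc (gr_mono hp.toGR (K.mono (by omega)))).2 hp.lie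
    (tup ![A, A]) (tup ![ε, 0]) (tup ![γ, 0]) (hm_tup2 hA hA) (E.refl h.r).p2
    ((smR_tup2 hε smR_zero).mono (K.mono (by omega)))
    ((rtR_tup2 hγ (rtR_zero (by linarith [K.two k]))).mono (K.dbl k))
    (by rw [star_tup2, star_tup2]; simpa using h.p2)
  exact ⟨by simpa using (E.of_p2 h1).d, by simpa using (E.of_p2 h2).d⟩

/-- normal form inside `H` -/
theorem Kit.nf (K : Kit S μ) (hCl : ClosRStmt) (k : ℕ) {c : Cs σ} (hg : Gd g S (μ 0))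
    (hH : GS g (μ 0) H) (hN : GR g (μ 0) N) (hh : HN H N) (hc : c.ND S (Real.exp (μ (k + 2))))
    (hx : x ∈ Uo σ H) (hy : y ∈ Uo σ H) (hy' : y ∈ Hm c.lev g)
    (h : NearR c (pw g (Fin 2)) S (μ k) (p2 H N) (tup ![x, y])) :
    ∃ e γ : g.PS σ, e ∈ Hm c.lev g ∧ (∀ i, nrm (e i) ≤ Real.exp (μ (k + 1))) ∧ e ∈ Uo σ H ∧
      RtR c.lev g (μ (k + 1)) γ ∧ γ ∈ Uo σ H ∧ E H N x (star S (g.subst c.th e) (star S y γ)) := by
  obtain ⟨ν, n1, n2, ε, γ, h1, h2, h3⟩ := (K.go k hg (hc.mono (ex_mono (K.mono (by omega)))) hH hN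
    hh).2 x y hy h
  have e0 : E H N (star S ν y) y := by simpa using (E.of_mem hh n2).star hh S (E.refl hy)
  obtain ⟨u1, u2⟩ := K.uq (k + 1) hg hc (gr_mono hH.toGR (K.mono (by omega)))
  obtain ⟨a1, a2⟩ := u2 hh.lieH _ ε γ (hm_star hCl S hg.gr n1 hy') e0.l h1 h2 (h3 ▸ hx)
  obtain ⟨e, b1, b2, rfl⟩ := h1
  exact ⟨e, γ, b1, b2, u1 e b1 a1, h2, a2, h3 ▸ e0.sand hh S a1 a2⟩

variable {β κ ρ : Type} [Fintype κ] [Fintype ρ] {𝓜 : Mk β κ ρ}

theorem nd_sub (hMk : MkRStmt) {Λ Λ' : Type} {hh : Λ → ρ → ℤ} {hh' : Λ' → ρ → ℤ} (f : Λ → Λ')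
    (hf : ∀ a, hh a = hh' (f a)) (hi : Function.Injective f) {Q Q' : ℝ} (h : (𝓜.cs hh').ND S Q')
    (hQ : Q ≤ Q') : (𝓜.cs hh).ND S Q :=
  (((hMk.1 β κ ρ Λ Λ' 𝓜 hh hh').2.1 f hf).2.2 hi S Q' h).mono hQ

theorem mor_ren (hMk : MkRStmt) {Λ Λ' : Type} {hh : Λ → ρ → ℤ} {hh' : Λ' → ρ → ℤ} (f : Λ → Λ')
    (hf : ∀ a, hh a = hh' (f a)) : Mor (𝓜.cs hh) (𝓜.cs hh') 1 (ren β κ f) :=
  ((hMk.1 β κ ρ Λ Λ' 𝓜 hh hh').2.1 f hf).2.1

theorem ren_th (hMk : MkRStmt) {Λ Λ' : Type} {hh : Λ → ρ → ℤ} {hh' : Λ' → ρ → ℤ} (f : Λ → Λ')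
    (hf : ∀ a, hh a = hh' (f a)) (x : g.PS (V β κ Λ)) :
    g.subst (ren β κ f) (g.subst (𝓜.cs hh).th x) =
      g.subst (𝓜.cs hh').th (g.subst (ren β κ f) x) := by
  rw [subst_subst, subst_subst, funext ((hMk.1 β κ ρ Λ Λ' 𝓜 hh hh').2.1 f hf).1]

/-- removal of a one-point link -/
theorem Kit.lr1 (K : Kit S μ) (hMk : MkRStmt) (k : ℕ) (hg : Gd g S (μ 0)) {U : Submodule ℝ g.L}
    (hU : GS g (μ (k + 1)) U) {h : ρ → ℤ} {p : Fin 2 → ρ → ℤ}
    (hc : (𝓜.cs ![h, p 0, p 1]).ND S (Real.exp (μ (k + 2)))) {x : g.PS (V β κ Unit)} (l : Fin 2)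
    (hh : Fin 2 → Fin 2 → ρ → ℤ) (h1 : ∀ j, hh j l = h) (h2 : ∀ j l', l' ≠ l → hh j l' = p j)
    (hx : ∀ j, NearR (𝓜.cs (hh j)) g S (μ k) U (at' g l x)) :
    NearR (𝓜.cs fun _ : Unit => h) g S (μ (k + 1)) U x := by
  have key : ∀ j, NearR (𝓜.cs (Sum.elim (fun _ : Unit => h) fun _ : Unit => p j)) g S (μ (k + 1)) U
      (g.subst (ren β κ Sum.inl) x) := fun j => by
    have := (K.mor k hg (mor_ren (𝓜 := 𝓜) hMk (hh := hh j)
      (hh' := Sum.elim (fun _ : Unit => h) fun _ : Unit => p j)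
      (fun l' => if l' = l then Sum.inl () else Sum.inr ()) fun l' => by
        split_ifs with e
        · rw [e]; exact h1 j
        · exact h2 j l' e)).2.2 U _ (hx j)
    rw [at', ren_eq, ren_eq, subst_pm_pm] at this
    rw [ren_eq]
    simpa using this
  refine K.lr (k + 1) _ _ _ x hg hU (nd_sub hMk (Sum.elim (fun _ => 0) (Sum.elim (fun _ => 1)
    fun _ => 2)) ?_ ?_ hc le_rfl) (key 0) (key 1)
  · rintro (_ | _ | _) <;> rfl
  · decide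

theorem near_pr {c : Cs σ} {m : ℝ} {X : (pw g (Fin 2)).PS σ} (l : Fin 2)
    (h : NearR c (pw g (Fin 2)) S m (p2 H N) X) : NearR c g S m H (pr g _ l X) := by
  obtain ⟨ε, y, γ, h1, h2, h3, h4, rfl⟩ := h
  refine ⟨_, _, _, smR_pr l h1, hm_pr l h2, fun α => ?_, rtR_pr l h4, by
    rw [Bch.map_star, Bch.map_star]⟩
  fin_cases l
  exacts [(mem_p2.1 (h3 α)).1, (mem_p2.1 (h3 α)).2.1]

/-! ### the steps -/

omit [Fintype κ] in
/-- killing labels in the relation given by a 4-cycle -/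
theorem kill (hCl : ClosRStmt)
    (T : ∀ Λ : Type, g.PS (V β κ Λ) → g.PS (V β κ Λ) → g.PS (V β κ Λ))
    (hT : ∀ (Λ Λ' : Type) (p : Λ → Option Λ') u v, g.subst (pm β κ p) (T Λ u v) =
      T Λ' (g.subst (pm β κ p) u) (g.subst (pm β κ p) v))
    {e : Fin 2 → Fin 2 → g.PS (V β κ (Fin 2))}
    (h : E H N (T (Fin 2 ⊕ Fin 2) (g.subst (ren β κ ![.inl 0, .inr 0]) (e 0 0))
      (g.subst (ren β κ ![.inl 1, .inr 0]) (e 1 0)))
      (T _ (g.subst (ren β κ ![.inl 0, .inr 1]) (e 0 1))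
        (g.subst (ren β κ ![.inl 1, .inr 1]) (e 1 1)))) (j : Fin 2) :
    E H N (T _ (e 0 j) (at' g 1 (g.subst (pm β κ ![none, some ()]) (e 1 j))))
      (at' g 0 (T _ (g.subst (pm β κ ![some (), none]) (e 0 0))
        (g.subst (pm β κ ![none, none]) (e 1 0)))) := by
  have k1 : ∀ (P : Fin 2 ⊕ Fin 2 → Option (Fin 2)) (u v : Fin 2 ⊕ Fin 2) z,
      g.subst (pm β κ P) (g.subst (ren β κ ![u, v]) z) = g.subst (pm β κ ![P u, P v]) z := by
    intro P u v z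
    rw [ren_eq, subst_pm_pm]
    congr 3
    funext l
    fin_cases l <;> rfl
  have k2 : ∀ (l : Fin 2) (u v : Option Unit) z, at' g l (g.subst (pm β κ ![u, v]) z) =
      g.subst (pm β κ ![u.map fun _ => l, v.map fun _ => l]) z := by
    intro l u v z
    rw [at', ren_eq, subst_pm_pm]
    congr 3
    funext l
    fin_cases l
    · cases u <;> rfl
    · cases v <;> rfl
  have k3 : ∀ z : g.PS (V β κ (Fin 2)), g.subst (pm β κ ![some 0, some 1]) z = z := fun z => by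
    rw [show (![some 0, some 1] : Fin 2 → Option (Fin 2)) = some from
      funext fun l => by fin_cases l <;> rfl, pm_some, subst_X]
  have h0 := h.subst hCl (pm β κ (Sum.elim ![some (0 : Fin 2), none] ![some 1, none]))
  have h1 := h.subst hCl (pm β κ (Sum.elim ![some (0 : Fin 2), none] ![none, some 1]))
  have h2 := h.subst hCl (pm β κ (Sum.elim ![some (0 : Fin 2), none] ![none, none]))
  rw [hT, hT, k1, k1, k1, k1] at h0 h1 h2
  rw [← k3 (e 0 j), k2, at', ren_eq, hT, ← ren_eq, ← at', ← at', k2, k2]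
  fin_cases j
  exacts [h0.trans h2.symm, h1.symm]

section main

variable (K : Kit S μ) (hCl : ClosRStmt) (hMk : MkRStmt) (hg : Gd g S (μ 0))
  (hg2 : Gd (pw g (Fin 2)) S (μ 0)) (hH : GS g (μ 0) H) (hN : GR g (μ 0) N) (hh : HN H N)
include K hCl hMk hg hg2 hH hN hh

/-- one edge: the representatives in `H` differ by a smooth and a rational factor -/
theorem edge {a b : ρ → ℤ} {A B ε ε' γ γ' : g.PS (V β κ Unit)}
    (hc : (𝓜.cs ![a, b]).ND S (Real.exp (μ 5))) (hA : A ∈ Uo _ H) (hB : B ∈ Uo _ H)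
    (hB' : B ∈ Hm (𝓜.lev Unit) g) (h1 : SmR (𝓜.cs fun _ => a) g (μ 1) ε)
    (h2 : SmR (𝓜.cs fun _ => b) g (μ 1) ε') (h3 : RtR (𝓜.lev Unit) g (μ 1) γ)
    (h4 : RtR (𝓜.lev Unit) g (μ 1) γ')
    (h : NearR (𝓜.cs ![a, b]) (pw g (Fin 2)) S (μ 0) (p2 H N)
      (tup ![at' g 0 (star S ε (star S A γ)), at' g 1 (star S ε' (star S B γ'))])) :
    ∃ e c : g.PS (V β κ (Fin 2)), e ∈ Hm (𝓜.lev _) g ∧ (∀ i, nrm (e i) ≤ Real.exp (μ 4)) ∧
      e ∈ Uo _ H ∧ RtR (𝓜.lev _) g (μ 4) c ∧ c ∈ Uo _ H ∧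
      E H N (at' g 0 A) (star S (g.subst (𝓜.cs ![a, b]).th e) (star S (at' g 1 B) c)) := by
  have m0 := K.mor 1 hg (mor_ren (𝓜 := 𝓜) hMk (hh := fun _ : Unit => a) (hh' := ![a, b])
    (fun _ => 0) fun _ => rfl)
  have m1 := K.mor 1 hg (mor_ren (𝓜 := 𝓜) hMk (hh := fun _ : Unit => b) (hh' := ![a, b])
    (fun _ => 1) fun _ => rfl)
  have h' : NearR (𝓜.cs ![a, b]) (pw g (Fin 2)) S (μ 2) (p2 H N)
      (star S (tup ![at' g 0 ε, at' g 1 ε']) (star S (tup ![at' g 0 A, at' g 1 B])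
        (tup ![at' g 0 γ, at' g 1 γ']))) := by
    rw [star_tup2, star_tup2, ← Bch.map_star, ← Bch.map_star, ← Bch.map_star, ← Bch.map_star]
    exact h.mono (K.mono (by omega)) le_rfl
  have h5 := K.near 2 hg2 (smR_tup2 (m0.1 _ h1) (m1.1 _ h2))
    ((rtR_tup2 (m0.2.1 _ h3) (m1.2.1 _ h4)).mono (K.dbl 1)) h'
  have h6 := K.nf hCl 3 hg hH hN hh hc (uo_subst hCl _ hA) (uo_subst hCl _ hB)
    (hm_subst hCl hg.gr (mor_ren (𝓜 := 𝓜) hMk (hh := fun _ : Unit => b) (hh' := ![a, b])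
      (fun _ => 1) fun _ => rfl).hom hB') h5
  exact h6

/-- the 4-cycle splits the smooth and the rational factors -/
theorem split {a b : Fin 2 → ρ → ℤ} {A B : Fin 2 → g.PS (V β κ Unit)}
    {e c : Fin 2 → Fin 2 → g.PS (V β κ (Fin 2))}
    (hc : (𝓜.cs (Sum.elim a b)).ND S (Real.exp (μ 9))) (hA : A 1 ∈ Hm (𝓜.lev Unit) g)
    (hB : ∀ j, B j ∈ Uo _ H)
    (e1 : ∀ i j, e i j ∈ Hm (𝓜.lev _) g) (e2 : ∀ i j k, nrm (e i j k) ≤ Real.exp (μ 4))
    (e3 : ∀ i j, e i j ∈ Uo _ H) (c1 : ∀ i j, RtR (𝓜.lev _) g (μ 4) (c i j))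
    (c2 : ∀ i j, c i j ∈ Uo _ H)
    (h : ∀ i j, E H N (at' g 0 (A i))
      (star S (g.subst (𝓜.cs ![a i, b j]).th (e i j)) (star S (at' g 1 (B j)) (c i j)))) :
    ∃ Z : g.PS (V β κ Unit), ∀ j, E H N (g.subst (pm β κ fun _ => none) Z)
      (star S (g.subst (𝓜.cs fun _ : Unit => b j).th (g.subst (pm β κ ![none, some ()]) (e 1 j)))
        (star S (B j) (g.subst (pm β κ ![none, some ()]) (c 1 j)))) := by
  have : ∀ σ, Bch.Nil S (g.PS σ) := fun σ => ND.nil hg.wt_le _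
  have hf : ∀ (i j l : Fin 2), ![a i, b j] l = Sum.elim a b (![Sum.inl i, Sum.inr j] l) :=
    fun i j l => by fin_cases l <;> rfl
  have mr := fun i j => mor_ren (𝓜 := 𝓜) hMk _ (hf i j)
  have he : ∀ i j, g.subst (ren β κ ![Sum.inl i, Sum.inr j]) (e i j) ∈
      Uo (V β κ (Fin 2 ⊕ Fin 2)) H := fun i j => uo_subst hCl _ (e3 i j)
  have hγ : ∀ i j, g.subst (ren β κ ![Sum.inl i, Sum.inr j]) (c i j) ∈
      Uo (V β κ (Fin 2 ⊕ Fin 2)) H := fun i j => uo_subst hCl _ (c2 i j)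
  have hm := fun i j => hm_subst hCl hg.gr (mr i j).hom (e1 i j)
  have sm : ∀ i j, SmR (𝓜.cs (Sum.elim a b)) g (μ 5) (g.subst (𝓜.cs (Sum.elim a b)).th
      (g.subst (ren β κ ![Sum.inl i, Sum.inr j]) (e i j))) := fun i j => by
    rw [← ren_th hMk _ (hf i j)]
    exact (K.mor 4 hg (mr i j)).1 _ ⟨_, e1 i j, e2 i j, rfl⟩
  have rt := fun i j => (K.mor 4 hg (mr i j)).2.1 _ (c1 i j)
  have cyc := cycle hh S (A := fun i => at' g (Sum.inl i) (A i))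
    (B := fun j => at' g (Sum.inr j) (B j))
    (fun i j => uo_subst hCl (𝓜.cs (Sum.elim a b)).th (he i j)) hγ fun i j => by
      have := (h i j).subst hCl (ren β κ ![Sum.inl i, Sum.inr j] (Λ' := Fin 2 ⊕ Fin 2))
      rw [Bch.map_star, Bch.map_star, ren_th hMk _ (hf i j)] at this
      simp only [at', ren_eq, subst_pm_pm] at this ⊢
      exact this
  obtain ⟨n1, n2⟩ := K.rig 7 hg2 (K.gs hg hH hN hh) hc
    (hm_subst hCl hg.gr (mor_ren (𝓜 := 𝓜) hMk (hh := fun _ : Unit => a 1) (hh' := Sum.elim a b)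
      (fun _ => .inl 1) fun _ => rfl).hom hA)
    (K.sm 6 hg (smR_neg (K.sm 5 hg (sm 0 0) (smR_neg (sm 1 0))))
      (K.sm 5 hg (sm 0 1) (smR_neg (sm 1 1))))
    ((K.rt 5 _ hg (K.rt 4 _ hg (rtR_neg (rt 1 1)) (rt 0 1))
      (rtR_neg (K.rt 4 _ hg (rtR_neg (rt 1 0)) (rt 0 0)))).mono (K.mono (by omega))) cyc
  simp only [← map_neg (g.subst (𝓜.cs (Sum.elim a b)).th), ← Bch.map_star] at n1
  have n3 := (K.uq 8 hg hc (gr_mono hN (K.mono (by omega)))).1 _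
    (hm_star hCl S hg.gr (neg_mem (hm_star hCl S hg.gr (hm 0 0) (neg_mem (hm 1 0))))
      (hm_star hCl S hg.gr (hm 0 1) (neg_mem (hm 1 1)))) n1
  have s1 := kill hCl (fun _ u v => star S u (-v)) (fun _ _ _ _ _ => by rw [Bch.map_star, map_neg])
    (E.of_neg_star hh S (hh.star S (he 0 0) (neg_mem (he 1 0))) n3)
  have s2 := kill hCl (fun _ u v => star S (-v) u) (fun _ _ _ _ _ => by rw [Bch.map_star, map_neg])
    (E.of_star_neg hh S (hh.star S (neg_mem (hγ 1 0)) (hγ 0 0)) n2).symm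
  obtain ⟨α, hα⟩ : ∃ α, α = star S (g.subst (pm β κ ![some (), none]) (e 0 0))
    (-g.subst (pm β κ ![none, none]) (e 1 0)) := ⟨_, rfl⟩
  obtain ⟨δ, hδ⟩ : ∃ δ, δ = star S (-g.subst (pm β κ ![none, none]) (c 1 0))
    (g.subst (pm β κ ![some (), none]) (c 0 0)) := ⟨_, rfl⟩
  simp only [← hα] at s1
  simp only [← hδ] at s2
  refine ⟨star S (-g.subst (𝓜.cs fun _ => a 0).th α) (star S (A 0) (-δ)), fun j => ?_⟩
  have t1 := (s1 j).subst hCl (𝓜.cs ![a 0, b j]).th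
  rw [Bch.map_star, map_neg, at', at',
    ← ren_th hMk (hh := fun _ : Unit => b j) (hh' := ![a 0, b j]) (fun _ => 1) fun _ => rfl,
    ← ren_th hMk (hh := fun _ : Unit => a 0) (hh' := ![a 0, b j]) (fun _ => 0) fun _ => rfl] at t1
  have u1 := uo_subst hCl (ren β κ fun _ => (1 : Fin 2)) (uo_subst hCl
    (𝓜.cs fun _ : Unit => b j).th (uo_subst hCl (pm β κ ![none, some ()]) (e3 1 j)))
  have u2 := uo_subst hCl (ren β κ fun _ => (1 : Fin 2))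
    (uo_subst hCl (pm β κ ![none, some ()]) (c2 1 j))
  have t2 := t1.star hh S (E.refl u1)
  have t3 := (E.refl u2).star hh S (s2 j)
  simp only [Bch.star_assoc, Bch.neg_star_self, Bch.star_zero, at', Bch.star_neg_star] at t2 t3
  have t4 := (((h 0 j).trans (t2.star hh S ((E.refl (uo_subst hCl _ (hB j))).star hh S t3))).sand
    hh S (neg_mem t1.r) (neg_mem (s2 j).r)).subst hCl (pm β κ ![none, some ()])
  have k1 : ∀ z : g.PS (V β κ Unit), g.subst (pm β κ ![none, some ()])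
      (g.subst (ren β κ fun _ => (1 : Fin 2)) z) = z := fun z => by
    rw [ren_eq, subst_pm_pm]
    exact (congrArg (fun r => g.subst r z) pm_some).trans (subst_X z)
  have k0 : ∀ z : g.PS (V β κ Unit), g.subst (pm β κ ![none, some ()])
      (g.subst (ren β κ fun _ => (0 : Fin 2)) z) = g.subst (pm β κ fun _ => none) z := fun z => by
    rw [ren_eq, subst_pm_pm]
    rfl
  simpa only [Bch.star_assoc, Bch.map_star, map_neg, at', k0, k1, Bch.neg_star_star,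
    Bch.star_neg_self, Bch.star_zero] using t4

/-- the common unmarked class -/
theorem core {x : (ρ → ℤ) → g.PS (V β κ Unit)} {a b : Fin 2 → ρ → ℤ}
    (hc : (𝓜.cs ![a 0, a 1, b 0, b 1]).ND S (Real.exp (μ 10)))
    (hP : ∀ i j, Pr2 𝓜 g S (μ 0) (p2 H N) x (a i) (b j)) :
    ∃ y ∈ Hm 𝓜.c0.lev g, y ∈ Uo β H ∧ ∀ j, NearR (𝓜.cs fun _ : Unit => b j) (pw g (Fin 2)) S (μ 6)
      (p2 H N) (tup ![x (b j), g.subst (up β κ Unit) y]) := by
  have : ∀ σ, Bch.Nil S (g.PS σ) := fun σ => ND.nil hg.wt_le _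
  have le : ∀ k, k ≤ 10 → Real.exp (μ k) ≤ Real.exp (μ 10) := fun k hk => ex_mono (K.mono hk)
  have ra : ∀ i, NearR (𝓜.cs fun _ : Unit => a i) g S (μ 1) H (x (a i)) := fun i =>
    K.lr1 hMk 0 hg (hH.mono (K.mono (by omega))) (p := b)
      (nd_sub hMk ![Fin.castAdd 2 i, 2, 3] (fun l => by fin_cases i <;> fin_cases l <;> rfl)
        (by revert i; decide) hc (le 2 (by omega))) 0 (fun j => ![a i, b j]) (fun _ => rfl)
      (fun j l hl => by fin_cases l; exacts [absurd rfl hl, rfl]) fun j => near_pr 0 (hP i j)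
  have rb : ∀ j, NearR (𝓜.cs fun _ : Unit => b j) g S (μ 1) H (x (b j)) := fun j =>
    K.lr1 hMk 0 hg (hH.mono (K.mono (by omega))) (p := a)
      (nd_sub hMk ![Fin.natAdd 2 j, 0, 1] (fun l => by fin_cases j <;> fin_cases l <;> rfl)
        (by revert j; decide) hc (le 2 (by omega))) 1 (fun i => ![a i, b j]) (fun _ => rfl)
      (fun i l hl => by fin_cases l; exacts [rfl, absurd rfl hl]) fun i => near_pr 1 (hP i j)
  choose εA A γA a1 a2 a3 a4 a5 using ra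
  choose εB B γB b1 b2 b3 b4 b5 using rb
  have ed := fun i j => edge K hCl hMk hg hg2 hH hN hh (nd_sub hMk (hh := ![a i, b j])
    ![Fin.castAdd 2 i, Fin.natAdd 2 j]
    (fun l => by fin_cases i <;> fin_cases j <;> fin_cases l <;> rfl) (by revert i j; decide) hc
    (le 5 (by omega))) (a3 i) (b3 j) (b2 j) (a1 i) (b1 j) (a4 i) (b4 j)
    (by rw [← a5, ← b5]; exact hP i j)
  choose e c e1 e2 e3 c1 c2 hE using ed
  obtain ⟨Z, hZ⟩ := split K hCl hMk hg hg2 hH hN hh (nd_sub hMk (hh := Sum.elim a b)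
    (Sum.elim (Fin.castAdd 2) (Fin.natAdd 2)) (by rintro (l | l) <;> fin_cases l <;> rfl)
    (by decide) hc (le 9 (by omega))) (a2 1) b3 e1 e2 e3 c1 c2 hE
  have mk1 := K.mor 4 hg (pm_mor 𝓜 (![none, some ()] : Fin 2 → Option Unit))
  have sm : ∀ j, SmR (𝓜.cs fun _ : Unit => b j) g (μ 5) (g.subst (𝓜.cs fun _ : Unit => b j).th
      (g.subst (pm β κ ![none, some ()]) (e 1 j))) := fun j => by
    obtain ⟨h1, h2⟩ := smR_triv.1 (mk1.1 _ (smR_triv.2 ⟨e1 1 j, e2 1 j⟩))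
    exact ⟨_, h1, h2, rfl⟩
  have rt : ∀ j, RtR (𝓜.lev Unit) g (μ 4) (g.subst (pm β κ ![none, some ()]) (c 1 j)) :=
    fun j => mk1.2.1 _ (c1 1 j)
  have hY := fun j => hm_star hCl S hg.gr (hm_of_smR hCl hg.gr (sm j))
    (hm_star hCl S hg.gr (b2 j) (rt j).1)
  have h0 := (hZ 0).subst hCl (pm β κ fun _ : Unit => (none : Option Unit))
  rw [subst_pm_pm, ← subst_up_dw (Λ := Unit) (star S _ _)] at h0
  have hy := hm_subst hCl hg.gr (dw_hom 𝓜) (hY 0)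
  refine ⟨_, hy, uo_subst hCl _ (hZ 0).r, fun j => ⟨_, _, _, smR_tup2
    (K.sm 5 hg ((b1 j).mono (K.mono (by omega))) (smR_neg (sm j))) smR_zero,
    hm_tup2 (hY j) (hm_subst hCl hg.gr (up_hom 𝓜) hy), ((hZ j).symm.trans h0).p2,
    (rtR_tup2 (K.rt 4 (𝓜.cs fun _ : Unit => b j) hg (rtR_neg (rt j))
      ((b4 j).mono (K.mono (by omega)))) (rtR_zero (by linarith [K.two 5]))).mono (K.dbl 5), ?_⟩⟩
  rw [star_tup2, star_tup2]
  simp only [Bch.star_assoc, Bch.neg_star_star, Bch.star_neg_star, Bch.star_zero, Bch.zero_star,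
    ← b5]

/-- every further vertex joined to both `b j` lies in the common class -/
theorem fin {x : (ρ → ℤ) → g.PS (V β κ Unit)} {b : Fin 2 → ρ → ℤ} {y : g.PS β} (hy : y ∈ Uo β H)
    (hb : ∀ j, NearR (𝓜.cs fun _ : Unit => b j) (pw g (Fin 2)) S (μ 6) (p2 H N)
      (tup ![x (b j), g.subst (up β κ Unit) y])) {h : ρ → ℤ}
    (hc : (𝓜.cs ![h, b 0, b 1]).ND S (Real.exp (μ 10)))
    (hP : ∀ j, Pr2 𝓜 g S (μ 0) (p2 H N) x h (b j)) :
    ∃ ν ∈ Hm (𝓜.lev Unit) g, ν ∈ Uo _ N ∧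
      Cg (𝓜.cs fun _ : Unit => h) g S (μ 10) ν (g.subst (up β κ Unit) y) (x h) := by
  have hu : ∀ l : Fin 2, at' g l (g.subst (up β κ Unit) y) = g.subst (up β κ (Fin 2)) y :=
    fun l => by rw [at', ren_eq, subst_pm_up]
  refine (K.go 9 hg (nd_sub hMk (fun _ => 0) (fun _ => rfl) (by decide) hc le_rfl) hH hN hh).2 _ _
    (uo_subst hCl _ hy) (K.lr1 hMk 8 hg2 ((K.gs hg hH hN hh).mono (K.mono (by omega))) hc 0
      (fun j => ![h, b j]) (fun _ => rfl)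
      (fun j l hl => by fin_cases l; exacts [absurd rfl hl, rfl]) fun j => ?_)
  have h1 := (K.mor 6 hg2 (mor_ren (𝓜 := 𝓜) hMk (hh := fun _ : Unit => b j) (hh' := ![h, b j])
    (fun _ => 1) fun _ => rfl)).2.2 _ _ (hb j)
  rw [subst_tup2, ← at', ← at', hu] at h1
  rw [at', subst_tup2, ← at', ← at', hu]
  exact (K.go 7 hg (nd_sub hMk (hh := ![h, b j]) ![0, j.succ]
    (fun l => by fin_cases j <;> fin_cases l <;> rfl) (by fin_cases j <;> decide) hc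
    (ex_mono (K.mono (by omega)))) hH hN hh).1 _ _ _ ((hP j).mono (K.mono (by omega)) le_rfl) h1

end main

end G9

open G9 in
/-- GRID -/
theorem gridStmt (hCl : ClosRStmt) (hUq : UniqRStmt) (hGo : GourRStmt) (hMk : MkRStmt) :
    GridStmt := by
  intro S
  obtain ⟨D, hD, hK⟩ := exists_kit hCl hUq hGo hMk S
  refine ⟨2 * D ^ 10, by have := Nat.pow_pos (n := 10) hD; omega, ?_⟩
  intro m hm ι β κ ρ _ _ _ g 𝓜 H N x a b hg hH hN hle hid hc hP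
  have K := hK m hm
  have h0 : 2 * m ≤ m ^ (2 * D ^ 0) := by
    simp only [pow_zero, mul_one]
    nlinarith
  have h1 : m ≤ m ^ (2 * D ^ 0) := by linarith
  have hg1 := gd_mono hg h1
  have hg2 := gd_pw hg (Fin 2) h1 (by simpa using h0)
  have hh : HN H N := ⟨hH.lie, hid, hle⟩
  obtain ⟨y, y1, y2, y3⟩ := core K hCl hMk hg1 hg2 (hH.mono h1) (gr_mono hN h1) hh hc
    fun i j => (hP i j).mono h1 le_rfl
  exact ⟨y, y1, y2, fun h hc' hP' => fin K hCl hMk hg1 hg2 (hH.mono h1) (gr_mono hN h1) hh y2 y3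
    hc' fun j => (hP' j).mono h1 le_rfl⟩

end Crest.Agent.T49.Br
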