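import Crest.Agent.T49.BrLinA_66

/-!
# Row 49 (helper66): the leaf `LIN` of the relative structure theorem
-/

set_option autoImplicit false

noncomputable section

namespace Crest.Agent.T49.Br

open Finset MvPolynomial Crest.Agent.T49.Nil Crest.Agent.T49.Nil.ND Crest.Agent.T49.GI
open Crest.Agent.T49.Bch (star expAd)
open Crest.Agent.T49.Tw (Pl nrm DegLe)

namespace L66

variable {ι : Type} [Fintype ι] {g : ND ι} {σ τ : Type} {β κ ρ : Type} [Fintype κ] [Fintype ρ]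
  {𝔥 : LieSubalgebra ℝ (pw g (Fin 4)).L} {ψ : (pw g (Fin 4)).L →ₗ[ℝ] g.L} {S : ℕ}

/-- the twisted action on the representatives -/
def TA (ψ : (pw g (Fin 4)).L →ₗ[ℝ] g.L) (S : ℕ) (y : g.PS σ) : g.PS σ →ₗ[ℝ] g.PS σ :=
  Pj ψ σ ∘ₗ expAd S y

theorem TA_apply (y x : g.PS σ) : TA ψ S y x = Pj ψ σ (expAd S y x) := rfl

theorem subst_TA (r : σ → Pl τ) (y x : g.PS σ) :
    g.subst r (TA ψ S y x) = TA ψ S (g.subst r y) (g.subst r x) := by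
  rw [TA_apply, subst_Pj, subst_expAd]; rfl

theorem TA_hm {A : ℝ} {D : ℕ} (hL : Lm ψ A D) (hg : Graded g) {lev : σ → ℕ} {y x : g.PS σ}
    (hy : y ∈ Hm lev g) (hx : x ∈ Hm lev g) : TA ψ S y x ∈ Hm lev g :=
  hL.hm _ _ _ (inj_hm 0 (expAd_hm S hg hy hx))

/-- a short and a rational representative -/
structure SR (lev : σ → ℕ) (W : Submodule ℝ g.L) (A : ℝ) (D : ℕ) (e R : g.PS σ) : Prop where
  he : e ∈ Hm lev g
  ue : e ∈ Uo σ W
  ne : ∀ k, nrm (e k) ≤ A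
  hR : R ∈ Hm lev g
  uR : R ∈ Uo σ W
  rR : g.RatP D R

/-- the cocycle identity above one quadruple -/
def Idq (𝓜 : Mk β κ ρ) (ψ : (pw g (Fin 4)).L →ₗ[ℝ] g.L) (S : ℕ) (y : g.PS β)
    (n : Fin 4 → (ρ → ℤ) → g.PS (V β κ Unit)) (q : Fin 4 → ρ → ℤ)
    (e R : g.PS (V β κ (Fin 3))) : Prop :=
  ∑ i, g.subst (rs β κ i) (n i (q i)) =
    g.subst (𝓜.cs (q3 q)).th e + TA ψ S (g.subst (up β κ _) y) R

theorem dat_of (hψ : Psi 𝔥 ψ) {A m : ℝ} {D D' : ℕ} (hL : Lm ψ A D) {𝓜 : Mk β κ ρ}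
    {ν : Fin 4 → (ρ → ℤ) → g.PS (V β κ Unit)} {q : Fin 4 → ρ → ℤ} {ys : (pw g (Fin 4)).PS β}
    (hys : ys ∈ Uo β 𝔥.toSubmodule) {ε γ : (pw g (Fin 4)).PS (V β κ (Fin 3))}
    (h1 : ε ∈ Uo _ (pi4 (pN3 𝔥))) (h2 : γ ∈ Uo _ (pi4 (pN3 𝔥)))
    (h3 : SmR (𝓜.cs (q3 q)) (pw g (Fin 4)) m ε) (h4 : γ ∈ Hm (𝓜.lev _) (pw g (Fin 4)))
    (h5 : (pw g (Fin 4)).RatP D' γ)
    (h6 : qt g ν q - ε - expAd S ((pw g (Fin 4)).subst (up β κ (Fin 3)) ys) γ ∈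
      Uo _ 𝔥.toSubmodule)
    (hU : ∀ e ∈ Hm (𝓜.lev (Fin 3)) (pw g (Fin 4)),
      (pw g (Fin 4)).subst (𝓜.cs (q3 q)).th e ∈ Uo _ (pi4 (pN3 𝔥)) → e ∈ Uo _ (pi4 (pN3 𝔥))) :
    ∃ e R, SR (𝓜.lev _) (Wp 𝔥 ψ) (A * Real.exp m) (D * D') e R ∧
      Idq 𝓜 ψ S (pr g _ 0 ys) (fun i h => bcl ψ _ (inj g _ i (ν i h))) q e R := by
  obtain ⟨e, he, hn, rfl⟩ := h3
  refine ⟨bcl ψ _ e, bcl ψ _ γ, ⟨hL.hm _ _ _ he, P54.bcl_uo (hU e he h1), hL.nrm _ _ _ hn,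
    hL.hm _ _ _ h4, P54.bcl_uo h2, hL.rat _ _ _ h5⟩, ?_⟩
  have h7 := hψ.bcl_kill h6
  rw [map_sub, map_sub, hψ.bcl_expAd S (subst_uo _ hys) h2, sub_sub, sub_eq_zero,
    eq_sum_inj (qt g ν q), map_sum, ← P54.subst_bcl] at h7
  refine Eq.trans (sum_congr rfl fun i _ => ?_) h7
  rw [P54.subst_bcl, subst_inj]
  rfl

theorem subst_th (hMk : MkRStmt) (𝓜 : Mk β κ ρ) {Λ Λ' : Type} [Fintype Λ'] {hh : Λ → ρ → ℤ}
    {hh' : Λ' → ρ → ℤ} {M : Λ → Λ' → ℤ} (h : ∀ a, hh a = ∑ b, M a b • hh' b)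
    (e : g.PS (V β κ Λ)) : g.subst (sub β κ M) (g.subst (𝓜.cs hh).th e) =
      g.subst (𝓜.cs hh').th (g.subst (sub β κ M) e) := by
  rw [subst_subst, subst_subst, funext ((hMk.1 β κ ρ Λ Λ' 𝓜 hh hh').1 M h).1]

theorem up_th (hMk : MkRStmt) (𝓜 : Mk β κ ρ) {Λ : Type} (hh : Λ → ρ → ℤ) (e : g.PS β) :
    g.subst (up β κ Λ) (g.subst 𝓜.c0.th e) = g.subst (𝓜.cs hh).th (g.subst (up β κ Λ) e) := by
  rw [subst_subst, subst_subst, funext (hMk.1 β κ ρ Λ Λ 𝓜 hh hh).2.2.1]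

/-- alternating sum over a grid -/
def alt (M : Fin 2 → Fin 2 → Fin 3 → Fin 5 → ℤ) (x : Fin 2 → Fin 2 → g.PS (V β κ (Fin 3))) :
    g.PS (V β κ (Fin 5)) :=
  g.subst (sub β κ (M 0 0)) (x 0 0) - g.subst (sub β κ (M 0 1)) (x 0 1) -
    g.subst (sub β κ (M 1 0)) (x 1 0) + g.subst (sub β κ (M 1 1)) (x 1 1)

theorem grid (hMk : MkRStmt) (hψ : Psi 𝔥 ψ) {𝓜 : Mk β κ ρ} {m m' A : ℝ} {D : ℕ} {η : ι → ℤ}
    (hS : ∀ k, g.wt k ≤ S) (hT : Tri g m' η (pH 𝔥 0) (pN3 𝔥 0) (pK 𝔥 0)) {y : g.PS β}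
    (hy : y ∈ Hm 𝓜.c0.lev g) (uy : y ∈ Uo β (pH 𝔥 0).toSubmodule)
    (hA : 4 * (A * 3 ^ S) ≤ Real.exp m) (hD : 1 ≤ D) (hD' : (D : ℝ) ≤ Real.exp m)
    {t : Fin 5 → ρ → ℤ}
    (hU1 : ∀ e ∈ Hm (𝓜.lev (Fin 5)) g, g.subst (𝓜.cs t).th e ∈ Uo _ (pK 𝔥 0) →
      e ∈ Uo _ (pK 𝔥 0))
    (hU2 : ∀ y ε γ : g.PS (V β κ (Fin 5)), y ∈ Hm (𝓜.lev _) g →
      (∀ x ∈ Uo (V β κ (Fin 5)) (pK 𝔥 0), ⁅y, x⁆ ∈ Uo _ (pK 𝔥 0)) → SmR (𝓜.cs t) g m ε →
      RtR (𝓜.lev _) g m γ → ε + expAd S y γ ∈ Uo _ (pK 𝔥 0) →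
      ε ∈ Uo _ (pK 𝔥 0) ∧ γ ∈ Uo _ (pK 𝔥 0))
    {B : Finset (ρ → ℤ)} {n : Fin 4 → (ρ → ℤ) → g.PS (V β κ Unit)}
    {M : Fin 2 → Fin 2 → Fin 3 → Fin 5 → ℤ} {q : Fin 2 → Fin 2 → Fin 4 → ρ → ℤ}
    {e R : Fin 2 → Fin 2 → g.PS (V β κ (Fin 3))} (hM : ∀ a b c, ∑ l, |M a b c l| ≤ 3)
    (hq : ∀ a b, IsQ B (q a b)) (hq' : ∀ a b c, q3 (q a b) c = ∑ l, M a b c l • t l)
    (hrow : ∀ i, (∀ a, row (M a 0) i = row (M a 1) i) ∨ ∀ b, row (M 0 b) i = row (M 1 b) i)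
    (hsr : ∀ a b, SR (𝓜.lev _) (Wp 𝔥 ψ) A D (e a b) (R a b))
    (hid : ∀ a b, Idq 𝓜 ψ S y n (q a b) (e a b) (R a b)) : alt M e = 0 ∧ alt M R = 0 := by
  let F : Fin 4 → (Fin 5 → ℤ) → g.PS (V β κ (Fin 5)) := fun i r =>
    g.subst (sub β κ fun _ => r) (n i (∑ l, r l • t l))
  have key : ∀ a b, g.subst (𝓜.cs t).th (g.subst (sub β κ (M a b)) (e a b)) +
      TA ψ S (g.subst (up β κ _) y) (g.subst (sub β κ (M a b)) (R a b)) =
      ∑ i, F i (row (M a b) i) := fun a b => by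
    have := congrArg (g.subst (sub β κ (M a b))) (hid a b)
    rw [map_add, subst_th hMk 𝓜 (hq' a b), subst_TA, sub_up, map_sum] at this
    rw [← this]
    refine sum_congr rfl fun i _ => ?_
    rw [sub_rs, role_row (hq a b) (hq' a b) i]
  have h0 : g.subst (𝓜.cs t).th (alt M e) + TA ψ S (g.subst (up β κ _) y) (alt M R) = 0 := by
    have h1 : ∑ i, F i (row (M 0 0) i) - ∑ i, F i (row (M 0 1) i) - ∑ i, F i (row (M 1 0) i) +
        ∑ i, F i (row (M 1 1) i) = 0 := by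
      rw [← sum_sub_distrib, ← sum_sub_distrib, ← sum_add_distrib]
      refine sum_eq_zero fun i _ => ?_
      rcases hrow i with h | h
      · rw [h 0, h 1]; abel
      · rw [h 0, h 1]; abel
    rw [← h1, ← key, ← key, ← key, ← key]
    simp only [alt, map_add, map_sub]
    abel
  have hH : ∀ x : Fin 2 → Fin 2 → g.PS (V β κ (Fin 3)), (∀ a b, x a b ∈ Hm (𝓜.lev _) g) →
      alt M x ∈ Hm (𝓜.lev _) g := fun x hx =>
    add_mem (sub_mem (sub_mem (subst_hm (sub_hom 𝓜 _) (hx _ _)) (subst_hm (sub_hom 𝓜 _) (hx _ _)))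
      (subst_hm (sub_hom 𝓜 _) (hx _ _))) (subst_hm (sub_hom 𝓜 _) (hx _ _))
  have hW : ∀ x : Fin 2 → Fin 2 → g.PS (V β κ (Fin 3)), (∀ a b, x a b ∈ Uo _ (Wp 𝔥 ψ)) →
      alt M x ∈ Uo _ (Wp 𝔥 ψ) := fun x hx =>
    add_mem (sub_mem (sub_mem (subst_uo _ (hx _ _)) (subst_uo _ (hx _ _))) (subst_uo _ (hx _ _)))
      (subst_uo _ (hx _ _))
  have hn : ∀ a b k, nrm (g.subst (sub β κ (M a b)) (e a b) k) ≤ A * 3 ^ S := fun a b k =>
    (Tw.nrm_bind_le_of_pos (𝓜.cs (q3 (q a b))).pos (sub_nrm (hM a b)) (by norm_num)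
      ((Tw.DegLe.of_hom ((hsr a b).he k)).mono (hS k))).trans
      (mul_le_mul_of_nonneg_right ((hsr a b).ne k) (by positivity))
  have he := hH e fun a b => (hsr a b).he
  have hr : ∀ a b, g.RatP D (g.subst (sub β κ (M a b)) (R a b)) := fun a b =>
    ratP_subst (sub_int _) (hsr a b).rR
  have hRN := uo_mono hψ.wp_le (hW R fun a b => (hsr a b).uR)
  obtain ⟨h1, h2⟩ := hU2 (g.subst (up β κ _) y) (g.subst (𝓜.cs t).th (alt M e)) (alt M R)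
    (subst_hm (up_hom 𝓜) hy) (fun x hx => lie_uo hT.lieK (subst_uo _ uy) hx)
    ⟨_, he, fun k => by
      refine le_trans ?_ hA
      refine (Tw.nrm_add_le _ _).trans ((add_le_add ((Tw.nrm_sub_le _ _).trans
        (add_le_add (Tw.nrm_sub_le _ _) le_rfl)) le_rfl).trans ?_)
      linarith [hn 0 0 k, hn 0 1 k, hn 1 0 k, hn 1 1 k], rfl⟩
    ⟨hH R fun a b => (hsr a b).hR, D, hD, hD',
      ratP_add (ratP_sub (ratP_sub (hr _ _) (hr _ _)) (hr _ _)) (hr _ _)⟩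
    (by
      rw [eq_neg_of_add_eq_zero_left h0, neg_add_eq_sub]
      exact hψ.sub_Pj (expAd_uo S hT.lieN (subst_uo _ uy) hRN))
  exact ⟨hψ.eq_zero (hW e fun a b => (hsr a b).ue) (hU1 _ he h1),
    hψ.eq_zero (hW R fun a b => (hsr a b).uR) h2⟩

theorem post (hMk : MkRStmt) {𝓜 : Mk β κ ρ} {y : g.PS β} {B : Finset (ρ → ℤ)}
    {n : Fin 4 → (ρ → ℤ) → g.PS (V β κ Unit)} {q : Fin 4 → ρ → ℤ} (hq : IsQ B q)
    {e R : g.PS (V β κ (Fin 3))} (h : Idq 𝓜 ψ S y n q e R) {s r : Fin 4 → g.PS (V β κ Unit)}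
    (he : e = ∑ i, g.subst (rs β κ i) (s i) + g.subst (up β κ _) (g.subst (dw β κ _) e))
    (hR : R = ∑ i, g.subst (rs β κ i) (r i) + g.subst (up β κ _) (g.subst (dw β κ _) R)) :
    ∑ i, g.subst (rs β κ i) (n i (q i) - g.subst (𝓜.cs fun _ : Unit => q i).th (s i) -
      TA ψ S (g.subst (up β κ _) y) (r i)) =
    g.subst (up β κ (Fin 3)) (g.subst 𝓜.c0.th (g.subst (dw β κ _) e) +
      TA ψ S y (g.subst (dw β κ _) R)) := by
  have h1 : ∀ i, g.subst (rs β κ i) (g.subst (𝓜.cs fun _ : Unit => q i).th (s i)) =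
      g.subst (𝓜.cs (q3 q)).th (g.subst (rs β κ i) (s i)) := fun i =>
    subst_th hMk 𝓜 (fun _ => role_eq hq i) _
  have h2 : ∀ i, g.subst (rs β κ i) (TA ψ S (g.subst (up β κ _) y) (r i)) =
      TA ψ S (g.subst (up β κ _) y) (g.subst (rs β κ i) (r i)) := fun i => by
    rw [subst_TA, rs, sub_up]
  simp only [map_sub, sum_sub_distrib, h1, h2]
  rw [h, map_add, up_th hMk 𝓜 (q3 q), subst_TA, ← map_sum, ← map_sum, eq_sub_of_add_eq he.symm,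
    eq_sub_of_add_eq hR.symm, map_sub, map_sub]
  abel

omit [Fintype κ] [Fintype ρ] in
theorem SR.cw {𝓜 : Mk β κ ρ} {W : Submodule ℝ g.L} {A : ℝ} {D D' : ℕ}
    {op : Pl (V β κ (Fin 3)) →ₗ[ℝ] Pl (V β κ Unit)} (hop : Nice S D' op) (hS : ∀ k, g.wt k ≤ S)
    {e R : g.PS (V β κ (Fin 3))} (h : SR (𝓜.lev _) W A D e R) :
    SR (𝓜.lev _) W (D' * A) (D' * D) (cw g op e) (cw g op R) where
  he k := hop.hom _ _ _ _ (h.he k)
  ue := cw_uo op h.ue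
  ne k := (hop.nrm _ (degLe_mk 𝓜 (h.he k) (hS k))).trans
    (mul_le_mul_of_nonneg_left (h.ne k) (Nat.cast_nonneg _))
  hR k := hop.hom _ _ _ _ (h.hR k)
  uR := cw_uo op h.uR
  rR := ratP_iff.2 fun k => by
    have := hop.int _ (ratP_iff.1 h.rR k)
    rw [C_mul' (a := (D : ℝ)), map_smul, ← C_mul', ← mul_assoc, ← C_mul, ← Nat.cast_mul] at this
    exact this

theorem SR.add {lev : σ → ℕ} {W : Submodule ℝ g.L} {A : ℝ} {D : ℕ} {e R e' R' : g.PS σ}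
    (h : SR lev W A D e R) (h' : SR lev W A D e' R') : SR lev W (2 * A) D (e + e') (R + R') :=
  ⟨add_mem h.he h'.he, add_mem h.ue h'.ue,
    fun k => (Tw.nrm_add_le _ _).trans (by linarith [h.ne k, h'.ne k]),
    add_mem h.hR h'.hR, add_mem h.uR h'.uR, ratP_add h.rR h'.rR⟩

omit [Fintype κ] [Fintype ρ] in
theorem qt_hm {𝓜 : Mk β κ ρ} {ν : Fin 4 → (ρ → ℤ) → g.PS (V β κ Unit)}
    (h : ∀ i h, ν i h ∈ Hm (𝓜.lev Unit) g) (q : Fin 4 → ρ → ℤ) :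
    qt g ν q ∈ Hm (𝓜.lev (Fin 3)) (pw g (Fin 4)) := fun k =>
  subst_hm (r := rs β κ k.1) (sub_hom 𝓜 _) (h k.1 (q k.1)) k.2

omit [Fintype κ] [Fintype ρ] in
theorem qt_uo {U : Fin 4 → Submodule ℝ g.L} {ν : Fin 4 → (ρ → ℤ) → g.PS (V β κ Unit)}
    (h : ∀ i h, ν i h ∈ Uo _ (U i)) (q : Fin 4 → ρ → ℤ) : qt g ν q ∈ Uo _ (pi4 U) :=
  fun α => mem_pi4.2 fun i => subst_uo (rs β κ i) (h i (q i)) α

theorem dens_half {m a M X Y Z : ℝ} (hX : 0 < X) (h1 : m + 1 ≤ a) (h2 : a ≤ M)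
    (h3 : Real.exp (-m) * X ≤ Y) (h4 : Y - Real.exp (-M) * X ≤ Z) : Real.exp (-a) * X ≤ Z := by
  have e1 : Real.exp (-M) ≤ Real.exp (-a) := Real.exp_le_exp.2 (by linarith)
  have e2 : 2 * Real.exp (-a) ≤ Real.exp (-m) := by
    rw [show -m = (a - m) + -a by ring, Real.exp_add]
    exact mul_le_mul_of_nonneg_right (by linarith [Real.add_one_le_exp (a - m)])
      (Real.exp_pos _).le
  nlinarith

theorem nat_mul_le_pow {a : ℝ} (ha : 2 ≤ a) (k : ℕ) : k * a ≤ a ^ (k + 1) := by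
  rw [pow_succ]
  refine mul_le_mul_of_nonneg_right (le_trans ?_ (pow_le_pow_left₀ (by norm_num) ha k))
    (by linarith)
  exact_mod_cast Nat.lt_two_pow_self.le

theorem le_exp' (x : ℝ) : x ≤ Real.exp x := by linarith [Real.add_one_le_exp x]

end L66

set_option maxHeartbeats 800000 in
open L66 S60 in
theorem linStmt (hUniq : UniqRStmt) (hLin : Lin3RStmt) (hPet : Petal3Stmt) (hMk : MkRStmt)
    (hGau : GaugeStmt) (hAff : AffStmt) : LinStmt := by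
  classical
  intro S
  obtain ⟨Cp, hCp, hPet⟩ := hPet
  obtain ⟨Cu, hCu, hPush⟩ := pushStmt
  obtain ⟨Cr, hCr, hPR⟩ := pushRStmt
  obtain ⟨Cl, hCl, hLin⟩ := hLin S
  obtain ⟨Cq, hCq, hUniq⟩ := hUniq S
  obtain ⟨Cg, Dg, hCg, hDg, hGau⟩ := hGau S
  refine ⟨3 * Cp * Cu * Cu * Cr * Cl * Cq * (2 * S + Dg + 7 + 1) * Cq * Cg * 2,
    Nat.succ_le_of_lt (by positivity), ?_⟩
  intro m M hm hM ι β κ ρ _ _ _ _ 𝓜 g η 𝔥 L B Q x ys ν hS hν
  simp only [pow_mul] at hM ⊢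
  have hg := hS.gd
  obtain ⟨b0, l0⟩ := S60.up hm (by norm_num : 1 ≤ 3)
  have hG := gd_pw hm hg
  have l0' := four_le hm
  generalize m ^ 3 = a0 at *
  obtain ⟨b1, l1⟩ := S60.up b0 hCp
  have hPet := hPet a0 b0
  generalize a0 ^ Cp = a1 at *
  obtain ⟨b2, l2⟩ := S60.up b1 hCu
  have hPush1 := hPush a1 b1
  generalize a1 ^ Cu = a2 at *
  obtain ⟨b3, l3⟩ := S60.up b2 hCu
  have hPush2 := hPush a2 b2
  generalize a2 ^ Cu = a3 at *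
  obtain ⟨b4, l4⟩ := S60.up b3 hCr
  have hPR := hPR a3 b3
  generalize a3 ^ Cr = a4 at *
  obtain ⟨b5, l5⟩ := S60.up b4 hCl
  have hLin := hLin a4 b4
  generalize a4 ^ Cl = a5 at *
  obtain ⟨b6, l6⟩ := S60.up b5 hCq
  have hUniq5 := hUniq a5 b5
  generalize a5 ^ Cq = a6 at *
  obtain ⟨b7, l7⟩ := S60.up b6 (by omega : 1 ≤ 2 * S + Dg + 7 + 1)
  have l7' := nat_mul_le_pow b6 (2 * S + Dg + 7)
  generalize a6 ^ (2 * S + Dg + 7 + 1) = a7 at *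
  have l7'' : a6 + a6 ≤ a7 := by
    refine le_trans ?_ l7'
    rw [← two_mul]
    exact mul_le_mul_of_nonneg_right (by exact_mod_cast (by omega)) (by linarith)
  obtain ⟨b8, l8⟩ := S60.up b7 hCq
  have hUniq7 := hUniq a7 b7
  generalize a7 ^ Cq = a8 at *
  obtain ⟨b9, l9⟩ := S60.up b8 hCg
  obtain ⟨opA, opB, hop, hGau⟩ := hGau β κ
  have hGau := hGau a8 b8
  generalize a8 ^ Cg = a9 at *
  obtain ⟨b10, l10⟩ := S60.up b9 (by norm_num : 1 ≤ 2)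
  have l10' := two_le b9
  generalize a9 ^ 2 = a10 at *
  clear hPush hUniq
  set N : ℝ := ∏ i, (L i : ℝ) with hN
  have hN0 : 0 < N := prod_pos fun i _ => Nat.cast_pos.2 (hS.diam.1 i)
  have hN3 : 0 < N ^ 3 := pow_pos hN0 3
  have hB : (#B : ℝ) ≤ N := card_le_of_diam hS.diam
  obtain ⟨hTri, -, -, hLast⟩ := hPet ι g η 𝔥 (hg.dim.trans l0) (Br.gr_mono hS.gr l0) hS.kill
  have hd : ∀ a, a0 ≤ a → (Fintype.card (Fin 4 × ι) : ℝ) ≤ a := fun a ha => hG.dim.trans ha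
  have hN4 : GR (pw g (Fin 4)) a3 (pi4 (pN3 𝔥)) :=
    ((hPush2 _ _ (pw g (Fin 4)) (pw g (Fin 4)) (hd _ (by linarith)) (hd _ (by linarith))).2.2.1
      (Fin 4) _ fun i => ((hPush1 _ _ (pw g (Fin 4)) g (hd _ l1) (hg.dim.trans (by linarith))).1 _
        (gmap_pr (by linarith) i)).2.1 _ (hTri i).grN).1
  -- the map `ψ`
  obtain ⟨p, hp, hker⟩ :=
    (hPush1 _ _ (pw g (Fin 4)) (pw g (Fin 4)) (hd _ l1) (hd _ l1)).2.2.2.2 _
      (Br.gr_mono hS.gr (by linarith))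
  have hpk : ∀ z, p z = 0 ↔ z ∈ 𝔥 := fun z => by
    rw [← LinearMap.mem_ker, hker]; rfl
  obtain ⟨r0, hr0, hr1, hr2⟩ := (hPR _ _ g (pw g (Fin 4)) (hg.dim.trans (by linarith))
    (hd _ (by linarith))).2.2.1 _ _ (Br.gmap_mono (gmap_comp_inj hp 0) l3)
    (Br.gr_mono (hTri 0).grN (by linarith))
  have hψ : Psi 𝔥 (r0 ∘ₗ p) := ⟨fun z => hr1 _, fun z hz => by
      rw [LinearMap.comp_apply, (hpk z).2 hz, map_zero], fun z hz => by
    obtain ⟨n, hn, hzn⟩ := hLast z hz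
    rw [← hpk, map_sub, sub_eq_zero] at hzn ⊢
    rw [LinearMap.comp_apply, hzn]
    exact (hr2 n hn).symm⟩
  obtain ⟨D1, hD1, hD1', hL1⟩ := lm_of_rmap (rmap_of_gmap hp (by linarith))
  obtain ⟨D2, hD2, hD2', hL2⟩ := lm_of_rmap hr0
  have hL := hL1.comp hL2
  generalize r0 ∘ₗ p = ψ at hψ hL
  have hA0 : (Fintype.card (Fin 4 × ι) : ℝ) * Real.exp a4 *
      (Fintype.card (Fin 4 × ι) * Real.exp a2) * Real.exp a5 ≤ Real.exp (5 * a6) := by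
    have e1 : (Fintype.card (Fin 4 × ι) : ℝ) ≤ Real.exp a6 := (hd _ (by linarith)).trans (le_exp' _)
    have e2 : ∀ a, a ≤ a6 → Real.exp a ≤ Real.exp a6 := fun a ha => Real.exp_le_exp.2 ha
    calc _ ≤ Real.exp a6 * Real.exp a6 * (Real.exp a6 * Real.exp a6) * Real.exp a6 := by
          gcongr <;> linarith
      _ = _ := by simp only [← Real.exp_add]; ring_nf
  generalize (Fintype.card (Fin 4 × ι) : ℝ) * Real.exp a4 *
      (Fintype.card (Fin 4 × ι) * Real.exp a2) = A0 at hL hA0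
  -- generic quadruples with a common denominator
  have hQ1 : Real.exp (-a0) * N ^ 3 ≤
      #{q ∈ Q | (𝓜.cs (q3 q)).ND S (Real.exp M)} := by
    exact dens_half hN3 (by linarith) (by linarith) hS.dense
      (card_good hS.quad (hS.gen 3 (by norm_num)))
  obtain ⟨D3, ⟨hD3, hD3'⟩, Q2, hQ2s, hQ2, hdat⟩ := (cnt_nat (Real.exp_pos a5).le).pigeon_exp hN3 hQ1
    (fun q D3 => ∃ e R, SR (𝓜.lev _) (Wp 𝔥 ψ) (A0 * Real.exp a5) (D2 * D1 * D3) e R ∧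
      Idq 𝓜 ψ S (pr g _ 0 ys) (fun i h => bcl ψ _ (inj g _ i (ν i h))) q e R) (by
      intro q hq
      obtain ⟨hq, hnd⟩ := mem_filter.1 hq
      obtain ⟨ε, h1, γ, h2, h3, ⟨h4, D3, h5, h6, h7⟩, h8⟩ := hLin _ _ (pw g (Fin 4)) (𝓜.cs (q3 q))
        𝔥.toSubmodule (pi4 (pN3 𝔥)) (pi4 (pK 𝔥)) _ (qt g ν q) (Br.gd_mono hG (by linarith))
        (hnd.mono (ex_mono (by linarith)))
        ⟨Br.gr_mono hS.gr (by linarith), fun _ hx _ hy => 𝔥.lie_mem hx hy⟩ (Br.gr_mono hN4 l4)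
        (fun z hz => by
          rw [eq_sum_inj z]
          exact Submodule.sum_mem _ fun i _ => mem_pi4.1 hz i)
        (fun z hz => mem_pi4.2 fun i => (hTri i).KN (mem_pi4.1 hz i))
        (fun x hx z hz => mem_pi4.2 fun i => by
          rw [LieHom.map_lie]; exact (hTri i).lieN _ ⟨x, hx, rfl⟩ _ (mem_pi4.1 hz i))
        (fun x hx z hz => mem_pi4.2 fun i => by
          rw [LieHom.map_lie]; exact (hTri i).lieK _ ⟨x, hx, rfl⟩ _ (mem_pi4.1 hz i))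
        (fun x hx z hz => mem_pi4.2 fun i => by
          rw [LieHom.map_lie]; exact (hTri i).abel _ (mem_pi4.1 hx i) _ (mem_pi4.1 hz i))
        (subst_hm (up_hom 𝓜) hν.hys) (subst_uo _ hν.uys)
        (qt_hm (fun i h => (hν.hν i h).1) q) (qt_uo (fun i h => (hν.hν i h).2) q)
        ((hν.near q hq).mono (by linarith) le_rfl)
      exact ⟨D3, ⟨h5, h6⟩, dat_of hψ hL hν.uys h1 h2 h3 h4 h7 h8
        (hUniq5 _ _ (pw g (Fin 4)) (𝓜.cs (q3 q)) _ (Br.gd_mono hG (by linarith))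
          (hnd.mono (ex_mono (by linarith))) (Br.gr_mono hN4 (by linarith))).1⟩)
  have hQ2Q : Q2 ⊆ Q := hQ2s.trans (filter_subset _ _)
  choose! e R hsr hid using hdat
  have hD0 : 1 ≤ D2 * D1 * D3 := Nat.mul_pos (Nat.mul_pos hD2 hD1) hD3
  have hDb : ((D2 * D1 * D3 : ℕ) : ℝ) ≤ Real.exp (5 * a6) := by
    push_cast
    calc _ ≤ Real.exp a4 * Real.exp a2 * Real.exp a5 := by gcongr
      _ ≤ _ := by rw [← Real.exp_add, ← Real.exp_add]; exact ex_mono (by linarith)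
  generalize D2 * D1 * D3 = D at *
  generalize A0 * Real.exp a5 = A at *
  have hS0 : (0 : ℝ) ≤ S := Nat.cast_nonneg S
  have hDg0 : (0 : ℝ) ≤ Dg := Nat.cast_nonneg Dg
  have hbig : ∀ c u : ℝ, 0 ≤ c → c ≤ Real.exp (2 * S + Dg + 2) → u ≤ Real.exp (5 * a6) →
      c * u ≤ Real.exp a7 := fun c u h0 hc hu => by
    refine (mul_le_mul_of_nonneg_left hu h0).trans
      ((mul_le_mul_of_nonneg_right hc (Real.exp_pos _).le).trans ?_)
    rw [← Real.exp_add]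
    push_cast at l7'
    exact ex_mono (by nlinarith)
  have hy : pr g _ 0 ys ∈ Hm 𝓜.c0.lev g := fun k => hν.hys (0, k)
  have uy : pr g _ 0 ys ∈ Uo β (pH 𝔥 0).toSubmodule := fun α => ⟨_, hν.uys α, rfl⟩
  generalize pr g _ 0 ys = y at *
  -- the gauge lemma
  obtain ⟨Q3, hQ3s, hQ3, τ, hτ⟩ := hGau _ (ι ⊕ ι) B N Q2 (fun t => (𝓜.cs t).ND S (Real.exp M))
    (fun q => Sum.elim (e q) (R q)) hN0 hB (fun q hq => hS.quad q (hQ2Q hq))
    (dens_le hN3.le hQ2 (by linarith))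
    ((hS.gen 5 (by norm_num)).mono hN0.le (ex_mono (by linarith)) fun _ h => h)
    (fun q hq j => by
      rcases j with k | k
      · exact degLe_mk 𝓜 ((hsr q hq).he k) (hg.wt_le k)
      · exact degLe_mk 𝓜 ((hsr q hq).hR k) (hg.wt_le k))
    (fun t ht M' q hM' hq hrow j => by
      obtain ⟨u1, u2, -⟩ := hUniq7 _ _ g (𝓜.cs t) (pK 𝔥 0) (Br.gd_mono hg (by linarith))
        (ht.mono (ex_mono (by linarith))) (Br.gr_mono (hTri 0).grK (by linarith))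
      obtain ⟨h1, h2⟩ := grid (e := fun a b => e (q a b)) (R := fun a b => R (q a b)) hMk hψ
        hg.wt_le (hTri 0) hy uy (by
          rw [mul_comm A, ← mul_assoc]
          refine hbig _ _ (by positivity) ?_ hA0
          have e1 : (3 : ℝ) ≤ Real.exp 2 := by linarith [Real.add_one_le_exp 2]
          have e2 : (4 : ℝ) ≤ Real.exp 2 := by
            rw [show (2 : ℝ) = 1 + 1 by norm_num, Real.exp_add]
            nlinarith [Real.add_one_le_exp 1]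
          calc _ ≤ Real.exp 2 * Real.exp 2 ^ S := by gcongr
            _ ≤ _ := by
              rw [← Real.exp_nat_mul, ← Real.exp_add]; exact ex_mono (by linarith))
        hD0 (by simpa using hbig 1 _ zero_le_one (Real.one_le_exp (by linarith)) hDb) u1 u2 hM'
        (fun a b => hS.quad _ (hQ2Q (hq a b).1)) (fun a b => (hq a b).2) hrow
        (fun a b => hsr _ (hq a b).1) fun a b => hid _ (hq a b).1
      rcases j with k | k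
      · exact congrFun h1 k
      · exact congrFun h2 k)
  let s : Fin 4 → (ρ → ℤ) → g.PS (V β κ Unit) := fun i h k => τ i h (Sum.inl k)
  let r : Fin 4 → (ρ → ℤ) → g.PS (V β κ Unit) := fun i h k => τ i h (Sum.inr k)
  have hsr' : ∀ q ∈ Q3, ∀ i, SR (𝓜.lev _) (Wp 𝔥 ψ) (2 * (Dg * A)) (Dg * D) (s i (q i))
      (r i (q i)) := fun q hq i => by
    obtain ⟨q₁, h1, q₂, h2, h3⟩ := (hτ q hq).2 i
    rw [show s i (q i) = cw g (opA i) (e q₁) + cw g (opB i) (e q₂) from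
        funext fun k => h3 (Sum.inl k),
      show r i (q i) = cw g (opA i) (R q₁) + cw g (opB i) (R q₂) from
        funext fun k => h3 (Sum.inr k)]
    exact ((hsr _ h1).cw (hop i).1 hg.wt_le).add ((hsr _ h2).cw (hop i).2 hg.wt_le)
  let f' : Fin 4 → (ρ → ℤ) → g.PS (V β κ Unit) := fun i h =>
    bcl ψ _ (inj g _ i (ν i h)) - g.subst (𝓜.cs fun _ : Unit => h).th (s i h) -
      TA ψ S (g.subst (up β κ _) y) (r i h)
  have hf' : ∀ q ∈ Q3, ∀ i, f' i (q i) ∈ Hm (𝓜.lev Unit) g ∧ f' i (q i) ∈ Uo _ (pN3 𝔥 0) :=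
    fun q hq i => ⟨sub_mem (sub_mem (hL.hm _ _ _ (inj_hm i (hν.hν i _).1))
        (subst_hm (𝓜.cs fun _ : Unit => q i).hom (hsr' q hq i).he))
        (TA_hm hL hg.gr (subst_hm (up_hom 𝓜) hy) (hsr' q hq i).hR),
      sub_mem (sub_mem (hψ.bcl_mem _) (subst_uo _ (uo_mono hψ.wp_le (hsr' q hq i).ue)))
        (hψ.bcl_mem _)⟩
  obtain ⟨Q4, hQ4s, hQ4, ℓ, hℓ⟩ := hAff a9 ι β κ _ g B N Q3 f'
    (fun q => g.subst 𝓜.c0.th (g.subst (dw β κ _) (e q)) + TA ψ S y (g.subst (dw β κ _) (R q)))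
    hN0 hB (fun q hq => hS.quad q (hQ2Q (hQ3s hq))) hQ3 fun q hq =>
      post hMk (hS.quad q (hQ2Q (hQ3s hq))) (hid q (hQ3s hq))
        (funext fun k => by
          rw [ND.add_apply, ND.sum_apply]; exact (hτ q hq).1 (Sum.inl k))
        (funext fun k => by
          rw [ND.add_apply, ND.sum_apply]; exact (hτ q hq).1 (Sum.inr k))
  obtain ⟨q0, hq0⟩ : Q4.Nonempty := by
    rw [← card_pos]
    exact_mod_cast (mul_pos (Real.exp_pos _) hN3).trans_le hQ4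
  let f : Fin 4 → (ρ → ℤ) → g.PS β := fun i h =>
    if g.subst (dw β κ _) (f' i h) ∈ Hm 𝓜.c0.lev g ∧ g.subst (dw β κ _) (f' i h) ∈ Uo β (pN3 𝔥 0)
    then g.subst (dw β κ _) (f' i h) else 0
  have hf : ∀ q ∈ Q4, ∀ i, f i (q i) = g.subst (dw β κ _) (f' i (q i)) := fun q hq i =>
    if_pos ⟨subst_hm (dw_hom 𝓜) (hf' q (hQ4s hq) i).1, subst_uo _ (hf' q (hQ4s hq) i).2⟩
  have e7 : Real.exp a7 ≤ Real.exp a10 := ex_mono (by linarith)
  have eD : (Dg : ℝ) ≤ Real.exp (2 * S + Dg + 2) := (le_exp' _).trans (ex_mono (by linarith))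
  refine ⟨Q4, hQ4s.trans (hQ3s.trans hQ2Q), dens_le hN3.le hQ4 (by linarith), D, f, ℓ, hD0,
    le_trans (by simpa using hbig 1 _ zero_le_one (Real.one_le_exp (by linarith)) hDb) e7,
    fun i h => ?_, (hℓ q0 hq0).2.2.2 ρ 𝓜 (hf' q0 (hQ4s hq0) 0).1,
    (hℓ q0 hq0).2.2.1 _ (hf' q0 (hQ4s hq0) 0).2, fun q hq => ?_, fun q hq => ?_⟩
  · simp only [f]
    split_ifs with h1
    · exact h1
    · exact ⟨zero_mem _, zero_mem _⟩
  · have h1 := hsr' q (hQ4s hq) 0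
    have h2 := uo_mono hψ.wp_le h1.uR
    refine ⟨_, subst_uo _ (uo_mono hψ.wp_le h1.ue), _, h2, ⟨_, h1.he, fun k => ?_, rfl⟩,
      ⟨h1.hR, Dg * D, Nat.mul_pos hDg hD0, ?_, h1.rR⟩, ?_⟩
    · refine (h1.ne k).trans (le_trans ?_ e7)
      rw [← mul_assoc]
      refine hbig _ _ (by positivity) ?_ hA0
      rw [show 2 * (S : ℝ) + Dg + 2 = 2 * S + 2 + Dg by ring, Real.exp_add]
      exact mul_le_mul (by linarith [Real.add_one_le_exp (2 * S + 2 : ℝ)]) (le_exp' _) hDg0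
        (Real.exp_pos _).le
    · rw [Nat.cast_mul]
      exact (hbig _ _ hDg0 eD hDb).trans e7
    · rw [hf q hq, ← (hℓ q hq).2.1]
      have h3 := sub_mem (hψ.sub_Pj (hν.hν 0 (q 0)).2)
        (hψ.sub_Pj (expAd_uo S (hTri 0).lieN (subst_uo (up β κ Unit) uy) h2))
      convert h3 using 1
      simp only [f', TA_apply, Pj_apply]
      abel
  · have h1 := hsr q (hQ3s (hQ4s hq))
    have h2 := subst_uo (dw β κ _) (uo_mono hψ.wp_le h1.uR)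
    refine ⟨_, subst_uo _ (subst_uo (dw β κ _) (uo_mono hψ.wp_le h1.ue)), _, h2,
      ⟨_, subst_hm (dw_hom 𝓜) h1.he, fun k => ?_, rfl⟩, subst_hm (dw_hom 𝓜) h1.hR,
      ratP_subst dw_int h1.rR, ?_⟩
    · refine (Tw.nrm_bind_le_one dw_nrm _).trans ((h1.ne k).trans (le_trans ?_ e7))
      simpa using hbig 1 _ zero_le_one (Real.one_le_exp (by linarith)) hA0
    · rw [sum_congr rfl fun i _ => hf q hq i, (hℓ q hq).1]
      have h3 := neg_mem (hψ.sub_Pj (expAd_uo S (hTri 0).lieN uy h2))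
      convert h3 using 1
      rw [TA_apply]
      abel

end Crest.Agent.T49.Br
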