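import Crest.Agent.T49.BrDef_62

/-!
# Row 49 (helper16): `MkRStmt` (substitutions of labels, link removal)
-/

set_option autoImplicit false

noncomputable section

namespace Crest.Agent.T49.Br

open Finset MvPolynomial Crest.Agent.T49.Nil Crest.Agent.T49.Nil.ND Crest.Agent.T49.GI
open Crest.Agent.T49.Bch (star star_assoc neg_star_star star_neg_star star_star_neg
  star_neg_star' star_mem)
open Crest.Agent.T49.Tw (Pl nrm)

namespace Mk16

variable {ι : Type} [Fintype ι] {σ τ υ : Type}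

theorem aeval_aeval (r : σ → Pl τ) (r' : τ → Pl υ) (f : Pl σ) :
    aeval r' (aeval r f) = aeval (fun v => aeval r' (r v)) f := by
  rw [← AlgHom.comp_apply, comp_aeval]

theorem subst_apply (g : ND ι) (r : σ → Pl τ) (x : g.PS σ) (k : ι) :
    g.subst r x k = aeval r (x k) := rfl

theorem subst_subst (g : ND ι) (r : σ → Pl τ) (r' : τ → Pl υ) (x : g.PS σ) :
    g.subst r' (g.subst r x) = g.subst (fun v => aeval r' (r v)) x :=
  ND.pts_ext fun k => by rw [subst_apply, subst_apply, subst_apply, aeval_aeval]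

/-- commuting squares of substitutions -/
theorem subst_comm (g : ND ι) {τ' : Type} {r : σ → Pl τ} {r' : τ → Pl υ} {s : σ → Pl τ'}
    {s' : τ' → Pl υ} (h : ∀ v, aeval r' (r v) = aeval s' (s v)) (x : g.PS σ) :
    g.subst r' (g.subst r x) = g.subst s' (g.subst s x) := by
  rw [subst_subst, subst_subst, funext h]

theorem subst_id (g : ND ι) {r : σ → Pl τ} {r' : τ → Pl σ} (h : ∀ v, aeval r' (r v) = X v)
    (x : g.PS σ) : g.subst r' (g.subst r x) = x := by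
  rw [subst_subst, funext h]
  exact ND.pts_ext fun k => by rw [subst_apply, aeval_X_left_apply]

theorem ratP_iff (g : ND ι) (q : ℕ) (x : g.PS σ) :
    g.RatP q x ↔ ∀ k, Tw.IsInt (C (q : ℝ) * x k) := by
  simp only [RatP, den_iff, cv_apply, Tw.IsInt, coeff_C_mul]
  exact forall_comm

/-- every variable goes to `0` or to a variable of the same weight -/
def Simp (w : σ → ℕ) (w' : τ → ℕ) (r : σ → Pl τ) : Prop :=
  ∀ v, r v = 0 ∨ ∃ v', r v = X v' ∧ w' v' = w v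

section simp

variable {w : σ → ℕ} {w' : τ → ℕ} {r : σ → Pl τ}

theorem Simp.hom (h : Simp w w' r) (v : σ) : IsWeightedHomogeneous w' (r v) (w v) := by
  rcases h v with h | ⟨v', h, h'⟩
  · rw [h]; exact isWeightedHomogeneous_zero _ _ _
  · rw [h, ← h']; exact isWeightedHomogeneous_X ℝ w' v'

theorem Simp.int (h : Simp w w' r) (v : σ) : Tw.IsInt (r v) := by
  rcases h v with h | ⟨v', h, -⟩
  · rw [h]; exact Tw.isInt_zero
  · rw [h]; exact Tw.isInt_X _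

theorem Simp.nrm_le (h : Simp w w' r) (v : σ) : nrm (r v) ≤ 1 := by
  rcases h v with h | ⟨v', h, -⟩
  · rw [h, Tw.nrm_zero]; exact zero_le_one
  · rw [h, Tw.nrm_X]

theorem Simp.hm (h : Simp w w' r) {g : ND ι} {x : g.PS σ} (hx : x ∈ Hm w g) :
    g.subst r x ∈ Hm w' g := fun k => Tw.hom_bind' h.hom (hx k)

theorem Simp.nrm_subst (h : Simp w w' r) {g : ND ι} (x : g.PS σ) (k : ι) :
    nrm (g.subst r x k) ≤ nrm (x k) := Tw.nrm_bind_le_one h.nrm_le (x k)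

theorem Simp.ratP (h : Simp w w' r) {g : ND ι} {q : ℕ} {x : g.PS σ} (hx : g.RatP q x) :
    g.RatP q (g.subst r x) := by
  rw [ratP_iff] at hx ⊢
  intro k
  have := Tw.IsInt.bind h.int (hx k)
  rwa [map_mul, bind₁_C_right] at this

theorem Simp.rtR (h : Simp w w' r) {g : ND ι} {m : ℝ} {x : g.PS σ} (hx : RtR w g m x) :
    RtR w' g m (g.subst r x) := by
  obtain ⟨h0, q, h1, h2, h3⟩ := hx
  exact ⟨h.hm h0, q, h1, h2, h.ratP h3⟩

theorem Simp.smR {c' : Cs τ} (h : Simp w c'.lev r) {g : ND ι} {m : ℝ} {e : g.PS σ}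
    (he : e ∈ Hm w g) (hn : ∀ k, nrm (e k) ≤ Real.exp m) :
    SmR c' g m (g.subst c'.th (g.subst r e)) :=
  ⟨_, h.hm he, fun k => (h.nrm_subst e k).trans (hn k), rfl⟩

theorem Simp.mor {c : Cs σ} {c' : Cs τ} (h : Simp c.lev c'.lev r)
    (hth : ∀ v, aeval r (c.th v) = aeval c'.th (r v)) : Mor c c' 1 r :=
  ⟨h.int, h.hom, fun v => ⟨r v, h.hom v, h.nrm_le v, hth v⟩⟩

end simp

/-- `ND` descends along an injective renaming -/
theorem nd_of_rename {c : Cs σ} {c' : Cs τ} {F : σ → τ} (hF : Function.Injective F)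
    (hl : ∀ v, c'.lev (F v) = c.lev v)
    (hth : ∀ v, aeval (fun v => (X (F v) : Pl τ)) (c.th v) = aeval c'.th (X (F v) : Pl τ))
    {S : ℕ} {Q : ℝ} (h : c'.ND S Q) : c.ND S Q := by
  intro d h1 h2 e he hn hi
  have hs : Simp c.lev c'.lev fun v => (X (F v) : Pl τ) := fun v => Or.inr ⟨F v, rfl, hl v⟩
  have h3 := h d h1 h2 (aeval (fun v => (X (F v) : Pl τ)) e) (Tw.hom_bind' hs.hom he)
    ((Tw.nrm_bind_le_one hs.nrm_le e).trans hn) (by
      rw [aeval_aeval, ← funext hth, ← aeval_aeval]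
      exact Tw.IsInt.bind hs.int hi)
  refine rename_injective F hF ?_
  rw [map_zero, Tw.rename_eq_bind]
  exact h3

/-- link removal, abstract form -/
theorem lr (hC : ClosRStmt) (hU : UniqRStmt) (S : ℕ) : ∃ C : ℕ, 1 ≤ C ∧ ∀ (m : ℝ), 2 ≤ m →
    ∀ (ι σ₀ σ₁ σ : Type) [Fintype ι] (g : ND ι) (U : Submodule ℝ g.L) (c₀ : Cs σ₀)
      (ca cb : Cs σ₁) (c : Cs σ) (i : σ₀ → Pl σ₁) (Fa Fb : σ₁ → Pl σ) (k : σ₁ → Pl σ₀)
      (K : σ → Pl σ₁) (x : g.PS σ₀), Gd g S m → GS g m U → c.ND S (Real.exp (m ^ C)) →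
      (∀ v, aeval i (c₀.th v) = aeval ca.th (i v)) →
      (∀ v, aeval Fa (ca.th v) = aeval c.th (Fa v)) →
      (∀ v, aeval Fb (cb.th v) = aeval c.th (Fb v)) →
      Simp ca.lev c.lev Fa → Simp cb.lev c.lev Fb → Simp ca.lev c₀.lev k → Simp cb.lev c₀.lev k →
      (∀ v, aeval Fa (i v) = aeval Fb (i v)) → (∀ v, aeval K (Fa v) = X v) →
      (∀ v, aeval K (Fb v) = aeval i (k v)) → (∀ v, aeval k (i v) = X v) →
      NearR ca g S m U (g.subst i x) → NearR cb g S m U (g.subst i x) → NearR c₀ g S m U x := by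
  obtain ⟨hC1, hC2, hC3⟩ := hC
  obtain ⟨C1, p1, hC3⟩ := hC3 S
  obtain ⟨C2, p2, hU⟩ := hU S
  refine ⟨C1 * C2, Nat.mul_pos p1 p2, ?_⟩
  intro m hm ι σ₀ σ₁ σ _ g U c₀ ca cb c i Fa Fb k K x hg hU' hN ti ta tb sa sb ka kb e1 e2 e3 e4
    ⟨_, ya, γa, ⟨ea, hea, nea, rfl⟩, hya, uya, hγa, eA⟩
    ⟨_, yb, γb, ⟨eb, heb, neb, rfl⟩, hyb, uyb, hγb, eB⟩
  rw [pow_mul] at hN
  have l1 : m ≤ m ^ C1 := le_self_pow₀ (by linarith) (by omega)
  have n0 := ND.nil hg.wt_le (Pl σ₀)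
  have n1 := ND.nil hg.wt_le (Pl σ₁)
  have n2 := ND.nil hg.wt_le (Pl σ)
  have usub : ∀ {σ τ : Type} (r : σ → Pl τ) {z : g.PS σ}, z ∈ Uo σ U → g.subst r z ∈ Uo τ U :=
    fun {σ τ} r {z} hz => (hC2 ι σ τ g U).1 (aeval r).toLinearMap z hz
  have ustar : ∀ {z z' : g.PS σ₁}, z ∈ Uo σ₁ U → z' ∈ Uo σ₁ U → star S z z' ∈ Uo σ₁ U :=
    fun {z z'} hz hz' => star_mem S
      ({ Uo σ₁ U with lie_mem' := fun {a b} ha hb =>
        (hC2 ι σ₁ σ₁ g U).2.1 U U hU'.lie a ha b hb } : LieSubalgebra ℝ (g.PS σ₁)) hz hz'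
  have hstar : ∀ {σ : Type} {w : σ → ℕ} {z z' : g.PS σ}, z ∈ Hm w g → z' ∈ Hm w g →
      star S z z' ∈ Hm w g := fun {σ w z z'} hz hz' => ((hC1 S ι σ g w hg.gr).1 z hz z' hz').2.1
  obtain ⟨c1, c2, -⟩ := hC3 m hm ι σ g c hg
  have sA := sa.smR hea nea
  have sB := sb.smR heb neb
  have sE := (c1 _ _ (c1 _ _ sB sB).2.2.1 sA).1
  have rG := (c2 _ _ (sa.rtR hγa) (c2 _ _ (sb.rtR hγb) (sb.rtR hγb)).2.2).1
  obtain ⟨u1, -, u3⟩ := hU (m ^ C1) (hm.trans l1) ι σ g c U (gd_mono hg l1) hN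
    (gr_mono hU'.toGR l1)
  have eF : star S (g.subst c.th (g.subst Fa ea)) (star S (g.subst Fa ya) (g.subst Fa γa)) =
      star S (g.subst c.th (g.subst Fb eb)) (star S (g.subst Fb yb) (g.subst Fb γb)) := by
    rw [← subst_comm g ta, ← subst_comm g tb, ← Bch.map_star, ← Bch.map_star, ← Bch.map_star, ← Bch.map_star,
      ← eA, ← eB]
    exact subst_comm g e1 x
  obtain ⟨uE, uG⟩ := u3 hU'.lie _ _ _ (sa.hm hya) (usub Fa uya) sE rG (by
    rw [star_assoc, ← star_assoc S (g.subst Fa ya), ← star_assoc S (g.subst c.th (g.subst Fa ea)),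
      eF, ← star_assoc, neg_star_star, star_star_neg]
    exact usub Fb uyb)
  rw [← map_neg, ← Bch.map_star] at uE
  have uE1 := usub ca.th (usub K (u1 _ (hstar (neg_mem (sb.hm heb)) (sa.hm hea)) uE))
  have uG1 := usub K uG
  rw [Bch.map_star, map_neg, subst_id g e2, subst_comm g e3, Bch.map_star, map_neg,
    ← subst_comm g ti] at uE1
  rw [Bch.map_star, map_neg, subst_id g e2, subst_comm g e3] at uG1
  have hx : x ∈ Hm c₀.lev g := by
    rw [← subst_id g e4 x, eA]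
    obtain ⟨c1, -⟩ := hC3 m hm ι σ₁ g ca hg
    have sA : SmR ca g m (g.subst ca.th ea) := ⟨ea, hea, nea, rfl⟩
    exact ka.hm (hstar (c1 _ _ sA sA).2.2.2 (hstar hya hγa.1))
  have s0 := kb.smR heb neb
  have r0 := kb.rtR hγb
  obtain ⟨c1, -⟩ := hC3 m hm ι σ₀ g c₀ hg
  refine ⟨_, star S (-g.subst c₀.th (g.subst k eb)) (star S x (-g.subst k γb)), _, s0,
    hstar (neg_mem (c1 _ _ s0 s0).2.2.2) (hstar hx (neg_mem r0.1)), ?_, r0, ?_⟩
  · rw [← subst_id g e4 (star S _ _)]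
    refine usub k ?_
    have := ustar uE1 (ustar uya uG1)
    rw [star_assoc, ← star_assoc S ya, ← star_assoc S (g.subst ca.th ea), ← eA] at this
    rwa [Bch.map_star, Bch.map_star, map_neg, map_neg]
  · rw [← star_assoc, star_neg_star, star_neg_star']

variable {β κ ρ Λ Λ' : Type}

theorem aeval_rename_inl {r : V β κ Λ → Pl (V β κ Λ')} (h : ∀ v, r (Sum.inl v) = X (Sum.inl v))
    (f : Pl β) : aeval r (rename Sum.inl f : Pl (V β κ Λ)) = rename Sum.inl f := by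
  rw [aeval_rename, Tw.rename_eq_bind]
  exact congrArg (fun s => aeval s f) (funext h)

variable [Fintype κ] [Fintype ρ] (𝓜 : Mk β κ ρ)

theorem th_inl (hh : Λ → ρ → ℤ) (v : β) :
    (𝓜.cs hh).th (Sum.inl v) = rename Sum.inl (𝓜.c0.th v) := rfl

theorem th_inr (hh : Λ → ρ → ℤ) (p : Λ × κ) :
    (𝓜.cs hh).th (Sum.inr p) = rename Sum.inl (∑ r, C (hh p.1 r : ℝ) * 𝓜.Dh r p.2) +
      ∑ c', rename Sum.inl (𝓜.Du c' p.2) * X (Sum.inr (p.1, c')) := rfl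

theorem th_sub [Fintype Λ'] {hh : Λ → ρ → ℤ} {hh' : Λ' → ρ → ℤ} (M : Λ → Λ' → ℤ)
    (h : ∀ a, hh a = ∑ b, M a b • hh' b) (v : V β κ Λ) :
    aeval (sub β κ M) ((𝓜.cs hh).th v) = aeval (𝓜.cs hh').th (sub β κ M v) := by
  have key := aeval_rename_inl (r := sub β κ M) fun _ => rfl
  cases v with
  | inl v => rw [th_inl, key, sub, Sum.elim_inl, aeval_X, th_inl]
  | inr p =>
    rw [th_inr, map_add, key, map_sum (aeval (sub β κ M))]
    simp only [map_mul (aeval (sub β κ M)), key, aeval_X]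
    simp only [sub, Sum.elim_inr, map_sum, map_mul, aeval_C, aeval_X, algebraMap_eq, th_inr,
      h p.1, Finset.sum_apply, Pi.smul_apply, smul_eq_mul, Int.cast_sum, Int.cast_mul, rename_C,
      mul_add, sum_add_distrib, mul_sum, sum_mul]
    congr 1
    · rw [sum_comm]
      exact sum_congr rfl fun _ _ => sum_congr rfl fun _ _ => by ring
    · rw [sum_comm]
      exact sum_congr rfl fun _ _ => sum_congr rfl fun _ _ => by ring

theorem th_ren {hh : Λ → ρ → ℤ} {hh' : Λ' → ρ → ℤ} (f : Λ → Λ') (h : ∀ a, hh a = hh' (f a))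
    (v : V β κ Λ) :
    aeval (ren β κ f) ((𝓜.cs hh).th v) = aeval (𝓜.cs hh').th (ren β κ f v) := by
  have key := aeval_rename_inl (r := ren β κ f) fun _ => rfl
  cases v with
  | inl v => rw [th_inl, key, ren, aeval_X]; rfl
  | inr p =>
    rw [th_inr, map_add, key, map_sum (aeval (ren β κ f)), h]
    simp only [map_mul (aeval (ren β κ f)), key, aeval_X]
    rw [ren, aeval_X]
    rfl

theorem th_up (hh : Λ → ρ → ℤ) (v : β) :
    aeval (up β κ Λ) (𝓜.c0.th v) = aeval (𝓜.cs hh).th (up β κ Λ v) := by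
  rw [up, aeval_X, th_inl, Tw.rename_eq_bind]
  rfl

omit [Fintype κ] [Fintype ρ] in
theorem simp_ren (f : Λ → Λ') : Simp (𝓜.lev Λ) (𝓜.lev Λ') (ren β κ f) := fun v =>
  Or.inr ⟨_, rfl, by cases v <;> rfl⟩

omit [Fintype κ] [Fintype ρ] in
theorem simp_up : Simp 𝓜.c0.lev (𝓜.lev Λ) (up β κ Λ) := fun _ => Or.inr ⟨_, rfl, rfl⟩

omit [Fintype κ] [Fintype ρ] in
theorem simp_dw : Simp (𝓜.lev Λ) 𝓜.c0.lev (dw β κ Λ) := fun v => by
  cases v with
  | inl v => exact Or.inr ⟨_, rfl, rfl⟩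
  | inr p => exact Or.inl rfl

/-- rename some of the labels and kill the others -/
def kil (β κ : Type) {Λ Λ' : Type} (f : Λ → Option Λ') : V β κ Λ → Pl (V β κ Λ') :=
  Sum.elim (fun v => X (Sum.inl v)) fun p => (f p.1).elim 0 fun b => X (Sum.inr (b, p.2))

omit [Fintype κ] [Fintype ρ] in
theorem simp_kil (f : Λ → Option Λ') : Simp (𝓜.lev Λ) (𝓜.lev Λ') (kil β κ f) := fun v => by
  cases v with
  | inl v => exact Or.inr ⟨_, rfl, rfl⟩
  | inr p =>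
    rw [kil, Sum.elim_inr]
    cases f p.1 with
    | none => exact Or.inl rfl
    | some b => exact Or.inr ⟨_, rfl, rfl⟩

theorem mor_sub [Fintype Λ'] {hh : Λ → ρ → ℤ} {hh' : Λ' → ρ → ℤ} (M : Λ → Λ' → ℤ)
    (h : ∀ a, hh a = ∑ b, M a b • hh' b) {K : ℝ} (hK : 1 ≤ K) (hM : ∀ a, ∑ b, |(M a b : ℝ)| ≤ K) :
    Mor (𝓜.cs hh) (𝓜.cs hh') K (sub β κ M) := by
  have hom : ∀ v, IsWeightedHomogeneous (𝓜.lev Λ') (sub β κ M v) (𝓜.lev Λ v) := by
    rintro (v | p)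
    · exact isWeightedHomogeneous_X ℝ (𝓜.lev Λ') (Sum.inl v)
    · exact IsWeightedHomogeneous.sum _ _ _ fun b _ =>
        Tw.hom_C_mul (isWeightedHomogeneous_X ℝ (𝓜.lev Λ') (Sum.inr (b, p.2))) _
  refine ⟨?_, hom, fun v => ⟨_, hom v, ?_, th_sub 𝓜 M h v⟩⟩
  · rintro (v | p)
    · exact Tw.isInt_X _
    · exact Tw.isInt_sum fun b _ => (Tw.isInt_X _).int_mul _
  · rcases v with v | p
    · exact (Tw.nrm_X _).le.trans hK
    · refine (Tw.nrm_sum_le _ _).trans (le_trans (le_of_eq ?_) (hM p.1))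
      simp only [Tw.nrm_C_mul, Tw.nrm_X, mul_one]

end Mk16

open Mk16

theorem mkRStmt (hC : ClosRStmt) (hU : UniqRStmt) : MkRStmt := by
  refine ⟨fun β κ ρ Λ Λ' _ _ 𝓜 hh hh' => ⟨fun M h => ⟨th_sub 𝓜 M h, fun K => mor_sub 𝓜 M h⟩,
    fun f h => ⟨th_ren 𝓜 f h, (simp_ren 𝓜 f).mor (th_ren 𝓜 f h), fun hf S Q =>
      nd_of_rename (Sum.map_injective.2 ⟨Function.injective_id,
        Function.Injective.prodMap hf Function.injective_id⟩) (by rintro (v | p) <;> rfl)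
        (th_ren 𝓜 f h)⟩,
    th_up 𝓜 hh, (simp_up 𝓜).mor (th_up 𝓜 hh), fun S Q =>
      nd_of_rename Sum.inl_injective (fun _ => rfl) (th_up 𝓜 hh)⟩, fun S => ?_⟩
  obtain ⟨C, hC1, h⟩ := lr hC hU S
  refine ⟨C, hC1, fun m hm ι β κ ρ I J _ _ _ g 𝓜 U hJ hJ' hg hU' => ⟨fun hI x hN => ?_,
    fun y hN => ?_⟩⟩
  · refine h m hm ι _ _ _ g U _ _ _ _ _ (ren β κ (Sum.map id Sum.inl)) (ren β κ (Sum.map id Sum.inr))
      (kil β κ (Sum.elim some fun _ => none))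
      (kil β κ (Sum.elim (fun a => some (Sum.inl a)) (Sum.elim (fun a => some (Sum.inr a))
        fun _ => none))) x hg hU' hN (th_ren 𝓜 _ fun _ => rfl)
      (th_ren 𝓜 _ (by rintro (a | a) <;> rfl)) (th_ren 𝓜 _ (by rintro (a | a) <;> rfl))
      (simp_ren 𝓜 _) (simp_ren 𝓜 _) (simp_kil 𝓜 _) (simp_kil 𝓜 _) ?_ ?_ ?_ ?_
    · rintro (v | ⟨a, c⟩) <;> simp [ren]
    · rintro (v | ⟨a | a, c⟩) <;> simp [ren, kil]
    · rintro (v | ⟨a | a, c⟩) <;> simp [ren, kil]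
    · rintro (v | ⟨a, c⟩) <;> simp [ren, kil]
  · refine h m hm ι _ _ _ g U _ _ _ _ _ (ren β κ Sum.inl) (ren β κ Sum.inr) (dw β κ J)
      (kil β κ (Sum.elim some fun _ => none)) y hg hU' hN (th_up 𝓜 _)
      (th_ren 𝓜 _ fun _ => rfl) (th_ren 𝓜 _ fun _ => rfl)
      (simp_ren 𝓜 _) (simp_ren 𝓜 _) (simp_dw 𝓜) (simp_dw 𝓜) ?_ ?_ ?_ ?_
    · intro v; simp [ren, up]
    · rintro (v | ⟨a, c⟩) <;> simp [ren, kil]
    · rintro (v | ⟨a, c⟩) <;> simp [ren, kil, up, dw]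
    · intro v; simp [up, dw]

end Crest.Agent.T49.Br
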