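import Crest.Agent.T49.GiDef_40
import Crest.Agent.T49.NilPw_67
import Crest.Agent.T49.NilBox_73
import Crest.Agent.T49.NilSt_61

/-!
# Row 49 (helper40): API for homogeneous components, dilations, symbols
-/

set_option autoImplicit false

noncomputable section

namespace Crest.Agent.T49.GI

open Finset Crest.Agent.T49.Nil Crest.Agent.T49.Nil.ND
open Crest.Agent.T49.Bch (star expAd)

variable {ι ι' : Type} [Fintype ι] [Fintype ι'] {g : ND ι} {g' : ND ι'}

/-! ### a linear map that respects brackets on a subalgebra respects `star` -/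

theorem map_star_on {𝔤 𝔤' : Type*} [LieRing 𝔤] [LieAlgebra ℝ 𝔤] [LieRing 𝔤'] [LieAlgebra ℝ 𝔤']
    (S : ℕ) (W : Submodule ℝ 𝔤) (hW : ∀ a ∈ W, ∀ b ∈ W, ⁅a, b⁆ ∈ W) (f : 𝔤 →ₗ[ℝ] 𝔤')
    (hf : ∀ a ∈ W, ∀ b ∈ W, f ⁅a, b⁆ = ⁅f a, f b⁆) {x y : 𝔤} (hx : x ∈ W) (hy : y ∈ W) :
    f (star S x y) = star S (f x) (f y) := by
  let H : LieSubalgebra ℝ 𝔤 := { W with lie_mem' := fun {a b} ha hb => hW a ha b hb }
  let φ : H →ₗ⁅ℝ⁆ 𝔤' :=
    { toLinearMap := f.comp H.incl.toLinearMap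
      map_lie' := fun {a b} => hf a.1 a.2 b.1 b.2 }
  have h1 := Bch.map_star S φ ⟨x, hx⟩ ⟨y, hy⟩
  have h2 := Bch.map_star S H.incl ⟨x, hx⟩ ⟨y, hy⟩
  change f (H.incl _) = _ at h1
  rw [h2] at h1
  exact h1

/-! ### homogeneous components -/

theorem hp_apply (n : ℕ) (x : g.L) (k : ι) : hp g n x k = if g.wt k = n then x k else 0 := by
  by_cases h : g.wt k = n
  · rw [if_pos h]; exact Gon.prj_pos (p := fun k => g.wt k = n) x h
  · rw [if_neg h]; exact Gon.prj_neg (p := fun k => g.wt k = n) x h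

theorem hp_hp (n n' : ℕ) (x : g.L) : hp g n (hp g n' x) = if n = n' then hp g n x else 0 := by
  ext k
  by_cases h : n = n' <;> simp only [hp_apply, h, if_true, if_false, ND.zero_apply] <;>
    split_ifs <;> first | rfl | omega

@[simp] theorem hp_hp_same (n : ℕ) (x : g.L) : hp g n (hp g n x) = hp g n x := by
  rw [hp_hp, if_pos rfl]

theorem hp_eq_self {n : ℕ} {x : g.L} : hp g n x = x ↔ ∀ k, g.wt k ≠ n → x k = 0 :=
  Gon.prj_eq_self (p := fun k => g.wt k = n)

theorem sum_hp (T : Finset ℕ) (hT : ∀ k, g.wt k ∈ T) (x : g.L) : ∑ n ∈ T, hp g n x = x :=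
  Gon.sum_prj_wt g.wt T hT x

theorem sum_hp_range {S : ℕ} (hS : ∀ k, g.wt k ≤ S) (x : g.L) :
    ∑ n ∈ range (S + 1), hp g n x = x :=
  sum_hp _ (fun k => mem_range.2 (Nat.lt_succ_of_le (hS k))) x

theorem sum_hp_image (x : g.L) : ∑ n ∈ univ.image g.wt, hp g n x = x :=
  sum_hp _ (fun k => mem_image_of_mem _ (mem_univ k)) x

theorem hp_mem_F (n : ℕ) (x : g.L) : hp g n x ∈ g.F n := fun k hk => by
  rw [hp_apply, if_neg hk.ne]

theorem hp_eq_zero_of_mem {n : ℕ} {x : g.L} (hx : x ∈ g.F (n + 1)) : hp g n x = 0 := by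
  ext k
  rw [hp_apply]
  split_ifs with h
  · exact hx k (by omega)
  · rfl

theorem sub_hp_mem {n : ℕ} {x : g.L} (hx : x ∈ g.F n) : x - hp g n x ∈ g.F (n + 1) := fun k hk => by
  rw [ND.sub_apply, hp_apply]
  split_ifs with h
  · exact sub_self _
  · rw [hx k (by omega), sub_zero]

@[simp] theorem hp_zero_wt (x : g.L) : hp g 0 x = 0 := hp_eq_zero_of_mem (mem_FA_one x)

theorem norm_hp_le (n : ℕ) (x : g.L) : ‖hp g n x‖ ≤ ‖x‖ := Gon.norm_prj_le _ x

theorem IsG.hp_mem {U : Submodule ℝ g.L} (h : IsG g U) (n : ℕ) {x : g.L} (hx : x ∈ U) :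
    hp g n x ∈ U := h n x hx

theorem isG_iff {U : Submodule ℝ g.L} : IsG g U ↔ ∀ n, ∀ x ∈ U, hp g n x ∈ U := Iff.rfl

theorem mem_of_hp {U : Submodule ℝ g.L} {x : g.L} (h : ∀ n, hp g n x ∈ U) : x ∈ U := by
  rw [← sum_hp_image x]
  exact Submodule.sum_mem _ fun n _ => h n

theorem isG_F (i : ℕ) : IsG g (g.F i) := fun n x hx k hk => by
  change hp g n x k = 0
  rw [hp_apply, hx k hk, ite_self]

theorem IsG.inf {U W : Submodule ℝ g.L} (h : IsG g U) (h' : IsG g W) : IsG g (U ⊓ W) :=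
  fun n x hx => ⟨h n x hx.1, h' n x hx.2⟩

theorem fn_hp {s : ℕ} {η : ι → ℤ} (h : ∀ k, g.wt k ≠ s → η k = 0) (x : g.L) :
    g.fn η (hp g s x) = g.fn η x := by
  simp only [fn_apply, hp_apply]
  refine sum_congr rfl fun k _ => ?_
  split_ifs with hk
  · rfl
  · simp [h k hk]

theorem fn_hp_ne {s n : ℕ} {η : ι → ℤ} (h : ∀ k, g.wt k ≠ s → η k = 0) (hn : n ≠ s) (x : g.L) :
    g.fn η (hp g n x) = 0 := by
  rw [← fn_hp h, hp_hp, if_neg hn.symm, map_zero]

/-- the bracket of homogeneous points is homogeneous -/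
theorem Graded.hp_lie (hg : Graded g) {a b : ℕ} {x y : g.L} (hx : hp g a x = x)
    (hy : hp g b y = y) : hp g (a + b) ⁅x, y⁆ = ⁅x, y⁆ := by
  rw [hp_eq_self] at hx hy ⊢
  intro k hk
  rw [lie_apply]
  refine sum_eq_zero fun i _ => sum_eq_zero fun j _ => ?_
  by_cases hc : g.c i j k = 0
  · simp [hc]
  have := hg i j k hc
  by_cases hi : g.wt i = a
  · simp [hy j (by omega)]
  · simp [hx i hi]

/-! ### diagonal maps, dilations -/

/-- a diagonal map with multiplicative eigenvalues is a Lie homomorphism -/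
def diagH (g : ND ι) (w : ι → ℝ) (hw : ∀ i j k, g.c i j k ≠ 0 → w k = w i * w j) :
    g.L →ₗ⁅ℝ⁆ g.L where
  toFun x k := w k * x k
  map_add' x y := by ext k; simp [mul_add]
  map_smul' r x := by ext k; simp [mul_left_comm]
  map_lie' {x y} := by
    ext k
    simp only [lie_apply, mul_sum]
    refine sum_congr rfl fun i _ => sum_congr rfl fun j _ => ?_
    by_cases hc : g.c i j k = 0
    · simp [hc]
    · rw [hw i j k hc]; ring

@[simp] theorem dil_apply (t : ℝ) (x : g.L) (k : ι) : dil g t x k = t ^ g.wt k * x k := rfl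

/-- the dilation as a Lie homomorphism -/
def dilH (hg : Graded g) (t : ℝ) : g.L →ₗ⁅ℝ⁆ g.L :=
  diagH g (fun k => t ^ g.wt k) fun i j k h => by rw [← hg i j k h, pow_add]

@[simp] theorem dilH_apply (hg : Graded g) (t : ℝ) (x : g.L) : dilH hg t x = dil g t x := rfl

theorem dil_star (hg : Graded g) (S : ℕ) (t : ℝ) (x y : g.L) :
    dil g t (star S x y) = star S (dil g t x) (dil g t y) := Bch.map_star S (dilH hg t) x y

theorem dil_lie (hg : Graded g) (t : ℝ) (x y : g.L) :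
    dil g t ⁅x, y⁆ = ⁅dil g t x, dil g t y⁆ := (dilH hg t).map_lie x y

theorem dil_dil (t t' : ℝ) (x : g.L) : dil g t (dil g t' x) = dil g (t * t') x := by
  ext k; simp [mul_pow, mul_assoc]

@[simp] theorem dil_one (x : g.L) : dil g 1 x = x := by ext k; simp

@[simp] theorem dil_zero_pt (t : ℝ) : dil g t 0 = 0 := by ext k; simp

theorem dil_add (t : ℝ) (x y : g.L) : dil g t (x + y) = dil g t x + dil g t y := by
  ext k; simp [mul_add]

theorem dil_neg (t : ℝ) (x : g.L) : dil g t (-x) = -dil g t x := by ext k; simp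

theorem dil_of_hp {n : ℕ} {x : g.L} (hx : hp g n x = x) (t : ℝ) : dil g t x = t ^ n • x := by
  rw [hp_eq_self] at hx
  ext k
  by_cases h : g.wt k = n
  · simp [h]
  · simp [hx k h]

theorem dil_eq_sum (t : ℝ) (x : g.L) : dil g t x = ∑ n ∈ univ.image g.wt, t ^ n • hp g n x := by
  ext k
  rw [ND.sum_apply, sum_eq_single (g.wt k)]
  · simp [hp_apply]
  · intro n _ hn
    simp [hp_apply, Ne.symm hn]
  · simp

theorem IsG.dil_mem {U : Submodule ℝ g.L} (h : IsG g U) (t : ℝ) {x : g.L} (hx : x ∈ U) :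
    dil g t x ∈ U := by
  rw [dil_eq_sum]
  exact Submodule.sum_mem _ fun n _ => Submodule.smul_mem _ _ (h n x hx)

theorem fn_dil {s : ℕ} {η : ι → ℤ} (h : ∀ k, g.wt k ≠ s → η k = 0) (t : ℝ) (x : g.L) :
    g.fn η (dil g t x) = t ^ s * g.fn η x := by
  simp only [fn_apply, dil_apply, mul_sum]
  refine sum_congr rfl fun k _ => ?_
  by_cases hk : g.wt k = s
  · rw [hk]; ring
  · simp [h k hk]

theorem smE_iff {T m : ℝ} (hT : 0 ≤ T) {x : g.L} : SmE g T m x ↔ ‖dil g T x‖ ≤ Real.exp m := by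
  rw [norm_le_iff (Real.exp_pos m).le]
  refine forall_congr' fun k => ?_
  rw [dil_apply, abs_mul, abs_of_nonneg (pow_nonneg hT _), mul_comm]

section dil2

variable {A : ND ι} {hd : ι → Bool}

theorem dil2_apply (h n : ℝ) (x : A.L) (k : ι) : dil2 A hd h n x k =
    h ^ (hd k).toNat * n ^ (A.wt k - (hd k).toNat) * x k := by
  unfold dil2
  cases hd k <;> simp

/-- the bigraded dilation as a Lie homomorphism -/
def dil2H (hA : Bigr A hd) (h n : ℝ) : A.L →ₗ⁅ℝ⁆ A.L :=
  diagH A (fun k => h ^ (hd k).toNat * n ^ (A.wt k - (hd k).toNat)) fun i j k hc => by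
    have h1 := hA.gr i j k hc
    have h2 := hA.add i j k hc
    have h3 := A.wt_pos i
    have h4 := A.wt_pos j
    have h5 := (hd i).toNat_le
    have h6 := (hd j).toNat_le
    rw [← h2, show A.wt k - ((hd i).toNat + (hd j).toNat) =
      (A.wt i - (hd i).toNat) + (A.wt j - (hd j).toNat) by omega, pow_add, pow_add]
    ring

@[simp] theorem dil2H_apply (hA : Bigr A hd) (h n : ℝ) (x : A.L) :
    dil2H hA h n x = dil2 A hd h n x := by
  ext k; rw [dil2_apply]; rfl

theorem dil2_star (hA : Bigr A hd) (S : ℕ) (h n : ℝ) (x y : A.L) :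
    dil2 A hd h n (star S x y) = star S (dil2 A hd h n x) (dil2 A hd h n y) := by
  simpa only [dil2H_apply] using Bch.map_star S (dil2H hA h n) x y

theorem dil2_lie (hA : Bigr A hd) (h n : ℝ) (x y : A.L) :
    dil2 A hd h n ⁅x, y⁆ = ⁅dil2 A hd h n x, dil2 A hd h n y⁆ := by
  simpa only [dil2H_apply] using (dil2H hA h n).map_lie x y

theorem dil2_self (n : ℝ) (x : A.L) : dil2 A hd n n x = dil A n x := by
  ext k
  have h3 := A.wt_pos k
  have h5 := (hd k).toNat_le
  rw [dil2_apply, dil_apply, ← pow_add]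
  congr 2
  omega

theorem dil_dil2 (t h n : ℝ) (x : A.L) :
    dil A t (dil2 A hd h n x) = dil2 A hd h n (dil A t x) := by
  ext k; simp only [dil2_apply, dil_apply]; ring

theorem ph_apply (e : Bool) (x : A.L) (k : ι) :
    ph A hd e x k = if hd k = e then x k else 0 := by
  by_cases h : hd k = e
  · rw [if_pos h]; exact Gon.prj_pos (p := fun k => hd k = e) x h
  · rw [if_neg h]; exact Gon.prj_neg (p := fun k => hd k = e) x h

theorem ph_add_ph (x : A.L) : ph A hd false x + ph A hd true x = x := by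
  ext k
  rw [ND.add_apply, ph_apply, ph_apply]
  cases hd k <;> simp

theorem ph_false_eq (x : A.L) : ph A hd false x = dil2 A hd 0 1 x := by
  ext k
  rw [ph_apply, dil2_apply]
  cases hd k <;> simp

theorem hp_ph (n : ℕ) (e : Bool) (x : A.L) : hp A n (ph A hd e x) = ph A hd e (hp A n x) := by
  ext k
  simp only [hp_apply, ph_apply]
  split_ifs <;> rfl

/-- `ph false` is a Lie homomorphism -/
theorem ph_false_lie (hA : Bigr A hd) (x y : A.L) :
    ph A hd false ⁅x, y⁆ = ⁅ph A hd false x, ph A hd false y⁆ := by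
  simp only [ph_false_eq, dil2_lie hA]

theorem dil2_one (h : ℝ) (x : A.L) :
    dil2 A hd h 1 x = ph A hd false x + h • ph A hd true x := by
  ext k
  simp only [dil2_apply, ND.add_apply, ND.smul_apply, ph_apply]
  cases hd k <;> simp

theorem dil2_of_hp {d : ℕ} {x : A.L} (hx : hp A d x = x) (h n : ℝ) :
    dil2 A hd h n x = n ^ d • ph A hd false x + (h * n ^ (d - 1)) • ph A hd true x := by
  rw [hp_eq_self] at hx
  ext k
  simp only [dil2_apply, ND.add_apply, ND.smul_apply, ph_apply]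
  by_cases hk : A.wt k = d
  · cases hd k <;> simp [hk]
  · simp [hx k hk]

theorem lie_ph_true (hA : Bigr A hd) (x y : A.L) : ⁅ph A hd true x, ph A hd true y⁆ = 0 := by
  ext k
  rw [lie_apply, ND.zero_apply]
  refine sum_eq_zero fun i _ => sum_eq_zero fun j _ => ?_
  by_cases hc : A.c i j k = 0
  · simp [hc]
  have h2 := hA.add i j k hc
  have h5 := (hd k).toNat_le
  rw [ph_apply, ph_apply]
  cases hi : hd i <;> cases hj : hd j <;> simp_all
  omega

/-- Leibniz rule for `ph true` -/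
theorem ph_true_lie (hA : Bigr A hd) (x y : A.L) : ph A hd true ⁅x, y⁆ =
    ⁅ph A hd true x, ph A hd false y⁆ + ⁅ph A hd false x, ph A hd true y⁆ := by
  have h1 := ph_add_ph (hd := hd) ⁅x, y⁆
  rw [ph_false_lie hA] at h1
  have h2 : ⁅x, y⁆ = ⁅ph A hd false x + ph A hd true x, ph A hd false y + ph A hd true y⁆ := by
    rw [ph_add_ph, ph_add_ph]
  rw [add_lie, lie_add, lie_add, lie_ph_true hA, add_zero] at h2
  rw [eq_sub_of_add_eq' h1]
  nth_rw 1 [h2]
  abel

end dil2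

/-! ### homogeneous polynomial maps and symbols -/

section symb

open MvPolynomial

variable {N : ND ι} {σ : Type}

theorem unit_eq_single (α : Unit →₀ ℕ) : α = Finsupp.single () α.degree := by
  ext
  simp [Finsupp.degree_eq_sum]

theorem cv_hom (x : ι → ℝ) (α : Unit →₀ ℕ) (k : ι) :
    N.cv α (hom N x) k = if N.wt k = α.degree then x k else 0 := by
  classical
  rw [cv_apply, hom, coeff_monomial]
  refine if_congr ⟨fun h => by rw [← h, Finsupp.degree_single], fun h => ?_⟩ rfl rfl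
  rw [h, ← unit_eq_single]

theorem cv_hom' (x : N.L) (α : Unit →₀ ℕ) : N.cv α (hom N x) = hp N α.degree x := by
  ext k; rw [cv_hom, hp_apply]

theorem hom_mem_poly (x : ι → ℝ) : hom N x ∈ N.poly Unit := fun α k hk => by
  rw [cv_hom, if_neg hk.ne]

theorem ev_hom (t : Unit → ℝ) (x : N.L) : N.ev t (hom N x) = dil N (t ()) x := by
  ext k
  change aeval t (monomial _ _) = _
  rw [aeval_monomial, Finsupp.prod_single_index (by simp), dil_apply, mul_comm]
  rfl

theorem evZ_hom (n : ℤ) (x : N.L) : N.evZ (fun _ => n) (hom N x) = dil N n x := ev_hom _ x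

theorem sq_hom (F : N.L → ℂ) (x : N.L) (n : ℤ) : sq N F (hom N x) n = F (dil N n x) := by
  rw [sq, evZ_hom]

/-- the symbol as a linear map -/
def symL (N g : ND ι) (t : σ → ℝ) : N.PS σ →ₗ[ℝ] g.L where
  toFun := symAt N g t
  map_add' P Q := by ext k; simp [symAt]
  map_smul' r P := by ext k; simp [symAt]

@[simp] theorem symL_apply (t : σ → ℝ) (P : N.PS σ) : symL N g t P = symAt N g t P := rfl

theorem symAt_apply (t : σ → ℝ) (P : N.PS σ) (k : ι) :
    symAt N g t P k = eval t (homogeneousComponent (N.wt k) (P k)) := rfl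

theorem symAt_add (t : σ → ℝ) (P Q : N.PS σ) :
    symAt N g t (P + Q) = symAt N g t P + symAt N g t Q := (symL N g t).map_add P Q

theorem symAt_sub (t : σ → ℝ) (P Q : N.PS σ) :
    symAt N g t (P - Q) = symAt N g t P - symAt N g t Q := (symL N g t).map_sub P Q

theorem symAt_neg (t : σ → ℝ) (P : N.PS σ) : symAt N g t (-P) = -symAt N g t P :=
  (symL N g t).map_neg P

theorem symAt_eq_sum (t : σ → ℝ) (P : N.PS σ) (k : ι) : symAt N g t P k =
    ∑ α ∈ (P k).support with α.degree = N.wt k, N.cv α P k * α.prod fun v e => t v ^ e := by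
  rw [symAt_apply, homogeneousComponent_apply, map_sum]
  exact sum_congr rfl fun α _ => by rw [eval_monomial, cv_apply]

theorem sym_apply (P : N.PS Unit) (k : ι) :
    sym N g P k = N.cv (Finsupp.single () (N.wt k)) P k := by
  classical
  rw [sym, symAt_eq_sum, sum_eq_single (Finsupp.single () (N.wt k))]
  · simp
  · intro α hα hne
    exact absurd (by rw [unit_eq_single α, (mem_filter.1 hα).2]) hne
  · intro h
    have : Finsupp.single () (N.wt k) ∉ (P k).support := fun h' => h (by simp [h'])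
    rw [cv_apply, notMem_support_iff.1 this, zero_mul]

@[simp] theorem sym_hom (x : ι → ℝ) : sym N g (hom N x) = x := by
  ext k
  rw [sym_apply, cv_hom, Finsupp.degree_single, if_pos rfl]

/-- maps whose coefficients lie one step deeper have symbol zero -/
theorem symAt_eq_zero (t : σ → ℝ) {P : N.PS σ} (hP : P ∈ cf σ fun i => N.F (i + 1)) :
    symAt N g t P = 0 := by
  ext k
  rw [symAt_eq_sum, ND.zero_apply]
  refine sum_eq_zero fun α hα => ?_
  rw [hP α k (by rw [(mem_filter.1 hα).2]; exact Nat.lt_succ_self _), zero_mul]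

theorem symAt_tr (t h : σ → ℝ) {P : N.PS σ} (hP : P ∈ N.poly σ) :
    symAt N g t (N.tr h P) = symAt N g t P := by
  rw [← sub_eq_zero, ← symAt_sub]
  exact symAt_eq_zero t (tr_sub_mem_cf (fun _ _ h => FA_anti h) hP h)

theorem sym_tr (h : Unit → ℝ) {P : N.PS Unit} (hP : P ∈ N.poly Unit) :
    sym N g (N.tr h P) = sym N g P := symAt_tr _ h hP

theorem symAt_cst (t : σ → ℝ) (x : N.L) : symAt N g t (N.cst _ x) = 0 := by
  classical
  refine symAt_eq_zero t fun α => ?_
  rw [cst_eq_mono, cv_mono]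
  split_ifs with h
  · subst h; exact mem_FA_one x
  · exact zero_mem _

theorem hc_mul {p q : MvPolynomial σ ℝ} {a b n : ℕ} (hp : ∀ α : σ →₀ ℕ, a < α.degree → coeff α p = 0)
    (hq : ∀ α : σ →₀ ℕ, b < α.degree → coeff α q = 0) (hn : a + b ≤ n) :
    homogeneousComponent n (p * q) =
      if a + b = n then homogeneousComponent a p * homogeneousComponent b q else 0 := by
  classical
  ext α
  have key : ∀ x ∈ antidiagonal α, α.degree = n → coeff x.1 p * coeff x.2 q =
      if a + b = n then (if x.1.degree = a then coeff x.1 p else 0) *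
        (if x.2.degree = b then coeff x.2 q else 0) else 0 := by
    intro x hx hα
    have h1 : x.1.degree + x.2.degree = n := by rw [← map_add, mem_antidiagonal.1 hx, hα]
    by_cases h2 : a < x.1.degree
    · simp [hp _ h2]
    by_cases h3 : b < x.2.degree
    · simp [hq _ h3]
    rw [if_pos (by omega), if_pos (by omega), if_pos (by omega)]
  rw [coeff_homogeneousComponent]
  by_cases hα : α.degree = n
  · rw [if_pos hα, coeff_mul, sum_congr rfl fun x hx => key x hx hα]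
    split_ifs
    · simp only [coeff_mul, coeff_homogeneousComponent]
    · simp
  · rw [if_neg hα]
    split_ifs with h
    · rw [coeff_mul]
      refine (sum_eq_zero fun x hx => ?_).symm
      have h1 : x.1.degree + x.2.degree = α.degree := by rw [← map_add, mem_antidiagonal.1 hx]
      simp only [coeff_homogeneousComponent]
      split_ifs <;> first | omega | simp
    · simp

theorem symAt_lie (hg : GrOf N g) (t : σ → ℝ) {P Q : N.PS σ} (hP : P ∈ N.poly σ)
    (hQ : Q ∈ N.poly σ) : symAt N g t ⁅P, Q⁆ = ⁅symAt N g t P, symAt N g t Q⁆ := by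
  ext k
  simp only [symAt_apply, lie_apply, map_sum]
  refine sum_congr rfl fun i _ => sum_congr rfl fun j _ => ?_
  by_cases hc : N.c i j k = 0
  · simp [hc, hg.2]
  rw [mul_assoc, ← map_intCast (C : ℝ →+* MvPolynomial σ ℝ), ← smul_eq_C_mul, map_smul,
    hc_mul (fun α hα => hP α i hα) (fun α hα => hQ α j hα) (N.c_wt i j k hc), hg.2]
  split_ifs <;> simp [mul_assoc]

theorem symAt_star (hg : GrOf N g) (S : ℕ) (t : σ → ℝ) {P Q : N.PS σ} (hP : P ∈ N.poly σ)
    (hQ : Q ∈ N.poly σ) : symAt N g t (star S P Q) = star S (symAt N g t P) (symAt N g t Q) :=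
  map_star_on S (N.poly σ) (fun _ h _ h' => lie_mem_poly h h') (symL N g t)
    (fun _ h _ h' => symAt_lie hg t h h') hP hQ

theorem sym_star (hg : GrOf N g) (S : ℕ) {P Q : N.PS Unit} (hP : P ∈ N.poly Unit)
    (hQ : Q ∈ N.poly Unit) : sym N g (star S P Q) = star S (sym N g P) (sym N g Q) :=
  symAt_star hg S _ hP hQ

theorem symAt_tup {J : Type} [Fintype J] [DecidableEq J] (t : σ → ℝ) (P : J → N.PS σ) :
    symAt (pw N J) (pw g J) t (tup P) = tup fun a => symAt N g t (P a) := rfl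

theorem sym_tup {J : Type} [Fintype J] [DecidableEq J] (P : J → N.PS Unit) :
    sym (pw N J) (pw g J) (tup P) = tup fun a => sym N g (P a) := rfl

theorem symAt_pair {N' : ND ι'} (t : σ → ℝ) (P : N.PS σ) (Q : N'.PS σ) :
    symAt (pd N N') (pd g g') t (pair P Q) = pair (symAt N g t P) (symAt N' g' t Q) := by
  ext k; cases k <;> rfl

theorem sym_pair {N' : ND ι'} (P : N.PS Unit) (Q : N'.PS Unit) :
    sym (pd N N') (pd g g') (pair P Q) = pair (sym N g P) (sym N' g' Q) := symAt_pair _ P Q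

end symb

/-! ### monotonicity -/

section mono

variable {S S' s t L : ℕ} {T m m' : ℝ} {x : g.L} {U W : Submodule ℝ g.L}

theorem Fd.mono (h : Fd g S m) (hS : S ≤ S') (hm : m ≤ m') : Fd g S' m' :=
  ⟨fun k => (h.wt_le k).trans hS, h.dim.trans hm,
    fun i j k => (h.c_le i j k).trans (Real.exp_le_exp.2 hm)⟩

theorem Gd.mono (h : Gd g S m) (hS : S ≤ S') (hm : m ≤ m') : Gd g S' m' :=
  ⟨h.toFd.mono hS hm, h.gr⟩

theorem Fd.nil (h : Fd g S m) (A : Type) [CommRing A] [Algebra ℝ A] : Bch.Nil S (g.pts A) :=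
  ND.nil h.wt_le A

theorem fd_of_good (hd : (Fintype.card ι : ℝ) ≤ m) (h : g.Good S (Real.exp m)) : Fd g S m :=
  ⟨h.wt_le, hd, h.c_le⟩

theorem Fd.grOf {N : ND ι} (h : Fd N S m) (hg : GrOf N g) : Gd g S m :=
  ⟨⟨fun k => hg.1 k ▸ h.wt_le k, h.dim, fun i j k => by
    rw [hg.2]
    split_ifs
    · exact h.c_le i j k
    · simpa using (Real.exp_pos m).le⟩, hg.graded⟩

theorem Fd.pw (h : Fd g S m) (J : Type) [Fintype J] [DecidableEq J] (hm : m ≤ m')
    (hJ : Fintype.card J * m ≤ m') : Fd (pw g J) S m' :=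
  ⟨fun k => h.wt_le k.2, by
    rw [Fintype.card_prod, Nat.cast_mul]
    exact (mul_le_mul_of_nonneg_left h.dim (Nat.cast_nonneg _)).trans hJ, fun i j k => by
    rw [pw_c]
    split_ifs
    · exact (h.c_le _ _ _).trans (Real.exp_le_exp.2 hm)
    · simpa using (Real.exp_pos m').le⟩

theorem Gd.pw (h : Gd g S m) (J : Type) [Fintype J] [DecidableEq J] (hm : m ≤ m')
    (hJ : Fintype.card J * m ≤ m') : Gd (pw g J) S m' := ⟨h.toFd.pw J hm hJ, h.gr.pw J⟩

theorem Fd.pd (h : Fd g S m) (h' : Fd g' S m) (hm : 2 * m ≤ m') : Fd (pd g g') S m' := by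
  have h0 : 0 ≤ m := (Nat.cast_nonneg _).trans h.dim
  have he : Real.exp m ≤ Real.exp m' := Real.exp_le_exp.2 (by linarith)
  refine ⟨fun k => ?_, ?_, fun i j k => ?_⟩
  · cases k with
    | inl k => exact h.wt_le k
    | inr k => exact h'.wt_le k
  · rw [Fintype.card_sum, Nat.cast_add]
    linarith [h.dim, h'.dim]
  · cases i <;> cases j <;> cases k <;>
      first | exact (h.c_le _ _ _).trans he | exact (h'.c_le _ _ _).trans he
            | simpa [GI.pd] using (Real.exp_pos m').le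

theorem Gd.pd (h : Gd g S m) (h' : Gd g' S m) (hm : 2 * m ≤ m') : Gd (pd g g') S m' :=
  ⟨h.toFd.pd h'.toFd hm, h.gr.pd h'.gr⟩

theorem SmE.mono (h : SmE g T m x) (hm : m ≤ m') : SmE g T m' x :=
  fun k => (h k).trans (Real.exp_le_exp.2 hm)

theorem SmE.neg (h : SmE g T m x) : SmE g T m (-x) := fun k => by
  rw [ND.neg_apply, abs_neg]; exact h k

theorem smE_zero : SmE g T m 0 := fun k => by simpa using (Real.exp_pos m).le

theorem SmE.hp (h : SmE g T m x) (n : ℕ) : SmE g T m (hp g n x) := fun k => by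
  rw [hp_apply]
  split_ifs
  · exact h k
  · simpa using (Real.exp_pos m).le

theorem SmE.norm_le (h : SmE g T m x) (hT : 1 ≤ T) : ‖x‖ ≤ Real.exp m / T := by
  have hT0 : 0 < T := by linarith
  rw [norm_le_iff (by positivity)]
  intro k
  rw [le_div_iff₀ hT0]
  refine le_trans (mul_le_mul_of_nonneg_left ?_ (abs_nonneg _)) (h k)
  exact le_self_pow₀ hT (by have := g.wt_pos k; omega)

theorem SmE.norm_le' (h : SmE g T m x) (hT : 1 ≤ T) : ‖x‖ ≤ Real.exp m :=
  (h.norm_le hT).trans (div_le_self (Real.exp_pos m).le hT)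

theorem Rt.mono (h : Rt g m x) (hm : m ≤ m') : Rt g m' x := by
  obtain ⟨q, h1, h2, h3⟩ := h
  exact ⟨q, h1, h2.trans (Real.exp_le_exp.2 hm), h3⟩

theorem Rt.neg (h : Rt g m x) : Rt g m (-x) := by
  obtain ⟨q, h1, h2, h3⟩ := h
  exact ⟨q, h1, h2, Gon.IsDen.neg h3⟩

theorem rt_of_isInt (hm : 0 ≤ m) (h : IsInt x) : Rt g m x :=
  ⟨1, le_rfl, by simpa using hm, den_iff.2 fun k => by simpa using h k⟩

theorem rt_zero (hm : 0 ≤ m) : Rt g m 0 := rt_of_isInt hm fun _ => ⟨0, by simp⟩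

theorem GR.mono (h : GR g m U) (hm : m ≤ m') : GR g m' U :=
  ⟨h.gr, h.rat.mono (Real.exp_le_exp.2 hm)⟩

theorem Near.mono (h : Near g S T m U x) (hm : m ≤ m') (hU : U ≤ W) : Near g S T m' W x := by
  obtain ⟨ε, y, γ, h1, h2, h3, h4⟩ := h
  exact ⟨ε, y, γ, h1.mono hm, hU h2, h3.mono hm, h4⟩

theorem near_of_mem (hm : 0 ≤ m) (h : x ∈ U) : Near g S T m U x :=
  ⟨0, x, 0, smE_zero, h, rt_zero hm, by simp⟩

theorem GMap.mono {φ : g.L →ₗ[ℝ] g'.L} (h : GMap g g' m φ) (hm : m ≤ m') : GMap g g' m' φ :=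
  ⟨fun i k => by
    obtain ⟨z, h1, h2⟩ := h.int i k
    exact ⟨z, h1, h2.trans (Real.exp_le_exp.2 hm)⟩, h.gr⟩

theorem Freq.mono {η : ι → ℤ} (h : Freq g s m η) (hm : m ≤ m') : Freq g s m' η :=
  ⟨h.supp, fun k => (h.le k).trans (Real.exp_le_exp.2 hm)⟩

theorem freq_of_nChar {η : ι → ℤ} {F : g.L → ℂ} (h : g.NChar S s (Real.exp m) η F) :
    Freq g s m η := ⟨h.supp, h.η_le⟩

theorem Cor.mono {a ψ : ℤ → ℂ} (h : Cor m L a ψ) (hm : m ≤ m') : Cor m' L a ψ :=
  le_trans (mul_le_mul_of_nonneg_right (Real.exp_le_exp.2 (neg_le_neg hm)) (Nat.cast_nonneg _)) h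

theorem Cor.congr {a ψ a' ψ' : ℤ → ℂ} (h : Cor m L a ψ)
    (he : ∀ n ∈ Ico (0 : ℤ) L, a n * ψ n = a' n * ψ' n) : Cor m L a' ψ' := by
  unfold Cor at h ⊢
  rwa [← sum_congr rfl he]

theorem Tri.mono {η : ι → ℤ} {𝔥 : LieSubalgebra ℝ g.L} {Nn K : Submodule ℝ g.L}
    (h : Tri g m η 𝔥 Nn K) (hm : m ≤ m') : Tri g m' η 𝔥 Nn K :=
  ⟨h.grH.mono hm, h.grN.mono hm, h.grK.mono hm, h.KN, h.NH, h.lieN, h.lieK, h.abel, h.kill⟩

theorem Rep.mono {𝔥 : LieSubalgebra ℝ g.L} {K : Submodule ℝ g.L} {w₀ : g.L}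
    (h : Rep g S T m 𝔥 K w₀ x) (hm : m ≤ m') : Rep g S T m' 𝔥 K w₀ x := by
  obtain ⟨ε, w, γ, h1, h2, h3⟩ := h
  exact ⟨ε, w, γ, h1.mono hm, h2.mono hm, h3⟩

theorem SFil.mono {V : ℕ → Submodule ℝ g.L} {𝔨 : Submodule ℝ g.L} (h : SFil g S m V 𝔨)
    (hm : m ≤ m') : SFil g S m' V 𝔨 :=
  ⟨fun b => (h.rat b).mono (Real.exp_le_exp.2 hm), h.ratk.mono (Real.exp_le_exp.2 hm), h.zero,
    h.anti, h.lie, h.bot, h.le, h.ideal⟩

theorem le_pw (hm : 2 ≤ m) {C : ℕ} (hC : 1 ≤ C) : m ≤ m ^ C :=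
  le_self_pow₀ (by linarith) (by omega)

theorem two_le_pw (hm : 2 ≤ m) {C : ℕ} (hC : 1 ≤ C) : 2 ≤ m ^ C := hm.trans (le_pw hm hC)

theorem pw_le_pw (hm : 2 ≤ m) {C C' : ℕ} (hC : C ≤ C') : m ^ C ≤ m ^ C' :=
  pow_le_pow_right₀ (by linarith) hC

end mono

/-! ### coordinate maps are graded integer maps -/

section gmap

variable {m : ℝ}

/-- a map all of whose matrix entries are `0` or (weight preserving) `1` -/
theorem gMap_of_01 (hm : 0 ≤ m) {φ : g.L →ₗ[ℝ] g'.L}
    (h : ∀ i k, φ (g.e i) k = 0 ∨ (φ (g.e i) k = 1 ∧ g'.wt k = g.wt i)) : GMap g g' m φ :=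
  ⟨fun i k => by
    rcases h i k with h | h
    · exact ⟨0, by simpa using h, by simpa using (Real.exp_pos m).le⟩
    · exact ⟨1, by simpa using h.1, by simpa using hm⟩,
   fun i k hk => ((h i k).resolve_left hk).2⟩

theorem e_01 (i k : ι) : g.e i k = 0 ∨ (g.e i k = 1 ∧ k = i) := by
  classical
  rw [e_apply]
  by_cases h : k = i <;> simp [h]

theorem gMap_id (hm : 0 ≤ m) : GMap g g m LinearMap.id :=
  gMap_of_01 hm fun i k => (e_01 (g := g) i k).imp id fun h => ⟨h.1, by rw [h.2]⟩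

variable {J : Type} [Fintype J] [DecidableEq J]

theorem gMap_pr (hm : 0 ≤ m) (a : J) : GMap (pw g J) g m (pr g ℝ a).toLinearMap :=
  gMap_of_01 hm fun i k => (e_01 (g := pw g J) i (a, k)).imp id fun h => ⟨h.1, by rw [← h.2]; rfl⟩

theorem gMap_toPw {φ : J → g'.L →ₗ⁅ℝ⁆ g.L} (h : ∀ a, GMap g' g m (φ a).toLinearMap) :
    GMap g' (pw g J) m (toPw φ).toLinearMap :=
  ⟨fun i k => (h k.1).int i k.2, fun i k hk => (h k.1).gr i k.2 hk⟩

theorem gMap_zero : GMap g g' m 0 :=
  ⟨fun _ _ => ⟨0, by simp, by simpa using (Real.exp_pos m).le⟩, fun _ _ hk => absurd rfl hk⟩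

theorem gMap_inj (hm : 0 ≤ m) (a : J) : GMap g (pw g J) m (inj g ℝ a).toLinearMap :=
  gMap_toPw fun b => by
    split_ifs
    · exact gMap_id hm
    · exact gMap_zero

theorem gMap_fst (hm : 0 ≤ m) : GMap (pd g g') g m (fst g g' ℝ).toLinearMap :=
  gMap_of_01 hm fun i k =>
    (e_01 (g := pd g g') i (.inl k)).imp id fun h => ⟨h.1, by rw [← h.2]; rfl⟩

theorem gMap_snd (hm : 0 ≤ m) : GMap (pd g g') g' m (snd g g' ℝ).toLinearMap :=
  gMap_of_01 hm fun i k =>
    (e_01 (g := pd g g') i (.inr k)).imp id fun h => ⟨h.1, by rw [← h.2]; rfl⟩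

theorem GMap.apply_hp {φ : g.L →ₗ[ℝ] g'.L} (h : GMap g g' m φ) (n : ℕ) (x : g.L) :
    φ (hp g n x) = hp g' n (φ x) := by
  ext k
  rw [hp_apply, ← bcl_real φ, ← bcl_real φ, bcl_apply, bcl_apply]
  split_ifs with hk
  · refine sum_congr rfl fun i _ => ?_
    by_cases h0 : φ (g.e i) k = 0
    · simp [h0]
    · rw [hp_apply, if_pos (by rw [← h.gr i k h0, hk])]
  · refine sum_eq_zero fun i _ => ?_
    by_cases h0 : φ (g.e i) k = 0
    · simp [h0]
    · rw [hp_apply, if_neg (by rw [← h.gr i k h0]; exact hk), smul_zero]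

theorem GMap.apply_dil {φ : g.L →ₗ[ℝ] g'.L} (h : GMap g g' m φ) (t : ℝ) (x : g.L) :
    φ (dil g t x) = dil g' t (φ x) := by
  conv_rhs => rw [← sum_hp_image x]
  rw [dil_eq_sum, map_sum, map_sum]
  simp only [map_smul, h.apply_hp]
  ext k
  rw [dil_apply, ND.sum_apply, ND.sum_apply, mul_sum]
  refine sum_congr rfl fun n _ => ?_
  rw [ND.smul_apply, hp_apply]
  split_ifs with hk
  · rw [hk, smul_eq_mul]
  · simp

theorem smE_tup {T : ℝ} {x : J → g.L} : SmE (pw g J) T m (tup x) ↔ ∀ a, SmE g T m (x a) :=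
  ⟨fun h a k => h (a, k), fun h p => h p.1 p.2⟩

theorem smE_pair {T : ℝ} {x : g.L} {y : g'.L} :
    SmE (pd g g') T m (pair x y) ↔ SmE g T m x ∧ SmE g' T m y :=
  ⟨fun h => ⟨fun k => h (.inl k), fun k => h (.inr k)⟩, fun h p => by
    cases p with
    | inl k => exact h.1 k
    | inr k => exact h.2 k⟩

theorem hp_tup (n : ℕ) (x : J → g.L) : hp (pw g J) n (tup x) = tup fun a => hp g n (x a) := by
  ext p; rw [hp_apply, tup_apply, tup_apply, hp_apply]; rfl

theorem hp_pair (n : ℕ) (x : g.L) (y : g'.L) :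
    hp (pd g g') n (pair x y) = pair (hp g n x) (hp g' n y) := by
  ext p
  cases p <;> (simp only [hp_apply, pair_inl, pair_inr]; rfl)

end gmap

end Crest.Agent.T49.GI
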