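import Crest.Agent.T49.BrDef_62
import Crest.Agent.T49.GiSym_40
import Crest.Agent.T49.NilUq_61

/-!
# Row 49 (helper73): the relative structure theorem, first half (`NuStmt`)
-/

set_option autoImplicit false

noncomputable section

namespace Crest.Agent.T49.Br

open Finset MvPolynomial Crest.Agent.T49.Nil Crest.Agent.T49.Nil.ND Crest.Agent.T49.GI
open Crest.Agent.T49.Bch (star expAd)
open Crest.Agent.T49.Tw (Pl nrm DegLe)

namespace Nu73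

variable {ι : Type} [Fintype ι] {σ τ : Type} {g : ND ι} {S : ℕ} {m : ℝ}

/-! ### substitutions -/

theorem subst_subst {υ : Type} (r : σ → Pl τ) (r' : τ → Pl υ) (x : g.PS σ) :
    g.subst r' (g.subst r x) = g.subst (fun v => aeval r' (r v)) x := by
  rw [ND.subst, ND.subst, ND.map_map, ND.subst, MvPolynomial.comp_aeval]

section labels

variable {β κ Λ Λ' Λ'' : Type}

theorem aeval_sub_sub [Fintype Λ'] [Fintype Λ''] (M : Λ → Λ' → ℤ) (M' : Λ' → Λ'' → ℤ) :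
    (fun v => aeval (sub β κ M') (sub β κ M v)) = sub β κ fun a => ∑ b, M a b • M' b := by
  funext v
  rcases v with v | p
  · simp [sub]
  · simp only [sub, Sum.elim_inr, map_sum, map_mul, aeval_C, aeval_X, algebraMap_eq, mul_sum,
      Finset.sum_apply, Pi.smul_apply, smul_eq_mul, Int.cast_sum, Int.cast_mul, sum_mul, mul_assoc]
    exact sum_comm

theorem sub_single [Fintype Λ'] [DecidableEq Λ'] (f : Λ → Λ') :
    (sub β κ fun a => Pi.single (f a) 1) = ren β κ f := by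
  funext v
  rcases v with v | p
  · rfl
  · simp only [sub, ren, Sum.elim_inr, Sum.map_inr]
    rw [sum_eq_single (f p.1) (fun b _ hb => by simp [Pi.single_eq_of_ne hb]) (by simp)]
    simp [Prod.map]

theorem aeval_ren_ren (f : Λ → Λ') (f' : Λ' → Λ'') :
    (fun v => aeval (ren β κ f') (ren β κ f v)) = ren β κ fun a => f' (f a) := by
  funext v
  rcases v with v | p <;> simp [ren, Prod.map]

theorem aeval_sub_up [Fintype Λ'] (M : Λ → Λ' → ℤ) :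
    (fun v => aeval (sub β κ M) (up β κ Λ v)) = up β κ Λ' := by
  funext v
  simp [sub, up]

end labels

/-! ### the four roles -/

section roles

variable {Γ : Type} [AddCommGroup Γ]

/-- correct the entry `l` so that the quadruple becomes additive -/
def fill (l : Fin 4) (p : Fin 4 → Γ) (r : Fin 4) : Γ :=
  p r - if r = l then sg4 l • ∑ r', sg4 r' • p r' else 0

theorem fill_ne {l r : Fin 4} (h : r ≠ l) (p : Fin 4 → Γ) : fill l p r = p r := by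
  rw [fill, if_neg h, sub_zero]

theorem fill_add (l : Fin 4) (p : Fin 4 → Γ) :
    fill l p 0 + fill l p 1 = fill l p 2 + fill l p 3 := by
  fin_cases l <;> simp [fill, sg4, Fin.sum_univ_four] <;> abel

theorem eq_of_add {q p : Fin 4 → Γ} (hq : q 0 + q 1 = q 2 + q 3) (hp : p 0 + p 1 = p 2 + p 3)
    {l : Fin 4} (h : ∀ r, r ≠ l → q r = p r) (r : Fin 4) : q r = p r := by
  by_cases hr : r = l
  · subst hr
    fin_cases r
    · rw [h 1 (by decide), h 2 (by decide), h 3 (by decide), ← hp] at hq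
      exact add_right_cancel hq
    · rw [h 0 (by decide), h 2 (by decide), h 3 (by decide), ← hp] at hq
      exact add_left_cancel hq
    · rw [h 0 (by decide), h 1 (by decide), h 3 (by decide), hp] at hq
      exact (add_right_cancel hq).symm
    · rw [h 0 (by decide), h 1 (by decide), h 2 (by decide), hp] at hq
      exact (add_left_cancel hq).symm
  · exact h r hr

theorem sum_rol {q : Fin 4 → Γ} (hq : q 0 + q 1 = q 2 + q 3) (r : Fin 4) :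
    ∑ a, rol r a • q3 q a = q r := by
  fin_cases r <;> simp [rol, q3, Fin.sum_univ_three]
  rw [hq]; abel

theorem sum_abs_rol (r : Fin 4) : ∑ a, |(rol r a : ℝ)| ≤ 3 := by
  fin_cases r <;> simp [rol, Fin.sum_univ_three]
  norm_num

theorem sum_abs_fill {Λ : Type} [Fintype Λ] [DecidableEq Λ] (l : Fin 4) (t : Fin 4 → Λ)
    (r : Fin 4) : ∑ b, |((fill l (fun r => (Pi.single (t r) 1 : Λ → ℤ)) r b : ℤ) : ℝ)| ≤ 5 := by
  have h1 : ∀ c : Λ, ∑ b, |(((Pi.single c 1 : Λ → ℤ) b : ℤ) : ℝ)| = 1 := fun c => by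
    rw [sum_eq_single c (fun b _ hb => by simp [Pi.single_eq_of_ne hb]) (by simp)]
    simp
  have h2 : ∀ r, |(sg4 r : ℝ)| = 1 := fun r => by fin_cases r <;> simp [sg4]
  by_cases h : r = l
  · calc _ ≤ ∑ b, (|(((Pi.single (t r) 1 : Λ → ℤ) b : ℤ) : ℝ)| +
          ∑ r', |(((Pi.single (t r') 1 : Λ → ℤ) b : ℤ) : ℝ)|) := sum_le_sum fun b _ => by
          rw [fill, if_pos h]
          simp only [Pi.sub_apply, Pi.smul_apply, Finset.sum_apply, smul_eq_mul, Int.cast_sub,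
            Int.cast_mul, Int.cast_sum]
          refine (abs_sub _ _).trans (add_le_add_right ?_ _)
          rw [abs_mul, h2, one_mul]
          exact (abs_sum_le_sum_abs _ _).trans (le_of_eq (sum_congr rfl fun r' _ => by
            rw [abs_mul, h2, one_mul]))
      _ = 5 := by
          rw [sum_add_distrib, sum_comm]
          simp only [h1]
          norm_num
  · rw [fill_ne h, h1]; norm_num

theorem ot_ne (i : Fin 4) (a : Fin 3) : ot i a ≠ i := by revert i a; decide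

theorem ot_cases (i : Fin 4) (a : Fin 3) (j : Fin 4) (h : j ≠ i) (h' : j ≠ ot i a) :
    j = ot i (a + 1) ∨ (j ≠ ot i (a + 1) ∧ j = ot i (a + 2)) := by revert i a j; decide

end roles

/-! ### symbols of powers -/

section pw

variable {J : Type} [Fintype J] [DecidableEq J] {c : Cs σ}

theorem hm_pw {lev : σ → ℕ} {x : (pw g J).PS σ} :
    x ∈ Hm lev (pw g J) ↔ ∀ a, pr g _ a x ∈ Hm lev g :=
  ⟨fun h a k => h (a, k), fun h p => h p.1 p.2⟩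

theorem uo_pwS {U : J → Submodule ℝ g.L} {x : (pw g J).PS σ} :
    x ∈ Uo σ (pwS U) ↔ ∀ a, pr g _ a x ∈ Uo σ (U a) :=
  mem_cf_pwS (H := fun a _ => U a)

theorem smR_pr {x : (pw g J).PS σ} (h : SmR c (pw g J) m x) (a : J) :
    SmR c g m (pr g _ a x) := by
  obtain ⟨e, h1, h2, rfl⟩ := h
  exact ⟨pr g _ a e, hm_pw.1 h1 a, fun k => h2 (a, k), rfl⟩

theorem smR_tup {x : J → g.PS σ} (h : ∀ a, SmR c g m (x a)) : SmR c (pw g J) m (tup x) := by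
  choose e h1 h2 h3 using h
  exact ⟨tup e, hm_pw.2 h1, fun p => h2 p.1 p.2, pw_ext h3⟩

theorem rtR_pr {lev : σ → ℕ} {x : (pw g J).PS σ} (h : RtR lev (pw g J) m x) (a : J) :
    RtR lev g m (pr g _ a x) := by
  obtain ⟨h0, q, h1, h2, h3⟩ := h
  exact ⟨hm_pw.1 h0 a, q, h1, h2, ratP_pw.1 h3 a⟩

theorem rtR_tup {lev : σ → ℕ} {x : J → g.PS σ} (h : ∀ a, RtR lev g m (x a)) :
    RtR lev (pw g J) (Fintype.card J * m) (tup x) := by
  choose h0 q h1 h2 h3 using h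
  refine ⟨hm_pw.2 h0, ∏ a, q a, Nat.succ_le_of_lt (prod_pos fun a _ => h1 a), ?_,
    ratP_pw.2 fun a => (h3 a).of_dvd (dvd_prod_of_mem q (mem_univ a))⟩
  rw [Real.exp_nat_mul, ← card_univ, ← prod_const, Nat.cast_prod]
  exact prod_le_prod (fun _ _ => Nat.cast_nonneg _) fun a _ => h2 a

theorem gr_pwS {U : J → Submodule ℝ g.L} (h : ∀ a, GR g m (U a)) : GR (pw g J) m (pwS U) :=
  ⟨fun n x hx => mem_pwS.2 fun a => by
    have := (h a).gr.hp_mem n (mem_pwS.1 hx a)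
    rwa [← pr_tup (fun a => hp g n (pr g ℝ a x)) a, ← hp_tup] at this,
    ratS_pwS (Real.exp_pos m).le fun a => (h a).rat⟩

theorem lie_pwS {U U' U'' : J → Submodule ℝ g.L}
    (h : ∀ a, ∀ x ∈ U a, ∀ y ∈ U' a, ⁅x, y⁆ ∈ U'' a) :
    ∀ x ∈ pwS U, ∀ y ∈ pwS U', ⁅x, y⁆ ∈ pwS U'' := fun x hx y hy => mem_pwS.2 fun a => by
  rw [LieHom.map_lie]; exact h a _ (mem_pwS.1 hx a) _ (mem_pwS.1 hy a)

end pw

theorem uo_mono {U U' : Submodule ℝ g.L} (h : U ≤ U') {x : g.PS σ} (hx : x ∈ Uo σ U) :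
    x ∈ Uo σ U' := fun α => h (hx α)

theorem gr_sup {U W : Submodule ℝ g.L} (h : GR g m U) (h' : GR g m W) : GR g m (U ⊔ W) :=
  ⟨fun n x hx => by
    obtain ⟨u, hu, w, hw, rfl⟩ := Submodule.mem_sup.1 hx
    exact map_add (hp g n) u w ▸ Submodule.add_mem_sup (h.gr.hp_mem n hu) (h'.gr.hp_mem n hw),
    Gon.IsRat.sup h.rat h'.rat⟩

theorem lie_sup {U H N : Submodule ℝ g.L} (hU : ∀ x ∈ U, ∀ y ∈ U, ⁅x, y⁆ ∈ U) (hUH : U ≤ H)
    (hNH : N ≤ H) (hN : ∀ x ∈ H, ∀ y ∈ N, ⁅x, y⁆ ∈ N) :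
    ∀ x ∈ U ⊔ N, ∀ y ∈ U ⊔ N, ⁅x, y⁆ ∈ U ⊔ N := fun x hx y hy => by
  obtain ⟨u, hu, w, hw, rfl⟩ := Submodule.mem_sup.1 hx
  obtain ⟨u', hu', w', hw', rfl⟩ := Submodule.mem_sup.1 hy
  rw [lie_add, add_lie, add_assoc, ← lie_skew w u']
  exact Submodule.add_mem_sup (hU _ hu _ hu') (add_mem (neg_mem (hN _ (hUH hu') _ hw))
    (hN _ (add_mem (hUH hu) (hNH hw)) _ hw'))

theorem subst_uo (hC : ClosRStmt) (r : σ → Pl τ) {U : Submodule ℝ g.L} {x : g.PS σ}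
    (hx : x ∈ Uo σ U) : g.subst r x ∈ Uo τ U :=
  (hC.2.1 ι σ τ g U).1 (aeval r).toLinearMap x hx

theorem lie_uo (hC : ClosRStmt) {U U' U'' : Submodule ℝ g.L}
    (h : ∀ x ∈ U, ∀ y ∈ U', ⁅x, y⁆ ∈ U'') : ∀ x ∈ Uo σ U, ∀ y ∈ Uo σ U', ⁅x, y⁆ ∈ Uo σ U'' :=
  (hC.2.1 ι σ σ g U).2.1 U' U'' h

theorem star_hm (hC : ClosRStmt) (hg : Graded g) {lev : σ → ℕ} {x y : g.PS σ} (hx : x ∈ Hm lev g)
    (hy : y ∈ Hm lev g) : star S x y ∈ Hm lev g := ((hC.1 S ι σ g lev hg).1 x hx y hy).2.1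

theorem subst_hm (hC : ClosRStmt) (hg : Graded g) {lev : σ → ℕ} {lev' : τ → ℕ} {r : σ → Pl τ}
    (hr : ∀ v, IsWeightedHomogeneous lev' (r v) (lev v)) {x : g.PS σ} (hx : x ∈ Hm lev g) :
    g.subst r x ∈ Hm lev' g := (hC.1 0 ι σ g lev hg).2 τ lev' r hr x hx

theorem smR_hm (hC : ClosRStmt) (hg : Graded g) {c : Cs σ} {x : g.PS σ} (h : SmR c g m x) :
    x ∈ Hm c.lev g := by
  obtain ⟨e, h1, -, rfl⟩ := h
  exact subst_hm hC hg c.hom h1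

theorem near_hm (hC : ClosRStmt) (hg : Graded g) {c : Cs σ} {U : Submodule ℝ g.L} {x : g.PS σ}
    (h : NearR c g S m U x) : x ∈ Hm c.lev g := by
  obtain ⟨ε, y, γ, h1, h2, -, h4, rfl⟩ := h
  exact star_hm hC hg (smR_hm hC hg h1) (star_hm hC hg h2 h4.1)

/-- conjugation of an `N`-valued symbol by an `H`-valued one -/
theorem conj_mem (hC : ClosRStmt) (hg : Graded g) {lev : σ → ℕ} {H N : Submodule ℝ g.L}
    (hN : ∀ x ∈ H, ∀ y ∈ N, ⁅x, y⁆ ∈ N) {ε ν : g.PS σ} (h1 : ε ∈ Hm lev g) (h2 : ε ∈ Uo σ H)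
    (h3 : ν ∈ Hm lev g) (h4 : ν ∈ Uo σ N) :
    expAd S (-ε) ν ∈ Hm lev g ∧ expAd S (-ε) ν ∈ Uo σ N :=
  ⟨((hC.1 S ι σ g lev hg).1 _ (neg_mem h1) _ h3).2.2,
    Bch.adS_mem _ S _ (lie_uo hC hN _ (neg_mem h2)) h4⟩

/-! ### counting -/

section count

variable {Γ : Type} [AddCommGroup Γ]

theorem card_le_of_diam {ρ : Type} [Fintype ρ] {B : Finset (ρ → ℤ)} {L : ρ → ℕ} (h : Diam B L) :
    (#B : ℝ) ≤ ∏ i, (L i : ℝ) := by
  classical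
  rcases B.eq_empty_or_nonempty with rfl | hB
  · simpa using prod_nonneg fun i _ => Nat.cast_nonneg (L i)
  choose x hx hmin using fun i => B.exists_min_image (fun y => y i) hB
  have h1 : B ⊆ Fintype.piFinset fun i => Ico (x i i) (x i i + L i) := fun y hy =>
    Fintype.mem_piFinset.2 fun i => mem_Ico.2 ⟨hmin i y hy, by
      have := (abs_lt.1 (h.2 y hy _ (hx i) i)).2
      omega⟩
  have h2 := card_le_card h1
  rw [Fintype.card_piFinset] at h2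
  simp only [Int.card_Ico, add_sub_cancel_left, Int.toNat_natCast] at h2
  exact_mod_cast h2

omit [AddCommGroup Γ] in
theorem edge_mono {Q Q' : Finset (Fin 4 → Γ)} (hQ : Q' ⊆ Q) {G : (Fin 6 → Γ) → Prop} {i : Fin 4}
    {h h' : Γ} (he : Edge Q' G i h h') : Edge Q G i h h' := fun a => by
  obtain ⟨q, q', h1, h2⟩ := he a
  exact ⟨q, q', fun e => ⟨hQ (h1 e).1, hQ (h1 e).2.1, (h1 e).2.2⟩, h2⟩

/-- two jointly generic quadruples -/
theorem exists_gen {B : Finset Γ} {N M : ℝ} {Q : Finset (Fin 4 → Γ)}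
    {G : (Fin (3 + 3) → Γ) → Prop} (hN : 0 < N) (hQ : ∀ q ∈ Q, IsQ B q)
    (hd : Real.exp (-m) * N ^ 3 ≤ #Q) (hM : 2 * m < M) (hG : Most B N (Real.exp (-M)) G) :
    ∃ q ∈ Q, ∃ q' ∈ Q, G (Fin.append (q3 q) (q3 q')) := by
  classical
  by_contra hc
  push Not at hc
  have hinj : ∀ q ∈ Q, ∀ q' ∈ Q, q3 q = q3 q' → q = q' := fun q hq q' hq' h =>
    funext fun r => by rw [← sum_rol (hQ q hq).2, ← sum_rol (hQ q' hq').2, h]
  have h1 : #(Q ×ˢ Q) ≤ #{t ∈ Fintype.piFinset fun _ : Fin (3 + 3) => B | ¬ G t} := by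
    refine card_le_card_of_injOn (fun p => Fin.append (q3 p.1) (q3 p.2)) (fun p hp => ?_)
      fun p hp p' hp' e => ?_
    · obtain ⟨e1, e2⟩ := mem_product.1 hp
      refine mem_coe.2 (mem_filter.2 ⟨Fintype.mem_piFinset.2 fun j => ?_, hc _ e1 _ e2⟩)
      refine Fin.addCases (fun a => ?_) (fun a => ?_) j
      · simp only [Fin.append_left]; exact (hQ _ e1).1 _
      · simp only [Fin.append_right]; exact (hQ _ e2).1 _
    · obtain ⟨e1, e2⟩ := mem_product.1 hp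
      obtain ⟨e1', e2'⟩ := mem_product.1 hp'
      refine Prod.ext (hinj _ e1 _ e1' (funext fun a => ?_)) (hinj _ e2 _ e2' (funext fun a => ?_))
      · simpa only [Fin.append_left] using congrFun e (Fin.castAdd 3 a)
      · simpa only [Fin.append_right] using congrFun e (Fin.natAdd 3 a)
  have h2 : (#Q : ℝ) * #Q ≤ Real.exp (-M) * N ^ (3 + 3) := by
    refine le_trans ?_ hG
    rw [card_product] at h1
    convert Nat.cast_le (α := ℝ).2 h1 using 1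
    push_cast; rfl
  have h3 := mul_le_mul hd hd (by positivity) (Nat.cast_nonneg _)
  have h4 : Real.exp (-M) < Real.exp (-m) * Real.exp (-m) := by
    rw [← Real.exp_add]; exact Real.exp_lt_exp.2 (by linarith)
  have h5 := mul_lt_mul_of_pos_right h4 (pow_pos hN (3 + 3))
  rw [pow_add] at h2 h5
  nlinarith

theorem upw {a : ℝ} (ha : 2 ≤ a) {C : ℕ} (hC : 1 ≤ C) : 2 ≤ a ^ C ∧ a ≤ a ^ C :=
  ⟨two_le_pw ha hC, le_pw ha hC⟩

theorem four_le {a : ℝ} (ha : 2 ≤ a) : 4 * a ≤ a ^ 3 := by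
  have : 4 ≤ a ^ 2 := by nlinarith
  nlinarith

theorem dens_le {X Y m' : ℝ} (hX : 0 ≤ X) (hx : Real.exp (-m) * X ≤ Y) (h : m ≤ m') :
    Real.exp (-m') * X ≤ Y :=
  (mul_le_mul_of_nonneg_right (Real.exp_le_exp.2 (neg_le_neg h)) hX).trans hx

/-- the references of all four roles -/
theorem aux_all (hAux : AuxRStmt) : ∃ C : ℕ, 1 ≤ C ∧ ∀ (m : ℝ), 2 ≤ m → ∀ (Γ : Type)
    [AddCommGroup Γ] (B : Finset Γ) (N : ℝ) (Q : Finset (Fin 4 → Γ)) (G6 : (Fin 6 → Γ) → Prop)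
    (G4 : (Fin 4 → Γ) → Prop), 0 < N → (#B : ℝ) ≤ N → (∀ q ∈ Q, IsQ B q) →
    Real.exp (-m) * N ^ 3 ≤ #Q → Most B N (Real.exp (-m ^ C)) G6 →
    Most B N (Real.exp (-m ^ C)) G4 →
    ∃ Q' ⊆ Q, Real.exp (-m ^ C) * N ^ 3 ≤ #Q' ∧ ∀ i, ∃ (a : Γ) (b : Fin 2 → Γ),
      (∀ j, Edge Q G6 i a (b j)) ∧
      ∀ q ∈ Q', (∀ j, Edge Q G6 i (q i) (b j)) ∧ G4 ![q i, a, b 0, b 1] := by
  obtain ⟨C, hC, h⟩ := hAux
  refine ⟨C * C * C * C, Nat.succ_le_of_lt (by positivity), ?_⟩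
  intro m hm Γ _ B N Q G6 G4 hN hB hQ hd h6 h4
  simp only [pow_mul] at h6 h4 ⊢
  obtain ⟨b1, l1⟩ := upw hm hC
  obtain ⟨b2, l2⟩ := upw b1 hC
  obtain ⟨b3, l3⟩ := upw b2 hC
  obtain ⟨b4, l4⟩ := upw b3 hC
  have mo : ∀ {k : ℕ} {G : (Fin k → Γ) → Prop} {a : ℝ}, a ≤ (((m ^ C) ^ C) ^ C) ^ C →
      Most B N (Real.exp (-(((m ^ C) ^ C) ^ C) ^ C)) G → Most B N (Real.exp (-a)) G :=
    fun ha hG => hG.mono hN.le (Real.exp_le_exp.2 (neg_le_neg ha)) fun _ h => h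
  obtain ⟨a0, c0, Q0, s0, d0, e0, f0⟩ := h m hm Γ B N Q G6 G4 0 hN hB hQ hd
    (mo (by linarith) h6) (mo (by linarith) h4)
  obtain ⟨a1, c1, Q1, s1, d1, e1, f1⟩ := h _ b1 Γ B N Q0 G6 G4 1 hN hB (fun q hq => hQ q (s0 hq)) d0
    (mo (by linarith) h6) (mo (by linarith) h4)
  obtain ⟨a2, c2, Q2, s2, d2, e2, f2⟩ := h _ b2 Γ B N Q1 G6 G4 2 hN hB
    (fun q hq => hQ q (s0 (s1 hq))) d1 (mo (by linarith) h6) (mo (by linarith) h4)
  obtain ⟨a3, c3, Q3, s3, d3, e3, f3⟩ := h _ b3 Γ B N Q2 G6 G4 3 hN hB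
    (fun q hq => hQ q (s0 (s1 (s2 hq)))) d2 h6 h4
  have t1 := s1.trans s0
  have t2 := s2.trans t1
  refine ⟨Q3, s3.trans t2, d3, fun i => ?_⟩
  fin_cases i
  · exact ⟨a0, c0, e0, fun q hq => f0 q (s1 (s2 (s3 hq)))⟩
  · exact ⟨a1, c1, fun j => edge_mono s0 (e1 j), fun q hq =>
      (f1 q (s2 (s3 hq))).imp_left fun h j => edge_mono s0 (h j)⟩
  · exact ⟨a2, c2, fun j => edge_mono t1 (e2 j), fun q hq =>
      (f2 q (s3 hq)).imp_left fun h j => edge_mono t1 (h j)⟩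
  · exact ⟨a3, c3, fun j => edge_mono t2 (e3 j), fun q hq =>
      (f3 q hq).imp_left fun h j => edge_mono t2 (h j)⟩

end count

/-! ### transport between tuples of points -/

section transport

variable {β κ ρ : Type} [Fintype κ] [Fintype ρ] {𝓜 : Mk β κ ρ}

theorem nd_sub (hM : MkRStmt) {Λ Λ' : Type} {hh : Λ → ρ → ℤ} {hh' : Λ' → ρ → ℤ} (f : Λ → Λ')
    (hf : ∀ a, hh a = hh' (f a)) (hi : Function.Injective f) {Q Q' : ℝ}
    (h : (𝓜.cs hh').ND S Q) (hQ : Q' ≤ Q) : (𝓜.cs hh).ND S Q' :=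
  (((hM.1 β κ ρ Λ Λ' 𝓜 hh hh').2.1 f hf).2.2 hi S Q h).mono hQ

theorem mor_sub (hM : MkRStmt) {Λ Λ' : Type} [Fintype Λ'] {hh : Λ → ρ → ℤ} {hh' : Λ' → ρ → ℤ}
    (M : Λ → Λ' → ℤ) (h : ∀ a, hh a = ∑ b, M a b • hh' b) {K : ℝ} (hK : 1 ≤ K)
    (hM' : ∀ a, ∑ b, |(M a b : ℝ)| ≤ K) : Mor (𝓜.cs hh) (𝓜.cs hh') K (sub β κ M) :=
  ((hM.1 β κ ρ Λ Λ' 𝓜 hh hh').1 M h).2 K hK hM'

theorem mor_up (hM : MkRStmt) {Λ : Type} (hh : Λ → ρ → ℤ) : Mor 𝓜.c0 (𝓜.cs hh) 1 (up β κ Λ) :=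
  (hM.1 β κ ρ Λ Λ 𝓜 hh hh).2.2.2.1

theorem nd_base (hM : MkRStmt) {Λ : Type} {hh : Λ → ρ → ℤ} {Q : ℝ} (h : (𝓜.cs hh).ND S Q) :
    𝓜.c0.ND S Q := (hM.1 β κ ρ Λ Λ 𝓜 hh hh).2.2.2.2 S Q h

theorem nd_six (hM : MkRStmt) {a b c d e f : ρ → ℤ} {Q : ℝ}
    (h : (𝓜.cs ![a, b, c, d, e, f]).ND S Q) :
    (𝓜.cs (Sum.elim ![a, b] (Sum.elim ![c, d] ![e, f]))).ND S Q :=
  nd_sub hM (Sum.elim ![0, 1] (Sum.elim ![2, 3] ![4, 5]) : Fin 2 ⊕ Fin 2 ⊕ Fin 2 → Fin 6)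
    (by rintro (b | b | b) <;> fin_cases b <;> rfl) (by decide) h le_rfl

theorem nd_left (hM : MkRStmt) {I J : Type} {hI : I → ρ → ℤ} {hJ : J → ρ → ℤ} {Q : ℝ}
    (h : (𝓜.cs (Sum.elim hI hJ)).ND S Q) : (𝓜.cs hI).ND S Q :=
  nd_sub (hh' := Sum.elim hI hJ) hM Sum.inl (fun _ => rfl) Sum.inl_injective h le_rfl

theorem nd_right (hM : MkRStmt) {I J : Type} {hI : I → ρ → ℤ} {hJ : J → ρ → ℤ} {Q : ℝ}
    (h : (𝓜.cs (Sum.elim hI hJ)).ND S Q) : (𝓜.cs hJ).ND S Q :=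
  nd_sub (hh' := Sum.elim hI hJ) hM Sum.inr (fun _ => rfl) Sum.inr_injective h le_rfl

theorem nd_three (hM : MkRStmt) {a b c d : ρ → ℤ} {Q : ℝ} (h : (𝓜.cs ![a, b, c, d]).ND S Q) :
    (𝓜.cs ![a, c, d]).ND S Q :=
  nd_sub hM (![0, 2, 3] : Fin 3 → Fin 4) (by intro b; fin_cases b <;> rfl) (by decide) h le_rfl

theorem nd_append (hM : MkRStmt) {u v : Fin 3 → ρ → ℤ} {Q : ℝ}
    (h : (𝓜.cs (Fin.append u v)).ND S Q) : (𝓜.cs (Sum.elim u v)).ND S Q :=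
  nd_sub hM finSumFinEquiv (by
    rintro (b | b)
    · exact (Fin.append_left u v b).symm
    · exact (Fin.append_right u v b).symm) finSumFinEquiv.injective h le_rfl

theorem nd_links (hM : MkRStmt) {I J : Type} {hI : I → ρ → ℤ} {hJ : Fin 2 → J → ρ → ℤ} {Q : ℝ}
    (h : (𝓜.cs (Sum.elim hI (Sum.elim (hJ 0) (hJ 1)))).ND S Q) (e : Fin 2) :
    (𝓜.cs (Sum.elim hI (hJ e))).ND S Q := by
  revert e
  refine Fin.forall_fin_two.2 ⟨nd_sub hM (Sum.map id Sum.inl) ?_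
    (Function.injective_id.sumMap Sum.inl_injective) h le_rfl, nd_sub hM (Sum.map id Sum.inr) ?_
    (Function.injective_id.sumMap Sum.inr_injective) h le_rfl⟩ <;> rintro (b | b) <;> rfl

/-- a quadruple seen above any tuple that contains three of its points -/
theorem transport (hM : MkRStmt) {Λ : Type} [Fintype Λ] [DecidableEq Λ] {hh : Λ → ρ → ℤ}
    {q : Fin 4 → ρ → ℤ} (hq : q 0 + q 1 = q 2 + q 3) (l : Fin 4) (t : Fin 4 → Λ)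
    (ht : ∀ r, r ≠ l → q r = hh (t r)) :
    ∃ M : Fin 3 → Λ → ℤ, Mor (𝓜.cs (q3 q)) (𝓜.cs hh) 5 (sub β κ M) ∧
      ∀ (x : (ρ → ℤ) → g.PS (V β κ Unit)) (r : Fin 4), r ≠ l →
        pr g _ r ((pw g (Fin 4)).subst (sub β κ M) (qt g (fun _ => x) q)) =
          at' g (t r) (x (q r)) := by
  set v := fill l fun r => (Pi.single (t r) 1 : Λ → ℤ) with hv
  have hv1 : ∀ r, r ≠ l → v r = Pi.single (t r) 1 := fun r hr => fill_ne hr _
  refine ⟨q3 v, mor_sub hM _ (fun a => ?_) (by norm_num) fun a => sum_abs_fill l t _,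
    fun x r hr => ?_⟩
  · refine eq_of_add (p := fun r => ∑ b, v r b • hh b) hq ?_ (l := l) (fun r hr => ?_) _
    · simp only [← sum_add_distrib, ← add_smul]
      exact sum_congr rfl fun b _ => congrArg (· • hh b) (congrFun (fill_add l fun r => (Pi.single (t r) 1 : Λ → ℤ)) b)
    · rw [ht r hr, hv1 r hr, sum_eq_single (t r)
        (fun b _ hb => by simp [Pi.single_eq_of_ne hb]) (by simp)]
      simp
  · change g.subst _ (g.subst (sub β κ fun _ => rol r) (x (q r))) = _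
    rw [subst_subst, aeval_sub_sub, sum_rol (fill_add l _), fill_ne hr]
    exact congrArg (fun s => g.subst s (x (q r))) (sub_single fun _ : Unit => t r)

end transport

/-- an edge gives a pair that is congruent modulo `pN3` -/
theorem edge_pr2 (hC : ClosRStmt) (hPull : PullRStmt) (hPet : Petal3Stmt) (hG : GourRStmt)
    (hM : MkRStmt) (S : ℕ) : ∃ C : ℕ, 1 ≤ C ∧ ∀ (m M : ℝ), 2 ≤ m → m ^ C ≤ M →
    ∀ (ι β κ ρ : Type) [Fintype ι] [Fintype κ] [Fintype ρ] (𝓜 : Mk β κ ρ) (g : ND ι) (η : ι → ℤ)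
    (𝔥 : LieSubalgebra ℝ (pw g (Fin 4)).L) (Q : Finset (Fin 4 → ρ → ℤ))
    (x : (ρ → ℤ) → g.PS (V β κ Unit)), Gd g S m → GR (pw g (Fin 4)) m 𝔥.toSubmodule →
    (∀ z ∈ 𝔥, (pw g (Fin 4)).fn (pwη sg4 η) z = 0) →
    (∀ q ∈ Q, q 0 + q 1 = q 2 + q 3 ∧
      NearR (𝓜.cs (q3 q)) (pw g (Fin 4)) S m 𝔥.toSubmodule (qt g (fun _ => x) q)) →
    ∀ i h h', Edge Q (fun t => (𝓜.cs t).ND S (Real.exp M)) i h h' →
      Pr2 𝓜 g S (m ^ C) (p2 (pH 𝔥 i).toSubmodule (pN3 𝔥 i)) x h h' := by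
  obtain ⟨Cc, hCc, hClos⟩ := hC.2.2 S
  obtain ⟨Cg, hCg, hGour⟩ := hG S
  obtain ⟨Cp, hCp, hPet⟩ := hPet
  obtain ⟨Cm, hCm, hLR⟩ := hM.2 S
  obtain ⟨Cl, hCl, hPull⟩ := hPull S
  refine ⟨3 * Cc * Cg * Cp * Cm * Cl, Nat.succ_le_of_lt (by positivity), ?_⟩
  intro m M hm hMm ι β κ ρ _ _ _ 𝓜 g η 𝔥 Q x hg h𝔥 hη hQ i h h' he
  simp only [pow_mul] at hMm ⊢
  obtain ⟨b0, l0⟩ := upw hm (by norm_num : 1 ≤ 3)
  have l0' := four_le hm
  generalize m ^ 3 = a0 at *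
  obtain ⟨b1, l1⟩ := upw b0 hCc
  have hClos := hClos a0 b0
  generalize a0 ^ Cc = a1 at *
  obtain ⟨b2, l2⟩ := upw b1 hCg
  have hGour := hGour a1 b1
  generalize a1 ^ Cg = a2 at *
  obtain ⟨b3, l3⟩ := upw b2 hCp
  have hPet := (hPet a2 b2 ι g η 𝔥 (hg.dim.trans (by linarith)) (gr_mono h𝔥 (by linarith)) hη).2.1 i
  generalize a2 ^ Cp = a3 at *
  obtain ⟨b4, l4⟩ := upw b3 hCm
  have hLR := hLR a3 b3
  generalize a3 ^ Cm = a4 at *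
  obtain ⟨b5, l5⟩ := upw b4 hCl
  have hPull := hPull a4 b4
  generalize a4 ^ Cl = a5 at *
  have hG4 : Gd (pw g (Fin 4)) S a0 := hg.pw _ l0 (by simpa using l0')
  have hG2 : Gd (pw g (Fin 2)) S a0 := hg.pw _ l0 (by simp; linarith)
  have h5 : (5 : ℝ) ≤ Real.exp a0 := le_trans (by linarith) (Real.add_one_le_exp a0)
  have key : ∀ a : Fin 3, (𝓜.cs ![h, h']).ND S (Real.exp M) ∧
      Pr2 𝓜 g S a3 (p2 (pH 𝔥 i).toSubmodule (pA 𝔥 i (ot i a))) x h h' := fun a => by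
    obtain ⟨q, q', hq, hnd⟩ := he a
    let hJ : Fin 2 → Fin 2 → ρ → ℤ := fun e => ![q e (ot i (a + 1)), q e (ot i (a + 2))]
    have hnd' : (𝓜.cs (Sum.elim ![h, h'] (Sum.elim (hJ 0) (hJ 1)))).ND S (Real.exp M) :=
      nd_six hM hnd
    have hnd2 : ∀ e, (𝓜.cs (Sum.elim ![h, h'] (hJ e))).ND S (Real.exp a2) := fun e =>
      (nd_links hM hnd' e).mono (ex_mono (by linarith))
    have hnear : ∀ e, NearR (𝓜.cs (Sum.elim ![h, h'] (hJ e))) (pw g (Fin 2)) S a3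
        (p2 (pH 𝔥 i).toSubmodule (pA 𝔥 i (ot i a))) ((pw g (Fin 2)).subst (ren β κ Sum.inl)
          (tup ![at' g 0 (x h), at' g 1 (x h')])) := fun e => by
      obtain ⟨e1, e2, e3, e4, e5, e6⟩ := hq e
      let t : Fin 2 → Fin 4 → Fin 2 ⊕ Fin 2 := fun u r =>
        if r = i then .inl u else if r = ot i (a + 1) then .inr 0 else .inr 1
      have ht : ∀ (u : Fin 2) (p : Fin 4 → ρ → ℤ), p i = ![h, h'] u →
          p (ot i (a + 1)) = q e (ot i (a + 1)) → p (ot i (a + 2)) = q e (ot i (a + 2)) →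
          ∀ r, r ≠ ot i a → p r = Sum.elim ![h, h'] (hJ e) (t u r) := fun u p p1 p2 p3 r hr => by
        by_cases hi : r = i
        · simp only [t, if_pos hi]; rw [hi]; exact p1
        · rcases ot_cases i a r hi hr with h1 | ⟨h1, h2⟩
          · simp only [t, if_neg hi, if_pos h1]; rw [h1]; exact p2
          · simp only [t, if_neg hi, if_neg h1]; rw [h2]; exact p3
      obtain ⟨M1, m1, p1⟩ := transport (g := g) (𝓜 := 𝓜) hM (hQ _ e1).1 _ _ (ht 0 _ e3 rfl rfl)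
      obtain ⟨M2, m2, p2⟩ := transport (g := g) (𝓜 := 𝓜) hM (hQ _ e2).1 _ _
        (ht 1 _ e4 e5.symm e6.symm)
      have n1 := ((hClos _ _ _ _ hG4).2.2.2 _ _ _ (m1.mono h5)).2.2.2 _ _
        ((hQ _ e1).2.mono l0 le_rfl)
      have n2 := ((hClos _ _ _ _ hG4).2.2.2 _ _ _ (m2.mono h5)).2.2.2 _ _
        ((hQ _ e2).2.mono l0 le_rfl)
      have := (hGour ι _ g _ (gd_mono hg (by linarith)) (hnd2 e)).1 𝔥 i (ot i a) _ _
        (gr_mono h𝔥 (by linarith)) n1 n2 fun j j1 j2 => by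
          rw [p1 x j j2, p2 x j j2, ht 0 _ e3 rfl rfl j j2, ht 1 _ e4 e5.symm e6.symm j j2]
          simp only [t, if_neg j1]
      rw [p1 x i (ot_ne i a).symm, p2 x i (ot_ne i a).symm, e3, e4] at this
      convert this.mono l3 le_rfl using 1
      refine pw_ext (Fin.forall_fin_two.2 ⟨?_, ?_⟩)
      · change g.subst _ (g.subst _ _) = at' g (t 0 i) (x h)
        rw [subst_subst, aeval_ren_ren]; simp only [t, if_pos]
      · change g.subst _ (g.subst _ _) = at' g (t 1 i) (x h')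
        rw [subst_subst, aeval_ren_ren]; simp only [t, if_pos]
    exact ⟨nd_left hM hnd',
      (hLR _ β κ ρ (Fin 2) (Fin 2) _ 𝓜 _ (hJ 0) (hJ 1) (gd_mono hG2 (by linarith)) (hPet a)).1 _ _
        (hnd'.mono (ex_mono (by linarith))) (hnear 0) (hnear 1)⟩
  refine (hPull _ _ (Fin 3) _ _ _ _ (fun _ => LieHom.id) _ _ (gd_mono hG2 (by linarith))
    (gd_mono hG2 (by linarith)) (by simp; linarith) ((key 0).1.mono (ex_mono hMm))
    (fun _ => gMap_id (by linarith)) (fun a => (hPet a).mono l4) (near_hm hC hG2.gr (key 0).2)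
    fun a => ?_).mono le_rfl fun z hz => ?_
  · rw [St.bc_id]; exact (key a).2.mono l4 le_rfl
  · have h1 := (Submodule.mem_iInf _).1 hz
    exact ⟨(h1 0).1, (Submodule.mem_iInf _).2 fun a => (h1 a).2⟩

/-- assembling the four normal forms above a quadruple -/
theorem near_of_cg (hC : ClosRStmt) (hM : MkRStmt) (S : ℕ) : ∃ C : ℕ, 1 ≤ C ∧ ∀ (m : ℝ), 2 ≤ m →
    ∀ (ι β κ ρ : Type) [Fintype ι] [Fintype κ] [Fintype ρ] (𝓜 : Mk β κ ρ) (g : ND ι)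
    (U : Submodule ℝ (pw g (Fin 4)).L) (q : Fin 4 → ρ → ℤ) (x : (ρ → ℤ) → g.PS (V β κ Unit))
    (ν : Fin 4 → (ρ → ℤ) → g.PS (V β κ Unit)) (y : (pw g (Fin 4)).PS β), Gd g S m →
    q 0 + q 1 = q 2 + q 3 →
    (∀ i, Cg (𝓜.cs fun _ : Unit => q i) g S m (ν i (q i))
      (g.subst (up β κ Unit) (pr g _ i y)) (x (q i))) →
    NearR (𝓜.cs (q3 q)) (pw g (Fin 4)) S m U (qt g (fun _ => x) q) →
    NearR (𝓜.cs (q3 q)) (pw g (Fin 4)) S (m ^ C) U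
      (star S (qt g ν q) ((pw g (Fin 4)).subst (up β κ (Fin 3)) y)) := by
  obtain ⟨Cc, hCc, hClos⟩ := hC.2.2 S
  refine ⟨Cc * 3 * Cc, Nat.succ_le_of_lt (by positivity), ?_⟩
  intro m hm ι β κ ρ _ _ _ 𝓜 g U q x ν y hg hq hcg hn
  simp only [pow_mul]
  obtain ⟨b1, l1⟩ := upw hm hCc
  have hClos1 := hClos m hm
  generalize m ^ Cc = a1 at *
  obtain ⟨b2, l2⟩ := upw b1 (by norm_num : 1 ≤ 3)
  have l2' := four_le b1
  generalize a1 ^ 3 = a2 at *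
  have hG4 : Gd (pw g (Fin 4)) S a2 := hg.pw _ (by linarith) (by simp; linarith)
  choose ε γ hε hγ e using hcg
  have hmor : ∀ i, Mor (𝓜.cs fun _ : Unit => q i) (𝓜.cs (q3 q)) (Real.exp m) (rs β κ i) :=
    fun i => (mor_sub hM _ (fun _ => (sum_rol hq i).symm) (by norm_num)
      fun _ => sum_abs_rol i).mono (le_trans (by linarith) (Real.add_one_le_exp m))
  have h1 := fun i => (hClos1 _ _ g _ hg).2.2.2 _ _ _ (hmor i)
  refine ((hClos a2 b2 _ _ _ _ hG4).2.2.1 U (tup fun i => g.subst (rs β κ i) (ε i)) _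
    (tup fun i => g.subst (rs β κ i) (γ i)) ((smR_tup fun i => (h1 i).1 _ (hε i)).mono l2)
    ((rtR_tup fun i => (h1 i).2.2.1 _ (hγ i)).mono (by simp; linarith))).2 ?_
  convert hn.mono (l1.trans l2) le_rfl using 1
  refine pw_ext fun i => ?_
  simp only [Bch.map_star, qt, pr_tup]
  rw [e i]
  simp only [Bch.map_star]
  rw [subst_subst, rs, aeval_sub_up]
  rfl

/-- the unmarked classes, role by role -/
theorem nu_roles (hC : ClosRStmt) (hPull : PullRStmt) (hPet : Petal3Stmt) (hG : GourRStmt)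
    (hM : MkRStmt) (hGrid : GridStmt) (hAux : AuxRStmt) (S : ℕ) :
    ∃ C : ℕ, 1 ≤ C ∧ ∀ (m M : ℝ), 2 ≤ m → m ^ C ≤ M → ∀ (ι β κ ρ : Type) [Fintype ι]
    [Fintype β] [Fintype κ] [Fintype ρ] (𝓜 : Mk β κ ρ) (g : ND ι) (η : ι → ℤ)
    (𝔥 : LieSubalgebra ℝ (pw g (Fin 4)).L) (L : ρ → ℕ) (B : Finset (ρ → ℤ))
    (Q : Finset (Fin 4 → ρ → ℤ)) (x : (ρ → ℤ) → g.PS (V β κ Unit)),
    Setup 𝓜 g S m M η 𝔥 L B Q →
    (∀ q ∈ Q, NearR (𝓜.cs (q3 q)) (pw g (Fin 4)) S m 𝔥.toSubmodule (qt g (fun _ => x) q)) →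
    ∃ Q' ⊆ Q, Real.exp (-m ^ C) * (∏ i, (L i : ℝ)) ^ 3 ≤ #Q' ∧
      (∃ q₀ ∈ Q', ∃ q₁ ∈ Q', (𝓜.cs (Sum.elim (q3 q₀) (q3 q₁))).ND S (Real.exp M)) ∧
      (∀ i, Tri g (m ^ C) η (pH 𝔥 i) (pN3 𝔥 i) (pK 𝔥 i)) ∧
      ∃ (y : Fin 4 → g.PS β) (ν : Fin 4 → (ρ → ℤ) → g.PS (V β κ Unit)),
        (∀ i, y i ∈ Uo β (pH 𝔥 i).toSubmodule) ∧ (∀ i h, ν i h ∈ Hm (𝓜.lev Unit) g) ∧
        (∀ i h, ν i h ∈ Uo _ (pN3 𝔥 i)) ∧ ∀ q ∈ Q', ∀ i, Cg (𝓜.cs fun _ : Unit => q i) g S (m ^ C)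
          (ν i (q i)) (g.subst (up β κ Unit) (y i)) (x (q i)) := by
  obtain ⟨Ca, hCa, hAux⟩ := aux_all hAux
  obtain ⟨Ce, hCe, hE⟩ := edge_pr2 hC hPull hPet hG hM S
  obtain ⟨Cp, hCp, hPet⟩ := hPet
  obtain ⟨Cd, hCd, hGrid⟩ := hGrid S
  refine ⟨Ca * 3 * Ce * Cp * Cd, Nat.succ_le_of_lt (by positivity), ?_⟩
  intro m M hm hMm ι β κ ρ _ _ _ _ 𝓜 g η 𝔥 L B Q x hS hN
  simp only [pow_mul] at hMm ⊢
  obtain ⟨b0, l0⟩ := upw hm hCa
  have hAux := hAux m hm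
  generalize m ^ Ca = a0 at *
  obtain ⟨b1, l1⟩ := upw b0 (by norm_num : 1 ≤ 3)
  have l1' := four_le b0
  generalize a0 ^ 3 = a1 at *
  obtain ⟨b2, l2⟩ := upw b1 hCe
  have hE := hE a1 M b1
  generalize a1 ^ Ce = a2 at *
  obtain ⟨b3, l3⟩ := upw b2 hCp
  have hPet := (hPet a2 b2 ι g η 𝔥 (hS.gd.dim.trans (by linarith)) (gr_mono hS.gr (by linarith))
    hS.kill).1
  generalize a2 ^ Cp = a3 at *
  obtain ⟨b4, l4⟩ := upw b3 hCd
  have hGrid := hGrid a3 b3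
  generalize a3 ^ Cd = a4 at *
  have hg := hS.gd
  have hL : 0 < ∏ i, (L i : ℝ) := prod_pos fun i _ => by exact_mod_cast hS.diam.1 i
  have hgen : ∀ k, k ≤ 6 → Most B (∏ i, (L i : ℝ)) (Real.exp (-a0))
      fun t : Fin k → ρ → ℤ => (𝓜.cs t).ND S (Real.exp M) := fun k hk =>
    (hS.gen k hk).mono hL.le (Real.exp_le_exp.2 (by linarith)) fun _ h => h
  obtain ⟨Q', hQ', hd, hab⟩ := hAux _ B _ Q _ _ hL (card_le_of_diam hS.diam) hS.quad hS.dense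
    (hgen 6 le_rfl) (hgen 4 (by norm_num))
  choose a b hab hqb using hab
  obtain ⟨q₀, hq₀, q₁, hq₁, hnd⟩ := exists_gen hL (fun q hq => hS.quad q (hQ' hq)) hd
    (by linarith : 2 * a0 < M) (hS.gen (3 + 3) le_rfl)
  have hE := fun i h h' he => (hE (by linarith) ι β κ ρ 𝓜 g η 𝔥 Q x (gd_mono hg (by linarith))
    (gr_mono hS.gr (by linarith)) hS.kill
    (fun q hq => ⟨(hS.quad q hq).2, (hN q hq).mono (by linarith) le_rfl⟩) i h h' he).mono l3 le_rfl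
  have hy := fun i => hGrid ι β κ ρ g 𝓜 (pH 𝔥 i).toSubmodule (pN3 𝔥 i) x ![q₀ i, a i] (b i)
    (gd_mono hg (by linarith)) ⟨(hPet i).grH, fun _ h _ h' => (pH 𝔥 i).lie_mem h h'⟩ (hPet i).grN
    (hPet i).NH (hPet i).lieN ((hqb i q₀ hq₀).2.mono (ex_mono hMm))
    (Fin.forall_fin_two.2 ⟨fun j => hE i _ _ ((hqb i q₀ hq₀).1 j), fun j => hE i _ _ (hab i j)⟩)
  choose y hy1 hy2 hy3 using hy
  have hν : ∀ i h, ∃ ν ∈ Hm (𝓜.lev Unit) g, ν ∈ Uo _ (pN3 𝔥 i) ∧ ((∃ q ∈ Q', q i = h) →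
      Cg (𝓜.cs fun _ : Unit => h) g S a4 ν (g.subst (up β κ Unit) (y i)) (x h)) := fun i h => by
    by_cases hh : ∃ q ∈ Q', q i = h
    · obtain ⟨q, hq, rfl⟩ := hh
      obtain ⟨ν, h1, h2, h3⟩ := hy3 i (q i) ((nd_three hM (hqb i q hq).2).mono (ex_mono hMm))
        fun j => hE i _ _ ((hqb i q hq).1 j)
      exact ⟨ν, h1, h2, fun _ => h3⟩
    · exact ⟨0, zero_mem _, zero_mem _, fun h' => absurd h' hh⟩
  choose ν hν1 hν2 hν3 using hν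
  exact ⟨Q', hQ', dens_le (by positivity) hd (by linarith), ⟨q₀, hq₀, q₁, hq₁, nd_append hM hnd⟩,
    fun i => (hPet i).mono l4, y, ν, hy2, hν1, hν2, fun q hq i => hν3 i _ ⟨q, hq, rfl⟩⟩

theorem star_move {L : Type*} [LieRing L] [LieAlgebra ℝ L] [Bch.Nil S L] (ε ν e n y c γ : L) :
    star S ε (star S (star S ν (star S e (star S (star S n y) c))) γ) =
      star S (star S ε e) (star S (star S (star S (expAd S (-e) ν) n) y) (star S c γ)) := by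
  simp only [Bch.star_assoc]
  rw [← Bch.star_assoc S ν e, Bch.star_eq_star_Ad S ν e, Bch.star_assoc, Bch.Ad_eq]

theorem star_left {L : Type*} [LieRing L] [LieAlgebra ℝ L] [Bch.Nil S L] {n y ε w γ : L}
    (h : star S n y = star S ε (star S w γ)) :
    y = star S ε (star S (star S (expAd S (-ε) (-n)) w) γ) := by
  rw [← Bch.Ad_eq, Bch.star_assoc, ← Bch.star_assoc S ε, ← Bch.star_eq_star_Ad, Bch.star_assoc,
    ← h, Bch.neg_star_star]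

theorem near_sup (hC : ClosRStmt) {c : Cs σ} {U H N : Submodule ℝ g.L} (hg : Gd g S m)
    (lU : ∀ x ∈ U, ∀ y ∈ U, ⁅x, y⁆ ∈ U) (lH : ∀ x ∈ H, ∀ y ∈ H, ⁅x, y⁆ ∈ H)
    (lN : ∀ x ∈ H, ∀ y ∈ N, ⁅x, y⁆ ∈ N) (s1 : U ≤ H) (s2 : N ≤ H)
    (hU : ∀ y ε γ : g.PS σ, y ∈ Hm c.lev g → y ∈ Uo σ H → SmR c g m ε → RtR c.lev g m γ →
      star S ε (star S y γ) ∈ Uo σ H → ε ∈ Uo σ H ∧ γ ∈ Uo σ H) {n y : g.PS σ}
    (n1 : n ∈ Hm c.lev g) (n2 : n ∈ Uo σ N) (hy : y ∈ Uo σ H)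
    (h : NearR c g S m U (star S n y)) : NearR c g S m (U ⊔ N) y := by
  have := ND.nil hg.wt_le (Pl σ)
  obtain ⟨ε, w, γ, h1, h2, h3, h4, h5⟩ := h
  have e1 := (hU w ε γ h2 (uo_mono s1 h3) h1 h4
    (h5 ▸ St.star_mem S _ (lie_uo hC lH) (uo_mono s2 n2) hy)).1
  obtain ⟨c1, c2⟩ := conj_mem (S := S) hC hg.gr lN (smR_hm hC hg.gr h1) e1 (neg_mem n1)
    (neg_mem n2)
  exact ⟨ε, _, γ, h1, star_hm hC hg.gr c1 h2, St.star_mem S _ (lie_uo hC (lie_sup lU s1 s2 lN))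
    (uo_mono le_sup_right c2) (uo_mono le_sup_left h3), h4, star_left h5⟩

theorem qt_hm (hC : ClosRStmt) (hM : MkRStmt) {β κ ρ : Type} [Fintype κ] [Fintype ρ]
    {𝓜 : Mk β κ ρ} (hg : Graded g) {ν : Fin 4 → (ρ → ℤ) → g.PS (V β κ Unit)} {q : Fin 4 → ρ → ℤ}
    (hq : q 0 + q 1 = q 2 + q 3) (h : ∀ i, ν i (q i) ∈ Hm (𝓜.lev Unit) g) :
    qt g ν q ∈ Hm (𝓜.cs (q3 q)).lev (pw g (Fin 4)) := hm_pw.2 fun i => by
  have h1 : Mor (𝓜.cs fun _ : Unit => q i) (𝓜.cs (q3 q)) 3 (rs β κ i) :=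
    mor_sub hM _ (fun _ => (sum_rol hq i).symm) (by norm_num) fun _ => sum_abs_rol i
  exact subst_hm hC hg h1.hom (h i)

end Nu73

open Nu73 in
theorem nuStmt (hC : ClosRStmt) (hP : PushRStmt) (hU : UniqRStmt) (hPull : PullRStmt)
    (hPet : Petal3Stmt) (hG : GourRStmt) (hM : MkRStmt) (hGrid : GridStmt) (hAux : AuxRStmt) :
    NuStmt := by
  intro S
  obtain ⟨Cr, hCr, hR⟩ := nu_roles hC hPull hPet hG hM hGrid hAux S
  obtain ⟨Cn, hCn, hNc⟩ := near_of_cg hC hM S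
  obtain ⟨Cu, hCu, hU⟩ := hU S
  obtain ⟨Cm, hCm, hLR⟩ := hM.2 S
  obtain ⟨Cq, hCq, hP⟩ := hP
  obtain ⟨Cc, hCc, hClos⟩ := hC.2.2 S
  refine ⟨Cr * 3 * Cn * Cu * Cm * Cc * Cc * Cn, Nat.succ_le_of_lt (by positivity), ?_⟩
  intro m M hm hMm ι β κ ρ _ _ _ _ 𝓜 g η 𝔥 L B Q x hS hN
  simp only [pow_mul] at hMm ⊢
  obtain ⟨b0, l0⟩ := upw hm hCr
  have hR := hR m M hm
  generalize m ^ Cr = a0 at *
  obtain ⟨b1, l1⟩ := upw b0 (by norm_num : 1 ≤ 3)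
  have l1' := four_le b0
  generalize a0 ^ 3 = a1 at *
  obtain ⟨b2, l2⟩ := upw b1 hCn
  have hNc1 := hNc a1 b1
  generalize a1 ^ Cn = a2 at *
  obtain ⟨b3, l3⟩ := upw b2 hCu
  have hU := hU a2 b2
  have hLR := hLR a2 b2
  have l4' := pow_le_pow_left₀ (by linarith) l3 Cm
  generalize a2 ^ Cm = a4' at *
  generalize a2 ^ Cu = a3 at *
  obtain ⟨b4, l4⟩ := upw b3 hCm
  generalize a3 ^ Cm = a4 at *
  obtain ⟨b5, l5⟩ := upw b4 hCc
  have hClos4 := hClos a4 b4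
  generalize a4 ^ Cc = a5 at *
  obtain ⟨b6, l6⟩ := upw b5 hCc
  have hClos5 := hClos a5 b5
  generalize a5 ^ Cc = a6 at *
  obtain ⟨b7, l7⟩ := upw b6 hCn
  have hNc6 := hNc a6 b6
  generalize a6 ^ Cn = a7 at *
  have hg := hS.gd
  have hG4 : Gd (pw g (Fin 4)) S a2 := hg.pw _ (by linarith) (by simp; linarith)
  obtain ⟨Q', hQ', hd, ⟨q₀, hq₀, q₁, hq₁, hnd⟩, hT, y, ν, hy, hν1, hν2, hν3⟩ :=
    hR (by linarith) ι β κ ρ 𝓜 g η 𝔥 L B Q x hS hN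
  have M3 := ex_mono (by linarith : a3 ≤ M)
  obtain ⟨H4, hH4⟩ : ∃ H4, H4 = pwS fun i => (pH 𝔥 i).toSubmodule := ⟨_, rfl⟩
  obtain ⟨N4, hN4⟩ : ∃ N4, N4 = pwS (pN3 𝔥) := ⟨_, rfl⟩
  have uH : ∀ {σ : Type} {z : (pw g (Fin 4)).PS σ}, z ∈ Uo σ H4 ↔
      ∀ i, pr g _ i z ∈ Uo σ (pH 𝔥 i).toSubmodule := by rw [hH4]; exact uo_pwS
  have uN : ∀ {σ : Type} {z : (pw g (Fin 4)).PS σ}, z ∈ Uo σ N4 ↔
      ∀ i, pr g _ i z ∈ Uo σ (pN3 𝔥 i) := by rw [hN4]; exact uo_pwS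
  have lHH : ∀ x ∈ H4, ∀ y ∈ H4, ⁅x, y⁆ ∈ H4 :=
    hH4 ▸ lie_pwS fun i _ h _ h' => (pH 𝔥 i).lie_mem h h'
  have lHN : ∀ x ∈ H4, ∀ y ∈ N4, ⁅x, y⁆ ∈ N4 := by
    rw [hH4, hN4]; exact lie_pwS fun i => (hT i).lieN
  have s1 : 𝔥.toSubmodule ≤ H4 := hH4 ▸ fun z hz => mem_pwS.2 fun i => ⟨z, hz, rfl⟩
  have s2 : N4 ≤ H4 := by
    rw [hH4, hN4]; exact fun z hz => mem_pwS.2 fun i => (hT i).NH (mem_pwS.1 hz i)
  have gH : GR _ a2 H4 := hH4 ▸ gr_mono (gr_pwS fun i => (hT i).grH) (by linarith)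
  have gN : GR _ a2 N4 := hN4 ▸ gr_mono (gr_pwS fun i => (hT i).grN) (by linarith)
  have g𝔥 : GR _ a2 𝔥.toSubmodule := gr_mono hS.gr (by linarith)
  clear hH4 hN4
  have lW := lie_sup (fun _ h _ h' => 𝔥.lie_mem h h') s1 s2 lHN
  have uy : tup y ∈ Uo β H4 := uH.2 hy
  -- the tuple of the classes is near `𝔥 ⊔ N4`
  have hW : ∀ q ∈ Q', (𝓜.cs (q3 q)).ND S (Real.exp M) →
      NearR (𝓜.cs (q3 q)) (pw g (Fin 4)) S a2 (𝔥.toSubmodule ⊔ N4)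
        ((pw g (Fin 4)).subst (up β κ (Fin 3)) (tup y)) := fun q hq hnd => by
    have hq4 := (hS.quad q (hQ' hq)).2
    exact near_sup hC hG4 (fun _ h _ h' => 𝔥.lie_mem h h') lHH lHN s1 s2
      ((hU _ _ _ _ H4 hG4 (hnd.mono M3) gH).2.2 lHH) (qt_hm hC hM hg.gr hq4 fun i => hν1 i _)
      (uN.2 fun i => subst_uo hC (rs β κ i) (hν2 i (q i))) (subst_uo hC _ uy)
      (hNc1 ι β κ ρ 𝓜 g _ q x ν (tup y) (gd_mono hg (by linarith)) hq4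
        (fun i => (hν3 q hq i).mono l1) ((hN q (hQ' hq)).mono (by linarith) le_rfl))
  obtain ⟨ε₀, w₀, γ₀, h1, h2, h3, h4, h5⟩ := (hLR _ β κ ρ Unit (Fin 3) _ 𝓜 _ (q3 q₀) (q3 q₁)
    hG4 ⟨gr_sup g𝔥 gN, lW⟩).2 (tup y) (hnd.mono (ex_mono (by linarith)))
    (hW q₀ hq₀ (nd_left hM hnd)) (hW q₁ hq₁ (nd_right hM hnd))
  have w1 := uo_mono (sup_le s1 s2) h3
  have e1 := uH.1 ((hU _ _ _ _ H4 hG4 ((nd_base hM hnd).mono M3) gH).2.2 lHH w₀ ε₀ γ₀ h2 w1 h1 h4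
    (h5 ▸ uy)).1
  -- splitting
  obtain ⟨π, π1, π2, π3⟩ := (hP a2 b2 _ _ _ (pw g (Fin 4)) hG4.dim hG4.dim).2.2.2 _ _ g𝔥 gN
  obtain ⟨b8, l8⟩ := upw b2 hCq
  have y1 := ((hP _ b8 _ _ _ _ (hG4.dim.trans l8) (hG4.dim.trans l8)).1 β 𝓜.c0 π π1).1 w₀ h2
  have y2 : bcl π (Pl β) w₀ ∈ Uo β 𝔥.toSubmodule := fun α => by rw [cv_bcl]; exact π2 _
  have y3 : w₀ - bcl π (Pl β) w₀ ∈ Uo β N4 := fun α => by
    rw [map_sub, cv_bcl]; exact π3 _ (h3 α)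
  generalize bcl π (Pl β) w₀ = ys at y1 y2 y3
  have n1 := hm_pw.1 (star_hm (S := S) hC hG4.gr h2 (neg_mem y1))
  have n2 : star S w₀ (-ys) ∈ Uo β N4 := by
    have := St.star_cong S _ _ _ (lie_uo hC lHH) (lie_uo hC lHN) le_rfl (uo_mono s1 y2)
      (neg_mem (uo_mono s1 y2)) w1 (neg_mem (uo_mono s1 y2)) y3 (by rw [sub_self]; exact zero_mem _)
    rw [Bch.star_neg_self, sub_zero, sub_self, add_zero] at this
    simpa using add_mem this y3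
  replace n2 := uN.1 n2
  have := ND.nil hG4.wt_le (Pl β)
  rw [← Bch.star_neg_star' S w₀ ys] at h5
  generalize star S w₀ (-ys) = ν₀ at n1 n2 h5
  have := ND.nil hg.wt_le (Pl (V β κ Unit))
  have hup := fun hh : Unit → ρ → ℤ => (hClos4 _ _ g _ (gd_mono hg (by linarith))).2.2.2 _ _ _
    ((mor_up (𝓜 := 𝓜) hM hh).mono (Real.one_le_exp (by linarith : 0 ≤ a4)))
  have hcg : ∀ q ∈ Q', ∀ i, Cg (𝓜.cs fun _ : Unit => q i) g S a6
      (star S (expAd S (-g.subst (up β κ Unit) (pr g _ i ε₀)) (ν i (q i)))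
        (g.subst (up β κ Unit) (pr g _ i ν₀))) (g.subst (up β κ Unit) (pr g _ i ys)) (x (q i)) :=
    fun q hq i => by
      obtain ⟨ε, γ, c1, c2, c3⟩ := hν3 q hq i
      have hc := hClos5 _ _ g (𝓜.cs fun _ : Unit => q i) (gd_mono hg (by linarith))
      refine ⟨_, _, (hc.1 _ _ (c1.mono (by linarith))
        ((hup _).1 _ ((smR_pr h1 i).mono (by linarith)))).1,
        (hc.2.1 _ _ (((hup fun _ => q i).2.2.1 _ ((rtR_pr h4 i).mono (by linarith))).mono l5)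
          (c2.mono (by linarith))).1, ?_⟩
      rw [c3, ← star_move, ← pr_tup y i, h5]
      simp only [Bch.map_star]
  have hh : ∀ {z : g.PS β}, z ∈ Hm 𝓜.c0.lev g → g.subst (up β κ Unit) z ∈ Hm (𝓜.lev Unit) g :=
    fun hz => subst_hm hC hg.gr (mor_up (𝓜 := 𝓜) hM fun _ : Unit => 0).hom hz
  refine ⟨Q', hQ', dens_le (by positivity) hd (by linarith), ys, fun i h =>
    star S (expAd S (-g.subst (up β κ Unit) (pr g _ i ε₀)) (ν i h))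
      (g.subst (up β κ Unit) (pr g _ i ν₀)), y1, y2, fun i h => ?_,
    fun q hq i => (hcg q hq i).mono l7, fun q hq => hNc6 ι β κ ρ 𝓜 g _ q x _ ys
      (gd_mono hg (by linarith)) (hS.quad q (hQ' hq)).2 (hcg q hq)
      ((hN q (hQ' hq)).mono (by linarith) le_rfl)⟩
  obtain ⟨c1, c2⟩ := conj_mem (S := S) hC hg.gr (hT i).lieN (hh (smR_hm hC hg.gr (smR_pr h1 i)))
    (subst_uo hC _ (e1 i)) (hν1 i h) (hν2 i h)
  exact ⟨star_hm hC hg.gr c1 (hh (n1 i)), St.star_mem S _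
    (lie_uo hC fun _ h => (hT i).lieN _ ((hT i).NH h)) c2 (subst_uo hC _ (n2 i))⟩

end Crest.Agent.T49.Br
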