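import Crest.Agent.T49.BrDef_62
import Crest.Agent.T49.GiPetal_51
import Crest.Agent.T49.GiPush_14

/-!
# Row 49 (helper98): the leaves `PETAL3` and `LIN3R` of the relative inverse theorem
-/

set_option autoImplicit false

noncomputable section

namespace Crest.Agent.T49.Br

open Finset Crest.Agent.T49.Nil Crest.Agent.T49.Nil.ND Crest.Agent.T49.GI
open Crest.Agent.T49.Bch (star expAd)
open Crest.Agent.T49.GI.P51

namespace P98

/-- the algebraic core of the linearisation -/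
theorem lin_core {L : Type*} [LieRing L] [LieAlgebra ℝ L] (S : ℕ) [Bch.Nil S L]
    (H : LieSubalgebra ℝ L) (Nn K : Submodule ℝ L) (KH : K ≤ H.toSubmodule) (KN : K ≤ Nn)
    (lieN : ∀ x ∈ H, ∀ z ∈ Nn, ⁅x, z⁆ ∈ Nn) (abel : ∀ x ∈ Nn, ∀ z ∈ Nn, ⁅x, z⁆ ∈ K)
    {y ν ε h γ u v : L} (hy : y ∈ H) (hν : ν ∈ Nn) (hh : h ∈ H) (hu : u ∈ H) (hv : v ∈ H)
    (hεu : ε - u ∈ Nn) (hγv : γ - v ∈ Nn) (hx : star S ν y = star S ε (star S h γ)) :
    star S ε (-u) ∈ Nn ∧ star S (-v) γ ∈ Nn ∧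
      ν - star S ε (-u) - expAd S y (star S (-v) γ) ∈ H := by
  have stab : ∀ {x a : L}, a ∈ H → x - a ∈ Nn → ∀ z ∈ Nn, ⁅x, z⁆ ∈ Nn := by
    intro x a ha hxa z hz
    have : ⁅x, z⁆ = ⁅a, z⁆ + ⁅x - a, z⁆ := by rw [sub_lie]; abel
    rw [this]
    exact add_mem (lieN a ha z hz) (KN (abel _ hxa z hz))
  have hεN : star S ε (-u) ∈ Nn := by
    have h1 : star S ε (-u) - (ε + -u) ∈ Nn := by
      refine Bch.star_sub_mem S Nn (stab hu hεu) (lieN _ (neg_mem hu)) ?_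
      have : ⁅ε, -u⁆ = ⁅u, ε - u⁆ := by
        rw [lie_sub, lie_self, sub_zero, lie_neg, lie_skew]
      rw [this]
      exact lieN u hu _ hεu
    have h2 := add_mem h1 hεu
    rwa [← sub_eq_add_neg, sub_add_cancel] at h2
  have hγN : star S (-v) γ ∈ Nn := by
    have h1 : star S (-v) γ - (-v + γ) ∈ Nn := by
      refine Bch.star_sub_mem S Nn (lieN _ (neg_mem hv)) (stab hv hγv) ?_
      have : ⁅-v, γ⁆ = ⁅-v, γ - v⁆ := by
        rw [lie_sub, neg_lie v v, lie_self, neg_zero, sub_zero]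
      rw [this]
      exact lieN _ (neg_mem hv) _ hγv
    have h2 := add_mem h1 hγv
    rwa [neg_add_eq_sub, sub_add_cancel] at h2
  refine ⟨hεN, hγN, ?_⟩
  set a := star S ε (-u) with ha
  set b := star S (-v) γ with hb
  set c := Bch.Ad S y (-b) with hc
  have hcN : c ∈ Nn := Bch.Ad_mem S Nn (lieN y hy) (neg_mem hγN)
  have hε' : ε = star S a u := by rw [ha, Bch.star_neg_star']
  have hγ' : γ = star S v b := by rw [hb, Bch.star_neg_star]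
  have hw : star S (-a) (star S ν c) = star S (star S u (star S h v)) (-y) := by
    have h1 : star S (star S ν c) y = star S (star S ν y) (-b) := by
      rw [Bch.star_assoc, Bch.star_assoc, hc, ← Bch.star_eq_Ad_star]
    have h2 : star S ν c = star S (star S (star S ν y) (-b)) (-y) := by
      rw [← h1, Bch.star_star_neg]
    rw [h2, hx]
    conv_lhs => rw [hε', hγ']
    simp only [Bch.star_assoc, Bch.neg_star_star, Bch.star_neg_star]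
  have hwH : star S (-a) (star S ν c) ∈ H := by
    rw [hw]
    exact Bch.star_mem S H (Bch.star_mem S H hu (Bch.star_mem S H hh hv)) (neg_mem hy)
  have hK : ∀ x ∈ Nn, ∀ z ∈ Nn, star S x z - (x + z) ∈ K := fun x hx z hz =>
    Bch.star_sub_mem S K (fun k hk => abel x hx k (KN hk)) (fun k hk => abel z hz k (KN hk))
      (abel x hx z hz)
  have h1 := hK ν hν c hcN
  have hνc : star S ν c ∈ Nn := by
    have := add_mem (KN h1) (add_mem hν hcN)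
    rwa [sub_add_cancel] at this
  have h2 := hK (-a) (neg_mem hεN) _ hνc
  have h3 : ν - a - expAd S y b
      = star S (-a) (star S ν c) - (star S (-a) (star S ν c) - (-a + star S ν c))
        - (star S ν c - (ν + c)) := by
    have : c = -expAd S y b := by rw [hc, map_neg]; rfl
    rw [this]
    abel
  rw [h3]
  exact sub_mem (sub_mem hwH (KH h2)) (KH h1)

variable {ι : Type} [Fintype ι] {σ : Type} {g : ND ι}

theorem lie_Uo {U U' U'' : Submodule ℝ g.L} (h : ∀ x ∈ U, ∀ y ∈ U', ⁅x, y⁆ ∈ U'')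
    {x y : g.PS σ} (hx : x ∈ Uo σ U) (hy : y ∈ Uo σ U') : ⁅x, y⁆ ∈ Uo σ U'' :=
  lie_mem_cf (W := fun _ => U) (W' := fun _ => U') (W'' := fun _ => U'')
    (fun _ _ a ha b hb => h a ha b hb) hx hy

theorem Uo_le {U U' : Submodule ℝ g.L} (h : U ≤ U') : Uo σ U ≤ Uo σ U' := fun _ hx α => h (hx α)

/-- `U ⊗ Pl σ` as a Lie subalgebra -/
def uoL (σ : Type) (U : Submodule ℝ g.L) (h : ∀ x ∈ U, ∀ y ∈ U, ⁅x, y⁆ ∈ U) :
    LieSubalgebra ℝ (g.PS σ) :=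
  { Uo σ U with lie_mem' := fun hx hy => lie_Uo h hx hy }

theorem lie_sup {H Nn K : Submodule ℝ g.L} (hH : ∀ x ∈ H, ∀ y ∈ H, ⁅x, y⁆ ∈ H) (KN : K ≤ Nn)
    (lieN : ∀ x ∈ H, ∀ z ∈ Nn, ⁅x, z⁆ ∈ Nn) (abel : ∀ x ∈ Nn, ∀ z ∈ Nn, ⁅x, z⁆ ∈ K) :
    ∀ x ∈ H ⊔ Nn, ∀ y ∈ H ⊔ Nn, ⁅x, y⁆ ∈ H ⊔ Nn := by
  intro x hx z hz
  obtain ⟨c, hc, d, hd, rfl⟩ := Submodule.mem_sup.1 hz
  obtain ⟨a, ha, b, hb, rfl⟩ := Submodule.mem_sup.1 hx
  rw [lie_add, add_lie, add_lie]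
  refine add_mem (add_mem (Submodule.mem_sup_left (hH a ha c hc)) (Submodule.mem_sup_right ?_))
    (Submodule.mem_sup_right (add_mem (lieN a ha d hd) (KN (abel b hb d hd))))
  rw [← lie_skew]
  exact neg_mem (lieN c hc b hb)

theorem mem_p2 {H N : Submodule ℝ g.L} {z : (pw g (Fin 2)).L} :
    z ∈ p2 H N ↔ pr g ℝ 0 z ∈ H ∧ pr g ℝ 1 z ∈ H ∧ pr g ℝ 0 z - pr g ℝ 1 z ∈ N :=
  ⟨fun h => ⟨h.1.1, h.1.2, h.2⟩, fun h => ⟨⟨h.1, h.2.1⟩, h.2.2⟩⟩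

theorem lie_p2 {H N : Submodule ℝ g.L} (hH : ∀ x ∈ H, ∀ y ∈ H, ⁅x, y⁆ ∈ H)
    (hN : ∀ x ∈ H, ∀ y ∈ N, ⁅x, y⁆ ∈ N) : ∀ x ∈ p2 H N, ∀ y ∈ p2 H N, ⁅x, y⁆ ∈ p2 H N := by
  intro x hx y hy
  obtain ⟨x0, x1, x2⟩ := mem_p2.1 hx
  obtain ⟨y0, y1, y2⟩ := mem_p2.1 hy
  rw [mem_p2, LieHom.map_lie, LieHom.map_lie]
  refine ⟨hH _ x0 _ y0, hH _ x1 _ y1, ?_⟩
  have : ⁅pr g ℝ 0 x, pr g ℝ 0 y⁆ - ⁅pr g ℝ 1 x, pr g ℝ 1 y⁆ =
      ⁅pr g ℝ 0 x, pr g ℝ 0 y - pr g ℝ 1 y⁆ - ⁅pr g ℝ 1 y, pr g ℝ 0 x - pr g ℝ 1 x⁆ := by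
    rw [lie_sub, lie_sub, ← lie_skew (pr g ℝ 1 y) (pr g ℝ 0 x),
      ← lie_skew (pr g ℝ 1 y) (pr g ℝ 1 x)]
    abel
  rw [this]
  exact sub_mem (hN _ x0 _ y2) (hN _ y1 _ x2)

theorem gmap_dif (g : ND ι) {m : ℝ} (hm : 0 ≤ m) :
    GMap (pw g (Fin 2)) g m ((pr g ℝ 0).toLinearMap - (pr g ℝ 1).toLinearMap) := by
  classical
  have h1 : (1 : ℝ) ≤ Real.exp m := Real.one_le_exp hm
  have key : ∀ (i : Fin 2 × ι) (k : ι),
      ((pr g ℝ (0 : Fin 2)).toLinearMap - (pr g ℝ (1 : Fin 2)).toLinearMap)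
        ((pw g (Fin 2)).e i) k =
        (if (0, k) = i then 1 else 0) - if (1, k) = i then 1 else 0 := fun i k => by
    rw [← e_apply (N := pw g (Fin 2)) i (0, k), ← e_apply (N := pw g (Fin 2)) i (1, k)]
    rfl
  constructor
  · intro i k
    rw [key]
    split_ifs
    · exact ⟨0, by simp, by simpa using (Real.exp_pos m).le⟩
    · exact ⟨1, by simp, by simpa using h1⟩
    · exact ⟨-1, by simp, by simpa using h1⟩
    · exact ⟨0, by simp, by simpa using (Real.exp_pos m).le⟩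
  · intro i k h
    rw [key] at h
    split_ifs at h with h' h'' h''
    · rw [← h']; rfl
    · rw [← h']; rfl
    · rw [← h'']; rfl
    · exact absurd (sub_self _) h

theorem ot_ne (i : Fin 4) : ot i 0 ≠ ot i 1 := by
  revert i; decide

theorem ot_surj (i l : Fin 4) (h : l ≠ i) : ∃ a, ot i a = l := by
  revert i l; decide

theorem ot_ne_self (i : Fin 4) (a : Fin 3) : ot i a ≠ i := by
  revert i a; decide

theorem mem_pN3 {𝔥 : LieSubalgebra ℝ (pw g (Fin 4)).L} {i : Fin 4} {x : g.L} :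
    x ∈ pN3 𝔥 i ↔ ∀ l, l ≠ i → x ∈ pA 𝔥 i l := by
  unfold pN3
  rw [Submodule.mem_iInf]
  constructor
  · intro h l hl
    obtain ⟨a, rfl⟩ := ot_surj i l hl
    exact h a
  · exact fun h a => h _ (ot_ne_self i a)

theorem lie_pN3 {𝔥 : LieSubalgebra ℝ (pw g (Fin 4)).L} {i : Fin 4} {x y : g.L}
    (hx : x ∈ pH 𝔥 i) (hy : y ∈ pN3 𝔥 i) : ⁅x, y⁆ ∈ pN3 𝔥 i :=
  mem_pN3.2 fun l hl => lie_pA hx (mem_pN3.1 hy l hl)

/-- an element of `pN3 𝔥 i` is congruent modulo `𝔥` to an element of `pN3 𝔥 0` -/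
theorem move0 {𝔥 : LieSubalgebra ℝ (pw g (Fin 4)).L} {i : Fin 4} {x : g.L} (hx : x ∈ pN3 𝔥 i) :
    ∃ n ∈ pN3 𝔥 0, inj g ℝ i x - inj g ℝ 0 n ∈ 𝔥 := by
  by_cases hi : i = 0
  · subst hi
    exact ⟨x, hx, by rw [sub_self]; exact zero_mem _⟩
  obtain ⟨w, hw, hw0, hwi⟩ := mem_pA.1 (mem_pN3.1 hx 0 (Ne.symm hi))
  refine ⟨-pr g ℝ 0 w, neg_mem (mem_pN3.2 fun k hk => ?_), ?_⟩
  · by_cases hki : k = i
    · subst hki
      exact mem_pA.2 ⟨w, hw, fun j h1 h2 => hw0 j h2 h1, rfl⟩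
    · obtain ⟨w', hw', hw0', hwi'⟩ := mem_pA.1 (mem_pN3.1 hx k hki)
      refine mem_pA.2 ⟨w - w', sub_mem hw hw', fun j h1 h2 => ?_, ?_⟩
      · rw [map_sub]
        by_cases hj : j = i
        · subst hj; rw [hwi, hwi', sub_self]
        · rw [hw0 j hj h1, hw0' j hj h2, sub_self]
      · rw [map_sub, hw0' 0 (Ne.symm hi) (Ne.symm hk), sub_zero]
  · have : inj g ℝ i x - inj g ℝ 0 (-pr g ℝ 0 w) = w := pw_ext fun j => by
      rw [map_sub]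
      by_cases hj : j = i
      · subst hj; rw [pr_inj_same, pr_inj_ne hi, sub_zero, hwi]
      · by_cases h0 : j = 0
        · subst h0; rw [pr_inj_ne hj, pr_inj_same, zero_sub, neg_neg]
        · rw [pr_inj_ne hj, pr_inj_ne h0, sub_zero, hw0 j hj h0]
    rw [this]
    exact hw

end P98

open P98

theorem petal3Stmt : Petal3Stmt := by
  obtain ⟨C, hC, hP⟩ := GI.pushStmt
  refine ⟨3 * C ^ 8, Nat.mul_pos (by norm_num) (pow_pos hC 8), ?_⟩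
  intro m hm ι _ g η 𝔥 hd hG hη
  have hm3 : 4 * m ≤ m ^ 3 := by nlinarith [mul_le_mul hm hm (by norm_num) (by linarith)]
  have hs : ∀ j : ℕ, 2 ≤ m ^ (3 * C ^ j) := fun j =>
    two_le_pw hm (Nat.mul_pos (by norm_num) (pow_pos hC j))
  have hs3 : ∀ j : ℕ, m ^ 3 ≤ m ^ (3 * C ^ j) := fun j =>
    pow_le_pow_right₀ (by linarith) (Nat.le_mul_of_pos_right 3 (pow_pos hC j))
  have hsucc : ∀ j : ℕ, (m ^ (3 * C ^ j)) ^ C = m ^ (3 * C ^ (j + 1)) := fun j => by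
    rw [← pow_mul, pow_succ, mul_assoc]
  have hmono : ∀ {j j' : ℕ}, j ≤ j' → m ^ (3 * C ^ j) ≤ m ^ (3 * C ^ j') := fun h =>
    pow_le_pow_right₀ (by linarith) (Nat.mul_le_mul_left 3 (Nat.pow_le_pow_right hC h))
  have hd1 : ∀ j : ℕ, (Fintype.card ι : ℝ) ≤ m ^ (3 * C ^ j) := fun j => by
    linarith [hs3 j]
  have hc0 : (0 : ℝ) ≤ Fintype.card ι := Nat.cast_nonneg _
  have hd4 : ∀ j : ℕ, (Fintype.card (Fin 4 × ι) : ℝ) ≤ m ^ (3 * C ^ j) := fun j => by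
    rw [Fintype.card_prod, Fintype.card_fin]
    push_cast
    linarith [hs3 j]
  have hd2 : ∀ j : ℕ, (Fintype.card (Fin 2 × ι) : ℝ) ≤ m ^ (3 * C ^ j) := fun j => by
    rw [Fintype.card_prod, Fintype.card_fin]
    push_cast
    linarith [hs3 j]
  have hG0 : ∀ j : ℕ, GR (pw g (Fin 4)) (m ^ (3 * C ^ j)) 𝔥.toSubmodule := fun j =>
    GR_mono hG (by linarith [hs3 j])
  have down := fun j => hP _ (hs j) _ _ (pw g (Fin 4)) g (hd4 j) (hd1 j)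
  have down2 := fun j => hP _ (hs j) _ _ (pw g (Fin 2)) g (hd2 j) (hd1 j)
  have up := fun j => hP _ (hs j) _ _ g (pw g (Fin 4)) (hd1 j) (hd4 j)
  have hpr : ∀ (j : ℕ) (a : Fin 4),
      GMap (pw g (Fin 4)) g (m ^ (3 * C ^ j)) (pr g ℝ a).toLinearMap :=
    fun j a => gmap_pr g (by linarith [hs j]) a
  have hA : ∀ i l, GR g (m ^ (3 * C ^ 4)) (pA 𝔥 i l) := by
    intro i l
    have h1 : ∀ a : Fin 4, GR (pw g (Fin 4)) (m ^ (3 * C ^ 1))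
        (LinearMap.ker (pr g ℝ a).toLinearMap) := fun a => by
      have := ((down 0).1 _ (hpr 0 a)).2.1 ⊥ (GR_bot _ _)
      rwa [hsucc, Submodule.comap_bot] at this
    have h2 := ((down 1).2.2.1 {j : Fin 4 // j ≠ i ∧ j ≠ l} _ fun j => h1 j.1).1
    rw [hsucc] at h2
    have h3 := ((down 2).2.2.2.1 _ _ (hG0 2) h2).1
    rw [hsucc] at h3
    have h4 := ((down 3).1 _ (hpr 3 i)).1 _ h3
    rw [hsucc] at h4
    exact h4
  have hH : ∀ i, GR g (m ^ (3 * C ^ 1)) (pH 𝔥 i).toSubmodule := fun i => by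
    have := ((down 0).1 _ (hpr 0 i)).1 _ (hG0 0)
    rw [hsucc] at this
    exact this
  have hN : ∀ i, GR g (m ^ (3 * C ^ 5)) (pN3 𝔥 i) := fun i => by
    have := ((up 4).2.2.1 (Fin 3) _ fun a => hA i (ot i a)).1
    rw [hsucc] at this
    exact this
  have hp2 : ∀ i (N : Submodule ℝ g.L), GR g (m ^ (3 * C ^ 5)) N →
      (∀ x ∈ pH 𝔥 i, ∀ y ∈ N, ⁅x, y⁆ ∈ N) →
      GS (pw g (Fin 2)) (m ^ (3 * C ^ 8)) (p2 (pH 𝔥 i).toSubmodule N) := by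
    intro i N h1 h2
    refine ⟨?_, lie_p2 (fun x hx y hy => (pH 𝔥 i).lie_mem hx hy) h2⟩
    have h0 : (0 : ℝ) ≤ m ^ (3 * C ^ 5) := by linarith [hs 5]
    have hH5 := GR_mono (hH i) (hmono (by norm_num : 1 ≤ 5))
    have a0 := ((down2 5).1 _ (gmap_pr g h0 (0 : Fin 2))).2.1 _ hH5
    have a1 := ((down2 5).1 _ (gmap_pr g h0 (1 : Fin 2))).2.1 _ hH5
    have a2 := ((down2 5).1 _ (gmap_dif g h0)).2.1 _ h1
    rw [hsucc] at a0 a1 a2
    have a3 := ((down2 6).2.2.2.1 _ _ a0 a1).1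
    rw [hsucc] at a3
    have a4 := ((down2 7).2.2.2.1 _ _ a3 (GR_mono a2 (hmono (by norm_num)))).1
    rw [hsucc] at a4
    exact a4
  refine ⟨fun i => ⟨GR_mono (hH i) (hmono (by norm_num)), GR_mono (hN i) (hmono (by norm_num)),
      ?_, ?_, ?_, fun x hx y hy => lie_pN3 hx hy, ?_, ?_, ?_⟩,
    fun i a => hp2 i _ (GR_mono (hA i _) (hmono (by norm_num))) fun x hx y hy => lie_pA hx hy,
    fun i => hp2 i _ (hN i) fun x hx y hy => lie_pN3 hx hy, ?_⟩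
  · have := ((up 0).1 _ (gmap_inj g (by linarith [hs 0]) i)).2.1 _ (hG0 0)
    rw [hsucc] at this
    exact GR_mono this (hmono (by norm_num))
  · intro x hx
    exact mem_pN3.2 fun l _ =>
      mem_pA.2 ⟨inj g ℝ i x, mem_pK.1 hx, fun j hj _ => pr_inj_ne hj x, pr_inj_same i x⟩
  · intro x hx
    obtain ⟨z, hz, -, h⟩ := mem_pA.1 (mem_pN3.1 hx _ (ot_ne_self i 0))
    exact mem_pH.2 ⟨z, hz, h⟩
  · intro x hx y hy
    obtain ⟨z, hz, rfl⟩ := mem_pH.1 hx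
    have : inj g ℝ i ⁅pr g ℝ i z, y⁆ = ⁅z, inj g ℝ i y⁆ := pw_ext fun j => by
      rw [LieHom.map_lie (pr g ℝ j)]
      by_cases hj : j = i
      · subst hj; rw [pr_inj_same, pr_inj_same]
      · rw [pr_inj_ne hj, pr_inj_ne hj, lie_zero]
    rw [mem_pK, this]
    exact 𝔥.lie_mem hz (mem_pK.1 hy)
  · intro x hx y hy
    obtain ⟨z, hz, hz0, rfl⟩ := mem_pA.1 (mem_pN3.1 hx _ (ot_ne_self i 0))
    obtain ⟨w, hw, hw0, rfl⟩ := mem_pA.1 (mem_pN3.1 hy _ (ot_ne_self i 1))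
    have : inj g ℝ i ⁅pr g ℝ i z, pr g ℝ i w⁆ = ⁅z, w⁆ := pw_ext fun j => by
      rw [LieHom.map_lie (pr g ℝ j)]
      by_cases hj : j = i
      · subst hj; rw [pr_inj_same]
      · rw [pr_inj_ne hj]
        by_cases h0 : j = ot i 0
        · rw [hw0 j hj (h0 ▸ ot_ne i), lie_zero]
        · rw [hz0 j hj h0, zero_lie]
    rw [mem_pK, this]
    exact 𝔥.lie_mem hz hw
  · intro x hx
    have h := hη _ (mem_pK.1 hx)
    rw [fn_pwη, sum_eq_single i] at h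
    · rw [pr_inj_same] at h
      have hs : (sg4 i : ℝ) ≠ 0 := by
        exact_mod_cast sg4_ne i
      exact (mul_eq_zero.1 h).resolve_left hs
    · intro b _ hb
      rw [pr_inj_ne hb, map_zero, mul_zero]
    · simp
  · intro z hz
    have hz' : ∀ i, pr g ℝ i z ∈ pN3 𝔥 i := fun i => (Submodule.mem_iInf _).1 hz i
    choose n hn hn' using fun i => move0 (hz' i)
    refine ⟨∑ i, n i, Submodule.sum_mem _ fun i _ => hn i, ?_⟩
    have : z - inj g ℝ 0 (∑ i, n i) = ∑ i, (inj g ℝ i (pr g ℝ i z) - inj g ℝ 0 (n i)) := by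
      rw [sum_sub_distrib, ← eq_sum_inj, map_sum]
    rw [this]
    exact Submodule.sum_mem 𝔥.toSubmodule fun i _ => hn' i

theorem lin3RStmt (hCl : ClosRStmt) (hP : PushRStmt) (hU : UniqRStmt) : Lin3RStmt := by
  intro S
  obtain ⟨C₁, hC₁, hCl⟩ := hCl.2.2 S
  obtain ⟨C₂, hC₂, hP⟩ := hP
  obtain ⟨C₃, hC₃, hU⟩ := hU S
  obtain ⟨C₄, hC₄, hG⟩ := GI.pushStmt
  refine ⟨C₂ * C₂ * C₁ + C₃, by omega, ?_⟩
  intro m hm ι σ _ g c 𝔥 Nn K y ν hg hT hH hN KH KN lieN _ abel _ hy _ hν hnear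
  have := ND.nil hg.wt_le (Tw.Pl σ)
  have hm1 : (1 : ℝ) ≤ m := by linarith
  have hT3 : c.ND S (Real.exp (m ^ C₃)) :=
    hT.mono (Real.exp_le_exp.2 (pow_le_pow_right₀ hm1 (by omega)))
  obtain ⟨ε, h, γ, hε, hhm, hh, hγ, hx⟩ := hnear
  have hsup := ((hG m hm ι ι g g hg.dim hg.dim).2.2.2.1 _ _ hH.toGR hN).2.1
  have hlie := lie_sup hH.lie KN lieN abel
  obtain ⟨hεa, hγa⟩ := (hU m hm ι σ g c _ hg hT3 hsup).2.2 hlie h ε γ hhm
    (Uo_le le_sup_left hh) hε hγ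
    (hx ▸ Bch.star_mem S (uoL σ _ hlie) (Uo_le le_sup_right hν) (Uo_le le_sup_left hy))
  obtain ⟨π, hπ, hπH, hπN⟩ := (hP m hm ι ι g g hg.dim hg.dim).2.2.2 _ _ hH.toGR hN
  have hm2 : m ≤ m ^ C₂ := le_pw hm hC₂
  have hm3 : m ^ C₂ ≤ (m ^ C₂) ^ C₂ := le_pw (hm.trans hm2) hC₂
  obtain ⟨-, hS, hR, -⟩ :=
    (hP _ (hm.trans hm2) ι ι g g (hg.dim.trans hm2) (hg.dim.trans hm2)).1 σ c π hπ
  have hin : ∀ x : g.PS σ, bcl π _ x ∈ Uo σ 𝔥 := fun x α => by rw [cv_bcl]; exact hπH _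
  have hout : ∀ x ∈ Uo σ (𝔥 ⊔ Nn), x - bcl π _ x ∈ Uo σ Nn := fun x hx α => by
    rw [map_sub, cv_bcl]; exact hπN _ (hx α)
  obtain ⟨h1, h2, h3⟩ := lin_core S (uoL σ 𝔥 hH.lie) (Uo σ Nn) (Uo σ K) (Uo_le KH) (Uo_le KN)
    (fun x hx z hz => lie_Uo lieN hx hz) (fun x hx z hz => lie_Uo abel hx hz) hy hν hh
    (hin ε) (hin γ) (hout ε hεa) (hout γ hγa) hx
  have hCl' := hCl _ ((hm.trans hm2).trans hm3) ι σ g c (gd_mono hg (hm2.trans hm3))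
  have hfin : ((m ^ C₂) ^ C₂) ^ C₁ ≤ m ^ (C₂ * C₂ * C₁ + C₃) := by
    rw [← pow_mul, ← pow_mul, ← mul_assoc]; exact pow_le_pow_right₀ hm1 (by omega)
  have su := hS ε (hε.mono hm2)
  have rv := hR γ (hγ.mono hm2)
  have hε' := hε.mono (hm2.trans hm3)
  have hγ' := hγ.mono (hm2.trans hm3)
  exact ⟨_, h1, _, h2, (hCl'.1 _ _ hε' (hCl'.1 _ _ su su).2.2.1).1.mono hfin,
    (hCl'.2.1 _ _ (hCl'.2.1 _ _ rv rv).2.2 hγ').1.mono hfin, h3⟩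

end Crest.Agent.T49.Br
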