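import Crest.Agent.T49.BrDef_62
import Crest.Agent.T49.GiPush_14

/-!
# Row 49 (helper54): the leaf `PUSH` of the relative structure theorem
-/

set_option autoImplicit false

noncomputable section

namespace Crest.Agent.T49.Br

open Finset MvPolynomial Crest.Agent.T49.Nil Crest.Agent.T49.Nil.ND Crest.Agent.T49.GI
open Crest.Agent.T49.Bch (star expAd)
open Crest.Agent.T49.Tw (Pl nrm DegLe)

namespace P54

variable {ι ι' : Type} [Fintype ι] [Fintype ι'] {g : ND ι} {g' : ND ι'} {σ τ : Type} {m : ℝ}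

theorem rmap_gr {φ : g.L →ₗ[ℝ] g'.L} (h : RMap g g' m φ) (i : ι) (k : ι')
    (hk : φ (g.e i) k ≠ 0) : g'.wt k = g.wt i := by
  obtain ⟨D, h1, -, h3⟩ := h
  refine h3.gr i k ?_
  change (D : ℝ) * φ (g.e i) k ≠ 0
  exact mul_ne_zero (by positivity) hk

theorem rmap_abs {φ : g.L →ₗ[ℝ] g'.L} (h : RMap g g' m φ) (i : ι) (k : ι') :
    |φ (g.e i) k| ≤ Real.exp m := by
  obtain ⟨D, h1, -, h3⟩ := h
  obtain ⟨z, hz, hz'⟩ := h3.int i k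
  have h4 : (D : ℝ) * φ (g.e i) k = z := hz
  have h5 : (1 : ℝ) ≤ D := by exact_mod_cast h1
  rw [← h4, abs_mul, abs_of_nonneg (by linarith : (0 : ℝ) ≤ D)] at hz'
  exact (le_mul_of_one_le_left (abs_nonneg _) h5).trans hz'

theorem den_of_smul {φ : g.L →ₗ[ℝ] g'.L} {D : ℕ} {M : ℝ} (h : g.IntMap g' M ((D : ℝ) • φ))
    {q : ℕ} {x : g.L} (hx : g.Den q x) : g'.Den (D * q) (φ x) := by
  refine den_iff.2 fun k => ?_
  obtain ⟨z, hz⟩ := den_iff.1 (St.den_map h hx) k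
  refine ⟨z, ?_⟩
  rw [← hz]
  change _ = (q : ℝ) * ((D : ℝ) * φ x k)
  push_cast
  ring

theorem bcl_hm {lev : σ → ℕ} {φ : g.L →ₗ[ℝ] g'.L}
    (h : ∀ i k, φ (g.e i) k ≠ 0 → g'.wt k = g.wt i) {x : g.PS σ} (hx : x ∈ Hm lev g) :
    bcl φ (Pl σ) x ∈ Hm lev g' := fun k => by
  rw [bcl_apply]
  refine IsWeightedHomogeneous.sum _ _ _ fun i _ => ?_
  by_cases h0 : φ (g.e i) k = 0
  · rw [h0, zero_smul]
    exact isWeightedHomogeneous_zero _ _ _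
  · rw [h i k h0]
    exact (weightedHomogeneousSubmodule ℝ lev (g.wt i)).smul_mem _ (hx i)

theorem nrm_bcl {φ : g.L →ₗ[ℝ] g'.L} {A B : ℝ} (h : ∀ i k, |φ (g.e i) k| ≤ A) {x : g.PS σ}
    (hx : ∀ i, nrm (x i) ≤ B) (k : ι') :
    nrm (bcl φ (Pl σ) x k) ≤ Fintype.card ι * (A * B) := by
  rw [bcl_apply]
  refine (Tw.nrm_sum_le _ _).trans ?_
  calc ∑ i, nrm (φ (g.e i) k • x i) ≤ ∑ _i : ι, A * B := sum_le_sum fun i _ => by
        rw [Tw.nrm_smul]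
        exact mul_le_mul (h i k) (hx i) (Tw.nrm_nonneg _) ((abs_nonneg _).trans (h i k))
    _ = _ := by simp

theorem subst_bcl (φ : g.L →ₗ[ℝ] g'.L) (r : σ → Pl τ) (x : g.PS σ) :
    g'.subst r (bcl φ (Pl σ) x) = bcl φ (Pl τ) (g.subst r x) := map_bcl φ _ x

theorem ratP_bcl {φ : g.L →ₗ[ℝ] g'.L} {D : ℕ} {M : ℝ} (h : g.IntMap g' M ((D : ℝ) • φ))
    {q : ℕ} {x : g.PS σ} (hx : g.RatP q x) : g'.RatP (D * q) (bcl φ (Pl σ) x) := fun α => by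
  rw [cv_bcl]
  exact den_of_smul h (hx α)

theorem bcl_uo {φ : g.L →ₗ[ℝ] g'.L} {U : Submodule ℝ g.L} {x : g.PS σ} (hx : x ∈ Uo σ U) :
    bcl φ (Pl σ) x ∈ Uo σ (U.map φ) := fun α => by
  rw [cv_bcl]
  exact ⟨_, hx α, rfl⟩

theorem den_e (i : ι) : g.Den 1 (g.e i) := by
  classical
  refine den_iff.2 fun k => ?_
  rw [e_apply]
  split_ifs
  · exact ⟨1, by simp⟩
  · exact ⟨0, by simp⟩

theorem abs_e (i k : ι) : |g.e i k| ≤ 1 := by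
  classical
  rw [e_apply]
  split_ifs <;> simp

theorem gp_gr (l : g'.L →ₗ[ℝ] g.L) (i : ι') (k : ι) (h : Push14.gp l (g'.e i) k ≠ 0) :
    g.wt k = g'.wt i := by
  by_contra h1
  rw [Push14.gp_apply, Push14.hp_e, if_neg (Ne.symm h1), map_zero] at h
  exact h rfl

theorem gr_of_hp {φ : g.L →ₗ[ℝ] g'.L} (h : ∀ n x, φ (hp g n x) = hp g' n (φ x)) (i : ι) (k : ι')
    (hk : φ (g.e i) k ≠ 0) : g'.wt k = g.wt i := by
  by_contra h1
  have h2 := h (g.wt i) (g.e i)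
  rw [Push14.hp_e, if_pos rfl] at h2
  rw [h2, Push14.hp_neg _ h1] at hk
  exact hk rfl

theorem rmap_of {φ : g.L →ₗ[ℝ] g'.L} {q : ℕ} {B : ℝ} (hq : 1 ≤ q) (hB : 1 ≤ B)
    (hm : q * B ≤ Real.exp m) (hgr : ∀ i k, φ (g.e i) k ≠ 0 → g'.wt k = g.wt i)
    (hd : ∀ i, g'.Den q (φ (g.e i))) (hb : ∀ i k, |φ (g.e i) k| ≤ B) : RMap g g' m φ := by
  have hq0 : (0 : ℝ) ≤ q := by positivity
  refine ⟨q, hq, (le_mul_of_one_le_right hq0 hB).trans hm, fun i k => ?_, fun i k h => ?_⟩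
  · obtain ⟨z, hz⟩ := den_iff.1 (hd i) k
    refine ⟨z, hz, ?_⟩
    rw [← hz, abs_mul, abs_of_nonneg hq0]
    exact (mul_le_mul_of_nonneg_left (hb i k) hq0).trans hm
  · exact hgr i k (right_ne_zero_of_mul (show (q : ℝ) * φ (g.e i) k ≠ 0 from h))

/-- a graded lift, with its matrix -/
theorem exists_glift' {φ : g.L →ₗ[ℝ] g'.L} {H : ℝ} {d : ℕ} (hφ : g.IntMap g' H φ)
    (hgr : ∀ n x, φ (hp g n x) = hp g' n (φ x)) (hH : 1 ≤ H) (hd : Fintype.card ι ≤ d)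
    {U : Submodule ℝ g.L} (hU : g.RatS H U) (hUg : IsG g U) :
    ∃ (q : ℕ) (ρ : g'.L →ₗ[ℝ] g.L), 1 ≤ q ∧ (q : ℝ) ≤ Gon.bl d (Gon.bl d H) ∧ (∀ y, ρ y ∈ U) ∧
      (∀ x ∈ U, φ (ρ (φ x)) = φ x) ∧ (∀ r y, g'.Den r y → g.Den (q * r) (ρ y)) ∧
      (∀ i k, ρ (g'.e i) k ≠ 0 → g.wt k = g'.wt i) ∧
      ∀ (R : ℝ) (y : g'.L), 0 ≤ R → (∀ k, |y k| ≤ R) →
        ∀ k, |ρ y k| ≤ Gon.bl d H * Gon.bl d (Gon.bl d H) * R := by
  obtain ⟨q, l, hq1, hq2, h1, h2, h3, h4⟩ := RedK85.exists_lift hφ hH hd hU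
  have hb1 := Gon.one_le_bl d hH
  have hb2 := Gon.one_le_bl d hb1
  refine ⟨q, Push14.gp l, hq1, hq2, fun y => (Push14.mem_iff hUg _).2 fun n => ?_,
    fun x hx => Push14.hp_ext fun n => ?_, fun r y hy => Push14.den_gp (h4 r) hy, gp_gr l,
    fun R y hR hy k => ?_⟩
  · rw [Push14.hp_gp]; exact hUg n _ (h1 _)
  · rw [← hgr, Push14.hp_gp, hgr, h2 _ ⟨hp g n x, hUg n x hx, hgr n x⟩, Push14.hp_hp]
  · have := Push14.sm_gp (T := 1) (by positivity) hR one_pos h3 (y := y) (by simpa using hy) k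
    simpa using this

end P54

open P54 in
theorem pushRStmt : PushRStmt := by
  obtain ⟨C, hC⟩ : ∃ C : ℕ, ∀ (m : ℝ) (d : ℕ), 2 ≤ m → (d : ℝ) ≤ m →
      d * (Real.exp m * Real.exp m) ≤ Real.exp (m ^ C) ∧
      Real.exp m * Real.exp m ≤ Real.exp (m ^ C) ∧
      Gon.bl d (Gon.bl d (Real.exp m)) * (Gon.bl d (Real.exp m) *
        Gon.bl d (Gon.bl d (Real.exp m)) * 1) ≤ Real.exp (m ^ C) ∧
      Gon.bl d (Gon.bl d (Gon.bl d (Real.exp m))) * (Gon.bl d (Gon.bl d (Real.exp m)) *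
        Gon.bl d (Gon.bl d (Gon.bl d (Real.exp m))) * Gon.bl d (Real.exp m)) ≤
        Real.exp (m ^ C) := by
    unfold Gon.bl; qp
  refine ⟨C + 1, by omega, fun m hm ι ι' _ _ g g' hι hι' => ?_⟩
  set d := max (Fintype.card ι) (Fintype.card ι') with hd
  have hdι : Fintype.card ι ≤ d := le_max_left _ _
  have hCC : Real.exp (m ^ C) ≤ Real.exp (m ^ (C + 1)) :=
    Real.exp_le_exp.2 (pow_le_pow_right₀ (by linarith) (Nat.le_succ C))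
  obtain ⟨b1, b2, b3, b4⟩ := hC m d hm (by rw [hd]; push_cast; exact max_le hι hι')
  replace b1 := b1.trans hCC
  replace b2 := b2.trans hCC
  replace b3 := b3.trans hCC
  replace b4 := b4.trans hCC
  have hM1 : 1 ≤ Real.exp m := Real.one_le_exp (by linarith)
  have hb1 := Gon.one_le_bl d hM1
  have hb2 := Gon.one_le_bl d hb1
  have hb3 := Gon.one_le_bl d hb2
  have hsm : ∀ (σ : Type) (c : Cs σ) (φ : g.L →ₗ[ℝ] g'.L), RMap g g' m φ →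
      ∀ x, SmR c g m x → SmR c g' (m ^ (C + 1)) (bcl φ (Pl σ) x) := by
    rintro σ c φ hφ _ ⟨e, h1, h2, rfl⟩
    refine ⟨bcl φ (Pl σ) e, bcl_hm (rmap_gr hφ) h1, fun k => ?_, (subst_bcl φ _ e).symm⟩
    refine ((nrm_bcl (rmap_abs hφ) h2 k).trans ?_).trans b1
    have : (Fintype.card ι : ℝ) ≤ d := by exact_mod_cast hdι
    gcongr
  have hrt : ∀ (σ : Type) (c : Cs σ) (φ : g.L →ₗ[ℝ] g'.L), RMap g g' m φ →
      ∀ x, RtR c.lev g m x → RtR c.lev g' (m ^ (C + 1)) (bcl φ (Pl σ) x) := by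
    rintro σ c φ hφ x ⟨h1, q, h2, h3, h4⟩
    obtain ⟨D, hD1, hD2, hD3⟩ := id hφ
    refine ⟨bcl_hm (rmap_gr hφ) h1, D * q, Nat.mul_pos hD1 h2, le_trans ?_ b2, ratP_bcl hD3.int h4⟩
    push_cast
    exact mul_le_mul hD2 h3 (by positivity) (by positivity)
  refine ⟨fun σ c φ hφ => ⟨fun x hx => bcl_hm (rmap_gr hφ) hx, hsm σ c φ hφ, hrt σ c φ hφ, ?_⟩,
    ?_, fun φ U hφ hU => ?_, fun U W hU hW => ?_⟩
  · obtain ⟨D, hD1, hD2, hD3⟩ := hφ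
    exact ⟨D, hD1, hD2, fun q x hx => ratP_bcl hD3.int hx⟩
  · rintro σ c φ S U _ hφ ⟨ε, y, γ, h1, h2, h3, h4, rfl⟩
    refine ⟨bc φ _ ε, bc φ _ y, bc φ _ γ, hsm σ c _ hφ ε h1, bcl_hm (rmap_gr hφ) h2, bcl_uo h3,
      hrt σ c _ hφ γ h4, ?_⟩
    rw [Bch.map_star, Bch.map_star]
  · obtain ⟨q, ρ, hq1, hq2, h1, h2, h3, h4, h5⟩ :=
      exists_glift' hφ.int (Push14.map_hp hφ.gr) hM1 hdι hU.rat hU.gr
    refine ⟨ρ, rmap_of hq1 (B := Gon.bl d (Real.exp m) * Gon.bl d (Gon.bl d (Real.exp m)) * 1)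
      (by rw [mul_one]; exact one_le_mul_of_one_le_of_one_le hb1 hb2) (le_trans (by gcongr) b3) h4
      (fun i => by simpa using h3 1 _ (den_e i)) (fun i => h5 1 _ zero_le_one (abs_e i)), h1, h2⟩
  · obtain ⟨p, hp1, hp2, hp3⟩ := Push14.exists_gker hM1 hdι hW.rat hW.gr
    obtain ⟨q, ρ, hq1, hq2, h1, h2, h3, h4, h5⟩ := exists_glift' hp1 (Push14.map_hp hp2) hb1 hdι
      (hU.rat.mono (Gon.le_bl d hM1)) hU.gr
    refine ⟨ρ ∘ₗ p, rmap_of hq1 (B := Gon.bl d (Gon.bl d (Real.exp m)) *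
        Gon.bl d (Gon.bl d (Gon.bl d (Real.exp m))) * Gon.bl d (Real.exp m))
      (one_le_mul_of_one_le_of_one_le (one_le_mul_of_one_le_of_one_le hb2 hb3) hb1)
      (le_trans (by gcongr) b4) (gr_of_hp fun n x => ?_)
      (fun i => by simpa using h3 1 _ (St.den_map hp1 (den_e i)))
      (fun i => h5 _ _ (by linarith) fun k => ?_), fun x => h1 _, fun x hx => ?_⟩
    · rw [LinearMap.comp_apply, LinearMap.comp_apply, Push14.map_hp hp2, Push14.map_hp h4]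
    · obtain ⟨z, hz, hz'⟩ := hp1 i k
      rw [hz]; exact hz'
    · obtain ⟨u, hu, w, hw, rfl⟩ := Submodule.mem_sup.1 hx
      have h6 : p w = 0 := by rw [← hp3] at hw; exact hw
      rw [← hp3, LinearMap.mem_ker, LinearMap.comp_apply, map_sub, map_add, h6, add_zero, h2 u hu,
        sub_self]

end Crest.Agent.T49.Br
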