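import Crest.Agent.T49.BrAh_60
import Crest.Agent.T49.BrAux_52
import Crest.Agent.T49.BrClos_14
import Crest.Agent.T49.BrFin_27
import Crest.Agent.T49.BrGauge_62
import Crest.Agent.T49.BrGrid_9
import Crest.Agent.T49.BrLin_66
import Crest.Agent.T49.BrMk_16
import Crest.Agent.T49.BrNu_73
import Crest.Agent.T49.BrPetal_98
import Crest.Agent.T49.BrPush_54
import Crest.Agent.T49.BrUniq_32

/-!
# Row 49 (helper62): the relative structure theorem, assembled
-/

set_option autoImplicit false

namespace Crest.Agent.T49.Br

theorem uniqR : UniqRStmt := uniqRStmt pushRStmt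

theorem pullR : PullRStmt := pullRStmt closRStmt pushRStmt

theorem lin3R : Lin3RStmt := lin3RStmt closRStmt pushRStmt uniqR

theorem gourR : GourRStmt := gourRStmt closRStmt uniqR pullR

theorem mkR : MkRStmt := mkRStmt closRStmt uniqR

theorem gridR : GridStmt := gridStmt closRStmt uniqR gourR mkR

theorem nuR : NuStmt :=
  nuStmt closRStmt pushRStmt uniqR pullR petal3Stmt gourR mkR gridR auxRStmt

theorem linR : LinStmt := linStmt uniqR lin3R petal3Stmt mkR gaugeStmt affStmt

theorem finR : FinStmt := finStmt closRStmt pushRStmt uniqR petal3Stmt mkR twAHStmt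

/-- The relative structure theorem, unconditional. -/
theorem structRStmt : StructRStmt := structR_of nuR linR finR

end Crest.Agent.T49.Br
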