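import Mathlib

/-! Row 49 (helper71): counting lemmas for the gauge lemma (references, cherries, boxes). -/

set_option autoImplicit false

open Finset

namespace Crest.Agent.T49.Br.Cnt71

open Classical in
/-- Cauchy-Schwarz over the fibres of a map -/
theorem fib_cs {X Y : Type*} (Q : Finset X) (f : X → Y) (T : Finset Y) (hf : ∀ x ∈ Q, f x ∈ T) :
    (#Q : ℝ) ^ 2 ≤ #T * #{p ∈ Q ×ˢ Q | f p.1 = f p.2} := by
  have h1 : (#Q : ℝ) = ∑ y ∈ T, (#{x ∈ Q | f x = y} : ℝ) := by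
    exact_mod_cast card_eq_sum_card_fiberwise hf
  have h2 : (#{p ∈ Q ×ˢ Q | f p.1 = f p.2} : ℝ) = ∑ y ∈ T, (#{x ∈ Q | f x = y} : ℝ) ^ 2 := by
    have := card_eq_sum_card_fiberwise (s := {p ∈ Q ×ˢ Q | f p.1 = f p.2}) (t := T)
      (f := fun p => f p.1) fun p hp => hf _ (mem_product.1 (mem_filter.1 hp).1).1
    rw [this]
    push_cast
    refine sum_congr rfl fun y _ => ?_
    rw [sq, ← Nat.cast_mul, ← card_product]
    congr 2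
    ext p
    simp only [mem_filter, mem_product]
    constructor
    · rintro ⟨⟨⟨a, b⟩, c⟩, d⟩
      exact ⟨⟨a, d⟩, b, c ▸ d⟩
    · rintro ⟨⟨a, d⟩, b, c⟩
      exact ⟨⟨⟨a, b⟩, d.trans c.symm⟩, d⟩
  rw [h1, h2]
  exact sq_sum_le_card_mul_sum_sq

open Classical in
/-- a popular reference for every key -/
theorem exists_sec {X K Γ : Type*} [Nonempty Γ] (Z : Finset X) (k : X → K) (r : X → Γ)
    (R : Finset Γ) (hr : ∀ z ∈ Z, r z ∈ R) :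
    ∃ s : K → Γ, (#Z : ℝ) ≤ #R * #{z ∈ Z | r z = s (k z)} := by
  have key : ∀ κ : K, ∃ γ : Γ,
      #{z ∈ Z | k z = κ} ≤ #R * #{z ∈ Z | k z = κ ∧ r z = γ} := by
    intro κ
    rcases R.eq_empty_or_nonempty with rfl | hne
    · have : Z = ∅ := eq_empty_of_forall_notMem fun z hz => by simpa using hr z hz
      exact ⟨Classical.arbitrary Γ, by simp [this]⟩
    · obtain ⟨γ, -, hγ⟩ := exists_max_image R (fun γ => #{z ∈ Z | k z = κ ∧ r z = γ}) hne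
      refine ⟨γ, ?_⟩
      rw [card_eq_sum_card_fiberwise (f := r) (t := R) fun z hz => hr z (mem_filter.1 hz).1]
      refine (sum_le_card_nsmul _ _ _ fun γ' h => ?_).trans (le_of_eq (smul_eq_mul _ _))
      rw [filter_filter]
      exact hγ γ' h
  choose s hs using key
  refine ⟨s, ?_⟩
  have h1 : #Z = ∑ κ ∈ Z.image k, #{z ∈ Z | k z = κ} :=
    card_eq_sum_card_fiberwise fun z hz => mem_image_of_mem k hz
  have h2 : #{z ∈ Z | r z = s (k z)} = ∑ κ ∈ Z.image k, #{z ∈ Z | k z = κ ∧ r z = s κ} := by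
    rw [card_eq_sum_card_fiberwise (f := k) (t := Z.image k)
      fun z hz => mem_image_of_mem k (mem_filter.1 hz).1]
    refine sum_congr rfl fun κ _ => ?_
    congr 1
    ext z
    simp only [mem_filter]
    constructor
    · rintro ⟨⟨a, b⟩, c⟩
      exact ⟨a, c, c ▸ b⟩
    · rintro ⟨a, c, b⟩
      exact ⟨⟨a, c ▸ b⟩, c⟩
  rw [h1, h2]
  push_cast
  rw [mul_sum]
  exact sum_le_sum fun κ _ => by exact_mod_cast hs κ

theorem fib_cs' {X Y : Type*} (Q : Finset X) (f : X → Y) (T : Finset Y) (hf : ∀ x ∈ Q, f x ∈ T)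
    {n : ℝ} (hn : (#T : ℝ) ≤ n) : ∃ Z : Finset (X × X),
      (∀ p ∈ Z, p.1 ∈ Q ∧ p.2 ∈ Q ∧ f p.1 = f p.2) ∧ (#Q : ℝ) ^ 2 ≤ n * #Z :=
  ⟨_, fun p hp => by simpa [and_assoc] using hp,
    (fib_cs Q f T hf).trans (mul_le_mul_of_nonneg_right hn (Nat.cast_nonneg _))⟩

theorem exists_sec' {X K Γ : Type*} [Nonempty Γ] (Z : Finset X) (k : X → K) (r : X → Γ)
    (R : Finset Γ) (hr : ∀ z ∈ Z, r z ∈ R) {n : ℝ} (hn : (#R : ℝ) ≤ n) :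
    ∃ s : K → Γ, ∃ Z' : Finset X, (∀ z ∈ Z', z ∈ Z ∧ r z = s (k z)) ∧ (#Z : ℝ) ≤ n * #Z' := by
  classical
  obtain ⟨s, hs⟩ := exists_sec Z k r R hr
  exact ⟨s, _, fun z hz => by simpa using hz,
    hs.trans (mul_le_mul_of_nonneg_right hn (Nat.cast_nonneg _))⟩

variable {X K Γ : Type*} [Nonempty Γ] {B : Finset Γ} {N : ℝ}

omit [Nonempty Γ] in
theorem card2 (hN : (#B : ℝ) ≤ N) : (#(B ×ˢ B) : ℝ) ≤ N ^ 2 := by
  rw [card_product, Nat.cast_mul, sq]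
  exact mul_self_le_mul_self (Nat.cast_nonneg _) hN

omit [Nonempty Γ] in
theorem card3 (hN : (#B : ℝ) ≤ N) : (#(B ×ˢ B ×ˢ B) : ℝ) ≤ N ^ 3 := by
  rw [card_product, Nat.cast_mul, pow_succ']
  exact mul_le_mul hN (card2 hN) (Nat.cast_nonneg _) ((Nat.cast_nonneg _).trans hN)

/-- CHERRY: a neighbour with a prescribed third entry -/
theorem cherry (hN : (#B : ℝ) ≤ N) (Q : Finset X) (c x y : X → Γ)
    (hB : ∀ q ∈ Q, c q ∈ B ∧ x q ∈ B ∧ y q ∈ B)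
    (inj : ∀ q ∈ Q, ∀ q' ∈ Q, c q = c q' → x q = x q' → y q = y q' → q = q') (key : X → K) :
    ∃ Q' ⊆ Q, (#Q : ℝ) ^ 2 ≤ N ^ 3 * #Q' ∧ ∃ s : K → Γ,
      ∀ q ∈ Q', ∃ q' ∈ Q, c q' = c q ∧ x q' = x q ∧ y q' = s (key q) := by
  classical
  have hN0 : (0 : ℝ) ≤ N := (Nat.cast_nonneg _).trans hN
  obtain ⟨Z, hZ, h1⟩ := fib_cs' Q (fun q => (c q, x q)) (B ×ˢ B)
    (fun q hq => mem_product.2 ⟨(hB q hq).1, (hB q hq).2.1⟩) (card2 hN)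
  have hZm : ∀ p ∈ Z, p.1 ∈ Q ∧ p.2 ∈ Q ∧ c p.1 = c p.2 ∧ x p.1 = x p.2 := fun p hp => by
    simpa using hZ p hp
  obtain ⟨s, Z', hZ', hs⟩ := exists_sec' Z (fun p => key p.1) (fun p => y p.2) B
    (fun p hp => (hB _ (hZm p hp).2.1).2.2) hN
  refine ⟨Z'.image Prod.fst, fun q hq => ?_, ?_, s, fun q hq => ?_⟩
  · obtain ⟨p, hp, rfl⟩ := mem_image.1 hq
    exact (hZm p (hZ' p hp).1).1
  · rw [card_image_of_injOn fun p hp p' hp' e => ?_]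
    · refine (h1.trans (mul_le_mul_of_nonneg_left hs (by positivity))).trans (le_of_eq ?_)
      ring
    · obtain ⟨a, b⟩ := hZ' p hp
      obtain ⟨a', b'⟩ := hZ' p' hp'
      obtain ⟨-, a2, a3, a4⟩ := hZm p a
      obtain ⟨-, b2, b3, b4⟩ := hZm p' a'
      refine Prod.ext e (inj _ a2 _ b2 ?_ ?_ ?_)
      · rw [← a3, ← b3, e]
      · rw [← a4, ← b4, e]
      · rw [b, b', e]
  · obtain ⟨p, hp, rfl⟩ := mem_image.1 hq
    obtain ⟨a, b⟩ := hZ' p hp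
    obtain ⟨-, a2, a3, a4⟩ := hZm p a
    exact ⟨p.2, a2, a3.symm, a4.symm, b⟩

/-- VAL: a label that depends on `(c, x)` only and on `(c, y)` only depends on `c` only on a dense
part -/
theorem val {L : Type*} (hN : (#B : ℝ) ≤ N) (Q : Finset X) (c x y : X → Γ)
    (hB : ∀ q ∈ Q, c q ∈ B ∧ x q ∈ B ∧ y q ∈ B)
    (inj : ∀ q ∈ Q, ∀ q' ∈ Q, c q = c q' → x q = x q' → y q = y q' → q = q') (P : X → L)
    (hx : ∀ q ∈ Q, ∀ q' ∈ Q, c q = c q' → x q = x q' → P q = P q')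
    (hy : ∀ q ∈ Q, ∀ q' ∈ Q, c q = c q' → y q = y q' → P q = P q') :
    ∃ Q' ⊆ Q, (#Q : ℝ) ^ 2 ≤ N ^ 3 * #Q' ∧ ∀ q ∈ Q', ∀ q' ∈ Q', c q = c q' → P q = P q' := by
  obtain ⟨Q', h1, h2, s, h3⟩ := cherry hN Q c x y hB inj c
  refine ⟨Q', h1, h2, fun q hq q' hq' e => ?_⟩
  obtain ⟨a, ha, a1, a2, a3⟩ := h3 q hq
  obtain ⟨b, hb, b1, b2, b3⟩ := h3 q' hq'
  rw [← hx a ha q (h1 hq) a1 a2, ← hx b hb q' (h1 hq') b1 b2]
  exact hy a ha b hb (by rw [a1, b1, e]) (by rw [a3, b3, e])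

open Classical in
/-- C4-REF: one generic reference corner for every slice -/
theorem box_ref (hN : (#B : ℝ) ≤ N) (hN0 : 0 < N) (Q : Finset X) (l l2 r r2 : X → Γ) (k : X → K)
    (hB : ∀ q ∈ Q, l q ∈ B ∧ l2 q ∈ B ∧ r q ∈ B ∧ r2 q ∈ B)
    (hl : ∀ q ∈ Q, ∀ q' ∈ Q, l q = l q' → l2 q = l2 q' → k q = k q')
    (hr : ∀ q ∈ Q, ∀ q' ∈ Q, r q = r q' → r2 q = r2 q' → k q = k q')
    (inj : ∀ q ∈ Q, ∀ q' ∈ Q, k q = k q' → l q = l q' → r q = r q' → q = q')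
    (G : (Fin 5 → Γ) → Prop) {δ ε : ℝ} (hδ : 0 ≤ δ) (hQ : δ * N ^ 3 ≤ #Q)
    (hG : (#{t ∈ Fintype.piFinset fun _ : Fin 5 => B | ¬ G t} : ℝ) ≤ ε * N ^ 5) :
    ∃ Q' ⊆ Q, (δ ^ 4 - ε) * N ^ 3 ≤ #Q' ∧ ∃ ls rs : K → Γ, ∀ q ∈ Q',
      ∃ q01 ∈ Q, ∃ q10 ∈ Q, ∃ q11 ∈ Q, (k q01 = k q ∧ l q01 = l q ∧ r q01 = rs (k q)) ∧
        (k q10 = k q ∧ l q10 = ls (k q) ∧ r q10 = r q) ∧
        (k q11 = k q ∧ l q11 = ls (k q) ∧ r q11 = rs (k q)) ∧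
        G ![l q, ls (k q), l2 q, r q, rs (k q)] := by
  obtain ⟨Z, hZ, e1⟩ := fib_cs' Q (fun q => (l q, l2 q)) (B ×ˢ B)
    (fun q hq => mem_product.2 ⟨(hB q hq).1, (hB q hq).2.1⟩) (card2 hN)
  have hZm : ∀ p ∈ Z, p.1 ∈ Q ∧ p.2 ∈ Q ∧ l p.1 = l p.2 ∧ l2 p.1 = l2 p.2 := fun p hp => by
    simpa using hZ p hp
  obtain ⟨W, hW, e2⟩ := fib_cs' Z (fun p => (r p.1, r2 p.1, r p.2)) (B ×ˢ B ×ˢ B) (fun p hp =>
    mem_product.2 ⟨(hB _ (hZm p hp).1).2.2.1, mem_product.2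
      ⟨(hB _ (hZm p hp).1).2.2.2, (hB _ (hZm p hp).2.1).2.2.1⟩⟩) (card3 hN)
  have hWm : ∀ p ∈ W, (p.1.1 ∈ Q ∧ p.1.2 ∈ Q ∧ p.2.1 ∈ Q ∧ p.2.2 ∈ Q) ∧
      (k p.1.2 = k p.1.1 ∧ k p.2.1 = k p.1.1 ∧ k p.2.2 = k p.1.1) ∧
      l p.1.2 = l p.1.1 ∧ l p.2.2 = l p.2.1 ∧ r p.2.1 = r p.1.1 ∧ r p.2.2 = r p.1.2 := by
    intro p hp
    obtain ⟨a, a', b⟩ := hW p hp
    obtain ⟨a1, a2, a3, a4⟩ := hZm _ a
    obtain ⟨b1, b2, b3, b4⟩ := hZm _ a'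
    simp only [Prod.mk.injEq] at b
    have e1 := hr _ a1 _ b1 b.1 b.2.1
    exact ⟨⟨a1, a2, b1, b2⟩, ⟨(hl _ a1 _ a2 a3 a4).symm, e1.symm,
      (e1.trans (hl _ b1 _ b2 b3 b4)).symm⟩, a3.symm, b3.symm, b.1.symm, b.2.2.symm⟩
  have hWext : ∀ p ∈ W, ∀ p' ∈ W, k p.1.1 = k p'.1.1 → l p.1.1 = l p'.1.1 → l p.2.1 = l p'.2.1 →
      r p.1.1 = r p'.1.1 → r p.1.2 = r p'.1.2 → p = p' := by
    intro p hp p' hp' e1 e2 e3 e4 e5
    obtain ⟨⟨a1, a2, a3, a4⟩, ⟨k1, k2, k3⟩, c1, c2, c3, c4⟩ := hWm p hp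
    obtain ⟨⟨b1, b2, b3, b4⟩, ⟨j1, j2, j3⟩, d1, d2, d3, d4⟩ := hWm p' hp'
    refine Prod.ext (Prod.ext (inj _ a1 _ b1 e1 e2 e4) (inj _ a2 _ b2 ?_ ?_ e5))
      (Prod.ext (inj _ a3 _ b3 ?_ e3 ?_) (inj _ a4 _ b4 ?_ ?_ ?_))
    · rw [k1, j1, e1]
    · rw [c1, d1, e2]
    · rw [k2, j2, e1]
    · rw [c3, d3, e4]
    · rw [k3, j3, e1]
    · rw [c2, d2, e3]
    · rw [c4, d4, e5]
  set t : (X × X) × X × X → Fin 5 → Γ :=
    fun p => ![l p.1.1, l p.2.1, l2 p.1.1, r p.1.1, r p.1.2] with ht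
  have hWc : δ ^ 4 * N ^ 5 ≤ #W := by
    have e3 : δ ^ 2 * N ^ 4 ≤ #Z := by
      refine le_of_mul_le_mul_left ?_ (pow_pos hN0 2)
      refine le_trans (le_of_eq ?_) ((pow_le_pow_left₀ (by positivity) hQ 2).trans e1)
      ring
    refine le_of_mul_le_mul_left ?_ (pow_pos hN0 3)
    refine le_trans (le_of_eq ?_) ((pow_le_pow_left₀ (by positivity) e3 2).trans e2)
    ring
  have hbad : (#{p ∈ W | ¬ G (t p)} : ℝ) ≤ ε * N ^ 5 := by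
    refine le_trans (Nat.cast_le.2 (card_le_card_of_injOn t (fun p hp => ?_)
      fun p hp p' hp' e => ?_)) hG
    · obtain ⟨a, b⟩ := mem_filter.1 hp
      obtain ⟨⟨a1, a2, a3, -⟩, -⟩ := hWm p a
      refine mem_filter.2 ⟨Fintype.mem_piFinset.2 fun i => ?_, b⟩
      fin_cases i
      exacts [(hB _ a1).1, (hB _ a3).1, (hB _ a1).2.1, (hB _ a1).2.2.1, (hB _ a2).2.2.1]
    · have a := (mem_filter.1 hp).1
      have b := (mem_filter.1 hp').1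
      exact hWext p a p' b (hl _ (hWm p a).1.1 _ (hWm p' b).1.1 (congrFun e 0) (congrFun e 2))
        (congrFun e 0) (congrFun e 1) (congrFun e 3) (congrFun e 4)
  set W' := {p ∈ W | G (t p)} with hW'
  have hW'c : (δ ^ 4 - ε) * N ^ 5 ≤ #W' := by
    have := card_filter_add_card_filter_not (s := W) fun p => G (t p)
    have e : (#W' : ℝ) + #{p ∈ W | ¬ G (t p)} = #W := by exact_mod_cast this
    linarith
  obtain ⟨s, W'', hW'', e1⟩ := exists_sec' W' (fun p => k p.1.1) (fun p => (l p.2.1, r p.1.2))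
    (B ×ˢ B) (fun p hp => by
      obtain ⟨⟨-, a2, a3, -⟩, -⟩ := hWm p (mem_filter.1 hp).1
      exact mem_product.2 ⟨(hB _ a3).1, (hB _ a2).2.2.1⟩) (card2 hN)
  have hm : ∀ p ∈ W'', p ∈ W ∧ G (t p) ∧ l p.2.1 = (s (k p.1.1)).1 ∧ r p.1.2 = (s (k p.1.1)).2 := by
    intro p hp
    obtain ⟨a, b⟩ := hW'' p hp
    exact ⟨(mem_filter.1 a).1, (mem_filter.1 a).2, congrArg Prod.fst b, congrArg Prod.snd b⟩
  refine ⟨W''.image fun p => p.1.1, fun q hq => ?_, ?_, fun κ => (s κ).1, fun κ => (s κ).2,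
    fun q hq => ?_⟩
  · obtain ⟨p, hp, rfl⟩ := mem_image.1 hq
    exact (hWm p (hm p hp).1).1.1
  · rw [card_image_of_injOn fun p hp p' hp' e => ?_]
    · refine le_of_mul_le_mul_left ?_ (pow_pos hN0 2)
      refine le_trans (le_of_eq ?_) (hW'c.trans e1)
      ring
    · obtain ⟨a, -, a1, a2⟩ := hm p hp
      obtain ⟨b, -, b1, b2⟩ := hm p' hp'
      have e' : p.1.1 = p'.1.1 := e
      exact hWext p a p' b (by rw [e']) (by rw [e']) (by rw [a1, b1, e']) (by rw [e'])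
        (by rw [a2, b2, e'])
  · obtain ⟨p, hp, rfl⟩ := mem_image.1 hq
    obtain ⟨a, g, a1, a2⟩ := hm p hp
    obtain ⟨⟨-, b2, b3, b4⟩, ⟨k1, k2, k3⟩, c1, c2, c3, c4⟩ := hWm p a
    refine ⟨p.1.2, b2, p.2.1, b3, p.2.2, b4, ⟨k1, c1, a2⟩, ⟨k2, a1, c3⟩,
      ⟨k3, c2.trans a1, c4.trans a2⟩, ?_⟩
    simp only [← a1, ← a2]
    exact g

end Crest.Agent.T49.Br.Cnt71
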