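import Crest.Agent.T49.BrDef_62

/-!
# Row 49 (helper62): the gauge lemma, polynomial part
-/

set_option autoImplicit false

noncomputable section

namespace Crest.Agent.T49.Br.G62

open Finset MvPolynomial
open Crest.Agent.T49.Tw (Pl nrm DegLe)

/-- the functional equation on a parallelogram `x, x + p, x + q, x + p + q` -/
theorem funeq {A R : Type*} [AddCommGroup A] [CommRing R] (Φ : A → A → A → R)
    (A1 B1 A2 B2 A3 B3 : A → A → R)
    (h1 : ∀ x p q, Φ x p q = A1 x q + B1 (x + p) q)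
    (h2 : ∀ x p q, Φ x p q = A2 x p + B2 (x + q) p)
    (h3 : ∀ x p q, Φ x p q = A3 x (x + p + q) + B3 (x + p) (x + q)) (x p q : A) :
    Φ (x + x) (p + p) (q + q) - 2 * Φ x p q + Φ 0 0 0 =
      (Φ (x + x) (-x) (-x) - Φ x 0 (-x) - Φ x (-x) 0 + Φ 0 0 0) +
      (Φ 0 (x + p + q) (x + p + q) - Φ 0 (x + p + q) 0 - Φ 0 0 (x + p + q) + Φ 0 0 0) +
      (Φ (x + p) (x + p) (-(x + p)) - Φ (x + p) 0 (-(x + p)) - Φ 0 (x + p) 0 + Φ 0 0 0) +
      (Φ (x + q) (-(x + q)) (x + q) - Φ (x + q) (-(x + q)) 0 - Φ 0 0 (x + q) + Φ 0 0 0) := by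
  obtain ⟨g, hg⟩ : ∃ g : A → A → R, ∀ a b, g a b = Φ 0 a b - Φ 0 a 0 - Φ 0 0 b + Φ 0 0 0 :=
    ⟨_, fun _ _ => rfl⟩
  have g0 : ∀ a, g a 0 = 0 := fun a => by rw [hg]; ring
  have g0' : ∀ a, g 0 a = 0 := fun a => by rw [hg]; ring
  have e1 : ∀ x p q, Φ x p q = Φ x 0 q + Φ 0 (x + p) q - Φ 0 x q := fun x p q => by
    simp only [h1, zero_add, add_zero]; ring
  have e2 : ∀ x p q, Φ x p q = Φ x p 0 + Φ 0 p (x + q) - Φ 0 p x := fun x p q => by
    simp only [h2, zero_add, add_zero]; ring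
  have hF : ∀ x p q y z, y = x + p → z = x + q → Φ x p q = Φ x 0 0 - Φ 0 0 x - Φ 0 x 0 + Φ 0 0 z +
      Φ 0 y 0 + g y q - g x q := fun x p q y z hy hz => by
    subst hy hz
    rw [hg, hg]
    linear_combination e1 x p q + e2 x 0 q
  have coc : ∀ a b c, g a b + g (a + b) c = g b c + g a (b + c) := fun a b c => by
    have k1 := hF b a c (a + b) (b + c) (add_comm _ _) rfl
    have k2 := e2 b a c
    have k3 := e1 b a 0
    rw [add_comm b a] at k3
    simp only [hg] at k1 ⊢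
    linear_combination k2 - k1 + k3
  have sym : ∀ a b, g a b = g b a := fun a b => by
    have k1 := h3 a (b - a) 0
    have k2 := h3 a (-a) b
    have k3 := h3 0 b a
    have k4 := h3 0 0 (a + b)
    have l1 := hF a (b - a) 0 b a (by abel) (by abel)
    have l2 := hF a (-a) b 0 (a + b) (by abel) rfl
    have l3 := hF 0 b a b a (by abel) (by abel)
    have l4 := hF 0 0 (a + b) 0 (a + b) (by abel) (by abel)
    simp only [add_sub_cancel, add_zero, add_neg_cancel, zero_add, add_comm b a] at k1 k2 k3 k4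
    simp only [g0, g0'] at l1 l2 l3 l4
    linear_combination k1 - k2 - k3 + k4 - l1 + l2 + l3 - l4
  have dbl : ∀ a b c, c = a + b → g (a + a) (b + b) - 2 * g a b = g c c - g a a - g b b :=
    fun a b c hc => by
      have k1 := coc a a (b + b)
      have k2 := coc a b b
      have k3 := coc (a + b) a b
      have k4 := coc a (a + b) b
      have k5 := sym a (a + b)
      rw [show a + (b + b) = a + b + b by abel] at k1
      rw [show a + b + a = a + (a + b) by abel] at k3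
      subst hc
      linear_combination k1 - k2 - k4 + k3 + k5
  have neg : ∀ a, g a (-a) - g (a + a) (-a) = g a a := fun a => by
    have k := coc a a (-a)
    rw [add_neg_cancel, g0] at k
    linear_combination -k
  rw [hF (x + x) (p + p) (q + q) (x + p + (x + p)) (x + q + (x + q)) (by abel) (by abel),
    hF x p q _ _ rfl rfl, hF (x + x) (-x) (-x) x x (by abel) (by abel),
    hF x 0 (-x) x 0 (by abel) (by abel), hF x (-x) 0 0 x (by abel) (by abel),
    hF (x + p) (x + p) (-(x + p)) _ 0 rfl (by abel),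
    hF (x + p) 0 (-(x + p)) (x + p) 0 (by abel) (by abel),
    hF (x + q) (-(x + q)) (x + q) 0 _ (by abel) rfl,
    hF (x + q) (-(x + q)) 0 0 (x + q) (by abel) (by abel)]
  simp only [g0, g0']
  linear_combination dbl (x + p) q _ rfl - dbl x q _ rfl - neg x + neg (x + p) + hg (x + p + q) (x + p + q)

variable {β κ : Type}

/-- substitution of blocks -/
abbrev sb (β κ : Type) {Λ Λ' : Type} [Fintype Λ'] (M : Λ → Λ' → ℤ) :
    Pl (V β κ Λ) →ₐ[ℝ] Pl (V β κ Λ') := aeval (sub β κ M)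

/-- component of marked degree `d` -/
abbrev wh (β κ Λ : Type) (d : ℕ) : Pl (V β κ Λ) →ₗ[ℝ] Pl (V β κ Λ) :=
  weightedHomogeneousComponent (mk β κ Λ) d

theorem sb_sb {Λ Λ' Λ'' : Type} [Fintype Λ'] [Fintype Λ''] (M : Λ → Λ' → ℤ) (M' : Λ' → Λ'' → ℤ)
    (f : Pl (V β κ Λ)) : sb β κ M' (sb β κ M f) = sb β κ (fun a => ∑ b, M a b • M' b) f := by
  rw [← AlgHom.comp_apply]
  congr 1
  refine algHom_ext fun v => ?_
  cases v with
  | inl v => simp [sub]
  | inr p =>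
    simp only [AlgHom.comp_apply, aeval_X, sub, Sum.elim_inr, map_sum, map_mul, aeval_C,
      algebraMap_eq, mul_sum, Finset.sum_apply, Pi.smul_apply, smul_eq_mul, Int.cast_sum,
      Int.cast_mul, sum_mul]
    rw [sum_comm]
    exact sum_congr rfl fun c _ => sum_congr rfl fun b _ => by ring

theorem sb_id {Λ : Type} [Fintype Λ] [DecidableEq Λ] {M : Λ → Λ → ℤ}
    (h : ∀ a b, M a b = if a = b then 1 else 0) (f : Pl (V β κ Λ)) : sb β κ M f = f := by
  have : sb β κ M = AlgHom.id ℝ _ := algHom_ext fun v => by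
    cases v with
    | inl v => simp [sub]
    | inr p => simp [sub, h, apply_ite]
  rw [this, AlgHom.id_apply]

theorem sub_hom {Λ Λ' : Type} [Fintype Λ'] (M : Λ → Λ' → ℤ) (w : β → ℕ) (w' : κ → ℕ)
    (v : V β κ Λ) : IsWeightedHomogeneous (Sum.elim w fun p : Λ' × κ => w' p.2) (sub β κ M v)
      (Sum.elim w (fun p : Λ × κ => w' p.2) v) := by
  cases v with
  | inl v => exact isWeightedHomogeneous_X ℝ _ (Sum.inl v)
  | inr p =>
    exact IsWeightedHomogeneous.sum _ _ _ fun b _ =>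
      Tw.hom_C_mul (isWeightedHomogeneous_X ℝ _ (Sum.inr (b, p.2))) _

theorem sub_mk {Λ Λ' : Type} [Fintype Λ'] (M : Λ → Λ' → ℤ) (v : V β κ Λ) :
    IsWeightedHomogeneous (mk β κ Λ') (sub β κ M v) (mk β κ Λ v) :=
  sub_hom M (fun _ => 0) (fun _ => 1) v

theorem wh_sb {Λ Λ' : Type} [Fintype Λ'] (M : Λ → Λ' → ℤ) (d : ℕ) (f : Pl (V β κ Λ)) :
    wh β κ Λ' d (sb β κ M f) = sb β κ M (wh β κ Λ d f) :=
  Tw.whc_bind_hom (sub_mk M) d f

theorem wh_hom {Λ : Type} (d : ℕ) (f : Pl (V β κ Λ)) :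
    IsWeightedHomogeneous (mk β κ Λ) (wh β κ Λ d f) d :=
  weightedHomogeneousComponent_isWeightedHomogeneous d f

theorem sb_zero {Λ Λ' : Type} [Fintype Λ'] {f : Pl (V β κ Λ)} {d : ℕ}
    (hf : IsWeightedHomogeneous (mk β κ Λ) f d) (hd : d ≠ 0) :
    sb β κ (fun _ => 0 : Λ → Λ' → ℤ) f = 0 :=
  Tw.bind_eq_zero_of_hom hf hd fun v hv => by
    cases v with
    | inl v => exact absurd rfl hv
    | inr p => simp [sub]

theorem sb_two {Λ Λ' : Type} [Fintype Λ'] (M : Λ → Λ' → ℤ) {f : Pl (V β κ Λ)} {d : ℕ}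
    (hf : IsWeightedHomogeneous (mk β κ Λ) f d) :
    sb β κ (fun a => M a + M a) f = 2 ^ d * sb β κ M f := by
  refine Eq.trans ?_ (Tw.bind_dilate (g := sub β κ M) 2 hf)
  change bind₁ _ f = _
  congr 2
  funext v
  cases v with
  | inl v => simp [sub, mk]
  | inr p => simp [sub, mk, add_mul, sum_add_distrib, two_mul]

theorem sb_add {Λ Λ' : Type} [Fintype Λ'] (M M' : Λ → Λ' → ℤ) {f : Pl (V β κ Λ)}
    (hf : IsWeightedHomogeneous (mk β κ Λ) f 1) :
    sb β κ (fun a => M a + M' a) f = sb β κ M f + sb β κ M' f := by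
  have h0 : ∀ (N N' : Λ → Λ' → ℤ) (v : V β κ Λ), mk β κ Λ v = 0 → sub β κ N v = sub β κ N' v := by
    intro N N' v hv
    cases v with
    | inl v => simp only [sub, Sum.elim_inl]
    | inr p => exact absurd hv one_ne_zero
  refine Tw.bind_add_of_hom_one (g := sub β κ fun a => M a + M' a) (g₁ := sub β κ M)
    (g₂ := sub β κ M') hf (h0 _ _) (h0 _ _) fun v hv => ?_
  cases v with
  | inl v => exact absurd hv zero_ne_one
  | inr p =>
    simp only [sub, Sum.elim_inr, Pi.add_apply, Int.cast_add, map_add, add_mul, sum_add_distrib]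

theorem up_dw (f : Pl (V β κ (Fin 3))) :
    aeval (up β κ (Fin 3)) (aeval (dw β κ (Fin 3)) f) = wh β κ (Fin 3) 0 f := by
  have h1 : (aeval (up β κ (Fin 3)) : Pl β →ₐ[ℝ] _).comp (aeval (dw β κ (Fin 3))) =
      sb β κ (fun _ => 0 : Fin 3 → Fin 3 → ℤ) := algHom_ext fun v => by
    cases v <;> simp [sub, up, dw]
  rw [← AlgHom.comp_apply, h1]
  classical
  conv_lhs => rw [f.as_sum]
  conv_rhs => rw [f.as_sum]
  simp only [map_sum]
  refine sum_congr rfl fun α _ => ?_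
  have hm := isWeightedHomogeneous_monomial (mk β κ (Fin 3)) α (coeff α f) rfl
  by_cases h : Finsupp.weight (mk β κ (Fin 3)) α = 0
  · rw [h] at hm
    rw [Tw.whc_of_hom hm]
    have h2 := Tw.bind_dilate (g := X) (0 : Pl (V β κ (Fin 3))) hm
    rw [pow_zero, one_mul, bind₁_X_left, AlgHom.id_apply] at h2
    refine Eq.trans ?_ h2
    change bind₁ _ _ = _
    congr 2
    funext v
    cases v <;> simp [sub, mk]
  · rw [sb_zero hm h, Tw.whc_of_hom_ne hm h]

/-- restriction to the line `(T₀, T₁, T₂) = v • T` -/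
abbrev e1 (β κ : Type) (v : Fin 3 → ℤ) : Pl (V β κ (Fin 3)) →ₗ[ℝ] Pl (V β κ Unit) :=
  (sb β κ fun a (_ : Unit) => v a).toLinearMap

/-- the three lines of the potential of role `i` -/
def pv : Fin 4 → Fin 3 → Fin 3 → ℤ :=
  ![![![2, 0, 1], ![1, 0, 1], ![1, 0, 0]], ![![0, 2, 1], ![0, 1, 1], ![0, 1, 0]],
    ![![1, 1, 2], ![1, 0, 1], ![0, 1, 1]], ![![1, 1, 0], ![1, 0, 0], ![0, 1, 0]]]

/-- the part of marked degree `≥ 2` of the potential of role `i` -/
def nl (β κ : Type) (S : ℕ) (i : Fin 4) : Pl (V β κ (Fin 3)) →ₗ[ℝ] Pl (V β κ Unit) :=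
  ∑ d ∈ range (S + 1), if 2 ≤ d then (((2 ^ d - 2 : ℕ) : ℝ))⁻¹ •
    (e1 β κ (pv i 0) ∘ₗ wh β κ _ d - e1 β κ (pv i 1) ∘ₗ wh β κ _ d - e1 β κ (pv i 2) ∘ₗ wh β κ _ d)
    else 0

/-- the linear part on a line -/
def ln (β κ : Type) (v : Fin 3 → ℤ) : Pl (V β κ (Fin 3)) →ₗ[ℝ] Pl (V β κ Unit) :=
  e1 β κ v ∘ₗ wh β κ _ 1

/-- a two-point object in the roles `i`, `j` -/
abbrev pl (β κ : Type) (i j : Fin 4) : Pl (V β κ (Fin 2)) →ₐ[ℝ] Pl (V β κ (Fin 3)) :=
  sb β κ ![rol i, rol j]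

/-- `f` splits along the pairing `{i, j}, {k, l}` -/
def Spl (i j k l : Fin 4) (f : Pl (V β κ (Fin 3))) : Prop := ∃ a b, f = pl β κ i j a + pl β κ k l b

theorem Spl.wh {i j k l : Fin 4} {f : Pl (V β κ (Fin 3))} (h : Spl i j k l f) (d : ℕ) :
    Spl i j k l (wh β κ _ d f) := by
  obtain ⟨a, b, rfl⟩ := h
  exact ⟨G62.wh β κ _ d a, G62.wh β κ _ d b, by rw [map_add, wh_sb, wh_sb]⟩

theorem sep_hom {f : Pl (V β κ (Fin 3))} {d : ℕ} (hf : IsWeightedHomogeneous (mk β κ _) f d)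
    (hd : d ≠ 0) (h1 : Spl 0 3 1 2 f) (h2 : Spl 0 2 1 3 f) (h3 : Spl 0 1 2 3 f) :
    (2 ^ d - 2) * f = ∑ i, sb β κ (fun _ => rol i)
      (e1 β κ (pv i 0) f - e1 β κ (pv i 1) f - e1 β κ (pv i 2) f) := by
  obtain ⟨a1, b1, e1'⟩ := h1
  obtain ⟨a2, b2, e2⟩ := h2
  obtain ⟨a3, b3, e3⟩ := h3
  have key : ∀ (i j : Fin 4) (a : Pl (V β κ (Fin 2))) (x p q : Fin 3 → ℤ),
      sb β κ ![x, x + p + q, x + p] (pl β κ i j a) =
        sb β κ ![![x, x + p + q, x + p, x + q] i, ![x, x + p + q, x + p, x + q] j] a := by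
    intro i j a x p q
    have hr : ∀ i : Fin 4, ∑ b, rol i b • ![x, x + p + q, x + p] b =
        ![x, x + p + q, x + p, x + q] i := fun i => by
      fin_cases i <;> simp [rol, Fin.sum_univ_three]
      abel
    rw [sb_sb]
    congr 2
    funext e
    fin_cases e <;> exact hr _
  have := funeq (fun x p q : Fin 3 → ℤ => sb β κ ![x, x + p + q, x + p] f)
    (fun x q => sb β κ ![x, x + q] a1) (fun y q => sb β κ ![y + q, y] b1)
    (fun x p => sb β κ ![x, x + p] a2) (fun z p => sb β κ ![z + p, z] b2)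
    (fun x y => sb β κ ![x, y] a3) (fun x y => sb β κ ![x, y] b3)
    (fun x p q => by rw [e1', map_add, key, key]; rfl)
    (fun x p q => by rw [e2, map_add, key, key, add_right_comm x q p]; rfl)
    (fun x p q => by rw [e3, map_add, key, key]; rfl) (rol 0) (rol 2 - rol 0) (rol 3 - rol 0)
  have h0 : sb β κ ![(0 : Fin 3 → ℤ), 0 + 0 + 0, 0 + 0] f = 0 := by
    rw [← sb_zero (Λ' := Fin 3) hf hd]
    congr 2
    decide
  have hi : sb β κ ![rol 0, rol 0 + (rol 2 - rol 0) + (rol 3 - rol 0), rol 0 + (rol 2 - rol 0)] f =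
      f := sb_id (by decide) f
  have ht := sb_two ![rol 0, rol 0 + (rol 2 - rol 0) + (rol 3 - rol 0), rol 0 + (rol 2 - rol 0)] hf
  have hc : ∀ {M M' : Fin 3 → Fin 3 → ℤ}, M = M' → sb β κ M f = sb β κ M' f := fun h => by rw [h]
  simp only [h0, hi] at this
  simp only [add_zero] at this
  rw [hi] at ht
  rw [hc (M' := fun a => ![rol 0, rol 0 + (rol 2 - rol 0) + (rol 3 - rol 0),
    rol 0 + (rol 2 - rol 0)] a + ![rol 0, rol 0 + (rol 2 - rol 0) + (rol 3 - rol 0),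
    rol 0 + (rol 2 - rol 0)] a) (by decide), ht] at this
  rw [sub_mul, this, Fin.sum_univ_four]
  simp only [map_sub, AlgHom.toLinearMap_apply, sb_sb]
  refine congrArg₂ _ (congrArg₂ _ (congrArg₂ _ ?_ ?_) ?_) ?_ <;>
    exact congrArg₂ _ (congrArg₂ _ (hc (by decide)) (hc (by decide))) (hc (by decide))

theorem ln_hom (v : Fin 3 → ℤ) (f : Pl (V β κ (Fin 3))) :
    IsWeightedHomogeneous (mk β κ Unit) (ln β κ v f) 1 :=
  Tw.hom_bind' (sub_mk _) (wh_hom 1 f)

theorem ln_add (v v' : Fin 3 → ℤ) (f : Pl (V β κ (Fin 3))) :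
    ln β κ (v + v') f = ln β κ v f + ln β κ v' f :=
  sb_add (fun a (_ : Unit) => v a) (fun a _ => v' a) (wh_hom 1 f)

/-- SEP4 -/
theorem sep {f : Pl (V β κ (Fin 3))} {S : ℕ} (hf : DegLe (mk β κ _) f S)
    (h1 : Spl 0 3 1 2 f) (h2 : Spl 0 2 1 3 f) (h3 : Spl 0 1 2 3 f) (lam : Fin 4 → Pl (V β κ Unit))
    (hl : IsWeightedHomogeneous (mk β κ Unit) (lam 3) 1)
    (l0 : ln β κ (rol 0) f = lam 0 + lam 3) (l1 : ln β κ (rol 1) f = lam 1 + lam 3)
    (l2 : ln β κ (rol 2) f = lam 2 - lam 3) :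
    f = ∑ i, aeval (rs β κ i) (nl β κ S i f + lam i) +
      aeval (up β κ (Fin 3)) (aeval (dw β κ (Fin 3)) f) := by
  have hS : DegLe (mk β κ _) f (S + 1) := hf.mono (Nat.le_succ S)
  have hw1 : wh β κ _ 1 f = ∑ i, sb β κ (fun _ => rol i) (lam i) := by
    have k1 : wh β κ _ 1 f = sb β κ (fun _ => rol 0) (ln β κ (rol 0) f) +
        sb β κ (fun _ => rol 1) (ln β κ (rol 1) f) + sb β κ (fun _ => rol 2) (ln β κ (rol 2) f) := by
      simp only [ln, LinearMap.comp_apply, AlgHom.toLinearMap_apply, sb_sb]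
      rw [← sb_add _ _ (wh_hom 1 f), ← sb_add _ _ (wh_hom 1 f)]
      exact (sb_id (by decide) _).symm
    have k2 := sb_add (fun _ : Unit => rol 0) (fun _ => rol 1) hl
    have k3 := sb_add (fun _ : Unit => rol 2) (fun _ => rol 3) hl
    rw [show rol 2 + rol 3 = rol 0 + rol 1 by decide] at k3
    rw [k1, l0, l1, l2, Fin.sum_univ_four]
    simp only [map_add, map_sub]
    linear_combination k3 - k2
  have hnl : ∑ i, sb β κ (fun _ => rol i) (nl β κ S i f) =
      ∑ d ∈ range (S + 1), if 2 ≤ d then wh β κ _ d f else 0 := by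
    simp only [nl, LinearMap.sum_apply, map_sum]
    rw [sum_comm]
    refine sum_congr rfl fun d _ => ?_
    split_ifs with hd
    · have k := sep_hom (wh_hom d f) (by omega) (h1.wh d) (h2.wh d) (h3.wh d)
      have hp : 2 < 2 ^ d := lt_of_lt_of_le (by norm_num) (Nat.pow_le_pow_right (by norm_num) hd)
      have hc : (2 ^ d - 2 : Pl (V β κ (Fin 3))) = C ((2 ^ d - 2 : ℕ) : ℝ) := by
        rw [Nat.cast_sub hp.le]; simp [map_ofNat]
      simp only [LinearMap.smul_apply, LinearMap.sub_apply, LinearMap.comp_apply, map_smul]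
      rw [← smul_sum, ← k, hc, ← smul_eq_C_mul, smul_smul, inv_mul_cancel₀, one_smul]
      exact Nat.cast_ne_zero.2 (by omega)
    · simp
  change f = ∑ i, sb β κ (fun _ => rol i) _ + _
  simp only [map_add, sum_add_distrib]
  rw [hnl, ← hw1, up_dw]
  have h4 := hS.sum_whc
  rw [sum_range_succ, Tw.whc_eq_zero_of_lt hf (Nat.lt_succ_self S), add_zero] at h4
  have h5 : ∑ d ∈ range (S + 2), (if 2 ≤ d then wh β κ _ d f else 0) =
      ∑ d ∈ range (S + 1), if 2 ≤ d then wh β κ _ d f else 0 := by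
    rw [sum_range_succ, Tw.whc_eq_zero_of_lt hf (Nat.lt_succ_self S), ite_self, add_zero]
  have h6 := hS.sum_whc
  rw [← h5, sum_range_succ', sum_range_succ']
  rw [sum_range_succ', sum_range_succ'] at h6
  simpa using h6.symm

/-- a functional that only sees the roles outside `k, l` -/
theorem nl_pl (S : ℕ) (i k l : Fin 4) (hkl : ∃ u : Fin 3, ∃ u' : Fin 3, u ≠ 0 ∧ u' ≠ 0 ∧ u ≠ u' ∧
      (∀ e : Fin 2, ∑ b, ![rol k, rol l] e b * pv i 0 b = ∑ b, ![rol k, rol l] e b * pv i u b) ∧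
      ∀ e : Fin 2, ∑ b, ![rol k, rol l] e b * pv i u' b = 0) (b : Pl (V β κ (Fin 2))) :
    nl β κ S i (pl β κ k l b) = 0 := by
  obtain ⟨u, u', hu, hu', huu, h1, h2⟩ := hkl
  simp only [nl, LinearMap.sum_apply]
  refine sum_eq_zero fun d _ => ?_
  split_ifs with hd
  · simp only [LinearMap.smul_apply, LinearMap.sub_apply, LinearMap.comp_apply, wh_sb,
      AlgHom.toLinearMap_apply, sb_sb]
    have k0 : ∀ w : Fin 3, (fun a => ∑ b, ![rol k, rol l] a b • fun _ : Unit => pv i w b) =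
        fun a _ => ∑ b, ![rol k, rol l] a b * pv i w b := fun w => by
      funext a _; simp
    have k2 : sb β κ (fun a (_ : Unit) => ∑ b, ![rol k, rol l] a b * pv i u' b) (wh β κ _ d b) = 0 := by
      simp only [h2]
      exact sb_zero (wh_hom d b) (by omega)
    simp only [k0, h1]
    have : ∀ u u' : Fin 3, u ≠ 0 → u' ≠ 0 → u ≠ u' → (u = 1 ∧ u' = 2) ∨ (u = 2 ∧ u' = 1) := by
      decide
    rcases this u u' hu hu' huu with ⟨rfl, rfl⟩ | ⟨rfl, rfl⟩
    · rw [k2, sub_self, sub_self, smul_zero]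
    · rw [k2, sub_zero, sub_self, smul_zero]
  · rfl

theorem ln_pl (v : Fin 3 → ℤ) (k l : Fin 4) (h : ∀ e : Fin 2, ∑ b, ![rol k, rol l] e b * v b = 0)
    (b : Pl (V β κ (Fin 2))) : ln β κ v (pl β κ k l b) = 0 := by
  simp only [ln, LinearMap.comp_apply, wh_sb, AlgHom.toLinearMap_apply, sb_sb]
  have k0 : (fun a => ∑ b, ![rol k, rol l] a b • fun _ : Unit => v b) = fun _ => 0 := by
    funext a _; simpa using h a
  rw [k0]
  exact sb_zero (wh_hom 1 b) one_ne_zero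

/-! ### niceness -/

/-- families of nice maps -/
def NF (S : ℕ) (op : ∀ β κ : Type, Pl (V β κ (Fin 3)) →ₗ[ℝ] Pl (V β κ Unit)) : Prop :=
  ∃ D : ℕ, 1 ≤ D ∧ ∀ β κ, Nice S D (op β κ)

theorem nice_mul {S D : ℕ} {op : Pl (V β κ (Fin 3)) →ₗ[ℝ] Pl (V β κ Unit)} (h : Nice S D op)
    {E : ℕ} (hE : 1 ≤ E) : Nice S (E * D) op :=
  ⟨fun f hf => (h.nrm f hf).trans (mul_le_mul_of_nonneg_right
      (Nat.cast_le.2 (Nat.le_mul_of_pos_left D hE)) (Tw.nrm_nonneg f)),
    fun f hf => by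
      have := (h.int f hf).nat_mul E
      rwa [← mul_assoc, ← map_mul, ← Nat.cast_mul] at this, h.hom⟩

theorem NF.zero (S : ℕ) : NF S fun _ _ => 0 :=
  ⟨1, le_rfl, fun _ _ => ⟨fun f _ => by simpa using Tw.nrm_nonneg f,
    fun _ _ => by simpa using Tw.isInt_zero, fun _ _ _ _ _ => isWeightedHomogeneous_zero _ _ _⟩⟩

theorem NF.add {S : ℕ} {op op' : ∀ β κ : Type, Pl (V β κ (Fin 3)) →ₗ[ℝ] Pl (V β κ Unit)}
    (h : NF S op) (h' : NF S op') : NF S fun β κ => op β κ + op' β κ := by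
  obtain ⟨D, hD, h⟩ := h
  obtain ⟨D', hD', h'⟩ := h'
  refine ⟨2 * (D' * D), Nat.mul_pos two_pos (Nat.mul_pos hD' hD), fun β κ => ?_⟩
  have k := nice_mul (h β κ) hD'
  have k' := nice_mul (h' β κ) hD
  rw [mul_comm] at k'
  refine ⟨fun f hf => (Tw.nrm_add_le _ _).trans ?_, fun f hf => ?_,
    fun w w' f d hf => (k.hom w w' f d hf).add (k'.hom w w' f d hf)⟩
  · have := add_le_add (k.nrm f hf) (k'.nrm f hf)
    push_cast at this ⊢
    linarith
  · have := ((k.int f hf).add (k'.int f hf)).nat_mul 2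
    rwa [← mul_add, ← mul_assoc, ← map_mul, ← Nat.cast_mul] at this

theorem NF.neg {S : ℕ} {op : ∀ β κ : Type, Pl (V β κ (Fin 3)) →ₗ[ℝ] Pl (V β κ Unit)}
    (h : NF S op) : NF S fun β κ => -op β κ := by
  obtain ⟨D, hD, h⟩ := h
  exact ⟨D, hD, fun β κ => ⟨fun f hf => by simpa using (h β κ).nrm f hf,
    fun f hf => by simpa using ((h β κ).int f hf).neg,
    fun w w' f d hf => Tw.hom_neg ((h β κ).hom w w' f d hf)⟩⟩

theorem NF.sub {S : ℕ} {op op' : ∀ β κ : Type, Pl (V β κ (Fin 3)) →ₗ[ℝ] Pl (V β κ Unit)}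
    (h : NF S op) (h' : NF S op') : NF S fun β κ => op β κ - op' β κ := by
  simpa only [sub_eq_add_neg] using h.add h'.neg

theorem NF.inv {S : ℕ} {op : ∀ β κ : Type, Pl (V β κ (Fin 3)) →ₗ[ℝ] Pl (V β κ Unit)}
    (h : NF S op) {n : ℕ} (hn : 1 ≤ n) : NF S fun β κ => (n : ℝ)⁻¹ • op β κ := by
  obtain ⟨D, hD, h⟩ := h
  have hn' : (1 : ℝ) ≤ n := by exact_mod_cast hn
  refine ⟨n * D, Nat.mul_pos hn hD, fun β κ => ⟨fun f hf => ?_, fun f hf => ?_, fun w w' f d hf =>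
    (weightedHomogeneousSubmodule ℝ _ d).smul_mem _ ((h β κ).hom w w' f d hf)⟩⟩
  · rw [LinearMap.smul_apply, Tw.nrm_smul, abs_of_nonneg (by positivity)]
    refine le_trans (mul_le_of_le_one_left (Tw.nrm_nonneg _) (inv_le_one_of_one_le₀ hn')) ?_
    exact (nice_mul (h β κ) hn).nrm f hf
  · rw [LinearMap.smul_apply, smul_eq_C_mul, ← mul_assoc, ← map_mul, Nat.cast_mul,
      mul_right_comm, mul_inv_cancel₀ (by positivity), one_mul]
    exact (h β κ).int f hf

theorem NF.sum {S : ℕ} {α : Type} (s : Finset α)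
    {op : α → ∀ β κ : Type, Pl (V β κ (Fin 3)) →ₗ[ℝ] Pl (V β κ Unit)}
    (h : ∀ a ∈ s, NF S (op a)) : NF S fun β κ => ∑ a ∈ s, op a β κ := by
  classical
  induction s using Finset.induction_on with
  | empty => simpa using NF.zero S
  | insert a s ha ih =>
    simp only [sum_insert ha]
    exact (h a (mem_insert_self _ _)).add (ih fun b hb => h b (mem_insert_of_mem hb))

theorem NF.basic (S d : ℕ) (v : Fin 3 → ℤ) (hv : ∀ a, |v a| ≤ 2) :
    NF S fun β κ => e1 β κ v ∘ₗ wh β κ _ d := by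
  refine ⟨2 ^ S, Nat.one_le_two_pow, fun β κ => ⟨fun f hf => ?_, fun f hf => ?_,
    fun w w' f n hf => ?_⟩⟩
  · have h1 := Tw.nrm_bind_le_wt (w := mk β κ (Fin 3)) (g := Br.sub β κ fun a (_ : Unit) => v a)
      (K := 2) (by norm_num) (fun c => by
        cases c with
        | inl c => simp [Br.sub, mk]
        | inr p =>
          have : |(v p.1 : ℝ)| ≤ 2 := by exact_mod_cast hv p.1
          simp only [Br.sub, mk, Sum.elim_inr, univ_unique, sum_singleton, Tw.nrm_C_mul, Tw.nrm_X,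
            mul_one, pow_one]
          exact this) (hf.whc (mk β κ _) d)
    refine h1.trans ?_
    push_cast
    rw [mul_comm]
    exact mul_le_mul_of_nonneg_left (Tw.nrm_whc_le _ _ _) (by positivity)
  · refine Tw.IsInt.nat_mul (Tw.IsInt.bind (fun c => ?_) (hf.whc _ _)) _
    cases c with
    | inl c => exact Tw.isInt_X _
    | inr p =>
      simp only [Br.sub, Sum.elim_inr]
      exact Tw.isInt_sum fun b _ => (Tw.isInt_X _).int_mul _
  · refine Tw.hom_bind' (sub_hom _ w w') fun α hα => hf fun h0 => hα ?_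
    classical
    rw [coeff_weightedHomogeneousComponent, h0, ite_self]

theorem nf_nl (S : ℕ) (i : Fin 4) : NF S fun β κ => nl β κ S i := by
  refine NF.sum (range (S + 1)) (op := fun d β κ => if 2 ≤ d then (((2 ^ d - 2 : ℕ) : ℝ))⁻¹ •
    (e1 β κ (pv i 0) ∘ₗ wh β κ _ d - e1 β κ (pv i 1) ∘ₗ wh β κ _ d - e1 β κ (pv i 2) ∘ₗ wh β κ _ d)
    else 0) fun d _ => ?_
  have hv : ∀ i w a, |pv i w a| ≤ 2 := by decide
  split_ifs with hd
  · have hp : 2 < 2 ^ d := lt_of_lt_of_le (by norm_num) (Nat.pow_le_pow_right (by norm_num) hd)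
    exact (((NF.basic S d _ (hv i 0)).sub (NF.basic S d _ (hv i 1))).sub
      (NF.basic S d _ (hv i 2))).inv (by omega)
  · exact NF.zero S

theorem nf_ln (S : ℕ) (i : Fin 4) : NF S fun β κ => ln β κ (rol i) :=
  NF.basic S 1 _ (by revert i; decide)

theorem nf_all {S : ℕ} {α : Type} [Fintype α]
    {op : α → ∀ β κ : Type, Pl (V β κ (Fin 3)) →ₗ[ℝ] Pl (V β κ Unit)} (h : ∀ a, NF S (op a)) :
    ∃ D : ℕ, 1 ≤ D ∧ ∀ a β κ, Nice S D (op a β κ) := by
  classical
  choose D hD h using h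
  refine ⟨∏ a, D a, Finset.one_le_prod' fun a _ => hD a, fun a β κ => ?_⟩
  rw [← prod_erase_mul _ _ (mem_univ a)]
  exact nice_mul (h a β κ) (Finset.one_le_prod' fun a _ => hD a)

end Crest.Agent.T49.Br.G62
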