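import Crest.Agent.T49.BrDef_62
import Crest.Agent.T49.GiGour_32
import Crest.Agent.T49.GiPush_14

/-!
# Row 49 (helper85): relative Goursat step
-/

set_option autoImplicit false

noncomputable section

namespace Crest.Agent.T49.Br

open Finset MvPolynomial Crest.Agent.T49.Nil Crest.Agent.T49.Nil.ND Crest.Agent.T49.GI
open Crest.Agent.T49.Bch (star expAd)
open Crest.Agent.T49.Tw (Pl nrm DegLe)
open Crest.Agent.T49.GI.Gour32 (sel pr_sel gMap_sel gd_pw cong)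

namespace Gr85

variable {ι σ : Type} [Fintype ι] {g : ND ι} {J J' : Type} [Fintype J] [DecidableEq J]
  [Fintype J'] [DecidableEq J']

/-- selection of coordinates over the coefficient ring -/
def selP (g : ND ι) (σ : Type) (r : J' → J) : (pw g J).PS σ →ₗ⁅ℝ⁆ (pw g J').PS σ :=
  toPw fun j => pr g (Pl σ) (r j)

theorem pr_selP (r : J' → J) (j : J') (x : (pw g J).PS σ) :
    pr g (Pl σ) j (selP g σ r x) = pr g (Pl σ) (r j) x := rfl

theorem cv_selP (r : J' → J) (α : σ →₀ ℕ) (x : (pw g J).PS σ) :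
    (pw g J').cv α (selP g σ r x) = sel g r ((pw g J).cv α x) := rfl

theorem bc_sel (r : J' → J) (x : (pw g J).PS σ) : bc (sel g r) (Pl σ) x = selP g σ r x :=
  ps_ext fun α => by rw [bc_eq, cv_bcl, cv_selP]; rfl

theorem hm_selP {lev : σ → ℕ} (r : J' → J) {x : (pw g J).PS σ} (h : x ∈ Hm lev (pw g J)) :
    selP g σ r x ∈ Hm lev (pw g J') := fun k => h (r k.1, k.2)

theorem hm_pr {lev : σ → ℕ} (a : J) {x : (pw g J).PS σ} (h : x ∈ Hm lev (pw g J)) :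
    pr g (Pl σ) a x ∈ Hm lev g := fun k => h (a, k)

theorem hm_tup {lev : σ → ℕ} {x : J → g.PS σ} (h : ∀ a, x a ∈ Hm lev g) :
    (tup x : (pw g J).PS σ) ∈ Hm lev (pw g J) := fun k => h k.1 k.2

theorem smR_selP {c : Cs σ} {m : ℝ} (r : J' → J) {x : (pw g J).PS σ} (h : SmR c (pw g J) m x) :
    SmR c (pw g J') m (selP g σ r x) := by
  obtain ⟨e, h1, h2, rfl⟩ := h
  exact ⟨selP g σ r e, hm_selP r h1, fun k => h2 (r k.1, k.2), rfl⟩

theorem smR_pr {c : Cs σ} {m : ℝ} (a : J) {x : (pw g J).PS σ} (h : SmR c (pw g J) m x) :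
    SmR c g m (pr g (Pl σ) a x) := by
  obtain ⟨e, h1, h2, rfl⟩ := h
  exact ⟨pr g (Pl σ) a e, hm_pr a h1, fun k => h2 (a, k), rfl⟩

theorem rtR_selP {lev : σ → ℕ} {m : ℝ} (r : J' → J) {x : (pw g J).PS σ}
    (h : RtR lev (pw g J) m x) : RtR lev (pw g J') m (selP g σ r x) := by
  obtain ⟨h0, q, h1, h2, h3⟩ := h
  exact ⟨hm_selP r h0, q, h1, h2, fun α => den_iff.2 fun k => den_iff.1 (h3 α) (r k.1, k.2)⟩

theorem rtR_pr {lev : σ → ℕ} {m : ℝ} (a : J) {x : (pw g J).PS σ}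
    (h : RtR lev (pw g J) m x) : RtR lev g m (pr g (Pl σ) a x) := by
  obtain ⟨h0, q, h1, h2, h3⟩ := h
  exact ⟨hm_pr a h0, q, h1, h2, fun α => den_iff.2 fun k => den_iff.1 (h3 α) (a, k)⟩

theorem nearR_selP {c : Cs σ} {S : ℕ} {m : ℝ} (r : J' → J) {U : Submodule ℝ (pw g J).L}
    {U' : Submodule ℝ (pw g J').L} (hU : ∀ y ∈ U, sel g r y ∈ U') {x : (pw g J).PS σ}
    (h : NearR c (pw g J) S m U x) : NearR c (pw g J') S m U' (selP g σ r x) := by
  obtain ⟨ε, y, γ, h1, h2, h3, h4, rfl⟩ := h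
  refine ⟨_, _, _, smR_selP r h1, hm_selP r h2, fun α => hU _ (h3 α), rtR_selP r h4, ?_⟩
  rw [Bch.map_star, Bch.map_star]

theorem mem_p2 {H N : Submodule ℝ g.L} {x : (pw g (Fin 2)).L} :
    x ∈ p2 H N ↔ pr g ℝ 0 x ∈ H ∧ pr g ℝ 1 x ∈ H ∧ pr g ℝ 0 x - pr g ℝ 1 x ∈ N :=
  ⟨fun h => ⟨h.1.1, h.1.2, h.2⟩, fun h => ⟨⟨h.1, h.2.1⟩, h.2.2⟩⟩

open Classical in
theorem pr_e (a : J) (i : J × ι) (k : ι) :
    pr g ℝ a ((pw g J).e i) k = if (a, k) = i then 1 else 0 :=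
  (e_apply (N := pw g J) i (a, k)).trans (by congr)

theorem gMap_pr {m : ℝ} (hm : 0 ≤ m) (a : J) : GMap (pw g J) g m (pr g ℝ a).toLinearMap := by
  classical
  refine ⟨fun i k => ?_, fun i k hk => ?_⟩
  · change ∃ z : ℤ, pr g ℝ a _ k = _ ∧ _
    rw [pr_e]
    split_ifs
    · exact ⟨1, by simp, by simpa using hm⟩
    · exact ⟨0, by simp, by simpa using (Real.exp_pos m).le⟩
  · change pr g ℝ a _ k ≠ 0 at hk
    rw [pr_e] at hk
    split_ifs at hk with h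
    · rw [← h]; rfl
    · exact absurd rfl hk

theorem gMap_sub {m : ℝ} (hm : 0 ≤ m) (a b : J) :
    GMap (pw g J) g m ((pr g ℝ a).toLinearMap - (pr g ℝ b).toLinearMap) := by
  classical
  refine ⟨fun i k => ?_, fun i k hk => ?_⟩
  · change ∃ z : ℤ, pr g ℝ a _ k - pr g ℝ b _ k = _ ∧ _
    rw [pr_e, pr_e]
    split_ifs
    · exact ⟨0, by simp, by simpa using (Real.exp_pos m).le⟩
    · exact ⟨1, by simp, by simpa using hm⟩
    · exact ⟨-1, by simp, by simpa using hm⟩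
    · exact ⟨0, by simp, by simpa using (Real.exp_pos m).le⟩
  · change pr g ℝ a _ k - pr g ℝ b _ k ≠ 0 at hk
    rw [pr_e, pr_e] at hk
    split_ifs at hk with h h' h'
    · rw [← h]; rfl
    · rw [← h]; rfl
    · rw [← h']; rfl
    · exact absurd (sub_self _) hk

theorem p2_lie {H N : Submodule ℝ g.L} (hH : ∀ x ∈ H, ∀ y ∈ H, ⁅x, y⁆ ∈ H)
    (hN : ∀ x ∈ H, ∀ y ∈ N, ⁅x, y⁆ ∈ N) :
    ∀ x ∈ p2 H N, ∀ y ∈ p2 H N, ⁅x, y⁆ ∈ p2 H N := by
  intro x hx y hy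
  rw [mem_p2] at hx hy ⊢
  rw [LieHom.map_lie, LieHom.map_lie]
  refine ⟨hH _ hx.1 _ hy.1, hH _ hx.2.1 _ hy.2.1, ?_⟩
  have h1 := hN _ hx.1 _ hy.2.2
  have h2 := hN _ hy.2.1 _ hx.2.2
  have := sub_mem h1 h2
  rw [lie_sub, lie_sub, ← lie_skew (pr g ℝ 1 y) (pr g ℝ 0 x), ← lie_skew (pr g ℝ 1 y) (pr g ℝ 1 x)]
    at this
  convert this using 1
  abel

/-- `p2 H N` is a graded rational subalgebra -/
theorem exists_gs_p2 : ∃ C : ℕ, 1 ≤ C ∧ ∀ m : ℝ, 2 ≤ m → ∀ (ι : Type) [Fintype ι] (g : ND ι)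
    (H N : Submodule ℝ g.L), (Fintype.card ι : ℝ) ≤ m → GS g m H → GR g m N →
    (∀ x ∈ H, ∀ y ∈ N, ⁅x, y⁆ ∈ N) → GS (pw g (Fin 2)) (m ^ C) (p2 H N) := by
  obtain ⟨C, hC, hP⟩ := pushStmt
  refine ⟨2 * C * C * C, Nat.succ_le_of_lt (by positivity), fun m hm ι _ g H N hι hH hN hHN => ?_⟩
  have up : ∀ {x : ℝ} {c : ℕ}, 2 ≤ x → 1 ≤ c → x ≤ x ^ c := fun hx hc =>
    le_self_pow₀ (by linarith) (by omega)
  simp only [pow_mul]
  have a1 : 2 * m ≤ m ^ 2 := by nlinarith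
  obtain ⟨m1, hm1⟩ : ∃ x, x = m ^ 2 := ⟨_, rfl⟩
  rw [← hm1] at a1 ⊢
  have a2 : m1 ≤ m1 ^ C := up (by linarith) hC
  have a3 : m1 ^ C ≤ (m1 ^ C) ^ C := up (by linarith) hC
  have hc : (Fintype.card (Fin 2 × ι) : ℝ) ≤ m1 := by
    rw [Fintype.card_prod, Fintype.card_fin]; push_cast; linarith
  have h1 := (hP m1 (by linarith) _ _ (pw g (Fin 2)) g hc (by linarith)).1
  have h2 := (hP (m1 ^ C) (by linarith) _ _ (pw g (Fin 2)) g (by linarith) (by linarith)).2.2.2.1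
  have h3 := (hP ((m1 ^ C) ^ C) (by linarith) _ _ (pw g (Fin 2)) g (by linarith)
    (by linarith)).2.2.2.1
  refine ⟨(h3 _ _ (h2 _ _ ((h1 _ (gMap_pr (by linarith) 0)).2.1 _ (gr_mono hH.toGR (by linarith)))
    ((h1 _ (gMap_pr (by linarith) 1)).2.1 _ (gr_mono hH.toGR (by linarith)))).1
    (gr_mono ((h1 _ (gMap_sub (by linarith) 0 1)).2.1 _ (gr_mono hN (by linarith))) a3)).1,
    p2_lie hH.lie hHN⟩

end Gr85

open Gr85

/-- **relative Goursat** -/
theorem gourRStmt (hClos : ClosRStmt) (hUniq : UniqRStmt) (hPull : PullRStmt) : GourRStmt := by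
  intro S
  obtain ⟨cl1, cl2, cl3⟩ := hClos
  obtain ⟨Cc, hCc, cl3⟩ := cl3 S
  obtain ⟨Cu, hCu, hUniq⟩ := hUniq S
  obtain ⟨C1, hC1, hPull⟩ := hPull S
  obtain ⟨Cg, hCg, hGs⟩ := exists_gs_p2
  refine ⟨4 * Cg * C1 * Cc * Cu, Nat.succ_le_of_lt (by positivity), ?_⟩
  intro m hm ι σ _ g c hg hND
  have up : ∀ {x : ℝ} {c : ℕ}, 2 ≤ x → 1 ≤ c → x ≤ x ^ c := fun hx hc =>
    le_self_pow₀ (by linarith) (by omega)
  obtain ⟨m1, hm1⟩ : ∃ x, x = m ^ 4 := ⟨_, rfl⟩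
  obtain ⟨m2, hm2⟩ : ∃ x, x = m1 ^ Cg := ⟨_, rfl⟩
  obtain ⟨m3, hm3⟩ : ∃ x, x = m2 ^ C1 := ⟨_, rfl⟩
  obtain ⟨m4, hm4⟩ : ∃ x, x = m3 ^ Cc := ⟨_, rfl⟩
  have e5 : m ^ (4 * Cg * C1 * Cc * Cu) = m4 ^ Cu := by simp only [hm4, hm3, hm2, hm1, pow_mul]
  rw [e5] at hND ⊢
  have h8 : 8 * m ≤ m1 := by
    have : (2 : ℝ) ^ 3 ≤ m ^ 3 := pow_le_pow_left₀ (by norm_num) hm 3
    rw [hm1, pow_succ]
    exact mul_le_mul_of_nonneg_right (by linarith) (by linarith)
  have a1 : m ≤ m1 := by linarith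
  have a2 : m1 ≤ m2 := hm2 ▸ up (by linarith) hCg
  have a3 : m2 ≤ m3 := hm3 ▸ up (by linarith) hC1
  have a4 : m3 ≤ m4 := hm4 ▸ up (by linarith) hCc
  have a5 : m4 ≤ m4 ^ Cu := up (by linarith) hCu
  have hND3 : c.ND S (Real.exp (m2 ^ C1)) := hND.mono (ex_mono (by rw [← hm3]; linarith))
  -- symbols near a subspace are symbols
  have hmN : ∀ (J : Type) [Fintype J] [DecidableEq J], (Fintype.card J : ℝ) ≤ 8 →
      ∀ (U : Submodule ℝ (pw g J).L) (x : (pw g J).PS σ), NearR c (pw g J) S m U x →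
      x ∈ Hm c.lev (pw g J) := by
    intro J _ _ hJ U x hx
    obtain ⟨ε, y, γ, h1, h2, -, h4, rfl⟩ := hx
    have hJ' : Gd (pw g J) S m1 := gd_pw hg J a1 (by nlinarith)
    have hε := ((cl3 m1 (by linarith) _ σ _ c hJ').1 ε ε (h1.mono a1) (h1.mono a1)).2.2.2
    have hs := (cl1 S _ σ (pw g J) c.lev hJ'.gr).1
    exact (hs _ hε _ (hs _ h2 _ h4.1).2.1).2.1
  have gJ : ∀ (J : Type) [Fintype J] [DecidableEq J], (Fintype.card J : ℝ) ≤ 8 →
      Gd (pw g J) S m2 := fun J _ _ hJ => gd_pw hg J (by linarith) (by nlinarith)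
  refine ⟨fun 𝔥 i l X X' h𝔥 hX hX' hXX => ?_, fun H N hH hN hNH hHN => ⟨fun x y z hxy hyz => ?_,
    fun x y hy hxy => ?_⟩⟩
  · -- one line
    let r : Bool → Fin 4 → Bool × Fin 4 := fun b j => if j = i ∨ j = l then (b, j) else (false, j)
    let x0 : (pw g (Bool × Fin 4)).PS σ := tup fun p => pr g (Pl σ) p.2 (cond p.1 X' X)
    have hx0 : ∀ b, selP g σ (r b) x0 = cond b X' X := fun b => by
      refine pw_ext fun j => ?_
      rw [pr_selP, pr_tup]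
      by_cases h : j = i ∨ j = l
      · simp only [r, if_pos h]
      · simp only [r, if_neg h]
        cases b
        · rfl
        · exact hXX j (fun e => h (Or.inl e)) fun e => h (Or.inr e)
    have hP := hPull m2 (by linarith) _ _ Bool σ (pw g (Bool × Fin 4)) (pw g (Fin 4)) c
      (fun b => sel g (r b)) (fun _ => 𝔥.toSubmodule) x0 (gJ _ (by simp))
      (gJ _ (by simp; norm_num)) (by simpa using (by linarith : (2 : ℝ) ≤ m2)) hND3
      (fun b => gMap_sel _ (by linarith))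
      (fun _ => ⟨gr_mono h𝔥 (by linarith), fun _ ha _ hb => 𝔥.lie_mem ha hb⟩)
      (hm_tup fun p => hm_pr _ (by
        obtain ⟨b, j⟩ := p
        cases b
        · exact hmN _ (by simp; norm_num) _ _ hX
        · exact hmN _ (by simp; norm_num) _ _ hX'))
      (fun b => by
        rw [bc_sel, hx0]
        cases b
        · exact hX.mono (by linarith) le_rfl
        · exact hX'.mono (by linarith) le_rfl)
    have hQ := nearR_selP (![(false, i), (true, i)] : Fin 2 → Bool × Fin 4)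
      (U' := p2 (pH 𝔥 i).toSubmodule (pA 𝔥 i l)) (fun y hy => ?_) hP
    · have hR := hQ.mono (m' := m4 ^ Cu) (by rw [← hm3]; linarith) le_rfl
      convert hR using 1
      refine pw_ext fun j => ?_
      fin_cases j <;> rfl
    · have hy' : ∀ b, sel g (r b) y ∈ 𝔥 := fun b => (Submodule.mem_iInf _).1 hy b
      have hi : ∀ b, pr g ℝ i (sel g (r b) y) = pr g ℝ (b, i) y := fun b => by
        rw [pr_sel]; simp only [r, true_or, if_true]
      refine mem_p2.2 ⟨⟨_, hy' false, hi _⟩, ⟨_, hy' true, hi _⟩,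
        sel g (r false) y - sel g (r true) y, ⟨sub_mem (hy' _) (hy' _), ?_⟩, ?_⟩
      · refine (Submodule.mem_iInf _).2 fun j => ?_
        change pr g ℝ j.1 _ = 0
        have hj : ¬ (j.1 = i ∨ j.1 = l) := fun h => h.elim j.2.1 j.2.2
        rw [map_sub, pr_sel, pr_sel]
        simp only [r, if_neg hj, sub_self]
      · change pr g ℝ i _ = _
        rw [map_sub, hi, hi]
        rfl
  · -- transitivity
    let r : Bool → Fin 2 → Fin 3 := fun b => cond b ![1, 2] ![0, 1]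
    let x0 : (pw g (Fin 3)).PS σ := tup ![x, y, z]
    have hx0 : ∀ b, selP g σ (r b) x0 = cond b (tup ![y, z]) (tup ![x, y]) := fun b => by
      refine pw_ext fun j => ?_
      cases b <;> fin_cases j <;> rfl
    have hx := hm_pr 0 (hmN _ (by simp; norm_num) _ _ hxy)
    have hy := hm_pr 1 (hmN _ (by simp; norm_num) _ _ hxy)
    have hz := hm_pr 1 (hmN _ (by simp; norm_num) _ _ hyz)
    have hP := hPull m2 (by linarith) _ _ Bool σ (pw g (Fin 3)) (pw g (Fin 2)) c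
      (fun b => sel g (r b)) (fun _ => p2 H N) x0 (gJ _ (by simp; norm_num))
      (gJ _ (by simp; norm_num)) (by simpa using (by linarith : (2 : ℝ) ≤ m2)) hND3
      (fun b => gMap_sel _ (by linarith))
      (fun _ => hm2 ▸ hGs m1 (by linarith) ι g H N (hg.dim.trans a1) (hH.mono a1) (gr_mono hN a1) hHN)
      (hm_tup fun p => by
        fin_cases p
        exacts [hx, hy, hz])
      (fun b => by
        rw [bc_sel, hx0]
        cases b
        · exact hxy.mono (by linarith) le_rfl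
        · exact hyz.mono (by linarith) le_rfl)
    have hQ := nearR_selP (![0, 2] : Fin 2 → Fin 3) (U' := p2 H N) (fun y hy => ?_) hP
    · have hR := hQ.mono (m' := m4 ^ Cu) (by rw [← hm3]; linarith) le_rfl
      convert hR using 1
      refine pw_ext fun j => ?_
      fin_cases j <;> rfl
    · have h0 := mem_p2.1 ((Submodule.mem_iInf _).1 hy false)
      have h1 := mem_p2.1 ((Submodule.mem_iInf _).1 hy true)
      refine mem_p2.2 ⟨h0.1, h1.2.1, ?_⟩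
      have := add_mem h0.2.2 h1.2.2
      change pr g ℝ 0 y - pr g ℝ 1 y + (pr g ℝ 1 y - pr g ℝ 2 y) ∈ N at this
      rw [sub_add_sub_cancel] at this
      exact this
  · -- normal form
    have : Bch.Nil S (g.PS σ) := ND.nil hg.wt_le (Pl σ)
    obtain ⟨ε, v, γ, h1, h2, h3, h4, h5⟩ := hxy
    have ex : x = star S (pr g _ 0 ε) (star S (pr g _ 0 v) (pr g _ 0 γ)) := by
      rw [← Bch.map_star, ← Bch.map_star, ← h5]; rfl
    have ey : y = star S (pr g _ 1 ε) (star S (pr g _ 1 v) (pr g _ 1 γ)) := by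
      rw [← Bch.map_star, ← Bch.map_star, ← h5]; rfl
    have hv0 : pr g (Pl σ) 0 v ∈ Uo σ H := fun α => (mem_p2.1 (h3 α)).1
    have hv1 : pr g (Pl σ) 1 v ∈ Uo σ H := fun α => (mem_p2.1 (h3 α)).2.1
    have hvv : pr g (Pl σ) 0 v - pr g (Pl σ) 1 v ∈ Uo σ N := fun α => by
      rw [map_sub]; exact (mem_p2.1 (h3 α)).2.2
    have s0 := smR_pr 0 h1
    have s1 := smR_pr 1 h1
    have r0 := rtR_pr 0 h4
    have r1 := rtR_pr 1 h4
    have v0 := hm_pr 0 h2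
    have v1 := hm_pr 1 h2
    generalize pr g (Pl σ) 0 ε = e at *
    generalize pr g (Pl σ) 1 ε = e' at *
    generalize pr g (Pl σ) 0 γ = d at *
    generalize pr g (Pl σ) 1 γ = d' at *
    generalize pr g (Pl σ) 0 v = w at *
    generalize pr g (Pl σ) 1 v = w' at *
    have he' := ((hUniq m hm ι σ g c H hg (hND.mono (ex_mono (pow_le_pow_left₀ (by linarith)
      (by linarith) _))) hH.toGR).2.2 hH.lie w' e' d' v1 hv1 s1 r1 (ey ▸ hy)).1
    let 𝔨 : LieSubalgebra ℝ (g.PS σ) :=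
      { toSubmodule := Uo σ H
        lie_mem' := fun ha hb => (cl2 ι σ σ g H).2.1 H H hH.lie _ ha _ hb }
    have hl : ∀ a ∈ 𝔨, ∀ b ∈ Uo σ N, ⁅a, b⁆ ∈ Uo σ N := (cl2 ι σ σ g H).2.1 N N hHN
    have d1 : star S w (-w') ∈ Uo σ N := by
      have := cong S 𝔨 (Uo σ N) hl (x := w') (y := -w') (x' := w) (y' := -w') hv1 (neg_mem hv1) hv0
        (neg_mem hv1) hvv (by simp)
      rwa [Bch.star_neg_self, sub_zero] at this
    obtain ⟨cs, cr, -, -⟩ := cl3 m hm ι σ g c hg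
    have hs := (cl1 S ι σ g c.lev hg.gr).1
    have ac : m ^ Cc ≤ m4 ^ Cu :=
      le_trans (hm4 ▸ pow_le_pow_left₀ (by linarith) (by linarith) _) a5
    refine ⟨expAd S e' (star S w (-w')), (hs _ (cs _ _ s1 s1).2.2.2 _
      (hs _ v0 _ (neg_mem v1)).2.1).2.2, Bch.Ad_mem S (Uo σ N) (hl e' he') d1,
      star S e (-e'), star S (-d') d, (cs _ _ s0 (cs _ _ s1 s1).2.2.1).1.mono ac,
      (cr _ _ (cr _ _ r1 r1).2.2 r0).1.mono ac, ?_⟩
    have h6 : star S (expAd S e' (star S w (-w'))) e' = star S e' (star S w (-w')) :=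
      (Bch.star_eq_Ad_star S e' _).symm
    rw [ex, ey, ← Bch.star_assoc S (expAd S e' _), h6]
    simp only [Bch.star_assoc, Bch.neg_star_star, Bch.star_neg_star]

end Crest.Agent.T49.Br
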