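import Crest.Agent.T49.BrPush_54
import Crest.Agent.T49.GiStructA_60

/-!
# Row 49 (helper66): the leaf `LIN` of the relative structure theorem, part A (tools)
-/

set_option autoImplicit false

noncomputable section

namespace Crest.Agent.T49.Br.L66

open Finset MvPolynomial Crest.Agent.T49.Nil Crest.Agent.T49.Nil.ND Crest.Agent.T49.GI
open Crest.Agent.T49.Bch (star expAd)
open Crest.Agent.T49.Tw (Pl nrm DegLe)

variable {ι ι' ι'' : Type} [Fintype ι] [Fintype ι'] [Fintype ι''] {g : ND ι} {g' : ND ι'}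
  {g'' : ND ι''} {σ τ υ : Type}

theorem subst_ap (r : σ → Pl τ) (x : g.PS σ) (k : ι) : g.subst r x k = bind₁ r (x k) := rfl

theorem subst_subst (r : σ → Pl τ) (r' : τ → Pl υ) (x : g.PS σ) :
    g.subst r' (g.subst r x) = g.subst (fun v => aeval r' (r v)) x :=
  pts_ext fun k => bind₁_bind₁ r r' (x k)

theorem cw_uo (op : Pl σ →ₗ[ℝ] Pl τ) {U : Submodule ℝ g.L} {x : g.PS σ} (hx : x ∈ Uo σ U) :
    cw g op x ∈ Uo τ U := fun β => by
  classical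
  have : g.cv β (cw g op x) = ∑ α ∈ univ.biUnion fun k => (x k).support,
      coeff β (op (monomial α 1)) • g.cv α x := by
    ext k
    have h1 : x k = ∑ α ∈ univ.biUnion fun k => (x k).support,
        coeff α (x k) • (monomial α 1 : Pl σ) := by
      conv_lhs => rw [(x k).as_sum]
      refine sum_subset_zero_on_sdiff (subset_biUnion_of_mem (fun k => (x k).support) (mem_univ k))
        (fun α hα => by rw [notMem_support_iff.1 (mem_sdiff.1 hα).2, zero_smul]) fun α _ => ?_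
      rw [smul_monomial, smul_eq_mul, mul_one]
    change coeff β (op (x k)) = _
    rw [h1, map_sum, coeff_sum, ND.sum_apply]
    refine sum_congr rfl fun α _ => ?_
    rw [map_smul, coeff_smul]
    exact mul_comm _ _
  rw [this]
  exact U.sum_mem fun α _ => U.smul_mem _ (hx α)

theorem subst_uo (r : σ → Pl τ) {U : Submodule ℝ g.L} {x : g.PS σ} (hx : x ∈ Uo σ U) :
    g.subst r x ∈ Uo τ U := cw_uo (aeval r).toLinearMap hx

theorem lie_uo {U U' U'' : Submodule ℝ g.L} (h : ∀ x ∈ U, ∀ y ∈ U', ⁅x, y⁆ ∈ U'') {x y : g.PS σ}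
    (hx : x ∈ Uo σ U) (hy : y ∈ Uo σ U') : ⁅x, y⁆ ∈ Uo σ U'' :=
  lie_mem_cf (W := fun _ => U) (W' := fun _ => U') (W'' := fun _ => U'') (fun _ _ => h) hx hy

theorem expAd_uo (S : ℕ) {U U' : Submodule ℝ g.L} (h : ∀ x ∈ U, ∀ y ∈ U', ⁅x, y⁆ ∈ U')
    {x y : g.PS σ} (hx : x ∈ Uo σ U) (hy : y ∈ Uo σ U') : expAd S x y ∈ Uo σ U' :=
  Bch.adS_mem _ S _ (fun _ hz => lie_uo h hx hz) hy

theorem uo_mono {U U' : Submodule ℝ g.L} (h : U ≤ U') {x : g.PS σ} (hx : x ∈ Uo σ U) :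
    x ∈ Uo σ U' := fun α => h (hx α)

theorem subst_hm {lev : σ → ℕ} {lev' : τ → ℕ} {r : σ → Pl τ}
    (hr : ∀ v, IsWeightedHomogeneous lev' (r v) (lev v)) {x : g.PS σ} (hx : x ∈ Hm lev g) :
    g.subst r x ∈ Hm lev' g := fun k => Tw.hom_bind' hr (hx k)

theorem lie_hm (hg : Graded g) {lev : σ → ℕ} {x y : g.PS σ} (hx : x ∈ Hm lev g)
    (hy : y ∈ Hm lev g) : ⁅x, y⁆ ∈ Hm lev g := fun k => by
  rw [lie_apply]
  refine IsWeightedHomogeneous.sum _ _ _ fun i _ => IsWeightedHomogeneous.sum _ _ _ fun j _ => ?_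
  by_cases h : g.c i j k = 0
  · simp only [h, Int.cast_zero, zero_mul]
    exact isWeightedHomogeneous_zero _ _ _
  · rw [← hg i j k h, mul_assoc, ← map_intCast (C : ℝ →+* Pl σ)]
    exact Tw.hom_C_mul ((hx i).mul (hy j)) _

theorem expAd_hm (S : ℕ) (hg : Graded g) {lev : σ → ℕ} {x y : g.PS σ} (hx : x ∈ Hm lev g)
    (hy : y ∈ Hm lev g) : expAd S x y ∈ Hm lev g :=
  Bch.adS_mem _ S _ (fun _ hz => lie_hm hg hx hz) hy

theorem subst_expAd (S : ℕ) (r : σ → Pl τ) (x y : g.PS σ) :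
    g.subst r (expAd S x y) = expAd S (g.subst r x) (g.subst r y) := Bch.map_adS _ _ _ _ _

theorem ratP_iff {q : ℕ} {x : g.PS σ} : g.RatP q x ↔ ∀ k, Tw.IsInt (C (q : ℝ) * x k) := by
  simp only [RatP, den_iff, Tw.IsInt, coeff_C_mul]
  exact forall_comm

theorem ratP_subst {r : σ → Pl τ} (hr : ∀ v, Tw.IsInt (r v)) {q : ℕ} {x : g.PS σ}
    (hx : g.RatP q x) : g.RatP q (g.subst r x) := ratP_iff.2 fun k => by
  have := (ratP_iff.1 hx k).bind hr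
  rwa [map_mul, bind₁_C_right] at this

theorem ratP_add {q : ℕ} {x y : g.PS σ} (hx : g.RatP q x) (hy : g.RatP q y) : g.RatP q (x + y) :=
  ratP_iff.2 fun k => by
    rw [ND.add_apply, mul_add]; exact (ratP_iff.1 hx k).add (ratP_iff.1 hy k)

theorem ratP_sub {q : ℕ} {x y : g.PS σ} (hx : g.RatP q x) (hy : g.RatP q y) : g.RatP q (x - y) :=
  ratP_iff.2 fun k => by
    rw [ND.sub_apply, mul_sub]; exact (ratP_iff.1 hx k).sub (ratP_iff.1 hy k)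

theorem bcl_comp (φ : g.L →ₗ[ℝ] g'.L) (φ' : g'.L →ₗ[ℝ] g''.L) (x : g.PS σ) :
    bcl (φ' ∘ₗ φ) (Pl σ) x = bcl φ' (Pl σ) (bcl φ (Pl σ) x) :=
  ps_ext fun α => by rw [cv_bcl, cv_bcl, cv_bcl]; rfl

/-- the base change of `φ` respects weights, norms (factor `A`) and denominators (factor `D`) -/
structure Lm (φ : g.L →ₗ[ℝ] g'.L) (A : ℝ) (D : ℕ) : Prop where
  hm : ∀ (σ : Type) (lev : σ → ℕ), ∀ x ∈ Hm lev g, bcl φ (Pl σ) x ∈ Hm lev g'
  nrm : ∀ (σ : Type) (x : g.PS σ) (B : ℝ), (∀ i, nrm (x i) ≤ B) →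
    ∀ k, nrm (bcl φ (Pl σ) x k) ≤ A * B
  rat : ∀ (σ : Type) (q : ℕ) (x : g.PS σ), g.RatP q x → g'.RatP (D * q) (bcl φ (Pl σ) x)

theorem Lm.comp {φ : g.L →ₗ[ℝ] g'.L} {φ' : g'.L →ₗ[ℝ] g''.L} {A A' : ℝ} {D D' : ℕ}
    (h : Lm φ A D) (h' : Lm φ' A' D') : Lm (φ' ∘ₗ φ) (A' * A) (D' * D) where
  hm σ lev x hx := by rw [bcl_comp]; exact h'.hm σ lev _ (h.hm σ lev x hx)
  nrm σ x B hx k := by rw [bcl_comp, mul_assoc]; exact h'.nrm σ _ _ (h.nrm σ x B hx) k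
  rat σ q x hx := by rw [bcl_comp, mul_assoc]; exact h'.rat σ _ _ (h.rat σ q x hx)

theorem lm_of_rmap {φ : g.L →ₗ[ℝ] g'.L} {m : ℝ} (h : RMap g g' m φ) :
    ∃ D : ℕ, 1 ≤ D ∧ (D : ℝ) ≤ Real.exp m ∧ Lm φ (Fintype.card ι * Real.exp m) D := by
  obtain ⟨D, h1, h2, h3⟩ := id h
  exact ⟨D, h1, h2, fun _ _ _ hx => P54.bcl_hm (P54.rmap_gr h) hx,
    fun _ _ _ hx k => by rw [mul_assoc]; exact P54.nrm_bcl (P54.rmap_abs h) hx k,
    fun _ _ _ hx => P54.ratP_bcl h3.int hx⟩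

section pw
variable {J : Type} [Fintype J] [DecidableEq J]

theorem cv_pr (α : σ →₀ ℕ) (a : J) (x : (pw g J).PS σ) :
    g.cv α (pr g _ a x) = pr g ℝ a ((pw g J).cv α x) := rfl

theorem cv_inj (α : σ →₀ ℕ) (a : J) (x : g.PS σ) :
    (pw g J).cv α (inj g _ a x) = inj g ℝ a (g.cv α x) := pw_ext fun b => by
  rw [← cv_pr]
  by_cases h : b = a
  · subst h
    rw [pr_inj_same, pr_inj_same]
  · rw [pr_inj_ne h, pr_inj_ne h, map_zero]

theorem subst_pr (r : σ → Pl τ) (a : J) (x : (pw g J).PS σ) :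
    g.subst r (pr g _ a x) = pr g _ a ((pw g J).subst r x) := rfl

theorem subst_inj (r : σ → Pl τ) (a : J) (x : g.PS σ) :
    (pw g J).subst r (inj g _ a x) = inj g _ a (g.subst r x) := pw_ext fun b => by
  rw [← subst_pr]
  by_cases h : b = a
  · subst h
    rw [pr_inj_same, pr_inj_same]
  · rw [pr_inj_ne h, pr_inj_ne h, map_zero]

theorem inj_hm {lev : σ → ℕ} (a : J) {x : g.PS σ} (hx : x ∈ Hm lev g) :
    inj g _ a x ∈ Hm lev (pw g J) := fun k => by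
  change IsWeightedHomogeneous lev (pr g _ k.1 (inj g _ a x) k.2) (g.wt k.2)
  by_cases h : k.1 = a
  · rw [h, pr_inj_same]; exact hx _
  · rw [pr_inj_ne h]; exact isWeightedHomogeneous_zero _ _ _

theorem expAd_inj (S : ℕ) (a : J) (y : (pw g J).PS σ) (x : g.PS σ) :
    expAd S y (inj g _ a x) = inj g _ a (expAd S (pr g _ a y) x) := pw_ext fun b => by
  rw [show pr g _ b (expAd S y (inj g _ a x)) = expAd S (pr g _ b y) (pr g _ b (inj g _ a x)) from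
    Bch.map_adS _ _ _ _ _]
  by_cases h : b = a
  · subst h
    rw [pr_inj_same, pr_inj_same]
  · rw [pr_inj_ne h, pr_inj_ne h, map_zero]

end pw

theorem mem_pi4 {U : Fin 4 → Submodule ℝ g.L} {z : (pw g (Fin 4)).L} :
    z ∈ pi4 U ↔ ∀ i, pr g ℝ i z ∈ U i := by simp [pi4]

theorem inj_mem_pi4 {U : Fin 4 → Submodule ℝ g.L} {i : Fin 4} {z : g.L} (hz : z ∈ U i) :
    inj g ℝ i z ∈ pi4 U := mem_pi4.2 fun j => by
  by_cases h : j = i
  · subst h; rwa [pr_inj_same]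
  · rw [pr_inj_ne h]; exact zero_mem _

theorem inj_uo {U : Fin 4 → Submodule ℝ g.L} {i : Fin 4} {z : g.PS σ} (hz : z ∈ Uo σ (U i)) :
    inj g _ i z ∈ Uo σ (pi4 U) := fun α => by
  rw [cv_inj]; exact inj_mem_pi4 (hz α)

/-- a linear map that moves everything to role `0` modulo `𝔥` -/
structure Psi (𝔥 : LieSubalgebra ℝ (pw g (Fin 4)).L) (ψ : (pw g (Fin 4)).L →ₗ[ℝ] g.L) : Prop where
  mem : ∀ z, ψ z ∈ pN3 𝔥 0
  kill : ∀ z ∈ 𝔥, ψ z = 0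
  sub : ∀ z ∈ pi4 (pN3 𝔥), z - inj g ℝ 0 (ψ z) ∈ 𝔥

section psi
variable {𝔥 : LieSubalgebra ℝ (pw g (Fin 4)).L} {ψ : (pw g (Fin 4)).L →ₗ[ℝ] g.L}

/-- the representatives -/
def Wp (𝔥 : LieSubalgebra ℝ (pw g (Fin 4)).L) (ψ : (pw g (Fin 4)).L →ₗ[ℝ] g.L) :
    Submodule ℝ g.L := (pi4 (pN3 𝔥)).map ψ

/-- the projection onto the representatives -/
def Pj (ψ : (pw g (Fin 4)).L →ₗ[ℝ] g.L) (σ : Type) : g.PS σ →ₗ[ℝ] g.PS σ :=
  bcl ψ (Pl σ) ∘ₗ (inj g (Pl σ) 0).toLinearMap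

theorem Pj_apply (x : g.PS σ) : Pj ψ σ x = bcl ψ (Pl σ) (inj g _ 0 x) := rfl

theorem subst_Pj (r : σ → Pl τ) (x : g.PS σ) : g.subst r (Pj ψ σ x) = Pj ψ τ (g.subst r x) := by
  rw [Pj_apply, P54.subst_bcl, subst_inj]; rfl

theorem Psi.bcl_mem (h : Psi 𝔥 ψ) (z : (pw g (Fin 4)).PS σ) :
    bcl ψ (Pl σ) z ∈ Uo σ (pN3 𝔥 0) := fun α => by
  rw [cv_bcl]; exact h.mem _

theorem Psi.wp_le (h : Psi 𝔥 ψ) : Wp 𝔥 ψ ≤ pN3 𝔥 0 := by
  rintro _ ⟨z, -, rfl⟩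
  exact h.mem z

theorem Psi.eq_zero (h : Psi 𝔥 ψ) {x : g.PS σ} (h1 : x ∈ Uo σ (Wp 𝔥 ψ))
    (h2 : x ∈ Uo σ (pK 𝔥 0)) : x = 0 := ps_ext fun α => by
  obtain ⟨z, hz, e⟩ := h1 α
  have h3 : inj g ℝ 0 (ψ z) ∈ 𝔥 := by rw [e]; exact h2 α
  rw [map_zero, ← e]
  exact h.kill z (by simpa using 𝔥.add_mem (h.sub z hz) h3)

theorem Psi.bcl_kill (h : Psi 𝔥 ψ) {z : (pw g (Fin 4)).PS σ} (hz : z ∈ Uo σ 𝔥.toSubmodule) :
    bcl ψ (Pl σ) z = 0 := ps_ext fun α => by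
  rw [cv_bcl, map_zero]; exact h.kill _ (hz α)

theorem Psi.bcl_sub (h : Psi 𝔥 ψ) {z : (pw g (Fin 4)).PS σ} (hz : z ∈ Uo σ (pi4 (pN3 𝔥))) :
    z - inj g _ 0 (bcl ψ (Pl σ) z) ∈ Uo σ 𝔥.toSubmodule := fun α => by
  rw [map_sub, cv_inj, cv_bcl]; exact h.sub _ (hz α)

theorem Psi.sub_Pj (h : Psi 𝔥 ψ) {x : g.PS σ} (hx : x ∈ Uo σ (pN3 𝔥 0)) :
    x - Pj ψ σ x ∈ Uo σ (pK 𝔥 0) := fun α => by
  have := h.bcl_sub (inj_uo hx) α
  rw [← map_sub, cv_inj] at this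
  exact this

theorem Psi.bcl_expAd (h : Psi 𝔥 ψ) (S : ℕ) {y z : (pw g (Fin 4)).PS σ}
    (hy : y ∈ Uo σ 𝔥.toSubmodule) (hz : z ∈ Uo σ (pi4 (pN3 𝔥))) :
    bcl ψ (Pl σ) (expAd S y z) = Pj ψ σ (expAd S (pr g _ 0 y) (bcl ψ (Pl σ) z)) := by
  rw [Pj_apply, ← expAd_inj, ← sub_eq_zero, ← map_sub, ← map_sub]
  exact h.bcl_kill (expAd_uo S (fun _ hx _ hy => 𝔥.lie_mem hx hy) hy (h.bcl_sub hz))

end psi

/-! ### substitutions of labels -/

section mk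
variable {β κ ρ Λ Λ' Λ'' : Type}

theorem sub_hom [Fintype Λ'] (𝓜 : Mk β κ ρ) (M : Λ → Λ' → ℤ) (v : V β κ Λ) :
    IsWeightedHomogeneous (𝓜.lev Λ') (sub β κ M v) (𝓜.lev Λ v) := by
  rcases v with v | p
  · exact isWeightedHomogeneous_X _ _ _
  · exact IsWeightedHomogeneous.sum _ _ _ fun b _ =>
      Tw.hom_C_mul (isWeightedHomogeneous_X ℝ (𝓜.lev Λ') (Sum.inr (b, p.2))) _

theorem sub_int [Fintype Λ'] (M : Λ → Λ' → ℤ) (v : V β κ Λ) : Tw.IsInt (sub β κ M v) := by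
  rcases v with v | p
  · exact Tw.isInt_X _
  · exact Tw.isInt_sum fun b _ => (Tw.isInt_X _).int_mul _

theorem sub_nrm [Fintype Λ'] {M : Λ → Λ' → ℤ} (hM : ∀ a, ∑ b, |M a b| ≤ 3) (v : V β κ Λ) :
    nrm (sub β κ M v) ≤ 3 := by
  rcases v with v | p
  · exact (Tw.nrm_X _).le.trans (by norm_num)
  · refine (Tw.nrm_sum_le _ _).trans ?_
    simp only [Tw.nrm_C_mul, Tw.nrm_X, mul_one]
    exact_mod_cast hM p.1

theorem sub_up [Fintype Λ'] (M : Λ → Λ' → ℤ) (y : g.PS β) :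
    g.subst (sub β κ M) (g.subst (up β κ Λ) y) = g.subst (up β κ Λ') y := by
  rw [subst_subst]
  congr 2
  funext v
  exact aeval_X _ _

theorem sub_rs [Fintype Λ] (M : Fin 3 → Λ → ℤ) (i : Fin 4) (x : g.PS (V β κ Unit)) :
    g.subst (sub β κ M) (g.subst (rs β κ i) x) = g.subst (sub β κ fun _ => row M i) x := by
  rw [subst_subst]
  congr 2
  funext v
  rcases v with v | p
  · exact aeval_X _ _
  · simp only [rs, sub, Sum.elim_inr, map_sum, map_mul, aeval_C, aeval_X, row, Finset.sum_apply,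
      Pi.smul_apply, smul_eq_mul, Int.cast_sum, Int.cast_mul, sum_mul, mul_sum, algebraMap_eq,
      mul_assoc]
    exact sum_comm

theorem up_hom (𝓜 : Mk β κ ρ) (v : β) :
    IsWeightedHomogeneous (𝓜.lev Λ) (up β κ Λ v) (𝓜.c0.lev v) := isWeightedHomogeneous_X _ _ _

theorem dw_hom (𝓜 : Mk β κ ρ) (v : V β κ Λ) :
    IsWeightedHomogeneous 𝓜.c0.lev (dw β κ Λ v) (𝓜.lev Λ v) := by
  rcases v with v | p
  · exact isWeightedHomogeneous_X _ _ _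
  · exact isWeightedHomogeneous_zero _ _ _

theorem dw_int (v : V β κ Λ) : Tw.IsInt (dw β κ Λ v) := by
  rcases v with v | p
  · exact Tw.isInt_X _
  · exact fun _ => ⟨0, by simp [dw]⟩

theorem dw_nrm (v : V β κ Λ) : nrm (dw β κ Λ v) ≤ 1 := by
  rcases v with v | p
  · exact (Tw.nrm_X _).le
  · exact Tw.nrm_zero.le.trans zero_le_one

theorem degLe_mk (𝓜 : Mk β κ ρ) {f : Pl (V β κ Λ)} {d S : ℕ}
    (hf : IsWeightedHomogeneous (𝓜.lev Λ) f d) (hd : d ≤ S) : DegLe (mk β κ Λ) f S := fun α hα => by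
  refine le_trans ?_ ((Tw.DegLe.of_hom hf α hα).trans hd)
  simp only [Finsupp.weight_apply, Finsupp.sum]
  refine sum_le_sum fun v _ => Nat.mul_le_mul_left _ ?_
  rcases v with v | p
  · exact Nat.zero_le _
  · exact 𝓜.pos p.2

theorem role_eq {Γ : Type} [AddCommGroup Γ] {B : Finset Γ} {q : Fin 4 → Γ} (hq : IsQ B q)
    (i : Fin 4) : q i = ∑ a, rol i a • q3 q a := by
  have h : q 3 = q 0 + q 1 - q 2 := by rw [hq.2]; abel
  fin_cases i <;> simp [rol, q3, Fin.sum_univ_three]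
  rw [h, sub_eq_add_neg]

theorem role_row {Γ : Type} [AddCommGroup Γ] [Fintype Λ] {B : Finset Γ} {q : Fin 4 → Γ}
    (hq : IsQ B q) {M : Fin 3 → Λ → ℤ} {t : Λ → Γ} (h : ∀ e, q3 q e = ∑ l, M e l • t l)
    (i : Fin 4) : q i = ∑ l, row M i l • t l := by
  simp only [role_eq hq i, h, row, Finset.sum_apply, Pi.smul_apply, smul_eq_mul, sum_smul,
    smul_sum, mul_smul]
  exact sum_comm

end mk

theorem card_le_of_diam {ρ : Type} [Fintype ρ] {B : Finset (ρ → ℤ)} {L : ρ → ℕ} (h : Diam B L) :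
    (#B : ℝ) ≤ ∏ i, (L i : ℝ) := by
  classical
  have : ∀ i, NeZero (L i) := fun i => ⟨(h.1 i).ne'⟩
  have h1 := card_le_card_of_injOn (s := B) (t := univ)
    (fun (x : ρ → ℤ) (i : ρ) => ((x i : ℤ) : ZMod (L i))) (fun _ _ => mem_coe.2 (mem_univ _))
    fun x hx y hy e => funext fun i => by
      have h2 := (ZMod.intCast_eq_intCast_iff_dvd_sub _ _ _).1 (congrFun e i)
      have h3 := Int.eq_zero_of_abs_lt_dvd h2 (h.2 y hy x hx i)
      omega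
  rw [card_univ, Fintype.card_pi] at h1
  simp only [ZMod.card] at h1
  exact_mod_cast h1

open Classical in
theorem card_good {Γ : Type} [AddCommGroup Γ] {B : Finset Γ} {N ε : ℝ} {Q : Finset (Fin 4 → Γ)}
    (hQ : ∀ q ∈ Q, IsQ B q) {G : (Fin 3 → Γ) → Prop} (h : Most B N ε G) :
    (#Q : ℝ) - ε * N ^ 3 ≤ #{q ∈ Q | G (q3 q)} := by
  have h1 : #{q ∈ Q | ¬ G (q3 q)} ≤ #{t ∈ Fintype.piFinset fun _ : Fin 3 => B | ¬ G t} := by
    refine card_le_card_of_injOn q3 (fun q hq => ?_) fun q hq q' hq' e => ?_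
    · rw [mem_coe, mem_filter] at hq ⊢
      exact ⟨Fintype.mem_piFinset.2 fun a => (hQ q hq.1).1 _, hq.2⟩
    · rw [mem_coe, mem_filter] at hq hq'
      funext i
      rw [role_eq (hQ q hq.1), role_eq (hQ q' hq'.1), e]
  have h2 := card_filter_add_card_filter_not (s := Q) fun q => G (q3 q)
  have h3 : (#{q ∈ Q | ¬ G (q3 q)} : ℝ) ≤ ε * N ^ 3 := le_trans (by exact_mod_cast h1) h
  have h4 : (#{q ∈ Q | G (q3 q)} : ℝ) + #{q ∈ Q | ¬ G (q3 q)} = #Q := by exact_mod_cast h2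
  linarith

end Crest.Agent.T49.Br.L66
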