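import Crest.Agent.T49.TorD_46

/-!
Row 49 (S0068), helper46.  Functions on `G / Γ` from triangular ("Mal'cev") coordinates:
fundamental domain, lifting of bumps, vector nilcharacters and partitions of unity.
-/

set_option autoImplicit false

open Finset
open scoped Real

namespace Crest.Agent.T49.Bmp

open Tor

variable {G : Type*} [Group G] {ι : Type*}

/-- triangular coordinates on `G` in which `Γ` is the integer lattice -/
structure Mal (co : G → ι → ℝ) (wt : ι → ℕ) (Γ : Subgroup G) : Prop where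
  tri : ∀ x, ∀ δ ∈ Γ, ∀ i, (∀ k, wt k < i → co δ k = 0) →
    ∀ k, wt k ≤ i → co (x * δ) k = co x k + co δ k
  int : ∀ δ ∈ Γ, ∀ k, ∃ n : ℤ, co δ k = n
  surj : ∀ n : ι → ℤ, ∃ δ ∈ Γ, ∀ k, co δ k = n k

variable {co : G → ι → ℝ} {wt : ι → ℕ} {Γ : Subgroup G}

lemma Mal.uniq (h : Mal co wt Γ) (x : G) {δ : G} (hδ : δ ∈ Γ) (s : ℕ)
    (hs : ∀ k, wt k < s → |co (x * δ) k - co x k| < 1) : ∀ k, wt k < s → co δ k = 0 := by
  induction s with
  | zero => intro k hk; omega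
  | succ s ih =>
    have h1 := ih fun k hk => hs k (by omega)
    intro k hk
    have h2 := hs k hk
    obtain ⟨n, hn⟩ := h.int δ hδ k
    rw [h.tri x δ hδ s h1 k (by omega), add_sub_cancel_left, hn] at h2
    have h3 : |n| < 1 := by exact_mod_cast h2
    rw [hn, Int.abs_lt_one_iff.1 h3, Int.cast_zero]

lemma Mal.fund' (h : Mal co wt Γ) (x : G) (y : ι → ℝ) (s : ℕ) :
    ∃ γ ∈ Γ, ∀ k, wt k < s → |co (x * γ) k - y k| ≤ 1 / 2 := by
  induction s with
  | zero => exact ⟨1, one_mem _, fun k hk => by omega⟩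
  | succ s ih =>
    obtain ⟨γ, hγ, h1⟩ := ih
    obtain ⟨δ, hδ, h2⟩ := h.surj fun k => if wt k = s then -round (co (x * γ) k - y k) else 0
    refine ⟨γ * δ, mul_mem hγ hδ, fun k hk => ?_⟩
    rw [← mul_assoc, h.tri _ δ hδ s (fun k hk => by rw [h2, if_neg hk.ne, Int.cast_zero]) k
      (by omega), h2]
    split_ifs with h3
    · have := abs_sub_round (co (x * γ) k - y k)
      push_cast
      rwa [show co (x * γ) k + -(round (co (x * γ) k - y k) : ℝ) - y k =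
        co (x * γ) k - y k - round (co (x * γ) k - y k) by ring]
    · simpa using h1 k (by omega)

/-- **fundamental domain** around any centre -/
lemma Mal.fund [Fintype ι] (h : Mal co wt Γ) (x : G) (y : ι → ℝ) :
    ∃ γ ∈ Γ, ∀ k, |co (x * γ) k - y k| ≤ 1 / 2 := by
  obtain ⟨γ, hγ, h1⟩ := h.fund' x y (univ.sup wt + 1)
  exact ⟨γ, hγ, fun k => h1 k (Nat.lt_succ_of_le (le_sup (f := wt) (mem_univ k)))⟩

open Classical in
/-- the right `Γ`-invariant function defined by a bump `b` -/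
noncomputable def lift (co : G → ι → ℝ) (Γ : Subgroup G) (b : (ι → ℝ) → ℂ) (x : G) : ℂ :=
  if h : ∃ γ ∈ Γ, b (co (x * γ)) ≠ 0 then b (co (x * h.choose)) else 0

/-- `b` lives within `1/4` of `y` in the coordinates of weight `< s`, is periodic in the
coordinates of weight `s` and does not depend on the others -/
structure Adm (wt : ι → ℕ) (s : ℕ) (y : ι → ℝ) (b : (ι → ℝ) → ℂ) : Prop where
  supp : ∀ u, b u ≠ 0 → ∀ k, wt k < s → |u k - y k| ≤ 1 / 4
  per : ∀ u v : ι → ℝ, (∀ k, wt k < s → v k = u k) →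
    (∀ k, wt k = s → ∃ n : ℤ, v k = u k + n) → b v = b u

variable {s : ℕ} {y : ι → ℝ} {b : (ι → ℝ) → ℂ}

lemma Mal.lift_eq (h : Mal co wt Γ) (hb : Adm wt s y b) (x : G) {γ : G} (hγ : γ ∈ Γ)
    (h1 : ∀ k, wt k < s → |co (x * γ) k - y k| ≤ 1 / 2) : lift co Γ b x = b (co (x * γ)) := by
  unfold lift
  split_ifs with h2
  · obtain ⟨h3, h4⟩ := h2.choose_spec
    set γ' := h2.choose
    have h5 : γ⁻¹ * γ' ∈ Γ := mul_mem (inv_mem hγ) h3
    have h6 : x * γ' = x * γ * (γ⁻¹ * γ') := by group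
    have h7 := h.uniq (x * γ) h5 s fun k hk => by
      rw [← h6]
      have := hb.supp _ h4 k hk
      have := h1 k hk
      rw [abs_le] at *; rw [abs_lt]; constructor <;> linarith
    have h8 := h.tri (x * γ) _ h5 s h7
    rw [h6]
    refine hb.per _ _ (fun k hk => by rw [h8 k hk.le, h7 k hk, add_zero]) fun k hk => ?_
    obtain ⟨n, hn⟩ := h.int _ h5 k
    exact ⟨n, by rw [h8 k hk.le, hn]⟩
  · by_contra h3
    exact h2 ⟨γ, hγ, Ne.symm h3⟩

lemma Mal.lift_mul (h : Mal co wt Γ) (hb : Adm wt s y b) (x : G) {δ : G} (hδ : δ ∈ Γ) :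
    lift co Γ b (x * δ) = lift co Γ b x := by
  obtain ⟨γ, hγ, h1⟩ := h.fund' x y s
  have h2 : x * δ * (δ⁻¹ * γ) = x * γ := by group
  rw [h.lift_eq hb x hγ h1, h.lift_eq hb (x * δ) (mul_mem (inv_mem hδ) hγ) (by rwa [h2]), h2]

lemma norm_lift_le {B : ℝ} (hB : ∀ u, ‖b u‖ ≤ B) (x : G) : ‖lift co Γ b x‖ ≤ B := by
  unfold lift
  split_ifs
  · exact hB _
  · simpa using (norm_nonneg _).trans (hB 0)

lemma exists_of_lift_ne_zero {x : G} (hx : lift co Γ b x ≠ 0) :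
    ∃ γ ∈ Γ, b (co (x * γ)) ≠ 0 := by
  by_contra h; exact hx (dif_neg h)

/-- elements that do not move the coordinates of weight `< s` -/
lemma Mal.lift_act (h : Mal co wt Γ) (hb : Adm wt s y b) {g : G} {c : ℂ}
    (h1 : ∀ z k, wt k < s → co (g * z) k = co z k) (h2 : ∀ z, b (co (g * z)) = c * b (co z))
    (x : G) : lift co Γ b (g * x) = c * lift co Γ b x := by
  obtain ⟨γ, hγ, h3⟩ := h.fund' x y s
  rw [h.lift_eq hb x hγ h3, h.lift_eq hb (g * x) hγ fun k hk => by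
    rw [mul_assoc, h1 _ k hk]; exact h3 k hk, mul_assoc, h2]

variable [Fintype ι]

/-- `g` and `g⁻¹` move the points near `y` by at most `ε` -/
def Moves (co : G → ι → ℝ) (y : ι → ℝ) (g : G) (ε : ℝ) : Prop :=
  ∀ z, (∀ k, |co z k - y k| ≤ 1 / 2) → ‖co (g * z) - co z‖ ≤ ε ∧ ‖co (g⁻¹ * z) - co z‖ ≤ ε

lemma Mal.lift_lip (h : Mal co wt Γ) (hb : Adm wt s y b) {Λ ε : ℝ} (hΛ : 0 ≤ Λ) (hε : 0 ≤ ε)
    (h1 : ∀ u, ‖b u‖ ≤ 1) (hL : ∀ u v, ‖b u - b v‖ ≤ Λ * ‖u - v‖) {g : G}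
    (hg : ε ≤ 1 / 4 → Moves co y g ε) (x : G) :
    ‖lift co Γ b (g * x) - lift co Γ b x‖ ≤ (Λ + 8) * ε := by
  by_cases hε' : ε ≤ 1 / 4
  swap
  · have := (norm_sub_le _ _).trans
      (add_le_add (norm_lift_le (co := co) (Γ := Γ) h1 (g * x)) (norm_lift_le (co := co) (Γ := Γ) h1 x))
    nlinarith [mul_nonneg hΛ hε]
  have key : ∀ g x : G, (∀ z, (∀ k, |co z k - y k| ≤ 1 / 2) → ‖co (g * z) - co z‖ ≤ ε) →
      lift co Γ b x ≠ 0 → ‖lift co Γ b (g * x) - lift co Γ b x‖ ≤ (Λ + 8) * ε := by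
    intro g x hg hx
    obtain ⟨γ, hγ, h2⟩ := h.fund x y
    have h3 := h.lift_eq hb x hγ fun k _ => h2 k
    have h4 := hg _ h2
    have h5 := h.lift_eq hb (g * x) hγ fun k hk => by
      have h6 := hb.supp _ (h3 ▸ hx) k hk
      have h7 := (norm_le_pi_norm (co (g * (x * γ)) - co (x * γ)) k).trans h4
      rw [Pi.sub_apply, Real.norm_eq_abs] at h7
      rw [mul_assoc]
      rw [abs_le] at *; constructor <;> linarith
    rw [h3, h5, mul_assoc]
    nlinarith [hL (co (g * (x * γ))) (co (x * γ)), mul_le_mul_of_nonneg_left h4 hΛ]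
  by_cases hx : lift co Γ b x = 0
  · by_cases hx' : lift co Γ b (g * x) = 0
    · rw [hx, hx', sub_zero, norm_zero]; positivity
    · have := key g⁻¹ (g * x) (fun z hz => (hg hε' z hz).2) hx'
      rwa [inv_mul_cancel_left, norm_sub_rev] at this
  · exact key g x (fun z hz => (hg hε' z hz).1) hx

/-! ### the bumps -/

/-- `1` on `|t| ≤ 1/(2Q)`, `0` for `|t| ≥ 1/Q` -/
noncomputable def plat (Q : ℕ) (t : ℝ) : ℝ := max 0 (min 1 (2 - 2 * Q * |t|))

lemma abs_plat_le (Q : ℕ) (t : ℝ) : |plat Q t| ≤ 1 :=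
  abs_le.2 ⟨le_trans (by norm_num) (le_max_left 0 _), max_le zero_le_one (min_le_left _ _)⟩

lemma plat_lip (Q : ℕ) (t u : ℝ) : |plat Q t - plat Q u| ≤ 2 * Q * |t - u| := by
  unfold plat
  rw [max_comm 0, max_comm 0]
  refine (abs_max_sub_max_le_abs _ _ _).trans ((abs_min_sub_min_le_max _ _ _ _).trans ?_)
  rw [sub_self, abs_zero, max_eq_right (abs_nonneg _), sub_sub_sub_cancel_left, ← mul_sub, abs_mul,
    abs_of_nonneg (by positivity), abs_sub_comm]
  exact mul_le_mul_of_nonneg_left (abs_abs_sub_abs_le_abs_sub _ _) (by positivity)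

lemma plat_eq_one {Q : ℕ} {t : ℝ} (h : 2 * Q * |t| ≤ 1) : plat Q t = 1 := by
  rw [plat, min_eq_left (by linarith), max_eq_right zero_le_one]

lemma lt_of_plat {Q : ℕ} {t : ℝ} (h : plat Q t ≠ 0) : Q * |t| < 1 := by
  by_contra h1
  exact h (max_eq_left (min_le_of_right_le (by linarith)))

/-- the part of `η` of weight `s` -/
def top (wt : ι → ℕ) (s : ℕ) (η : ι → ℤ) : ι → ℤ := fun k => if wt k = s then η k else 0

/-- grid point -/
noncomputable def grid (Q : ℕ) (a : ι → Fin Q) : ι → ℝ := fun k => ((a k : ℕ) : ℝ) / Q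

/-- bump at a grid point with vertical frequency `η` -/
noncomputable def bump (wt : ι → ℕ) (s : ℕ) (η : ι → ℤ) (Q : ℕ) (a : ι → Fin Q) (u : ι → ℝ) : ℂ :=
  ((∏ k with wt k < s, plat Q (u k - grid Q a k) : ℝ) : ℂ) * e (dot (top wt s η) u)

variable {η : ι → ℤ} {Q : ℕ} {a : ι → Fin Q}

lemma abs_prod_plat_le (u : ι → ℝ) : |∏ k with wt k < s, plat Q (u k - grid Q a k)| ≤ 1 := by
  rw [abs_prod]; exact prod_le_one (fun _ _ => abs_nonneg _) fun _ _ => abs_plat_le _ _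

lemma norm_bump_le (u : ι → ℝ) : ‖bump wt s η Q a u‖ ≤ 1 := by
  rw [bump, norm_mul, norm_e, mul_one, Complex.norm_real]; exact abs_prod_plat_le u

lemma lt_of_bump {u : ι → ℝ} (h : bump wt s η Q a u ≠ 0) (k : ι) (hk : wt k < s) :
    Q * |u k - grid Q a k| < 1 :=
  lt_of_plat (prod_ne_zero_iff.1 (Complex.ofReal_ne_zero.1 (left_ne_zero_of_mul h)) k
    (mem_filter.2 ⟨mem_univ k, hk⟩))

lemma adm_bump (hQ : 4 ≤ Q) : Adm wt s (grid Q a) (bump wt s η Q a) where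
  supp u h k hk := by
    have h1 := lt_of_bump h k hk
    have h2 : (4 : ℝ) ≤ Q := by exact_mod_cast hQ
    nlinarith [abs_nonneg (u k - grid Q a k)]
  per u v h1 h2 := by
    unfold bump
    rw [prod_congr rfl fun k hk => by rw [h1 k (mem_filter.1 hk).2]]
    congr 1
    simp only [dot, e_sum]
    refine prod_congr rfl fun k _ => ?_
    unfold top
    split_ifs with h3
    · obtain ⟨n, hn⟩ := h2 k h3
      rw [hn, mul_add, ← Int.cast_mul, e_add_int]
    · simp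

lemma bump_add {Z : ι → ℝ} (hZ : ∀ k, wt k < s → Z k = 0) (u : ι → ℝ) :
    bump wt s η Q a (u + Z) = e (dot (top wt s η) Z) * bump wt s η Q a u := by
  unfold bump
  rw [prod_congr rfl fun k hk => by rw [Pi.add_apply, hZ k (mem_filter.1 hk).2, add_zero],
    dot_add, e_add]
  ring

lemma bump_lip {H : ℝ} (hH : 0 ≤ H) (hη : ∀ k, |(η k : ℝ)| ≤ H) (u v : ι → ℝ) :
    ‖bump wt s η Q a u - bump wt s η Q a v‖ ≤ Fintype.card ι * (2 * Q + 7 * H) * ‖u - v‖ := by
  have h1 : |∏ k with wt k < s, plat Q (u k - grid Q a k) -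
      ∏ k with wt k < s, plat Q (v k - grid Q a k)| ≤ Fintype.card ι * (2 * Q) * ‖u - v‖ := by
    refine (abs_prod_sub_prod_le _ _ _ (fun _ _ => abs_plat_le _ _)
      fun _ _ => abs_plat_le _ _).trans (le_trans ?_ (sum_abs_le_card_mul _ (by positivity) u v))
    refine (sum_le_sum fun k _ => ?_).trans (sum_le_sum_of_subset_of_nonneg (filter_subset _ _)
      fun _ _ _ => by positivity)
    simpa using plat_lip Q (u k - grid Q a k) (v k - grid Q a k)
  have h2 : ‖e (dot (top wt s η) u) - e (dot (top wt s η) v)‖ ≤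
      7 * (Fintype.card ι * H * ‖u - v‖) := by
    refine (norm_e_sub_e_le' _ _).trans (mul_le_mul_of_nonneg_left ?_ (by norm_num))
    rw [← dot_sub]
    refine abs_dot_le _ _ fun k => ?_
    unfold top; split_ifs
    · exact hη k
    · simpa using hH
  unfold bump
  set A := ∏ k with wt k < s, plat Q (u k - grid Q a k)
  have h3 : |∏ k with wt k < s, plat Q (v k - grid Q a k)| ≤ 1 := abs_prod_plat_le v
  set B := ∏ k with wt k < s, plat Q (v k - grid Q a k)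
  calc _ = ‖((A - B : ℝ) : ℂ) * e (dot (top wt s η) u) +
        (B : ℂ) * (e (dot (top wt s η) u) - e (dot (top wt s η) v))‖ := by
        congr 1; push_cast; ring
    _ ≤ |A - B| * 1 + |B| * ‖e (dot (top wt s η) u) - e (dot (top wt s η) v)‖ := by
        refine (norm_add_le _ _).trans ?_
        simp only [norm_mul, norm_e, Complex.norm_real, Real.norm_eq_abs, le_refl]
    _ ≤ Fintype.card ι * (2 * Q) * ‖u - v‖ * 1 + 1 * (7 * (Fintype.card ι * H * ‖u - v‖)) := by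
        gcongr
    _ = _ := by ring

omit [Fintype ι] in
lemma exists_grid (hQ : 0 < Q) {u : ι → ℝ} (hu : ∀ k, wt k < s → |u k - (1 / 2 - 1 / (2 * Q))| ≤ 1 / 2) :
    ∃ a : ι → Fin Q, ∀ k, wt k < s → 2 * Q * |u k - grid Q a k| ≤ 1 := by
  have hQ' : (0 : ℝ) < Q := by exact_mod_cast hQ
  have : ∀ k, ∃ n : Fin Q, wt k < s → 2 * Q * |u k - ((n : ℕ) : ℝ) / Q| ≤ 1 := by
    intro k
    by_cases hk : wt k < s
    swap
    · exact ⟨⟨0, hQ⟩, fun h => absurd h hk⟩
    obtain ⟨h1, h2⟩ := abs_le.1 (hu k hk)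
    have h3 : (Q : ℝ) * (1 / (2 * Q)) = 1 / 2 := by field_simp
    have h4 : 0 ≤ Q * u k + 1 / 2 := by nlinarith
    have h5 : Q * u k + 1 / 2 ≤ Q := by nlinarith
    have h6 : ∀ n : ℕ, |Q * u k - n| ≤ 1 / 2 → 2 * Q * |u k - n / Q| ≤ 1 := fun n hn => by
      have : (Q : ℝ) * |u k - n / Q| = |Q * u k - n| := by
        rw [← abs_of_pos hQ', ← abs_mul, abs_of_pos hQ']; congr 1; field_simp
      linarith
    rcases h5.lt_or_eq with h7 | h7
    · refine ⟨⟨⌊Q * u k + 1 / 2⌋₊, (Nat.floor_lt h4).2 h7⟩, fun _ => h6 _ ?_⟩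
      have := Nat.floor_le h4
      have := Nat.lt_floor_add_one (Q * u k + 1 / 2)
      rw [abs_le]; constructor <;> linarith
    · refine ⟨⟨Q - 1, by omega⟩, fun _ => h6 _ ?_⟩
      rw [Nat.cast_sub hQ, abs_le]; push_cast; constructor <;> linarith
  choose a ha using this
  exact ⟨a, ha⟩

lemma Mal.exists_norm_eq_one (h : Mal co wt Γ) (hQ : 4 ≤ Q) (η : ι → ℤ) (x : G) :
    ∃ a : ι → Fin Q, ‖lift co Γ (bump wt s η Q a) x‖ = 1 := by
  obtain ⟨γ, hγ, h1⟩ := h.fund' x (fun _ => 1 / 2 - 1 / (2 * Q)) s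
  obtain ⟨a, ha⟩ := exists_grid (Q := Q) (by omega) h1
  have h2 : (4 : ℝ) ≤ Q := by exact_mod_cast hQ
  refine ⟨a, ?_⟩
  rw [h.lift_eq (adm_bump (a := a) hQ) x hγ fun k hk => by
    nlinarith [ha k hk, abs_nonneg (co (x * γ) k - grid Q a k)], bump,
    prod_eq_one fun k hk => plat_eq_one (ha k (mem_filter.1 hk).2)]
  simp

end Crest.Agent.T49.Bmp
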