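import Crest.Agent.T49.LState_50
import Crest.Agent.T49.RatDef_50

/-! Row 49, block (C0), part a: excess form of (L), freezing and marginals, uniform weights. -/

set_option autoImplicit false

namespace Crest.Agent.T49
open Finset

section
variable {ι X : Type*} [Fintype ι] [DecidableEq ι] [Fintype X] {p : ι → X → ℝ}

lemma exists_wt_ge {α : Type*} [Fintype α] (w g : α → ℝ) (hw : ∀ a, 0 ≤ w a) (h1 : ∑ a, w a = 1) :
    ∃ a, w a ≠ 0 ∧ ∑ a, w a * g a ≤ g a := by
  classical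
  have hne : (univ.filter fun a => w a ≠ 0).Nonempty := by
    by_contra h
    rw [Finset.not_nonempty_iff_eq_empty, Finset.filter_eq_empty_iff] at h
    have : ∑ a, w a = 0 := Finset.sum_eq_zero fun a ha => not_not.1 (h ha)
    rw [h1] at this; exact one_ne_zero this
  obtain ⟨a, ha, hmax⟩ := Finset.exists_max_image _ g hne
  refine ⟨a, (Finset.mem_filter.1 ha).2, ?_⟩
  calc ∑ b, w b * g b ≤ ∑ b, w b * g a := Finset.sum_le_sum fun b _ => by
        by_cases hb : w b = 0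
        · simp [hb]
        · exact mul_le_mul_of_nonneg_left (hmax b (by simp [hb])) (hw b)
    _ = g a := by rw [← Finset.sum_mul, h1, one_mul]

lemma Ex_exists_ge (hp : IsPr p) (g : (ι → X) → ℝ) : ∃ x, Ex p g ≤ g x := by
  obtain ⟨x, _, h⟩ := exists_wt_ge (fun x : ι → X => ∏ j, p j (x j)) g (Ex_wt_nonneg hp)
    (Ex_wt_sum hp)
  exact ⟨x, h⟩

/-- Freeze one coordinate at a value of positive weight. -/
lemma Ex_freeze (hp : IsPr p) (i : ι) (g : (ι → X) → ℝ) :
    ∃ y, p i y ≠ 0 ∧ Ex p g ≤ Ex p (fun x => g (Function.update x i y)) := by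
  obtain ⟨y, hy, h⟩ := exists_wt_ge (p i) (fun y => Ex p (fun x => g (Function.update x i y)))
    (hp.nn i) (hp.sum i)
  refine ⟨y, hy, le_trans (le_of_eq ?_) h⟩
  rw [Ex_update hp i g, Ex_sum]
  exact Finset.sum_congr rfl fun y _ => Ex_mul_left _ _ _

lemma Ex_prod_inj (hp : IsPr p) {σ : Type*} {e : σ → ι} (he : Function.Injective e)
    (h : σ → X → ℝ) (S : Finset σ) :
    Ex p (fun x => ∏ s ∈ S, h s (x (e s))) = ∏ s ∈ S, ∑ y, p (e s) y * h s y := by
  classical
  induction S using Finset.induction_on with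
  | empty => simp [Ex_const hp]
  | insert s S hs ih =>
    simp only [Finset.prod_insert hs]
    rw [Ex_update hp (e s), ← ih, ← Ex_mul_left]
    refine Ex_congr _ fun x => ?_
    rw [Finset.sum_mul]
    refine Finset.sum_congr rfl fun y _ => ?_
    rw [Function.update_self, mul_assoc]
    congr 2
    refine Finset.prod_congr rfl fun s' hs' => ?_
    rw [Function.update_of_ne (fun hh : e s' = e s => hs (he hh ▸ hs'))]

/-- Marginal on an injectively indexed family of coordinates. -/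
lemma Ex_comp_inj (hp : IsPr p) {σ : Type*} [Fintype σ] [DecidableEq σ] {e : σ → ι}
    (he : Function.Injective e) (g : (σ → X) → ℝ) :
    Ex p (fun x => g (fun s => x (e s))) = Ex (fun s => p (e s)) g := by
  classical
  have h1 : ∀ x : ι → X, g (fun s => x (e s))
      = ∑ z : σ → X, g z * ∏ s, (if x (e s) = z s then (1 : ℝ) else 0) := by
    intro x
    rw [Finset.sum_eq_single (fun s => x (e s))]
    · simp
    · intro z _ hz
      obtain ⟨j, hj⟩ := Function.ne_iff.1 hz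
      rw [Finset.prod_eq_zero (Finset.mem_univ j), mul_zero]
      rw [if_neg]; exact fun e => hj e.symm
    · simp
  rw [Ex_congr _ h1, Ex_sum]
  refine Finset.sum_congr rfl fun z _ => ?_
  rw [Ex_mul_left, Ex_prod_inj hp he (fun s y => if y = z s then (1 : ℝ) else 0), mul_comm]
  simp

variable {κ : Type*} [Fintype κ] [DecidableEq κ]

/-- **(L), excess form.** -/
theorem simplex_excess (hp : IsPr p) {o o' : κ} (ho : o ≠ o') (he : Even (Fintype.card κ))
    {K : Finset ι} {f : ι → (ι → X) → ℝ} {M R R' η γ : ℝ} (hR : 1 ≤ R)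
    (hM : M ≤ R ^ Fintype.card κ) (hη : 0 ≤ η) (hγ : R ^ (2 * K.card) ≤ 1 + γ)
    (hf0 : ∀ i ∈ K, ∀ x, 0 ≤ f i x) (hfM : ∀ i ∈ K, ∀ x, f i x ≤ M)
    (hfi : ∀ i ∈ K, ∀ x y, f i (Function.update x i y) = f i x)
    (hmean : ∀ i ∈ K, 1 - η ≤ Ex p (f i))
    (hsmall : Ex p (fun x => ∏ i ∈ K, f i x) < 1 - 11 ^ K.card * (η + γ))
    (hM0 : 0 < M) (hR' : R' ≤ R) :
    ∃ i ∈ K, ∃ (T : Finset (ι → κ)) (c₀ : ι → κ) (ω : ι → κ → X),
      Adm o K i (insert c₀ T) ∧ (∀ c ∈ T, ∃ j ∈ K, j ≠ i ∧ c j ≠ c₀ j) ∧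
      (R - R') / M ≤ Ex p (fun x => (∏ c ∈ T, f i (pt (plug ω c₀ x) c)) * (f i x - R')) := by
  have hP := isPr_cp (κ := κ) hp
  obtain ⟨i, hi, T, c₀, hc₀, hadm, h1, h2⟩ :=
    simplex_increment hp ho he hR hM hη hγ hf0 hfM hfi hmean hsmall
  have h3 : (R - R') / M ≤ Ex (cp κ p)
      (fun ω => (∏ c ∈ T, f i (pt ω c)) * (f i (pt ω c₀) - R')) := by
    have e : ∀ ω : ι → κ → X, (∏ c ∈ T, f i (pt ω c)) * (f i (pt ω c₀) - R')
        = f i (pt ω c₀) * (∏ c ∈ T, f i (pt ω c)) - R' * ∏ c ∈ T, f i (pt ω c) := fun ω => by ring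
    rw [Ex_congr _ e, Ex_sub, Ex_mul_left, div_le_iff₀ hM0]
    have := mul_le_mul_of_nonneg_left h2 (sub_nonneg.2 hR')
    nlinarith
  rw [Ex_plug hp c₀] at h3
  simp only [pt_plug_self] at h3
  obtain ⟨ω, h4⟩ := Ex_exists_ge hP
    (fun ω => Ex p (fun x => (∏ c ∈ T, f i (pt (plug ω c₀ x) c)) * (f i x - R')))
  refine ⟨i, hi, T, c₀, ω, hadm, fun c hc => ?_, h3.trans h4⟩
  have hne : c ≠ c₀ := fun e => hc₀ (e ▸ hc)
  obtain ⟨j, hj⟩ := Function.ne_iff.1 hne
  have a1 := hadm c (Finset.mem_insert_of_mem hc)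
  have a2 := hadm c₀ (Finset.mem_insert_self _ _)
  refine ⟨j, ?_, fun e => hj ?_, hj⟩
  · by_contra hK; exact hj ((a1.2 j hK).trans (a2.2 j hK).symm)
  · rw [e, a1.1, a2.1]

end

section Unif
variable {V : Type*} [DecidableEq V]

/-- Uniform weight of `S` on the points of `B`. -/
noncomputable def unif (B S : Finset V) (x : B) : ℝ := if x.1 ∈ S then ((S.card : ℝ))⁻¹ else 0

lemma sum_unif {B S : Finset V} (hS : S ⊆ B) (F : V → ℝ) :
    ∑ x : B, unif B S x * F x.1 = ((S.card : ℝ))⁻¹ * ∑ v ∈ S, F v := by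
  have := Finset.sum_coe_sort B (fun v => (if v ∈ S then ((S.card : ℝ))⁻¹ else 0) * F v)
  unfold unif
  rw [this]
  simp only [ite_mul, zero_mul]
  rw [Finset.sum_ite_mem, Finset.inter_eq_right.2 hS, Finset.mul_sum]

lemma isPr_unif {σ : Type*} {B : Finset V} {S : σ → Finset V} (hS : ∀ s, S s ⊆ B)
    (hne : ∀ s, (S s).Nonempty) : IsPr (fun s => unif B (S s)) := by
  refine ⟨fun s x => ?_, fun s => ?_⟩
  · unfold unif; split_ifs <;> positivity
  · have := sum_unif (hS s) (fun _ => 1)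
    simp only [mul_one, Finset.sum_const, nsmul_eq_mul] at this
    rw [this, inv_mul_cancel₀]
    exact_mod_cast (hne s).card_pos.ne'

lemma Ex_unif {σ : Type*} [Fintype σ] [DecidableEq σ] {B : Finset V} {S : σ → Finset V}
    (hS : ∀ s, S s ⊆ B) (G : (σ → V) → ℝ) :
    Ex (fun s => unif B (S s)) (fun x => G (fun s => (x s).1))
      = (∏ s, ((S s).card : ℝ))⁻¹ * ∑ y ∈ Fintype.piFinset S, G y := by
  unfold Ex
  have h1 : ∑ x : σ → B, (∏ s, unif B (S s) (x s)) * G (fun s => (x s).1)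
      = ∑ y ∈ Fintype.piFinset (fun _ : σ => B),
        (∏ s, if y s ∈ S s then (((S s).card : ℝ))⁻¹ else 0) * G y := by
    refine Finset.sum_bij (fun x _ => fun s => (x s).1) (fun x _ => ?_) (fun x _ x' _ h => ?_)
      (fun y hy => ?_) (fun x _ => rfl)
    · exact Fintype.mem_piFinset.2 fun s => (x s).2
    · exact funext fun s => Subtype.ext (congrFun h s)
    · exact ⟨fun s => ⟨y s, Fintype.mem_piFinset.1 hy s⟩, Finset.mem_univ _, rfl⟩
  rw [h1, Finset.mul_sum]
  symm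
  refine (Finset.sum_subset_zero_on_sdiff (Fintype.piFinset_subset _ _ hS) (fun y hy => ?_)
    (fun y hy => ?_))
  · obtain ⟨_, h2⟩ := Finset.mem_sdiff.1 hy
    rw [Fintype.mem_piFinset, not_forall] at h2
    obtain ⟨s, hs⟩ := h2
    rw [Finset.prod_eq_zero (Finset.mem_univ s) (if_neg hs), zero_mul]
  · rw [← Finset.prod_inv_distrib]
    congr 1
    exact Finset.prod_congr rfl fun s _ => (if_pos (Fintype.mem_piFinset.1 hy s)).symm

end Unif

/-- Absorbing constants into the exponent. -/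
lemma exists_pow_ge (a : ℝ) (e : ℕ) : ∃ C : ℕ, ∀ m : ℝ, 2 ≤ m → a * m ^ e ≤ m ^ C := by
  obtain ⟨t, ht⟩ := pow_unbounded_of_one_lt a (one_lt_two (α := ℝ))
  refine ⟨t + e, fun m hm => ?_⟩
  rw [pow_add]
  exact mul_le_mul_of_nonneg_right (ht.le.trans (pow_le_pow_left₀ (by norm_num) hm t))
    (by positivity)

lemma one_add_pow_le {x : ℝ} (h0 : 0 ≤ x) (h1 : x ≤ 1) (n : ℕ) :
    (1 + x) ^ n ≤ 1 + (2 ^ n - 1) * x := by
  induction n with
  | zero => simp
  | succ n ih =>
    have h2 : (1 : ℝ) ≤ 2 ^ n := one_le_pow₀ (by norm_num)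
    calc (1 + x) ^ (n + 1) = (1 + x) ^ n * (1 + x) := pow_succ _ _
      _ ≤ (1 + (2 ^ n - 1) * x) * (1 + x) := mul_le_mul_of_nonneg_right ih (by linarith)
      _ ≤ 1 + (2 ^ (n + 1) - 1) * x := by
          rw [pow_succ]
          have : (2 ^ n - 1) * x * x ≤ (2 ^ n - 1) * x :=
            mul_le_of_le_one_right (mul_nonneg (by linarith) h0) h1
          nlinarith

namespace Rat

/-- Regrouping vertex factors by their subset. -/
lemma regroup {V α : Type*} [AddCommMonoid V] [DecidableEq V] {r : ℕ} (Bx : Finset V)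
    (D : Fin (r + 2) → Finset V) (hD : ∀ j, D j ⊆ Bx)
    (hsum : ∀ y ∈ Fintype.piFinset D, ∀ a, ssum a y ∈ Bx) (T : Finset α)
    (a : α → Fin (r + 2) → Bool) (ha : ∀ c ∈ T, a c ≠ fun _ => true) (φ : α → V → ℝ)
    (hφ : ∀ c, In01 (φ c)) :
    ∃ g : (Fin (r + 2) → Bool) → V → ℝ, (∀ b, In01 (g b)) ∧ (∀ b, SuppIn (g b) Bx) ∧
      ∀ H : (Fin (r + 2) → V) → ℝ,
        ∑ y ∈ Fintype.piFinset (fun _ : Fin (r + 2) => Bx),
          (∏ b ∈ univ.erase (fun _ => true), g b (ssum b y)) * H y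
        = ∑ y ∈ Fintype.piFinset D, (∏ c ∈ T, φ c (ssum (a c) y)) * H y := by
  classical
  let sg : Fin (r + 2) → Fin (r + 2) → Bool := fun j j' => decide (j' = j)
  have hsg : ∀ j (y : Fin (r + 2) → V), ssum (sg j) y = y j := by
    intro j y; simp [ssum, sg]
  have hsg' : ∀ j, sg j ≠ fun _ => true := by
    intro j h
    obtain ⟨j', hj'⟩ := exists_ne j
    have := congrFun h j'
    simp [sg, hj'] at this
  have i01 : ∀ (P : Prop) [Decidable P], 0 ≤ (if P then (1 : ℝ) else 0) ∧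
      (if P then (1 : ℝ) else 0) ≤ 1 := by
    intro P _; split_ifs <;> norm_num
  refine ⟨fun b v => (if v ∈ Bx then 1 else 0) * ((∏ c ∈ T.filter (fun c => a c = b), φ c v)
    * ∏ j ∈ univ.filter (fun j => sg j = b), if v ∈ D j then 1 else 0), fun b v => ?_,
    fun b v hv => by simp [hv], fun H => ?_⟩
  · have p1 : 0 ≤ ∏ c ∈ T.filter (fun c => a c = b), φ c v :=
      Finset.prod_nonneg fun c _ => (hφ c v).1
    have p2 : ∏ c ∈ T.filter (fun c => a c = b), φ c v ≤ 1 :=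
      Finset.prod_le_one (fun c _ => (hφ c v).1) fun c _ => (hφ c v).2
    have p3 : 0 ≤ ∏ j ∈ univ.filter (fun j => sg j = b), if v ∈ D j then (1 : ℝ) else 0 :=
      Finset.prod_nonneg fun j _ => (i01 _).1
    have p4 : (∏ j ∈ univ.filter (fun j => sg j = b), if v ∈ D j then (1 : ℝ) else 0) ≤ 1 :=
      Finset.prod_le_one (fun j _ => (i01 _).1) fun j _ => (i01 _).2
    exact ⟨mul_nonneg (i01 _).1 (mul_nonneg p1 p3),
      mul_le_one₀ (i01 _).2 (mul_nonneg p1 p3) (mul_le_one₀ p2 p3 p4)⟩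
  · have key : ∀ y : Fin (r + 2) → V, ∏ b ∈ univ.erase (fun _ => true),
        ((if ssum b y ∈ Bx then (1 : ℝ) else 0) * ((∏ c ∈ T.filter (fun c => a c = b), φ c (ssum b y))
          * ∏ j ∈ univ.filter (fun j => sg j = b), if ssum b y ∈ D j then 1 else 0))
        = (∏ b ∈ univ.erase (fun _ => true), if ssum b y ∈ Bx then (1 : ℝ) else 0)
          * ((∏ c ∈ T, φ c (ssum (a c) y)) * ∏ j, if y j ∈ D j then 1 else 0) := by
      intro y
      rw [Finset.prod_mul_distrib, Finset.prod_mul_distrib]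
      congr 2
      · rw [← Finset.prod_fiberwise_of_maps_to (s := T) (t := univ.erase (fun _ => true)) (g := a)
          (fun c hc => Finset.mem_erase.2 ⟨ha c hc, Finset.mem_univ _⟩)]
        refine Finset.prod_congr rfl fun b _ => Finset.prod_congr rfl fun c hc => ?_
        rw [(Finset.mem_filter.1 hc).2]
      · rw [← Finset.prod_fiberwise_of_maps_to (s := univ) (t := univ.erase (fun _ => true))
          (g := sg) (fun j _ => Finset.mem_erase.2 ⟨hsg' j, Finset.mem_univ _⟩)]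
        refine Finset.prod_congr rfl fun b _ => Finset.prod_congr rfl fun j hj => ?_
        rw [← (Finset.mem_filter.1 hj).2, hsg]
    simp only [key]
    symm
    refine (Finset.sum_subset_zero_on_sdiff (Fintype.piFinset_subset _ _ hD) (fun y hy => ?_)
      (fun y hy => ?_))
    · obtain ⟨_, h2⟩ := Finset.mem_sdiff.1 hy
      rw [Fintype.mem_piFinset, not_forall] at h2
      obtain ⟨s, hs⟩ := h2
      rw [Finset.prod_eq_zero (Finset.mem_univ s) (if_neg hs)]; simp
    · rw [Finset.prod_eq_one (s := univ.erase (fun _ => true)) fun b _ => if_pos (hsum y hy b),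
        Finset.prod_eq_one (s := univ) fun j _ => if_pos (Fintype.mem_piFinset.1 hy j)]
      simp

end Rat

end Crest.Agent.T49
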