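import Crest.Agent.T49.C0a_50

/-! Row 49, block (C0), part b: from an AP-free set to a cube-weighted excess (any group). -/

set_option autoImplicit false

namespace Crest.Agent.T49
open Finset

lemma Ex_congr_supp {ι X : Type*} [Fintype ι] [DecidableEq ι] [Fintype X] (p : ι → X → ℝ)
    {g h : (ι → X) → ℝ} (H : ∀ x, (∀ j, p j (x j) ≠ 0) → g x = h x) : Ex p g = Ex p h := by
  refine Finset.sum_congr rfl fun x _ => ?_
  by_cases hx : ∏ j, p j (x j) = 0
  · simp [hx]
  · rw [H x fun j => Finset.prod_ne_zero_iff.1 hx j (Finset.mem_univ j)]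

lemma mem_of_unif {V : Type*} [DecidableEq V] {B S : Finset V} {x : B} (h : unif B S x ≠ 0) :
    x.1 ∈ S := by
  by_contra hx; exact h (if_neg hx)

namespace Rat

/-- Indicator. -/
noncomputable def ind {V : Type*} [DecidableEq V] (A : Finset V) (v : V) : ℝ :=
  if v ∈ A then 1 else 0

lemma ind_in01 {V : Type*} [DecidableEq V] (A : Finset V) : In01 (ind A) := fun v => by
  unfold ind; split_ifs <;> norm_num

/-- The dilation `x ↦ ((j - i) • x j)_{j ≠ i}`. -/
def dil {V : Type*} [AddCommGroup V] {n : ℕ} (i : Fin (n + 1)) (x : Fin n → V) : Fin n → V :=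
  fun s => (((i.succAbove s : ℕ) : ℤ) - (i : ℕ)) • x s

theorem stepA {V : Type*} [AddCommGroup V] [DecidableEq V] {n : ℕ} {A Wb Sm Bx : Finset V}
    (hW : Wb ⊆ Bx) (hS : Sm ⊆ Bx) (hA : A.Nonempty) (hSm : Sm.Nonempty)
    (hsh : ∀ (i : Fin (n + 1)) (x : Fin (n + 1) → V), (∀ j, x j ∈ Sm) → ∀ a ∈ A,
      a - ∑ j : Fin (n + 1), (((j : ℕ) : ℤ) - (i : ℕ)) • x j ∈ Wb)
    (hAP : ∀ (w : V) (x : Fin (n + 1) → V), (∀ j, x j ∈ Sm) →
      ∃ i : Fin (n + 1), w + ∑ j : Fin (n + 1), (((j : ℕ) : ℤ) - (i : ℕ)) • x j ∉ A)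
    {M R R' : ℝ} {q : ℕ} (hq : 0 < q) (hR : 1 ≤ R) (hM : M ≤ R ^ (2 * q))
    (hγ : R ^ (2 * (n + 1)) ≤ 1 + (2 * 11 ^ (n + 1))⁻¹) (hα : (Wb.card : ℝ) ≤ M * A.card)
    (hR' : R' ≤ R) :
    ∃ (i : Fin (n + 1)) (w : V) (T : Finset (Option (Fin (n + 1)) → Fin (2 * q)))
      (a : (Option (Fin (n + 1)) → Fin (2 * q)) → Fin n → Bool)
      (s : (Option (Fin (n + 1)) → Fin (2 * q)) → V), w ∈ Wb ∧ (∀ c ∈ T, a c ≠ fun _ => true) ∧
      (R - R') / M * ((A.card : ℝ) / Wb.card) ^ (T.card + 1) * (Sm.card : ℝ) ^ n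
        ≤ ∑ x ∈ Fintype.piFinset (fun _ : Fin n => Sm),
          (∏ c ∈ T, ind A (s c + ssum (a c) (dil i x)))
            * (ind A (w + ∑ j, dil i x j) - R' * ((A.card : ℝ) / Wb.card)) := by
  classical
  obtain ⟨a₀, ha₀⟩ := hA
  obtain ⟨x₀, hx₀⟩ := hSm
  have hWne : Wb.Nonempty := ⟨_, hsh 0 (fun _ => x₀) (fun _ => hx₀) a₀ ha₀⟩
  have hA0 : (0 : ℝ) < A.card := by exact_mod_cast Finset.card_pos.2 ⟨a₀, ha₀⟩
  have hW0 : (0 : ℝ) < Wb.card := by exact_mod_cast hWne.card_pos
  have hS0 : (0 : ℝ) < Sm.card := by exact_mod_cast Finset.card_pos.2 ⟨x₀, hx₀⟩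
  set α : ℝ := (A.card : ℝ) / Wb.card with hαdef
  have hα0 : 0 < α := div_pos hA0 hW0
  have hM0 : 0 < M := by
    by_contra h
    have := mul_nonpos_of_nonpos_of_nonneg (not_lt.1 h) hA0.le
    linarith
  have hαM : α⁻¹ ≤ M := by rw [hαdef, inv_div, div_le_iff₀ hA0]; exact hα
  let S : Option (Fin (n + 1)) → Finset V := fun o => o.elim Wb fun _ => Sm
  have hSB : ∀ o, S o ⊆ Bx := fun o => by cases o; exacts [hW, hS]
  have hSne : ∀ o, (S o).Nonempty := fun o => by cases o; exacts [hWne, ⟨x₀, hx₀⟩]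
  have hp := isPr_unif hSB hSne
  set p : Option (Fin (n + 1)) → Bx → ℝ := fun s => unif Bx (S s) with hpdef
  let L : Fin (n + 1) → (Option (Fin (n + 1)) → Bx) → V := fun i x =>
    ∑ j : Fin (n + 1), (((j : ℕ) : ℤ) - (i : ℕ)) • (x (some j)).1
  let f : Option (Fin (n + 1)) → (Option (Fin (n + 1)) → Bx) → ℝ := fun o x =>
    o.elim 0 fun i => ind A ((x none).1 + L i x) * α⁻¹
  let K : Finset (Option (Fin (n + 1))) := univ.erase none
  have hK : ∀ o ∈ K, ∃ i, o = some i := fun o ho => by
    cases o with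
    | none => simp [K] at ho
    | some i => exact ⟨i, rfl⟩
  have hKc : K.card = n + 1 := by simp [K]
  have h11 : (0 : ℝ) < 11 ^ (n + 1) := by positivity
  obtain ⟨i, hi, T, c₀, ω, hadm, hT, hex⟩ := simplex_excess (p := p) (κ := Fin (2 * q)) hp
    (o := ⟨0, by omega⟩) (o' := ⟨1, by omega⟩) (by simp) (by simp) (K := K) (f := f) (M := M)
    (R := R) (R' := R') (η := 0) (γ := (2 * 11 ^ (n + 1))⁻¹) hR (by simpa using hM) le_rfl
    (by rw [hKc]; exact hγ)
    (fun o ho x => by
      obtain ⟨i, rfl⟩ := hK o ho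
      exact mul_nonneg (ind_in01 A _).1 (inv_nonneg.2 hα0.le))
    (fun o ho x => by
      obtain ⟨i, rfl⟩ := hK o ho
      exact (mul_le_of_le_one_left (inv_nonneg.2 hα0.le) (ind_in01 A _).2).trans hαM)
    (fun o ho x y => by
      obtain ⟨i, rfl⟩ := hK o ho
      have : L i (Function.update x (some i) y) = L i x := by
        refine Finset.sum_congr rfl fun j _ => ?_
        by_cases hj : j = i
        · simp [hj]
        · rw [Function.update_of_ne (by simpa using hj)]
      simp only [f, Option.elim_some, this]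
      rw [Function.update_of_ne (by simp)])
    (fun o ho => by
      obtain ⟨i, rfl⟩ := hK o ho
      rw [sub_zero, Ex_update hp none, Ex_congr_supp p (h := fun _ => 1), Ex_const hp]
      intro x hx
      have hL : ∀ y, L i (Function.update x none y) = L i x := fun y =>
        Finset.sum_congr rfl fun j _ => by rw [Function.update_of_ne (by simp)]
      simp only [f, Option.elim_some, hL, Function.update_self]
      have h1 := sum_unif hW (fun v => ind A (v + L i x) * α⁻¹)
      refine Eq.trans h1 ?_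
      have h2 : ∑ v ∈ Wb, ind A (v + L i x) = A.card := by
        unfold ind
        rw [Finset.sum_boole]
        congr 1
        refine Finset.card_bij (fun v _ => v + L i x) (fun v hv => (Finset.mem_filter.1 hv).2)
          (fun v _ v' _ h => add_right_cancel h) fun a ha => ⟨a - L i x, ?_, by simp⟩
        exact Finset.mem_filter.2 ⟨hsh i (fun j => (x (some j)).1)
          (fun j => mem_of_unif (hx (some j))) a ha, by simpa using ha⟩
      rw [← Finset.sum_mul, h2, hαdef]
      field_simp)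
    (by
      rw [Ex_congr_supp p (h := fun _ => 0), Ex_const hp, hKc]
      · rw [zero_add]; field_simp; norm_num
      intro x hx
      obtain ⟨i, hi⟩ := hAP (x none).1 (fun j => (x (some j)).1)
        (fun j => mem_of_unif (hx (some j)))
      refine Finset.prod_eq_zero (i := some i) (by simp [K]) ?_
      simp only [f, Option.elim_some, ind, L]
      rw [if_neg hi, zero_mul])
    hM0 hR'
  obtain ⟨i, rfl⟩ := hK i hi
  obtain ⟨y, hy, hfr⟩ := Ex_freeze hp none
    (fun x => (∏ c ∈ T, f (some i) (pt (plug ω c₀ x) c)) * (f (some i) x - R'))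
  let e : Fin n → Option (Fin (n + 1)) := fun s => some (i.succAbove s)
  have he : Function.Injective e := fun s s' h =>
    Fin.succAbove_right_injective (Option.some_injective _ h)
  let a : (Option (Fin (n + 1)) → Fin (2 * q)) → Fin n → Bool :=
    fun c s => decide (c (e s) = c₀ (e s))
  let sh : (Option (Fin (n + 1)) → Fin (2 * q)) → V := fun c => y.1 +
    ∑ s, if c (e s) = c₀ (e s) then 0
      else (((i.succAbove s : ℕ) : ℤ) - (i : ℕ)) • (ω (e s) (c (e s))).1
  let G : (Fin n → V) → ℝ := fun x => (∏ c ∈ T, ind A (sh c + ssum (a c) (dil i x)))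
    * (ind A (y.1 + ∑ j, dil i x j) - R' * α)
  refine ⟨i, y.1, T, a, sh, mem_of_unif hy, fun c hc h => ?_, ?_⟩
  · obtain ⟨j, hj, hji, hne⟩ := hT c hc
    obtain ⟨j, rfl⟩ := hK j hj
    obtain ⟨s, rfl⟩ := Fin.exists_succAbove_eq (x := j) (y := i) (by simpa using hji)
    exact hne (by simpa [a] using congrFun h s)
  have hLs : ∀ z : Option (Fin (n + 1)) → Bx, L i z = ∑ s, dil i (fun s => (z (e s)).1) s := by
    intro z
    simp only [L, dil, e]
    rw [Fin.sum_univ_succAbove _ i]
    simp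
  have key : ∀ x : Option (Fin (n + 1)) → Bx,
      (∏ c ∈ T, f (some i) (pt (plug ω c₀ (Function.update x none y)) c))
        * (f (some i) (Function.update x none y) - R')
      = α⁻¹ ^ (T.card + 1) * G (fun s => (x (e s)).1) := by
    intro x
    have h1 : ∀ c ∈ T, f (some i) (pt (plug ω c₀ (Function.update x none y)) c)
        = ind A (sh c + ssum (a c) (dil i fun s => (x (e s)).1)) * α⁻¹ := by
      intro c hc
      have a1 := hadm c (Finset.mem_insert_of_mem hc)
      have a2 := hadm c₀ (Finset.mem_insert_self _ _)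
      have hn : c none = c₀ none := (a1.2 none (by simp [K])).trans (a2.2 none (by simp [K])).symm
      simp only [f, Option.elim_some, hLs]
      congr 2
      rw [pt_plug, if_pos hn, Function.update_self]
      simp only [sh, ssum, a]
      rw [add_assoc, ← Finset.sum_add_distrib]
      congr 1
      refine Finset.sum_congr rfl fun s _ => ?_
      simp only [dil, pt_plug]
      by_cases h : c (e s) = c₀ (e s)
      · simp [h, e]
      · simp [h]
    have h2 : f (some i) (Function.update x none y)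
        = ind A (y.1 + ∑ j, dil i (fun s => (x (e s)).1) j) * α⁻¹ := by
      simp only [f, Option.elim_some, hLs, Function.update_self]
      congr 3
    rw [Finset.prod_congr rfl h1, h2, Finset.prod_mul_distrib, Finset.prod_const]
    simp only [G, inv_pow]
    field_simp
    ring
  rw [Ex_congr _ key, Ex_mul_left,
    Ex_comp_inj hp he (fun z : Fin n → Bx => G fun s => (z s).1)] at hfr
  have h3 := Ex_unif (σ := Fin n) (S := fun _ => Sm) (fun _ => hS) G
  have h4 : (fun s => p (e s)) = fun _ : Fin n => unif Bx Sm := rfl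
  rw [h4, h3] at hfr
  have h5 := hex.trans hfr
  simp only [Finset.prod_const, Finset.card_univ, Fintype.card_fin] at h5
  have h6 : 0 < α ^ (T.card + 1) * (Sm.card : ℝ) ^ n := by positivity
  have h7 := mul_le_mul_of_nonneg_right h5 h6.le
  rw [mul_assoc]
  refine h7.trans (le_of_eq ?_)
  change _ = ∑ x ∈ Fintype.piFinset (fun _ : Fin n => Sm), G x
  rw [inv_pow]
  field_simp

end Rat

end Crest.Agent.T49
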