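import Crest.Agent.T49.C0b_50

/-! Row 49, block (C0), part c: the start state on a box of `ℤ^ι`. -/

set_option autoImplicit false

namespace Crest.Agent.T49.Rat
open Finset

variable {ι : Type*} [Fintype ι] [DecidableEq ι]

lemma mem_box50 {N : ℕ} {v : ι → ℤ} : v ∈ box ι N ↔ ∀ t, |v t| ≤ N := by
  simp only [box, Fintype.mem_piFinset, Finset.mem_Icc, abs_le]

lemma mem_cube {L : ℕ} {v : ι → ℤ} : v ∈ cube ι L ↔ ∀ t, 0 ≤ v t ∧ v t < L := by
  simp only [cube, Fintype.mem_piFinset, Finset.mem_Ico]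

lemma card_box50 (N : ℕ) : (box ι N).card = (2 * N + 1) ^ Fintype.card ι := by
  simp only [box, Fintype.card_piFinset, Int.card_Icc, Finset.prod_const, Finset.card_univ]
  congr 1; omega

lemma card_cube (L : ℕ) : (cube ι L).card = L ^ Fintype.card ι := by
  simp [cube, Fintype.card_piFinset]

lemma abs_sum_le' {J : Type*} [Fintype J] {k : ℕ} (hJ : Fintype.card J ≤ k) (x : J → ℤ) {b : ℕ}
    (hx : ∀ j, |x j| ≤ b) : |∑ j, x j| ≤ (k * b : ℕ) := by
  calc |∑ j, x j| ≤ ∑ j, |x j| := Finset.abs_sum_le_sum_abs _ _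
    _ ≤ ∑ _j : J, (b : ℤ) := Finset.sum_le_sum fun j _ => hx j
    _ = (Fintype.card J * b : ℕ) := by simp
    _ ≤ (k * b : ℕ) := by exact_mod_cast Nat.mul_le_mul_right _ hJ

lemma abs_coef_mul {k l : ℕ} (i j : Fin k) {x : ℤ} (h1 : 1 ≤ x) (h2 : x ≤ l) :
    |(((j : ℕ) : ℤ) - (i : ℕ)) * x| ≤ (k * l : ℕ) := by
  rw [abs_mul, Nat.cast_mul]
  have := i.2
  have := j.2
  exact mul_le_mul (abs_le.2 ⟨by omega, by omega⟩) (abs_le.2 ⟨by omega, h2⟩) (abs_nonneg _)
    (by positivity)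

theorem stepB [Nonempty ι] (r : ℕ) {L l : ℕ} (hl : 1 ≤ l) (hT : (r + 3) * ((r + 3) * l) ≤ L)
    {A : Finset (ι → ℤ)} (hA : A ⊆ cube ι L) (hne : A.Nonempty) (hAP : APFreeZ (r + 3) A)
    {M R R' Wc : ℝ} {q : ℕ} (hq : 0 < q) (hR : 1 ≤ R) (hM : M ≤ R ^ (2 * q))
    (hγ : R ^ (2 * (r + 3)) ≤ 1 + (2 * 11 ^ (r + 3))⁻¹)
    (hW : Wc = ((L + 2 * ((r + 3) * ((r + 3) * l)) : ℕ) : ℝ) ^ Fintype.card ι)
    (hα : Wc ≤ M * A.card) (hR' : R' ≤ R) (hR0 : 0 ≤ R') :
    ∃ (w : ι → ℤ) (t : ℕ) (g : (Fin (r + 2) → Bool) → (ι → ℤ) → ℝ), t ≤ (2 * q) ^ (r + 4) ∧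
      (∀ a, In01 (g a)) ∧ (∀ a, SuppIn (g a) (box ι (2 * L))) ∧
      (∀ v ∈ cube ι L, v - w ∈ box ι (2 * L)) ∧
      (R - R') / M * ((A.card : ℝ) / Wc) ^ (t + 1) * ((l : ℝ) ^ Fintype.card ι) ^ (r + 2)
        ≤ ∑ y ∈ Fintype.piFinset (fun _ : Fin (r + 2) => box ι (2 * L)),
          (∏ a ∈ univ.erase (fun _ => true), g a (ssum a y))
            * (ind A (w + ∑ j, y j) - R' * ((A.card : ℝ) / Wc) * ind (cube ι L) (w + ∑ j, y j)) := by
  classical
  set T : ℕ := (r + 3) * ((r + 3) * l) with hTdef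
  let Wb : Finset (ι → ℤ) := Fintype.piFinset fun _ => Finset.Ico (-(T : ℤ)) (L + T)
  let Sm : Finset (ι → ℤ) := Fintype.piFinset fun _ => Finset.Icc (1 : ℤ) l
  have mW : ∀ v, v ∈ Wb ↔ ∀ t, -(T : ℤ) ≤ v t ∧ v t < L + T := fun v => by
    simp only [Wb, Fintype.mem_piFinset, Finset.mem_Ico]
  have mS : ∀ v, v ∈ Sm ↔ ∀ t, 1 ≤ v t ∧ v t ≤ l := fun v => by
    simp only [Sm, Fintype.mem_piFinset, Finset.mem_Icc]
  have hTL : (T : ℤ) ≤ L := by exact_mod_cast hT
  have hkl : (r + 3) * l ≤ T := Nat.le_mul_of_pos_left _ (by omega)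
  have hlT : l ≤ T := le_trans (Nat.le_mul_of_pos_left _ (by omega)) hkl
  have cW : (Wb.card : ℝ) = Wc := by
    rw [hW]
    simp only [Wb, Fintype.card_piFinset, Int.card_Ico, Finset.prod_const, Finset.card_univ]
    norm_cast
    congr 1; omega
  have cS : (Sm.card : ℝ) = (l : ℝ) ^ Fintype.card ι := by
    simp [Sm, Fintype.card_piFinset]
  obtain ⟨i, w, TT, a, s, hw, ha, hex⟩ := stepA (n := r + 2) (A := A) (Wb := Wb) (Sm := Sm)
    (Bx := box ι (2 * L))
    (fun v hv => mem_box50.2 fun t => by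
      have := (mW v).1 hv t
      rw [abs_le]; push_cast; omega)
    (fun v hv => mem_box50.2 fun t => by
      have := (mS v).1 hv t
      rw [abs_le]; push_cast; omega) hne
    ⟨fun _ => 1, (mS _).2 fun t => ⟨le_rfl, by exact_mod_cast hl⟩⟩
    (fun i x hx a ha => (mW _).2 fun t => by
      have h1 := mem_cube.1 (hA ha) t
      have h2 := abs_sum_le' (k := r + 3) (by simp)
        (fun j : Fin (r + 3) => (((j : ℕ) : ℤ) - (i : ℕ)) * x j t)
        fun j => abs_coef_mul i j ((mS _).1 (hx j) t).1 ((mS _).1 (hx j) t).2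
      rw [← hTdef, abs_le] at h2
      simp only [Pi.sub_apply, Finset.sum_apply, Pi.smul_apply, smul_eq_mul]
      constructor <;> linarith [h1.1, h1.2, h2.1, h2.2])
    (fun w x hx => by
      obtain ⟨i, hi, h⟩ := hAP (w + ∑ j : Fin (r + 3), ((j : ℕ) : ℤ) • x j) (-∑ j, x j) (by
        intro h
        obtain ⟨t⟩ := ‹Nonempty ι›
        have h1 := congrFun (neg_eq_zero.1 h) t
        simp only [Finset.sum_apply, Pi.zero_apply] at h1
        have h2 : 0 < ∑ j, x j t := Finset.sum_pos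
          (fun j _ => lt_of_lt_of_le one_pos ((mS _).1 (hx j) t).1) Finset.univ_nonempty
        omega)
      refine ⟨⟨i, hi⟩, fun h' => h ?_⟩
      convert h' using 1
      simp only [sub_smul, Finset.sum_sub_distrib, natCast_zsmul, smul_neg, Finset.smul_sum]
      abel)
    hq hR hM hγ (cW ▸ hα) hR'
  rw [cW, cS] at hex
  let d : Fin (r + 2) → ℤ := fun j => ((i.succAbove j : ℕ) : ℤ) - (i : ℕ)
  have hd : ∀ j, d j ≠ 0 := fun j h =>
    Fin.succAbove_ne i j (Fin.ext (by simp only [d] at h; omega))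
  let D : Fin (r + 2) → Finset (ι → ℤ) := fun j => Sm.image fun v => d j • v
  have hDb : ∀ j, ∀ v ∈ D j, ∀ t, |v t| ≤ ((r + 3) * l : ℕ) := by
    intro j v hv t
    obtain ⟨u, hu, rfl⟩ := Finset.mem_image.1 hv
    exact abs_coef_mul i _ ((mS _).1 hu t).1 ((mS _).1 hu t).2
  obtain ⟨g, hg1, hg2, hg⟩ := regroup (box ι (2 * L)) D
    (fun j v hv => mem_box50.2 fun t => (hDb j v hv t).trans (by exact_mod_cast (by omega)))
    (fun y hy b => mem_box50.2 fun t => by
      have h2 := abs_sum_le' (k := r + 3) (by simp) (fun j => (if b j then y j else 0) t)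
        (b := (r + 3) * l) fun j => by
          split_ifs
          · exact hDb j _ (Fintype.mem_piFinset.1 hy j) t
          · simp only [Pi.zero_apply, abs_zero]; positivity
      simp only [ssum, Finset.sum_apply]
      exact h2.trans (by exact_mod_cast (by omega)))
    TT a ha (fun c v => ind A (s c + v)) fun c v => ind_in01 A _
  refine ⟨w, TT.card, g, ?_, hg1, hg2, fun v hv => mem_box50.2 fun t => ?_, ?_⟩
  · refine (Finset.card_le_univ _).trans (le_of_eq ?_)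
    simp
  · have h1 := (mW w).1 hw t
    have h2 := mem_cube.1 hv t
    rw [abs_le, Pi.sub_apply]; push_cast; omega
  rw [hg]
  refine hex.trans ?_
  have hsum : ∀ F : (Fin (r + 2) → ι → ℤ) → ℝ,
      ∑ x ∈ Fintype.piFinset (fun _ : Fin (r + 2) => Sm), F (dil i x)
        = ∑ y ∈ Fintype.piFinset D, F y := by
    intro F
    refine Finset.sum_bij (fun x _ => dil i x) (fun x hx => ?_) (fun x _ x' _ h => ?_)
      (fun y hy => ?_) fun _ _ => rfl
    · exact Fintype.mem_piFinset.2 fun j =>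
        Finset.mem_image_of_mem _ (Fintype.mem_piFinset.1 hx j)
    · exact funext fun j => smul_right_injective _ (hd j) (congrFun h j)
    · choose x hx using fun j => Finset.mem_image.1 (Fintype.mem_piFinset.1 hy j)
      exact ⟨x, Fintype.mem_piFinset.2 fun j => (hx j).1, funext fun j => (hx j).2⟩
  rw [← hsum]
  refine Finset.sum_le_sum fun x _ => mul_le_mul_of_nonneg_left (sub_le_sub_left ?_ _)
    (Finset.prod_nonneg fun c _ => (ind_in01 A _).1)
  refine mul_le_of_le_one_right (mul_nonneg hR0 ?_) (ind_in01 _ _).2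
  rw [← cW]; positivity

end Crest.Agent.T49.Rat
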