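import Crest.Agent.T49.NilDef_65
import Crest.Agent.T49.Bch_16
import Crest.Agent.T49.TorD_46

/-!
Row 49 (helper56).  Lattices `c ℤ^ι` in a datum, congruences for `star`, values of rational and of
smooth polynomial maps, the scaled datum.
-/

set_option autoImplicit false
set_option linter.unusedSectionVars false

noncomputable section

namespace Crest.Agent.T49.Win
open Finset Nil Nil.ND
open Crest.Agent.T49.Bch (star tail two ev)

variable {ι : Type} [Fintype ι] {N : ND ι}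

/-- `x ∈ c ℤ^ι` -/
def InL (c : ℝ) (x : N.L) : Prop := ∀ k, ∃ n : ℤ, x k = c * n

namespace InL

theorem zero (c : ℝ) : InL c (0 : N.L) := fun _ => ⟨0, by simp⟩

theorem add {c : ℝ} {x y : N.L} (hx : InL c x) (hy : InL c y) : InL c (x + y) := fun k => by
  obtain ⟨a, ha⟩ := hx k
  obtain ⟨b, hb⟩ := hy k
  exact ⟨a + b, by rw [ND.add_apply, ha, hb]; push_cast; ring⟩

theorem neg {c : ℝ} {x : N.L} (hx : InL c x) : InL c (-x) := fun k => by
  obtain ⟨a, ha⟩ := hx k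
  exact ⟨-a, by rw [ND.neg_apply, ha]; push_cast; ring⟩

theorem sub {c : ℝ} {x y : N.L} (hx : InL c x) (hy : InL c y) : InL c (x - y) := by
  rw [sub_eq_add_neg]; exact hx.add hy.neg

theorem sum {c : ℝ} {β : Type*} (s : Finset β) {f : β → N.L} (h : ∀ b ∈ s, InL c (f b)) :
    InL c (∑ b ∈ s, f b) :=
  Finset.sum_induction f (InL c) (fun _ _ => add) (zero c) h

theorem of_eq {c c' : ℝ} {x : N.L} (hx : InL c x) (n : ℤ) (h : c = c' * n) : InL c' x := fun k => by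
  obtain ⟨a, ha⟩ := hx k
  exact ⟨n * a, by rw [ha, h]; push_cast; ring⟩

theorem smul {c : ℝ} {x : N.L} (hx : InL c x) (r : ℝ) : InL (r * c) (r • x) := fun k => by
  obtain ⟨a, ha⟩ := hx k
  exact ⟨a, by rw [ND.smul_apply, ha, smul_eq_mul]; ring⟩

theorem lie {c c' : ℝ} {x y : N.L} (hx : InL c x) (hy : InL c' y) : InL (c * c') ⁅x, y⁆ := fun k => by
  choose a ha using hx
  choose b hb using hy
  refine ⟨∑ i, ∑ j, N.c i j k * a i * b j, ?_⟩
  rw [lie_apply]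
  push_cast
  simp only [mul_sum, ha, hb]
  exact sum_congr rfl fun i _ => sum_congr rfl fun j _ => by ring

theorem isInt {x : N.L} (hx : InL 1 x) : IsInt x := fun k => by simpa using hx k

theorem of_isInt {x : N.L} (hx : IsInt x) : InL 1 x := fun k => by simpa using hx k

theorem of_den {q : ℕ} (hq : 1 ≤ q) {x : N.L} (hx : N.Den q x) : InL (q : ℝ)⁻¹ x := fun k => by
  obtain ⟨z, hz⟩ := den_iff.1 hx k
  have : (q : ℝ) ≠ 0 := by positivity
  exact ⟨z, by rw [← hz]; field_simp⟩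

theorem word {c : ℝ} {u : Bool → N.L} (hu : ∀ b, InL c (u b)) (w : FreeMagma Bool) :
    InL (c ^ w.length) (ev u w) := by
  induction w using FreeMagma.recOnMul with
  | ih1 a => simpa using hu a
  | ih2 a b ha hb => rw [Bch.ev_mul, Bch.length_mul, pow_add]; exact ha.lie hb

theorem word_sub {c : ℝ} {Q : ℤ} {u v : Bool → N.L} (hu : ∀ b, InL c (u b)) (hv : ∀ b, InL c (v b))
    (h : ∀ b, InL (c * Q) (u b - v b)) (w : FreeMagma Bool) :
    InL (c ^ w.length * Q) (ev u w - ev v w) := by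
  induction w using FreeMagma.recOnMul with
  | ih1 a => simpa using h a
  | ih2 a b ha hb =>
    rw [Bch.ev_mul, Bch.ev_mul, Bch.length_mul, pow_add]
    have e : ⁅ev u a, ev u b⁆ - ⁅ev v a, ev v b⁆
        = ⁅ev u a - ev v a, ev u b⁆ + ⁅ev v a, ev u b - ev v b⁆ := by
      rw [sub_lie, lie_sub]; abel
    rw [e]
    refine add ((ha.lie (word hu b)).of_eq 1 (by ring)) (((word hv a).lie hb).of_eq 1 (by ring))

end InL

/-- a common denominator of the BCH coefficients -/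
def bden (S : ℕ) : ℕ := ∏ w ∈ (tail S).support, (tail S w).den

theorem bden_pos (S : ℕ) : 0 < bden S := prod_pos fun _ _ => Rat.den_pos _

theorem bden_spec {S : ℕ} {w : FreeMagma Bool} (hw : w ∈ (tail S).support) :
    ∃ n : ℤ, ((tail S w : ℚ) : ℝ) = (bden S : ℝ)⁻¹ * n := by
  obtain ⟨r, hr⟩ : (tail S w).den ∣ bden S := dvd_prod_of_mem _ hw
  have h0 : (bden S : ℝ) ≠ 0 := by have := bden_pos S; positivity
  refine ⟨(tail S w).num * r, ?_⟩
  have h1 : ((tail S w).den : ℝ) ≠ 0 := by have := (tail S w).den_pos; positivity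
  rw [eq_inv_mul_iff_mul_eq₀ h0, hr, Rat.cast_def]
  push_cast; field_simp

/-- congruences for `star` -/
theorem star_sub_star_inL {S q : ℕ} (hS : 1 ≤ S) (hq : 1 ≤ q) {Q : ℤ} {x y x' y' : N.L}
    (hx : InL (q : ℝ)⁻¹ x) (hy : InL (q : ℝ)⁻¹ y) (hx' : InL (q : ℝ)⁻¹ x') (hy' : InL (q : ℝ)⁻¹ y')
    (h1 : InL ((q : ℝ)⁻¹ * (bden S * q ^ S * Q : ℤ)) (x - x'))
    (h2 : InL ((q : ℝ)⁻¹ * (bden S * q ^ S * Q : ℤ)) (y - y')) :
    InL Q (star S x y - star S x' y') := by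
  have hq0 : (q : ℝ) ≠ 0 := by positivity
  have hb0 : (bden S : ℝ) ≠ 0 := by have := bden_pos S; positivity
  have e : star S x y - star S x' y' = (x - x') + (y - y') + ∑ w ∈ (tail S).support,
      ((tail S w : ℚ) : ℝ) • (ev (two x y) w - ev (two x' y') w) := by
    simp only [Bch.star, smul_sub, sum_sub_distrib]; abel
  obtain ⟨S', rfl⟩ : ∃ S', S = S' + 1 := ⟨S - 1, by omega⟩
  rw [e]
  refine InL.add ((h1.add h2).of_eq (bden (S' + 1) * q ^ S') (by push_cast; field_simp; ring))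
    (InL.sum _ fun w hw => ?_)
  obtain ⟨n, hn⟩ := bden_spec hw
  obtain ⟨j, hj⟩ := Nat.exists_eq_add_of_le (Bch.tail_length hw).2
  have h3 := InL.word_sub (u := two x y) (v := two x' y') (fun b => by cases b; exacts [hy, hx])
    (fun b => by cases b; exacts [hy', hx']) (fun b => by cases b; exacts [h2, h1]) w
  refine (h3.smul _).of_eq (n * q ^ j) ?_
  rw [hn]
  push_cast
  have hj' : (q : ℝ) ^ (S' + 1) = q ^ w.length * q ^ j := by rw [← pow_add, ← hj]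
  rw [hj', inv_pow]
  field_simp

/-- deep lattices are closed under `star` -/
theorem star_inL {S : ℕ} {Q : ℕ} (hQ : bden S ∣ Q) {x y : N.L} (hx : InL Q x) (hy : InL Q y) :
    InL Q (star S x y) := by
  obtain ⟨r, rfl⟩ := hQ
  have hb0 : (bden S : ℝ) ≠ 0 := by have := bden_pos S; positivity
  refine InL.add (hx.add hy) (InL.sum _ fun w hw => ?_)
  obtain ⟨n, hn⟩ := bden_spec hw
  obtain ⟨j, hj⟩ := Nat.exists_eq_add_of_le (Bch.tail_length hw).1
  have h3 := InL.word (u := two x y) (fun b => by cases b; exacts [hy, hx]) w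
  refine (h3.smul _).of_eq (n * r * (bden S * r) ^ j) ?_
  rw [hn, hj, pow_add]
  push_cast
  field_simp

/-- the depth needed to conjugate by points of denominator `q` -/
def dep (S q : ℕ) : ℕ := (bden S * q ^ S) ^ 2

theorem dep_pos (S : ℕ) {q : ℕ} (hq : 1 ≤ q) : 1 ≤ dep S q := by
  have := bden_pos S
  exact Nat.one_le_iff_ne_zero.2 (by unfold dep; positivity)

/-- `x * λ * x'⁻¹` lies in a deep lattice -/
theorem conj_inL {S q : ℕ} (hS : 1 ≤ S) (hq : 1 ≤ q) {Q : ℕ} {x x' l : N.L}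
    (hx : InL (q : ℝ)⁻¹ x) (hx' : InL (q : ℝ)⁻¹ x')
    (h1 : InL ((q : ℝ)⁻¹ * (dep S q * Q : ℕ)) (x - x')) (hl : InL (dep S q * Q : ℕ) l) :
    InL Q (star S x (star S l (-x'))) := by
  have hq0 : (q : ℝ) ≠ 0 := by positivity
  have hl1 : InL (q : ℝ)⁻¹ l := hl.of_eq (q * (dep S q * Q)) (by push_cast; field_simp)
  have h2 : InL (bden S * q ^ S * Q : ℤ) (star S l (-x') - star S 0 (-x)) :=
    star_sub_star_inL hS hq hl1 hx'.neg (InL.zero _) hx.neg
      (by rw [sub_zero]; exact hl.of_eq q (by unfold dep; push_cast; field_simp))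
      (by rw [neg_sub_neg]; exact h1.of_eq 1 (by unfold dep; push_cast; ring))
  rw [Bch.zero_star] at h2
  have h3 : InL ((q : ℝ)⁻¹ * (bden S * q ^ S * Q : ℤ)) (star S l (-x') - -x) :=
    h2.of_eq q (by field_simp; simp)
  have h4 : InL (q : ℝ)⁻¹ (star S l (-x')) := by
    have := (h3.of_eq (bden S * q ^ S * Q) rfl).add hx.neg
    rwa [sub_add_cancel] at this
  have h5 := star_sub_star_inL (Q := Q) hS hq hx h4 hx hx.neg (by rw [sub_self]; exact InL.zero _) h3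
  rw [Bch.star_neg_self, sub_zero] at h5
  simpa using h5

section ev
variable {σ : Type} [Fintype σ]

theorem evZ_apply (y : σ → ℤ) (P : N.PS σ) (k : ι) :
    N.evZ y P k = ∑ α ∈ (P k).support, (P k).coeff α * ∏ v, (y v : ℝ) ^ α v := by
  change MvPolynomial.aeval (fun v => (y v : ℝ)) (P k) = _
  rw [MvPolynomial.aeval_eq_eval, MvPolynomial.eval_eq']

theorem evZ_sub_inL {q : ℕ} (hq : 1 ≤ q) {P : N.PS σ} (hP : N.RatP q P) {Q : ℤ} {y y' : σ → ℤ}
    (h : ∀ v, Q ∣ y v - y' v) : InL ((q : ℝ)⁻¹ * Q) (N.evZ y P - N.evZ y' P) := fun k => by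
  have h1 : ∀ α : σ →₀ ℕ, ∃ n : ℤ, (P k).coeff α * ∏ v, (y v : ℝ) ^ α v
      - (P k).coeff α * ∏ v, (y' v : ℝ) ^ α v = (q : ℝ)⁻¹ * Q * n := fun α => by
    obtain ⟨a, ha⟩ := InL.of_den hq (hP α) k
    have h2 : ∏ v, y' v ^ α v ≡ ∏ v, y v ^ α v [ZMOD Q] :=
      Int.ModEq.prod fun v _ => (Int.modEq_iff_dvd.2 (h v)).pow _
    obtain ⟨b, hb⟩ := Int.modEq_iff_dvd.1 h2
    have hb' : ∏ v, (y v : ℝ) ^ α v - ∏ v, (y' v : ℝ) ^ α v = Q * b := by exact_mod_cast hb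
    refine ⟨a * b, ?_⟩
    rw [cv_apply] at ha
    rw [← mul_sub, hb', ha]; push_cast; ring
  choose n hn using h1
  refine ⟨∑ α ∈ (P k).support, n α, ?_⟩
  rw [ND.sub_apply, evZ_apply, evZ_apply, ← sum_sub_distrib]
  push_cast
  rw [mul_sum]
  exact sum_congr rfl fun α _ => hn α

theorem evZ_inL {q : ℕ} (hq : 1 ≤ q) {P : N.PS σ} (hP : N.RatP q P) (y : σ → ℤ) :
    InL (q : ℝ)⁻¹ (N.evZ y P) := fun k => by
  have h1 : ∀ α : σ →₀ ℕ, ∃ n : ℤ, (P k).coeff α * ∏ v, (y v : ℝ) ^ α v = (q : ℝ)⁻¹ * n :=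
    fun α => by
      obtain ⟨a, ha⟩ := InL.of_den hq (hP α) k
      rw [cv_apply] at ha
      exact ⟨a * ∏ v, y v ^ α v, by rw [ha]; push_cast; ring⟩
  choose n hn using h1
  refine ⟨∑ α ∈ (P k).support, n α, ?_⟩
  rw [evZ_apply]
  push_cast
  rw [mul_sum]
  exact sum_congr rfl fun α _ => hn α

theorem degree_le_of_mem_support {S : ℕ} (hS : ∀ k, N.wt k ≤ S) {P : N.PS σ} (hP : P ∈ N.poly σ)
    {k : ι} {α : σ →₀ ℕ} (hα : α ∈ (P k).support) : α.degree ≤ S := by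
  by_contra h
  exact MvPolynomial.mem_support_iff.1 hα (hP α k (by have := hS k; omega))

theorem card_support_le {S : ℕ} (hS : ∀ k, N.wt k ≤ S) {P : N.PS σ} (hP : P ∈ N.poly σ) (k : ι) :
    #(P k).support ≤ (S + 1) ^ Fintype.card σ := by
  classical
  have : #(Fintype.piFinset fun _ : σ => range (S + 1)) = (S + 1) ^ Fintype.card σ := by
    simp [Fintype.card_piFinset]
  rw [← this]
  refine card_le_card_of_injOn (fun α v => α v) (fun α hα => ?_) fun α _ β _ h => DFunLike.coe_injective h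
  refine Finset.mem_coe.2 (Fintype.mem_piFinset.2 fun v => mem_range.2 (Nat.lt_succ_of_le ?_))
  exact (Finsupp.le_degree v α).trans (degree_le_of_mem_support hS hP hα)

theorem degree_eq_sum' (α : σ →₀ ℕ) : α.degree = ∑ v, α v := Finsupp.degree_eq_sum α

theorem abs_mono_le {T : ℝ} {y : σ → ℤ} (hy : ∀ v, |(y v : ℝ)| ≤ T) (α : σ →₀ ℕ) :
    |∏ v, (y v : ℝ) ^ α v| ≤ T ^ α.degree := by
  rw [degree_eq_sum', ← prod_pow_eq_pow_sum, abs_prod]
  exact prod_le_prod (fun _ _ => abs_nonneg _) fun v _ => by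
    rw [abs_pow]; exact pow_le_pow_left₀ (abs_nonneg _) (hy v) _

theorem abs_mono_sub_le {T ρ : ℝ} (hT : 0 < T) {y y' : σ → ℤ} (hy : ∀ v, |(y v : ℝ)| ≤ T)
    (hy' : ∀ v, |(y' v : ℝ)| ≤ T) (h : ∀ v, |(y v : ℝ) - y' v| ≤ ρ * T) (α : σ →₀ ℕ) :
    |∏ v, (y v : ℝ) ^ α v - ∏ v, (y' v : ℝ) ^ α v| ≤ α.degree * ρ * T ^ α.degree := by
  have e : ∀ z : σ → ℤ, ∏ v, (z v : ℝ) ^ α v = (∏ v, ((z v : ℝ) / T) ^ α v) * T ^ α.degree :=
    fun z => by
      rw [degree_eq_sum', ← prod_pow_eq_pow_sum, ← prod_mul_distrib]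
      exact prod_congr rfl fun v _ => by rw [← mul_pow, div_mul_cancel₀ _ hT.ne']
  have hb : ∀ z : σ → ℤ, (∀ v, |(z v : ℝ)| ≤ T) → ∀ v, |(z v : ℝ) / T| ≤ 1 := fun z hz v => by
    rw [abs_div, abs_of_pos hT, div_le_one hT]; exact hz v
  rw [e y, e y', ← sub_mul, abs_mul, abs_of_pos (pow_pos hT _)]
  refine mul_le_mul_of_nonneg_right ?_ (pow_pos hT _).le
  refine (Tor.abs_prod_sub_prod_le _ _ _ (fun v _ => ?_) fun v _ => ?_).trans ?_
  · rw [abs_pow]; exact pow_le_one₀ (abs_nonneg _) (hb y hy v)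
  · rw [abs_pow]; exact pow_le_one₀ (abs_nonneg _) (hb y' hy' v)
  rw [degree_eq_sum', Nat.cast_sum, sum_mul]
  refine sum_le_sum fun v _ => (abs_pow_sub_pow_le _ _ _).trans ?_
  have h1 : |(y v : ℝ) / T - y' v / T| ≤ ρ := by
    rw [← sub_div, abs_div, abs_of_pos hT, div_le_iff₀ hT]; exact h v
  have h2 : max |(y v : ℝ) / T| |(y' v : ℝ) / T| ^ (α v - 1) ≤ 1 :=
    pow_le_one₀ (le_max_of_le_left (abs_nonneg _)) (max_le (hb y hy v) (hb y' hy' v))
  calc _ ≤ ρ * α v * 1 := mul_le_mul (mul_le_mul_of_nonneg_right h1 (Nat.cast_nonneg _)) h2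
        (by positivity) (mul_nonneg ((abs_nonneg _).trans h1) (Nat.cast_nonneg _))
    _ = _ := by ring

theorem norm_evZ_le {S : ℕ} (hS : ∀ k, N.wt k ≤ S) {P : N.PS σ} (hP : P ∈ N.poly σ) {T M : ℝ}
    (hM : N.Sm T M P) {y : σ → ℤ} (hy : ∀ v, |(y v : ℝ)| ≤ T) :
    ‖N.evZ y P‖ ≤ ((S + 1 : ℝ)) ^ Fintype.card σ * M := by
  have hM0 : 0 ≤ M := le_trans (by simp) (hM 0)
  refine (norm_le_iff (by positivity)).2 fun k => ?_
  rw [evZ_apply]
  refine (abs_sum_le_sum_abs _ _).trans ((sum_le_card_nsmul _ _ M fun α _ => ?_).trans ?_)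
  · rw [abs_mul]
    exact (mul_le_mul (abs_apply_le (N.cv α P) k) (abs_mono_le hy α) (abs_nonneg _)
      (norm_nonneg _)).trans (hM α)
  · rw [nsmul_eq_mul]
    exact mul_le_mul_of_nonneg_right (by exact_mod_cast card_support_le hS hP k) hM0

theorem norm_evZ_sub_le {S : ℕ} (hS : ∀ k, N.wt k ≤ S) {P : N.PS σ} (hP : P ∈ N.poly σ) {T M ρ : ℝ}
    (hT : 0 < T) (hρ : 0 ≤ ρ) (hM : N.Sm T M P) {y y' : σ → ℤ} (hy : ∀ v, |(y v : ℝ)| ≤ T)
    (hy' : ∀ v, |(y' v : ℝ)| ≤ T) (h : ∀ v, |(y v : ℝ) - y' v| ≤ ρ * T) :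
    ‖N.evZ y P - N.evZ y' P‖ ≤ ((S + 1 : ℝ)) ^ Fintype.card σ * (S * M) * ρ := by
  have hM0 : 0 ≤ M := le_trans (by simp) (hM 0)
  refine (norm_le_iff (by positivity)).2 fun k => ?_
  rw [ND.sub_apply, evZ_apply, evZ_apply, ← sum_sub_distrib]
  refine (abs_sum_le_sum_abs _ _).trans ((sum_le_card_nsmul _ _ (S * M * ρ) fun α hα => ?_).trans ?_)
  · rw [← mul_sub, abs_mul]
    have h1 : (α.degree : ℝ) ≤ S := by exact_mod_cast degree_le_of_mem_support hS hP hα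
    calc _ ≤ ‖N.cv α P‖ * (α.degree * ρ * T ^ α.degree) :=
          mul_le_mul (abs_apply_le (N.cv α P) k) (abs_mono_sub_le hT hy hy' h α) (abs_nonneg _)
            (norm_nonneg _)
      _ = α.degree * (‖N.cv α P‖ * T ^ α.degree) * ρ := by ring
      _ ≤ _ := mul_le_mul_of_nonneg_right (mul_le_mul h1 (hM α) (by positivity) (by positivity)) hρ
  · rw [nsmul_eq_mul, mul_assoc _ (S * M)]
    exact mul_le_mul_of_nonneg_right (by exact_mod_cast card_support_le hS hP k) (by positivity)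

end ev

/-- the datum whose lattice is `Q ℤ^ι` -/
def scl (N : ND ι) (Q : ℕ) : ND ι where
  wt := N.wt
  c i j k := Q * N.c i j k
  wt_pos := N.wt_pos
  c_wt i j k h := N.c_wt i j k (right_ne_zero_of_mul h)
  anti i j k := by rw [N.anti i j k]; ring
  jac i j k m := by
    have h := congrArg (fun t => (Q : ℤ) * Q * t) (N.jac i j k m)
    simp only [mul_add, mul_sum] at h
    convert h using 2
    · ring
    · exact sum_congr rfl fun _ _ => by ring
    · exact sum_congr rfl fun _ _ => by ring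

/-- the isomorphism `x ↦ Q • x` -/
def up (N : ND ι) (Q : ℕ) (A : Type) [CommRing A] [Algebra ℝ A] :
    (scl N Q).pts A →ₗ⁅ℝ⁆ N.pts A where
  toFun x k := (Q : ℝ) • x k
  map_add' x y := funext fun k => smul_add (Q : ℝ) (x k) (y k)
  map_smul' r x := funext fun k => smul_comm (Q : ℝ) r (x k)
  map_lie' {x y} := funext fun k => by
    change (Q : ℝ) • (∑ i, ∑ j, ((Q * N.c i j k : ℤ) : A) * x i * y j)
      = ∑ i, ∑ j, (N.c i j k : A) * ((Q : ℝ) • x i) * ((Q : ℝ) • y j)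
    simp only [smul_sum, Nat.cast_smul_eq_nsmul, nsmul_eq_mul]
    push_cast
    exact sum_congr rfl fun i _ => sum_congr rfl fun j _ => by ring

theorem up_apply {Q : ℕ} {A : Type} [CommRing A] [Algebra ℝ A] (x : (scl N Q).pts A) (k : ι) :
    up N Q A x k = (Q : ℝ) • x k := rfl

/-- the inverse of `up` -/
def dn (N : ND ι) (Q : ℕ) {A : Type} [CommRing A] [Algebra ℝ A] (x : N.pts A) : (scl N Q).pts A :=
  fun k => (Q : ℝ)⁻¹ • x k

theorem up_dn {Q : ℕ} (hQ : 1 ≤ Q) {A : Type} [CommRing A] [Algebra ℝ A] (x : N.pts A) :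
    up N Q A (dn N Q x) = x := pts_ext fun k => by
  have : (Q : ℝ) ≠ 0 := by positivity
  rw [up_apply, dn, smul_smul, mul_inv_cancel₀ this, one_smul]

theorem up_injective {Q : ℕ} (hQ : 1 ≤ Q) {A : Type} [CommRing A] [Algebra ℝ A] :
    Function.Injective (up N Q A) := fun x y h => pts_ext fun k => by
  have : (Q : ℝ) ≠ 0 := by positivity
  have h1 := congrArg (fun t => (Q : ℝ)⁻¹ • t) (congrFun h k)
  simpa only [up_apply, smul_smul, inv_mul_cancel₀ this, one_smul] using h1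

theorem norm_up {Q : ℕ} (x : (scl N Q).L) : ‖up N Q ℝ x‖ = Q * ‖x‖ := by
  have : N.co (up N Q ℝ x) = (Q : ℝ) • (scl N Q).co x := rfl
  rw [norm_eq, this, norm_smul, Real.norm_natCast, norm_eq]

theorem inL_up {Q : ℕ} {c : ℝ} {x : (scl N Q).L} (h : InL c x) : InL (Q * c) (up N Q ℝ x) :=
  fun k => by
    obtain ⟨n, hn⟩ := h k
    exact ⟨n, by rw [up_apply, hn, smul_eq_mul]; ring⟩

theorem inL_of_up {Q : ℕ} (hQ : 1 ≤ Q) {c : ℝ} {x : (scl N Q).L} (h : InL (Q * c) (up N Q ℝ x)) :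
    InL c x := fun k => by
  obtain ⟨n, hn⟩ := h k
  have : (Q : ℝ) ≠ 0 := by positivity
  rw [up_apply, smul_eq_mul, mul_assoc] at hn
  exact ⟨n, mul_left_cancel₀ this hn⟩

theorem good_scl {S Q : ℕ} {M : ℝ} (h : N.Good S M) (hQ : 1 ≤ Q) (hb : bden S ∣ Q) :
    (scl N Q).Good S (Q * M) where
  wt_le := h.wt_le
  c_le i j k := by
    change |((Q * N.c i j k : ℤ) : ℝ)| ≤ _
    push_cast
    rw [abs_mul, Nat.abs_cast]
    exact mul_le_mul_of_nonneg_left (h.c_le i j k) (Nat.cast_nonneg _)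
  lat x y hx hy := by
    refine (inL_of_up hQ (c := 1) ?_).isInt
    rw [Bch.map_star, mul_one]
    exact star_inL hb (by simpa using inL_up (InL.of_isInt hx))
      (by simpa using inL_up (InL.of_isInt hy))

theorem evZ_dn {σ : Type} {Q : ℕ} (hQ : 1 ≤ Q) (P : N.PS σ) (y : σ → ℤ) :
    up N Q ℝ ((scl N Q).evZ y (dn N Q P)) = N.evZ y P := pts_ext fun k => by
  have : (Q : ℝ) ≠ 0 := by positivity
  change (Q : ℝ) • MvPolynomial.aeval (fun v => (y v : ℝ)) ((Q : ℝ)⁻¹ • P k)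
    = MvPolynomial.aeval (fun v => (y v : ℝ)) (P k)
  rw [map_smul, smul_smul, mul_inv_cancel₀ this, one_smul]

theorem dn_mem_poly {σ : Type} (Q : ℕ) {P : N.PS σ} (hP : P ∈ N.poly σ) :
    dn N Q P ∈ (scl N Q).poly σ := fun α k hk => by
  change ((Q : ℝ)⁻¹ • P k).coeff α = 0
  rw [MvPolynomial.coeff_smul, show (P k).coeff α = 0 from hP α k hk, smul_zero]

end Crest.Agent.T49.Win
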