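import Crest.Agent.T49.GiB_40
import Crest.Agent.T49.WinAlg_56

/-!
# Row 49 (helper27): the one-frame half of the stage of (D): exact statements `PRUNE`, `DL`

Dimensions are tracked exactly (`ι`, `card ι + card ι'`), all heights go from `exp R` to
`exp (R ^ C)`.
-/

set_option autoImplicit false

noncomputable section

namespace Crest.Agent.T49.Dl

open Finset Crest.Agent.T49.Nil Crest.Agent.T49.Nil.ND Crest.Agent.T49.GI Crest.Agent.T49.Win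
open Crest.Agent.T49.Bch (star)

/-- a window of degree `≤ s` -/
structure Wd {ι : Type} [Fintype ι] (N : ND ι) (S s : ℕ) (M : ℝ) (F : N.L → ℝ) : Prop where
  mem : ∀ x, 0 ≤ F x ∧ F x ≤ 1
  nfn : N.NFn S s M fun x => (F x : ℂ)

theorem Wd.mono {ι : Type} [Fintype ι] {N : ND ι} {S s : ℕ} {M M' : ℝ} {F : N.L → ℝ}
    (h : Wd N S s M F) (hM : M ≤ M') : Wd N S s M' F := ⟨h.mem, h.nfn.mono hM⟩

/-- **PRUNE**: the window may be assumed invariant under the common kernel of `card ι` significant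
vertical frequencies -/
def PruneStmt : Prop :=
  ∃ C : ℕ, ∀ R : ℝ, 2 ≤ R → ∀ (ι : Type) [Fintype ι] (N : ND ι) (S s : ℕ) (F : N.L → ℝ)
    (β : Type) (B : Finset β) (x : β → N.L) (a : β → ℝ) (W : ℝ), (Fintype.card ι : ℝ) ≤ R →
    (∀ k, N.wt k ≤ S) → Wd N S s (Real.exp R) F → ∑ b ∈ B, |a b| ≤ W →
    Real.exp (-R) * W ≤ ∑ b ∈ B, F (x b) * a b →
    ∃ (η : ι → ι → ℤ) (G : ι → N.L → ℂ) (F' : N.L → ℝ),
      (∀ i, N.NChar S s (Real.exp (R ^ C)) (η i) (G i)) ∧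
      (∀ i, Real.exp (-R ^ C) * W ≤ ‖∑ b ∈ B, G i (x b) * (a b : ℂ)‖) ∧
      Wd N S s (Real.exp (R ^ C)) F' ∧
      (∀ Z ∈ N.F s, (∀ i, N.fn (η i) Z = 0) → ∀ y, F' (star S Z y) = F' y) ∧
      Real.exp (-R) / 2 * W ≤ ∑ b ∈ B, F' (x b) * a b

/-- **DL**, pointwise form: on a cell of the frame and on the support of one member of a partition
of unity on `Nb` (lattice deepened by `Q`) the window is close to a window of smaller degree.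
`Q, χ, N', q'` only depend on `N, Nb, H, j, q, R`. -/
def DLStmt : Prop :=
  ∀ S D : ℕ, 1 ≤ S → ∃ C : ℕ, ∀ R : ℝ, 2 ≤ R → ∀ (ι ι' : Type) [Fintype ι] [Fintype ι']
    (N : ND ι) (Nb : ND ι') (H : ℕ → Submodule ℝ (pd N Nb).L) (j q : ℕ),
    (Fintype.card ι + Fintype.card ι' : ℝ) ≤ R → N.Good S (Real.exp R) → Nb.Good S (Real.exp R) →
    (pd N Nb).GrSub H → (∀ i, (pd N Nb).RatS (Real.exp R) (H i)) → 1 ≤ q → (q : ℝ) ≤ Real.exp R →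
    ∃ (Q J r q' : ℕ) (χ : Fin J → (scl Nb Q).L → ℝ) (N' : ND (Fin r)),
      1 ≤ Q ∧ (Q : ℝ) ≤ Real.exp (R ^ C) ∧ (scl Nb Q).Good S (Real.exp (R ^ C)) ∧
      (J : ℝ) ≤ Real.exp (R ^ C) ∧ (∀ a, Wd (scl Nb Q) S (j + 1) (Real.exp (R ^ C)) (χ a)) ∧
      (∀ y, ∑ a, χ a y = 1) ∧ r ≤ Fintype.card ι + Fintype.card ι' ∧
      N'.Good S (Real.exp (R ^ C)) ∧ 1 ≤ q' ∧ (q' : ℝ) ≤ Real.exp (R ^ C) ∧
      ∀ (σ : Type) [Fintype σ] (T : ℝ) (F : N.L → ℝ) (P : N.PS σ) (Pb : Nb.PS σ),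
        Fintype.card σ ≤ D → 0 < T → Wd N S (j + 1) (Real.exp R) F →
        (∀ Z, pair Z 0 ∈ H (j + 1) → ∀ y, F (star S Z y) = F y) →
        (pd N Nb).FactQ S T (Real.exp R) q H (pair P Pb) →
        ∃ P' ∈ N'.poly σ, ∃ κ : Fin J → (σ → ℤ) → N'.L → ℝ, ∀ (a : Fin J) (y0 : σ → ℤ),
          (∀ v, |(y0 v : ℝ)| ≤ T) → Wd N' S j (Real.exp (R ^ C)) (κ a y0) ∧
          ∀ (y : σ → ℤ) (ρ : ℝ), 0 ≤ ρ → (∀ v, |(y v : ℝ)| ≤ T) →
            (∀ v, |(y v : ℝ) - y0 v| ≤ ρ * T) → (∀ v, (q' : ℤ) ∣ y v - y0 v) →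
            χ a ((scl Nb Q).evZ y (dn Nb Q Pb)) ≠ 0 →
            |F (N.evZ y P) - κ a y0 (N'.evZ y P')| ≤ Real.exp (-R) + Real.exp (R ^ C) * ρ

end Crest.Agent.T49.Dl
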