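import Crest.Agent.T49.WinSub_56
import Crest.Agent.T49.NilFn_73
import Crest.Agent.T49.NilPd_67
import Crest.Agent.T49.BchND_16
import Crest.Agent.T49.DlDef_27

/-!
Row 49 (helper51).  Degree lowering (DL), part A: the extension of a function on the first factor
of a product datum to a function that is invariant under the top part of a rational graded
subalgebra.
-/

set_option autoImplicit false
set_option linter.unusedSectionVars false

noncomputable section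

namespace Crest.Agent.T49.Dl.D51
open Finset Nil Nil.ND GI Win
open Crest.Agent.T49.Bch (star Ad Gauge cb)

variable {ι ι' : Type} [Fintype ι] [Fintype ι'] {N : ND ι} {Nb : ND ι'}

/-- values in `[0,1]`, Lipschitz, right invariant under `Q ℤ^ι` -/
structure RF (N : ND ι) (S : ℕ) (M Q : ℝ) (F : N.L → ℝ) : Prop where
  lo : ∀ x, 0 ≤ F x
  hi : ∀ x, F x ≤ 1
  lip : ∀ Z x, F (star S Z x) ≤ F x + M * ‖Z‖
  per : ∀ x l, InL Q l → F (star S x l) = F x

theorem RF.abs_lip {S : ℕ} [Bch.Nil S N.L] {M Q : ℝ} {F : N.L → ℝ} (h : RF N S M Q F)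
    (Z x : N.L) : |F (star S Z x) - F x| ≤ M * ‖Z‖ := by
  have h1 := h.lip Z x
  have h2 := h.lip (-Z) (star S Z x)
  rw [Bch.neg_star_star, norm_neg] at h2
  exact abs_le.2 ⟨by linarith, by linarith⟩

theorem RF.mono {S : ℕ} {M M' Q : ℝ} {F : N.L → ℝ} (h : RF N S M Q F) (hM : M ≤ M') :
    RF N S M' Q F :=
  ⟨h.lo, h.hi, fun Z x => (h.lip Z x).trans (by gcongr), h.per⟩

theorem RF.lipFn {S : ℕ} [Bch.Nil S N.L] {M : ℝ} {F : N.L → ℝ} (h : RF N S M 1 F) :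
    N.LipFn S M fun x => (F x : ℂ) where
  bdd x := by rw [Complex.norm_real, Real.norm_of_nonneg (h.lo x)]; exact h.hi x
  per x γ hγ := by rw [h.per x γ (InL.of_isInt hγ)]
  lip Z x := by rw [← Complex.ofReal_sub, Complex.norm_real]; exact h.abs_lip Z x

theorem RF.of_lipFn {S : ℕ} {M : ℝ} {F : N.L → ℝ} (h01 : ∀ x, 0 ≤ F x ∧ F x ≤ 1)
    (h : N.LipFn S M fun x => (F x : ℂ)) : RF N S M 1 F where
  lo x := (h01 x).1
  hi x := (h01 x).2
  lip Z x := by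
    have := h.lip Z x
    rw [← Complex.ofReal_sub, Complex.norm_real, Real.norm_eq_abs] at this
    linarith [(abs_le.1 this).2]
  per x l hl := by exact_mod_cast h.per x l hl.isInt

/-- `x' ∈ exp (B ρ) x exp (q ℤ^ι)` modulo `F (n+1)` -/
def CM (N : ND ι) (S n : ℕ) (ρ : ℝ) (q : ℕ) (x x' : N.L) : Prop :=
  ∃ z l : N.L, ‖z‖ ≤ ρ ∧ InL q l ∧ x' - star S z (star S x l) ∈ N.F (n + 1)

theorem CM.mono {S n : ℕ} {ρ ρ' : ℝ} {q : ℕ} {x x' : N.L} (h : CM N S n ρ q x x') (h1 : ρ ≤ ρ') :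
    CM N S n ρ' q x x' := by
  obtain ⟨z, l, a, b, c⟩ := h
  exact ⟨z, l, a.trans h1, b, c⟩

/-- the top coordinates of an element that moves `y` to a close point -/
theorem close_top {S n : ℕ} {τ z l y : N.L} (hτ : τ ∈ N.F n) (hz : ‖z‖ < 1) (hl : IsInt l)
    (e : star S τ y - star S z (star S y l) ∈ N.F (n + 1)) {k : ι} (hk : N.wt k ≤ n) :
    τ k = z k + l k := by
  have step : ∀ i, i ≤ n → z ∈ N.F i → l ∈ N.F i → ∀ k, N.wt k ≤ i → τ k = z k + l k := by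
    intro i hi h1 h2 k hk
    have h3 := mem_FA.1 e k (by omega)
    rw [ND.sub_apply, star_apply_left (FA_anti hi hτ) y hk, star_apply_left h1 _ hk,
      star_apply_right y h2 hk] at h3
    linarith
  have key : ∀ i, i ≤ n → z ∈ N.F i ∧ l ∈ N.F i := by
    intro i
    induction i with
    | zero => exact fun _ => ⟨mem_FA_zero _, mem_FA_zero _⟩
    | succ i ih =>
      intro hi
      obtain ⟨h1, h2⟩ := ih (by omega)
      have h3 : ∀ k, N.wt k < i + 1 → z k = 0 ∧ l k = 0 := fun k hk => by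
        have h4 := step i (by omega) h1 h2 k (by omega)
        rw [mem_FA.1 hτ k (by omega)] at h4
        obtain ⟨m, hm⟩ := hl k
        have h5 : |(m : ℝ)| < 1 := by
          rw [← hm, show l k = -z k by linarith, abs_neg]
          exact (abs_apply_le z k).trans_lt hz
        have h6 : m = 0 := by
          have : |m| < 1 := by exact_mod_cast h5
          exact Int.abs_lt_one_iff.1 this
        rw [h6, Int.cast_zero] at hm
        exact ⟨by linarith, hm⟩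
      exact ⟨mem_FA.2 fun k hk => (h3 k hk).1, mem_FA.2 fun k hk => (h3 k hk).2⟩
  exact step n le_rfl (key n le_rfl).1 (key n le_rfl).2 k hk

/-- lifting a splitting of the second component -/
theorem exists_lift_top {d n : ℕ} {Hh : ℝ} (hHh : 1 ≤ Hh) (hd : Fintype.card (ι ⊕ ι') ≤ d)
    {U : Submodule ℝ (pd N Nb).L} (hU : (pd N Nb).RatS Hh U) :
    ∃ q0 : ℕ, 1 ≤ q0 ∧ (q0 : ℝ) ≤ Gon.bl d Hh ∧ ∀ τ ∈ U, ∀ z l : Nb.L, InL q0 l →
      (∀ k, Nb.wt k ≤ n → snd N Nb ℝ τ k = z k + l k) →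
      ∃ a ∈ U, ∃ b ∈ U, ‖a‖ ≤ d * Hh * Gon.bl d Hh * ‖z‖ ∧ IsInt b ∧
        snd N Nb ℝ (τ - a - b) ∈ Nb.F (n + 1) := by
  classical
  obtain ⟨r, G, hr, hG, -, hGU⟩ := Gon.IsRat.exists_gen hU
  let A : Matrix ι' (Fin r) ℤ := Matrix.of fun k a => if Nb.wt k ≤ n then G (.inr k) a else 0
  have hA : ∀ k a, |(A k a : ℝ)| ≤ Hh := fun k a => by
    simp only [A, Matrix.of_apply]
    split_ifs
    · exact hG _ _
    · simpa using zero_le_one.trans hHh
  have hrd : Fintype.card (Fin r) ≤ d := by simpa using hr.trans hd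
  obtain ⟨q, B, hq1, hq, hB, hden, hsp⟩ := Gon.exists_split A hHh hA (d := d) (Or.inl hrd)
  have hAG : ∀ x k, Gon.lin A x k = if Nb.wt k ≤ n then Gon.lin G x (.inr k) else 0 := fun x k => by
    simp only [Gon.lin_apply, A, Matrix.of_apply]
    split_ifs <;> simp
  have hq0 : (q : ℝ) ≠ 0 := by positivity
  refine ⟨q, hq1, hq, fun τ hτ z l hl h => ?_⟩
  have hτ' : (pd N Nb).co τ ∈ LinearMap.range (Gon.lin G) := by rw [hGU]; exact hτ
  obtain ⟨x, hx⟩ := hτ'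
  choose m hm using hl
  let z' : ι' → ℝ := fun k => if Nb.wt k ≤ n then z k else 0
  let m' : ι' → ℤ := fun k => if Nb.wt k ≤ n then m k else 0
  have h1 := hsp x z' ((q : ℝ) • Gon.cst m') (funext fun k => by
    rw [hAG, hx]
    simp only [z', m', Pi.add_apply, Pi.smul_apply, Gon.cst_apply, smul_eq_mul]
    split_ifs with hk
    · rw [← hm]; exact h k hk
    · simp)
  have hmem : ∀ y, (pd N Nb).co.symm (Gon.lin G y) ∈ U := fun y => by
    have : Gon.lin G y ∈ LinearMap.range (Gon.lin G) := ⟨y, rfl⟩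
    rw [hGU] at this
    exact this
  have hz' : ‖z'‖ ≤ ‖z‖ := (pi_norm_le_iff_of_nonneg (norm_nonneg _)).2 fun k => by
    simp only [z']
    split_ifs
    · exact abs_apply_le z k
    · simp
  refine ⟨_, hmem ((q : ℝ)⁻¹ • Gon.lin B z'), _, hmem ((q : ℝ)⁻¹ • Gon.lin B ((q : ℝ) • Gon.cst m')),
    ?_, fun k => ?_, mem_FA.2 fun k hk => ?_⟩
  · refine (Gon.norm_lin_le G (by linarith) hG hrd _).trans ?_
    rw [mul_assoc (d * Hh)]
    have := Gon.one_le_bl d hHh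
    exact mul_le_mul_of_nonneg_left ((hB z').trans (by gcongr)) (by positivity)
  · rw [map_smul (Gon.lin B), smul_smul, inv_mul_cancel₀ hq0, one_smul, Gon.lin_cst, Gon.lin_cst]
    exact ⟨_, rfl⟩
  · have h2 := congrFun h1 k
    rw [hAG, if_pos (by omega), map_sub, map_sub, hx] at h2
    exact h2

section sup

variable {S n : ℕ} {H : ℕ → Submodule ℝ N.L}

theorem star_mem_top (hH : N.GrSub H) (S : ℕ) {x y : N.L} (hx : x ∈ H n) (hy : y ∈ H n) :
    star S x y ∈ H n := by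
  simpa using add_mem (hH.ge _ (star_sub_add_left S (hH.le _ hx) y)) (add_mem hx hy)

theorem Ad_mem_top (hH : N.GrSub H) [Bch.Nil S N.L] (x : N.L) {y : N.L} (hy : y ∈ H n) :
    Ad S x y ∈ H n := by
  simpa using add_mem (hH.ge _ (Ad_sub_mem_FA S x (hH.le _ hy))) hy

/-- the supremum over left translates -/
def sp (S : ℕ) (U : Submodule ℝ N.L) (Φ : N.L → ℝ) (Y : N.L) : ℝ := ⨆ τ : U, Φ (star S τ Y)

variable {M Q : ℝ} {Φ : N.L → ℝ}

theorem le_sp (h : RF N S M Q Φ) {U : Submodule ℝ N.L} {τ : N.L} (hτ : τ ∈ U) (Y : N.L) :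
    Φ (star S τ Y) ≤ sp S U Φ Y :=
  le_ciSup (f := fun τ : U => Φ (star S τ Y)) ⟨1, by rintro _ ⟨τ, rfl⟩; exact h.hi _⟩ ⟨τ, hτ⟩

theorem sp_le {U : Submodule ℝ N.L} {Y : N.L} {b : ℝ} (h : ∀ τ ∈ U, Φ (star S τ Y) ≤ b) :
    sp S U Φ Y ≤ b := ciSup_le fun τ : U => h τ τ.2

theorem RF.sp [Bch.Nil S N.L] (hH : N.GrSub H) (h : RF N S M Q Φ) : RF N S M Q (sp S (H n) Φ) where
  lo x := (h.lo _).trans (le_sp h (zero_mem _) x)
  hi x := sp_le fun _ _ => h.hi _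
  lip Z x := sp_le fun τ hτ => by
    rw [← Bch.star_assoc, Bch.star_eq_star_Ad S τ Z, Bch.star_assoc]
    exact (h.lip _ _).trans (by gcongr; exact le_sp h (Ad_mem_top hH _ hτ) x)
  per x l hl := by
    unfold D51.sp
    simp only [← Bch.star_assoc, h.per _ l hl]

theorem sp_inv [Bch.Nil S N.L] (hH : N.GrSub H) (h : RF N S M Q Φ) {τ : N.L} (hτ : τ ∈ H n)
    (Y : N.L) : sp S (H n) Φ (star S τ Y) = sp S (H n) Φ Y := by
  have key : ∀ τ ∈ H n, ∀ Y, sp S (H n) Φ (star S τ Y) ≤ sp S (H n) Φ Y := fun τ hτ Y =>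
    sp_le fun τ' hτ' => by
      rw [← Bch.star_assoc]
      exact le_sp h (star_mem_top hH S hτ' hτ) Y
  refine le_antisymm (key τ hτ Y) ?_
  simpa using key (-τ) (neg_mem hτ) (star S τ Y)

end sup

/-- moving along the top part of `H` to a point with close second component -/
theorem core {S n : ℕ} [Bch.Nil S N.L] {MF : ℝ} {H : ℕ → Submodule ℝ (pd N Nb).L}
    (hH : (pd N Nb).GrSub H) {F : N.L → ℝ} (hF : RF N S MF 1 F)
    (hinv : ∀ x, pair x 0 ∈ H n → ∀ y, F (star S x y) = F y) {τ a b : (pd N Nb).L} (hτ : τ ∈ H n)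
    (ha : a ∈ H n) (hb : b ∈ H n) (hb' : IsInt b) (hc : snd N Nb ℝ (τ - a - b) ∈ Nb.F (n + 1))
    (y : N.L) : F (star S (fst N Nb ℝ τ) y) ≤ F y + MF * ‖fst N Nb ℝ a‖ := by
  have hcong : ∀ u v : N.L, u - v ∈ N.F (n + 1) → F u = F v := fun u v huv => by
    have h1 : star S u (-v) ∈ N.F (n + 1) := by
      simpa using star_congr_FA S huv (sub_self (-v) ▸ zero_mem _ : -v - -v ∈ N.F (n + 1))
    rw [← hinv _ (hH.ge _ (pair_mem_FA h1 (zero_mem _))) v, Bch.star_neg_star']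
  have hfst : ∀ {x}, x ∈ H n → fst N Nb ℝ x ∈ N.F n := fun hx => (mem_pd_FA.1 (hH.le _ hx)).1
  have hc0 : τ - a - b ∈ H n := sub_mem (sub_mem hτ ha) hb
  set c := τ - a - b with hcd
  have hc1 : pair (fst N Nb ℝ c) 0 ∈ H n := by
    have h1 : pair 0 (snd N Nb ℝ c) ∈ H n := hH.ge _ (pair_mem_FA (zero_mem _) hc)
    have h2 := sub_mem hc0 h1
    rwa [← pair_fst_snd c, ← pair_sub, sub_zero, snd_pair, sub_self] at h2
  have hτ' : fst N Nb ℝ τ = fst N Nb ℝ a + fst N Nb ℝ b + fst N Nb ℝ c := by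
    rw [← map_add, ← map_add, hcd]; congr 1; abel
  have h1 : F (star S (fst N Nb ℝ τ) y) =
      F (star S (fst N Nb ℝ a) (star S (fst N Nb ℝ c) (star S y (fst N Nb ℝ b)))) := by
    refine hcong _ _ ?_
    have e1 := star_sub_add_left S (hfst hτ) y
    have e2 := star_sub_add_left S (hfst ha) (star S (fst N Nb ℝ c) (star S y (fst N Nb ℝ b)))
    have e3 := star_sub_add_left S (hfst hc0) (star S y (fst N Nb ℝ b))
    have e4 := star_sub_add_right S (hfst hb) y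
    have := sub_mem (sub_mem (sub_mem e1 e2) e3) e4
    rw [hτ'] at this ⊢
    convert this using 1
    abel
  rw [h1]
  refine (hF.lip _ _).trans (le_of_eq ?_)
  rw [hinv _ hc1, hF.per _ _ (InL.of_isInt (isInt_pd.1 hb').1)]

/-- **extension**: an `H n`-invariant function on the product that is close to `F ∘ fst` where the
cutoff `β` equals `1` -/
theorem exists_ext {S n d : ℕ} {B Hh : ℝ} (hN : N.Good S B) (hNb : Nb.Good S B) (hB : 0 ≤ B)
    (hHh : 1 ≤ Hh) (hd : Fintype.card (ι ⊕ ι') ≤ d) {H : ℕ → Submodule ℝ (pd N Nb).L}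
    (hH : (pd N Nb).GrSub H) (hU : (pd N Nb).RatS Hh (H n)) :
    ∃ q0 : ℕ, 1 ≤ q0 ∧ (q0 : ℝ) ≤ Gon.bl d Hh ∧ ∀ (Q : ℕ) (MF Mβ : ℝ) (F : N.L → ℝ) (β : Nb.L → ℝ),
      q0 ∣ Q → 0 ≤ MF → 0 ≤ Mβ → RF N S MF 1 F →
      (∀ x, pair x 0 ∈ H n → ∀ y, F (star S x y) = F y) → RF Nb S Mβ Q β →
      ∃ Ψ : (pd N Nb).L → ℝ, RF (pd N Nb) S (MF + Mβ) Q Ψ ∧
        (∀ τ ∈ H n, ∀ Y, Ψ (star S τ Y) = Ψ Y) ∧
        ∀ (Y : (pd N Nb).L) (ρ : ℝ), ρ < 1 → β (snd N Nb ℝ Y) = 1 →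
          (∀ y', β y' ≠ 0 → CM Nb S n ρ Q (snd N Nb ℝ Y) y') →
          |Ψ Y - F (fst N Nb ℝ Y)| ≤ MF * (d * Hh * Gon.bl d Hh * ρ) := by
  have := hN.nil ℝ
  have := (good_pd hN hNb hB).nil ℝ
  obtain ⟨q0, h1, h2, h3⟩ := exists_lift_top (n := n) hHh hd hU
  refine ⟨q0, h1, h2, fun Q MF Mβ F β hq hMF hMβ hF hinv hβ => ?_⟩
  have hΦ : RF (pd N Nb) S (MF + Mβ) Q fun Y => F (fst N Nb ℝ Y) * β (snd N Nb ℝ Y) := by
    refine ⟨fun Y => mul_nonneg (hF.lo _) (hβ.lo _),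
      fun Y => mul_le_one₀ (hF.hi _) (hβ.lo _) (hβ.hi _), fun Z Y => ?_, fun Y l hl => ?_⟩
    · rw [Bch.map_star, Bch.map_star]
      have a1 := hF.lip (fst N Nb ℝ Z) (fst N Nb ℝ Y)
      have a2 := hβ.lip (snd N Nb ℝ Z) (snd N Nb ℝ Y)
      have a3 : MF * ‖fst N Nb ℝ Z‖ ≤ MF * ‖Z‖ := mul_le_mul_of_nonneg_left (norm_fst_le Z) hMF
      have a4 : Mβ * ‖snd N Nb ℝ Z‖ ≤ Mβ * ‖Z‖ := mul_le_mul_of_nonneg_left (norm_snd_le Z) hMβ
      have a5 : 0 ≤ MF * ‖Z‖ := by positivity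
      have a6 : 0 ≤ Mβ * ‖Z‖ := by positivity
      have a7 := hF.lo (fst N Nb ℝ Y)
      have a8 := hF.hi (fst N Nb ℝ Y)
      have a9 := hβ.lo (star S (snd N Nb ℝ Z) (snd N Nb ℝ Y))
      have a10 := hβ.hi (star S (snd N Nb ℝ Z) (snd N Nb ℝ Y))
      calc _ ≤ (F (fst N Nb ℝ Y) + MF * ‖Z‖) * β (star S (snd N Nb ℝ Z) (snd N Nb ℝ Y)) :=
            mul_le_mul_of_nonneg_right (by linarith) a9
        _ ≤ F (fst N Nb ℝ Y) * (β (snd N Nb ℝ Y) + Mβ * ‖Z‖) + MF * ‖Z‖ * 1 := by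
            rw [add_mul]
            gcongr
            linarith
        _ ≤ _ := by nlinarith
    · rw [Bch.map_star, Bch.map_star, hβ.per _ (snd N Nb ℝ l) fun k => hl (.inr k),
        hF.per _ (fst N Nb ℝ l) (InL.of_eq (fun k => hl (.inl k)) Q (by simp))]
  refine ⟨_, hΦ.sp hH, fun τ hτ Y => sp_inv hH hΦ hτ Y, fun Y ρ hρ hY hcl => ?_⟩
  have hρ0 : 0 ≤ ρ := by
    obtain ⟨z, -, hz, -⟩ := hcl _ (by rw [hY]; exact one_ne_zero)
    exact (norm_nonneg _).trans hz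
  have hbl := Gon.one_le_bl d hHh
  have h0 : 0 ≤ MF * (d * Hh * Gon.bl d Hh * ρ) := by positivity
  refine abs_le.2 ⟨?_, sub_le_iff_le_add'.2 (sp_le fun τ hτ => ?_)⟩
  · have := le_sp hΦ (zero_mem (H n)) Y
    rw [Bch.zero_star, hY, mul_one] at this
    linarith
  · by_cases hb : β (snd N Nb ℝ (star S τ Y)) = 0
    · rw [hb, mul_zero]; linarith [hF.lo (fst N Nb ℝ Y)]
    obtain ⟨z, l, hz, hl, e⟩ := hcl _ hb
    rw [Bch.map_star] at e
    obtain ⟨t, rfl⟩ := hq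
    obtain ⟨a, ha, b, hb, ha', hb', hc⟩ := h3 τ hτ z l (hl.of_eq t (by push_cast; ring))
      fun k hk => close_top (mem_pd_FA.1 (hH.le _ hτ)).2 (hz.trans_lt hρ)
        (hl.of_eq (q0 * t) (c' := 1) (by push_cast; ring)).isInt e hk
    refine (mul_le_of_le_one_right (hF.lo _) (hβ.hi _)).trans ?_
    rw [Bch.map_star]
    refine (core hH hF hinv hτ ha hb hb' hc _).trans ?_
    gcongr
    exact (norm_fst_le a).trans (ha'.trans (by gcongr))

end Crest.Agent.T49.Dl.D51
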