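import Crest.Agent.T49.DlA_51

/-!
Row 49 (helper51).  Degree lowering (DL), part B: cutoffs subordinate to a partition of unity, and
the converse of the factorisation for functions that are invariant under the top part of `H`.
-/

set_option autoImplicit false
set_option linter.unusedSectionVars false

noncomputable section

namespace Crest.Agent.T49.Dl.D51
open Finset Nil Nil.ND GI Win
open Crest.Agent.T49.Bch (star Ad Gauge cb)

variable {ι : Type} [Fintype ι] {N : ND ι}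

theorem CM.symm {S n : ℕ} [Bch.Nil S N.L] {ρ : ℝ} {q : ℕ} {x x' : N.L} (h : CM N S n ρ q x x') :
    CM N S n ρ q x' x := by
  obtain ⟨z, l, a, b, e⟩ := h
  refine ⟨-z, -l, by rwa [norm_neg], b.neg, ?_⟩
  have h1 := star_congr_FA S (sub_self (-z) ▸ zero_mem _ : -z - -z ∈ N.F (n + 1))
    (star_congr_FA S e (sub_self (-l) ▸ zero_mem _ : -l - -l ∈ N.F (n + 1)))
  simp only [Bch.star_assoc, Bch.star_neg_self, Bch.star_zero, Bch.neg_star_star] at h1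
  simpa using neg_mem h1

theorem CM.trans {S n : ℕ} {M K ρ : ℝ} (hG : N.Good S M) (hM : 0 ≤ M) (hK : kB ι M ≤ K)
    (hρ : ρ ≤ K) {x x' x'' : N.L} (h : CM N S n ρ 1 x x') (h' : CM N S n ρ 1 x' x'') :
    CM N S n (cb S * K ^ (2 * S) * ρ) 1 x x'' := by
  have := hG.nil ℝ
  obtain ⟨z, l, a, b, e⟩ := h
  obtain ⟨z', l', a', b', e'⟩ := h'
  refine ⟨star S z' z, star S l l', (nG hM hG.c_le).star_le' S hK ((one_le_kB hM).trans hK) hρ a' a,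
    ?_, ?_⟩
  · simpa using InL.of_isInt
      (hG.lat _ _ (InL.isInt (by simpa using b)) (InL.isInt (by simpa using b')))
  · have h1 := star_congr_FA S (sub_self z' ▸ zero_mem _ : z' - z' ∈ N.F (n + 1))
      (star_congr_FA S e (sub_self l' ▸ zero_mem _ : l' - l' ∈ N.F (n + 1)))
    simpa only [Bch.star_assoc, sub_add_sub_cancel] using add_mem e' h1

theorem dn_star {Q : ℕ} (hQ : 1 ≤ Q) (S : ℕ) (x y : N.L) :
    dn N Q (star S x y) = star S (dn N Q x) (dn N Q y) :=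
  up_injective hQ (by rw [Bch.map_star, up_dn hQ, up_dn hQ, up_dn hQ])

theorem norm_dn_le {Q : ℕ} (hQ : 1 ≤ Q) (x : N.L) : ‖(dn N Q x : (scl N Q).L)‖ ≤ ‖x‖ := by
  have h := norm_up (dn N Q x : (scl N Q).L)
  rw [up_dn hQ] at h
  rw [h]
  exact le_mul_of_one_le_left (norm_nonneg _) (by exact_mod_cast hQ)

theorem CM.up {Q : ℕ} (hQ : 1 ≤ Q) {S n : ℕ} {ρ : ℝ} {x x' : N.L}
    (h : CM (scl N Q) S n ρ 1 (dn N Q x) (dn N Q x')) : CM N S n (Q * ρ) Q x x' := by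
  obtain ⟨z, l, a, b, e⟩ := h
  refine ⟨Win.up N Q ℝ z, Win.up N Q ℝ l, ?_, by simpa using inL_up b, ?_⟩
  · rw [norm_up]; gcongr
  · rw [← up_dn hQ x', ← up_dn hQ x, ← Bch.map_star, ← Bch.map_star, ← map_sub]
    exact mem_FA.2 fun k hk => by rw [up_apply, mem_FA.1 e k hk, smul_zero]

theorem RF.dn {Q : ℕ} (hQ : 1 ≤ Q) {S : ℕ} {M : ℝ} (hM : 0 ≤ M) {F : (scl N Q).L → ℝ}
    (h : RF (scl N Q) S M 1 F) : RF N S M Q fun x => F (dn N Q x) where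
  lo _ := h.lo _
  hi _ := h.hi _
  lip Z x := by
    rw [dn_star hQ]
    exact (h.lip _ _).trans (by gcongr; exact norm_dn_le hQ Z)
  per x l hl := by
    rw [dn_star hQ]
    exact h.per _ _ (inL_of_up hQ (by rwa [up_dn hQ, mul_one]))

/-- a partition of unity on `G / exp (Q ℤ^ι)` with cutoffs -/
theorem exists_cut (S : ℕ) : ∃ C : ℕ, ∀ (m : ℝ), 2 ≤ m → ∀ (ι : Type) [Fintype ι] (N : ND ι)
    (n Q : ℕ), (Fintype.card ι : ℝ) ≤ m → N.Good S (Real.exp m) → 1 ≤ Q → (Q : ℝ) ≤ Real.exp m → bden S ∣ Q →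
    ∃ (J : ℕ) (χ : Fin J → (scl N Q).L → ℝ) (β : Fin J → N.L → ℝ), (J : ℝ) ≤ Real.exp (m ^ C) ∧
      (∀ a, Wd (scl N Q) S n (Real.exp (m ^ C)) (χ a)) ∧ (∀ x, ∑ a, χ a x = 1) ∧
      (∀ a, RF N S (Real.exp (m ^ C)) Q (β a)) ∧ ∀ a y, χ a (dn N Q y) ≠ 0 →
        β a y = 1 ∧ ∀ y', β a y' ≠ 0 → CM N S n (Real.exp (-m)) Q y y' := by
  classical
  obtain ⟨C0, h0⟩ := exists_pou S
  obtain ⟨C1, h1⟩ : ∃ C : ℕ, ∀ (m K c : ℝ) (d Q : ℕ), 2 ≤ m → (d : ℝ) ≤ m → (Q : ℝ) ≤ Real.exp m →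
      K = (d : ℝ) ^ 2 * (Q * Real.exp m) + 1 + 2 → c = cb S * K ^ (2 * S) →
      m ≤ m ^ C ∧ Q * Real.exp m ≤ Real.exp (m ^ C) ∧
      ((⌈Q * c ^ 3 * Real.exp m⌉₊ + 4 : ℕ) : ℝ) ≤ Real.exp (m ^ C) := by qp
  obtain ⟨C2, h2⟩ : ∃ C : ℕ, ∀ m : ℝ, 2 ≤ m → Real.exp ((m ^ C1) ^ C0) ≤ Real.exp (m ^ C) ∧
      Real.exp ((m ^ C1) ^ C0) * Real.exp ((m ^ C1) ^ C0) ≤ Real.exp (m ^ C) := by qp
  refine ⟨C2, fun m hm ι _ N n Q hd hG hQ hQm hb => ?_⟩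
  have hM : 0 ≤ Q * Real.exp m := by positivity
  have hG' := good_scl hG hQ hb
  have := hG'.nil ℝ
  set K := kB ι (Q * Real.exp m) + 2 with hK
  set c := cb S * K ^ (2 * S) with hc
  obtain ⟨b1, b2, b3⟩ := h1 m K c _ Q hm hd hQm rfl rfl
  obtain ⟨b4, b5⟩ := h2 m hm
  set Q1 := ⌈Q * c ^ 3 * Real.exp m⌉₊ + 4 with hQ1
  obtain ⟨J, χ, y, hJ, hχ, h01, hs, hy, hsup⟩ := h0 (m ^ C1) (hm.trans b1) ι (scl N Q) n Q1
    (hd.trans b1) (hG'.mono b2) (by omega) b3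
  have hk1 := one_le_kB (ι := ι) hM
  have hK1 : 1 ≤ K := by linarith
  have hc1 : 1 ≤ c := one_le_mul_of_one_le_of_one_le (by linarith [Bch.two_le_cb S])
    (one_le_pow₀ hK1)
  have hQ' : (1 : ℝ) ≤ Q := by exact_mod_cast hQ
  have hQ10 : (0 : ℝ) < Q1 := by rw [hQ1]; positivity
  have hsm : Q * (c * (c * (c * (Q1 : ℝ)⁻¹))) ≤ Real.exp (-m) := by
    have h3 : Q * c ^ 3 * Real.exp m ≤ Q1 := (Nat.le_ceil _).trans (by rw [hQ1]; push_cast; linarith)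
    rw [Real.exp_neg, show Q * (c * (c * (c * (Q1 : ℝ)⁻¹))) = Q * c ^ 3 / Q1 by ring,
      div_le_iff₀ hQ10, ← div_eq_inv_mul, le_div_iff₀ (Real.exp_pos _)]
    exact h3
  have hi0 : 0 ≤ (Q1 : ℝ)⁻¹ := by positivity
  have hs3 : c * (c * (c * (Q1 : ℝ)⁻¹)) ≤ 1 := ((le_mul_of_one_le_left (by positivity) hQ').trans
    hsm).trans (Real.exp_le_one_iff.2 (by linarith))
  have hs2 : c * (c * (Q1 : ℝ)⁻¹) ≤ 1 := (le_mul_of_one_le_left (by positivity) hc1).trans hs3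
  have hs1 : c * (Q1 : ℝ)⁻¹ ≤ 1 := (le_mul_of_one_le_left (by positivity) hc1).trans hs2
  have hs0 : (Q1 : ℝ)⁻¹ ≤ 1 := (le_mul_of_one_le_left (by positivity) hc1).trans hs1
  have hcl : ∀ a x, χ a x ≠ 0 → CM (scl N Q) S n (c * (Q1 : ℝ)⁻¹) 1 (y a) x := fun a x hx => by
    obtain ⟨γ, hγ, h3⟩ := hsup a x hx
    let w : (scl N Q).L := fun k => if N.wt k ≤ n then star S x γ k else y a k
    have h4 : ‖w - y a‖ ≤ (Q1 : ℝ)⁻¹ := (norm_le_iff hi0).2 fun k => by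
      simp only [ND.sub_apply, w]
      split_ifs with hk
      · rw [← one_div (Q1 : ℝ), le_div_iff₀' hQ10]
        exact (h3 k hk).le
      · simp
    have h5 : ‖w‖ ≤ K := by
      have := norm_add_le (w - y a) (y a)
      rw [sub_add_cancel] at this
      linarith [hy a]
    have h6 : star S x γ - w ∈ (scl N Q).F (n + 1) := mem_FA.2 fun k hk => by
      simp only [ND.sub_apply, w]
      rw [if_pos (show N.wt k ≤ n from Nat.le_of_lt_succ hk), sub_self]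
    refine ⟨star S w (-y a), -γ, (nG hM hG'.c_le).star_neg_le S (by linarith) hK1
      ((hy a).trans hK1) h5 h4, by simpa using (InL.of_isInt hγ).neg, ?_⟩
    simpa only [Bch.star_assoc, Bch.neg_star_star, Bch.star_neg_self, Bch.star_zero] using
      star_congr_FA S h6 (sub_self (-γ) ▸ zero_mem _ : -γ - -γ ∈ (scl N Q).F (n + 1))
  have hcl2 : ∀ a x x', χ a x ≠ 0 → χ a x' ≠ 0 →
      CM (scl N Q) S n (c * (c * (Q1 : ℝ)⁻¹)) 1 x x' := fun a x x' hx hx' =>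
    (hcl a x hx).symm.trans hG' hM (by linarith) (hs1.trans hK1) (hcl a x' hx')
  have hR : ∀ a, RF (scl N Q) S (Real.exp ((m ^ C1) ^ C0)) 1 (χ a) := fun a =>
    RF.of_lipFn (h01 a) (hχ a).toLipFn
  let A : Fin J → Finset (Fin J) := fun a => univ.filter fun a' => ∃ x, χ a x ≠ 0 ∧ χ a' x ≠ 0
  have hβ : ∀ a, RF (scl N Q) S (Real.exp (m ^ C2)) 1 fun x => ∑ a' ∈ A a, χ a' x := fun a => by
    refine ⟨fun x => sum_nonneg fun a' _ => (h01 a' x).1, fun x => ?_, fun Z x => ?_,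
      fun x l hl => sum_congr rfl fun a' _ => (hR a').per x l hl⟩
    · rw [← hs x]
      exact sum_le_sum_of_subset_of_nonneg (subset_univ _) fun a' _ _ => (h01 a' x).1
    · refine (sum_le_sum fun a' _ => (hR a').lip Z x).trans ?_
      rw [sum_add_distrib, sum_const, nsmul_eq_mul, ← mul_assoc]
      have : (#(A a) : ℝ) ≤ J := by exact_mod_cast (card_le_univ _).trans (by simp)
      gcongr
      exact le_trans (by gcongr; exact this.trans hJ) b5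
  refine ⟨J, χ, fun a x => ∑ a' ∈ A a, χ a' (dn N Q x), hJ.trans b4,
    fun a => ⟨h01 a, (hχ a).mono b4⟩, hs,
    fun a => (hβ a).dn hQ (by positivity), fun a x hx => ⟨?_, fun x' hx' => ?_⟩⟩
  · rw [← hs (dn N Q x)]
    refine sum_subset (subset_univ _) fun a' _ ha' => by_contra fun h => ha' ?_
    exact mem_filter.2 ⟨mem_univ _, _, hx, h⟩
  · obtain ⟨a', ha', h3⟩ := exists_ne_zero_of_sum_ne_zero hx'
    obtain ⟨x0, h4, h5⟩ := (mem_filter.1 ha').2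
    exact (CM.up hQ ((hcl2 a _ _ hx h4).trans hG' hM (by linarith) (hs2.trans hK1)
      (hcl2 a' _ _ h5 h3))).mono hsm

/-- **converse of the factorisation** for functions invariant under `H (s+1)` and `Q ℤ^ι` -/
theorem clt_inv {S : ℕ} (hS : 1 ≤ S) (D : ℕ) : ∃ C : ℕ, ∀ (m : ℝ), 2 ≤ m → ∀ (ι : Type) [Fintype ι]
    (N : ND ι) (H : ℕ → Submodule ℝ N.L) (q Q : ℕ), (Fintype.card ι : ℝ) ≤ m →
    N.Good S (Real.exp m) → N.GrSub H → (∀ i, N.RatS (Real.exp m) (H i)) → 1 ≤ q →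
    (q : ℝ) ≤ Real.exp m → 1 ≤ Q → (Q : ℝ) ≤ Real.exp m →
    ∃ (r : ℕ) (N' : ND (Fin r)) (q' : ℕ), r ≤ Fintype.card ι ∧ N'.Good S (Real.exp (m ^ C)) ∧
      1 ≤ q' ∧ (q' : ℝ) ≤ Real.exp (m ^ C) ∧ ∀ (σ : Type) [Fintype σ] (P : N.PS σ) (T : ℝ),
      Fintype.card σ ≤ D → 0 < T → N.FactQ S T (Real.exp m) q H P →
      ∃ P' ∈ N'.poly σ, ∀ y0 : σ → ℤ, (∀ v, |(y0 v : ℝ)| ≤ T) → ∀ (s : ℕ) (Ψ : N.L → ℝ),
        RF N S (Real.exp m) Q Ψ → (∀ τ ∈ H (s + 1), ∀ Y, Ψ (star S τ Y) = Ψ Y) →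
        ∃ F' : N'.L → ℝ, RF N' S (Real.exp (m ^ C)) 1 F' ∧
          (∀ Z ∈ N'.F (s + 1), ∀ x, F' (star S Z x) = F' x) ∧
          ∀ (y : σ → ℤ) (ρ : ℝ), 0 ≤ ρ → (∀ v, |(y v : ℝ)| ≤ T) →
            (∀ v, |(y v : ℝ) - y0 v| ≤ ρ * T) → (∀ v, (q' : ℤ) ∣ y v - y0 v) →
            |Ψ (N.evZ y P) - F' (N'.evZ y P')| ≤ Real.exp (m ^ C) * ρ := by
  obtain ⟨C, hC⟩ : ∃ C : ℕ, ∀ (m R Mε c : ℝ) (d q Q0 Q : ℕ), 2 ≤ m → (d : ℝ) ≤ m →
      (q : ℝ) ≤ Real.exp m → (Q : ℝ) ≤ Real.exp m →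
      Mε = St.cS S * (St.kB S d (Real.exp m) * Real.exp m) ^ (S + 1) →
      c = ((d : ℝ) ^ 2 * Real.exp m + 1) →
      (Q0 : ℝ) = (bden S * (St.dS S * q ^ (S + 1)) ^ S) ^ 2 →
      R = (bden S * (Q0 * Q)) * (bden S * (Gon.bl d (Real.exp m) ^ 2 * ((c + d) * Real.exp m ^ 2))) →
      R ≤ Real.exp (m ^ C) ∧ (Q0 * Q : ℝ) ≤ Real.exp (m ^ C) ∧ ∀ (e : ℕ) (K : ℝ), e ≤ D →
      K = c + (S + 1 : ℝ) ^ e * Mε →
      Real.exp m * (cb S * K ^ (2 * S) * R) ≤ Real.exp (m ^ C) ∧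
      Real.exp m * (cb S * K ^ (2 * S) * ((S + 1 : ℝ) ^ e * (S * Mε))) ≤ Real.exp (m ^ C) := by
    unfold Gon.bl St.kB; qp
  refine ⟨C, fun m hm ι _ N H q Q hι hG hH hR hq1 hq2 hQ1 hQ2 => ?_⟩
  have he : 1 ≤ Real.exp m := Real.one_le_exp (by linarith)
  have hB : 0 ≤ Real.exp m := by linarith
  obtain ⟨r, N0, φ0, ψ, q0, hr, hsub⟩ := exists_subD hG hB le_rfl hH he hR
  set qγ := St.dS S * q ^ (S + 1) with hqγd
  have hqγ : 1 ≤ qγ := Nat.mul_pos (St.one_le_dS S) (by positivity)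
  have hdep := dep_pos S hqγ
  obtain ⟨ψ', h, hin⟩ := hsub.deep (Q := bden S * (dep S qγ * Q))
    (Nat.mul_pos (bden_pos S) (Nat.mul_pos hdep hQ1)) (dvd_mul_right _ _)
  obtain ⟨b1, b2, b3⟩ := hC m _ _ (kB ι (Real.exp m)) _ q (dep S qγ) Q hm hι hq2 hQ2 rfl rfl
    (by unfold dep; rw [hqγd]; push_cast; rfl) (by rw [← Nat.cast_mul, ← Nat.cast_mul])
  set φ := φ0.comp (up N0 (bden S * (dep S qγ * Q)) ℝ) with hφ
  set R := ((bden S * (dep S qγ * Q) : ℕ) : ℝ) * (bden S * (Gon.bl (Fintype.card ι) (Real.exp m) ^ 2 *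
    ((kB ι (Real.exp m) + Fintype.card ι) * Real.exp m ^ 2))) with hRd
  refine ⟨r, _, dep S qγ * Q, hr, h.good.mono b1, Nat.mul_pos hdep hQ1, by push_cast; exact b2,
    fun σ _ P T hD hT hf => ?_⟩
  obtain ⟨ε, hε, g, hg, γ, h0, hsm, hγ, rfl⟩ := factQ_norm hG he le_rfl hT.le he hH hf
  obtain ⟨P', hP', hPg⟩ := h.exists_poly hH hg h0
  obtain ⟨b4, b5⟩ := b3 _ _ hD rfl
  set Mε := St.cS S * (St.kB S (Fintype.card ι) (Real.exp m) * Real.exp m) ^ (S + 1) with hMε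
  set K := kB ι (Real.exp m) + (S + 1 : ℝ) ^ Fintype.card σ * Mε with hKd
  have := hG.nil ℝ
  have := h.good.nil ℝ
  let G := nG hB hG.c_le
  have hM0 : 0 ≤ Mε := le_trans (by simp) (hsm 0)
  have hk := one_le_kB (ι := ι) hB
  have hK1 : kB ι (Real.exp m) ≤ K := le_add_of_nonneg_right (by positivity)
  have hK : 1 ≤ K := hk.trans hK1
  have hεb : ∀ y : σ → ℤ, (∀ v, |(y v : ℝ)| ≤ T) → ‖N.evZ y ε‖ ≤ K := fun y hy => by
    linarith [norm_evZ_le hG.wt_le hε hsm hy]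
  have hγL := evZ_inL hqγ hγ
  have hev : ∀ y, N.evZ y (star S ε (star S g γ))
      = star S (N.evZ y ε) (star S (φ (ND.evZ _ y P')) (N.evZ y γ)) := fun y => by
    rw [Bch.map_star, Bch.map_star, hPg]
  refine ⟨P', hP', fun y0 hy0 s Ψ hΨ hinv =>
    ⟨fun x => Ψ (star S (N.evZ y0 ε) (star S (φ x) (N.evZ y0 γ))),
      ⟨fun x => hΨ.lo _, fun x => hΨ.hi _, fun Z x => ?_, fun x l hl => ?_⟩, fun Z hZ x => ?_,
      fun y ρ hρ hy hyy hq => ?_⟩⟩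
  · rw [Bch.map_star, Bch.star_assoc, ← Bch.star_assoc S (N.evZ y0 ε),
      Bch.star_eq_Ad_star S (N.evZ y0 ε) (φ Z), Bch.star_assoc]
    refine (hΨ.lip _ _).trans (add_le_add_right ?_ _)
    have h1 : ‖Ad S (N.evZ y0 ε) (φ Z)‖ ≤ cb S * K ^ (2 * S) * (R * ‖Z‖) :=
      G.Ad_le S hK1 hK (hεb y0 hy0) (h.norm Z)
    calc _ ≤ Real.exp m * (cb S * K ^ (2 * S) * (R * ‖Z‖)) := mul_le_mul_of_nonneg_left h1 hB
      _ = Real.exp m * (cb S * K ^ (2 * S) * R) * ‖Z‖ := by ring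
      _ ≤ _ := mul_le_mul_of_nonneg_right b4 (norm_nonneg _)
  · have h1 : InL Q (star S (-N.evZ y0 γ) (star S (φ l) (- -N.evZ y0 γ))) :=
      conj_inL hS hqγ (hγL y0).neg (hγL y0).neg (by rw [sub_self]; exact InL.zero _)
        ((hin l hl.isInt).of_eq (bden S) (by push_cast; ring))
    have h2 := hΨ.per (star S (N.evZ y0 ε) (star S (φ x) (N.evZ y0 γ))) _ h1
    simp only [Bch.map_star, ← h2, Bch.star_assoc, Bch.star_neg_star, neg_neg]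
  · have h1 : φ Z ∈ H (s + 1) := (h.filt _ (by omega) Z).1 hZ
    beta_reduce
    rw [Bch.map_star, Bch.star_assoc, ← Bch.star_assoc S (N.evZ y0 ε),
      Bch.star_eq_Ad_star S (N.evZ y0 ε) (φ Z), Bch.star_assoc, hinv _ (Ad_mem_top hH _ h1)]
  · have h1 : InL Q (star S (-N.evZ y0 γ) (star S 0 (- -N.evZ y γ))) :=
      conj_inL hS hqγ (hγL y0).neg (hγL y).neg (by
        rw [neg_sub_neg]
        exact (evZ_sub_inL hqγ hγ hq).of_eq 1 (by push_cast; ring)) (InL.zero _)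
    have h2 := hΨ.per (star S (N.evZ y ε) (star S (φ (ND.evZ _ y P')) (N.evZ y0 γ))) _ h1
    simp only [Bch.star_assoc, Bch.star_neg_star, neg_neg, Bch.zero_star] at h2
    rw [hev, h2, ← Bch.star_neg_star' S (N.evZ y ε) (N.evZ y0 ε), Bch.star_assoc]
    refine (hΨ.abs_lip _ _).trans ?_
    have h3 : ‖star S (N.evZ y ε) (-N.evZ y0 ε)‖ ≤
        cb S * K ^ (2 * S) * ((S + 1 : ℝ) ^ Fintype.card σ * (S * Mε) * ρ) :=
      G.star_neg_le S hK1 hK (hεb y0 hy0) (hεb y hy)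
        (norm_evZ_sub_le hG.wt_le hε hT hρ hsm hy hy0 hyy)
    calc _ ≤ Real.exp m * (cb S * K ^ (2 * S) * ((S + 1 : ℝ) ^ Fintype.card σ * (S * Mε) * ρ)) :=
          mul_le_mul_of_nonneg_left h3 hB
      _ = Real.exp m * (cb S * K ^ (2 * S) * ((S + 1 : ℝ) ^ Fintype.card σ * (S * Mε))) * ρ := by
          ring
      _ ≤ _ := mul_le_mul_of_nonneg_right b5 hρ

end Crest.Agent.T49.Dl.D51
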