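import Crest.Agent.T49.DlDef_27
import Crest.Agent.T49.NilFn_73
import Crest.Agent.T49.Qp_85

/-!
# Row 49 (helper27): `PruneStmt`
-/

set_option autoImplicit false
set_option linter.unusedSectionVars false

noncomputable section

namespace Crest.Agent.T49.Dl

open Finset Crest.Agent.T49.Nil Crest.Agent.T49.Nil.ND Crest.Agent.T49.Tor
open Crest.Agent.T49.Bch (star)
open scoped ComplexConjugate

section ker

variable {κ : Type} [Fintype κ] [DecidableEq κ]

/-- the Fejér kernel averaged over the annihilator of `U` -/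
def kU (K : ℕ) (U : AddSubgroup (κ → ℤ)) [DecidablePred (· ∈ U)] (t : κ → ℝ) : ℂ :=
  ∑ ξ ∈ cube κ K with ξ ∈ U, (fw K ξ : ℂ) * e (-dot ξ t)

theorem kU_eq (K : ℕ) (U : AddSubgroup (κ → ℤ)) [DecidablePred (· ∈ U)] (t : κ → ℝ) :
    ∃ r : ℝ, 0 ≤ r ∧ kU K U t = r := by
  classical
  set B := Tor.box fun _ : κ => K with hB
  let c : (κ → ℤ) → (κ → ℤ) ⧸ U := QuotientAddGroup.mk
  refine ⟨((K : ℝ) ^ Fintype.card κ)⁻¹ * ∑ g ∈ B.image c, ‖dir (B.filter fun j => c j = g) t‖ ^ 2,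
    by positivity, ?_⟩
  have h1 : kU K U t = (((K : ℝ) ^ Fintype.card κ)⁻¹ : ℝ) *
      ∑ p ∈ (B ×ˢ B) with p.2 - p.1 ∈ U, e (dot (p.1 - p.2) t) := by
    rw [kU, ← sum_fiberwise_of_maps_to (s := (B ×ˢ B).filter fun p => p.2 - p.1 ∈ U)
      (t := (cube κ K).filter fun ξ => ξ ∈ U) (g := fun p => p.2 - p.1), mul_sum]
    · refine sum_congr rfl fun ξ hξ => ?_
      rw [sum_congr rfl (g := fun _ => e (-dot ξ t)) fun p hp => by
        rw [← (mem_filter.1 hp).2, ← neg_dot, neg_sub]]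
      rw [filter_filter, filter_congr (q := fun p => p.2 - p.1 = ξ) fun p _ =>
        ⟨fun h => h.2, fun h => ⟨h ▸ (mem_filter.1 hξ).2, h⟩⟩]
      simp only [fw, sum_const, nsmul_eq_mul, hB]; push_cast; ring
    · intro p hp
      obtain ⟨hp1, hp2⟩ := mem_filter.1 hp
      obtain ⟨h1, h2⟩ := mem_product.1 hp1
      simp only [hB, Tor.box, Fintype.mem_piFinset, mem_Ico] at h1 h2
      refine mem_filter.2 ⟨?_, hp2⟩
      rw [mem_cube]; intro i
      have := h1 i; have := h2 i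
      rw [Pi.sub_apply, abs_le]; omega
  rw [h1, Complex.ofReal_mul, Complex.ofReal_sum]
  congr 1
  simp only [normSq_dir]
  rw [← sum_fiberwise_of_maps_to (s := (B ×ˢ B).filter fun p => p.2 - p.1 ∈ U) (t := B.image c)
    (g := fun p => c p.1) fun p hp => mem_image_of_mem _ (mem_product.1 (mem_filter.1 hp).1).1]
  refine sum_congr rfl fun g _ => ?_
  rw [← sum_product']
  refine sum_congr ?_ fun _ _ => rfl
  ext p
  simp only [mem_filter, mem_product]
  have : p.2 - p.1 ∈ U ↔ c p.1 = c p.2 := by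
    rw [QuotientAddGroup.eq, neg_add_eq_sub]
  rw [this]
  constructor
  · rintro ⟨⟨⟨a, b⟩, h⟩, h'⟩
    exact ⟨⟨a, h'⟩, b, h ▸ h'⟩
  · rintro ⟨⟨a, h⟩, b, h'⟩
    exact ⟨⟨⟨a, b⟩, h.trans h'.symm⟩, h⟩

theorem continuous_kU (K : ℕ) (U : AddSubgroup (κ → ℤ)) [DecidablePred (· ∈ U)] :
    Continuous (kU K U) := by
  unfold kU; fun_prop

theorem avg_kU (K : ℕ) (U : AddSubgroup (κ → ℤ)) [DecidablePred (· ∈ U)] :
    avg (kU K U) = (fw K (0 : κ → ℤ) : ℂ) := by
  unfold kU
  rw [avg_sum (f := fun ξ t => (fw K ξ : ℂ) * e (-dot ξ t)) _ fun ξ _ => by fun_prop]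
  simp only [avg_const_mul, ← neg_dot, avg_e_dot, neg_eq_zero]
  rw [sum_eq_single 0 (fun ξ _ h => by simp [h])]
  · simp
  · intro h
    exact absurd (mem_filter.2 ⟨mem_cube.2 fun i => by simp, U.zero_mem⟩) h

/-- the part of the Fejér sum with frequencies in a subgroup is an average of values -/
theorem proj_mem {X : Type*} {act : (κ → ℝ) → X → X} {F : X → ℝ} {M : ℝ}
    (h : Vert act (fun x => (F x : ℂ)) M) (hF : ∀ x, 0 ≤ F x ∧ F x ≤ 1) (K : ℕ)
    (U : AddSubgroup (κ → ℤ)) [DecidablePred (· ∈ U)] (x : X) :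
    ∃ r : ℝ, 0 ≤ r ∧ r ≤ 1 ∧
      ∑ ξ ∈ cube κ K with ξ ∈ U, (fw K ξ : ℂ) * coef act (fun x => (F x : ℂ)) ξ x = r := by
  choose r hr0 hr using kU_eq K U
  have hrc : Continuous r := by
    have : r = fun t => (kU K U t).re := funext fun t => by rw [hr, Complex.ofReal_re]
    rw [this]
    exact Complex.continuous_re.comp (continuous_kU K U)
  have hFc : Continuous fun t => F (act t x) := by
    simpa [Function.comp_def] using Complex.continuous_re.comp (h.continuous x)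
  refine ⟨avg fun t => r t * F (act t x), ?_, ?_, ?_⟩
  · exact (avg_const (0 : ℝ)).ge.trans (avg_mono continuous_const (hrc.mul hFc) fun t _ =>
      mul_nonneg (hr0 t) (hF _).1)
  · refine (avg_mono (hrc.mul hFc) hrc fun t _ => mul_le_of_le_one_right (hr0 t) (hF _).2).trans ?_
    have h1 := avg_kU K U
    rw [show kU K U = fun t => (r t : ℂ) from funext hr, avg_ofReal, Complex.ofReal_inj] at h1
    exact h1.le.trans (fw_le_one _ _)
  · rw [← avg_ofReal]
    simp only [Complex.ofReal_mul, ← hr, kU, sum_mul, mul_assoc]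
    rw [avg_sum (f := fun ξ t => (fw K ξ : ℂ) * (e (-dot ξ t) * (F (act t x) : ℂ))) _
      fun ξ _ => continuous_const.mul (h.continuous' ξ x)]
    simp only [avg_const_mul, coef]

end ker

theorem pruneStmt : PruneStmt := by
  classical
  obtain ⟨C, hC⟩ : ∃ C : ℕ, ∀ (R : ℝ) (d K : ℕ), 2 ≤ R → (d : ℝ) ≤ R →
      (K : ℝ) ≤ (Real.exp R * R) ^ 2 * (4 * Real.exp R ^ 2) + 2 →
      Real.exp R ≤ Real.exp (R ^ C) ∧ (K : ℝ) ≤ Real.exp (R ^ C) ∧
      (2 * K + 1 : ℝ) ^ d * Real.exp R ≤ Real.exp (R ^ C) ∧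
      Real.exp (-R ^ C) ≤ Real.exp (-R) / 4 / (2 * K + 1 : ℝ) ^ d := by
    qp
  refine ⟨C, fun R hR ι _ N S s F β B x a W hd hS hF hW hB => ?_⟩
  set κ := {k // N.wt k = s}
  have hκ : Fintype.card κ ≤ Fintype.card ι := Fintype.card_subtype_le _
  set K := ⌈(Real.exp R * R) ^ 2 * (4 * Real.exp R ^ 2)⌉₊ + 1 with hK
  have hKl : (Real.exp R * R) ^ 2 * (4 * Real.exp R ^ 2) ≤ K := by
    rw [hK]; push_cast; linarith [Nat.le_ceil ((Real.exp R * R) ^ 2 * (4 * Real.exp R ^ 2))]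
  obtain ⟨b1, b2, b3, b4⟩ := hC R (Fintype.card ι) K hR hd (by
    rw [hK]; push_cast
    linarith [Nat.ceil_lt_add_one (show 0 ≤ (Real.exp R * R) ^ 2 * (4 * Real.exp R ^ 2) by positivity)])
  have hM : 0 ≤ Real.exp R := (Real.exp_pos _).le
  have hW0 : 0 ≤ W := le_trans (sum_nonneg fun _ _ => abs_nonneg _) hW
  have hV := hF.nfn.vert hS hM
  set G : (κ → ℤ) → N.L → ℂ := coef (N.vact s) fun x => (F x : ℂ) with hG
  have hGc : ∀ ξ ∈ cube κ K, N.NChar S s (Real.exp (R ^ C)) (N.vz s ξ) (G ξ) := fun ξ hξ =>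
    hF.nfn.nchar_coef hS hM ξ b1 fun i => le_trans (by exact_mod_cast mem_cube.1 hξ i) b2
  have hGl : ∀ ξ, N.LipFn S (Real.exp R) (G ξ) := fun ξ => by
    have := (hF.nfn.nchar_coef hS hM ξ (M' := Real.exp R + ∑ i, |(ξ i : ℝ)|)
      (le_add_of_nonneg_right (by positivity)) fun i => le_add_of_nonneg_of_le hM
        (single_le_sum (f := fun i => |(ξ i : ℝ)|) (fun _ _ => abs_nonneg _) (mem_univ i))).toLipFn
    refine ⟨this.bdd, this.per, fun Z y => hV.norm_coef_sub_le ξ _ _ fun t => ?_⟩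
    have := ND.nil hS ℝ
    simp only [ND.vact]
    rw [← hF.nfn.congr (star_sub_add_right S (vx_mem t) _),
      ← hF.nfn.congr (star_sub_add_right S (vx_mem t) y), Bch.star_assoc]
    exact hF.nfn.lip _ _
  set n : ℝ := (2 * K + 1 : ℝ) ^ Fintype.card ι with hn
  have hn1 : (#(cube κ K) : ℝ) ≤ n := by
    rw [card_cube, hn]; push_cast
    exact pow_le_pow_right₀ (by linarith [Nat.cast_nonneg (α := ℝ) K]) hκ
  have hn0 : 0 < n := by positivity
  set δ := Real.exp (-R) / 4 / n with hδ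
  have hδ0 : 0 ≤ δ := by positivity
  set c : (κ → ℤ) → ℂ := fun ξ => ∑ b ∈ B, G ξ (x b) * (a b : ℂ) with hc
  set Sig : Set (κ → ℤ) := {ξ | ξ ∈ cube κ K ∧ δ * W ≤ ‖c ξ‖} with hSig
  -- the Fejér sum
  have hexp : ∀ y, ‖(F y : ℂ) - ∑ ξ ∈ cube κ K, (fw K ξ : ℂ) * G ξ y‖ ≤ Real.exp (-R) / 4 := by
    refine hV.expand' (by omega) (by positivity) (le_trans ?_ (mul_le_mul_of_nonneg_left hKl
      (by positivity)))
    have e : 4 * (Real.exp (-R) / 4) ^ 2 * ((Real.exp R * R) ^ 2 * (4 * Real.exp R ^ 2)) =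
        (Real.exp R * R) ^ 2 := by
      rw [Real.exp_neg]; field_simp
    rw [e]
    exact pow_le_pow_left₀ (by positivity) (mul_le_mul_of_nonneg_left
      (le_trans (by exact_mod_cast hκ) hd) hM) 2
  -- removing insignificant frequencies costs little
  have hrem : ∀ (p : (κ → ℤ) → Prop) [DecidablePred p], (∀ ξ ∈ Sig, p ξ) →
      Real.exp (-R) / 2 * W ≤ (∑ ξ ∈ cube κ K with p ξ, (fw K ξ : ℂ) * c ξ).re := by
    intro p _ hp
    have h1 : ‖(∑ b ∈ B, F (x b) * a b : ℝ) - ∑ ξ ∈ cube κ K, (fw K ξ : ℂ) * c ξ‖ ≤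
        Real.exp (-R) / 4 * W := by
      have e : ((∑ b ∈ B, F (x b) * a b : ℝ) : ℂ) - ∑ ξ ∈ cube κ K, (fw K ξ : ℂ) * c ξ =
          ∑ b ∈ B, ((F (x b) : ℂ) - ∑ ξ ∈ cube κ K, (fw K ξ : ℂ) * G ξ (x b)) * a b := by
        simp only [hc, mul_sum, sub_mul, sum_sub_distrib, sum_mul, mul_assoc]
        rw [sum_comm]; push_cast; rfl
      rw [e]
      refine (norm_sum_le _ _).trans (le_trans (sum_le_sum fun b _ => ?_)
        ((mul_sum _ _ _).symm.le.trans (mul_le_mul_of_nonneg_left hW (by positivity))))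
      rw [norm_mul, Complex.norm_real, Real.norm_eq_abs]
      exact mul_le_mul_of_nonneg_right (hexp _) (abs_nonneg _)
    have h2 : ‖∑ ξ ∈ cube κ K with ¬ p ξ, (fw K ξ : ℂ) * c ξ‖ ≤ Real.exp (-R) / 4 * W := by
      refine (norm_sum_le _ _).trans ((sum_le_card_nsmul _ _ (δ * W) fun ξ hξ => ?_).trans ?_)
      · obtain ⟨h1, h2⟩ := mem_filter.1 hξ
        have : ‖c ξ‖ ≤ δ * W := le_of_not_ge fun h => h2 (hp ξ ⟨h1, h⟩)
        rw [norm_mul, Complex.norm_real, Real.norm_of_nonneg (fw_nonneg _ _)]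
        exact (mul_le_of_le_one_left (norm_nonneg _) (fw_le_one _ _)).trans this
      · rw [nsmul_eq_mul]
        have h3 : (#{ξ ∈ cube κ K | ¬ p ξ} : ℝ) ≤ n :=
          le_trans (by exact_mod_cast card_filter_le _ _) hn1
        refine (mul_le_mul_of_nonneg_right h3 (by positivity)).trans (le_of_eq ?_)
        rw [hδ]; field_simp
    rw [← sum_filter_add_sum_filter_not (cube κ K) p] at h1
    have h3 := (Complex.abs_re_le_norm _).trans h1
    have h4 := (Complex.abs_re_le_norm _).trans h2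
    rw [Complex.sub_re, Complex.add_re, Complex.ofReal_re] at h3
    linarith [(abs_le.1 h3).2, (abs_le.1 h4).2]
  -- a significant frequency
  obtain ⟨ξ₀, hξ₀⟩ : Sig.Nonempty := by
    by_contra hne
    have h1 := hrem (fun _ => False) fun ξ hξ => hne ⟨ξ, hξ⟩
    simp only [filter_false, sum_empty, Complex.zero_re] at h1
    have h2 : W = 0 := le_antisymm (by
      by_contra h
      have : 0 < Real.exp (-R) / 2 * W := mul_pos (by positivity) (not_le.1 h)
      linarith) hW0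
    exact hne ⟨0, mem_cube.2 fun i => by simp, by simp [h2]⟩
  set U := Submodule.span ℝ ((fun ξ : κ → ℤ => fun i => (ξ i : ℝ)) '' Sig) with hU
  obtain ⟨f, hf1, hf2, -⟩ := Submodule.exists_fun_fin_finrank_span_eq ℝ
    ((fun ξ : κ → ℤ => fun i => (ξ i : ℝ)) '' Sig)
  choose g hg1 hg2 using hf1
  have hfr : Fintype.card (Fin (Module.finrank ℝ U)) ≤ Fintype.card ι := by
    rw [Fintype.card_fin]
    refine (Submodule.finrank_le U).trans ?_
    rw [Module.finrank_fintype_fun_eq_card]; exact hκ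
  obtain ⟨em⟩ := Function.Embedding.nonempty_of_card_le hfr
  let ξ : ι → κ → ℤ := Function.extend em g fun _ => ξ₀
  have hξ : ∀ i, ξ i ∈ Sig := fun i => by
    by_cases h : ∃ j, em j = i
    · obtain ⟨j, rfl⟩ := h
      simp only [ξ, em.injective.extend_apply]; exact hg1 j
    · simp only [ξ, Function.extend_apply' _ _ _ h]; exact hξ₀
  let UZ : AddSubgroup (κ → ℤ) :=
    { carrier := {ξ | (fun i => (ξ i : ℝ)) ∈ U}
      add_mem' := fun {a b} ha hb => by
        have := U.add_mem ha hb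
        simpa [Pi.add_def] using this
      zero_mem' := by simpa [Pi.zero_def] using U.zero_mem
      neg_mem' := fun {a} ha => by
        have := U.neg_mem ha
        simpa [Pi.neg_def] using this }
  choose r hr0 hr1 hr using proj_mem hV hF.mem K UZ
  rw [← hG] at hr
  have hinv : ∀ Z ∈ N.F s, (∀ i, N.fn (N.vz s (ξ i)) Z = 0) → ∀ y, r (star S Z y) = r y := by
    intro Z hZ h0 y
    rw [← Complex.ofReal_inj, ← hr, ← hr]
    refine sum_congr rfl fun ζ hζ => ?_
    obtain ⟨h1, h2⟩ := mem_filter.1 hζ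
    have h3 : ∀ v ∈ U, ∑ i, v i * Z i = 0 := by
      intro v hv
      rw [hU, ← hf2] at hv
      induction hv using Submodule.span_induction with
      | mem v hv =>
        obtain ⟨j, rfl⟩ := hv
        have := h0 (em j)
        simp only [ξ, em.injective.extend_apply, fn_vz] at this
        rw [← hg2 j]; exact this
      | zero => simp
      | add u v _ _ hu hv => simp only [Pi.add_apply, add_mul, sum_add_distrib, hu, hv, add_zero]
      | smul t v _ hv => simp only [Pi.smul_apply, smul_eq_mul, mul_assoc, ← mul_sum, hv, mul_zero]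
    rw [(hGc ζ h1).vert Z hZ, fn_vz, show dot ζ (fun i : κ => Z i) = 0 from h3 _ h2]
    simp
  refine ⟨fun i => N.vz s (ξ i), fun i => G (ξ i), r, fun i => hGc _ (hξ i).1,
    fun i => le_trans (mul_le_mul_of_nonneg_right b4 hW0) (hξ i).2,
    ⟨fun y => ⟨hr0 y, hr1 y⟩, ⟨fun y => ?_, fun y γ hγ => ?_, fun Z y => ?_⟩, fun Z hZ y => ?_⟩,
    hinv, ?_⟩
  · rw [Complex.norm_real, Real.norm_of_nonneg (hr0 y)]; exact hr1 y
  · rw [← hr, ← hr]
    exact sum_congr rfl fun ζ _ => by rw [(hGl ζ).per _ _ hγ]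
  · rw [← hr, ← hr, ← sum_sub_distrib]
    refine (norm_sum_le _ _).trans ((sum_le_card_nsmul _ _ (Real.exp R * ‖Z‖) fun ζ _ => ?_).trans ?_)
    · rw [← mul_sub, norm_mul, Complex.norm_real, Real.norm_of_nonneg (fw_nonneg _ _)]
      exact (mul_le_of_le_one_left (norm_nonneg _) (fw_le_one _ _)).trans ((hGl ζ).lip _ _)
    · rw [nsmul_eq_mul, ← mul_assoc]
      refine mul_le_mul_of_nonneg_right (le_trans (mul_le_mul_of_nonneg_right ?_ hM) b3)
        (norm_nonneg _)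
      exact le_trans (by exact_mod_cast card_filter_le _ _) hn1
  · rw [hinv Z (FA_anti (Nat.le_succ s) hZ) (fun i => fn_eq_zero (fun k hk => dif_neg hk) hZ) y]
  · refine (hrem (· ∈ UZ) fun ζ hζ => Submodule.subset_span ⟨ζ, hζ, rfl⟩).trans (le_of_eq ?_)
    have e : ∑ ζ ∈ cube κ K with ζ ∈ UZ, (fw K ζ : ℂ) * c ζ = (∑ b ∈ B, r (x b) * a b : ℝ) := by
      push_cast
      simp only [hc, mul_sum, ← hr, sum_mul, mul_assoc]
      rw [sum_comm]
    rw [e, Complex.ofReal_re]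

end Crest.Agent.T49.Dl
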