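import Crest.Agent.T49.DlB_51

/-!
Row 49 (helper51).  Degree lowering: `DLStmt`.
-/

set_option autoImplicit false
set_option linter.unusedSectionVars false

noncomputable section

namespace Crest.Agent.T49.Dl
open Finset Nil Nil.ND GI Win D51
open Crest.Agent.T49.Bch (star)

theorem dlStmt : DLStmt := by
  intro S D hS
  obtain ⟨C1, h1⟩ := exists_cut S
  obtain ⟨C2, h2⟩ := clt_inv hS D
  obtain ⟨a, ha⟩ : ∃ C : ℕ, ∀ (R : ℝ) (d q0 : ℕ), 2 ≤ R → (d : ℝ) ≤ R →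
      (q0 : ℝ) ≤ Gon.bl d (Real.exp R) → R ≤ R ^ C ∧ (bden S * q0 : ℝ) ≤ Real.exp (R ^ C) ∧
      Real.exp R * Real.exp R * (d * Real.exp R * Gon.bl d (Real.exp R)) ≤ Real.exp (R ^ C) := by
    unfold Gon.bl; qp
  obtain ⟨b, hb⟩ : ∃ C : ℕ, ∀ R : ℝ, 2 ≤ R → R ^ a ≤ R ^ C ∧
      Real.exp R + Real.exp ((R ^ a) ^ C1) ≤ Real.exp (R ^ C) := by qp
  obtain ⟨C, hC⟩ : ∃ C : ℕ, ∀ R : ℝ, 2 ≤ R → Real.exp ((R ^ b) ^ C2) ≤ Real.exp (R ^ C) ∧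
      Real.exp ((R ^ a) ^ C1) ≤ Real.exp (R ^ C) ∧ Real.exp (R ^ a) ≤ Real.exp (R ^ C) ∧
      Real.exp (R ^ a) * Real.exp R ≤ Real.exp (R ^ C) := by qp
  refine ⟨C, fun R hR ι ι' _ _ N Nb H j q hd hN hNb hH hU hq1 hq2 => ?_⟩
  have he : 1 ≤ Real.exp R := Real.one_le_exp (by linarith)
  have hB : 0 ≤ Real.exp R := by linarith
  have hd' : (Fintype.card (ι ⊕ ι') : ℝ) ≤ R := by rw [Fintype.card_sum]; push_cast; exact hd
  have hι' : (Fintype.card ι' : ℝ) ≤ R := le_trans (le_add_of_nonneg_left (by positivity)) hd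
  obtain ⟨q0, hq01, hq02, hext⟩ := exists_ext (n := j + 1) hN hNb hB he le_rfl hH (hU _)
  obtain ⟨a1, a2, a3⟩ := ha R _ q0 hR hd' hq02
  obtain ⟨b1, b2⟩ := hb R hR
  obtain ⟨c1, c2, c3, c4⟩ := hC R hR
  have hQ : 1 ≤ bden S * q0 := Nat.mul_pos (bden_pos S) hq01
  have hQ2 : ((bden S * q0 : ℕ) : ℝ) ≤ Real.exp (R ^ a) := by push_cast; exact a2
  have e1 : Real.exp R ≤ Real.exp (R ^ a) := Real.exp_le_exp.2 a1
  have e2 : Real.exp (R ^ a) ≤ Real.exp (R ^ b) := Real.exp_le_exp.2 b1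
  obtain ⟨J, χ, β, hJ, hχ, hs, hβ, hcut⟩ := h1 (R ^ a) (hR.trans a1) ι' Nb (j + 1) _ (hι'.trans a1)
    (hNb.mono e1) hQ hQ2 (dvd_mul_right _ _)
  obtain ⟨r, N', q', hr, hN', hq'1, hq'2, hclt⟩ := h2 (R ^ b) (hR.trans (a1.trans b1)) _ (pd N Nb) H q
    _ (hd'.trans (a1.trans b1)) ((good_pd hN hNb hB).mono (e1.trans e2)) hH
    (fun i => (hU i).mono (e1.trans e2)) hq1 (hq2.trans (e1.trans e2)) hQ (hQ2.trans e2)
  refine ⟨bden S * q0, J, r, q', χ, N', hQ, hQ2.trans c3,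
    (good_scl hNb hQ (dvd_mul_right _ _)).mono (le_trans (by gcongr) c4), hJ.trans c2,
    fun i => (hχ i).mono c2, hs, by simpa using hr, hN'.mono c1, hq'1, hq'2.trans c1,
    fun σ _ T F P Pb hD hT hF hinv hf => ?_⟩
  obtain ⟨P', hP', hP⟩ := hclt σ _ T hD hT (hf.mono (e1.trans e2) dvd_rfl)
  have := hN'.nil ℝ
  choose Ψ hΨ1 hΨ2 hΨ3 using fun i => hext _ _ _ F (β i) (dvd_mul_left _ _) hB (by positivity)
    (RF.of_lipFn hF.mem hF.nfn.toLipFn) hinv (hβ i)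
  choose! κ hκ1 hκ2 hκ3 using fun i y0 hy0 => hP y0 hy0 j (Ψ i) ((hΨ1 i).mono b2) (hΨ2 i)
  refine ⟨P', hP', κ, fun i y0 hy0 => ⟨⟨fun x => ⟨(hκ1 i y0 hy0).lo x, (hκ1 i y0 hy0).hi x⟩,
    ((hκ1 i y0 hy0).mono c1).lipFn, fun Z hZ x => by rw [hκ2 i y0 hy0 Z hZ]⟩,
    fun y ρ hρ hy hyy hq hne => ?_⟩⟩
  have e3 : (scl Nb (bden S * q0)).evZ y (dn Nb (bden S * q0) Pb) = dn Nb _ (Nb.evZ y Pb) :=
    up_injective hQ (by rw [evZ_dn hQ, up_dn hQ])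
  rw [e3] at hne
  obtain ⟨h3, h4⟩ := hcut i _ hne
  have h5 := hΨ3 i (pair (N.evZ y P) (Nb.evZ y Pb)) _
    (Real.exp_lt_one_iff.2 (by linarith) : Real.exp (-R ^ a) < 1) h3 h4
  have h6 := hκ3 i y0 hy0 y ρ hρ hy hyy hq
  rw [evZ_pair] at h6
  rw [fst_pair, abs_sub_comm] at h5
  refine (abs_sub_le _ _ _).trans (add_le_add (h5.trans ?_) (h6.trans (by gcongr)))
  rw [Real.exp_neg, Real.exp_neg, ← mul_assoc, ← div_eq_mul_inv, div_le_iff₀ (Real.exp_pos _),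
    ← div_eq_inv_mul, le_div_iff₀ (Real.exp_pos _)]
  exact le_trans (le_of_eq (by ring)) a3

end Crest.Agent.T49.Dl
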