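import Crest.Agent.T49.MalB_64
import Crest.Agent.T49.RegA_2
import Crest.Agent.T49.OReg_26

/-!
# Row 49 (helper65): END, the new cell is a piece of the old one
-/

set_option autoImplicit false
set_option linter.unusedSectionVars false

noncomputable section

namespace Crest.Agent.T49.Ea

open Finset MvPolynomial
open Crest.Agent.T49.Tw Crest.Agent.T49.Mal Crest.Agent.T49.Rg
open Crest.Agent.T49.Gl (scl)

variable {ι κ ι' : Type} [Fintype ι] [Fintype κ] [Fintype ι']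

namespace N65

/-- the first level-one coordinate in which two points differ -/
theorem first_diff (T : Cell ι) {z z' : ι → ℤ} (h : ∃ c, T.lev c = 1 ∧ z c ≠ z' c) :
    ∃ c, T.lev c = 1 ∧ z c ≠ z' c ∧ ev z (T.th c) - ev z' (T.th c) = T.a c * (z c - z' c) := by
  classical
  obtain ⟨c, hc, hmin⟩ := exists_min_image (univ.filter fun c => T.lev c = 1 ∧ z c ≠ z' c) T.rk
    (h.imp fun c hc => by simpa using hc)
  rw [mem_filter] at hc
  refine ⟨c, hc.2.1, hc.2.2, ?_⟩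
  have h1 : T.B c ∈ supported ℝ {c' | T.rk c' < T.rk c ∧ T.lev c' ≤ T.lev c} :=
    mem_supported_iff.2 fun m hm c' hc' => ⟨mem_supported_iff.1 (T.B_mem c) m hm c' hc',
      mem_supported_iff.1 (T.deg c).mem_supp m hm c' hc'⟩
  have h2 : ev z (T.B c) = ev z' (T.B c) := ev_congr_of_supp (fun c' hc' => by
    by_contra hne
    have h3 : T.lev c' = 1 := le_antisymm (hc.2.1 ▸ hc'.2) (T.lev_pos c')
    exact absurd (hmin c' (by simp [h3, hne])) (not_le.2 hc'.1)) h1
  rw [Tri.ev_th', Tri.ev_th', h2]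
  ring

theorem ev_th_congr (T : Cell ι) {z z' : ι → ℤ} (h : ∀ c, T.lev c = 1 → z c = z' c) {c : ι}
    (hc : T.lev c = 1) : ev z (T.th c) = ev z' (T.th c) :=
  ev_congr_of_supp (fun c' hc' => h c' (le_antisymm (hc ▸ hc') (T.lev_pos c')))
    (T.th_degLe c).mem_supp

theorem eq_of_Dj (T : Cell ι) {z z' : ι → ℤ} (h : Dj T.toTri T.lev 1 z z' = 0) (c : ι)
    (hc : T.lev c = 1) : z c = z' c := by
  by_contra hne
  obtain ⟨c', h1, h2, h3⟩ := first_diff T ⟨c, hc, hne⟩
  have h4 := (sum_eq_zero_iff_of_nonneg fun _ _ => sq_nonneg _).1 h c' (by simp [h1])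
  rw [h3, pow_eq_zero_iff two_ne_zero, mul_eq_zero, sub_eq_zero] at h4
  exact h4.elim (T.a_ne c') fun h5 => h2 (by exact_mod_cast h5)

/-- narrow atoms of level one are separated -/
theorem sep_zero (U : Cell ι) {cl : ι → ℕ} {o : ℕ} (hcl : ∀ c, cl c ≤ o ∨ cl c = o + U.lev c)
    (ha : ∀ c, o < cl c → 1 ≤ |U.a c|) {Y : ℝ} (hY : 0 ≤ Y) :
    Sep U.toTri cl o (fun _ => 0) Y := by
  intro z z' _ h
  by_cases hd : ∃ c, U.lev c = 1 ∧ z c ≠ z' c
  · obtain ⟨c, h1, h2, h3⟩ := first_diff U hd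
    have h4 : cl c = o + 1 := by
      rcases hcl c with h4 | h4
      · exact absurd (h c h4) h2
      · rw [h4, h1]
    refine Or.inr ((Real.exp_le_one_iff.2 (by linarith)).trans (le_trans ?_
      (single_le_sum (f := fun c => (ev z (U.th c) - ev z' (U.th c)) ^ 2)
        (fun _ _ => sq_nonneg _) (a := c) (by simp [h4]))))
    have h5 : (1 : ℝ) ≤ |(z c : ℝ) - z' c| := by
      exact_mod_cast Int.one_le_abs (sub_ne_zero.2 h2)
    rw [h3, ← sq_abs, abs_mul]
    exact one_le_pow₀ (one_le_mul_of_one_le_of_one_le (ha c (by omega)) h5)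
  · push Not at hd
    refine Or.inl (sum_eq_zero fun c hc => ?_)
    have h4 := (mem_filter.1 hc).2
    have h1 : U.lev c = 1 := by rcases hcl c with h5 | h5 <;> omega
    rw [ev_th_congr U hd h1, sub_self, zero_pow two_ne_zero]

theorem log_one_add_le {a b : ℝ} {g : ℝ} (ha : 0 ≤ a) (hb : 0 ≤ b) (hg : 0 ≤ g)
    (h : b ≤ a * Real.exp g) : Real.log (1 + b) ≤ Real.log (1 + a) + g := by
  rw [← Real.log_exp g, ← Real.log_mul (by positivity) (by positivity)]
  refine Real.log_le_log (by positivity) ?_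
  nlinarith [Real.one_le_exp hg]

end N65

open N65

/-- a piece of the extended wide cell is a piece of the cell -/
theorem piece_of_mor {s : ℕ} (T : Cell ι) {k : ℝ} (hk : k ≠ 0) (E : Ext (scl T k hk).lev κ)
    (a : κ → ℝ) (ha : ∀ j, a j ≠ 0) (c : κ → ℝ) {cl : ι ⊕ κ → ℕ}
    (hcl1 : ∀ i, cl (Sum.inl i) = T.lev i) (hcl2 : ∀ j, cl (Sum.inr j) = s + E.lev j)
    {Z : Cell ι'} {cl' : ι' → ℕ} {φ : ι ⊕ κ → Pl ι'} {v : ι' → ι ⊕ κ} {G : ℕ+} {u Y : ℝ}
    (hM : Mor s (Ext.cell (scl T k hk) E a ha c) cl Z cl' φ v G u Y)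
    (hcls : ∀ c, cl' c ≤ s ∨ cl' c = s + Z.lev c) (hlev' : ∀ c, Z.lev c ≤ s)
    (hlev : ∀ c, T.lev c ≤ s) {z : ℝ} (hz : 1 ≤ z) (hcard : (Fintype.card ι : ℝ) ≤ z)
    (hk1 : Real.exp (-z) ≤ |k|) (hk2 : |k| ≤ 1) (ha1 : ∀ j, 1 ≤ |a j|)
    (hG : ((G : ℕ) : ℝ) ≤ Real.exp (2 * z)) (hu : u ≤ 2 * z) (hY : Y ≤ z)
    (hkap : ∀ j, s < j → j ≤ s + s → Z.kapM cl' j ≤ z) (hlm : lm Z.toTri cl' (s + 1) ≤ z) :
    (∀ l, Z.kap l ≤ T.kap l + 6 * z ^ 2) ∧ Fr.Piece T Z (fun i => φ (Sum.inl i)) (6 * z ^ 2) := by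
  classical
  choose w hw using fun i => hM.v_surj (Sum.inl i) ((hcl1 i).le.trans (hlev i))
  have wo : ∀ i, cl' (w i) ≤ s := fun i => (hM.v_old _).2 (by rw [hw, hcl1]; exact hlev i)
  have wi : Function.Injective w := fun i i' h => Sum.inl_injective (by rw [← hw, h, hw])
  have ws : ∀ c', cl' c' ≤ s → ∃ i, w i = c' := fun c' h => by
    have h1 := (hM.v_old c').1 h
    rcases hv : v c' with i | j
    · exact ⟨i, hM.v_inj (by rw [hw, hv])⟩
    · rw [hv, hcl2] at h1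
      have := E.lev_pos j
      omega
  have wl : ∀ i, Z.lev (w i) = T.lev i := fun i => by rw [hM.old_lev _ (wo i), hw]; rfl
  have split : ∀ l, 1 ≤ l → ∀ F : ι' → ℝ, ∑ c' ∈ univ.filter (fun c' => Z.lev c' = l), F c' =
      ∑ i ∈ univ.filter (fun i => T.lev i = l), F (w i) +
        ∑ c' ∈ univ.filter (fun c' => cl' c' = s + l), F c' := fun l hl F => by
    rw [← sum_filter_add_sum_filter_not _ (fun c' => cl' c' ≤ s), filter_filter, filter_filter,
      ← sum_image (s := univ.filter fun i => T.lev i = l) (g := w) wi.injOn]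
    congr 2
    · ext c'
      simp only [mem_filter, mem_univ, true_and, mem_image]
      constructor
      · rintro ⟨h1, h2⟩
        obtain ⟨i, rfl⟩ := ws c' h2
        exact ⟨i, (wl i).symm.trans h1, rfl⟩
      · rintro ⟨i, h1, rfl⟩
        exact ⟨(wl i).trans h1, wo i⟩
    · ext c'
      simp only [mem_filter, mem_univ, true_and]
      rcases hcls c' with h | h <;> omega
  have hu0 := hM.u_nonneg
  have hG1 : (1 : ℝ) ≤ (G : ℕ) := by exact_mod_cast G.pos
  have wa : ∀ i, |Z.a (w i)| ≤ |T.a i| * Real.exp (4 * z) := fun i => by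
    rw [hM.old_a _ (wo i), hw]
    change |k * T.a i * _ * _| ≤ _
    rw [abs_mul, abs_mul, abs_mul, abs_of_nonneg (zero_le_one.trans hG1),
      abs_of_pos (Real.exp_pos u), show 4 * z = 2 * z + 2 * z by ring, Real.exp_add, mul_assoc]
    exact mul_le_mul (mul_le_of_le_one_left (abs_nonneg _) hk2)
      (mul_le_mul hG (Real.exp_le_exp.2 hu) (Real.exp_pos _).le (Real.exp_pos _).le)
      (by positivity) (abs_nonneg _)
  have hs : ∀ (l : ℕ) (F F' : ι → ℝ), (∀ i, F i ≤ F' i + 4 * z) →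
      ∑ i ∈ univ.filter (fun i => T.lev i = l), F i ≤
        ∑ i ∈ univ.filter (fun i => T.lev i = l), F' i + 4 * z ^ 2 := fun l F F' h => by
    refine (sum_le_sum fun i _ => h i).trans ?_
    rw [sum_add_distrib, sum_const, nsmul_eq_mul]
    have h1 : (#(univ.filter fun i => T.lev i = l) : ℝ) ≤ z :=
      le_trans (by exact_mod_cast card_le_univ _) hcard
    nlinarith
  have hint : ∀ i, IsInt (φ (Sum.inl i)) := fun i => hM.int _
  refine ⟨fun l => ?_, hint, fun i => hM.deg (Sum.inl i), fun x Y0 hY0 hx p p' h1 _ => ?_, ?_⟩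
  · by_cases hl : l = 0 ∨ s < l
    · rw [Fr.O26.kap_eq_one Z hlev' hl]
      nlinarith [T.one_le_kapM T.lev l, show T.kap l = T.kapM T.lev l from rfl]
    · have h1 := hkap (s + l) (by omega) (by omega)
      have h2 := hs l (fun i => 1 + Real.log (1 + |Z.a (w i)|)) (fun i => 1 + Real.log (1 + |T.a i|))
        fun i => by
          linarith [log_one_add_le (abs_nonneg _) (abs_nonneg _) (by linarith) (wa i)]
      rw [Cell.kap, Cell.kap, split l (by omega)]
      rw [Cell.kapM] at h1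
      nlinarith
  · have key : Dj Z.toTri Z.lev 1 p p' = (Real.exp u * k) ^ 2 *
        Dj T.toTri T.lev 1 (pt (fun i => φ (Sum.inl i)) p) (pt (fun i => φ (Sum.inl i)) p') +
        Dj Z.toTri cl' (s + 1) p p' := by
      rw [Dj, split 1 le_rfl, Dj, Dj, mul_sum]
      congr 1
      refine sum_congr rfl fun i _ => ?_
      obtain ⟨t, ht⟩ := hM.old_th _ (wo i)
      have e : (scl T k hk).th i = C k * T.th i := by
        show C (k * T.a i) * X i + C k * T.B i = _
        rw [Tri.th, C_mul]; ring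
      rw [ht, hw, Ext.cell_th_inl, e]
      simp only [ev_mul, ev_sub, ev_C, ev_pt hM.int, ev_rename]
      change (_ * (k * ev (pt (fun i => φ (Sum.inl i)) p) _ - _) -
        _ * (k * ev (pt (fun i => φ (Sum.inl i)) p') _ - _)) ^ 2 = _
      ring
    change Dj Z.toTri Z.lev 1 p p' = 0 ∨ _ ≤ Dj Z.toTri Z.lev 1 p p'
    rw [key]
    rcases hx _ _ h1 (fun i hi => absurd (T.lev_pos i) (by omega)) with h2 | h2
    · have h2 : Dj T.toTri T.lev 1 _ _ = 0 := h2
      rw [h2, mul_zero, zero_add]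
      have h3 : ∀ c', Z.lev c' = 1 → (fun c' => if cl' c' ≤ s then p c' else p' c') c' = p' c' := by
        intro c' hc'
        by_cases ho : cl' c' ≤ s
        · obtain ⟨i, rfl⟩ := ws c' ho
          have h4 := congrArg (Int.cast : ℤ → ℝ) (eq_of_Dj T h2 i ((wl i).symm.trans hc'))
          obtain ⟨r, hr⟩ := hM.old_φ _ ho
          rw [pt_cast (φ := fun i => φ (Sum.inl i)) (hint i),
            pt_cast (φ := fun i => φ (Sum.inl i)) (hint i), ← hw, hr] at h4
          simp only [ev_add, ev_mul, ev_C, ev_X, add_right_inj] at h4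
          simp only [if_pos ho]
          exact_mod_cast mul_left_cancel₀ (by linarith) h4
        · simp only [if_neg ho]
      have h4 : Dj Z.toTri cl' (s + 1) p p' =
          Dj Z.toTri cl' (s + 1) p fun c' => if cl' c' ≤ s then p c' else p' c' :=
        sum_congr rfl fun c' hc' => by
          have h5 := (mem_filter.1 hc').2
          rw [ev_th_congr Z h3 (by rcases hcls c' with h | h <;> omega)]
      rw [h4]
      refine (hM.sep (fun _ => 0) z hY (sep_zero _ ?_ ?_ (by linarith)) _ _ rfl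
        fun c' hc' => (if_pos hc').symm).imp_right fun h5 =>
          (Real.exp_le_exp.2 (by nlinarith)).trans h5
      · rintro (i | j)
        · exact Or.inl ((hcl1 i).le.trans (hlev i))
        · exact Or.inr (hcl2 j)
      · rintro (i | j) h
        · exact absurd ((hcl1 i).le.trans (hlev i)) (not_le.2 h)
        · exact ha1 j
    · refine Or.inr (le_add_of_le_of_nonneg ?_ (Dj_nonneg _ _ _ _ _))
      have h3 : Real.exp (-z) ^ 2 ≤ (Real.exp u * k) ^ 2 := by
        rw [← sq_abs (_ * k), abs_mul, abs_of_pos (Real.exp_pos u)]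
        exact pow_le_pow_left₀ (Real.exp_pos _).le
          (hk1.trans (le_mul_of_one_le_left (abs_nonneg _) (Real.one_le_exp hu0))) 2
      refine le_trans ?_ (mul_le_mul h3 h2 (Real.exp_pos _).le (sq_nonneg _))
      rw [← Real.exp_nat_mul, ← Real.exp_add]
      exact Real.exp_le_exp.2 (by push_cast; nlinarith)
  · have h2 := hs 1 (fun i => Real.log |Z.a (w i)|) (fun i => Real.log |T.a i|) fun i => by
      rw [← Real.log_exp (4 * z), ← Real.log_mul (abs_pos.2 (T.a_ne i)).ne' (Real.exp_pos _).ne']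
      exact Real.log_le_log (abs_pos.2 (Z.a_ne _)) (wa i)
    rw [lm, lm, split 1 le_rfl]
    rw [lm] at hlm
    nlinarith

/-- **NEWCELL** -/
theorem newcell {s : ℕ} (T : Cell ι) {k : ℝ} (hk : k ≠ 0) (E : Ext (scl T k hk).lev κ)
    (a : κ → ℝ) (ha : ∀ j, a j ≠ 0) (c : κ → ℝ) {cl : ι ⊕ κ → ℕ}
    (hcl1 : ∀ i, cl (Sum.inl i) = T.lev i) (hcl2 : ∀ j, cl (Sum.inr j) = s + E.lev j)
    {T' : Cell ι'} {cl' : ι' → ℕ} {φ : ι ⊕ κ → Pl ι'} {v : ι' → ι ⊕ κ} {G : ℕ+} {u Y : ℝ}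
    (hM : Mor s (Ext.cell (scl T k hk) E a ha c) cl T' cl' φ v G u Y)
    (hcls : ∀ c, cl' c ≤ s ∨ cl' c = s + T'.lev c) (hlev' : ∀ c, T'.lev c ≤ s)
    (hlev : ∀ c, T.lev c ≤ s) (d : ℕ+) {u' : ℝ} (r : ι' → ℤ) (t : ι' → ℝ) {z : ℝ} (hz : 1 ≤ z)
    (hcard : (Fintype.card ι : ℝ) ≤ z) (hk1 : Real.exp (-z) ≤ |k|) (hk2 : |k| ≤ 1)
    (ha1 : ∀ j, 1 ≤ |a j|) (hG : ((G : ℕ) : ℝ) ≤ Real.exp z) (hd : ((d : ℕ) : ℝ) ≤ Real.exp z)
    (hu : u ≤ z) (hu0 : 0 ≤ u') (hu' : u' ≤ z) (hY : Y ≤ z)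
    (hkap : ∀ j, s < j → j ≤ s + s → T'.kapM cl' j ≤ z) (hlm : lm T'.toTri cl' (s + 1) ≤ z) :
    Fintype.card ι' ≤ Fintype.card ι + Fintype.card κ ∧
      (∀ l, (zo T' cl' s d u' r t).kap l ≤ T.kap l + 6 * z ^ 2) ∧
      Fr.Piece T (zo T' cl' s d u' r t)
        (fun i => bind₁ (dl (wG T' cl' s d) r) (φ (Sum.inl i))) (6 * z ^ 2) ∧
      ∀ p, pt (fun i => bind₁ (dl (wG T' cl' s d) r) (φ (Sum.inl i))) p =
        pt φ (pt (dl (wG T' cl' s d) r) p) ∘ Sum.inl := by
  have e : ∀ c', s < cl' c' → (zo T' cl' s d u' r t).a c' = T'.a c' := fun c' h => by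
    simp [zo, zm, wG, not_le.2 h]
  obtain ⟨h1, h2⟩ := piece_of_mor T hk E a ha c hcl1 hcl2
    (hM.trans (zo_mor le_rfl T' cl' d hu0 r t Y)) hcls hlev' hlev hz hcard hk1 hk2 ha1
    (by
      rw [PNat.mul_coe, Nat.cast_mul, two_mul, Real.exp_add]
      exact mul_le_mul hG hd (Nat.cast_nonneg _) (Real.exp_pos _).le) (by linarith) hY
    (fun j j1 j2 => le_trans (le_of_eq (by
      rw [Cell.kapM, Cell.kapM]
      exact congrArg _ (sum_congr rfl fun c' hc' => by
        rw [e c' ((mem_filter.1 hc').2 ▸ j1)]))) (hkap j j1 j2))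
    (le_trans (le_of_eq (sum_congr rfl fun c' hc' => by
      rw [e c' ((mem_filter.1 hc').2 ▸ Nat.lt_succ_self s)])) hlm)
  exact ⟨hM.card_le.trans_eq Fintype.card_sum, h1, h2,
    fun p => pt_comp (φ := fun i => φ (Sum.inl i)) (isInt_dl _ r) p⟩

end Crest.Agent.T49.Ea
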