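import Crest.Agent.T49.StEq_57
import Crest.Agent.T49.MxCell_53
import Crest.Agent.T49.TwTri_51
import Crest.Agent.T49.TwPoly_91

/-!
# Row 49 (helper57): windows and classes of a cell have the ideal mass
-/

set_option autoImplicit false

noncomputable section

open MvPolynomial

namespace Crest.Agent.T49.Tw

namespace Cell
variable {ι : Type} (T : Cell ι)

/-- the substitution `z_c = r_c + d z'_c` -/
def psub (d : ℕ) (r : ι → ℤ) (c : ι) : Pl ι := C (r c : ℝ) + C (d : ℝ) * X c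

theorem degLe_psub (d : ℕ) (r : ι → ℤ) (c : ι) : DegLe T.lev (psub d r c) (T.lev c) :=
  (degLe_C _ _).add ((degLe_X c).C_mul _)

/-- plain dilation: the class `z ≡ r mod d` -/
def pdil (d : ℕ) (hd : 0 < d) (r : ι → ℤ) : Cell ι where
  rk := T.rk
  a c := (d : ℝ) * T.a c
  B c := C (T.a c * r c) + bind₁ (psub d r) (T.B c)
  a_ne c := mul_ne_zero (by positivity) (T.a_ne c)
  B_mem c := add_mem (C_mem_supp _ _) (bind_mem_supported (fun _ hc' =>
    add_mem (C_mem_supp _ _) (mul_mem (C_mem_supp _ _) (X_mem_supp hc'))) (T.B_mem c))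
  lev := T.lev
  lev_pos := T.lev_pos
  deg c := (degLe_C _ _).add (DegLe.bind (T.degLe_psub d r) (T.deg c))

variable {d : ℕ} (hd : 0 < d) (r : ι → ℤ)

theorem pdil_th (c : ι) : (T.pdil d hd r).th c = bind₁ (psub d r) (T.th c) := by
  simp only [Tri.th, pdil, map_add, map_mul, bind₁_C_right, bind₁_X_right, psub]
  ring

theorem ev_pdil_th (z : ι → ℤ) (c : ι) :
    ev z ((T.pdil d hd r).th c) = ev (r + (d : ℤ) • z) (T.th c) := by
  rw [pdil_th]
  exact ev_bind_of (fun c => by simp [psub, ev]) _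

theorem pdil_tth (c : ι) :
    (T.pdil d hd r).tth c = bind₁ (fun c => C (d : ℝ) * X c) (T.tth c) := by
  show weightedHomogeneousComponent T.lev (T.lev c) _ = _
  rw [pdil_th, whc_bind_degLe (T.degLe_psub d r) (T.th_degLe c)]
  congr 2
  funext c'
  rw [psub, map_add, whc_eq_zero_of_lt (degLe_C _ 0) (T.lev_pos c'), zero_add]
  exact whc_of_hom (hom_C_mul (isWeightedHomogeneous_X _ _ _) _)

theorem IsMC.pdil {T : Cell ι} {cl : ι → ℕ} (hm : T.IsMC cl) : (T.pdil d hd r).IsMC cl :=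
  isMC_of hm.pos fun c => (MCP.C _).add (MCP.bind (fun c' =>
    (MCP.C _).add ((MCP.X c').C_mul _)) (hm.B c))

variable [Fintype ι]

theorem pdil_mu : (T.pdil d hd r).mu = T.mu / (d : ℝ) ^ Fintype.card ι := by
  simp only [Tri.mu, pdil, abs_mul, mul_inv, Finset.prod_mul_distrib, Nat.abs_cast,
    Finset.prod_const, Finset.card_univ, inv_pow]
  ring

/-- a window in a class is a projective cover -/
theorem zoom_pc {s : ℕ} (hs : ∀ c, T.lev c ≤ s) {ρ : ι → ℝ} (hρ : ∀ c, ρ c ≠ 0) (sh : ι → ℝ)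
    {u x : ℝ} (h1 : ∀ c, |ρ c| ≤ Real.exp u) (h2 : (d : ℝ) ≤ Real.exp u)
    (hx : 1 + (s + 2) ^ 2 * u ≤ x) : T.PC x ((T.pdil d hd r).aff ρ hρ sh) id := by
  classical
  have d1 : (1 : ℝ) ≤ d := by exact_mod_cast hd
  have hu : 0 ≤ u := Real.one_le_exp_iff.1 (d1.trans h2)
  have s0 : (0 : ℝ) ≤ s := by positivity
  have hc : T.DCov ((T.pdil d hd r).aff ρ hρ sh) id (Real.exp ((s + 1) * u)) := by
    refine dcov_of_diag (α := Unit) (fun _ => rfl) (fun _ c => (d : ℤ) ^ (T.lev c - 1))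
      (fun _ c => ρ c * (d : ℝ) ^ T.lev c) (fun _ c => ?_) (fun _ c => ?_) fun ξ hξ => ?_
    · rw [abs_mul, abs_pow, Nat.abs_cast, add_mul, one_mul, add_comm, Real.exp_add]
      refine mul_le_mul (h1 c) ?_ (by positivity) (Real.exp_pos _).le
      rw [Real.exp_nat_mul]
      exact (pow_le_pow_right₀ d1 (hs c)).trans (pow_le_pow_left₀ (by positivity) h2 _)
    · rw [aff_tth, pdil_tth, map_mul, bind₁_C_right, bind₁_bind₁, map_mul, mul_assoc, id,
        ← Ch4.bind_dil (Ch4.tth_hom T c)]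
      congr 3
      funext c'
      rw [map_mul, bind₁_C_right, bind₁_X_right, ← mul_assoc, ← map_mul]
      congr 2
      push_cast
      rw [← pow_succ', Nat.sub_add_cancel (T.lev_pos c')]
    · funext c
      have := hξ () c
      simp only [id, mul_ite, mul_zero, Finset.sum_ite_eq, Finset.mem_univ, if_true] at this
      exact (mul_eq_zero.1 this).resolve_right (mul_ne_zero (hρ c) (by positivity))
  refine hc.pc' (Real.one_le_exp (by positivity)) hs ?_ (fun _ => rfl) (N := 1)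
    (K' := Real.exp (2 * u)) le_rfl (Real.one_le_exp (by positivity)) (fun c => by simp)
    (fun c => ?_) ?_ fun cl hm => (hm.pdil hd r).aff hρ sh
  · rw [← Real.exp_nat_mul]
    refine Real.exp_le_exp.2 ?_
    push_cast
    nlinarith [mul_nonneg s0 hu]
  · show |ρ c * ((d : ℝ) * T.a c)| ≤ _
    rw [← mul_assoc, abs_mul, abs_mul, Nat.abs_cast, two_mul, Real.exp_add]
    exact mul_le_mul_of_nonneg_right (mul_le_mul (h1 c) h2 (by positivity) (Real.exp_pos _).le)
      (abs_nonneg _)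
  · rw [Real.log_exp]
    push_cast
    nlinarith [mul_nonneg s0 hu, mul_nonneg s0 (mul_nonneg s0 hu)]

end Cell

end Crest.Agent.T49.Tw

namespace Crest.Agent.T49.Samp

open Tw Finset

variable {ι : Type} [Fintype ι]

/-- window coordinates of the points of a cell -/
def thf (T : Cell ι) (z : ι → ℤ) (c : ι) : ℝ := ev z (T.th c)

omit [Fintype ι] in
theorem tsum_cls {d : ℕ} (hd : 0 < d) (r : ι → ℤ) (f : (ι → ℤ) → ℝ) :
    ∑' z, cls d r z * f z = ∑' z : ι → ℤ, f (r + (d : ℤ) • z) := by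
  have hi : Function.Injective fun z : ι → ℤ => r + (d : ℤ) • z := fun z z' h =>
    smul_right_injective _ (by exact_mod_cast hd.ne' : (d : ℤ) ≠ 0) (add_left_cancel h)
  rw [← hi.tsum_eq (f := fun z => cls d r z * f z) fun z hz => ?_]
  · exact tsum_congr fun z => by rw [cls, if_pos (cong_iff.2 ⟨z, rfl⟩), one_mul]
  · by_contra h
    refine hz ?_
    show cls d r z * f z = 0
    rw [cls, if_neg fun h' => h ((cong_iff.1 h').imp fun v hv => hv.symm), zero_mul]

theorem zoom_wgt (T : Cell ι) {q : ι → ℝ} (hq : ∀ i, 0 < q i) (c : ι → ℝ) {d : ℕ} (hd : 0 < d)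
    (r z : ι → ℤ) :
    ((T.pdil d hd r).aff (fun i => √(q i)) (fun i => (Real.sqrt_pos.2 (hq i)).ne')
      fun i => -(√(q i) * c i)).wgt z = gw (thf T) q c (r + (d : ℤ) • z) := by
  unfold Tri.wgt gw thf
  congr 2
  refine sum_congr rfl fun i _ => ?_
  rw [Cell.aff_ev, Cell.ev_pdil_th, ← sub_eq_add_neg, ← mul_sub, mul_pow, Real.sq_sqrt (hq i).le]

theorem summable_gw (T : Cell ι) {q : ι → ℝ} (hq : ∀ i, 0 < q i) (c : ι → ℝ) :
    Summable (gw (thf T) q c) := by
  have := ((T.pdil 1 one_pos 0).aff (fun i => √(q i)) (fun i => (Real.sqrt_pos.2 (hq i)).ne')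
    fun i => -(√(q i) * c i)).summable_wgt
  refine this.congr fun z => ?_
  rw [zoom_wgt T hq]
  simp

/-- **windows and classes of a cell all of whose covers have the ideal mass** -/
theorem eq_cell (T : Cell ι) {s : ℕ} (hs : ∀ c, T.lev c ≤ s) {x η u K : ℝ} {B : ℕ}
    (hA : T.AllPC x η) (hη : η ≤ 1 / 16) (hu : 0 ≤ u) (hK : K ≤ Real.exp u)
    (hB : (B : ℝ) ≤ Real.exp u) (hx : 1 + (s + 2) ^ 2 * u ≤ x) : EQ (thf T) id T.mu K B η := by
  refine ⟨T.mu_pos, hη, fun q c hq => summable_gw T (fun i => (hq i).1) c,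
    fun q c d r hq hd hdB => ?_⟩
  have q0 : ∀ i, 0 < q i := fun i => (hq i).1
  have h1 := hA _ _ _ (T.zoom_pc hd r hs (fun i => (Real.sqrt_pos.2 (q0 i)).ne')
    (fun i => -(√(q i) * c i)) (u := u) (fun i => by
      rw [abs_of_nonneg (Real.sqrt_nonneg _)]
      refine Real.sqrt_le_iff.2 ⟨(Real.exp_pos _).le, ((hq i).2.trans hK).trans ?_⟩
      nlinarith [Real.one_le_exp hu]) ((Nat.cast_le.2 hdB).trans hB) hx)
  have h2 : ((T.pdil d hd r).aff (fun i => √(q i)) (fun i => (Real.sqrt_pos.2 (q0 i)).ne')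
      fun i => -(√(q i) * c i)).mu = idl ι T.mu q d := by
    rw [Cell.aff_mu, Cell.pdil_mu, idl]
    simp only [abs_of_nonneg (Real.sqrt_nonneg _)]
    ring
  have h3 : ((T.pdil d hd r).aff (fun i => √(q i)) (fun i => (Real.sqrt_pos.2 (q0 i)).ne')
      fun i => -(√(q i) * c i)).M = ∑' y, cw (thf T) id q c d r y := by
    simp only [Tri.M, zoom_wgt T q0, cw, id]
    exact (tsum_cls hd r _).symm
  have h4 := idl_pos (N := ι) T.mu_pos q0 hd
  rwa [h2, h3, div_sub_one h4.ne', abs_div, abs_of_pos h4, div_le_iff₀ h4] at h1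

end Crest.Agent.T49.Samp
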