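import Crest.Agent.T49.UrAll_39
import Crest.Agent.T49.EaDef_64
import Crest.Agent.T49.StCell_57

/-!
# Row 49 (helper39): a piece of an extension in the coordinates of the old cell
-/

set_option autoImplicit false
set_option linter.unusedSectionVars false

open MvPolynomial Finset

noncomputable section

namespace Crest.Agent.T49.Ur

open Tw Tw.Cell Rg Mal Ea Samp

variable {σ κ ι' : Type} [Fintype σ] [Fintype κ] [Fintype ι']

/-- Fubini over the old block -/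
theorem blk_Sg (T : Cell σ) (Z : Cell ι') {q : ι' → Prop} [DecidablePred q] (hq : Z.toTri.Closed q)
    (e : {c // q c} ≃ σ) {g : ℕ} (hg : 0 < g) (r : σ → ℤ) (cen : σ → ℝ) (lam mun : ℝ)
    (ψ : (ι' → ℤ) → σ → ℤ) (Γ : (σ → ℤ) → ℝ) (hψ : ∀ z c, ψ z (e c) = r (e c) + g * z c.1)
    (hth : ∀ z (c : {c // q c}), ev z (Z.th c.1) = (ev (ψ z) (T.th (e c)) - cen (e c)) / lam)
    (hΓ : ∀ x, (Z.toTri.fib q x).M = mun * Γ (r + (g : ℤ) • (x ∘ e.symm)))
    (f : (σ → ℤ) → ℝ) {K : ℝ} (hf : ∀ y, |f y| ≤ K) :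
    Sg Z.toTri (fun z => f (ψ z)) = mun * ∑' y, wc T lam cen g r y * (Γ y * f y) := by
  have h1 : ∀ z, ψ z = r + (g : ℤ) • ((fun c : {c // q c} => z c.1) ∘ e.symm) := fun z => by
    funext c
    obtain ⟨c, rfl⟩ := e.surjective c
    simp [hψ]
  have h2 := hq.fubini_base_real (g := fun x => f (r + (g : ℤ) • (x ∘ e.symm))) fun x => hf _
  simp only [← h1] at h2
  rw [Sg, h2]
  simp only [wc, mul_assoc]
  rw [Samp.tsum_cls hg, ← tsum_mul_left,
    ← (Equiv.arrowCongr e (Equiv.refl ℤ)).tsum_eq]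
  refine tsum_congr fun x => ?_
  have h3 : Equiv.arrowCongr e (Equiv.refl ℤ) x = x ∘ e.symm := rfl
  have h4 : ψ (glue q x 0) = r + (g : ℤ) • (x ∘ e.symm) := by
    rw [h1]; simp only [glue_val]
  rw [h3, hΓ, Tri.wgt, ← e.sum_comp]
  simp only [hq.ev_sub_th x 0, hth, h4]
  ring

theorem blk_mu (T : Cell σ) (Z : Cell ι') {q : ι' → Prop} [DecidablePred q] (e : {c // q c} ≃ σ)
    {g : ℕ} (hg : 0 < g) {lam : ℝ} (hl : 0 < lam)
    (ha : ∀ c : {c // q c}, Z.a c.1 = T.a (e c) * g / lam) :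
    Z.mu = (∏ c : {c // ¬ q c}, |Z.a c.1|⁻¹) * wmu T lam g := by
  have hg' : (0 : ℝ) < g := by exact_mod_cast hg
  rw [Z.toTri.mu_split (p := q), mul_comm, wmu, Tri.mu, Tri.mu, ← e.prod_comp, ← card_univ,
    ← prod_const, ← e.prod_comp, ← prod_mul_distrib]
  congr 1
  refine prod_congr rfl fun c _ => ?_
  show |Z.a c.1|⁻¹ = _
  rw [ha, abs_div, abs_mul, abs_of_pos hl, abs_of_pos hg']
  have := abs_pos.2 (T.a_ne (e c))
  field_simp

theorem prod_new_le (T' : Cell ι') (cl' : ι' → ℕ) {s : ℕ} {z : ℝ} (hcl : ∀ c, cl' c ≤ s + s)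
    (hk : ∀ j, s < j → j ≤ s + s → T'.kapM cl' j ≤ z) :
    ∏ c : {c // ¬ cl' c ≤ s}, (1 + |T'.a c.1|) ≤ Real.exp (s * z) := by
  have h0 : ∀ c, 0 ≤ Real.log (1 + |T'.a c|) := fun c =>
    Real.log_nonneg (by linarith [abs_nonneg (T'.a c)])
  have h1 : ∑ c : {c // ¬ cl' c ≤ s}, Real.log (1 + |T'.a c.1|) ≤ s * z := by
    rw [← sum_subtype (univ.filter fun c => ¬ cl' c ≤ s) (by simp)
      fun c => Real.log (1 + |T'.a c|), ← sum_fiberwise_of_maps_to (t := Ioc s (s + s)) (g := cl')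
      fun c hc => mem_Ioc.2 ⟨not_le.1 (mem_filter.1 hc).2, hcl c⟩]
    refine (sum_le_card_nsmul _ _ z fun j hj => ?_).trans (by simp)
    refine le_trans ?_ (hk j (mem_Ioc.1 hj).1 (mem_Ioc.1 hj).2)
    refine le_trans (sum_le_sum_of_subset_of_nonneg (t := univ.filter fun c => cl' c = j)
      (fun c hc => by simpa using (mem_filter.1 hc).2) fun c _ _ => h0 c) ?_
    have := sum_le_sum (s := univ.filter fun c => cl' c = j)
      (f := fun c => Real.log (1 + |T'.a c|)) (g := fun c => 1 + Real.log (1 + |T'.a c|))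
      fun c _ => by linarith
    rw [kapM]; linarith
  refine le_trans (le_of_eq ?_) (Real.exp_le_exp.2 h1)
  rw [Real.exp_sum]
  exact prod_congr rfl fun c _ => (Real.exp_log (by positivity)).symm

/-- **the piece and its zooms in the coordinates of the old cell** -/
theorem exists_gam {T : Cell σ} {E : Ext T.lev κ} {a : κ → ℝ} {ha : ∀ k, a k ≠ 0} {c0 : κ → ℝ}
    {s : ℕ} (hs : ∀ c, T.lev c ≤ s) {T' : Cell ι'} {cl' : ι' → ℕ} {φ : σ ⊕ κ → Pl ι'}
    {v : ι' → σ ⊕ κ} {G : ℕ+} {u Y z : ℝ}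
    (h : Mor s (Ext.cell T E a ha c0) (clE T E s) T' cl' φ v G u Y) (hm : T'.IsMC cl')
    (hcl : ∀ c, cl' c ≤ s + s) (hk : ∀ j, s < j → j ≤ s + s → T'.kapM cl' j ≤ z) :
    ∃ (cen : σ → ℝ) (r : σ → ℤ) (Γ : (σ → ℤ) → ℝ) (mun : ℝ), 0 < mun ∧
      (∀ y, 0 ≤ Γ y ∧ Γ y ≤ Real.exp (s * z)) ∧ T'.mu = mun * wmu T (Real.exp (-u)) G ∧
      (∀ (f : (σ → ℤ) → ℝ) (K : ℝ), (∀ y, |f y| ≤ K) →
        Sg T'.toTri (fun w => f (pt φ w ∘ Sum.inl)) =
          mun * ∑' y, wc T (Real.exp (-u)) cen G r y * (Γ y * f y)) ∧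
      ∀ (d : ℕ+) (l : ℝ) (c' : σ → ℝ) (r' : σ → ℤ), 0 < l → Cong G r' r →
        ∃ (r'' : ι' → ℤ) (t'' : ι' → ℝ),
          (zo T' cl' s d (-Real.log l) r'' t'').mu = mun * wmu T (Real.exp (-u) * l) (G * d) ∧
          (zo T' cl' s d (-Real.log l) r'' t'').M =
            mun * ∑' y, wc T (Real.exp (-u) * l) c' (G * d) r' y * Γ y ∧
          ∀ (f : (σ → ℤ) → ℝ) (K : ℝ), (∀ y, |f y| ≤ K) →
            Sg (zo T' cl' s d (-Real.log l) r'' t'').toTri
                (fun w => f (pt φ (pt (dl (wG T' cl' s d) r'') w) ∘ Sum.inl)) =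
              mun * ∑' y, wc T (Real.exp (-u) * l) c' (G * d) r' y * (Γ y * f y) := by
  classical
  obtain ⟨e, -, -, hO⟩ := ext_old hs h
  choose r0 hr0 using hO.φ_eq
  choose t0 ht0 using hO.th
  have hG0 : ((G : ℕ) : ℤ) ≠ 0 := by exact_mod_cast G.ne_zero
  have hev : ∀ w c, ev w (φ (Sum.inl (e c))) = ((r0 c + (G : ℕ) * w c.1 : ℤ) : ℝ) := fun w c => by
    rw [show φ (Sum.inl (e c)) = _ from hr0 c, ev_add, ev_mul, ev_C, ev_C, ev_X]; push_cast; rfl
  have hψ : ∀ w c, (pt φ w ∘ Sum.inl) (e c) = r0 c + (G : ℕ) * w c.1 := fun w c => by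
    show ⌊ev w (φ (Sum.inl (e c)))⌋ = _
    rw [hev, Int.floor_intCast]
  have hth : ∀ w (c : {c // cl' c ≤ s}), ev w (T'.th c.1) =
      Real.exp u * (ev (pt φ w ∘ Sum.inl) (T.th (e c)) - t0 c) := fun w c => by
    rw [ht0, ev_mul, ev_sub, ev_C, ev_C, ev_bind_of (y := pt φ w ∘ Sum.inl) fun c' => ?_]
    obtain ⟨c', rfl⟩ := e.surjective c'
    rw [hψ]; exact hev w c'
  set mun : ℝ := ∏ c : {c // ¬ cl' c ≤ s}, |T'.a c.1|⁻¹ with hmun
  have hmp : 0 < mun := prod_pos fun c _ => inv_pos.2 (abs_pos.2 (T'.a_ne c.1))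
  set Γ : (σ → ℤ) → ℝ := fun y =>
    (T'.toTri.fib (fun c => cl' c ≤ s) fun c => (y (e c) - r0 c) / (G : ℕ)).M / mun with hΓ
  have hΓx : ∀ (x : {c // cl' c ≤ s} → ℤ) (y : σ → ℤ), (∀ c, y (e c) = r0 c + (G : ℕ) * x c) →
      (T'.toTri.fib (fun c => cl' c ≤ s) x).M = mun * Γ y := fun x y hy => by
    have : (fun c => (y (e c) - r0 c) / (G : ℕ)) = x := by
      funext c; rw [hy, add_sub_cancel_left, Int.mul_ediv_cancel_left _ hG0]
    simp only [hΓ, this]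
    field_simp
  refine ⟨t0 ∘ e.symm, r0 ∘ e.symm, Γ, mun, hmp, fun y => ⟨div_nonneg (Tri.M_nonneg _) hmp.le,
    (Tri.M_div_mu_le _).trans (prod_new_le T' cl' hcl hk)⟩, ?_, fun f K hf => ?_,
    fun d l c' r' hl hr => ?_⟩
  · refine blk_mu T T' e G.pos (Real.exp_pos _) fun c => ?_
    rw [hO.a, Real.exp_neg, div_inv_eq_mul]
  · refine blk_Sg T T' (hm.clo s) e G.pos _ _ _ _ (fun w => pt φ w ∘ Sum.inl) Γ
      (fun w c => by simpa using hψ w c) (fun w c => ?_) (fun x => hΓx _ _ fun c => by simp) f hf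
    rw [hth, Real.exp_neg, div_inv_eq_mul, mul_comm]; simp
  · obtain ⟨k, rfl⟩ := cong_iff.1 hr
    set r'' : ι' → ℤ := glue (fun c => cl' c ≤ s) (fun c => k (e c)) 0 with hr''
    set t'' : ι' → ℝ := fun c => if hc : cl' c ≤ s then
      Real.exp u * (c' (e ⟨c, hc⟩) - t0 ⟨c, hc⟩) else 0 with ht''
    have hpt : ∀ w (c : {c // cl' c ≤ s}), pt (dl (wG T' cl' s d) r'') w c.1 =
        k (e c) + (d : ℕ) * w c.1 := fun w c => by
      simp only [pt_dl, wG, if_pos c.2, hr'', glue_val]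
    have hS : ∀ (f : (σ → ℤ) → ℝ) (K : ℝ), (∀ y, |f y| ≤ K) →
        Sg (zo T' cl' s d (-Real.log l) r'' t'').toTri
            (fun w => f (pt φ (pt (dl (wG T' cl' s d) r'') w) ∘ Sum.inl)) =
          mun * ∑' y, wc T (Real.exp (-u) * l) c' (G * d) (r0 ∘ e.symm + ((G : ℕ) : ℤ) • k) y *
            (Γ y * f y) := fun f K hf => by
      refine blk_Sg T _ ((zo_isMC hm s d _ r'' t'').clo s) e (Nat.mul_pos G.pos d.pos) _ _ _ _
        (fun w => pt φ (pt (dl (wG T' cl' s d) r'') w) ∘ Sum.inl) Γ (fun w c => ?_) (fun w c => ?_)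
        (fun x => ?_) f hf
      · rw [hψ, hpt]; simp; ring
      · rw [zo, ev_zm_th, hth, if_pos c.2, Real.exp_neg, Real.exp_log hl, Real.exp_neg]
        simp only [ht'', dif_pos c.2]
        have := Real.exp_pos u
        field_simp
        ring
      · rw [← hΓx (fun c => k (e c) + (d : ℕ) * x c) _ fun c => by simp; ring]
        refine tsum_congr fun w => ?_
        rw [Tri.fib_wgt, Tri.fib_wgt]
        congr 2
        refine sum_congr rfl fun c _ => ?_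
        rw [zo, ev_zm_th, if_neg c.2, Real.exp_zero, one_mul]
        simp only [ht'', dif_neg c.2, sub_zero]
        congr 2
        funext c''
        by_cases hc : cl' c'' ≤ s
        · rw [hpt _ ⟨c'', hc⟩]; simp only [glue, dif_pos hc]
        · simp only [pt_dl, wG, if_neg hc, hr'', glue, dif_neg hc]
          simp
    refine ⟨r'', t'', ?_, ?_, hS⟩
    · rw [blk_mu T _ e (Nat.mul_pos G.pos d.pos) (mul_pos (Real.exp_pos (-u)) hl) fun c => ?_]
      · congr 1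
        exact prod_congr rfl fun c _ => by rw [zo_a_new T' _ _ _ _ c.2]
      · show T'.a c.1 * ((wG T' cl' s d c.1 : ℕ) : ℝ) *
          Real.exp (if cl' c.1 ≤ s then -Real.log l else 0) = _
        rw [wG, if_pos c.2, if_pos c.2, hO.a, Real.exp_neg, Real.exp_log hl, Real.exp_neg]
        have := Real.exp_pos u
        push_cast
        field_simp
    · simpa only [Sg, mul_one, Tri.M] using hS (fun _ => 1) 1 (by simp)

end Crest.Agent.T49.Ur
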