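import Crest.Agent.T49.EaIn_65
import Crest.Agent.T49.EaNew_65
import Crest.Agent.T49.UrGam_39
import Crest.Agent.T49.Qp_85

/-!
# Row 49 (helper64): END, the assembly
-/

set_option autoImplicit false

noncomputable section

namespace Crest.Agent.T49.Ea

open MvPolynomial Finset
open Crest.Agent.T49.Tw Crest.Agent.T49.Gl Crest.Agent.T49.Fm Crest.Agent.T49.Samp
open Crest.Agent.T49.Rg Crest.Agent.T49.Nil Crest.Agent.T49.Mal
open Crest.Agent.T49.End (pcw)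

theorem chain_step {lam : ℝ} (hl : 3 ≤ lam) (K Dz : ℕ) {e : ℕ} (he : 1 ≤ e) {k : ℝ}
    (hk : k ≤ lam) : k + lam ^ K * (lam ^ e + lam) ≤ lam ^ ((K + 3) * (Dz + 1) * e) ∧
      ∀ k', 0 ≤ k' → k' ≤ k + lam ^ K * (lam ^ e + lam) →
        (lam ^ e + k') ^ Dz ≤ lam ^ ((K + 3) * (Dz + 1) * e) := by
  have h1 : (1 : ℝ) ≤ lam := by linarith
  have hK : 1 ≤ lam ^ K := one_le_pow₀ h1
  have he' : lam ≤ lam ^ e := le_self_pow₀ h1 (by omega)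
  have hm : lam ^ e ≤ lam ^ K * lam ^ e := le_mul_of_one_le_left (by positivity) hK
  have h2 : k + lam ^ K * (lam ^ e + lam) ≤ 3 * (lam ^ K * lam ^ e) := by
    nlinarith [mul_le_mul_of_nonneg_left he' (zero_le_one.trans hK)]
  have h3 : 4 * (lam ^ K * lam ^ e) ≤ lam ^ ((K + 3) * e) := by
    refine le_trans ?_ (pow_le_pow_right₀ h1 (show K + e + 2 ≤ (K + 3) * e by nlinarith))
    rw [pow_add, pow_add, mul_comm _ (lam ^ 2)]
    exact mul_le_mul_of_nonneg_right (by nlinarith) (by positivity)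
  have h4 : 0 ≤ lam ^ K * lam ^ e := by positivity
  refine ⟨(by linarith : _ ≤ lam ^ ((K + 3) * e)).trans
    (pow_le_pow_right₀ h1 (by nlinarith [Nat.zero_le ((K + 3) * Dz * e)])), fun k' h0 h5 => ?_⟩
  refine (pow_le_pow_left₀ (by positivity) (by linarith : _ ≤ lam ^ ((K + 3) * e)) Dz).trans ?_
  rw [← pow_mul]
  exact pow_le_pow_right₀ h1 (by nlinarith [Nat.zero_le ((K + 3) * e)])

theorem four_pow_le_exp (E : ℕ) {t : ℝ} (ht : 4 * ((E + 1).factorial : ℝ) ≤ t) :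
    4 * t ^ E ≤ Real.exp t := by
  have hf : (0 : ℝ) < (E + 1).factorial := by exact_mod_cast Nat.factorial_pos _
  have h0 : 0 ≤ t := by linarith
  refine le_trans ?_ (Real.pow_div_factorial_le_exp t h0 (E + 1))
  rw [le_div_iff₀ hf, pow_succ]
  nlinarith [mul_le_mul_of_nonneg_left ht (pow_nonneg h0 E)]

variable {ι : Type} [Fintype ι]

theorem Sg_half (T : Tri ι) {F : (ι → ℤ) → ℝ} {K : ℝ} (hF : ∀ z, |F z| ≤ K) (β : ℝ) :
    Sg T (fun z => (F z - β) / 2) = (Sg T F - β * T.M) / 2 := by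
  have h := Sg_add_const T hF (-β)
  have e : Sg T (fun z => (F z - β) / 2) = Sg T (fun z => F z + -β) / 2 := by
    simp only [Sg, ← tsum_div_const, mul_div_assoc, sub_eq_add_neg]
  rw [e, h]; ring

theorem wmu_pos (T : Cell ι) {lam : ℝ} (hl : 0 < lam) {g : ℕ} (hg : 0 < g) : 0 < wmu T lam g :=
  mul_pos T.mu_pos (pow_pos (div_pos hl (by exact_mod_cast hg)) _)

theorem mean_of_mass {M mu mun S W : ℝ} (hm : 0 < mun) (hW : 0 < W) (h1 : mu = mun * W)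
    (h2 : M = mun * S) (h : |M / mu - 1| ≤ 1 / 10) : |S - W| ≤ W / 10 := by
  have e : M / mu - 1 = (S - W) / W := by rw [h1, h2]; field_simp
  rw [e, abs_div, abs_of_pos hW, div_le_iff₀ hW] at h
  linarith

theorem kt_ext {κ : Type} [Fintype κ] (T : Cell ι) {k : ℝ} (hk : k ≠ 0) (hk1 : |k| ≤ 1)
    (E : Ext (scl T k hk).lev κ) {a : ℝ} (ha : a ≠ 0) (c : κ → ℝ) {R Q : ℝ}
    (h1 : (Fintype.card ι : ℝ) ≤ R) (h2 : (Fintype.card κ : ℝ) ≤ R)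
    (h3 : ∀ l, T.kap l ≤ Real.exp R) (h4 : Real.log (1 + |a|) ≤ Q) (hQ : 0 ≤ Q) :
    kt (Ext.cell (scl T k hk) E (fun _ => a) (fun _ => ha) c).toTri ≤ R * Real.exp R + R * Q := by
  rw [kt, Fintype.sum_sum_type]
  refine add_le_add ((sum_le_card_nsmul _ _ (Real.exp R) fun i _ => ?_).trans ?_)
    ((sum_le_card_nsmul _ _ Q fun i _ => h4).trans ?_)
  · refine le_trans ?_ ((Fr.O26.term_le_kap T i).trans (h3 _))
    refine Real.log_le_log (by positivity) ?_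
    show 1 + |k * T.a i| ≤ _
    rw [abs_mul]
    linarith [mul_le_of_le_one_left (abs_nonneg (T.a i)) hk1]
  · rw [nsmul_eq_mul]; exact mul_le_mul_of_nonneg_right h1 (Real.exp_pos _).le
  · rw [nsmul_eq_mul]; exact mul_le_mul_of_nonneg_right h2 hQ

theorem kapM_ext {κ : Type} [Fintype κ] (T : Cell ι) {s : ℕ} (hs : ∀ c, T.lev c ≤ s)
    (E : Ext T.lev κ) {a : ℝ} (ha : a ≠ 0) (c : κ → ℝ) {R Q : ℝ}
    (h2 : (Fintype.card κ : ℝ) ≤ R) (ha1 : 1 ≤ |a|) (h4 : Real.log (1 + |a|) ≤ Q) {j : ℕ} (hj : s < j) :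
    (Ext.cell T E (fun _ => a) (fun _ => ha) c).kapM (Ur.clE T E s) j ≤ 1 + R * (1 + Q) ∧
      lm (Ext.cell T E (fun _ => a) (fun _ => ha) c).toTri (Ur.clE T E s) j ≤ R * Q := by
  have hQ : 0 ≤ Q := (Real.log_nonneg (by linarith)).trans h4
  have h5 : Real.log |a| ≤ Q := (Real.log_le_log (by linarith) (by linarith)).trans h4
  have key : ∀ (F : ι ⊕ κ → ℝ) (B : ℝ), 0 ≤ B → (∀ i, F (Sum.inr i) ≤ B) →
      ∑ x ∈ univ.filter (fun x => Ur.clE T E s x = j), F x ≤ R * B := fun F B hB hF => by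
    rw [sum_filter, Fintype.sum_sum_type, sum_eq_zero fun i _ => if_neg
      (show ¬ Ur.clE T E s (Sum.inl i) = j from fun h : T.lev i = j => by have := hs i; omega), zero_add]
    refine (sum_le_card_nsmul _ _ B fun i _ => ?_).trans ?_
    · split_ifs; exacts [hF i, hB]
    · rw [nsmul_eq_mul]; exact mul_le_mul_of_nonneg_right h2 hB
  exact ⟨add_le_add le_rfl (key _ _ (by linarith) fun i => add_le_add le_rfl h4),
    key _ _ hQ fun i => h5⟩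

theorem nums (Ci F C0 : ℕ) (b b2 : ℝ) : ∃ C1 C : ℕ, C0 ≤ C ∧ ∀ R : ℝ, 2 ≤ R →
    b + 3 * (R * R ^ Ci) ≤ R ^ C1 ∧ b2 * (R ^ C1) ^ F ≤ R ^ C := by
  obtain ⟨C1, h1⟩ : ∃ C1 : ℕ, ∀ R : ℝ, 2 ≤ R → b + 3 * (R * R ^ Ci) ≤ R ^ C1 := by qp
  obtain ⟨C, h2⟩ : ∃ C : ℕ, ∀ R : ℝ, 2 ≤ R → b2 * (R ^ C1) ^ F ≤ R ^ C := by qp
  exact ⟨C1, C + C0, by omega, fun R hR => ⟨h1 R hR,
    (h2 R hR).trans (pow_le_pow_right₀ (by linarith) (by omega))⟩⟩

/-- all covers of the wide cell have the ideal mass -/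
theorem wide_allPC (s : ℕ) : ∃ Da : ℕ, ∀ (ι : Type) [Fintype ι] (T : Cell ι) (τ : ℕ → ℝ) (k : ℝ)
    (hk : k ≠ 0) (R P : ℝ), |k| ≤ 1 → (∀ c, T.lev c ≤ s) → T.RegM T.lev Da s τ →
    (Fintype.card ι : ℝ) ≤ R → R + 6 ≤ P → 4 * P ≤ τ (s + 1) →
    (scl T k hk).AllPC P (Real.exp (-P)) := by
  obtain ⟨Da, h⟩ := allDerMStmt s s
  refine ⟨Da, fun ι _ T τ k hk R P hk1 hs hT hn h1 h2 => ?_⟩
  have h0 : (0 : ℝ) ≤ Fintype.card ι := Nat.cast_nonneg _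
  have hl := Real.log_le_sub_one_of_pos (show (0 : ℝ) < Fintype.card ι + 2 by linarith)
  exact scl_allPC T hk hs hk1 (Cell.allPC_mono (h ι T T.lev τ (P + 1) (P + R + 4) T.isMC_lev hs hs
    hT (by linarith) (by linarith)).2 le_rfl (Real.exp_le_exp.2 (by linarith))) le_rfl

theorem sqrt_exp_le {P w : ℝ} (h : 2 * w + 4 ≤ P) : 3 * √(Real.exp (-P)) ≤ Real.exp (-w) := by
  rw [← Real.exp_half]
  have h1 : Real.exp (-P / 2) ≤ Real.exp (-w) * Real.exp (-2) := by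
    rw [← Real.exp_add]; exact Real.exp_le_exp.2 (by linarith)
  have h2 : 3 * Real.exp (-2) ≤ 1 := by
    rw [Real.exp_neg, ← div_eq_mul_inv, div_le_one (Real.exp_pos _)]
    linarith [Real.add_one_le_exp (2 : ℝ)]
  nlinarith [Real.exp_pos (-w), Real.exp_pos (-2 : ℝ)]

theorem exp_neg_le_quarter {x w β : ℝ} (h : w + 2 ≤ x) (hβ : Real.exp (-w) ≤ β) :
    Real.exp (-x) ≤ β / 4 := by
  have h1 : Real.exp (-x) ≤ Real.exp (-w) * Real.exp (-2) := by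
    rw [← Real.exp_add]; exact Real.exp_le_exp.2 (by linarith)
  have h2 : 4 * Real.exp (-2) ≤ 1 := by
    rw [Real.exp_neg, ← div_eq_mul_inv, div_le_one (Real.exp_pos _)]
    have := Real.add_one_le_exp (1 : ℝ)
    rw [show (2 : ℝ) = 1 + 1 by norm_num, Real.exp_add]
    nlinarith
  nlinarith [Real.exp_pos (-w), Real.exp_pos (-2 : ℝ)]

/-- from the signal on the points back to the frames -/
theorem sig_back {D : ℕ} (T : Cell ι) {σ lam β X ε : ℝ} {L g : ℕ} (hσ : 0 < σ) (hL : 0 < L)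
    (hl : 0 < lam) (hg : 0 < g) (Z : Finset (Frm D T.lev)) (wt : Frm D T.lev → ℝ) (cen : ι → ℝ)
    (r : ι → ℤ) (Γ Dn H : (ι → ℤ) → ℝ)
    (h : |(∑ t ∈ pos D L, ∑ W ∈ Z, wt W * (pcw T lam cen g r (W.pt t) *
          (Γ (W.pt t) * (H (W.pt t) / 2) / Real.exp X))) /
          (fmu T D σ * (lam / g) ^ Fintype.card ι * (L : ℝ) ^ D) -
        (∑' y, wc T lam cen g r y * (Dn y * (Γ y * (H y / 2) / Real.exp X))) / wmu T lam g| ≤ ε)
    (hS : β / 4 * wmu T lam g ≤ ∑' y, wc T lam cen g r y * (Γ y * (Dn y * (H y / 2))))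
    (hε : ε ≤ β / 8 / Real.exp X) (hβ : Real.exp (-X) ≤ β / 4) :
    Real.exp (-X) * (fmu T D σ * (lam / g) ^ Fintype.card ι) * (L : ℝ) ^ D ≤
      ∑ t ∈ pos D L, ∑ W ∈ Z, wt W * (pcw T lam cen g r (W.pt t) * (Γ (W.pt t) * H (W.pt t))) := by
  have hW := wmu_pos T hl hg
  have hX := Real.exp_pos X
  have hD : 0 < fmu T D σ * (lam / g) ^ Fintype.card ι * (L : ℝ) ^ D :=
    mul_pos (mul_pos (Fm.fmu_pos T D hσ) (pow_pos (div_pos hl (by exact_mod_cast hg)) _))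
      (by positivity)
  have e1 : ∑' y, wc T lam cen g r y * (Dn y * (Γ y * (H y / 2) / Real.exp X)) =
      (∑' y, wc T lam cen g r y * (Γ y * (Dn y * (H y / 2)))) / Real.exp X := by
    rw [← tsum_div_const]; exact tsum_congr fun y => by ring
  have e2 : ∑ t ∈ pos D L, ∑ W ∈ Z, wt W * (pcw T lam cen g r (W.pt t) *
      (Γ (W.pt t) * (H (W.pt t) / 2) / Real.exp X)) = (∑ t ∈ pos D L, ∑ W ∈ Z, wt W *
        (pcw T lam cen g r (W.pt t) * (Γ (W.pt t) * H (W.pt t)))) / 2 / Real.exp X := by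
    simp only [sum_div]
    exact sum_congr rfl fun t _ => sum_congr rfl fun W _ => by ring
  rw [e1, e2] at h
  rw [mul_assoc]
  generalize fmu T D σ * (lam / g) ^ Fintype.card ι * (L : ℝ) ^ D = Den at h hD ⊢
  generalize (∑ t ∈ pos D L, ∑ W ∈ Z, wt W *
    (pcw T lam cen g r (W.pt t) * (Γ (W.pt t) * H (W.pt t)))) = B at h ⊢
  generalize (∑' y, wc T lam cen g r y * (Γ y * (Dn y * (H y / 2)))) = S at h hS
  have h1 : β / 4 / Real.exp X ≤ S / Real.exp X / wmu T lam g := by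
    rw [div_right_comm S]
    exact div_le_div_of_nonneg_right ((le_div_iff₀ hW).2 hS) hX.le
  have h2 : β / 8 / Real.exp X ≤ B / 2 / Den / Real.exp X := by
    rw [div_right_comm _ Den]
    have : β / 4 / Real.exp X = β / 8 / Real.exp X + β / 8 / Real.exp X := by ring
    linarith [(abs_le.1 h).1]
  rw [div_le_div_iff_of_pos_right hX, le_div_iff₀ hD] at h2
  nlinarith [mul_le_mul_of_nonneg_right hβ hD.le]

/-- the scales -/
structure Scl (s K Dz Cc E : ℕ) (b : ℝ) (R Q lam Xi y z : ℝ) (τ : ℕ → ℝ) : Prop where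
  lam_ge : b + s + 10 + 3 * (R * Q) ≤ lam
  top : τ (s + s + 1) = lam
  step : ∀ j, s < j → j ≤ s + s → ∀ k, k ≤ lam → k + lam ^ K * (τ (j + 1) + lam) ≤ τ j ∧
    ∀ k', 0 ≤ k' → k' ≤ k + lam ^ K * (τ (j + 1) + lam) → (τ (j + 1) + k') ^ Dz ≤ τ j
  lo : ∀ j, lam ≤ τ j
  hi : ∀ j, s < j → τ j ≤ τ (s + 1)
  Xi_ge : lam * τ (s + 1) ≤ Xi
  y_eq : y = Xi ^ Cc
  Xi_le : Xi ≤ z
  y_le : y ≤ z
  z_ge : lam ^ K * (τ (s + 1) + y + lam) ≤ z
  z_eq : z = lam ^ E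
  z_le : 4 * z ≤ Real.exp lam

theorem exists_scl (s K Dz Cc : ℕ) : ∃ (E : ℕ) (b0 : ℝ), ∀ b R Q lam : ℝ, 0 ≤ b → 0 ≤ R * Q →
    b0 + b + s + 10 + 3 * (R * Q) ≤ lam →
    ∃ (Xi y z : ℝ) (τ : ℕ → ℝ), Scl s K Dz Cc E b R Q lam Xi y z τ := by
  obtain ⟨A, hA⟩ : ∃ A, A = (K + 3) * (Dz + 1) := ⟨_, rfl⟩
  have hA1 : 1 ≤ A := by rw [hA]; exact Nat.mul_pos (by omega) (by omega)
  have hp : ∀ n, 1 ≤ A ^ n := fun n => Nat.one_le_pow _ _ hA1
  obtain ⟨E, hE⟩ : ∃ E, E = K + 1 + (A ^ s + 1) * (Cc + 1) := ⟨_, rfl⟩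
  refine ⟨E, 4 * ((E + 1).factorial : ℝ), fun b R Q lam hb hRQ h => ?_⟩
  have hf : (0 : ℝ) ≤ (E + 1).factorial := Nat.cast_nonneg _
  have hs : (0 : ℝ) ≤ s := Nat.cast_nonneg _
  have h3 : 3 ≤ lam := by linarith
  have h1 : 1 ≤ lam := by linarith
  have hm : ∀ {m n : ℕ}, m ≤ n → lam ^ m ≤ lam ^ n := fun h => pow_le_pow_right₀ h1 h
  have e1 : s + s + 1 - (s + 1) = s := by omega
  have b1 : A ^ s + 1 ≤ (A ^ s + 1) * (Cc + 1) := Nat.le_mul_of_pos_right _ (by omega)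
  have b2 : (A ^ s + 1) * Cc ≤ (A ^ s + 1) * (Cc + 1) := Nat.mul_le_mul_left _ (by omega)
  refine ⟨lam ^ (A ^ s + 1), lam ^ ((A ^ s + 1) * Cc), lam ^ E, fun j => lam ^ A ^ (s + s + 1 - j),
    by linarith, by simp, fun j j1 j2 k hk => ?_, fun j => le_self_pow₀ h1 (by have := hp (s + s + 1 - j); omega),
    fun j hj => hm (Nat.pow_le_pow_right hA1 (by omega)), by rw [e1, pow_succ'],
    pow_mul _ _ _, hm (by omega), hm (by omega), ?_, rfl, four_pow_le_exp E (by linarith)⟩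
  · have e : A ^ (s + s + 1 - j) = (K + 3) * (Dz + 1) * A ^ (s + s + 1 - (j + 1)) := by
      rw [← hA, ← pow_succ']; congr 1; omega
    simp only [e]
    exact chain_step h3 K Dz (hp _) hk
  · have q1 := hm (show A ^ s ≤ (A ^ s + 1) * (Cc + 1) by omega)
    have q2 := hm b2
    have q3 := hm (show 1 ≤ (A ^ s + 1) * (Cc + 1) by omega)
    rw [pow_one] at q3
    have q4 : 0 ≤ lam ^ ((A ^ s + 1) * (Cc + 1)) := by positivity
    simp only [e1, hE]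
    rw [pow_add, pow_succ, mul_assoc]
    exact mul_le_mul_of_nonneg_left (by nlinarith) (by positivity)

/-- the constant in the comparison of the length with the scales -/
def b3 (D s : ℕ) : ℝ := (s + 5) * ((s + 1) ^ (D + 1) * ((s + 1) * (2 * s + 1) + s ^ 2 + 1))

theorem len {s D Cc C : ℕ} {z Y ℓ t : ℝ} (hz : 1 ≤ z) (hC : Cc + 3 ≤ C)
    (h : (15 + 4 * (s + 1) ^ 2 + b3 D s) * z ^ (Cc + 2) ≤ Y) (hY : Y ≤ ℓ) (ht : ℓ ^ C ≤ t) :
    ∃ P, z ^ Cc ≤ Y ∧ 6 * z ^ 2 ≤ Y ∧ 15 * z ≤ ℓ ∧ z + 2 * ((s + 1) ^ 2 * (z + z) + 2) ≤ t ∧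
      ℓ ^ Cc ≤ P ∧ ℓ ≤ P ∧ 4 * P ≤ t ∧ (s + 5) * fl D s ((2 * s + 1) * ℓ) ≤ P := by
  have hb : 0 ≤ b3 D s := by rw [b3]; positivity
  have hW : ∀ m, m ≤ Cc + 2 → z ^ m ≤ z ^ (Cc + 2) := fun m hm => pow_le_pow_right₀ hz hm
  have hW1 : z ≤ z ^ (Cc + 2) := le_self_pow₀ hz (by omega)
  have hW2 := hW 2 (by omega)
  have hWc := hW Cc (by omega)
  have hs2 : 0 ≤ 4 * ((s : ℝ) + 1) ^ 2 := by positivity
  have hs3 : 0 ≤ 4 * ((s : ℝ) + 1) ^ 2 * z := by positivity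
  generalize z ^ (Cc + 2) = W at hW1 hW2 hWc h
  have n3 : 15 * W + 4 * (s + 1) ^ 2 * z + b3 D s ≤ Y := by
    nlinarith [mul_le_mul_of_nonneg_left hW1 hs2, mul_le_mul_of_nonneg_left (hz.trans hW1) hb]
  have hℓ1 : 15 ≤ ℓ := by linarith
  have h1 : (1 : ℝ) ≤ ℓ := by linarith
  have hP2 : ℓ * ℓ ≤ ℓ ^ (Cc + 2) := by rw [← sq]; exact pow_le_pow_right₀ h1 (by omega)
  have hP1 : ℓ ≤ ℓ ^ (Cc + 2) := le_self_pow₀ h1 (by omega)
  have hP4 : 4 * ℓ ^ (Cc + 2) ≤ t := by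
    refine le_trans ?_ ((pow_le_pow_right₀ h1 (show Cc + 2 + 1 ≤ C by omega)).trans ht)
    rw [pow_succ' _ (Cc + 2)]
    exact mul_le_mul_of_nonneg_right (by linarith) (by positivity)
  refine ⟨ℓ ^ (Cc + 2), by linarith, by linarith, by linarith, by linarith,
    pow_le_pow_right₀ h1 (by omega), hP1, hP4, le_trans ?_
      ((mul_le_mul_of_nonneg_right (show b3 D s ≤ ℓ by linarith) (by linarith)).trans hP2)⟩
  rw [b3, fl, mul_assoc, mul_assoc]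
  refine mul_le_mul_of_nonneg_left (mul_le_mul_of_nonneg_left ?_ (by positivity)) (by positivity)
  nlinarith [mul_le_mul_of_nonneg_left h1 (show (0 : ℝ) ≤ s ^ 2 + 1 by positivity)]

/-- the frames seen from the wide cell -/
theorem wide {s D : ℕ} (T : Cell ι) {σ R ℓ P : ℝ} {L : ℕ} (hs : ∀ c, T.lev c ≤ s) (hσ : 0 < σ)
    (h1 : σ * L ≤ 1) (h2 : Real.exp (-R) ≤ σ * L) (hℓ : Real.exp ℓ = L) (hR : 0 ≤ R) (hRℓ : R ≤ ℓ)
    (hA : (scl T (kk D s) kk_ne).AllPC P (Real.exp (-P))) (hP : 0 ≤ P)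
    (hfl : (s + 5) * fl D s ((2 * s + 1) * ℓ) ≤ P) (Z : Finset (Frm D T.lev)) :
    (∀ V : Frm D T.lev, ∀ t ∈ pos D L,
      fw T σ V ≤ Real.exp (-(4 * Real.pi) * fq (scl T (kk D s) kk_ne) σ (reb V t))) ∧
    ∃ Dn : (ι → ℤ) → ℝ, (∀ y, 0 ≤ Dn y ∧ Dn y ≤ 1) ∧ ∀ (lam : ℝ) (g : ℕ) (r : ι → ℤ)
      (cen : ι → ℝ) (ψ : (ι → ℤ) → ℝ), 0 < lam → 0 < g → (g : ℝ) ≤ Real.exp ℓ →
      lam⁻¹ ≤ Real.exp ℓ → (∀ y, |ψ y| ≤ 1) →
      |(∑ t ∈ pos D L, ∑ W ∈ Z, fw T σ W * (pcw (scl T (kk D s) kk_ne) lam cen g r (W.pt t) *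
          ψ (W.pt t))) / (fmu (scl T (kk D s) kk_ne) D σ * (lam / g) ^ Fintype.card ι * (L : ℝ) ^ D) -
        (∑' y, wc (scl T (kk D s) kk_ne) lam cen g r y * (Dn y * ψ y)) /
          wmu (scl T (kk D s) kk_ne) lam g| ≤ 3 * √(Real.exp (-P)) := by
  have hL0 : (0 : ℝ) < L := hℓ ▸ Real.exp_pos ℓ
  have hs0 : (0 : ℝ) ≤ s := Nat.cast_nonneg _
  have hfq : ∀ V : Frm D T.lev, ∀ t ∈ pos D L,
      fw T σ V ≤ Real.exp (-(4 * Real.pi) * fq (scl T (kk D s) kk_ne) σ (reb V t)) := fun V t ht => by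
    have h := fq_scl_reb T kk_ne hs hσ (fun i => (abs_mul_le_of_mem_pos hσ ht i).trans h1) kk_mul V
    exact Real.exp_le_exp.2 (by nlinarith [Real.pi_pos])
  have hσ' : σ⁻¹ ≤ Real.exp (R + ℓ) := by
    rw [Real.exp_add, hℓ, inv_le_iff_one_le_mul₀ hσ, mul_assoc, mul_comm _ σ]
    have h := mul_le_mul_of_nonneg_left h2 (Real.exp_pos R).le
    rwa [← Real.exp_add, add_neg_cancel, Real.exp_zero] at h
  obtain ⟨Dn, hDn, hlin⟩ := lin (scl T (kk D s) kk_ne) hs hσ (by linarith) hσ'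
    (by exact_mod_cast hL0) Z (fw T σ) reb reb_pt_zero reb_injective
    (fun V => (Real.exp_pos _).le) fun V _ t ht => (hfq V t ht).trans (Real.exp_le_exp.2 (by
      nlinarith [mul_nonneg Real.pi_pos.le (fq_nonneg (scl T (kk D s) kk_ne) σ (reb V t))]))
  have h3 : Real.exp ℓ ≤ Real.exp ((2 * s + 1) * ℓ) :=
    Real.exp_le_exp.2 (by nlinarith [mul_nonneg hs0 (hR.trans hRℓ)])
  exact ⟨hfq, Dn, hDn, fun lam g r cen ψ a1 a2 a3 a4 a5 => hlin _ P _ lam g r cen ψ hA hfl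
    (Real.exp_le_one_iff.2 (by linarith)) (by nlinarith [mul_le_mul_of_nonneg_left hRℓ hs0])
    a1 a2 (a3.trans h3) (a4.trans h3) a5⟩

end Crest.Agent.T49.Ea
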