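import Crest.Agent.T49.EaEndA_64

/-!
# Row 49 (helper64): END, regularisation of the extended cell
-/

set_option autoImplicit false

noncomputable section

namespace Crest.Agent.T49.Ea

open MvPolynomial Finset
open Crest.Agent.T49.Tw Crest.Agent.T49.Gl Crest.Agent.T49.Fm Crest.Agent.T49.Samp
open Crest.Agent.T49.Rg Crest.Agent.T49.Nil Crest.Agent.T49.Mal
open Crest.Agent.T49.End (pcw)

theorem log_one_add_le {a Q : ℝ} (h1 : 1 ≤ a) (h : a ≤ Real.exp Q) :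
    Real.log (1 + |a|) ≤ Q + 1 := by
  rw [abs_of_pos (by linarith), Real.log_le_iff_le_exp (by linarith), Real.exp_add]
  nlinarith [Real.add_one_le_exp (1 : ℝ), Real.exp_pos Q]

theorem mul_exp_le {R lam : ℝ} (h0 : 0 ≤ R) (h : 2 * R + 2 ≤ lam) :
    4 * (R * Real.exp R) ≤ Real.exp lam := by
  refine le_trans ?_ (Real.exp_le_exp.2 (show 1 + 1 + R + R ≤ lam by linarith))
  rw [Real.exp_add, Real.exp_add, Real.exp_add, ← mul_assoc]
  have h1 := Real.add_one_le_exp (1 : ℝ)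
  refine mul_le_mul_of_nonneg_right (mul_le_mul (by nlinarith) (by
    linarith [Real.add_one_le_exp R]) h0 (by positivity)) (Real.exp_pos R).le

/-- regularisation of the extended cell, read on the old points -/
theorem reg_pack {s : ℕ} (hs1 : 1 ≤ s) (hR : RegStmt) : ∃ K Dz : ℕ, ∀ (ι κ : Type) [Fintype ι]
    [Fintype κ] (T : Cell ι) (k : ℝ) (hk : k ≠ 0) (E : Ext (scl T k hk).lev κ) (a : ℝ) (ha : a ≠ 0)
    (c0 : κ → ℝ) (F : (ι → ℤ) → ℝ) (β : ℝ) (τ0 : ℕ → ℝ) (Cc E' : ℕ) (b R Q lam Xi y z : ℝ)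
    (τ : ℕ → ℝ), Scl s K Dz Cc E' b R Q lam Xi y z τ → 2 ≤ R → 1 ≤ Q → 0 ≤ b →
    Real.exp (-b) ≤ |k| → |k| ≤ 1 → (∀ c, T.lev c ≤ s) → (∀ j, E.lev j ≤ s) →
    (Fintype.card ι : ℝ) ≤ R → (Fintype.card κ : ℝ) ≤ R → (∀ l, T.kap l ≤ Real.exp R) →
    T.RegM T.lev (2 * Dz + 2) s τ0 → z + 2 * ((s + 1) ^ 2 * (z + z) + 2) ≤ τ0 (s + 1) → 1 ≤ a →
    a ≤ Real.exp Q → Real.exp (-Q) ≤ β → β ≤ 1 → (∀ y, |F y| ≤ 1) →
    Real.exp (-Q) * (Ext.cell (scl T k hk) E (fun _ => a) (fun _ => ha) c0).mu ≤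
      Sg (Ext.cell (scl T k hk) E (fun _ => a) (fun _ => ha) c0).toTri
        (fun z => (F (z ∘ Sum.inl) - β) / 2) →
    ∃ (G : ℕ) (w : ℝ) (cen : ι → ℝ) (r : ι → ℤ) (Γ : (ι → ℤ) → ℝ), 1 ≤ G ∧ (G : ℝ) ≤ Real.exp z ∧
      Real.exp (-z) ≤ w ∧ w ≤ 1 ∧ (∀ y, 0 ≤ Γ y ∧ Γ y ≤ Real.exp Xi) ∧
      β / 4 * wmu (scl T k hk) w G ≤ ∑' y, wc (scl T k hk) w cen G r y * (Γ y * F y) ∧
      ∀ (d : ℕ) (l : ℝ) (c' : ι → ℝ) (r' : ι → ℤ), 1 ≤ d → (d : ℝ) ≤ Real.exp y →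
        Real.exp (-y) ≤ l → l ≤ 1 → Cong G r' r →
        |∑' y, wc (scl T k hk) (w * l) c' (G * d) r' y * Γ y - wmu (scl T k hk) (w * l) (G * d)| ≤
          wmu (scl T k hk) (w * l) (G * d) / 10 ∧
        ∃ (ι' : Type) (_ : Fintype ι') (U : Cell ι') (φ : ι → Pl ι'), (∀ c, U.lev c ≤ s) ∧
          Fintype.card ι' ≤ Fintype.card ι + Fintype.card κ ∧
          (∀ l, U.kap l ≤ T.kap l + 6 * z ^ 2) ∧ Fr.Piece T U φ (6 * z ^ 2) ∧ U.mu ≤ 2 * U.M ∧
          ∀ (f : (ι → ℤ) → ℝ) (γ : ℝ), (∀ y, |f y| ≤ 1) →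
            0 ≤ ∑' y, wc (scl T k hk) (w * l) c' (G * d) r' y * (Γ y * (f y - γ)) →
            γ ≤ Fr.dens U fun z => f (pt φ z) := by
  obtain ⟨K, hK⟩ := hR s hs1
  obtain ⟨Dz, hDz⟩ := Ur.zo_mass s
  refine ⟨K, Dz, fun ι κ _ _ T k hk E a ha c0 F β τ0 Cc E' b R Q lam Xi y z τ hS hR2 hQ1 hb0 hb hk1
    hs hE hι hκ hkap hreg hτ0 ha1 ha2 hβ hβ1 hF hU => ?_⟩
  have hs0 : (0 : ℝ) ≤ s := Nat.cast_nonneg _
  have hRQ1 : R ≤ R * Q := le_mul_of_one_le_right (by linarith) hQ1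
  have hRQ2 : 2 * Q ≤ R * Q := mul_le_mul_of_nonneg_right hR2 (by linarith)
  have hlam := hS.lam_ge
  have hτ1 := hS.lo (s + 1)
  have hXi : 10 * τ (s + 1) ≤ Xi :=
    (mul_le_mul_of_nonneg_right (by linarith) (by linarith)).trans hS.Xi_ge
  have hXs : s * τ (s + 1) ≤ Xi :=
    (mul_le_mul_of_nonneg_right (by linarith) (by linarith)).trans hS.Xi_ge
  have hXz := hS.Xi_le
  have hyz := hS.y_le
  have hy0 : 0 ≤ y := hS.y_eq ▸ pow_nonneg (by linarith) _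
  have hβ0 : 0 < β := (Real.exp_pos _).trans_le hβ
  have hla := log_one_add_le ha1 ha2
  have ha3 : 1 ≤ |a| := ha1.trans (le_abs_self a)
  have hkU := fun j hj => kapM_ext (scl T k hk) hs E ha c0 hκ ha3 hla (j := j) hj
  have hkU1 : ∀ j, s < j → (Ext.cell (scl T k hk) E (fun _ => a) (fun _ => ha) c0).kapM
      (Ur.clE (scl T k hk) E s) j ≤ lam := fun j hj => (hkU j hj).1.trans (by nlinarith)
  have hcU : (Fintype.card (ι ⊕ κ) : ℝ) ≤ 2 * R := by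
    rw [Fintype.card_sum]; push_cast; linarith
  have hkt := kt_ext T hk hk1 E ha c0 hι hκ hkap hla (by linarith)
  obtain ⟨ι', _, T', cl', φ, v, G, u, hM, hmc, hcls, hlev, hG, hu, hkp, hlm, hrg, hsg⟩ :=
    hK s (ι ⊕ κ) _ (Ur.clE (scl T k hk) E s) τ lam Q y lam
      (fun z => (F (z ∘ Sum.inl) - β) / 2) (Ur.ext_isMC hs) (Ur.ext_cls hs)
      (fun c => by rcases c with c | c; exacts [hs c, hE c]) (by linarith) (by linarith) hy0
      (by linarith) (by linarith [hS.lo (s + s + 1)])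
      (fun j j1 j2 => (hS.step j j1 j2 lam le_rfl).1.trans' (add_le_add (hkU1 j j1) le_rfl))
      (by
        have h1 := mul_exp_le (by linarith) (show 2 * R + 2 ≤ lam by linarith)
        have h2 : R * (Q + 1) = R * Q + R := by ring
        linarith [hS.z_ge, hS.z_le])
      (fun z => by
        have := abs_le.1 (hF (z ∘ Sum.inl))
        rw [abs_le]; constructor <;> linarith) hU
  replace hG := hG.trans (Real.exp_le_exp.2 hS.z_ge)
  replace hu := hu.trans hS.z_ge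
  have hk2 : ∀ j, s < j → j ≤ s + s → T'.kapM cl' j ≤ lam + lam ^ K * (τ (j + 1) + lam) :=
    fun j j1 j2 => (hkp j j1 j2).trans (add_le_add (hkU1 j j1) le_rfl)
  have hk3 : ∀ j, s < j → j ≤ s + s → T'.kapM cl' j ≤ τ (s + 1) := fun j j1 j2 =>
    ((hk2 j j1 j2).trans (hS.step j j1 j2 lam le_rfl).1).trans (hS.hi j j1)
  have hc' : (Fintype.card ι' : ℝ) ≤ 2 * R := le_trans (by exact_mod_cast hM.card_le) hcU
  have hmass := hDz ι κ ι' T _ E _ _ c0 T' cl' φ v G u _ τ0 τ lam y z (lam - 2)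
    (Ur.pc_scl T hk hk1) hreg hs hM hmc hcls hlev hG hu (by linarith)
    (by nlinarith [mul_le_mul_of_nonneg_left hyz (show (0 : ℝ) ≤ (s + 1) ^ 2 by positivity)])
    (fun j j1 j2 => (hS.step j j1 j2 lam le_rfl).2 _
      (zero_le_one.trans (Cell.one_le_kapM _ _ _)) (hk2 j j1 j2))
    (fun j j1 j2 => (hk3 j j1 j2).trans (by linarith [hS.z_le])) hrg
    (by
      have := Real.log_le_sub_one_of_pos (show (0 : ℝ) < Fintype.card ι' + 2 by positivity)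
      linarith) (by linarith [hS.top])
  have h10 : Real.exp (-(lam - 2)) ≤ 1 / 10 := by
    rw [Real.exp_neg, ← one_div]
    refine one_div_le_one_div_of_le (by norm_num) ?_
    have h1 : (2 : ℝ) ≤ Real.exp 1 := by linarith [Real.add_one_le_exp (1 : ℝ)]
    refine le_trans ?_ (Real.exp_le_exp.2 (show ((4 : ℕ) : ℝ) * 1 ≤ lam - 2 by push_cast; linarith))
    rw [Real.exp_nat_mul]
    exact le_trans (by norm_num) (pow_le_pow_left₀ (by norm_num) h1 4)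
  obtain ⟨cen, r, Γ, mun, hmun, hΓ, -, hSg, hzo⟩ := Ur.exists_gam (T := scl T k hk) hs hM hmc
    (fun c => by have := hlev c; rcases hcls c with h | h <;> omega) hk3
  have hw : 0 < Real.exp (-u) := Real.exp_pos _
  have key : ∀ (d : ℕ) (l : ℝ) (c' : ι → ℝ) (r' : ι → ℤ), 1 ≤ d → (d : ℝ) ≤ Real.exp y →
      Real.exp (-y) ≤ l → l ≤ 1 → Cong G r' r →
      |∑' y, wc (scl T k hk) (Real.exp (-u) * l) c' (G * d) r' y * Γ y -
        wmu (scl T k hk) (Real.exp (-u) * l) (G * d)| ≤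
        wmu (scl T k hk) (Real.exp (-u) * l) (G * d) / 10 ∧
      ∃ (ι' : Type) (_ : Fintype ι') (U : Cell ι') (φ : ι → Pl ι'), (∀ c, U.lev c ≤ s) ∧
        Fintype.card ι' ≤ Fintype.card ι + Fintype.card κ ∧
        (∀ l, U.kap l ≤ T.kap l + 6 * z ^ 2) ∧ Fr.Piece T U φ (6 * z ^ 2) ∧ U.mu ≤ 2 * U.M ∧
        ∀ (f : (ι → ℤ) → ℝ) (γ : ℝ), (∀ y, |f y| ≤ 1) →
          0 ≤ ∑' y, wc (scl T k hk) (Real.exp (-u) * l) c' (G * d) r' y * (Γ y * (f y - γ)) →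
          γ ≤ Fr.dens U fun z => f (pt φ z) := by
    intro d l c' r' hd hdy hl hl1 hr
    have hl0 : 0 < l := (Real.exp_pos _).trans_le hl
    have hu0 : 0 ≤ -Real.log l := neg_nonneg.2 (Real.log_nonpos hl0.le hl1)
    have huy : -Real.log l ≤ y := neg_le.1 ((Real.le_log_iff_exp_le hl0).2 hl)
    obtain ⟨r'', t'', e1, e2, e3⟩ := hzo ⟨d, hd⟩ l c' r' hl0 hr
    have hm := (hmass ⟨d, hd⟩ _ r'' t'' hdy hu0 huy).trans h10
    obtain ⟨n1, n2, n3, n4⟩ := newcell T hk E _ _ c0 (fun _ => rfl) (fun _ => rfl) hM hcls hlev hs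
      ⟨d, hd⟩ r'' t'' (z := z) (by linarith) (by linarith)
      ((Real.exp_le_exp.2 (by linarith)).trans hb) hk1 (fun _ => ha3) hG
      (hdy.trans (Real.exp_le_exp.2 hyz)) hu hu0 (huy.trans hyz)
      (by linarith [hS.hi (s + 2) (by omega)]) (fun j j1 j2 => (hk3 j j1 j2).trans (by linarith))
      (by
        have h1 := (hkU (s + 1) (by omega)).2
        have h2 := (hS.step (s + 1) (by omega) (by omega) lam le_rfl).1
        have h3 : R * (Q + 1) = R * Q + R := by ring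
        linarith)
    refine ⟨mean_of_mass hmun (wmu_pos _ (mul_pos hw hl0) (Nat.mul_pos G.pos hd)) e1 e2 hm,
      ι', _, zo T' cl' s ⟨d, hd⟩ (-Real.log l) r'' t'', _, hlev, n1, n2, n3, ?_, fun f γ hf h0 => ?_⟩
    · have h := (abs_le.1 hm).1
      have := (le_div_iff₀ (Tri.mu_pos _)).1 (show 1 / 2 ≤ (zo T' cl' s ⟨d, hd⟩ (-Real.log l) r'' t'').M /
        (zo T' cl' s ⟨d, hd⟩ (-Real.log l) r'' t'').mu by linarith)
      linarith
    · have h1 := e3 (fun y => f y + -γ) (1 + |γ|) fun y =>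
        (abs_add_le _ _).trans (add_le_add (hf y) (abs_neg γ).le)
      rw [Sg_add_const _ (K := 1) fun w => hf _] at h1
      have h2 := mul_nonneg hmun.le h0
      simp only [sub_eq_add_neg] at h2
      rw [Fr.dens, le_div_iff₀ (Tri.M_pos _)]
      simp only [n4]
      have h3 := h2.trans_eq h1.symm
      rw [Sg] at h3
      linarith
  refine ⟨G, Real.exp (-u), cen, r, Γ, G.pos, hG, Real.exp_le_exp.2 (by linarith),
    Real.exp_le_one_iff.2 (by linarith [hM.u_nonneg]),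
    fun y => ⟨(hΓ y).1, (hΓ y).2.trans (Real.exp_le_exp.2 hXs)⟩, ?_, key⟩
  have h1 := (key 1 1 cen r le_rfl (by simpa using hy0) (Real.exp_le_one_iff.2 (by linarith)) le_rfl
    (Cong.refl _ _)).1
  have h2 := hSg (fun _ => 1) 1 fun _ => by simp
  have h3 := hSg F 1 hF
  rw [Sg_half _ (K := 1) (fun w => hF _), h3] at hsg
  simp only [mul_one, Sg] at h1 h2
  have h4 : T'.M = _ := h2
  have h5 := exp_neg_le_quarter (show Q + 2 ≤ lam by linarith) hβ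
  have h6 := mul_pos (Real.exp_pos (-(Q + lam ^ K * (τ (s + 1) + lam)))) T'.mu_pos
  have h7 := mul_le_mul_of_nonneg_right h5 T'.M_nonneg
  have h8 := wmu_pos (scl T k hk) hw G.pos
  have h9 : β / 2 * T'.M ≤ mun * ∑' y, wc (scl T k hk) (Real.exp (-u)) cen G r y * (Γ y * F y) := by
    linarith
  rw [h4, mul_left_comm] at h9
  have h11 := le_of_mul_le_mul_left h9 hmun
  nlinarith [(abs_le.1 h1).1, mul_le_mul_of_nonneg_left (abs_le.1 h1).1 hβ0.le, mul_pos hβ0 h8]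

end Crest.Agent.T49.Ea
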