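import Crest.Agent.T49.EaMid_65

/-!
# Row 49 (helper65): END, the assembly
-/

set_option autoImplicit false

noncomputable section

namespace Crest.Agent.T49.Ea

open Finset
open Crest.Agent.T49.Tw Crest.Agent.T49.Gl Crest.Agent.T49.Samp Crest.Agent.T49.Mal
open Crest.Agent.T49.Rg (RegStmt)
open Crest.Agent.T49.End (pcw)

theorem three_sqrt_le {W Y : ℝ} (h : 2 * Y + 4 ≤ W) : 3 * √(Real.exp (-W)) ≤ Real.exp (-Y) := by
  rw [← Real.exp_half]
  have h1 : Real.exp (-W / 2) ≤ Real.exp (-Y + -2) := Real.exp_le_exp.2 (by linarith)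
  rw [Real.exp_add] at h1
  nlinarith [exp_small.1, Real.exp_pos (-Y)]

theorem mul_aux (a b c d e : ℝ) : a * (b * (e * (c * (d / 2)))) = e / 2 * (a * (b * (c * d))) := by
  ring

set_option maxHeartbeats 800000 in
/-- **END** -/
theorem endStmt_of65 (hR : RegStmt) (hI : IncStmt) : Fr.EndStmt := by
  intro s hs
  obtain ⟨D0, hI⟩ := hI s hs
  refine ⟨D0, fun D hD c c0 c1 => ?_⟩
  obtain ⟨CI, hI⟩ := hI D hD c c0 c1
  have k1 : |kk D s| ≤ 1 := (abs_of_pos kk_pos).trans_le kk_le_one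
  obtain ⟨e, Dz, e1, hM⟩ := mid65 hR hs kk_ne k1
  obtain ⟨E, m0, eE, hm0, hM⟩ := hM CI
  obtain ⟨Cin, hIn⟩ := sig_in s D
  obtain ⟨D1, hA⟩ := allDerMStmt s s
  obtain ⟨C2, h2⟩ : ∃ C : ℕ, ∀ l : ℝ, 2 ≤ l →
      (s + 5) * ((s + 1) ^ (D + 1) * ((s + 1) * ((2 * s + 1) * l) + s ^ 2 + 1)) ≤ l ^ C := by qp
  obtain ⟨C3, h3⟩ : ∃ C : ℕ, ∀ l : ℝ, 2 ≤ l → 3 * l ^ (C2 + CI + 1) + l + 6 ≤ l ^ C := by qp
  obtain ⟨C4, h4⟩ : ∃ C : ℕ, ∀ R : ℝ, 2 ≤ R → ((R ^ Cin + 2 * R + 6 + m0) ^ E) ^ CI ≤ R ^ C ∧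
      4 * (R ^ Cin + 2 * R + 6 + m0) ^ E + 6 ≤ R ^ C := by qp
  refine ⟨C4 + C3 + D1 + Dz + 1, fun ι _ T τ f α σ R L dg h hdg hkap hf α0 α1 hSt => ?_⟩
  have hR2 := h.two
  obtain ⟨r1, r2⟩ := h4 R hR2
  have i0 : 0 ≤ R ^ Cin := by positivity
  obtain ⟨m, hm⟩ : ∃ m, R ^ Cin + 2 * R + 6 + m0 = m := ⟨_, rfl⟩
  rw [hm] at r1 r2
  have m2 : 2 ≤ m := by linarith
  have p1 : m ≤ m ^ e := le_self_pow₀ (by linarith) (by omega)
  have p2 : m ^ e ≤ m ^ E := Qp.pw_mono m2 eE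
  have p3 : R ^ C4 ≤ R ^ (C4 + C3 + D1 + Dz + 1) := Qp.pw_mono hR2 (by omega)
  have hL : (0 : ℝ) < L := (Real.exp_pos _).trans_le h.L_ge
  have l1 : R ^ C4 ≤ Real.log L := p3.trans ((Real.le_log_iff_exp_le hL).2 h.L_ge)
  have l2 : 2 ≤ Real.log L := by linarith
  have hσ : σ⁻¹ ≤ Real.exp (2 * Real.log L) := by
    have h1 : Real.exp (-Real.log L) ≤ σ * L := (Real.exp_le_exp.2 (by linarith)).trans h.le_σ
    rw [Real.exp_neg, Real.exp_log hL, inv_le_iff_one_le_mul₀ hL] at h1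
    rw [two_mul, Real.exp_add, Real.exp_log hL, inv_le_iff_one_le_mul₀ h.σ_pos]
    linarith
  have w1 : Real.log L ≤ Real.log L ^ (C2 + CI + 1) := le_self_pow₀ (by linarith) (by omega)
  have w2 : Real.log L ^ CI ≤ Real.log L ^ (C2 + CI + 1) := Qp.pw_mono l2 (by omega)
  have w3 : (s + 5) * Fm.fl D s ((2 * s + 1) * Real.log L) ≤ Real.log L ^ (C2 + CI + 1) :=
    (h2 _ l2).trans (Qp.pw_mono l2 (by omega))
  have w4 := ((h3 _ l2).trans (Qp.pw_mono l2 (show C3 ≤ C4 + C3 + D1 + Dz + 1 by omega))).trans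
    h.L_le
  obtain ⟨W, hW⟩ : ∃ W, Real.log L ^ (C2 + CI + 1) = W := ⟨_, rfl⟩
  rw [hW] at w1 w2 w3 w4
  have hreg := Cell.regM_of_reg h.reg
  have hPC : (scl T (kk D s) kk_ne).AllPC W (Real.exp (-W)) := by
    have d1 := Real.log_le_sub_one_of_pos (show (0 : ℝ) < Fintype.card ι + 2 by positivity)
    exact Cell.allPC_mono (Fm.scl_allPC T kk_ne h.lev k1 (hA ι T T.lev τ (W + 1)
      (W + Real.log L + 4) T.isMC_lev h.lev h.lev
      (MA.regM_mono hreg (by omega) (by omega) (by linarith)) (by linarith [h.card])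
      (by linarith)).2 le_rfl) le_rfl (Real.exp_le_exp.2 (by linarith))
  have η1 : Real.exp (-W) ≤ 1 := Real.exp_le_one_iff.2 (by linarith)
  have hmass : (scl T (kk D s) kk_ne).M ≤ 2 * (scl T (kk D s) kk_ne).mu := by
    have d1 := (abs_le.1 ((Cell.allPC_self hPC (by linarith)).trans η1)).2
    rw [← div_le_iff₀ (Tri.mu_pos _)]
    linarith
  have η2 : 3 * √(Real.exp (-W)) ≤ Real.exp (-(m ^ e + m + 1)) := three_sqrt_le (by linarith)
  obtain ⟨κ, _, N, g, Φ, Z, s1, s2, s3, s4, s5, s6⟩ := hSt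
  have hκ : (Fintype.card κ : ℝ) ≤ R := le_trans (by exact_mod_cast s1) hdg
  have α2 : 0 < α := (Real.exp_pos _).trans_le α0
  have hH : ∀ y, |(f y - (1 + c) * α) / 2| ≤ 1 := fun y => by
    have d1 : c * α ≤ 1 / 2 := (mul_le_of_le_one_right c0.le α1).trans c1
    have d2 : 0 ≤ c * α := by positivity
    rw [abs_le]
    constructor <;> linarith [(hf y).1, (hf y).2]
  have hw : ∀ W ∈ Z, ∀ t ∈ pos D L, fw T σ W ≤
      Real.exp (-(4 * Real.pi) * fq (scl T (kk D s) kk_ne) σ (Fm.reb W t)) := fun V _ t ht => by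
    have d1 := Fm.fq_scl_reb T kk_ne h.lev h.σ_pos
      (fun i => (Fm.abs_mul_le_of_mem_pos h.σ_pos ht i).trans h.σ_le) kk_mul V
    exact Real.exp_le_exp.2 (by linarith [mul_le_mul_of_nonneg_left d1 Real.pi_pos.le])
  have hw0 : ∀ V : Frm D T.lev, 0 ≤ fw T σ V := fun V => (Sg.fw_pos T σ V).le
  have L0 : 0 < L := by exact_mod_cast hL
  have ls : 0 ≤ s * Real.log L := by positivity
  obtain ⟨Dn, hDn, hlin⟩ := lin (scl T (kk D s) kk_ne) h.lev h.σ_pos (by linarith) hσ L0 Z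
    (fw T σ) (fun V t => Fm.reb V t) (fun V t => Fm.reb_pt_zero V t) Fm.reb_injective hw0
    fun V hV t ht => (hw V hV t ht).trans (Real.exp_le_exp.2 (by
      linarith [mul_nonneg Real.pi_pos.le (Sg.fq_nonneg (scl T (kk D s) kk_ne) σ (Fm.reb V t))]))
  replace hlin := fun lam g r cen ψ => hlin ((2 * s + 1) * Real.log L) W _ lam g r cen ψ hPC w3 η1
    (by linarith)
  have u0 : Real.exp (m ^ E) ≤ Real.exp ((2 * s + 1) * Real.log L) :=
    Real.exp_le_exp.2 (by linarith)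
  have u1 : 1 ≤ Real.exp (m ^ E) := Real.one_le_exp (by linarith)
  obtain ⟨a, ha, cc, β, a1, a2, β1, β2, hS⟩ := hIn R hR2 ι κ T σ _ L N g (dSub_of_wcf s3) Φ Z _ Dn
    h.lev h.card hκ h.σ_pos L0 s2 s4 s5 s6 hH hDn hmass
    (η2.trans (Real.exp_le_exp.2 (by linarith)))
    (hlin 1 1 0 0 (fun y => Φ (N.evZ y g) * ((f y - (1 + c) * α) / 2)) one_pos one_pos
      (by simpa using u1.trans u0) (by simpa using u1.trans u0) fun y => by
        rw [abs_mul, abs_of_nonneg (s4.mem _).1]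
        exact mul_le_one₀ (s4.mem _).2 (abs_nonneg _) (hH y))
  have hDH : ∀ y, |Dn y * ((f y - (1 + c) * α) / 2)| ≤ 1 := fun y => by
    rw [abs_mul, abs_of_nonneg (hDn y).1]
    exact mul_le_one₀ (hDn y).2 (abs_nonneg _) (hH y)
  have β3 : Real.exp (-(m - 2)) ≤ β := (Real.exp_le_exp.2 (by linarith)).trans β1
  obtain ⟨G, u, cen, r, Γ, g1, g2, g3, g4, g5, g6, g7⟩ := hM m R ι κ T τ
    (mal N s g (dSub_of_wcf s3)) a ha cc β (fun y => Dn y * ((f y - (1 + c) * α) / 2))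
    (by linarith) hR2 (by linarith) h.card hκ h.lev s2.wt_le hkap
    (MA.regM_mono hreg (by omega) (by omega) (by linarith)) (by linarith) a1
    (a2.trans (Real.exp_le_exp.2 (by linarith))) β3 β2 hDH
    ((mul_le_mul_of_nonneg_right (Real.exp_le_exp.2 (by linarith)) (Tri.mu_pos _).le).trans hS)
  have eX := Real.exp_pos (-m ^ e)
  have b1 := (abs_le.1 ((hlin (Real.exp (-u)) G r cen
    (fun y => Real.exp (-m ^ e) * (Γ y * ((f y - (1 + c) * α) / 2))) (Real.exp_pos _) g1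
    (g2.trans u0) (by rw [Real.exp_neg, inv_inv]; exact (Real.exp_le_exp.2 g4).trans u0)
    fun y => by
      rw [abs_mul, abs_mul, abs_of_pos eX, abs_of_nonneg (g5 y).1, ← mul_assoc]
      refine mul_le_one₀ ?_ (abs_nonneg _) (hH y)
      rw [Real.exp_neg, inv_mul_le_iff₀ (Real.exp_pos _), mul_one]
      exact (g5 y).2).trans η2)).1
  have G0 : (0 : ℝ) < G := by exact_mod_cast g1
  have wm0 : 0 < wmu (scl T (kk D s) kk_ne) (Real.exp (-u)) G :=
    mul_pos (Tri.mu_pos _) (by positivity)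
  have b2 : Real.exp (-m ^ e) * (β / 4) ≤
      (∑' y, wc (scl T (kk D s) kk_ne) (Real.exp (-u)) cen G r y *
        (Dn y * (Real.exp (-m ^ e) * (Γ y * ((f y - (1 + c) * α) / 2))))) /
        wmu (scl T (kk D s) kk_ne) (Real.exp (-u)) G := by
    rw [le_div_iff₀ wm0, mul_assoc]
    refine (mul_le_mul_of_nonneg_left g6 eX.le).trans_eq ?_
    rw [← tsum_mul_left]
    exact tsum_congr fun y => by ring
  have b3 : Real.exp (-(m ^ e + m + 1)) ≤ Real.exp (-m ^ e) * (β / 8) := by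
    rw [show -(m ^ e + m + 1) = -m ^ e + (-(m - 2) + -3) by ring, Real.exp_add, Real.exp_add]
    refine mul_le_mul_of_nonneg_left ?_ eX.le
    linarith [mul_le_mul β3 exp_small.2 (Real.exp_pos _).le ((Real.exp_pos _).le.trans β3)]
  have b4 : Real.exp (-m ^ e) ≤ β / 4 := by
    refine (Real.exp_le_exp.2 (show _ ≤ -(m - 2) + -2 by linarith)).trans ?_
    rw [Real.exp_add]
    linarith [mul_le_mul β3 exp_small.1 (Real.exp_pos _).le ((Real.exp_pos _).le.trans β3)]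
  have den : 0 < fmu (scl T (kk D s) kk_ne) D σ * (Real.exp (-u) / G) ^ Fintype.card ι *
      (L : ℝ) ^ D := mul_pos (mul_pos (Sg.fmu_pos _ D h.σ_pos) (by positivity)) (by positivity)
  have b5 : Real.exp (-m ^ e) * (β / 8) * (fmu (scl T (kk D s) kk_ne) D σ *
      (Real.exp (-u) / G) ^ Fintype.card ι * (L : ℝ) ^ D) ≤ ∑ t ∈ pos D L, ∑ V ∈ Z, fw T σ V *
        (pcw (scl T (kk D s) kk_ne) (Real.exp (-u)) cen G r (V.pt t) *
          (Real.exp (-m ^ e) * (Γ (V.pt t) * ((f (V.pt t) - (1 + c) * α) / 2)))) := by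
    refine (le_div_iff₀ den).1 (le_trans ?_ (le_sub_iff_add_le.1 b1))
    linarith
  obtain ⟨d, l, c', r', d1, d2, d3, d4, d5, d6⟩ := hI ι (scl T (kk D s) kk_ne) σ (m ^ e) (m ^ E) α
    (Real.exp (-u)) L G cen r Γ f Z (fw T σ) (fun V t => Fm.reb V t) h.lev (by linarith) p2
    (by linarith [h.card]) h.σ_pos h.σ_le ((Real.exp_le_exp.2 (by linarith)).trans h.le_σ)
    ((Real.exp_le_exp.2 (r1.trans p3)).trans h.L_ge)
    (Cell.allPC_mono hPC w2 (Real.exp_le_exp.2 (by linarith))) g1 g2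
    (Real.exp_le_exp.2 (by linarith)) (Real.exp_le_one_iff.2 (by linarith)) g5 hf
    ((Real.exp_le_exp.2 (by linarith)).trans α0) α1
    (fun V t v => by rw [Fm.reb_pt, add_comm]) Fm.reb_injective hw0 hw
    (fun d l c' r' d1 d2 d3 d4 d5 => (g7 d l c' r' d1 d2 d3 d4 d5).1)
    (by
      rw [mul_assoc]
      refine (mul_le_mul_of_nonneg_right b4 den.le).trans (le_of_mul_le_mul_left ?_ (half_pos eX))
      refine le_trans (le_of_eq ?_) (b5.trans_eq ?_)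
      · ring
      rw [mul_sum]
      refine sum_congr rfl fun t _ => Eq.trans ?_ (mul_sum _ _ _).symm
      exact sum_congr rfl fun V _ => mul_aux _ _ _ _ _)
  obtain ⟨ι', _, U, φ, o1, o2, o3, o4, o5, o6⟩ := (g7 d l c' r' d1 d2 d3 d4 d5).2 f _
    (fun y => abs_le.2 ⟨by linarith [(hf y).1], (hf y).2⟩) d6
  have pz : m ^ E ≤ R ^ (C4 + C3 + D1 + Dz + 1) := by linarith
  exact ⟨ι', inferInstance, U, φ, o1, o2.trans (Nat.add_le_add_left s1 _),
    fun l => by linarith [o3 l], ⟨o4.int, o4.deg,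
      fun x Y hY hx => Fr.O26.sep_mono (o4.sep x Y hY hx) (by linarith), by linarith [o4.lm]⟩,
    o5, o6⟩

end Crest.Agent.T49.Ea
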