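import Crest.Agent.T49.FrDef_99
import Crest.Agent.T49.DlDef_27
import Crest.Agent.T49.Gf_84
import Crest.Agent.T49.NilPw_67

/-!
# Row 49 (helper65): the stage of (D), definitions and exact statements

`St T D S j H0 σ L R d dg`: a dense family of natural frames of the cell `T`, each with a window of
degree `≤ j` that correlates with `Φ(gg ·) * H0`, where `gg` is a global weighted polynomial map.
-/

set_option autoImplicit false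

noncomputable section

namespace Crest.Agent.T49.Sg

open Finset MvPolynomial Crest.Agent.T49.Nil Crest.Agent.T49.Nil.ND Crest.Agent.T49.GI
open Crest.Agent.T49.Gl (Frm fq fw fmu fm pos)
open Crest.Agent.T49.Dl (Wd)
open Crest.Agent.T49.Tw (Cell)
open Crest.Agent.T49.Bch (star)

variable {ι : Type}

/-- the position `t0 + q u` -/
def sp {D : ℕ} (t0 : Fin D → ℤ) (q : ℕ) (u : Fin D → ℤ) : Fin D → ℤ := fun v => t0 v + q * u v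

theorem totalDegree_bind_le {σ τ R : Type} [CommRing R] {f : σ → MvPolynomial τ R}
    (hf : ∀ v, (f v).totalDegree ≤ 1) (p : MvPolynomial σ R) :
    (bind₁ f p).totalDegree ≤ p.totalDegree := by
  conv_lhs => rw [p.as_sum, map_sum]
  refine (totalDegree_finsetSum _ _).trans (Finset.sup_le fun m hm => ?_)
  rw [bind₁_monomial]
  refine (totalDegree_mul _ _).trans ?_
  rw [totalDegree_C, zero_add]
  refine (totalDegree_finsetProd _ _).trans (le_trans ?_ (le_totalDegree hm))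
  refine sum_le_sum fun v _ => (totalDegree_pow _ _).trans ?_
  simpa using Nat.mul_le_mul_left (m v) (hf v)

/-- the sub-frame `u ↦ V (t0 + q u)` -/
def sub {D : ℕ} {lev : ι → ℕ} (V : Frm D lev) (t0 : Fin D → ℤ) (q : ℕ) : Frm D lev where
  W c := bind₁ (fun v => C (t0 v) + C (q : ℤ) * X v) (V.W c)
  deg c := by
    refine (totalDegree_bind_le (fun v => ?_) _).trans (V.deg c)
    refine (totalDegree_add _ _).trans (max_le (by rw [totalDegree_C]; exact zero_le_one)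
      ((totalDegree_mul _ _).trans ?_))
    rw [totalDegree_C, zero_add]
    exact (totalDegree_monomial_le _ _).trans (by simp)

/-- a global window -/
structure Gw {κ : Type} [Fintype κ] (N : ND κ) (S : ℕ) (M : ℝ) (Φ : N.L → ℝ) : Prop where
  mem : ∀ x, 0 ≤ Φ x ∧ Φ x ≤ 1
  lip : N.LipFn S M fun x => (Φ x : ℂ)

variable [Fintype ι]

/-- upper bound for the mass of the wider frames -/
def Bulk (T : Cell ι) (D : ℕ) (σ X : ℝ) : Prop :=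
  ∀ Z : Finset (Frm D T.lev), ∑ V ∈ Z, Real.exp (-Real.pi * fq T σ V / 2) ≤ Real.exp X * fmu T D σ

/-- the state of degree `j` -/
def St (T : Cell ι) (D S j : ℕ) (H0 : (ι → ℤ) → ℝ) (σ : ℝ) (L : ℕ) (R : ℝ) (d dg : ℕ) : Prop :=
  ∃ (κ : Type) (_ : Fintype κ) (N : ND κ) (κg : Type) (_ : Fintype κg) (Ng : ND κg)
    (gg : Ng.PS ι) (Φ : Ng.L → ℝ) (Z : Finset (Frm D T.lev)) (F : Frm D T.lev → N.L → ℝ)
    (P : Frm D T.lev → N.PS (Fin D)),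
    Fintype.card κ ≤ d ∧ N.Good S (Real.exp R) ∧ Fintype.card κg ≤ dg ∧ Ng.Good S (Real.exp R) ∧
    gg ∈ Gf.wcf T.lev Ng.F ∧ Gw Ng S (Real.exp R) Φ ∧ Real.exp (-R) * fmu T D σ ≤ fm T σ Z ∧
    ∀ V ∈ Z, Wd N S j (Real.exp R) (F V) ∧ P V ∈ N.poly (Fin D) ∧
      Real.exp (-R) * (L : ℝ) ^ D ≤
        ∑ t ∈ pos D L, F V (N.evZ t (P V)) * (Φ (Ng.evZ (V.pt t) gg) * H0 (V.pt t))

/-- the final state: only the global window is left -/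
def St0 (T : Cell ι) (D S : ℕ) (H0 : (ι → ℤ) → ℝ) (σ : ℝ) (L : ℕ) (R : ℝ) (dg : ℕ) : Prop :=
  ∃ (κg : Type) (_ : Fintype κg) (Ng : ND κg) (gg : Ng.PS ι) (Φ : Ng.L → ℝ)
    (Z : Finset (Frm D T.lev)),
    Fintype.card κg ≤ dg ∧ Ng.Good S (Real.exp R) ∧ gg ∈ Gf.wcf T.lev Ng.F ∧
    Gw Ng S (Real.exp R) Φ ∧ Real.exp (-R) * fmu T D σ ≤ fm T σ Z ∧
    ∀ V ∈ Z, Real.exp (-R) * (L : ℝ) ^ D ≤ ∑ t ∈ pos D L, Φ (Ng.evZ (V.pt t) gg) * H0 (V.pt t)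

/-- `GLUE1` of degree `j` for one cell and one set of parameters -/
def Glue (T : Cell ι) (D S j : ℕ) (σ : ℝ) (L : ℕ) (R R' : ℝ) : Prop :=
  ∀ (κ : Type) [Fintype κ] (N : ND κ) (η : κ → ℤ) (Z : Finset (Frm D T.lev))
    (F : Frm D T.lev → N.L → ℂ) (P : Frm D T.lev → N.PS (Fin D)) (H : (ι → ℤ) → ℝ),
    (Fintype.card κ : ℝ) ≤ R → N.Good S (Real.exp R) → (∀ y, |H y| ≤ 1) →
    Real.exp (-R) * fmu T D σ ≤ fm T σ Z →
    (∀ V ∈ Z, N.NChar S j (Real.exp R) η (F V) ∧ P V ∈ N.poly (Fin D) ∧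
      Real.exp (-R) * (L : ℝ) ^ D ≤ ‖∑ t ∈ pos D L, F V (N.evZ t (P V)) * (H (V.pt t) : ℂ)‖) →
    ∃ (κb : Type) (_ : Fintype κb) (Nb : ND κb) (gb : Nb.PS ι)
      (Hh : ℕ → Submodule ℝ (pd N Nb).L) (Z' : Finset (Frm D T.lev)),
      Fintype.card κb ≤ Fintype.card κ ∧ Nb.Good S (Real.exp R') ∧ gb ∈ Gf.wcf T.lev Nb.F ∧
      (pd N Nb).GrSub Hh ∧ (∀ i, (pd N Nb).RatS (Real.exp R') (Hh i)) ∧
      (∀ x : N.L, pair x 0 ∈ Hh j → N.fn η x = 0) ∧ Z' ⊆ Z ∧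
      Real.exp (-R') * fmu T D σ ≤ fm T σ Z' ∧
      ∀ V ∈ Z', (pd N Nb).Fact S L (Real.exp R') Hh (pair (P V) (Nb.subst V.rl gb))

/-- **JOIN**: relations with several partners are one relation with the product of the partners -/
def JoinStmt : Prop :=
  ∀ S : ℕ, ∃ C : ℕ, ∀ R : ℝ, 2 ≤ R → ∀ (κ J : Type) [Fintype κ] [Fintype J] (κb : J → Type)
    [∀ i, Fintype (κb i)] (N : ND κ) (Nb : ∀ i, ND (κb i))
    (Hh : ∀ i, ℕ → Submodule ℝ (pd N (Nb i)).L), (Fintype.card κ : ℝ) ≤ R →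
    (Fintype.card J : ℝ) ≤ R → (∀ i, (Fintype.card (κb i) : ℝ) ≤ R) → N.Good S (Real.exp R) →
    (∀ i, (Nb i).Good S (Real.exp R)) → (∀ i, (pd N (Nb i)).GrSub (Hh i)) →
    (∀ i n, (pd N (Nb i)).RatS (Real.exp R) (Hh i n)) →
    ∃ H : ℕ → Submodule ℝ (pd N (ND.pi Nb)).L, (pd N (ND.pi Nb)).GrSub H ∧
      (∀ n, (pd N (ND.pi Nb)).RatS (Real.exp (R ^ C)) (H n)) ∧
      (∀ n (x : N.L), pair x 0 ∈ H n → ∀ i, pair x 0 ∈ Hh i n) ∧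
      ∀ (σ : Type) (T : ℝ) (P : N.PS σ) (Pb : ∀ i, (Nb i).PS σ), Real.exp (R ^ C) ≤ T →
        P ∈ N.poly σ → (∀ i, (pd N (Nb i)).Fact S T (Real.exp R) (Hh i) (pair P (Pb i))) →
        (pd N (ND.pi Nb)).Fact S T (Real.exp (R ^ C)) H (pair P (pmk Pb))

/-- **LOCAL**: degree lowering on one frame, in sum form; everything before the last `∀` does not
depend on the frame -/
def LocStmt : Prop :=
  ∀ S D : ℕ, 1 ≤ S → ∃ C : ℕ, ∀ R : ℝ, 2 ≤ R → ∀ (κ κb : Type) [Fintype κ] [Fintype κb]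
    (N : ND κ) (Nb : ND κb) (H : ℕ → Submodule ℝ (pd N Nb).L) (j q L : ℕ),
    (Fintype.card κ + Fintype.card κb : ℝ) ≤ R → N.Good S (Real.exp R) → Nb.Good S (Real.exp R) →
    (pd N Nb).GrSub H → (∀ i, (pd N Nb).RatS (Real.exp R) (H i)) → 1 ≤ q →
    (q : ℝ) ≤ Real.exp R → Real.exp (R ^ C) ≤ L →
    ∃ (Q J r q' L' : ℕ) (χ : Fin J → (Win.scl Nb Q).L → ℝ) (N' : ND (Fin r))
      (T0 : Finset (Fin D → ℤ)),
      1 ≤ Q ∧ (Win.scl Nb Q).Good S (Real.exp (R ^ C)) ∧ (J : ℝ) ≤ Real.exp (R ^ C) ∧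
      (∀ a, Gw (Win.scl Nb Q) S (Real.exp (R ^ C)) (χ a)) ∧
      r ≤ Fintype.card κ + Fintype.card κb ∧ N'.Good S (Real.exp (R ^ C)) ∧ 1 ≤ q' ∧
      (q' : ℝ) ≤ Real.exp (R ^ C) ∧ Real.exp (-R ^ C) * L ≤ L' ∧ q' * L' ≤ L ∧
      (#T0 : ℝ) ≤ Real.exp (R ^ C) ∧ T0 ⊆ pos D L ∧
      ∀ (F : N.L → ℝ) (P : N.PS (Fin D)) (Pb : Nb.PS (Fin D)) (h : (Fin D → ℤ) → ℝ),
        Wd N S (j + 1) (Real.exp R) F →
        (∀ Z, pair Z 0 ∈ H (j + 1) → ∀ y, F (star S Z y) = F y) →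
        (pd N Nb).FactQ S L (Real.exp R) q H (pair P Pb) → (∀ t, |h t| ≤ 1) →
        Real.exp (-R) * (L : ℝ) ^ D ≤ ∑ t ∈ pos D L, F (N.evZ t P) * h t →
        ∃ a : Fin J, ∃ t0 ∈ T0, ∃ (F' : N'.L → ℝ) (P' : N'.PS (Fin D)),
          Wd N' S j (Real.exp (R ^ C)) F' ∧ P' ∈ N'.poly (Fin D) ∧
          Real.exp (-R ^ C) * (L' : ℝ) ^ D ≤ ∑ u ∈ pos D L', F' (N'.evZ u P') *
            (χ a ((Win.scl Nb Q).evZ (sp t0 q' u) (Win.dn Nb Q Pb)) * h (sp t0 q' u))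

open Classical in
/-- **SUBFRAME**: sub-frames of a dense family are a dense family -/
def SubStmt : Prop :=
  ∀ s D : ℕ, ∃ C : ℕ, ∀ R : ℝ, 2 ≤ R → ∀ (ι : Type) [Fintype ι] (T : Cell ι) (σ : ℝ) (L q : ℕ)
    (t0 : Fin D → ℤ) (Z : Finset (Frm D T.lev)), (∀ c, T.lev c ≤ s) →
    (Fintype.card ι : ℝ) ≤ R → 0 < σ → σ * L ≤ 1 → t0 ∈ pos D L → 1 ≤ q →
    (q : ℝ) ≤ Real.exp R → Bulk T D σ R → Real.exp (-R) * fmu T D σ ≤ fm T σ Z →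
    Real.exp (-R ^ C) * fmu T D (q * σ) ≤ fm T (q * σ) (Z.image fun V => sub V t0 q)

/-- **STAGE** -/
def StageStmt : Prop :=
  ∀ s S D C0 : ℕ, 1 ≤ S → ∃ C : ℕ, ∀ R : ℝ, 2 ≤ R → ∀ (ι : Type) [Fintype ι] (T : Cell ι)
    (j : ℕ) (H0 : (ι → ℤ) → ℝ) (σ : ℝ) (L d dg : ℕ), (∀ c, T.lev c ≤ s) →
    (Fintype.card ι : ℝ) ≤ R → (d : ℝ) ≤ R → (∀ y, |H0 y| ≤ 1) → 0 < σ → σ * L ≤ 1 →
    Real.exp (R ^ C) ≤ L → Bulk T D σ R →
    (∀ R1, R ≤ R1 → R1 ≤ R ^ C → Glue T D S (j + 1) σ L R1 (R1 ^ C0)) →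
    St T D S (j + 1) H0 σ L R d dg →
    ∃ q L' : ℕ, 1 ≤ q ∧ (q : ℝ) ≤ Real.exp (R ^ C) ∧ Real.exp (-R ^ C) * L ≤ L' ∧ q * L' ≤ L ∧
      St T D S j H0 (q * σ) L' (R ^ C) (d + d ^ 2) (dg + d ^ 2)

end Crest.Agent.T49.Sg
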