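import Crest.Agent.T49.MalB_64
import Crest.Agent.T49.SgDef_65
import Crest.Agent.T49.RegDef_2
import Crest.Agent.T49.MxCov_53

/-!
# Row 49 (helper64): END, the Malcev step: a global window is replaced by new atoms
-/

set_option autoImplicit false
set_option linter.unusedSectionVars false

noncomputable section

namespace Crest.Agent.T49.Ea

open Finset MvPolynomial
open Crest.Agent.T49.Tw Crest.Agent.T49.Nil Crest.Agent.T49.Mal
open Crest.Agent.T49.Rg (Sg)

variable {ι κ : Type} [Fintype ι] [Fintype κ]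

theorem dSub_of_wcf {N : ND κ} {w : ι → ℕ} {g : N.PS ι} (h : g ∈ Gf.wcf w N.F) :
    g ∈ dSub N w := fun k m hm => by
  by_contra hlt
  exact mem_support_iff.1 hm (h m k (not_le.1 hlt))

/-- pigeonhole over the members of an approximate partition of unity -/
theorem pick {J : Type} [Fintype J] [Nonempty J] (T : Tri ι) (ps : J → (ι → ℤ) → ℝ) (c : J → ℝ)
    (Φ f : (ι → ℤ) → ℝ) {K ε δ : ℝ} (hps : ∀ j y, |ps j y| ≤ K) (hc0 : ∀ j, 0 ≤ c j)
    (hc1 : ∀ j, c j ≤ 1) (hΦ : ∀ y, |Φ y| ≤ 1) (hf : ∀ y, |f y| ≤ 1) (hδ : 0 < δ)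
    (h : ∀ y, |∑ j, ps j y * c j - Fintype.card J * Φ y| ≤ ε * Fintype.card J)
    (hS : δ + ε * T.M ≤ ∑' y, T.wgt y * (Φ y * f y)) :
    ∃ j, δ ≤ ∑' y, T.wgt y * (ps j y * f y) := by
  have hK : 0 ≤ K := (abs_nonneg _).trans (hps (Classical.arbitrary J) 0)
  have hb : ∀ j y, |ps j y * f y| ≤ K := fun j y => by
    rw [abs_mul]
    exact (mul_le_of_le_one_right (abs_nonneg _) (hf y)).trans (hps j y)
  have hb2 : ∀ y, |Φ y * f y| ≤ 1 := fun y => by
    rw [abs_mul]; exact mul_le_one₀ (hΦ y) (abs_nonneg _) (hf y)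
  have hJ : (0 : ℝ) < Fintype.card J := by exact_mod_cast Fintype.card_pos
  have s1 : ∀ j, Summable fun y => T.wgt y * (ps j y * f y) := fun j =>
    T.summable_mul_real (hb j)
  have s2 := T.summable_mul_real hb2
  have e1 : ∑ j, c j * ∑' y, T.wgt y * (ps j y * f y) =
      ∑' y, ∑ j, c j * (T.wgt y * (ps j y * f y)) := by
    rw [Summable.tsum_finsetSum fun j _ => (s1 j).mul_left _]
    exact sum_congr rfl fun j _ => tsum_mul_left.symm
  have s3 : Summable fun y => ∑ j, c j * (T.wgt y * (ps j y * f y)) :=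
    summable_sum fun j _ => (s1 j).mul_left _
  have h1 : Fintype.card J * (∑' y, T.wgt y * (Φ y * f y)) - ε * Fintype.card J * T.M ≤
      ∑ j, c j * ∑' y, T.wgt y * (ps j y * f y) := by
    rw [e1, Tri.M, ← tsum_mul_left, ← tsum_mul_left,
      ← (s2.mul_left _).tsum_sub (T.summable_wgt.mul_left _)]
    refine Summable.tsum_le_tsum (fun y => ?_) ((s2.mul_left _).sub (T.summable_wgt.mul_left _)) s3
    have e2 : ∑ j, c j * (T.wgt y * (ps j y * f y)) = T.wgt y * ((∑ j, ps j y * c j) * f y) := by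
      rw [sum_mul, mul_sum]
      exact sum_congr rfl fun j _ => by ring
    have h2 : |(∑ j, ps j y * c j - Fintype.card J * Φ y) * f y| ≤ ε * Fintype.card J := by
      rw [abs_mul]
      exact (mul_le_of_le_one_right (abs_nonneg _) (hf y)).trans (h y)
    have h3 := mul_le_mul_of_nonneg_left (abs_le.1 h2).1 (T.wgt_nonneg y)
    rw [e2]
    linarith
  by_contra hn
  push Not at hn
  have h4 : ∑ j, c j * ∑' y, T.wgt y * (ps j y * f y) < ∑ _j : J, δ := by
    refine sum_lt_sum_of_nonempty univ_nonempty fun j _ => ?_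
    rcases le_total (∑' y, T.wgt y * (ps j y * f y)) 0 with h0 | h0
    · exact (mul_nonpos_of_nonneg_of_nonpos (hc0 j) h0).trans_lt hδ
    · exact (mul_le_of_le_one_left h0 (hc1 j)).trans_lt (hn j)
  rw [sum_const, card_univ, nsmul_eq_mul] at h4
  nlinarith [mul_le_mul_of_nonneg_left hS hJ.le]

theorem one_add_pow_le {η : ℝ} {d : ℕ} (h0 : 0 ≤ η) (h : η * d ≤ 1) :
    (1 + η) ^ d ≤ 1 + 2 * (η * d) := by
  have h1 : (1 + η) ^ d ≤ Real.exp (η * d) := by
    rw [mul_comm, Real.exp_nat_mul]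
    exact pow_le_pow_left₀ (by linarith) (by linarith [Real.add_one_le_exp η]) _
  have h2 := Real.abs_exp_sub_one_le (x := η * d) (by rw [abs_of_nonneg (by positivity)]; exact h)
  rw [abs_of_nonneg (show 0 ≤ η * d by positivity)] at h2
  linarith [(abs_le.1 h2).2]

/-- **MALCEV**: a correlation with a global window gives a correlation on a cell with new atoms -/
theorem mal_pick (S : ℕ) : ∃ C : ℕ, ∀ X : ℝ, 2 ≤ X → ∀ (ι κ : Type) [Fintype ι] [Fintype κ]
    (T : Cell ι) (N : ND κ) (g : N.PS ι) (hg : g ∈ dSub N T.lev) (Φ : N.L → ℝ)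
    (f : (ι → ℤ) → ℝ), (Fintype.card κ : ℝ) ≤ X → N.Good S (Real.exp X) →
    Sg.Gw N S (Real.exp X) Φ → (∀ y, |f y| ≤ 1) → T.M ≤ 2 * T.mu →
    Real.exp (-X) * T.mu ≤ ∑' y, T.wgt y * (Φ (N.evZ y g) * f y) →
    ∃ (a : ℝ) (ha : a ≠ 0) (c : κ → ℝ), 1 ≤ a ∧ a ≤ Real.exp (X ^ C) ∧
      Real.exp (-X) / 2 * (Ext.cell T (mal N S g hg) (fun _ => a) (fun _ => ha) c).mu ≤
        Sg (Ext.cell T (mal N S g hg) (fun _ => a) (fun _ => ha) c).toTri
          fun z => f (z ∘ Sum.inl) := by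
  classical
  have hcb : 0 < Bch.cb S := by linarith [Bch.two_le_cb S]
  obtain ⟨C, hC⟩ : ∃ C : ℕ, ∀ X : ℝ, 2 ≤ X → (X + 3) / (Real.exp (-X) / 64 /
      (Real.exp X * (Bch.cb S * (2 + X ^ 2 * Real.exp X) ^ (2 * S)))) ≤ Real.exp (X ^ C) := by
    generalize Bch.cb S = b at hcb
    qp
  refine ⟨C, fun X hX ι κ _ _ T N g hg Φ f hκ hN hΦ hf hM hS => ?_⟩
  set d := Fintype.card κ with hd
  set K : ℝ := 2 + X ^ 2 * Real.exp X with hK
  have hK2 : 2 ≤ K := le_add_of_nonneg_right (by positivity)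
  have heX : 1 ≤ Real.exp X := Real.one_le_exp (by linarith)
  have hδ0 : 0 < Real.exp (-X) := Real.exp_pos _
  have hδ1 : Real.exp (-X) ≤ 1 := Real.exp_le_one_iff.2 (by linarith)
  set P : ℝ := Real.exp X * (Bch.cb S * K ^ (2 * S)) with hP
  have hP1 : 1 ≤ P := one_le_mul_of_one_le_of_one_le heX (one_le_mul_of_one_le_of_one_le
    (by linarith [Bch.two_le_cb S]) (one_le_pow₀ (by linarith)))
  set r : ℝ := Real.exp (-X) / 64 / P with hr
  have hr0 : 0 < r := by positivity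
  have hr1 : r ≤ 1 := (div_le_one (by linarith)).2 (by linarith)
  set a : ℝ := (X + 3) / r with ha
  have ha1 : 1 ≤ a := (one_le_div hr0).2 (by linarith)
  have ha0 : a ≠ 0 := by positivity
  set η : ℝ := Real.exp (-X) / 64 / (d + 1) with hη
  have hη0 : 0 < η := by positivity
  have hηd : η * d ≤ Real.exp (-X) / 64 := by
    rw [hη, div_mul_eq_mul_div, div_le_iff₀ (by positivity)]
    nlinarith
  have hη1 : η ≤ 1 := (div_le_one (by positivity)).2 (by
    have : (0 : ℝ) ≤ d := Nat.cast_nonneg _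
    linarith)
  set Q : ℕ := ⌈|a| * √(2 + Real.log η⁻¹)⌉₊ + 1 with hQ
  have : NeZero Q := ⟨Nat.succ_ne_zero _⟩
  have hQa : |a| * √(2 + Real.log η⁻¹) ≤ Q := by
    rw [hQ]; push_cast
    linarith [Nat.le_ceil (|a| * √(2 + Real.log η⁻¹))]
  set E := mal N S g hg with hE
  have hcard : (Fintype.card (κ → Fin Q) : ℝ) = (Q : ℝ) ^ d := by simp [hd]
  have hQd : (0 : ℝ) < (Q : ℝ) ^ d := pow_pos (by exact_mod_cast Nat.succ_pos _) _
  have hup : (1 + η) ^ d ≤ 1 + Real.exp (-X) / 32 := by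
    linarith [one_add_pow_le (d := d) hη0.le (by linarith)]
  have hlo : 1 - Real.exp (-X) / 64 ≤ (1 - η) ^ d := by
    have := one_add_mul_le_pow (a := -η) (by linarith) d
    rw [← sub_eq_add_neg] at this
    linarith
  have htail : 2 * (2 ^ d * Real.exp (-2 * (X + 3) ^ 2)) ≤ Real.exp (-X) / 64 := by
    have h1 : (2 : ℝ) ^ d ≤ Real.exp X := by
      refine le_trans ?_ (Real.exp_le_exp.2 hκ)
      rw [← mul_one (d : ℝ), Real.exp_nat_mul]
      exact pow_le_pow_left₀ (by norm_num) (by linarith [Real.add_one_le_exp (1 : ℝ)]) _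
    have h2 : Real.exp X * Real.exp (-2 * (X + 3) ^ 2) * Real.exp 7 ≤ Real.exp (-X) := by
      rw [← Real.exp_add, ← Real.exp_add]
      exact Real.exp_le_exp.2 (by nlinarith)
    have h3 : (128 : ℝ) ≤ Real.exp 7 := by
      have h4 : (2 : ℝ) ^ 7 ≤ Real.exp 1 ^ 7 :=
        pow_le_pow_left₀ (by norm_num) (by linarith [Real.add_one_le_exp (1 : ℝ)]) _
      rw [← Real.exp_nat_mul] at h4
      norm_num at h4 ⊢
      exact h4
    have h5 := mul_le_mul_of_nonneg_right h1 (Real.exp_pos (-2 * (X + 3) ^ 2)).le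
    have h6 := mul_le_mul_of_nonneg_left h3
      (mul_pos (Real.exp_pos X) (Real.exp_pos (-2 * (X + 3) ^ 2))).le
    linarith
  obtain ⟨j, hj⟩ := pick T.toTri (fun j : κ → Fin Q => E.ps (fun _ => a) (ctr Q j))
    (fun j => Φ (ctr Q j)) (fun y => Φ (N.evZ y g)) f (K := ∏ _k : κ, 2 * (1 + |a|))
    (ε := Real.exp (-X) / 8) (δ := Real.exp (-X) / 2 * T.mu)
    (fun j y => by
      rw [abs_of_nonneg (E.ps_nonneg _ _ _)]
      exact E.ps_le (fun _ => ha0) _ _)
    (fun j => (hΦ.mem _).1) (fun j => (hΦ.mem _).2)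
    (fun y => abs_le.2 ⟨by linarith [(hΦ.mem (N.evZ y g)).1], (hΦ.mem _).2⟩) hf
    (mul_pos (by positivity) T.mu_pos) (fun y => by
      have h1 := mal_apx hN (Real.exp_pos X).le hΦ.lip (Real.exp_pos X).le (K := K)
        ((mul_le_mul_of_nonneg_right (pow_le_pow_left₀ (Nat.cast_nonneg _) hκ 2)
          (Real.exp_pos X).le).trans (by linarith)) hK2 g hg (a := fun _ => a) (fun _ => ha0) Q
        hη0 hη1 (fun _ => hQa) (R := X + 3) (r := r) (by linarith) hr0.le hr1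
        (fun _ => by rw [abs_of_pos (by linarith), ha, div_mul_cancel₀ _ hr0.ne']) y
      have h2 := E.sum_ps (a := fun _ => a) (fun _ => ha0) Q hη0 hη1 (fun _ => hQa) y
      have h3 : Real.exp X * (Bch.cb S * K ^ (2 * S) * r) = Real.exp (-X) / 64 := by
        rw [← mul_assoc, ← mul_assoc, mul_assoc (Real.exp X), ← hP, hr]
        field_simp
      rw [h3, ← hd, ← hE] at h1
      rw [← hd] at h2
      have h4 : |∑ j : κ → Fin Q, E.ps (fun _ => a) (ctr Q j) y *
          (Φ (ctr Q j) - Φ (N.evZ y g))| ≤ ∑ j : κ → Fin Q, E.ps (fun _ => a) (ctr Q j) y *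
            ‖(Φ (N.evZ y g) : ℂ) - Φ (ctr Q j)‖ := by
        refine (abs_sum_le_sum_abs _ _).trans (sum_le_sum fun j _ => ?_)
        rw [abs_mul, abs_of_nonneg (E.ps_nonneg _ _ _), ← Complex.ofReal_sub, Complex.norm_real,
          Real.norm_eq_abs, abs_sub_comm]
      have h5 : ∑ j : κ → Fin Q, E.ps (fun _ => a) (ctr Q j) y * Φ (ctr Q j) -
          (Q : ℝ) ^ d * Φ (N.evZ y g) = ∑ j : κ → Fin Q, E.ps (fun _ => a) (ctr Q j) y *
          (Φ (ctr Q j) - Φ (N.evZ y g)) + (∑ j : κ → Fin Q, E.ps (fun _ => a) (ctr Q j) y -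
            (Q : ℝ) ^ d) * Φ (N.evZ y g) := by
        simp only [mul_sub, sum_sub_distrib, ← sum_mul]
        ring
      have h6 : |(∑ j : κ → Fin Q, E.ps (fun _ => a) (ctr Q j) y - (Q : ℝ) ^ d) *
          Φ (N.evZ y g)| ≤ Real.exp (-X) / 32 * (Q : ℝ) ^ d := by
        rw [abs_mul, abs_of_nonneg (hΦ.mem _).1]
        refine (mul_le_of_le_one_right (abs_nonneg _) (hΦ.mem _).2).trans (abs_le.2 ⟨?_, ?_⟩)
        · nlinarith [mul_le_mul_of_nonneg_right hlo hQd.le, h2.1]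
        · nlinarith [mul_le_mul_of_nonneg_right hup hQd.le, h2.2]
      have h7 : (Real.exp (-X) / 64 + 2 * (2 ^ d * Real.exp (-2 * (X + 3) ^ 2))) *
          ((1 + η) ^ d * (Q : ℝ) ^ d) ≤ Real.exp (-X) / 32 * (2 * (Q : ℝ) ^ d) :=
        mul_le_mul (by linarith) (mul_le_mul_of_nonneg_right (by linarith) hQd.le)
          (by positivity) (by positivity)
      rw [hcard, h5]
      refine (abs_add_le _ _).trans ?_
      nlinarith [mul_pos hδ0 hQd])
    (by nlinarith [mul_le_mul_of_nonneg_left hM hδ0.le, mul_pos hδ0 T.mu_pos])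
  refine ⟨a, ha0, ctr Q j, ha1, hC X hX, ?_⟩
  have h1 := Ext.cell_tsum_real T E (fun _ => a) (fun _ => ha0) (ctr Q j) hf
  have h0 : 0 < ∏ _k : κ, |a| := prod_pos fun _ _ => abs_pos.2 ha0
  rw [Ext.cell_mu, prod_inv_distrib, Sg, ← mul_assoc, ← div_eq_mul_inv, div_le_iff₀ h0, mul_comm _
    (∏ _k : κ, |a|), h1]
  exact hj

end Crest.Agent.T49.Ea
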