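import Crest.Agent.T49.SgDef_65
import Crest.Agent.T49.ZoAff_89
import Crest.Agent.T49.Qp_85

/-!
# Row 49 (helper65): sub-frames of a dense family of frames are a dense family
-/

set_option autoImplicit false

noncomputable section

namespace Crest.Agent.T49.Sg

open Finset MvPolynomial
open Crest.Agent.T49.Gl (Frm fq fw fmu fm pos q2 mi mem_mi)
open Crest.Agent.T49.Tw (Cell Pl DegLe)
open Crest.Agent.T49.Zo (nw nm)

variable {ι : Type} {D : ℕ} {lev : ι → ℕ}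

/-- the real affine substitution `u ↦ t0 + q u` -/
def af (t0 : Fin D → ℤ) (q : ℕ) : Fin D → Pl (Fin D) := fun v => C (t0 v : ℝ) + C (q : ℝ) * X v

theorem frm_ext {V V' : Frm D lev} (h : V.W = V'.W) : V = V' := by
  cases V; cases V'; simpa using h

theorem sub_pt (V : Frm D lev) (t0 : Fin D → ℤ) (q : ℕ) (u : Fin D → ℤ) :
    (sub V t0 q).pt u = V.pt (sp t0 q u) := by
  funext c
  change eval u (bind₁ _ (V.W c)) = eval (sp t0 q u) (V.W c)
  rw [← coe_aeval_eq_eval, ← coe_aeval_eq_eval]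
  change aeval u (bind₁ _ (V.W c)) = aeval (sp t0 q u) (V.W c)
  rw [aeval_bind₁]
  congr 2
  funext v
  simp [sp]

theorem sub_rl (V : Frm D lev) (t0 : Fin D → ℤ) (q : ℕ) (c : ι) :
    (sub V t0 q).rl c = bind₁ (af t0 q) (V.rl c) := by
  change map _ (bind₁ _ (V.W c)) = bind₁ _ (map _ (V.W c))
  rw [map_bind₁]
  congr 2
  funext v
  simp [af]

theorem bind_af_injective (t0 : Fin D → ℤ) {q : ℕ} (hq : 1 ≤ q) :
    Function.Injective (bind₁ (af t0 q) : Pl (Fin D) → Pl (Fin D)) := by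
  have hq0 : (q : ℝ) ≠ 0 := by positivity
  refine Function.LeftInverse.injective
    (g := bind₁ fun v => C (q : ℝ)⁻¹ * (X v - C (t0 v : ℝ))) fun p => ?_
  rw [bind₁_bind₁]
  have : (fun v => bind₁ (fun v => C (q : ℝ)⁻¹ * (X v - C (t0 v : ℝ))) (af t0 q v)) =
      (X : Fin D → Pl (Fin D)) := by
    funext v
    simp only [af, map_add, map_mul, bind₁_C_right, bind₁_X_right]
    rw [← mul_assoc, ← C_mul, mul_inv_cancel₀ hq0, C_1]
    ring
  rw [this, bind₁_X_left]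
  rfl

theorem sub_injective (t0 : Fin D → ℤ) {q : ℕ} (hq : 1 ≤ q) :
    Function.Injective fun V : Frm D lev => sub V t0 q := fun V V' h => by
  refine frm_ext (funext fun c => map_injective (Int.castRingHom ℝ) Int.cast_injective ?_)
  have h1 : (sub V t0 q).rl c = (sub V' t0 q).rl c := by rw [show sub V t0 q = sub V' t0 q from h]
  rw [sub_rl, sub_rl] at h1
  exact bind_af_injective t0 hq h1

theorem rl_degLe (V : Frm D lev) (c : ι) : DegLe (fun _ => 1) (V.rl c) (lev c) := fun m hm => by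
  rw [← Finsupp.degree_eq_weight_one]
  exact (le_totalDegree (support_map_subset _ _ hm)).trans (V.deg c)

theorem rl_eval (V : Frm D lev) (t : Fin D → ℤ) (c : ι) :
    aeval (fun v => (t v : ℝ)) (V.rl c) = (V.pt t c : ℝ) := by
  change aeval _ (map (Int.castRingHom ℝ) (V.W c)) = (Int.castRingHom ℝ) (eval t (V.W c))
  rw [aeval_def, eval₂_map, eval, eval₂Hom, RingHom.coe_mk]
  exact (eval₂_comp_left (Int.castRingHom ℝ) (RingHom.id ℤ) t (V.W c)).symm

theorem q2_nonneg (σ : ℝ) (p : Pl (Fin D)) : 0 ≤ q2 σ p := sum_nonneg fun _ _ => sq_nonneg _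

theorem q2_le_nw {σ : ℝ} (hσ : 0 < σ) (p : Pl (Fin D)) : q2 σ p ≤ nw σ⁻¹ p ^ 2 := by
  refine le_trans (le_of_eq (sum_congr rfl fun α _ => ?_))
    (sum_sq_le_sq_sum_of_nonneg fun α _ => by positivity)
  rw [mul_pow, sq_abs, div_eq_mul_inv, mul_pow, inv_pow σ]

theorem nw_sq_le {σ : ℝ} {s : ℕ} {p : Pl (Fin D)} (hp : DegLe (fun _ => 1) p s) :
    nw σ⁻¹ p ^ 2 ≤ nm D s * q2 σ p := by
  refine sq_sum_le_card_mul_sum_sq.trans (mul_le_mul ?_ (le_of_eq (sum_congr rfl fun α _ => ?_))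
    (sum_nonneg fun _ _ => sq_nonneg _) (Nat.cast_nonneg _))
  · exact_mod_cast Zo.card_le_nm (by simp) _ fun β hβ => by
      rw [Finsupp.degree_eq_weight_one]; exact hp β hβ
  · rw [mul_pow, sq_abs, div_eq_mul_inv, mul_pow, inv_pow]

theorem nw_bind_le {T T' K : ℝ} (hT : 0 ≤ T) (hT' : 0 ≤ T') (hK : 1 ≤ K)
    {f : Fin D → Pl (Fin D)} (hf : ∀ v, nw T' (f v) ≤ K * T) {s : ℕ} {p : Pl (Fin D)}
    (hp : DegLe (fun _ => 1) p s) : nw T' (bind₁ f p) ≤ K ^ s * nw T p := by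
  conv_lhs => rw [p.as_sum, map_sum]
  refine (Zo.nw_sum_le hT' _ _).trans ?_
  rw [nw, mul_sum]
  refine sum_le_sum fun β hβ => ?_
  have h1 : bind₁ f (monomial β (coeff β p)) = C (coeff β p) * Zo.fp f β := by
    rw [Zo.fp, ← mul_one (coeff β p), ← C_mul_monomial, map_mul, bind₁_C_right, mul_one]
    rfl
  have h2 : β.degree ≤ s := by rw [Finsupp.degree_eq_weight_one]; exact hp β hβ
  rw [h1]
  refine (Zo.nw_mul_le hT' _ _).trans ?_
  rw [Zo.nw_C]
  calc _ ≤ |coeff β p| * (K * T) ^ β.degree :=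
        mul_le_mul_of_nonneg_left (Zo.nw_fp_le hT' (by positivity) hf β) (abs_nonneg _)
    _ = K ^ β.degree * (|coeff β p| * T ^ β.degree) := by rw [mul_pow]; ring
    _ ≤ _ := by gcongr

theorem q2_af_le {σ : ℝ} (hσ : 0 < σ) {t0 : Fin D → ℤ} (ht : ∀ v, σ * |(t0 v : ℝ)| ≤ 1) {q : ℕ}
    (hq : 1 ≤ q) {s : ℕ} {p : Pl (Fin D)} (hp : DegLe (fun _ => 1) p s) :
    q2 (q * σ) (bind₁ (af t0 q) p) ≤ (4 ^ s * nm D s) * q2 σ p := by
  have hq0 : (0 : ℝ) < q := by positivity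
  have h1 : ∀ v, nw (q * σ)⁻¹ (af t0 q v) ≤ 2 * σ⁻¹ := fun v => by
    refine (Zo.nw_add_le (by positivity) _ _).trans ?_
    rw [Zo.nw_C, Zo.nw_C_mul_X, abs_of_pos hq0, mul_inv, ← mul_assoc, mul_inv_cancel₀ hq0.ne',
      one_mul]
    have : |(t0 v : ℝ)| ≤ σ⁻¹ := by
      rw [← one_div, le_div_iff₀ hσ, mul_comm]; exact ht v
    linarith
  have h2 := nw_bind_le (by positivity) (by positivity) one_le_two h1 hp
  calc _ ≤ _ := q2_le_nw (by positivity) _
    _ ≤ (2 ^ s * nw σ⁻¹ p) ^ 2 := pow_le_pow_left₀ (Zo.nw_nonneg (by positivity) _) h2 2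
    _ = 4 ^ s * nw σ⁻¹ p ^ 2 := by
        rw [mul_pow, ← pow_mul, mul_comm s, pow_mul]; norm_num
    _ ≤ 4 ^ s * (nm D s * q2 σ p) := mul_le_mul_of_nonneg_left (nw_sq_le hp) (by positivity)
    _ = _ := by ring

variable [Fintype ι]

theorem fq_nonneg (T : Cell ι) (σ : ℝ) (V : Frm D T.lev) : 0 ≤ fq T σ V :=
  sum_nonneg fun _ _ => q2_nonneg _ _

theorem fw_pos (T : Cell ι) (σ : ℝ) (V : Frm D T.lev) : 0 < fw T σ V := Real.exp_pos _

theorem fw_le_one (T : Cell ι) (σ : ℝ) (V : Frm D T.lev) : fw T σ V ≤ 1 :=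
  Real.exp_le_one_iff.2 (by nlinarith [Real.pi_pos, fq_nonneg T σ V])

theorem fmu_pos (T : Cell ι) (D : ℕ) {σ : ℝ} (hσ : 0 < σ) : 0 < fmu T D σ :=
  prod_pos fun c _ => prod_pos fun _ _ =>
    mul_pos (pow_pos hσ _) (inv_pos.2 (abs_pos.2 (T.a_ne c)))

theorem Bulk.fm_le {T : Cell ι} {σ X : ℝ} (h : Bulk T D σ X) (Z : Finset (Frm D T.lev)) :
    fm T σ Z ≤ Real.exp X * fmu T D σ :=
  le_trans (sum_le_sum fun V _ => Real.exp_le_exp.2
    (by nlinarith [Real.pi_pos, fq_nonneg T σ V])) (h Z)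

theorem Bulk.mono {T : Cell ι} {σ X X' : ℝ} (h : Bulk T D σ X) (hσ : 0 < σ) (hX : X ≤ X') :
    Bulk T D σ X' := fun Z =>
  (h Z).trans (mul_le_mul_of_nonneg_right (Real.exp_le_exp.2 hX) (fmu_pos T D hσ).le)

theorem fq_sub_le (T : Cell ι) {s : ℕ} (hs : ∀ c, T.lev c ≤ s) {σ : ℝ} (hσ : 0 < σ)
    {t0 : Fin D → ℤ} (ht : ∀ v, σ * |(t0 v : ℝ)| ≤ 1) {q : ℕ} (hq : 1 ≤ q) (V : Frm D T.lev) :
    fq T (q * σ) (sub V t0 q) ≤ (4 ^ s * nm D s) * fq T σ V := by
  rw [fq, fq, mul_sum]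
  refine sum_le_sum fun c _ => ?_
  have h1 : bind₁ (sub V t0 q).rl (T.th c) = bind₁ (af t0 q) (bind₁ V.rl (T.th c)) := by
    rw [bind₁_bind₁]
    congr 2
    exact funext (sub_rl V t0 q)
  rw [h1]
  exact q2_af_le hσ ht hq ((DegLe.bind (rl_degLe V) (T.th_degLe c)).mono (hs c))

theorem fmu_mul_le (T : Cell ι) (D : ℕ) {s : ℕ} (hs : ∀ c, T.lev c ≤ s) {σ r : ℝ} (hσ : 0 < σ)
    (hr : 1 ≤ r) : fmu T D (r * σ) ≤ r ^ (s * nm D s * Fintype.card ι) * fmu T D σ := by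
  rw [fmu, fmu, pow_mul, ← card_univ, ← prod_const, ← prod_mul_distrib]
  have h0 : ∀ c, 0 ≤ |T.a c|⁻¹ := fun c => by positivity
  refine prod_le_prod (fun c _ => prod_nonneg fun α _ => mul_nonneg (by positivity) (h0 c))
    fun c _ => ?_
  have h1 : #(mi D (T.lev c)) ≤ nm D s :=
    Zo.card_le_nm (by simp) _ fun β hβ => (mem_mi.1 hβ).trans (hs c)
  calc _ ≤ ∏ α ∈ mi D (T.lev c), r ^ s * (σ ^ α.degree * |T.a c|⁻¹) := by
        refine prod_le_prod (fun α _ => mul_nonneg (by positivity) (h0 c)) fun α hα => ?_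
        rw [mul_pow, mul_assoc]
        exact mul_le_mul_of_nonneg_right (pow_le_pow_right₀ hr ((mem_mi.1 hα).trans (hs c)))
          (mul_nonneg (by positivity) (h0 c))
    _ ≤ _ := by
        rw [prod_mul_distrib, prod_const, ← pow_mul]
        exact mul_le_mul_of_nonneg_right (pow_le_pow_right₀ hr (Nat.mul_le_mul_left _ h1))
          (prod_nonneg fun α _ => mul_nonneg (by positivity) (h0 c))

open Classical in
/-- the bulk of a dense family -/
theorem Bulk.trunc {T : Cell ι} {σ R : ℝ} (h : Bulk T D σ R) (hσ : 0 < σ) (hR : 0 ≤ R)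
    {Z : Finset (Frm D T.lev)} (hZ : Real.exp (-R) * fmu T D σ ≤ fm T σ Z) :
    Real.exp (-(R + 1)) * fmu T D σ ≤ fm T σ (Z.filter fun V => fq T σ V ≤ 2 * R + 1) := by
  have hμ := fmu_pos T D hσ
  have h1 := sum_filter_add_sum_filter_not Z (fun V => fq T σ V ≤ 2 * R + 1) (fw T σ)
  have h2 : ∑ V ∈ Z.filter (fun V => ¬ fq T σ V ≤ 2 * R + 1), fw T σ V ≤
      Real.exp (-(2 * R + 1)) * (Real.exp R * fmu T D σ) := by
    refine le_trans ?_ (mul_le_mul_of_nonneg_left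
      (h (Z.filter fun V => ¬ fq T σ V ≤ 2 * R + 1)) (Real.exp_pos _).le)
    rw [mul_sum]
    refine sum_le_sum fun V hV => ?_
    rw [← Real.exp_add]
    refine Real.exp_le_exp.2 ?_
    have h3 := not_le.1 (mem_filter.1 hV).2
    nlinarith [Real.pi_gt_three]
  rw [← mul_assoc, ← Real.exp_add, show -(2 * R + 1) + R = -(R + 1) by ring] at h2
  have h3 : 2 * Real.exp (-(R + 1)) ≤ Real.exp (-R) := by
    have e2 : (2 : ℝ) ≤ Real.exp 1 := by linarith [Real.add_one_le_exp (1 : ℝ)]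
    calc _ ≤ Real.exp 1 * Real.exp (-(R + 1)) := by gcongr
      _ = _ := by rw [← Real.exp_add]; congr 1; ring
  have h4 := mul_le_mul_of_nonneg_right h3 hμ.le
  unfold fm at hZ ⊢
  linarith

theorem abs_le_of_mem_pos {L : ℕ} {t : Fin D → ℤ} (ht : t ∈ pos D L) (v : Fin D) :
    |(t v : ℝ)| ≤ L := by
  obtain ⟨h1, h2⟩ := mem_Ico.1 (Fintype.mem_piFinset.1 ht v)
  rw [abs_of_nonneg (by exact_mod_cast h1)]
  exact_mod_cast h2.le

theorem subStmt : SubStmt := by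
  classical
  intro s D
  obtain ⟨C, hC⟩ : ∃ C : ℕ, ∀ R : ℝ, 2 ≤ R →
      R * ((s * nm D s : ℕ) * R) + 4 * ((4 ^ s * nm D s) * (2 * R + 1)) + (R + 1) ≤ R ^ C := by qp
  refine ⟨C, fun R hR ι _ T σ L q t0 Z hs hι hσ hL ht hq hqR hB hZ => ?_⟩
  have hμ := fmu_pos T D hσ
  have ht' : ∀ v, σ * |(t0 v : ℝ)| ≤ 1 := fun v =>
    (mul_le_mul_of_nonneg_left (abs_le_of_mem_pos ht v) hσ.le).trans hL
  have h1 := hB.trunc hσ (by linarith) hZ
  set K : ℝ := 4 ^ s * nm D s with hK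
  have hK0 : 0 ≤ K := by positivity
  have h2 : Real.exp (-(4 * (K * (2 * R + 1)))) *
      fm T σ (Z.filter fun V => fq T σ V ≤ 2 * R + 1) ≤
      fm T (q * σ) (Z.image fun V => sub V t0 q) := by
    rw [fm, fm, sum_image fun V _ V' _ h => sub_injective t0 hq h, mul_sum]
    refine le_trans (sum_le_sum fun V hV => ?_)
      (sum_le_sum_of_subset_of_nonneg (filter_subset _ _) fun V _ _ => (fw_pos _ _ _).le)
    refine (mul_le_of_le_one_right (Real.exp_pos _).le (fw_le_one T σ V)).trans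
      (Real.exp_le_exp.2 ?_)
    have h3 := (fq_sub_le T hs hσ ht' hq V).trans
      (mul_le_mul_of_nonneg_left (mem_filter.1 hV).2 hK0)
    have h4 := fq_nonneg T (q * σ) (sub V t0 q)
    nlinarith [Real.pi_le_four]
  have h3 : fmu T D (q * σ) ≤ Real.exp (R * ((s * nm D s : ℕ) * R)) * fmu T D σ := by
    refine (fmu_mul_le T D hs hσ (by exact_mod_cast hq)).trans
      (mul_le_mul_of_nonneg_right ?_ hμ.le)
    refine (pow_le_pow_left₀ (by positivity) hqR _).trans ?_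
    rw [← Real.exp_nat_mul, mul_comm]
    refine Real.exp_le_exp.2 (mul_le_mul_of_nonneg_left ?_ (by linarith))
    rw [Nat.cast_mul]
    exact mul_le_mul_of_nonneg_left hι (Nat.cast_nonneg _)
  refine le_trans ?_ (le_trans (mul_le_mul_of_nonneg_left h1 (Real.exp_pos _).le) h2)
  refine (mul_le_mul_of_nonneg_left h3 (Real.exp_pos _).le).trans ?_
  rw [← mul_assoc (Real.exp _), ← mul_assoc (Real.exp _), ← Real.exp_add, ← Real.exp_add]
  refine mul_le_mul_of_nonneg_right (Real.exp_le_exp.2 ?_) hμ.le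
  linarith [hC R hR]

end Crest.Agent.T49.Sg
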