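import Crest.Agent.T49.EaLin_64
import Crest.Agent.T49.EaMal_64
import Crest.Agent.T49.FmReb_17
import Crest.Agent.T49.RegA_2
import Crest.Agent.T49.SgSub_65

/-!
# Row 49 (helper65): END, from the final state to a signal on the extended wide cell
-/

set_option autoImplicit false

noncomputable section

namespace Crest.Agent.T49.Ea

open Finset
open Crest.Agent.T49.Tw Crest.Agent.T49.Gl Crest.Agent.T49.Samp Crest.Agent.T49.Nil
open Crest.Agent.T49.Mal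
open Crest.Agent.T49.End (pcw)

/-- the widening factor -/
def kk (D s : ℕ) : ℝ := (2 * (1 + Fm.rc D s))⁻¹

theorem kk_pos {D s : ℕ} : 0 < kk D s := inv_pos.2 (by linarith [Fm.one_le_rc D s])

theorem kk_ne {D s : ℕ} : kk D s ≠ 0 := kk_pos.ne'

theorem kk_le_one {D s : ℕ} : kk D s ≤ 1 := inv_le_one_of_one_le₀ (by linarith [Fm.one_le_rc D s])

theorem kk_mul {D s : ℕ} : |(2 : ℝ)| * ((1 + Fm.rc D s) * |kk D s|) ≤ 1 := by
  rw [abs_of_pos kk_pos, abs_two, ← mul_assoc, kk,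
    mul_inv_cancel₀ (by linarith [Fm.one_le_rc D s])]

variable {ι : Type} [Fintype ι]

theorem pcw_one (T : Cell ι) (y : ι → ℤ) : pcw T 1 0 1 0 y = 1 := by
  simp [pcw, cls, Cong]

theorem wc_one (T : Cell ι) (y : ι → ℤ) : wc T 1 0 1 0 y = T.wgt y := by
  rw [← wgt_mul_pcw, pcw_one, mul_one]

theorem wmu_one (T : Cell ι) : wmu T 1 1 = T.mu := by simp [wmu]

/-- the mass of an extended cell -/
theorem ext_M_le {κ : Type} [Fintype κ] (T : Cell ι) (E : Ext T.lev κ) {a : ℝ} (ha : a ≠ 0)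
    (c : κ → ℝ) (hM : T.M ≤ 2 * T.mu) : (Ext.cell T E (fun _ => a) (fun _ => ha) c).M ≤
      2 * (2 * (1 + |a|)) ^ Fintype.card κ * (Ext.cell T E (fun _ => a) (fun _ => ha) c).mu := by
  rw [← div_le_iff₀ (Tri.mu_pos _), Ext.cell_M_div_mu, div_le_iff₀ T.toTri.mu_pos]
  have h1 : ∀ z, E.ps (fun _ => a) c z ≤ (2 * (1 + |a|)) ^ Fintype.card κ := fun z => by
    simpa using E.ps_le (fun _ => ha) c z
  have h2 : ∑' z, T.wgt z * E.ps (fun _ => a) c z ≤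
      ∑' z, T.wgt z * (2 * (1 + |a|)) ^ Fintype.card κ :=
    (T.toTri.summable_mul_real fun z => (abs_of_nonneg (E.ps_nonneg _ _ z)).trans_le
      (h1 z)).tsum_le_tsum (fun z => mul_le_mul_of_nonneg_left (h1 z) (T.toTri.wgt_nonneg z))
      (T.toTri.summable_wgt.mul_right _)
  rw [tsum_mul_right] at h2
  refine h2.trans ((mul_le_mul_of_nonneg_right hM (by positivity)).trans_eq (by ring))

theorem exp_small : Real.exp (-2) ≤ 1 / 4 ∧ Real.exp (-3) ≤ 1 / 8 := by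
  have f4 : Real.exp (-1) ≤ 1 / 2 := by
    rw [Real.exp_neg, one_div]
    exact inv_anti₀ (by norm_num) (by linarith [Real.add_one_le_exp (1 : ℝ)])
  have f5 : Real.exp (-2) ≤ 1 / 4 := by
    rw [show (-2 : ℝ) = -1 + -1 by norm_num, Real.exp_add]
    nlinarith [Real.exp_pos (-1)]
  refine ⟨f5, ?_⟩
  rw [show (-3 : ℝ) = -2 + -1 by norm_num, Real.exp_add]
  nlinarith [Real.exp_pos (-1), Real.exp_pos (-2)]

/-- **IN** -/
theorem sig_in (s D : ℕ) : ∃ C : ℕ, ∀ R : ℝ, 2 ≤ R → ∀ (ι κ : Type) [Fintype ι] [Fintype κ]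
    (T : Cell ι) (σ ε : ℝ) (L : ℕ) (N : ND κ) (g : N.PS ι) (hg : g ∈ dSub N T.lev) (Φ : N.L → ℝ)
    (Z : Finset (Frm D T.lev)) (H Dn : (ι → ℤ) → ℝ), (∀ c, T.lev c ≤ s) →
    (Fintype.card ι : ℝ) ≤ R → (Fintype.card κ : ℝ) ≤ R → 0 < σ → 0 < L →
    N.Good s (Real.exp R) → Sg.Gw N s (Real.exp R) Φ → Real.exp (-R) * fmu T D σ ≤ fm T σ Z →
    (∀ V ∈ Z, Real.exp (-R) * (L : ℝ) ^ D ≤ ∑ t ∈ pos D L, Φ (N.evZ (V.pt t) g) * H (V.pt t)) →
    (∀ y, |H y| ≤ 1) → (∀ y, 0 ≤ Dn y ∧ Dn y ≤ 1) →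
    (scl T (kk D s) kk_ne).M ≤ 2 * (scl T (kk D s) kk_ne).mu → ε ≤ Real.exp (-R ^ C) →
    |(∑ t ∈ pos D L, ∑ W ∈ Z, fw T σ W * (pcw (scl T (kk D s) kk_ne) 1 0 1 0 (W.pt t) *
          (Φ (N.evZ (W.pt t) g) * H (W.pt t)))) /
        (fmu (scl T (kk D s) kk_ne) D σ * ((1 : ℝ) / (1 : ℕ)) ^ Fintype.card ι * (L : ℝ) ^ D) -
      (∑' y, wc (scl T (kk D s) kk_ne) 1 0 1 0 y * (Dn y * (Φ (N.evZ y g) * H y))) /
        wmu (scl T (kk D s) kk_ne) 1 1| ≤ ε →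
    ∃ (a : ℝ) (ha : a ≠ 0) (c : κ → ℝ) (β : ℝ), 1 ≤ a ∧ a ≤ Real.exp (R ^ C) ∧
      Real.exp (-R ^ C) ≤ β ∧ β ≤ 1 ∧
      Real.exp (-R ^ C) *
          (Ext.cell (scl T (kk D s) kk_ne) (mal N s g hg) (fun _ => a) (fun _ => ha) c).mu ≤
        Rg.Sg (Ext.cell (scl T (kk D s) kk_ne) (mal N s g hg) (fun _ => a) (fun _ => ha) c).toTri
          fun z => (Dn (z ∘ Sum.inl) * H (z ∘ Sum.inl) - β) / 2 := by
  obtain ⟨C1, h1⟩ := mal_pick s
  obtain ⟨K, hK0, hK⟩ : ∃ K : ℝ, 0 ≤ K ∧ |kk D s|⁻¹ = Real.exp K :=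
    ⟨Real.log |kk D s|⁻¹, Real.log_nonneg ((one_le_inv₀ (abs_pos.2 kk_ne)).2
      ((abs_of_pos kk_pos).trans_le kk_le_one)),
      (Real.exp_log (inv_pos.2 (abs_pos.2 kk_ne))).symm⟩
  obtain ⟨C, hC⟩ : ∃ C : ℕ, ∀ R : ℝ, 2 ≤ R → 2 * R + (s + 1) ^ D * R * K + 1 + 3 ≤ R ^ C ∧
      (2 * R + (s + 1) ^ D * R * K + 1) ^ C1 ≤ R ^ C ∧ 2 * R + (s + 1) ^ D * R * K + 1 +
        (R * ((2 * R + (s + 1) ^ D * R * K + 1) ^ C1 + 2) + 1) + 2 ≤ R ^ C := by qp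
  refine ⟨C, fun R hR ι κ _ _ T σ ε L N g hg Φ Z H Dn hs hι hκ hσ hL hN hΦ hZ hV hH hD hM hε
    hlin => ?_⟩
  obtain ⟨c1, c2, c3⟩ := hC R hR
  have k0 : 0 ≤ ((s : ℝ) + 1) ^ D * R * K := by positivity
  obtain ⟨X, hX⟩ : ∃ X, X = 2 * R + (s + 1) ^ D * R * K + 1 := ⟨_, rfl⟩
  rw [← hX] at c1 c2 c3
  have hRX : R ≤ X := by linarith
  have hμ := Sg.fmu_pos T D hσ
  have hμ' := Sg.fmu_pos (scl T (kk D s) kk_ne) D hσ
  have hLD : (0 : ℝ) < (L : ℝ) ^ D := by positivity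
  have e2 : (2 : ℝ) ≤ Real.exp 1 := by linarith [Real.add_one_le_exp (1 : ℝ)]
  simp only [pcw_one, wc_one, wmu_one, one_mul, Nat.cast_one, div_one, one_pow, mul_one] at hlin
  -- the signal on the wide cell
  have a1 : Real.exp (-R) * (L : ℝ) ^ D * (Real.exp (-R) * fmu T D σ) ≤
      ∑ t ∈ pos D L, ∑ W ∈ Z, fw T σ W * (Φ (N.evZ (W.pt t) g) * H (W.pt t)) := by
    rw [sum_comm]
    refine (mul_le_mul_of_nonneg_left hZ (by positivity)).trans ?_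
    rw [fm, mul_sum]
    refine sum_le_sum fun W hW => ?_
    rw [← mul_sum, mul_comm]
    exact mul_le_mul_of_nonneg_left (hV W hW) (Sg.fw_pos T σ W).le
  have a2 : fmu (scl T (kk D s) kk_ne) D σ ≤ Real.exp ((s + 1) ^ D * R * K) * fmu T D σ := by
    rw [Fm.fmu_scl, hK, ← Real.exp_nat_mul]
    refine mul_le_mul_of_nonneg_right (Real.exp_le_exp.2 (mul_le_mul_of_nonneg_right ?_ hK0)) hμ.le
    exact le_trans (by exact_mod_cast Fm.card_FI_le T hs)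
      (mul_le_mul_of_nonneg_left hι (by positivity))
  have a3 : Real.exp (-X + 1) ≤ (∑ t ∈ pos D L, ∑ W ∈ Z, fw T σ W *
      (Φ (N.evZ (W.pt t) g) * H (W.pt t))) / (fmu (scl T (kk D s) kk_ne) D σ * (L : ℝ) ^ D) := by
    rw [le_div_iff₀ (by positivity)]
    refine le_trans ?_ a1
    calc _ ≤ Real.exp (-X + 1) * (Real.exp ((s + 1) ^ D * R * K) * fmu T D σ * (L : ℝ) ^ D) := by
          gcongr
      _ = Real.exp (-X + 1 + (s + 1) ^ D * R * K) * (fmu T D σ * (L : ℝ) ^ D) := by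
          rw [Real.exp_add _ (_ * K)]; ring
      _ = _ := by
          rw [show -X + 1 + (s + 1) ^ D * R * K = -R + -R by rw [hX]; ring, Real.exp_add]; ring
  have a4 : Real.exp (-X) * (scl T (kk D s) kk_ne).mu ≤
      ∑' y, (scl T (kk D s) kk_ne).wgt y * (Φ (N.evZ y g) * (Dn y * H y)) := by
    rw [← le_div_iff₀ (Tri.mu_pos _)]
    simp only [mul_left_comm (Φ _)]
    have b1 := (abs_le.1 hlin).2
    have b2 : ε ≤ Real.exp (-X) := hε.trans (Real.exp_le_exp.2 (by linarith))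
    rw [Real.exp_add] at a3
    linarith [mul_le_mul_of_nonneg_left e2 (Real.exp_pos (-X)).le]
  have hDH : ∀ y, |Dn y * H y| ≤ 1 := fun y => by
    rw [abs_mul, abs_of_nonneg (hD y).1]
    exact mul_le_one₀ (hD y).2 (abs_nonneg _) (hH y)
  have e1 := Real.exp_le_exp.2 hRX
  obtain ⟨a, ha, c, b1, b2, b3⟩ := h1 X (by linarith) ι κ (scl T (kk D s) kk_ne) N g hg Φ _
    (hκ.trans hRX) (hN.mono e1) ⟨hΦ.mem, hΦ.lip.mono e1⟩ hDH hM a4
  have x0 : 0 ≤ X ^ C1 := pow_nonneg (by linarith) _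
  have b4 := ext_M_le (scl T (kk D s) kk_ne) (mal N s g hg) ha c hM
  have b5 : 2 * (2 * (1 + |a|)) ^ Fintype.card κ ≤ Real.exp (R * (X ^ C1 + 2) + 1) := by
    have d1 : 2 * (1 + |a|) ≤ Real.exp (X ^ C1 + 2) := by
      rw [abs_of_nonneg (by linarith), Real.exp_add, show (2 : ℝ) = 1 + 1 by norm_num,
        Real.exp_add]
      have d2 := mul_le_mul b2 (mul_le_mul e2 e2 (by norm_num) (by positivity)) (by norm_num)
        (by positivity)
      linarith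
    rw [Real.exp_add, mul_comm]
    refine mul_le_mul ((pow_le_pow_left₀ (by positivity) d1 _).trans ?_) e2 (by norm_num)
      (by positivity)
    rw [← Real.exp_nat_mul]
    exact Real.exp_le_exp.2 (mul_le_mul_of_nonneg_right hκ (by positivity))
  have x1 : 0 ≤ R * (X ^ C1 + 2) := mul_nonneg (by linarith) (by linarith)
  refine ⟨a, ha, c, Real.exp (-(X + (R * (X ^ C1 + 2) + 1) + 2)), b1,
    b2.trans (Real.exp_le_exp.2 c2), Real.exp_le_exp.2 (by linarith),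
    Real.exp_le_one_iff.2 (by linarith), ?_⟩
  generalize Ext.cell (scl T (kk D s) kk_ne) (mal N s g hg) (fun _ => a) (fun _ => ha) c = U
    at b3 b4 ⊢
  have hU := U.toTri.mu_pos
  have f1 : Rg.Sg U.toTri (fun z => (Dn (z ∘ Sum.inl) * H (z ∘ Sum.inl) -
      Real.exp (-(X + (R * (X ^ C1 + 2) + 1) + 2))) / 2) =
      (Rg.Sg U.toTri (fun z => Dn (z ∘ Sum.inl) * H (z ∘ Sum.inl)) +
        -Real.exp (-(X + (R * (X ^ C1 + 2) + 1) + 2)) * U.M) / 2 := by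
    rw [← Rg.Sg_add_const U.toTri fun z => hDH (z ∘ Sum.inl), Rg.Sg, Rg.Sg, ← tsum_div_const]
    exact tsum_congr fun z => by ring
  have f2 : Real.exp (-(X + (R * (X ^ C1 + 2) + 1) + 2)) * U.M ≤ Real.exp (-X + -2) * U.mu := by
    refine (mul_le_mul_of_nonneg_left (b4.trans (mul_le_mul_of_nonneg_right b5 hU.le))
      (Real.exp_pos _).le).trans_eq ?_
    rw [← mul_assoc, ← Real.exp_add]
    congr 2
    ring
  have f3 : Real.exp (-R ^ C) ≤ Real.exp (-X + -3) := Real.exp_le_exp.2 (by linarith)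
  rw [Real.exp_add] at f2 f3
  rw [f1]
  have g0 := mul_pos (Real.exp_pos (-X)) hU
  have g1 := mul_le_mul_of_nonneg_left exp_small.1 g0.le
  have g2 := mul_le_mul_of_nonneg_left exp_small.2 g0.le
  have g3 := mul_le_mul_of_nonneg_right f3 hU.le
  linarith

end Crest.Agent.T49.Ea
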