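import Crest.Agent.T49.FmPC_17
import Crest.Agent.T49.TwDblA_80

/-!
# Row 49 (helper17): the frame cell over its base point
-/

set_option autoImplicit false
set_option linter.unusedSectionVars false

noncomputable section

namespace Crest.Agent.T49.Fm

open MvPolynomial Crest.Agent.T49.Tw Crest.Agent.T49.Gl Crest.Agent.T49.Rng

section abs
variable {κ : Type} [Fintype κ] (U : Tri κ) (q : κ → Prop) [DecidablePred q]

/-- ideal mass of the fibres -/
def hmu : ℝ := ∏ c : {c // ¬ q c}, |U.a c.1|⁻¹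

theorem hmu_pos : 0 < hmu U q := Finset.prod_pos fun c _ => inv_pos.2 (abs_pos.2 (U.a_ne c.1))

theorem mu_eq : U.mu = (U.sub q).mu * hmu U q := U.mu_split

theorem abs_dev_le (x : {c // q c} → ℤ) : |(U.fib q x).M / hmu U q - 1| ≤
    (∏ c : {c // ¬ q c}, (1 + |U.a c.1|⁻¹)) / hmu U q + 1 := by
  refine (abs_sub _ _).trans ?_
  rw [abs_one, abs_div, abs_of_pos (hmu_pos U q)]
  have := div_le_div_of_nonneg_right (U.abs_fib_M_le x) (hmu_pos U q).le
  linarith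

/-- the fibre masses are constant in `L¹` -/
theorem fib_l1 (hq : U.Clo q) {η : ℝ} (hη : η ≤ 1) (h1 : |U.M / U.mu - 1| ≤ η)
    (h2 : |(U.frz q).M / (U.frz q).mu - 1| ≤ η) (h3 : |(U.dbl q).M / (U.dbl q).mu - 1| ≤ η) :
    ∑' x, (U.sub q).wgt x * |(U.fib q x).M / hmu U q - 1| ≤ 3 * √η * (U.sub q).mu := by
  have hq' : U.Closed q := hq
  let sg : ({c // q c} → ℤ) → ℝ := fun x => if 0 ≤ (U.fib q x).M / hmu U q - 1 then 1 else -1
  have hsg : ∀ x, |sg x| ≤ 1 := fun x => by simp only [sg]; split_ifs <;> simp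
  have hF := fibStmt κ U q hq (fun x => (sg x : ℂ)) fun x => by
    rw [Complex.norm_real]; exact hsg x
  have e1 : ∑' z : κ → ℤ, (U.wgt z : ℂ) * (sg (fun c => z c.1) : ℂ) =
      ((∑' x, (U.sub q).wgt x * ((U.fib q x).M * sg x) : ℝ) : ℂ) := by
    rw [← hq'.fubini_base_real hsg, U.ofReal_tsum_mul]
  have e2 : ∑' x, ((U.frz q).wgt x : ℂ) * (sg x : ℂ) =
      ((∑' x, (U.sub q).wgt x * sg x : ℝ) : ℂ) := ((U.sub q).ofReal_tsum_mul sg).symm
  have hm := (U.sub q).mu_pos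
  have hh := hmu_pos U q
  have e3 : ∑' x, (U.sub q).wgt x * |(U.fib q x).M / hmu U q - 1| =
      (∑' x, (U.sub q).wgt x * ((U.fib q x).M * sg x)) / hmu U q -
        ∑' x, (U.sub q).wgt x * sg x := by
    have s1 : Summable fun x => (U.sub q).wgt x * ((U.fib q x).M * sg x) :=
      (U.sub q).summable_mul_real (K := ∏ c : {c // ¬ q c}, (1 + |U.a c.1|⁻¹)) fun x => by
        rw [abs_mul]
        exact (mul_le_of_le_one_right (abs_nonneg _) (hsg x)).trans (U.abs_fib_M_le x)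
    rw [← tsum_div_const, ← (s1.div_const _).tsum_sub ((U.sub q).summable_mul_real hsg)]
    refine tsum_congr fun x => ?_
    simp only [sg]
    split_ifs with h
    · rw [abs_of_nonneg h]; ring
    · rw [abs_of_neg (not_le.1 h)]; ring
  have e4 : (U.frz q).mu = (U.sub q).mu := rfl
  rw [e1, e2, ← Complex.ofReal_div, ← Complex.ofReal_div, ← Complex.ofReal_sub, Complex.norm_real,
    Real.norm_eq_abs, sq_abs] at hF
  have e5 : (∑' x, (U.sub q).wgt x * ((U.fib q x).M * sg x)) / U.mu -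
      (∑' x, (U.sub q).wgt x * sg x) / (U.frz q).mu =
      (∑' x, (U.sub q).wgt x * |(U.fib q x).M / hmu U q - 1|) / (U.sub q).mu := by
    rw [e3, e4, mu_eq U q]; field_simp
  rw [e5] at hF
  have hη0 : 0 ≤ η := (abs_nonneg _).trans h1
  obtain ⟨a1, -⟩ := abs_le.1 h1
  obtain ⟨-, a2⟩ := abs_le.1 h2
  obtain ⟨-, a3⟩ := abs_le.1 h3
  have a4 : 0 ≤ (U.frz q).M / (U.frz q).mu := div_nonneg (U.frz q).M_nonneg (U.frz q).mu_pos.le
  have a5 : ((∑' x, (U.sub q).wgt x * |(U.fib q x).M / hmu U q - 1|) / (U.sub q).mu) ^ 2 ≤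
      (3 * √η) ^ 2 := by
    rw [mul_pow, Real.sq_sqrt hη0]
    refine hF.trans ((mul_le_mul_of_nonneg_left (b := _) (c := 4 * η) (by linarith) a4).trans ?_)
    nlinarith
  rw [← div_le_iff₀ hm]
  exact (abs_le_of_sq_le_sq' a5 (by positivity)).2

/-- conditional expectation over the base -/
def cnd (b : (κ → ℤ) → ℂ) (x : {c // q c} → ℤ) : ℂ :=
  (∑' u, ((U.fib q x).wgt u : ℂ) * b (glue q x u)) / (U.fib q x).M

/-- conditional expectation over the base, real version -/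
def cndR (b : (κ → ℤ) → ℝ) (x : {c // q c} → ℤ) : ℝ :=
  (∑' u, (U.fib q x).wgt u * b (glue q x u)) / (U.fib q x).M

theorem cnd_ofReal (b : (κ → ℤ) → ℝ) (x : {c // q c} → ℤ) :
    cnd U q (fun z => (b z : ℂ)) x = (cndR U q b x : ℂ) := by
  rw [cnd, cndR, Complex.ofReal_div, Tri.ofReal_tsum_mul]

theorem norm_cnd_le {b : (κ → ℤ) → ℂ} (hb : ∀ z, ‖b z‖ ≤ 1) (x : {c // q c} → ℤ) :
    ‖cnd U q b x‖ ≤ 1 := by
  rw [cnd, norm_div, Complex.norm_real, Real.norm_eq_abs, abs_of_pos (U.fib q x).M_pos,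
    div_le_one (U.fib q x).M_pos]
  simpa using (U.fib q x).norm_tsum_mul_le (f := fun u => b (glue q x u)) fun u => hb _

theorem cnd_one (x : {c // q c} → ℤ) : cnd U q (fun _ => 1) x = 1 := by
  have h : ((U.fib q x).M : ℂ) ≠ 0 := by exact_mod_cast (U.fib q x).M_pos.ne'
  rw [cnd, div_eq_one_iff_eq h, Tri.M, Complex.ofReal_tsum]
  simp

theorem cndR_nonneg {b : (κ → ℤ) → ℝ} (hb : ∀ z, 0 ≤ b z) (x : {c // q c} → ℤ) :
    0 ≤ cndR U q b x :=
  div_nonneg (tsum_nonneg fun u => mul_nonneg ((U.fib q x).wgt_nonneg u) (hb _))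
    (U.fib q x).M_nonneg

theorem abs_cndR_le {b : (κ → ℤ) → ℝ} (hb : ∀ z, |b z| ≤ 1) (x : {c // q c} → ℤ) :
    |cndR U q b x| ≤ 1 := by
  have := norm_cnd_le U q (b := fun z => (b z : ℂ)) (fun z => by
    rw [Complex.norm_real]; exact hb z) x
  rwa [cnd_ofReal, Complex.norm_real] at this

theorem cnd_gen (hq : U.Clo q) {ε : ℝ}
    (h : ∑' x, (U.sub q).wgt x * |(U.fib q x).M / hmu U q - 1| ≤ ε * (U.sub q).mu)
    {b : (κ → ℤ) → ℂ} (hb : ∀ z, ‖b z‖ ≤ 1) {G : ({c // q c} → ℤ) → ℂ} (hG : ∀ x, ‖G x‖ ≤ 1) :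
    ‖(∑' z, (U.wgt z : ℂ) * (b z * G fun c => z c.1)) / U.mu -
      (∑' x, ((U.sub q).wgt x : ℂ) * (cnd U q b x * G x)) / (U.sub q).mu‖ ≤ ε := by
  have hq' : U.Closed q := hq
  have hm := (U.sub q).mu_pos
  have hh := hmu_pos U q
  have hcg : ∀ x, ‖cnd U q b x * G x‖ ≤ 1 := fun x => by
    rw [norm_mul]; exact mul_le_one₀ (norm_cnd_le U q hb x) (norm_nonneg _) (hG x)
  have e1 : ∑' z, (U.wgt z : ℂ) * (b z * G fun c => z c.1) =
      ∑' x, ((U.sub q).wgt x : ℂ) * (((U.fib q x).M : ℂ) * (cnd U q b x * G x)) := by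
    rw [hq'.fubini (K := 1) fun z => by
      rw [norm_mul]; exact mul_le_one₀ (hb z) (norm_nonneg _) (hG _)]
    refine tsum_congr fun x => ?_
    have h0 : ((U.fib q x).M : ℂ) ≠ 0 := by exact_mod_cast (U.fib q x).M_pos.ne'
    congr 1
    simp only [glue_val, ← mul_assoc]
    rw [tsum_mul_right, cnd, mul_div_cancel₀ _ h0]
  have s1 : Summable fun x => ((U.sub q).wgt x : ℂ) * (((U.fib q x).M : ℂ) * (cnd U q b x * G x)) :=
    (U.sub q).summable_mul (K := ∏ c : {c // ¬ q c}, (1 + |U.a c.1|⁻¹)) fun x => by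
      rw [norm_mul, Complex.norm_real, Real.norm_eq_abs]
      exact (mul_le_of_le_one_right (abs_nonneg _) (hcg x)).trans (U.abs_fib_M_le x)
  have s2 := (U.sub q).summable_mul hcg
  have e2 : (∑' z, (U.wgt z : ℂ) * (b z * G fun c => z c.1)) / U.mu -
      (∑' x, ((U.sub q).wgt x : ℂ) * (cnd U q b x * G x)) / (U.sub q).mu =
      (∑' x, ((U.sub q).wgt x : ℂ) * ((((U.fib q x).M / hmu U q - 1 : ℝ) : ℂ) *
        (cnd U q b x * G x))) / (U.sub q).mu := by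
    have hm' : ((U.sub q).mu : ℂ) ≠ 0 := by exact_mod_cast hm.ne'
    have hh' : (hmu U q : ℂ) ≠ 0 := by exact_mod_cast hh.ne'
    have : ∑' x, ((U.sub q).wgt x : ℂ) * ((((U.fib q x).M / hmu U q - 1 : ℝ) : ℂ) *
        (cnd U q b x * G x)) =
        (∑' x, ((U.sub q).wgt x : ℂ) * (((U.fib q x).M : ℂ) * (cnd U q b x * G x))) / hmu U q -
          ∑' x, ((U.sub q).wgt x : ℂ) * (cnd U q b x * G x) := by
      rw [← tsum_div_const, ← (s1.div_const _).tsum_sub s2]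
      refine tsum_congr fun x => ?_
      push_cast; ring
    rw [this, e1, mu_eq U q]
    push_cast
    field_simp
  have s3 : Summable fun x => (U.sub q).wgt x * |(U.fib q x).M / hmu U q - 1| :=
    (U.sub q).summable_mul_real fun x => by rw [abs_abs]; exact abs_dev_le U q x
  rw [e2, norm_div, Complex.norm_real, Real.norm_eq_abs, abs_of_pos hm, div_le_iff₀ hm]
  refine le_trans (tsum_of_norm_bounded s3.hasSum fun x => ?_) h
  rw [norm_mul, norm_mul, Complex.norm_real, Complex.norm_real, Real.norm_eq_abs, Real.norm_eq_abs,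
    abs_of_pos ((U.sub q).wgt_pos x)]
  exact mul_le_mul_of_nonneg_left (mul_le_of_le_one_right (abs_nonneg _) (hcg x))
    ((U.sub q).wgt_nonneg x)

end abs

section cell
variable {ι κ : Type} [Fintype ι] [Fintype κ] {T : Cell ι} (q : κ → Prop) [DecidablePred q]

theorem fib_l1_cell {U : Cell κ} (hq : U.Clo q) {x η : ℝ} (hη : η ≤ 1) (hA : T.AllPC x η)
    {π1 : κ → ι} {π2 : {c // q c} → ι} {π3 : DI q → ι} (p1 : T.PC x U π1)
    (p2 : T.PC x (U.frz q) π2) (p3 : T.PC x (U.dbl q) π3) :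
    ∑' p, (U.sub q).wgt p * |(U.fib q p).M / hmu U.toTri q - 1| ≤ 3 * √η * (U.sub q).mu := by
  have h2 := hA _ _ _ p2
  have h3 := hA _ _ _ p3
  rw [show (U.frz q).toTri = U.toTri.frz q from rfl] at h2
  rw [show (U.dbl q).toTri = U.toTri.dbl q from rfl] at h3
  exact fib_l1 U.toTri q hq hη (hA _ _ _ p1) h2 h3

theorem pc_dbl_congr {U U' : Cell κ} {π : κ → ι} {x : ℝ}
    (h : T.PC x (U.dbl q) (π ∘ Sum.elim id Subtype.val)) (h1 : U'.lev = U.lev)
    (h2 : ∀ c, U'.tth c = U.tth c) (h3 : ∀ c, U'.a c = U.a c)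
    (h4 : ∀ cl, T.IsMC cl → U'.IsMC (cl ∘ π)) :
    T.PC x (U'.dbl q) (π ∘ Sum.elim id Subtype.val) := by
  refine pc_congr h ?_ (fun c => ?_) (fun c => ?_) fun cl hm => ?_
  · show Ch4.dlev U'.lev q = Ch4.dlev U.lev q
    rw [h1]
  · rcases c with c | c
    · by_cases hc : q c
      · rw [Cell.dbl_tth_fr _ hc, Cell.dbl_tth_fr _ hc, h2]
      · rw [Cell.dbl_tth_live _ hc, Cell.dbl_tth_live _ hc, h2]
    · rw [Cell.dbl_tth_inr, Cell.dbl_tth_inr, h2]
  · rcases c with c | c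
    · by_cases hc : q c
      · exact (Tri.dbl_a_fr _ hc).trans ((h3 c).trans (Tri.dbl_a_fr _ hc).symm)
      · exact (Tri.dbl_a_live _ hc).trans ((congrArg _ (h3 c)).trans (Tri.dbl_a_live _ hc).symm)
    · exact congrArg (fun r => (√2)⁻¹ * r) (h3 c.1)
  · have : cl ∘ π ∘ Sum.elim id Subtype.val = Ch4.dlev (cl ∘ π) q := by
      funext c'; rcases c' with c' | c' <;> rfl
    rw [this]; exact (h4 cl hm).dbl q

end cell

variable {ι : Type} {D : ℕ}

/-- base coordinates -/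
def q0 {lev : ι → ℕ} (x : FI D lev) : Prop := x.2.1 = 0

instance {lev : ι → ℕ} : DecidablePred (q0 (D := D) (lev := lev)) := fun _ => Classical.dec _

/-- the base coordinate over `c` -/
def b0 (D : ℕ) (lev : ι → ℕ) (c : ι) : FI D lev := ⟨c, ⟨0, zero_mem_mi D _⟩⟩

/-- base coordinates of a point of the frame cell -/
def bp {lev : ι → ℕ} (z : FI D lev → ℤ) (c : ι) : ℤ := z (b0 D lev c)

/-- the base coordinates are indexed by `ι` -/
def eI (D : ℕ) (lev : ι → ℕ) : ι ≃ {x : FI D lev // q0 x} where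
  toFun c := ⟨b0 D lev c, rfl⟩
  invFun x := x.1.1
  left_inv _ := rfl
  right_inv := by
    rintro ⟨⟨c, α, hα⟩, h⟩
    obtain rfl : α = 0 := h
    rfl

/-- base points -/
def eB (D : ℕ) (lev : ι → ℕ) : (ι → ℤ) ≃ ({x : FI D lev // q0 x} → ℤ) where
  toFun y x := y x.1.1
  invFun p c := p (eI D lev c)
  left_inv _ := rfl
  right_inv p := funext fun x => congrArg p ((eI D lev).apply_symm_apply x)

theorem eB_bp {lev : ι → ℕ} (z : FI D lev → ℤ) : eB D lev (bp z) = fun x => z x.1 :=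
  funext fun x => congrArg (fun x : {x : FI D lev // q0 x} => z x.1) ((eI D lev).apply_symm_apply x)

theorem eB_symm {lev : ι → ℕ} (z : FI D lev → ℤ) : (eB D lev).symm (fun x => z x.1) = bp z := rfl

theorem coeff_zero_bind_rl (W : ι → MvPolynomial (Fin D) ℤ) (f : Pl ι) :
    coeff 0 (bind₁ (rl W) f) = ev (fun c => coeff 0 (W c)) f := by
  rw [← constantCoeff_eq, ev]
  induction f using MvPolynomial.induction_on with
  | C a => simp
  | add p q hp hq => simp [hp, hq]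
  | mul_X p c hp =>
    rw [map_mul, map_mul, hp, map_mul, bind₁_X_right, eval_X, rl, constantCoeff_eq, coeff_map]
    simp

/-- coefficients that are homogeneous of the degree given by the monomial -/
theorem hom_aeval {κ : Type} {w : κ → ℕ} {g : ι → MvPolynomial κ (Pl (Fin D))}
    (hg : ∀ c m, (coeff m (g c)).IsHomogeneous (Finsupp.weight w m)) (f : Pl ι) :
    ∀ m, (coeff m (aeval g f)).IsHomogeneous (Finsupp.weight w m) := by
  classical
  induction f using MvPolynomial.induction_on with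
  | C a =>
    intro m
    rw [aeval_C, MvPolynomial.algebraMap_apply, coeff_C]
    split_ifs with h
    · rw [← h, map_zero]; exact isHomogeneous_C _ _
    · exact isHomogeneous_zero _ _ _
  | add p q hp hq => intro m; rw [map_add, coeff_add]; exact (hp m).add (hq m)
  | mul_X p c hp =>
    intro m
    rw [map_mul, aeval_X, coeff_mul]
    refine IsHomogeneous.sum _ _ _ fun x hx => ?_
    rw [← Finset.HasAntidiagonal.mem_antidiagonal.1 hx, map_add]
    exact (hp _).mul (hg c _)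

namespace Sh
variable (S : Sh ι D) (T : Cell ι)

/-- the base point with lattice coordinates `y` -/
def bpt (y : ι → ℤ) (c : ι) : ℤ := coeff 0 (S.r c) + S.g c 0 * y c

theorem coeff_zero_fr {lev : ι → ℕ} (z : FI D lev → ℤ) (c : ι) :
    coeff 0 (S.fr z c) = S.bpt (bp z) c := coeff_fr S z c ⟨0, zero_mem_mi D _⟩

theorem coP_cf0 (c : ι) (f : Pl ι) : coP (S.cf c 0) (aeval (S.Gw T.lev) f) =
    C (S.sc c 0)⁻¹ * bind₁ (fun c' => C ((coeff 0 (S.r c') : ℤ) : ℝ) +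
      C (S.g c' 0 : ℝ) * X (b0 D T.lev c')) f := by
  classical
  let c0 : Pl (Fin D) →ₐ[ℝ] ℝ := aeval fun _ => 0
  have hc0 : ∀ p, c0 p = coeff 0 p := fun p => by
    simp only [c0, aeval_zero', constantCoeff_eq, Algebra.algebraMap_self, RingHom.id_apply]
  have h1 : ∀ p : MvPolynomial (FI D T.lev) (Pl (Fin D)),
      coP (S.cf c 0) p = C (S.sc c 0)⁻¹ * mapAlgHom c0 p := fun p => by
    ext m
    rw [coeff_coP, cf_apply, coeff_C_mul, mapAlgHom_apply, coeff_map, div_eq_inv_mul]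
    exact congrArg _ (hc0 _).symm
  have h2 : (mapAlgHom c0).comp (aeval (S.Gw T.lev)) = bind₁ (fun c' =>
      C ((coeff 0 (S.r c') : ℤ) : ℝ) + C (S.g c' 0 : ℝ) * X (b0 D T.lev c')) := by
    refine MvPolynomial.algHom_ext fun c' => ?_
    rw [AlgHom.comp_apply, aeval_X, bind₁_X_right, mapAlgHom_apply, Gw, map_add, map_C, G0,
      map_sum, Finset.sum_eq_single ⟨0, zero_mem_mi D _⟩]
    · rw [map_mul, map_C, map_X]
      simp [hc0, rl, coeff_map, b0]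
    · intro β _ hβ
      have : β.1 ≠ 0 := fun h => hβ (Subtype.ext h)
      rw [map_mul, map_C]
      simp [hc0, coeff_monomial, this]
    · simp
  rw [h1, ← AlgHom.comp_apply, h2]

theorem fc_clo : (S.fc T).Clo q0 := by
  rintro ⟨c, α, hα⟩ h
  obtain rfl : α = 0 := h
  refine Subalgebra.add_mem _ (C_mem_supp _ _) ?_
  show coP (S.cf c 0) _ ∈ _
  rw [coP_cf0]
  refine Subalgebra.mul_mem _ (C_mem_supp _ _) (bind_mem_supported (s := Set.univ) (fun c' _ => ?_)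
    (by rw [supported_univ]; trivial))
  exact Subalgebra.add_mem _ (C_mem_supp _ _)
    (Subalgebra.mul_mem _ (C_mem_supp _ _) (X_mem_supp (show q0 (b0 D T.lev c') from rfl)))

/-- the shape without shift and centre -/
def lin : Sh ι D := { S with r := 0, cen := 0 }

theorem lin_hom (x : FI D T.lev) : IsWeightedHomogeneous (fun x : FI D T.lev => x.2.1.degree)
    ((S.lin.fc T).B x) x.2.1.degree := by
  classical
  have h0 : rl (0 : ι → MvPolynomial (Fin D) ℤ) = 0 := funext fun c => by simp [rl]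
  have h1 : S.lin.Gw T.lev = S.lin.G0 T.lev := funext fun c => by
    show C (rl 0 c) + _ = _
    rw [h0]; simp
  show IsWeightedHomogeneous _ (C (_ * S.lin.cf _ _ (rl 0 _) - S.lin.cf _ _ 0) + _) _
  rw [h0, h1]
  simp only [Pi.zero_apply, map_zero, mul_zero, sub_zero, zero_add]
  intro m hm
  have h2 := hom_aeval (w := fun x : FI D T.lev => x.2.1.degree) (g := S.lin.G0 T.lev)
    (fun c m => ?_) (T.B x.1) m
  · rw [coeff_coP, cf_apply] at hm
    have h3 := h2 (left_ne_zero_of_mul hm)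
    rw [← h3, Finsupp.degree_eq_weight_one]
    rfl
  · rw [G0, coeff_sum]
    refine IsHomogeneous.sum _ _ _ fun α _ => ?_
    rw [coeff_C_mul, coeff_X]
    split_ifs with h
    · rw [mul_one, ← h, Finsupp.weight_single, one_smul]
      exact isHomogeneous_monomial _ rfl
    · rw [mul_zero]; exact isHomogeneous_zero _ _ _

variable [Fintype ι]

theorem one_le_fl (D s : ℕ) {u : ℝ} (hu : 0 ≤ u) : 1 ≤ fl D s u := by
  have hs0 : (0 : ℝ) ≤ s := Nat.cast_nonneg s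
  refine one_le_mul_of_one_le_of_one_le (one_le_pow₀ (by linarith)) ?_
  nlinarith [sq_nonneg (s : ℝ)]

theorem frz_pc {s : ℕ} (hs : ∀ c, T.lev c ≤ s) {u : ℝ} (h : S.Ok T.lev u) :
    T.PC ((s + 5) * fl D s u) ((S.fc T).frz q0) (Sigma.fst ∘ Subtype.val) := by
  have h1 := one_le_fl D s h.nonneg
  have hs0 : (0 : ℝ) ≤ s := Nat.cast_nonneg s
  exact (S.fc_pc T hs h).trans (Cell.pc_frz _ (S.fc_clo T)) (by nlinarith) (by nlinarith)

theorem dbl_pc {s : ℕ} (hs : ∀ c, T.lev c ≤ s) {u : ℝ} (h : S.Ok T.lev u) :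
    T.PC ((s + 5) * fl D s u) ((S.fc T).dbl q0) (Sigma.fst ∘ Sum.elim id Subtype.val) := by
  have h1 := one_le_fl D s h.nonneg
  have hs0 : (0 : ℝ) ≤ s := Nat.cast_nonneg s
  have h2 := Cell.pc_dbl (S.lin.fc T) (q := q0) (wt := fun x => x.2.1.degree)
    (fun x hx => Nat.pos_of_ne_zero fun h => hx ((Finsupp.degree_eq_zero_iff _).1 h))
    (fun x hx => (Finsupp.degree_eq_zero_iff _).2 hx) (fun x _ => S.lin_hom T x)
    (s := s) fun x => hs x.1
  have h3 := (S.lin.fc_pc T hs h).trans h2 (z := (s + 5) * fl D s u) (by nlinarith) (by nlinarith)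
  have ht : ∀ x, (S.fc T).tth x = (S.lin.fc T).tth x := fun x => by rw [fc_tth, fc_tth]; rfl
  exact pc_dbl_congr q0 h3 rfl ht (fun _ => rfl) fun cl hm => S.fc_isMC T hm

/-- weight of the base point with lattice coordinates `y` -/
def bw (y : ι → ℤ) : ℝ :=
  Real.exp (-Real.pi * ∑ c, ((ev (S.bpt y) (T.th c) - coeff 0 (S.cen c)) / S.sc c 0) ^ 2)

/-- ideal mass of the base -/
def bmu : ℝ := ∏ c, S.sc c 0 / S.g c 0 * |T.a c|⁻¹

theorem sub_wgt (y : ι → ℤ) : ((S.fc T).sub q0).wgt (eB D T.lev y) = S.bw T y := by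
  have hq : (S.fc T).Closed q0 := S.fc_clo T
  unfold Tri.wgt bw
  congr 2
  rw [← (eI D T.lev).sum_comp]
  refine Finset.sum_congr rfl fun c _ => ?_
  rw [hq.ev_sub_th _ 0, ev_fc_th]
  show (coeff 0 (_ - S.cen c) / S.sc c 0) ^ 2 = _
  rw [coeff_sub, coeff_zero_bind_rl]
  congr 4
  funext c'
  rw [coeff_zero_fr]
  congr 1
  funext c''
  exact glue_val _ _ (eI D T.lev c'')

theorem sub_mu : ((S.fc T).sub q0).mu = S.bmu T := by
  unfold Tri.mu bmu
  rw [← (eI D T.lev).prod_comp]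
  refine Finset.prod_congr rfl fun c _ => ?_
  have h1 : (0 : ℝ) < S.g c 0 := by exact_mod_cast S.g_pos c 0
  show |T.a c * (S.g c 0 / S.sc c 0)|⁻¹ = _
  rw [abs_mul, abs_of_pos (div_pos h1 (S.sc_pos _ _)), mul_inv, inv_div, mul_comm]

theorem bw_pos (y : ι → ℤ) : 0 < S.bw T y := Real.exp_pos _

theorem bmu_pos : 0 < S.bmu T := by rw [← sub_mu]; exact Tri.mu_pos _

theorem summable_bw : Summable (S.bw T) :=
  ((eB D T.lev).summable_iff.2 ((S.fc T).sub q0).summable_wgt).congr fun y => S.sub_wgt T y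

theorem bw_mass {s : ℕ} (hs : ∀ c, T.lev c ≤ s) {u x η : ℝ} (h : S.Ok T.lev u)
    (hA : T.AllPC x η) (hx : (s + 5) * fl D s u ≤ x) : |(∑' y, S.bw T y) / S.bmu T - 1| ≤ η := by
  have h1 := hA _ _ _ ((S.frz_pc T hs h).mono hx)
  have e : ∑' y, S.bw T y = ((S.fc T).sub q0).M := by
    rw [Tri.M, ← (eB D T.lev).tsum_eq]
    exact tsum_congr fun y => (S.sub_wgt T y).symm
  rw [e, ← sub_mu]
  exact h1

theorem l1 {s : ℕ} (hs : ∀ c, T.lev c ≤ s) {u x η : ℝ} (h : S.Ok T.lev u)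
    (hA : T.AllPC x η) (hx : (s + 5) * fl D s u ≤ x) (hη : η ≤ 1) :
    ∑' p, ((S.fc T).sub q0).wgt p * |((S.fc T).fib q0 p).M / hmu (S.fc T).toTri q0 - 1| ≤
      3 * √η * ((S.fc T).sub q0).mu := by
  have h1 := one_le_fl D s h.nonneg
  have hs0 : (0 : ℝ) ≤ s := Nat.cast_nonneg s
  exact fib_l1_cell q0 (S.fc_clo T) hη hA ((S.fc_pc T hs h).mono (by nlinarith))
    ((S.frz_pc T hs h).mono hx) ((S.dbl_pc T hs h).mono hx)

/-- conditional expectation given the base point -/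
def cond (b : (FI D T.lev → ℤ) → ℂ) (y : ι → ℤ) : ℂ := cnd (S.fc T).toTri q0 b (eB D T.lev y)

/-- conditional expectation given the base point, real version -/
def condR (b : (FI D T.lev → ℤ) → ℝ) (y : ι → ℤ) : ℝ := cndR (S.fc T).toTri q0 b (eB D T.lev y)

theorem norm_cond_le {b : (FI D T.lev → ℤ) → ℂ} (hb : ∀ z, ‖b z‖ ≤ 1) (y : ι → ℤ) :
    ‖S.cond T b y‖ ≤ 1 := norm_cnd_le _ _ hb _

theorem condR_nonneg {b : (FI D T.lev → ℤ) → ℝ} (hb : ∀ z, 0 ≤ b z) (y : ι → ℤ) :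
    0 ≤ S.condR T b y := cndR_nonneg _ _ hb _

theorem abs_condR_le {b : (FI D T.lev → ℤ) → ℝ} (hb : ∀ z, |b z| ≤ 1) (y : ι → ℤ) :
    |S.condR T b y| ≤ 1 := abs_cndR_le _ _ hb _

/-- **FIB / COND**: tower property over the base point -/
theorem fib_cond {s : ℕ} (hs : ∀ c, T.lev c ≤ s) {u x η : ℝ} (h : S.Ok T.lev u)
    (hA : T.AllPC x η) (hx : (s + 5) * fl D s u ≤ x) (hη : η ≤ 1)
    {b : (FI D T.lev → ℤ) → ℂ} (hb : ∀ z, ‖b z‖ ≤ 1) {G : (ι → ℤ) → ℂ} (hG : ∀ y, ‖G y‖ ≤ 1) :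
    ‖(∑' z, (S.wt T (S.fr z) : ℂ) * (b z * G (bp z))) / S.mu T -
      (∑' y, (S.bw T y : ℂ) * (S.cond T b y * G y)) / S.bmu T‖ ≤ 3 * √η := by
  have h1 := cnd_gen _ q0 (S.fc_clo T) (S.l1 T hs h hA hx hη) hb
    (G := fun p => G ((eB D T.lev).symm p)) fun p => hG _
  rw [← (eB D T.lev).tsum_eq, sub_mu, fc_mu] at h1
  simpa only [fc_wgt, sub_wgt, Equiv.symm_apply_apply, eB_symm, cond] using h1

theorem fib {s : ℕ} (hs : ∀ c, T.lev c ≤ s) {u x η : ℝ} (h : S.Ok T.lev u)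
    (hA : T.AllPC x η) (hx : (s + 5) * fl D s u ≤ x) (hη : η ≤ 1)
    {G : (ι → ℤ) → ℂ} (hG : ∀ y, ‖G y‖ ≤ 1) :
    ‖(∑' z : FI D T.lev → ℤ, (S.wt T (S.fr z) : ℂ) * G (bp z)) / S.mu T -
      (∑' y, (S.bw T y : ℂ) * G y) / S.bmu T‖ ≤ 3 * √η := by
  have h1 := S.fib_cond T hs h hA hx hη (b := fun _ => 1) (fun _ => by simp) hG
  simpa only [cond, cnd_one, one_mul] using h1

theorem fib_condR {s : ℕ} (hs : ∀ c, T.lev c ≤ s) {u x η : ℝ} (h : S.Ok T.lev u)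
    (hA : T.AllPC x η) (hx : (s + 5) * fl D s u ≤ x) (hη : η ≤ 1)
    {b : (FI D T.lev → ℤ) → ℝ} (hb : ∀ z, |b z| ≤ 1) {G : (ι → ℤ) → ℝ} (hG : ∀ y, |G y| ≤ 1) :
    |(∑' z, S.wt T (S.fr z) * (b z * G (bp z))) / S.mu T -
      (∑' y, S.bw T y * (S.condR T b y * G y)) / S.bmu T| ≤ 3 * √η := by
  have h1 := S.fib_cond T hs h hA hx hη (b := fun z => (b z : ℂ)) (G := fun y => (G y : ℂ))
    (fun z => by rw [Complex.norm_real]; exact hb z) fun z => by rw [Complex.norm_real]; exact hG z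
  simp only [cond, cnd_ofReal] at h1
  rw [← Real.norm_eq_abs, ← Complex.norm_real]
  simpa only [condR, Complex.ofReal_sub, Complex.ofReal_div, Complex.ofReal_tsum,
    Complex.ofReal_mul] using h1

theorem fibR {s : ℕ} (hs : ∀ c, T.lev c ≤ s) {u x η : ℝ} (h : S.Ok T.lev u)
    (hA : T.AllPC x η) (hx : (s + 5) * fl D s u ≤ x) (hη : η ≤ 1)
    {G : (ι → ℤ) → ℝ} (hG : ∀ y, |G y| ≤ 1) :
    |(∑' z : FI D T.lev → ℤ, S.wt T (S.fr z) * G (bp z)) / S.mu T -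
      (∑' y, S.bw T y * G y) / S.bmu T| ≤ 3 * √η := by
  have h1 := S.fib T hs h hA hx hη (G := fun y => (G y : ℂ))
    fun z => by rw [Complex.norm_real]; exact hG z
  rw [← Real.norm_eq_abs, ← Complex.norm_real]
  simpa only [Complex.ofReal_sub, Complex.ofReal_div, Complex.ofReal_tsum,
    Complex.ofReal_mul] using h1

end Sh

/-! ### natural frames -/

theorem pt_zero {lev : ι → ℕ} (V : Frm D lev) (c : ι) : V.pt 0 c = coeff 0 (V.W c) := by
  rw [Frm.pt, ← constantCoeff_eq, eval_zero]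

theorem pt_zero_frE {lev : ι → ℕ} (z : FI D lev → ℤ) : (frE D lev z).pt 0 = bp z := by
  funext c
  rw [pt_zero, frE_W 1 one_pos, Sh.coeff_zero_fr]
  simp [Sh.bpt, nat]

variable [Fintype ι] (T : Cell ι)

theorem nat_bw {σ : ℝ} (hσ : 0 < σ) (y : ι → ℤ) : (nat ι D σ hσ).bw T y = T.wgt y := by
  have : (nat ι D σ hσ).bpt y = y := funext fun c => by simp [Sh.bpt, nat]
  rw [Sh.bw, this, Tri.wgt]
  simp [nat]

theorem nat_bmu {σ : ℝ} (hσ : 0 < σ) : (nat ι D σ hσ).bmu T = T.mu := by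
  simp [Sh.bmu, nat, Tri.mu]

/-- **COND** for natural frames -/
theorem fw_cond {s : ℕ} (hs : ∀ c, T.lev c ≤ s) {σ v x η : ℝ} (hσ : 0 < σ) (hv : 0 ≤ v)
    (h : σ⁻¹ ≤ Real.exp v) (hA : T.AllPC x η) (hx : (s + 5) * fl D s (s * v) ≤ x) (hη : η ≤ 1)
    {b : Frm D T.lev → ℂ} (hb : ∀ V, ‖b V‖ ≤ 1) :
    ∃ Dl : (ι → ℤ) → ℂ, (∀ y, ‖Dl y‖ ≤ 1) ∧ ∀ G : (ι → ℤ) → ℂ, (∀ y, ‖G y‖ ≤ 1) →
      ‖(∑' V, (fw T σ V : ℂ) * (b V * G (V.pt 0))) / fmu T D σ -
        (∑' y, (T.wgt y : ℂ) * (Dl y * G y)) / T.mu‖ ≤ 3 * √η := by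
  refine ⟨(nat ι D σ hσ).cond T fun z => b (frE D T.lev z),
    (nat ι D σ hσ).norm_cond_le T fun z => hb _, fun G hG => ?_⟩
  have h1 := (nat ι D σ hσ).fib_cond T hs (nat_ok hs hσ hv h) hA hx hη
    (b := fun z => b (frE D T.lev z)) (fun z => hb _) hG
  rw [← (frE D T.lev).tsum_eq, fmu_eq T D hσ]
  simpa only [nat_bw, nat_bmu, pt_zero_frE, fw_eq T hσ, frE_W σ hσ] using h1

/-- **COND** for natural frames, real version -/
theorem fw_condR {s : ℕ} (hs : ∀ c, T.lev c ≤ s) {σ v x η : ℝ} (hσ : 0 < σ) (hv : 0 ≤ v)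
    (h : σ⁻¹ ≤ Real.exp v) (hA : T.AllPC x η) (hx : (s + 5) * fl D s (s * v) ≤ x) (hη : η ≤ 1)
    {b : Frm D T.lev → ℝ} (hb : ∀ V, 0 ≤ b V ∧ b V ≤ 1) :
    ∃ Dl : (ι → ℤ) → ℝ, (∀ y, 0 ≤ Dl y ∧ Dl y ≤ 1) ∧ ∀ G : (ι → ℤ) → ℝ, (∀ y, |G y| ≤ 1) →
      |(∑' V, fw T σ V * (b V * G (V.pt 0))) / fmu T D σ -
        (∑' y, T.wgt y * (Dl y * G y)) / T.mu| ≤ 3 * √η := by
  have hb' : ∀ z, |b (frE D T.lev z)| ≤ 1 := fun z => by
    rw [abs_of_nonneg (hb _).1]; exact (hb _).2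
  refine ⟨(nat ι D σ hσ).condR T fun z => b (frE D T.lev z), fun y =>
    ⟨(nat ι D σ hσ).condR_nonneg T (fun z => (hb _).1) y,
      (le_abs_self _).trans ((nat ι D σ hσ).abs_condR_le T hb' y)⟩, fun G hG => ?_⟩
  have h1 := (nat ι D σ hσ).fib_condR T hs (nat_ok hs hσ hv h) hA hx hη hb' hG
  rw [← (frE D T.lev).tsum_eq, fmu_eq T D hσ]
  simpa only [nat_bw, nat_bmu, pt_zero_frE, fw_eq T hσ, frE_W σ hσ] using h1

/-- **FIB** for natural frames -/
theorem fw_fib {s : ℕ} (hs : ∀ c, T.lev c ≤ s) {σ v x η : ℝ} (hσ : 0 < σ) (hv : 0 ≤ v)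
    (h : σ⁻¹ ≤ Real.exp v) (hA : T.AllPC x η) (hx : (s + 5) * fl D s (s * v) ≤ x) (hη : η ≤ 1)
    {G : (ι → ℤ) → ℂ} (hG : ∀ y, ‖G y‖ ≤ 1) :
    ‖(∑' V : Frm D T.lev, (fw T σ V : ℂ) * G (V.pt 0)) / fmu T D σ -
      (∑' y, (T.wgt y : ℂ) * G y) / T.mu‖ ≤ 3 * √η := by
  have h1 := (nat ι D σ hσ).fib T hs (nat_ok hs hσ hv h) hA hx hη hG
  rw [← (frE D T.lev).tsum_eq, fmu_eq T D hσ]
  simpa only [nat_bw, nat_bmu, pt_zero_frE, fw_eq T hσ, frE_W σ hσ] using h1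

theorem fw_fibR {s : ℕ} (hs : ∀ c, T.lev c ≤ s) {σ v x η : ℝ} (hσ : 0 < σ) (hv : 0 ≤ v)
    (h : σ⁻¹ ≤ Real.exp v) (hA : T.AllPC x η) (hx : (s + 5) * fl D s (s * v) ≤ x) (hη : η ≤ 1)
    {G : (ι → ℤ) → ℝ} (hG : ∀ y, |G y| ≤ 1) :
    |(∑' V : Frm D T.lev, fw T σ V * G (V.pt 0)) / fmu T D σ - (∑' y, T.wgt y * G y) / T.mu| ≤
      3 * √η := by
  have h1 := (nat ι D σ hσ).fibR T hs (nat_ok hs hσ hv h) hA hx hη hG
  rw [← (frE D T.lev).tsum_eq, fmu_eq T D hσ]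
  simpa only [nat_bw, nat_bmu, pt_zero_frE, fw_eq T hσ, frE_W σ hσ] using h1

end Crest.Agent.T49.Fm
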