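import Crest.Agent.T49.EaDef_64
import Crest.Agent.T49.FmFib_17
import Crest.Agent.T49.StCell_57

/-!
# Row 49 (helper64): END, linearisation: a family of frames is a density on the points
-/

set_option autoImplicit false

noncomputable section

namespace Crest.Agent.T49.Ea

open MvPolynomial Finset
open Crest.Agent.T49.Tw Crest.Agent.T49.Gl Crest.Agent.T49.Fm Crest.Agent.T49.Samp
open Crest.Agent.T49.End (pcw)

variable {ι : Type} {D : ℕ}

open Classical in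
/-- the shape of the frames based in a class and a window -/
def psh (D : ℕ) {σ lam : ℝ} (hσ : 0 < σ) (hl : 0 < lam) {g : ℕ} (hg : 0 < g) (r : ι → ℤ)
    (cen : ι → ℝ) : Sh ι D where
  sc _ α := if α = 0 then lam else σ ^ α.degree
  g _ α := if α = 0 then g else 1
  r c := C (r c)
  cen c := C (cen c)
  sc_pos _ α := by split_ifs; exacts [hl, pow_pos hσ _]
  g_pos _ α := by split_ifs; exacts [by exact_mod_cast hg, one_pos]

open Classical in
/-- natural coordinates of the same frame -/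
def up (g : ℕ) (r : ι → ℤ) {lev : ι → ℕ} (z : FI D lev → ℤ) (x : FI D lev) : ℤ :=
  if x.2.1 = 0 then r x.1 + g * z x else z x

section
variable {σ lam : ℝ} (hσ : 0 < σ) (hl : 0 < lam) {g : ℕ} (hg : 0 < g) (r : ι → ℤ) (cen : ι → ℝ)

theorem psh_fr {lev : ι → ℕ} (z : FI D lev → ℤ) :
    (psh D hσ hl hg r cen).fr z = (nat ι D σ hσ).fr (up g r z) := by
  classical
  funext c
  have h1 : (C (r c) : MvPolynomial (Fin D) ℤ) = ∑ α : {α // α ∈ mi D (lev c)},
      monomial α.1 (if α.1 = 0 then r c else 0) := by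
    rw [Finset.sum_eq_single ⟨0, zero_mem_mi D _⟩]
    · simp
    · intro β _ hβ
      rw [if_neg fun h => hβ (Subtype.ext h), map_zero]
    · simp
  show C (r c) + _ = 0 + _
  rw [h1, zero_add, ← sum_add_distrib]
  refine sum_congr rfl fun α _ => ?_
  rw [← map_add]
  congr 1
  simp only [psh, nat, up]
  split_ifs <;> simp

theorem up_glue {lev : ι → ℕ} (y : ι → ℤ) (u : {x : FI D lev // ¬ q0 x} → ℤ) :
    up g r (glue q0 (eB D lev y) u) = glue q0 (eB D lev (r + (g : ℤ) • y)) u := by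
  funext x
  by_cases h : q0 x
  · rw [up, if_pos (show x.2.1 = 0 from h), glue_pos _ _ h, glue_pos _ _ h]; rfl
  · rw [up, if_neg (show ¬ x.2.1 = 0 from h), glue_neg _ _ h, glue_neg _ _ h]

theorem bp_up {lev : ι → ℕ} (z : FI D lev → ℤ) : bp (up g r z) = r + (g : ℤ) • bp z := by
  funext c
  show up g r z (b0 D lev c) = _
  rw [up, if_pos (show (b0 D lev c).2.1 = 0 from rfl)]; rfl

include hg in
theorem up_injective {lev : ι → ℕ} : Function.Injective (up (D := D) g r (lev := lev)) := by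
  intro z z' h
  funext x
  have := congrFun h x
  unfold up at this
  split_ifs at this
  · exact mul_left_cancel₀ (by exact_mod_cast hg.ne' : (g : ℤ) ≠ 0) (add_left_cancel this)
  · exact this

theorem exists_up {lev : ι → ℕ} {z : FI D lev → ℤ} (h : Cong g (bp z) r) : ∃ z', up g r z' = z := by
  obtain ⟨v, hv⟩ := cong_iff.1 h
  refine ⟨glue q0 (eB D lev v) fun x => z x.1, ?_⟩
  rw [up_glue, ← hv, eB_bp, glue_restrict]

theorem psh_bpt (y : ι → ℤ) : (psh D hσ hl hg r cen).bpt y = r + (g : ℤ) • y := by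
  funext c
  show coeff 0 (C (r c)) + (if (0 : Fin D →₀ ℕ) = 0 then (g : ℤ) else 1) * y c = _
  rw [if_pos rfl, coeff_zero_C]; rfl

theorem psh_ok {lev : ι → ℕ} (h0 : ∀ c, 0 < lev c) {s : ℕ} (hs : ∀ c, lev c ≤ s) {v u : ℝ}
    (hv : 0 ≤ v) (h : σ⁻¹ ≤ Real.exp v) (hu : s * v ≤ u) (hgu : (g : ℝ) ≤ Real.exp u)
    (hlu : lam⁻¹ ≤ Real.exp u) : (psh D hσ hl hg r cen).Ok lev u := by
  obtain ⟨G, -, -, h3⟩ := (nat_ok (D := D) hs hσ hv h).mono hu
  refine ⟨g, by exact_mod_cast hg, by exact_mod_cast hgu, fun c α hα => ?_⟩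
  simp only [psh]
  split_ifs
  · exact ⟨dvd_pow_self _ (h0 c).ne', hlu⟩
  · exact ⟨one_dvd _, (h3 c α hα).2⟩

variable [Fintype ι] (T : Cell ι)

theorem psh_fib_wgt (y : ι → ℤ) (u : {x : FI D T.lev // ¬ q0 x} → ℤ) :
    (((psh D hσ hl hg r cen).fc T).fib q0 (eB D T.lev y)).wgt u =
      ((nfc T D hσ).fib q0 (eB D T.lev (r + (g : ℤ) • y))).wgt u := by
  classical
  rw [Tri.fib_wgt, Tri.fib_wgt]
  refine congrArg (fun t => Real.exp (-Real.pi * t)) (sum_congr rfl fun x _ => ?_)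
  have hx : ¬ x.1.2.1 = 0 := x.2
  rw [Sh.ev_fc_th, Sh.ev_fc_th, psh_fr, up_glue]
  simp only [psh, nat, if_neg hx, coeff_sub, coeff_C, coeff_zero, if_neg (Ne.symm hx)]

theorem psh_bw (y : ι → ℤ) :
    (psh D hσ hl hg r cen).bw T y = wc T lam cen g r (r + (g : ℤ) • y) := by
  rw [Sh.bw, psh_bpt, wc, cls, if_pos (cong_iff.2 ⟨y, rfl⟩), one_mul]
  simp [psh]

theorem psh_bmu : (psh D hσ hl hg r cen).bmu T = wmu T lam g := by
  simp [Sh.bmu, psh, wmu, Tri.mu, prod_mul_distrib, mul_comm, div_pow]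

theorem psh_mu : (psh D hσ hl hg r cen).mu T = fmu T D σ * (lam / g) ^ Fintype.card ι := by
  have h1 : hmu ((psh D hσ hl hg r cen).fc T).toTri q0 = hmu (nfc T D hσ).toTri q0 := by
    refine prod_congr rfl fun x _ => ?_
    have hx : ¬ x.1.2.1 = 0 := x.2
    simp only [Sh.fc_a, psh, nat, if_neg hx]
  rw [← Sh.fc_mu, ← nfc_mu T hσ, mu_eq _ q0, mu_eq (nfc T D hσ).toTri q0, h1, Sh.sub_mu, Sh.sub_mu,
    psh_bmu, nat_bmu, wmu]
  ring

theorem psh_wt (z : FI D T.lev → ℤ) :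
    (psh D hσ hl hg r cen).wt T ((psh D hσ hl hg r cen).fr z) =
      fw T σ (frE D T.lev (up g r z)) * pcw T lam cen g r (bp (up g r z)) := by
  have h1 : ((psh D hσ hl hg r cen).fc T).Closed q0 := Sh.fc_clo _ T
  have h2 : (nfc T D hσ).Closed q0 := Sh.fc_clo _ T
  have e : z = glue q0 (eB D T.lev (bp z)) fun x => z x.1 := by rw [eB_bp, glue_restrict]
  rw [← Sh.fc_wgt, ← nfc_wgt T hσ, bp_up]
  conv_lhs => rw [e]
  conv_rhs => rw [e, up_glue]
  rw [h1.wgt_glue, h2.wgt_glue, psh_fib_wgt, Sh.sub_wgt, Sh.sub_wgt, psh_bw, nat_bw,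
    ← wgt_mul_pcw, ← e]
  ring

theorem psh_condR (b : (FI D T.lev → ℤ) → ℝ) (y : ι → ℤ) :
    (psh D hσ hl hg r cen).condR T (fun z => b (up g r z)) y =
      (nat ι D σ hσ).condR T b (r + (g : ℤ) • y) := by
  simp only [Sh.condR, cndR, Tri.M, psh_fib_wgt, up_glue]

end

variable [Fintype ι]

/-- **LIN**, weights on all frames -/
theorem lin_wt (T : Cell ι) {s : ℕ} (hs : ∀ c, T.lev c ≤ s) {σ v : ℝ} (hσ : 0 < σ) (hv : 0 ≤ v)
    (h : σ⁻¹ ≤ Real.exp v) {b : Frm D T.lev → ℝ} (hb : ∀ V, 0 ≤ b V ∧ b V ≤ 1) :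
    ∃ Dn : (ι → ℤ) → ℝ, (∀ y, 0 ≤ Dn y ∧ Dn y ≤ 1) ∧ ∀ (u x η lam : ℝ) (g : ℕ) (r : ι → ℤ)
      (cen : ι → ℝ) (ψ : (ι → ℤ) → ℝ), T.AllPC x η → (s + 5) * fl D s u ≤ x → η ≤ 1 →
      s * v ≤ u → 0 < lam → 0 < g → (g : ℝ) ≤ Real.exp u → lam⁻¹ ≤ Real.exp u →
      (∀ y, |ψ y| ≤ 1) →
      |(∑' V, fw T σ V * (b V * (pcw T lam cen g r (V.pt 0) * ψ (V.pt 0)))) /
          (fmu T D σ * (lam / g) ^ Fintype.card ι) -
        (∑' y, wc T lam cen g r y * (Dn y * ψ y)) / wmu T lam g| ≤ 3 * √η := by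
  have hb' : ∀ z, |b (frE D T.lev z)| ≤ 1 := fun z => by
    rw [abs_of_nonneg (hb _).1]; exact (hb _).2
  refine ⟨(nat ι D σ hσ).condR T fun z => b (frE D T.lev z), fun y =>
    ⟨Sh.condR_nonneg _ _ (fun z => (hb _).1) y, (le_abs_self _).trans (Sh.abs_condR_le _ _ hb' y)⟩,
    fun u x η lam g r cen ψ hA hx hη hu hl hg hgu hlu hψ => ?_⟩
  have h1 := (psh D hσ hl hg r cen).fib_condR T hs
    (psh_ok hσ hl hg r cen T.lev_pos hs hv h hu hgu hlu) hA hx hη
    (b := fun z => b (frE D T.lev (up g r z))) (fun z => hb' _)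
    (G := fun y => ψ (r + (g : ℤ) • y)) fun y => hψ _
  rw [psh_mu, psh_bmu] at h1
  convert h1 using 4
  · rw [← (frE D T.lev).tsum_eq, ← (up_injective (D := D) hg r).tsum_eq
      (f := fun z => fw T σ (frE D T.lev z) * (b (frE D T.lev z) * (pcw T lam cen g r
        ((frE D T.lev z).pt 0) * ψ ((frE D T.lev z).pt 0)))) fun z hz => ?_]
    · refine tsum_congr fun z => ?_
      rw [psh_wt, pt_zero_frE, bp_up]
      ring
    · by_contra hn
      refine hz ?_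
      have : cls g r (bp z) = 0 := by
        rw [cls, if_neg fun h' => hn (exists_up r h')]
      simp only [pt_zero_frE, pcw, this, zero_mul, mul_zero]
  · have e : ∀ y, wc T lam cen g r y * ((nat ι D σ hσ).condR T (fun z => b (frE D T.lev z)) y *
        ψ y) = cls g r y * (wc T lam cen g r y *
          ((nat ι D σ hσ).condR T (fun z => b (frE D T.lev z)) y * ψ y)) := fun y => by
      rw [wc, cls]
      split_ifs <;> simp
    rw [tsum_congr e, tsum_cls hg]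
    refine tsum_congr fun y => ?_
    rw [psh_bw, psh_condR hσ hl hg r cen T fun z => b (frE D T.lev z)]

/-- **LIN**: the functional of a finite family of frames -/
theorem lin (T : Cell ι) {s : ℕ} (hs : ∀ c, T.lev c ≤ s) {σ v : ℝ} (hσ : 0 < σ) (hv : 0 ≤ v)
    (h : σ⁻¹ ≤ Real.exp v) {L : ℕ} (hL : 0 < L) (Z : Finset (Frm D T.lev))
    (wt : Frm D T.lev → ℝ) (rb : Frm D T.lev → (Fin D → ℤ) → Frm D T.lev)
    (hrb : ∀ W t, (rb W t).pt 0 = W.pt t) (hinj : ∀ t, Function.Injective (rb · t))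
    (hw0 : ∀ W, 0 ≤ wt W) (hw : ∀ W ∈ Z, ∀ t ∈ pos D L, wt W ≤ fw T σ (rb W t)) :
    ∃ Dn : (ι → ℤ) → ℝ, (∀ y, 0 ≤ Dn y ∧ Dn y ≤ 1) ∧ ∀ (u x η lam : ℝ) (g : ℕ) (r : ι → ℤ)
      (cen : ι → ℝ) (ψ : (ι → ℤ) → ℝ), T.AllPC x η → (s + 5) * fl D s u ≤ x → η ≤ 1 →
      s * v ≤ u → 0 < lam → 0 < g → (g : ℝ) ≤ Real.exp u → lam⁻¹ ≤ Real.exp u →
      (∀ y, |ψ y| ≤ 1) →
      |(∑ t ∈ pos D L, ∑ W ∈ Z, wt W * (pcw T lam cen g r (W.pt t) * ψ (W.pt t))) /
          (fmu T D σ * (lam / g) ^ Fintype.card ι * (L : ℝ) ^ D) -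
        (∑' y, wc T lam cen g r y * (Dn y * ψ y)) / wmu T lam g| ≤ 3 * √η := by
  classical
  have hLD : (0 : ℝ) < (L : ℝ) ^ D := by positivity
  have hcard : (#(pos D L) : ℝ) = (L : ℝ) ^ D := by simp [pos]
  let a : Frm D T.lev → ℝ := fun V => ∑ t ∈ pos D L, ∑ W ∈ Z, if rb W t = V then wt W else 0
  have ha0 : ∀ V, 0 ≤ a V := fun V => sum_nonneg fun t _ => sum_nonneg fun W _ => by
    split_ifs; exacts [hw0 W, le_rfl]
  have ha1 : ∀ V, a V ≤ (L : ℝ) ^ D * fw T σ V := fun V => by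
    rw [← hcard, ← nsmul_eq_mul]
    refine sum_le_card_nsmul _ _ _ fun t ht => ?_
    by_cases hV : ∃ W ∈ Z, rb W t = V
    · obtain ⟨W, hW, rfl⟩ := hV
      rw [sum_eq_single W (fun W' _ hW' => if_neg fun h' => hW' (hinj t h'))
        fun h' => absurd hW h', if_pos rfl]
      exact hw W hW t ht
    · rw [sum_eq_zero fun W hW => if_neg fun h' => hV ⟨W, hW, h'⟩]
      exact (Fm.fw_pos T σ V).le
  obtain ⟨Dn, h1, h2⟩ := lin_wt T hs hσ hv h (b := fun V => a V / ((L : ℝ) ^ D * fw T σ V))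
    fun V => ⟨div_nonneg (ha0 V) (mul_pos hLD (Fm.fw_pos T σ V)).le,
      (div_le_one (mul_pos hLD (Fm.fw_pos T σ V))).2 (ha1 V)⟩
  refine ⟨Dn, h1, fun u x η lam g r cen ψ hA hx hη hu hl hg hgu hlu hψ => ?_⟩
  have h3 := h2 u x η lam g r cen ψ hA hx hη hu hl hg hgu hlu hψ
  have e : ∑' V, fw T σ V * (a V / ((L : ℝ) ^ D * fw T σ V) *
      (pcw T lam cen g r (V.pt 0) * ψ (V.pt 0))) = (∑ t ∈ pos D L, ∑ W ∈ Z, wt W *
        (pcw T lam cen g r (W.pt t) * ψ (W.pt t))) / (L : ℝ) ^ D := by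
    have e1 : ∀ V, fw T σ V * (a V / ((L : ℝ) ^ D * fw T σ V) *
        (pcw T lam cen g r (V.pt 0) * ψ (V.pt 0))) = (∑ t ∈ pos D L, ∑ W ∈ Z,
          if V = rb W t then wt W * (pcw T lam cen g r (W.pt t) * ψ (W.pt t)) else 0) /
            (L : ℝ) ^ D := fun V => by
      have := (Fm.fw_pos T σ V).ne'
      have e2 : a V * (pcw T lam cen g r (V.pt 0) * ψ (V.pt 0)) = ∑ t ∈ pos D L, ∑ W ∈ Z,
          if V = rb W t then wt W * (pcw T lam cen g r (W.pt t) * ψ (W.pt t)) else 0 := by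
        simp only [a, sum_mul]
        refine sum_congr rfl fun t _ => sum_congr rfl fun W _ => ?_
        by_cases hV : rb W t = V
        · rw [if_pos hV, if_pos hV.symm, ← hV, hrb]
        · rw [if_neg hV, if_neg fun h' => hV h'.symm, zero_mul]
      rw [← e2]
      field_simp
    rw [tsum_congr e1, tsum_div_const]
    congr 1
    rw [Summable.tsum_finsetSum fun t _ => summable_sum fun W _ => (hasSum_ite_eq _ _).summable]
    refine sum_congr rfl fun t _ => ?_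
    rw [Summable.tsum_finsetSum fun W _ => (hasSum_ite_eq _ _).summable]
    exact sum_congr rfl fun W _ => tsum_ite_eq _ _
  rwa [e, div_div, mul_comm ((L : ℝ) ^ D)] at h3

end Crest.Agent.T49.Ea
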