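import Crest.Agent.T49.UrGam_39
import Crest.Agent.T49.EaIn_65
import Crest.Agent.T49.EaNew_65

/-!
# Row 49 (helper65): END, regularisation of the extended cell and the final cells
-/

set_option autoImplicit false

noncomputable section

namespace Crest.Agent.T49.Ea

open Finset
open Crest.Agent.T49.Tw Crest.Agent.T49.Gl Crest.Agent.T49.Samp Crest.Agent.T49.Mal
open Crest.Agent.T49.Rg Crest.Agent.T49.Ur

namespace M65

theorem exists_m0 (E : ℕ) : ∃ m0 : ℝ, 0 ≤ m0 ∧ ∀ m, m0 ≤ m → 2 * m ^ E ≤ Real.exp m := by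
  obtain ⟨m0, h⟩ := Filter.eventually_atTop.1
    ((Real.tendsto_exp_div_pow_atTop E).eventually_ge_atTop 2)
  refine ⟨max m0 1, by positivity, fun m hm => ?_⟩
  have h1 : 0 < m := lt_of_lt_of_le one_pos ((le_max_right _ _).trans hm)
  exact (le_div_iff₀ (by positivity)).1 (h m ((le_max_left _ _).trans hm))

/-- a chain of thresholds that are powers of `m` -/
theorem exists_chain (K Dz : ℕ) : ∃ e : ℕ → ℕ, e 0 = 1 ∧ ∀ i, ∀ m : ℝ, 2 ≤ m →
    (m ^ e i + (1 + m ^ 2 + (2 * m) ^ K * (m ^ e i + m))) ^ Dz ≤ m ^ e (i + 1) ∧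
    m ^ e i + (1 + m ^ 2 + (2 * m) ^ K * (m ^ e i + m)) ≤ m ^ e (i + 1) := by
  have h : ∀ e : ℕ, ∃ C : ℕ, ∀ m : ℝ, 2 ≤ m →
      (m ^ e + (1 + m ^ 2 + (2 * m) ^ K * (m ^ e + m))) ^ Dz ≤ m ^ C ∧
      m ^ e + (1 + m ^ 2 + (2 * m) ^ K * (m ^ e + m)) ≤ m ^ C := fun e => by qp
  choose nx hnx using h
  exact ⟨fun i => nx^[i] 1, rfl, fun i m hm => by
    simp only [Function.iterate_succ_apply']; exact hnx _ m hm⟩

variable {ι κ : Type} [Fintype ι] [Fintype κ]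

theorem dens_ge (U : Cell ι) {g : (ι → ℤ) → ℝ} {γ : ℝ} (hg : ∀ z, |g z| ≤ 1)
    (h : 0 ≤ Sg U.toTri fun z => g z - γ) : γ ≤ Fr.dens U g := by
  have h1 := Sg_add_const U.toTri hg (-γ)
  simp only [← sub_eq_add_neg] at h1
  rw [Fr.dens, le_div_iff₀ U.toTri.M_pos]
  rw [h1, Sg] at h
  linarith

variable {T : Cell ι} {E : Ext T.lev κ} {a m : ℝ} {ha : a ≠ 0} {c : κ → ℝ} {s : ℕ}

theorem sum_new (hs : ∀ i, T.lev i ≤ s) {j : ℕ} (hj : s < j) (F : ι ⊕ κ → ℝ) {B : ℝ} (hB : 0 ≤ B)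
    (hF : ∀ k, F (Sum.inr k) ≤ B) :
    ∑ x ∈ univ.filter (fun x => clE T E s x = j), F x ≤ Fintype.card κ * B := by
  rw [sum_filter, Fintype.sum_sum_type, sum_eq_zero, zero_add, ← card_univ, ← nsmul_eq_mul]
  · refine sum_le_card_nsmul _ _ _ fun k _ => ?_
    split_ifs
    exacts [hF k, hB]
  · intro i _
    exact if_neg fun h : T.lev i = j => absurd (h ▸ hs i : j ≤ s) (not_le.2 hj)

theorem log_one_add (h1 : 1 ≤ a) (h2 : a ≤ Real.exp (m - 2)) : Real.log (1 + |a|) ≤ m - 1 := by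
  rw [abs_of_nonneg (by linarith), Real.log_le_iff_le_exp (by linarith),
    show m - 1 = m - 2 + 1 by ring, Real.exp_add]
  nlinarith [Real.add_one_le_exp (1 : ℝ), Real.exp_pos (m - 2)]

end M65

open M65

set_option maxHeartbeats 800000 in
/-- **MID** -/
theorem mid65 (hR : RegStmt) {s : ℕ} (hs : 1 ≤ s) {k : ℝ} (hk : k ≠ 0) (hk1 : |k| ≤ 1) :
    ∃ e Dz : ℕ, 1 ≤ e ∧ ∀ CI : ℕ, ∃ (E : ℕ) (m0 : ℝ), e ≤ E ∧ 0 ≤ m0 ∧ ∀ (m R : ℝ) (ι κ : Type)
    [Fintype ι] [Fintype κ] (T : Cell ι) (τ0 : ℕ → ℝ) (Ex : Ext (scl T k hk).lev κ) (a : ℝ)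
    (ha : a ≠ 0) (c : κ → ℝ) (β : ℝ) (h : (ι → ℤ) → ℝ), m0 ≤ m → 2 ≤ R → 2 * R + 6 ≤ m →
    (Fintype.card ι : ℝ) ≤ R → (Fintype.card κ : ℝ) ≤ R → (∀ i, T.lev i ≤ s) →
    (∀ j, Ex.lev j ≤ s) → (∀ l, T.kap l ≤ Real.exp R) → T.RegM T.lev Dz s τ0 →
    m ^ E ≤ τ0 (s + 1) → 1 ≤ a → a ≤ Real.exp (m - 2) → Real.exp (-(m - 2)) ≤ β → β ≤ 1 →
    (∀ y, |h y| ≤ 1) →
    Real.exp (-m) * (Ext.cell (scl T k hk) Ex (fun _ => a) (fun _ => ha) c).mu ≤
      Sg (Ext.cell (scl T k hk) Ex (fun _ => a) (fun _ => ha) c).toTri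
        (fun z => (h (z ∘ Sum.inl) - β) / 2) →
    ∃ (G : ℕ) (u : ℝ) (cen : ι → ℝ) (r : ι → ℤ) (Γ : (ι → ℤ) → ℝ), 1 ≤ G ∧
      (G : ℝ) ≤ Real.exp (m ^ E) ∧ 0 ≤ u ∧ u ≤ m ^ E ∧ (∀ y, 0 ≤ Γ y ∧ Γ y ≤ Real.exp (m ^ e)) ∧
      β / 4 * wmu (scl T k hk) (Real.exp (-u)) G ≤
        ∑' y, wc (scl T k hk) (Real.exp (-u)) cen G r y * (Γ y * h y) ∧
      ∀ (d : ℕ) (l : ℝ) (c' : ι → ℝ) (r' : ι → ℤ), 1 ≤ d → (d : ℝ) ≤ Real.exp ((m ^ e) ^ CI) →
        Real.exp (-(m ^ e) ^ CI) ≤ l → l ≤ 1 → Cong G r' r →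
        |∑' y, wc (scl T k hk) (Real.exp (-u) * l) c' (G * d) r' y * Γ y -
            wmu (scl T k hk) (Real.exp (-u) * l) (G * d)| ≤
          wmu (scl T k hk) (Real.exp (-u) * l) (G * d) / 10 ∧
        ∀ (f : (ι → ℤ) → ℝ) (γ : ℝ), (∀ y, |f y| ≤ 1) →
          0 ≤ ∑' y, wc (scl T k hk) (Real.exp (-u) * l) c' (G * d) r' y * (Γ y * (f y - γ)) →
          ∃ (ι' : Type) (_ : Fintype ι') (U : Cell ι') (φ : ι → Pl ι'),
            (∀ c, U.lev c ≤ s) ∧ Fintype.card ι' ≤ Fintype.card ι + Fintype.card κ ∧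
            (∀ l, U.kap l ≤ T.kap l + m ^ E) ∧ Fr.Piece T U φ (m ^ E) ∧ U.mu ≤ 2 * U.M ∧
            γ ≤ Fr.dens U fun z => f (pt φ z) := by
  obtain ⟨K, hK⟩ := hR s hs
  obtain ⟨Dz, hZ⟩ := zo_mass s
  obtain ⟨e, e0, he⟩ := exists_chain K Dz
  obtain ⟨e1, he1⟩ : ∃ C : ℕ, ∀ m : ℝ, 2 ≤ m → s * m ^ e s ≤ m ^ C := by qp
  obtain ⟨K0, hK0, hK1⟩ : ∃ K0 : ℝ, 0 ≤ K0 ∧ Real.exp (-K0) = |k| :=
    ⟨-Real.log |k|, neg_nonneg.2 (Real.log_nonpos (abs_nonneg _) hk1), by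
      rw [neg_neg, Real.exp_log (abs_pos.2 hk)]⟩
  refine ⟨e1 + 1, 2 * Dz + 2, by omega, fun CI => ?_⟩
  obtain ⟨E, hE⟩ : ∃ C : ℕ, ∀ m : ℝ, 2 ≤ m →
      m + m ^ 2 + (2 * m) ^ K * (m ^ e s + (m ^ (e1 + 1)) ^ CI + m) ≤ m ^ C ∧
      m ^ e s + 2 * ((s + 1) ^ 2 * ((2 * m) ^ K * (m ^ e s + (m ^ (e1 + 1)) ^ CI + m) +
        (m ^ (e1 + 1)) ^ CI) + 2) ≤ m ^ C ∧
      6 * ((2 * m) ^ K * (m ^ e s + (m ^ (e1 + 1)) ^ CI + m) + (m ^ (e1 + 1)) ^ CI +
        2 * (m ^ e s + m) + m ^ 2 + K0) ^ 2 ≤ m ^ C := by qp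
  obtain ⟨m0, hm0, hm1⟩ := exists_m0 E
  refine ⟨E + e1 + 1, m0, by omega, hm0, fun m R ι κ _ _ T τ0 Ex a ha c β h b1 hR2 b2 hι hκ hlev
    hlevE hkap hreg hτ0 a1 a2 β1 β2 hh hS => ?_⟩
  have hm : 2 ≤ m := by linarith
  obtain ⟨c1, c2, c3⟩ := hE m hm
  have pE : m ^ E ≤ m ^ (E + e1 + 1) := Qp.pw_mono hm (by omega)
  have he1' : s * m ^ e s ≤ m ^ (e1 + 1) := (he1 m hm).trans (Qp.pw_mono hm (by omega))
  obtain ⟨y, hy⟩ : ∃ y, y = (m ^ (e1 + 1)) ^ CI := ⟨_, rfl⟩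
  have y0 : 0 ≤ y := by rw [hy]; positivity
  rw [← hy] at c1 c2 c3 ⊢
  obtain ⟨N, hN⟩ : ∃ N, N = (2 * m) ^ K := ⟨_, rfl⟩
  have N1 : 1 ≤ N := by rw [hN]; exact one_le_pow₀ (by linarith)
  obtain ⟨τ, hτ⟩ : ∃ τ : ℕ → ℝ, τ = fun j => m ^ e (s + s + 1 - j) := ⟨_, rfl⟩
  have τ1 : τ (s + 1) = m ^ e s := by rw [hτ]; simp only; congr 2; omega
  have τ2 : τ (s + s + 1) = m := by rw [hτ]; simp [e0]
  have τ0' : ∀ j, 1 ≤ τ j := fun j => by rw [hτ]; exact one_le_pow₀ (by linarith)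
  have τs : ∀ j, j ≤ s + s → (τ (j + 1) + (1 + m ^ 2 + N * (τ (j + 1) + m))) ^ Dz ≤ τ j ∧
      τ (j + 1) + (1 + m ^ 2 + N * (τ (j + 1) + m)) ≤ τ j := fun j hj => by
    have := he (s + s - j) m hm
    rw [hτ, hN]
    simp only
    rwa [show s + s + 1 - (j + 1) = s + s - j by omega,
      show s + s + 1 - j = s + s - j + 1 by omega]
  have n0 : ∀ j, 0 ≤ N * (τ j + m) := fun j => mul_nonneg (by linarith) (by linarith [τ0' j])
  have m2 : 0 ≤ m ^ 2 := by positivity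
  have τm : ∀ j, s + 1 ≤ j → j ≤ s + s + 1 → τ j ≤ τ (s + 1) := fun j h1 => by
    induction h1 with
    | refl => exact fun _ => le_rfl
    | @step j h1 ih =>
      intro h2
      linarith [ih (by omega), (τs j (by omega)).2, n0 (j + 1)]
  rw [← hN, ← τ1] at c1 c2 c3
  rw [← τ1] at he1'
  have x0 : τ (s + 1) + y + m ≤ N * (τ (s + 1) + y + m) :=
    le_mul_of_one_le_left (by linarith [τ0' (s + 1)]) N1
  have t1 := τ0' (s + 1)
  have t2 := τm (s + 2) (by omega) (by omega)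
  have t3 := mul_le_mul_of_nonneg_left (show τ (s + 2) + m ≤ τ (s + 1) + y + m by linarith)
    (zero_le_one.trans N1)
  obtain ⟨x, hx⟩ : ∃ x, N * (τ (s + 1) + y + m) = x := ⟨_, rfl⟩
  rw [hx] at c1 c2 c3 x0 t3
  obtain ⟨z, hz⟩ : ∃ z, x + y + 2 * (τ (s + 1) + m) + m ^ 2 + K0 = z := ⟨_, rfl⟩
  rw [hz] at c3
  replace c2 := And.intro ((c2.trans pE).trans hτ0) hx
  clear hx hE he he1 hy hτ τ1
  have la := log_one_add a1 a2
  have lv : ∀ i, (scl T k hk).lev i ≤ s := hlev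
  have km : (Fintype.card κ : ℝ) * m ≤ m ^ 2 := by
    rw [sq]; exact mul_le_mul_of_nonneg_right (by linarith) (by linarith)
  have k1 : ∀ j, s < j → (Ext.cell (scl T k hk) Ex (fun _ => a) (fun _ => ha) c).kapM
      (clE (scl T k hk) Ex s) j ≤ 1 + m ^ 2 := fun j hj =>
    add_le_add_right ((sum_new lv hj _ (B := m) (by linarith) fun _ => by
      change 1 + Real.log (1 + |a|) ≤ m
      linarith).trans km) _
  have k2 : lm (Ext.cell (scl T k hk) Ex (fun _ => a) (fun _ => ha) c).toTri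
      (clE (scl T k hk) Ex s) (s + 1) ≤ m ^ 2 :=
    (sum_new lv (Nat.lt_succ_self s) _ (B := m) (by linarith) fun _ => by
      change Real.log |a| ≤ m
      exact (Real.log_le_log (abs_pos.2 ha) (by linarith)).trans (la.trans (by linarith))).trans km
  have k3 : kt (Ext.cell (scl T k hk) Ex (fun _ => a) (fun _ => ha) c).toTri ≤
      Real.exp m / 2 + m ^ 2 := by
    rw [kt, Fintype.sum_sum_type]
    refine add_le_add ((sum_le_card_nsmul _ _ (Real.exp R) fun i _ => ?_).trans ?_)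
      ((sum_le_card_nsmul _ _ m fun j _ => ?_).trans ?_)
    · refine le_trans ?_ ((Fr.O26.term_le_kap T i).trans (hkap _))
      change Real.log (1 + |k * T.a i|) ≤ _
      refine Real.log_le_log (by positivity) ?_
      rw [abs_mul]
      linarith [mul_le_of_le_one_left (abs_nonneg (T.a i)) hk1]
    · rw [card_univ, nsmul_eq_mul]
      have d1 : Real.exp (R + R + 1) ≤ Real.exp m := Real.exp_le_exp.2 (by linarith)
      rw [Real.exp_add, Real.exp_add] at d1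
      have d2 : (Fintype.card ι : ℝ) * Real.exp R ≤ Real.exp R * Real.exp R :=
        mul_le_mul_of_nonneg_right (by linarith [Real.add_one_le_exp R]) (Real.exp_pos _).le
      have d3 : Real.exp R * Real.exp R * 2 ≤ Real.exp R * Real.exp R * Real.exp 1 :=
        mul_le_mul_of_nonneg_left (by linarith [Real.add_one_le_exp (1 : ℝ)]) (by positivity)
      linarith
    · exact la.trans (by linarith)
    · rwa [card_univ, nsmul_eq_mul]
  have hexp := hm1 m b1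
  obtain ⟨ι', _, T', cl', φ, v, G, u, hM, hmc, hcls, hlev', g1, g2, g3, g4, g5, g6⟩ :=
    hK s (ι ⊕ κ) (Ext.cell (scl T k hk) Ex (fun _ => a) (fun _ => ha) c) (clE (scl T k hk) Ex s)
      τ m m y (2 * m) (fun z => (h (z ∘ Sum.inl) - β) / 2) (ext_isMC lv) (ext_cls lv)
      (by rintro (i | j); exacts [hlev i, hlevE j])
      (by rw [Fintype.card_sum]; push_cast; linarith) (by linarith) y0 (by linarith)
      (by linarith [τ0' (s + s + 1)])
      (fun j j1 j2 => by rw [← hN]; linarith [k1 j j1, (τs j j2).2, τ0' (j + 1)])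
      (by rw [← hN, c2.2]; linarith)
      (fun z => by
        have := abs_le.1 (hh (z ∘ Sum.inl))
        rw [abs_le]
        constructor <;> linarith [Real.exp_pos (-(m - 2))]) hS
  rw [← hN] at g1 g2 g3 g4 g6
  rw [c2.2] at g1 g2
  clear hK hN
  have k4 : ∀ j, s < j → j ≤ s + s → T'.kapM cl' j ≤ 1 + m ^ 2 + N * (τ (j + 1) + m) :=
    fun j j1 j2 => by linarith [g3 j j1 j2, k1 j j1]
  have k5 : ∀ j, s < j → j ≤ s + s → T'.kapM cl' j ≤ τ (s + 1) := fun j j1 j2 => by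
    linarith [k4 j j1 j2, (τs j j2).2, τ0' (j + 1), τm j j1 (by omega)]
  have hcard := hM.card_le
  have hmass := hZ ι κ ι' T (scl T k hk) Ex _ _ c T' cl' φ v G u _ τ0 τ m y _ (m - 2)
    (pc_scl T hk hk1) hreg lv hM hmc hcls hlev' g1 g2
    (by linarith [τm (s + s + 1) (by omega) le_rfl]) c2.1
    (fun j j1 j2 => (pow_le_pow_left₀ (by linarith [τ0' (j + 1), T'.one_le_kapM cl' j])
      (by linarith [k4 j j1 j2]) _).trans (τs j j2).1)
    (fun j j1 j2 => by linarith [k5 j j1 j2]) g5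
    (by
      have d1 : (Fintype.card ι' : ℝ) ≤ R + R := by
        rw [Fintype.card_sum] at hcard
        exact le_trans (by exact_mod_cast hcard) (add_le_add hι hκ)
      linarith [Real.log_le_sub_one_of_pos (show (0 : ℝ) < Fintype.card ι' + 2 by positivity)])
    (by linarith)
  obtain ⟨cen, r, Γ, mun, mu0, hΓ, q1, q2, q3⟩ := exists_gam lv hM hmc
    (fun c' => by have := hlev' c'; rcases hcls c' with h | h <;> omega) k5
  have ten : Real.exp (-(m - 2)) ≤ 1 / 10 := by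
    have d1 : Real.exp (-(m - 2)) ≤ Real.exp (-2 + -2) := Real.exp_le_exp.2 (by linarith)
    rw [Real.exp_add] at d1
    linarith [mul_le_mul exp_small.1 exp_small.1 (Real.exp_pos _).le (by norm_num)]
  have main : ∀ (d : ℕ) (l : ℝ) (c' : ι → ℝ) (r' : ι → ℤ), 1 ≤ d → (d : ℝ) ≤ Real.exp y →
      Real.exp (-y) ≤ l → l ≤ 1 → Cong G r' r →
      |∑' y, wc (scl T k hk) (Real.exp (-u) * l) c' (G * d) r' y * Γ y -
          wmu (scl T k hk) (Real.exp (-u) * l) (G * d)| ≤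
        wmu (scl T k hk) (Real.exp (-u) * l) (G * d) / 10 ∧
      ∀ (f : (ι → ℤ) → ℝ) (γ : ℝ), (∀ y, |f y| ≤ 1) →
        0 ≤ ∑' y, wc (scl T k hk) (Real.exp (-u) * l) c' (G * d) r' y * (Γ y * (f y - γ)) →
        ∃ (ι' : Type) (_ : Fintype ι') (U : Cell ι') (φ : ι → Pl ι'),
          (∀ c, U.lev c ≤ s) ∧ Fintype.card ι' ≤ Fintype.card ι + Fintype.card κ ∧
          (∀ l, U.kap l ≤ T.kap l + m ^ (E + e1 + 1)) ∧ Fr.Piece T U φ (m ^ (E + e1 + 1)) ∧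
          U.mu ≤ 2 * U.M ∧ γ ≤ Fr.dens U fun z => f (pt φ z) := by
    intro d l c' r' d1 d2 l1 l2 hr
    obtain ⟨d, rfl⟩ : ∃ d' : ℕ+, (d' : ℕ) = d := ⟨⟨d, d1⟩, rfl⟩
    have l0 : 0 < l := (Real.exp_pos _).trans_le l1
    have l3 : 0 ≤ -Real.log l := neg_nonneg.2 (Real.log_nonpos l0.le l2)
    have l4 : -Real.log l ≤ y := neg_le.1 ((Real.le_log_iff_exp_le l0).2 l1)
    obtain ⟨r'', t'', z1, z2, z3⟩ := q3 d l c' r' l0 hr
    have z4 := (hmass d _ r'' t'' d2 l3 l4).trans ten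
    have z5 := (zo T' cl' s d (-Real.log l) r'' t'').toTri.mu_pos
    rw [div_sub_one z5.ne', abs_div, abs_of_pos z5, div_le_iff₀ z5] at z4
    refine ⟨?_, fun f γ hf h0 => ?_⟩
    · rw [z1, z2, ← mul_sub, abs_mul, abs_of_pos mu0] at z4
      exact le_of_mul_le_mul_left (z4.trans_eq (by ring)) mu0
    · obtain ⟨w1, w2, w3, w4⟩ := newcell T hk Ex _ _ c (fun _ => rfl) (fun _ => rfl) hM hcls hlev'
        hlev d r'' t'' (z := z)
        (by linarith) (by linarith) ((Real.exp_le_exp.2 (by linarith)).trans hK1.le) hk1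
        (fun _ => a1.trans (le_abs_self a)) (g1.trans (Real.exp_le_exp.2 (by linarith)))
        (d2.trans (Real.exp_le_exp.2 (by linarith))) (by linarith) l3 (by linarith) (by linarith)
        (fun j j1 j2 => by linarith [k5 j j1 j2])
        (by linarith)
      refine ⟨ι', inferInstance, zo T' cl' s d (-Real.log l) r'' t'', _, hlev', w1,
        fun l => by linarith [w2 l],
        ⟨w3.int, w3.deg, fun x Y hY hx => Fr.O26.sep_mono (w3.sep x Y hY hx) (by linarith),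
          by linarith [w3.lm]⟩, by linarith [(abs_le.1 z4).1], dens_ge _ (fun _ => hf _) ?_⟩
      simp only [w4]
      rw [z3 (fun y => f y - γ) (1 + |γ|) fun y => (abs_sub _ _).trans (add_le_add_left (hf y) _)]
      exact mul_nonneg mu0.le h0
  refine ⟨G, u, cen, r, Γ, G.pos, g1.trans (Real.exp_le_exp.2 (by linarith)), hM.u_nonneg,
    by linarith, fun y => ⟨(hΓ y).1, (hΓ y).2.trans (Real.exp_le_exp.2 he1')⟩, ?_, main⟩
  have s1 := (abs_le.1 (main 1 1 cen r le_rfl (by simpa using y0)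
    (Real.exp_le_one_iff.2 (by linarith)) le_rfl fun _ => by simp).1).1
  simp only [mul_one] at s1
  have s2 : T'.M = mun * ∑' y, wc (scl T k hk) (Real.exp (-u)) cen G r y * Γ y := by
    simpa [Sg, Tri.M] using q2 (fun _ => 1) 1 fun _ => by simp
  have s3 : Sg T'.toTri (fun z => (h (pt φ z ∘ Sum.inl) - β) / 2) =
      (Sg T'.toTri (fun z => h (pt φ z ∘ Sum.inl)) + -β * T'.M) / 2 := by
    rw [← Sg_add_const T'.toTri fun z => hh (pt φ z ∘ Sum.inl), Sg, Sg, ← tsum_div_const]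
    exact tsum_congr fun z => by ring
  have s4 : Real.exp (-m) ≤ β / 4 := by
    rw [show -m = -(m - 2) + -2 by ring, Real.exp_add]
    linarith [mul_le_mul β1 exp_small.1 (Real.exp_pos _).le ((Real.exp_pos _).le.trans β1)]
  have s5 := T'.toTri.M_pos
  have s6 := T'.toTri.mu_pos
  have s7 := (mul_pos (Real.exp_pos (-(m + N * (τ (s + 1) + m)))) s6).le.trans g6
  have β0 : 0 < β := (Real.exp_pos _).trans_le β1
  rw [s3, q2 h 1 hh] at s7
  have s8 : T'.mu / 2 ≤ T'.M := by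
    rw [q1] at s6 ⊢
    rw [s2]
    nlinarith [mul_le_mul_of_nonneg_left s1 mu0.le]
  refine le_of_mul_le_mul_left ?_ mu0
  rw [mul_left_comm, ← q1]
  nlinarith [mul_le_mul_of_nonneg_right s4 s5.le, mul_le_mul_of_nonneg_left s8 β0.le]

end Crest.Agent.T49.Ea
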