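import Crest.Agent.T49.EaEnd_65
import Crest.Agent.T49.RegF_4
import Crest.Agent.T49.EndInc_59
import Crest.Agent.T49.St_57

/-!
# Row 49 (helper65): END, unconditional
-/

namespace Crest.Agent.T49.Fr

/-- **END** -/
theorem endStmt : EndStmt := Ea.endStmt_of65 Rg.regStmt (End.incStmt_of Samp.sampTStmt)

end Crest.Agent.T49.Fr
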