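import Crest.Agent.T49.SampMob_57

/-! Uniform averages of periodic functions on `N → ℤ`, residue classes. -/

set_option autoImplicit false

namespace Crest.Agent.T49.Samp

open Finset

section
variable {N : Type*} [Fintype N] [DecidableEq N]

/-- representatives of `(ℤ/q)^N` -/
noncomputable def rbox (N : Type*) [Fintype N] [DecidableEq N] (q : ℕ) : Finset (N → ℤ) :=
  Fintype.piFinset fun _ => Finset.Ico (0 : ℤ) q

theorem mem_rbox {q : ℕ} {c : N → ℤ} : c ∈ rbox N q ↔ ∀ i, 0 ≤ c i ∧ c i < q := by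
  simp [rbox, Fintype.mem_piFinset]

theorem card_rbox (q : ℕ) : (rbox N q).card = q ^ Fintype.card N := by
  simp [rbox, Fintype.card_piFinset]

/-- uniform average over `(ℤ/q)^N` -/
noncomputable def pav (q : ℕ) (f : (N → ℤ) → ℝ) : ℝ :=
  (∑ c ∈ rbox N q, f c) / (q : ℝ) ^ Fintype.card N

omit [Fintype N] [DecidableEq N] in
/-- `q`-periodic functions -/
def Per (q : ℕ) (f : (N → ℤ) → ℝ) : Prop := ∀ c v : N → ℤ, f (c + (q : ℤ) • v) = f c

omit [Fintype N] [DecidableEq N] in
/-- congruence of integer vectors -/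
def Cong (q : ℕ) (c r : N → ℤ) : Prop := ∀ i, (q : ℤ) ∣ c i - r i

omit [Fintype N] [DecidableEq N] in
theorem cong_iff {q : ℕ} {c r : N → ℤ} : Cong q c r ↔ ∃ v : N → ℤ, c = r + (q : ℤ) • v := by
  constructor
  · intro h
    choose v hv using h
    exact ⟨v, funext fun i => by simp [← hv i]⟩
  · rintro ⟨v, rfl⟩ i
    simp

omit [Fintype N] [DecidableEq N] in
theorem Cong.refl (q : ℕ) (c : N → ℤ) : Cong q c c := fun i => by simp

omit [Fintype N] [DecidableEq N] in
theorem Cong.symm {q : ℕ} {c r : N → ℤ} (h : Cong q c r) : Cong q r c := fun i => by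
  have := (h i).neg_right; simpa using this

omit [Fintype N] [DecidableEq N] in
theorem Cong.trans {q : ℕ} {c r s : N → ℤ} (h : Cong q c r) (h' : Cong q r s) : Cong q c s :=
  fun i => by have := (h i).add (h' i); simpa using this

omit [Fintype N] [DecidableEq N] in
theorem Cong.of_dvd {q q' : ℕ} {c r : N → ℤ} (h : Cong q' c r) (hq : q ∣ q') : Cong q c r :=
  fun i => (Int.natCast_dvd_natCast.2 hq).trans (h i)

omit [Fintype N] [DecidableEq N] in
theorem cong_one (c r : N → ℤ) : Cong 1 c r := fun i => by simp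

omit [Fintype N] [DecidableEq N] in
theorem Per.congr {q : ℕ} {f : (N → ℤ) → ℝ} (hf : Per q f) {c r : N → ℤ} (h : Cong q c r) :
    f c = f r := by
  obtain ⟨v, rfl⟩ := cong_iff.1 h
  exact hf r v

omit [Fintype N] [DecidableEq N] in
theorem per_of_congr {q : ℕ} {f : (N → ℤ) → ℝ} (h : ∀ c r, Cong q c r → f c = f r) : Per q f :=
  fun _ v => h _ _ (cong_iff.2 ⟨v, rfl⟩)

omit [Fintype N] [DecidableEq N] in
theorem Per.of_dvd {q q' : ℕ} {f : (N → ℤ) → ℝ} (hf : Per q f) (hq : q ∣ q') : Per q' f :=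
  per_of_congr fun _ _ h => hf.congr (h.of_dvd hq)

omit [Fintype N] [DecidableEq N] in
/-- reduction modulo `q` -/
def red (q : ℕ) (c : N → ℤ) : N → ℤ := fun i => c i % q

omit [Fintype N] [DecidableEq N] in
theorem cong_red (q : ℕ) (c : N → ℤ) : Cong q c (red q c) := fun i =>
  ⟨c i / q, by have := Int.emod_add_mul_ediv (c i) q; simp only [red]; linarith⟩

theorem red_mem {q : ℕ} (hq : 0 < q) (c : N → ℤ) : red q c ∈ rbox N q :=
  mem_rbox.2 fun _ => ⟨Int.emod_nonneg _ (by omega), Int.emod_lt_of_pos _ (by omega)⟩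

theorem eq_of_cong {q : ℕ} {c r : N → ℤ} (hc : c ∈ rbox N q) (hr : r ∈ rbox N q)
    (h : Cong q c r) : c = r := by
  funext i
  have h1 := mem_rbox.1 hc i
  have h2 := mem_rbox.1 hr i
  have h3 : c i - r i = 0 := Int.eq_zero_of_abs_lt_dvd (h i) (by rw [abs_lt]; omega)
  omega

theorem sum_rbox_shift {q : ℕ} (hq : 0 < q) {f : (N → ℤ) → ℝ} (hf : Per q f) (v : N → ℤ) :
    ∑ c ∈ rbox N q, f (c + v) = ∑ c ∈ rbox N q, f c := by
  refine Finset.sum_nbij' (fun c => red q (c + v)) (fun c => red q (c - v))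
    (fun c _ => red_mem hq _) (fun c _ => red_mem hq _) (fun c hc => ?_) (fun c hc => ?_)
    (fun c _ => hf.congr (cong_red q _))
  · refine eq_of_cong (red_mem hq _) hc ((cong_red q _).symm.trans fun i => ?_)
    have := (cong_red q (c + v)).symm i
    simp only [Pi.sub_apply, Pi.add_apply] at this ⊢
    convert this using 1; ring
  · refine eq_of_cong (red_mem hq _) hc ((cong_red q _).symm.trans fun i => ?_)
    have := (cong_red q (c - v)).symm i
    simp only [Pi.sub_apply, Pi.add_apply] at this ⊢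
    convert this using 1; ring

theorem pav_shift {q : ℕ} (hq : 0 < q) {f : (N → ℤ) → ℝ} (hf : Per q f) (v : N → ℤ) :
    pav q (fun c => f (c + v)) = pav q f := by
  rw [pav, pav, sum_rbox_shift hq hf]

theorem pav_const {q : ℕ} (hq : 0 < q) (a : ℝ) : pav q (fun _ : N → ℤ => a) = a := by
  have : (0 : ℝ) < (q : ℝ) ^ Fintype.card N := by positivity
  rw [pav, Finset.sum_const, card_rbox, nsmul_eq_mul]
  push_cast
  field_simp

theorem pav_sum {ι : Type*} (q : ℕ) (S : Finset ι) (F : ι → (N → ℤ) → ℝ) :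
    pav q (fun c => ∑ i ∈ S, F i c) = ∑ i ∈ S, pav q (F i) := by
  simp only [pav]
  rw [Finset.sum_comm, Finset.sum_div]

theorem pav_cmul (q : ℕ) (a : ℝ) (f : (N → ℤ) → ℝ) : pav q (fun c => a * f c) = a * pav q f := by
  simp only [pav]
  rw [← Finset.mul_sum, mul_div_assoc]

theorem pav_sub (q : ℕ) (f g : (N → ℤ) → ℝ) :
    pav q (fun c => f c - g c) = pav q f - pav q g := by
  simp only [pav]
  rw [Finset.sum_sub_distrib, sub_div]

theorem pav_mono (q : ℕ) {f g : (N → ℤ) → ℝ} (h : ∀ c, f c ≤ g c) : pav q f ≤ pav q g :=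
  div_le_div_of_nonneg_right (Finset.sum_le_sum fun c _ => h c) (by positivity)

theorem abs_pav_le {q : ℕ} (hq : 0 < q) {f : (N → ℤ) → ℝ} {a : ℝ} (h : ∀ c, |f c| ≤ a) :
    |pav q f| ≤ a := by
  rw [abs_le]
  constructor
  · rw [← pav_const (N := N) hq (-a)]
    exact pav_mono q fun c => (abs_le.1 (h c)).1
  · rw [← pav_const (N := N) hq a]
    exact pav_mono q fun c => (abs_le.1 (h c)).2

theorem pav_comm {N' : Type*} [Fintype N'] [DecidableEq N'] (q e : ℕ)
    (F : (N → ℤ) → (N' → ℤ) → ℝ) :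
    pav q (fun c => pav e (fun w => F c w)) = pav e (fun w => pav q (fun c => F c w)) := by
  simp only [pav, ← Finset.sum_div]
  rw [Finset.sum_comm, div_div, div_div, mul_comm]

theorem pav_mob (M : ℕ) (u : (N → ℤ) → ℝ) (F : ℕ → (N → ℤ) → ℝ) (q : ℕ) :
    pav M (fun c => u c * mob (fun d => F d c) q) = mob (fun d => pav M (fun c => u c * F d c)) q := by
  have : (fun c => u c * mob (fun d => F d c) q) = fun c => ∑ y ∈ q.divisorsAntidiagonal,
      ((ArithmeticFunction.moebius y.1 : ℤ) : ℝ) * (u c * F y.2 c) := by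
    ext x; rw [← mob_cmul]; rfl
  rw [this, pav_sum]
  exact Finset.sum_congr rfl fun y _ => pav_cmul _ _ _

/-- two parametrisations with the same image modulo the periods give the same average -/
theorem pav_swap {N' A : Type*} [Fintype N'] [DecidableEq N'] [AddCommGroup A] {q e : ℕ}
    (hq : 0 < q) (he : 0 < e) (φ : (N → ℤ) →+ A) (ψ : (N' → ℤ) →+ A) (P : AddSubgroup A)
    (f : A → ℝ) (hf : ∀ x, ∀ y ∈ P, f (x + y) = f x) (hφ : ∀ v, φ ((q : ℤ) • v) ∈ P)
    (hψ : ∀ w, ψ ((e : ℤ) • w) ∈ P) (h1 : ∀ w, ∃ v, ψ w - φ v ∈ P) (h2 : ∀ v, ∃ w, φ v - ψ w ∈ P) :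
    pav q (fun v => f (φ v)) = pav e (fun w => f (ψ w)) := by
  have a1 : ∀ w, pav q (fun v => f (φ v + ψ w)) = pav q (fun v => f (φ v)) := by
    intro w
    obtain ⟨v0, h0⟩ := h1 w
    rw [← pav_shift hq (f := fun v => f (φ v)) (fun c v => by
      show f (φ (c + _)) = _
      rw [map_add, hf _ _ (hφ v)]) v0]
    congr 1; ext v
    rw [map_add, ← hf (φ v + φ v0) _ h0]
    congr 1; abel
  have a2 : ∀ v, pav e (fun w => f (φ v + ψ w)) = pav e (fun w => f (ψ w)) := by
    intro v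
    obtain ⟨w0, h0⟩ := h2 v
    rw [← pav_shift he (f := fun w => f (ψ w)) (fun c w => by
      show f (ψ (c + _)) = _
      rw [map_add, hf _ _ (hψ w)]) w0]
    congr 1; ext w
    rw [map_add, ← hf (ψ w + ψ w0) _ h0]
    congr 1; abel
  calc pav q (fun v => f (φ v)) = pav e (fun w => pav q (fun v => f (φ v + ψ w))) := by
        simp only [a1]; rw [pav_const he]
    _ = pav q (fun v => pav e (fun w => f (φ v + ψ w))) := (pav_comm q e _).symm
    _ = _ := by simp only [a2]; rw [pav_const hq]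

omit [Fintype N] [DecidableEq N] in
/-- the subgroup `q • ℤ^N` -/
def mulSub (N : Type*) (q : ℕ) : AddSubgroup (N → ℤ) where
  carrier := {x | ∀ i, (q : ℤ) ∣ x i}
  add_mem' := fun ha hb i => (ha i).add (hb i)
  zero_mem' := fun i => by simp
  neg_mem' := fun ha i => (ha i).neg_right

omit [Fintype N] [DecidableEq N] in
theorem Per.add_mem {q : ℕ} {f : (N → ℤ) → ℝ} (hf : Per q f) (x : N → ℤ) (y : N → ℤ)
    (hy : y ∈ mulSub N q) : f (x + y) = f x :=
  hf.congr fun i => by simpa using hy i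

omit [Fintype N] [DecidableEq N] in
theorem smul_mem_mulSub {q : ℕ} {a : ℤ} (h : (q : ℤ) ∣ a) (v : N → ℤ) : a • v ∈ mulSub N q :=
  fun i => by simpa using h.mul_right (v i)

/-- averaging a `b d`-periodic function along `z + b g w` (`w` mod `q`, `d ∣ q`) is averaging over
the class of `z` modulo `b gcd(d,g)` -/
theorem pav_gcd {b d q : ℕ} (g : ℕ) (hd : 0 < d) (hq : 0 < q) (hdq : d ∣ q) {f : (N → ℤ) → ℝ}
    (hf : Per (b * d) f) (z : N → ℤ) :
    pav q (fun w => f (z + ((b * g : ℕ) : ℤ) • w))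
      = pav (d / Nat.gcd d g) (fun y => f (z + ((b * Nat.gcd d g : ℕ) : ℤ) • y)) := by
  have hg0 : 0 < Nat.gcd d g := Nat.gcd_pos_of_pos_left g hd
  have he : 0 < d / Nat.gcd d g := Nat.div_pos (Nat.le_of_dvd hd (Nat.gcd_dvd_left d g)) hg0
  have key := pav_swap (N := N) (N' := N) hq he (DistribSMul.toAddMonoidHom (N → ℤ) ((b * g : ℕ) : ℤ))
    (DistribSMul.toAddMonoidHom (N → ℤ) ((b * Nat.gcd d g : ℕ) : ℤ)) (mulSub N (b * d))
    (fun x => f (z + x)) (fun x y hy => by
      show f (z + (x + y)) = _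
      rw [← add_assoc, hf.add_mem _ _ hy]) (fun v => ?_) (fun w => ?_) (fun w => ?_) (fun v => ?_)
  · exact key
  · simp only [DistribSMul.toAddMonoidHom_apply, smul_smul]
    refine smul_mem_mulSub ?_ _
    obtain ⟨k, rfl⟩ := hdq
    push_cast
    exact ⟨g * k, by ring⟩
  · simp only [DistribSMul.toAddMonoidHom_apply, smul_smul]
    refine smul_mem_mulSub ?_ _
    rw [← Nat.cast_mul, mul_assoc, Nat.mul_div_cancel' (Nat.gcd_dvd_left d g)]
  · refine ⟨(Nat.gcdB d g) • w, ?_⟩
    simp only [DistribSMul.toAddMonoidHom_apply, smul_smul, ← sub_smul]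
    refine smul_mem_mulSub ?_ _
    push_cast
    rw [← Int.gcd_natCast_natCast]
    have := Nat.gcd_eq_gcd_ab d g
    refine ⟨Nat.gcdA d g, ?_⟩
    rw [Int.gcd_natCast_natCast, this]; ring
  · refine ⟨((g / Nat.gcd d g : ℕ) : ℤ) • v, ?_⟩
    simp only [DistribSMul.toAddMonoidHom_apply, smul_smul, ← sub_smul]
    refine smul_mem_mulSub ?_ _
    rw [← Nat.cast_mul, mul_assoc, Nat.mul_div_cancel' (Nat.gcd_dvd_right d g), sub_self]
    exact dvd_zero _

/-- averaging along a surjection -/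
theorem pav_surj {n : Type*} [Fintype n] [DecidableEq n] {d q : ℕ} (hd : 0 < d) (hq : 0 < q)
    (hdq : d ∣ q) (φ : (N → ℤ) →+ (n → ℤ)) (hφ : Function.Surjective φ) {f : (n → ℤ) → ℝ}
    (hf : Per d f) : pav q (fun c => f (φ c)) = pav d f := by
  refine pav_swap hq hd φ (AddMonoidHom.id _) (mulSub n d) f (fun x y hy => hf.add_mem x y hy)
    (fun v => ?_) (fun w => smul_mem_mulSub dvd_rfl _) (fun w => ?_) (fun v => ⟨φ v, ?_⟩)
  · rw [map_zsmul]; exact smul_mem_mulSub (Int.natCast_dvd_natCast.2 hdq) _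
  · obtain ⟨v, hv⟩ := hφ w
    exact ⟨v, by simp [hv]⟩
  · simp

open Classical in
/-- indicator of a residue class -/
noncomputable def cls (q : ℕ) (r c : N → ℤ) : ℝ := if Cong q c r then 1 else 0

omit [Fintype N] [DecidableEq N] in
theorem cls_nonneg (q : ℕ) (r c : N → ℤ) : 0 ≤ cls q r c := by
  unfold cls; split_ifs <;> norm_num

omit [Fintype N] [DecidableEq N] in
theorem cls_le_one (q : ℕ) (r c : N → ℤ) : cls q r c ≤ 1 := by
  unfold cls; split_ifs <;> norm_num

omit [Fintype N] [DecidableEq N] in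
theorem cls_one (r c : N → ℤ) : cls 1 r c = 1 := if_pos (cong_one c r)

omit [Fintype N] [DecidableEq N] in
theorem cls_congr {q : ℕ} {r r' : N → ℤ} (h : Cong q r r') (c : N → ℤ) : cls q r c = cls q r' c := by
  classical
  unfold cls
  exact if_congr ⟨fun h' => h'.trans h, fun h' => h'.trans h.symm⟩ rfl rfl

omit [Fintype N] [DecidableEq N] in
theorem bdd_cls {Ω : Type*} (q : ℕ) (r : N → ℤ) (dat : Ω → N → ℤ) :
    Bdd fun ω => cls q r (dat ω) := Bdd.of_01 (fun _ => cls_nonneg _ _ _) fun _ => cls_le_one _ _ _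

/-- the class of `r` modulo `b` splits into the classes of `r + b c'` modulo `b q` -/
theorem cls_mul_eq {b q : ℕ} (hb : 0 < b) (hq : 0 < q) (r c : N → ℤ) {f : (N → ℤ) → ℝ}
    (hf : Per (b * q) f) :
    cls b r c * f c = ∑ c' ∈ rbox N q, f (r + (b : ℤ) • c') * cls (b * q) (r + (b : ℤ) • c') c := by
  by_cases h : Cong b c r
  · obtain ⟨v, rfl⟩ := cong_iff.1 h
    have hc : ∀ c' : N → ℤ, Cong (b * q) (r + (b : ℤ) • v) (r + (b : ℤ) • c') ↔ Cong q v c' := by
      intro c'
      refine forall_congr' fun i => ?_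
      have : (r + (b : ℤ) • v) i - (r + (b : ℤ) • c') i = b * (v i - c' i) := by simp; ring
      rw [this, Nat.cast_mul]
      exact mul_dvd_mul_iff_left (by exact_mod_cast hb.ne')
    rw [Finset.sum_eq_single (red q v)]
    · rw [cls, if_pos h, cls, if_pos ((hc _).2 (cong_red q v)), one_mul, mul_one]
      exact hf.congr ((hc _).2 (cong_red q v))
    · intro c' hc' hne
      rw [cls, if_neg, mul_zero]
      intro h'
      exact hne (eq_of_cong hc' (red_mem hq v) (((hc _).1 h').symm.trans (cong_red q v)))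
    · intro h'; exact absurd (red_mem hq v) h'
  · rw [cls, if_neg h, zero_mul]
    refine (Finset.sum_eq_zero fun c' _ => ?_).symm
    rw [cls, if_neg, mul_zero]
    intro h'
    exact h ((h'.of_dvd (Dvd.intro _ rfl)).trans (cong_iff.2 ⟨c', rfl⟩))

end

end Crest.Agent.T49.Samp
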