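import Crest.Agent.T49.FrDef_99
import Crest.Agent.T49.SampAvg_57

/-!
# Row 49 (helper59): END, short sub-frames; local lemmas
-/

set_option autoImplicit false

noncomputable section

namespace Crest.Agent.T49.End

open MvPolynomial Finset Crest.Agent.T49.Tw Crest.Agent.T49.Gl Crest.Agent.T49.Samp

variable {ι : Type} {D : ℕ}

/-- the non-constant part of `q2` -/
def h2 (σ : ℝ) (p : Pl (Fin D)) : ℝ := ∑ α ∈ p.support.erase 0, (coeff α p / σ ^ α.degree) ^ 2

theorem h2_nonneg (σ : ℝ) (p : Pl (Fin D)) : 0 ≤ h2 σ p := sum_nonneg fun _ _ => sq_nonneg _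

theorem q2_eq (σ : ℝ) (p : Pl (Fin D)) : q2 σ p = coeff 0 p ^ 2 + h2 σ p := by
  unfold q2 h2
  by_cases h : (0 : Fin D →₀ ℕ) ∈ p.support
  · rw [← add_sum_erase _ _ h]; simp
  · rw [erase_eq_of_notMem h, notMem_support_iff.1 h]; simp

theorem ev_pt {lev : ι → ℕ} (V : Frm D lev) (v : Fin D → ℤ) (f : Pl ι) :
    ev (V.pt v) f = eval (fun i => (v i : ℝ)) (bind₁ V.rl f) := by
  unfold ev
  have h : (fun c => ((V.pt v c : ℤ) : ℝ)) = fun c => eval (fun i => (v i : ℝ)) (V.rl c) := by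
    funext c
    unfold Frm.pt Frm.rl
    rw [eval_map]
    exact eval₂_comp_left (Int.castRingHom ℝ) (RingHom.id ℤ) v (V.W c)
  rw [h]
  exact (eval₂Hom_bind₁ (RingHom.id ℝ) _ _ f).symm

theorem coeff_zero_pt {lev : ι → ℕ} (V : Frm D lev) (f : Pl ι) :
    coeff 0 (bind₁ V.rl f) = ev (V.pt 0) f := by
  rw [ev_pt]
  simp only [Pi.zero_apply, Int.cast_zero]
  rw [← constantCoeff_eq]
  exact (DFunLike.congr_fun (eval_zero' (σ := Fin D) (R := ℝ)) _).symm

theorem degLe_th (T : Cell ι) (c : ι) : DegLe T.lev (T.th c) (T.lev c) := by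
  refine Ch4.degLe_add (Ch4.degLe_C_mul _ fun m hm => ?_) (T.deg c)
  rw [support_X, mem_singleton] at hm
  simp [hm, Finsupp.weight_apply]

theorem supp_subset (T : Cell ι) (V : Frm D T.lev) (c : ι) {s : ℕ} (hs : T.lev c ≤ s) :
    (bind₁ V.rl (T.th c)).support ⊆ mi D s := by
  intro α hα
  have h1 : DegLe (fun _ : Fin D => 1) (bind₁ V.rl (T.th c)) (T.lev c) := by
    refine DegLe.bind (fun c' m hm => ?_) (degLe_th T c)
    have h2 : m ∈ (V.W c').support := support_map_subset _ _ hm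
    have h3 := (le_totalDegree h2).trans (V.deg c')
    rw [Finsupp.weight_apply]
    simpa using h3
  have h2 := h1 α hα
  rw [mem_mi, Finsupp.degree_eq_weight_one]
  exact h2.trans hs

/-- variation of a polynomial on a short cube -/
theorem var_sq_le {σ ρ : ℝ} (hσ : 0 < σ) (hρ0 : 0 ≤ ρ) (hρ : ρ ≤ 1) {p : Pl (Fin D)} {s : ℕ}
    (hp : p.support ⊆ mi D s) {v : Fin D → ℝ} (hv : ∀ i, |v i| * σ ≤ ρ) :
    (eval v p - coeff 0 p) ^ 2 ≤ #(mi D s) * ρ ^ 2 * h2 σ p := by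
  have h1 : eval v p - coeff 0 p =
      ∑ α ∈ p.support.erase 0, coeff α p / σ ^ α.degree * (σ ^ α.degree * ∏ i ∈ α.support, v i ^ α i) := by
    have e : ∀ α : Fin D →₀ ℕ, coeff α p / σ ^ α.degree * (σ ^ α.degree * ∏ i ∈ α.support, v i ^ α i)
        = coeff α p * ∏ i ∈ α.support, v i ^ α i := fun α => by
      field_simp
    simp only [e]
    rw [eval_eq]
    by_cases h : (0 : Fin D →₀ ℕ) ∈ p.support
    · rw [← add_sum_erase _ _ h]; simp
    · rw [erase_eq_of_notMem h, notMem_support_iff.1 h]; simp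
  have h3 : ∀ α ∈ p.support.erase 0, (σ ^ α.degree * ∏ i ∈ α.support, v i ^ α i) ^ 2 ≤ ρ ^ 2 := by
    intro α hα
    have hα0 : α ≠ 0 := ne_of_mem_erase hα
    have h4 : |σ ^ α.degree * ∏ i ∈ α.support, v i ^ α i| ≤ ρ ^ α.degree := by
      rw [Finsupp.degree_apply, ← prod_pow_eq_pow_sum, ← prod_pow_eq_pow_sum, ← prod_mul_distrib,
        abs_prod]
      refine prod_le_prod (fun _ _ => abs_nonneg _) fun i _ => ?_
      rw [← mul_pow, abs_pow, abs_mul, abs_of_pos hσ, mul_comm]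
      exact pow_le_pow_left₀ (by positivity) (hv i) _
    have h5 : ρ ^ α.degree ≤ ρ := by
      have : α.degree ≠ 0 := fun h => hα0 ((Finsupp.degree_eq_zero_iff α).1 h)
      exact pow_le_of_le_one hρ0 hρ this
    exact sq_le_sq' (by linarith [(abs_le.1 (h4.trans h5)).1]) (abs_le.1 (h4.trans h5)).2
  rw [h1]
  refine (sum_mul_sq_le_sq_mul_sq _ _ _).trans ?_
  rw [mul_comm]
  refine mul_le_mul_of_nonneg_right ?_ (h2_nonneg σ p)
  refine (sum_le_sum h3).trans ?_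
  rw [sum_const, nsmul_eq_mul]
  refine mul_le_mul_of_nonneg_right ?_ (sq_nonneg _)
  exact_mod_cast card_le_card ((erase_subset _ _).trans hp)

theorem abs_exp_sub_le (a b : ℝ) {d : ℝ} (h : |a - b| ≤ d) :
    |Real.exp a - Real.exp b| ≤ d * Real.exp (b + d) := by
  have hd : 0 ≤ d := (abs_nonneg _).trans h
  obtain ⟨h1, h2⟩ := abs_le.1 h
  have hb : Real.exp b ≤ Real.exp (b + d) := Real.exp_le_exp.2 (by linarith)
  have ha : Real.exp a ≤ Real.exp (b + d) := Real.exp_le_exp.2 (by linarith)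
  have e1 : Real.exp a * (1 + (b - a)) ≤ Real.exp b := by
    have := Real.add_one_le_exp (b - a)
    calc _ ≤ Real.exp a * Real.exp (b - a) :=
          mul_le_mul_of_nonneg_left (by linarith) (Real.exp_pos _).le
      _ = _ := by rw [← Real.exp_add]; ring_nf
  have e2 : Real.exp b * (1 + (a - b)) ≤ Real.exp a := by
    have := Real.add_one_le_exp (a - b)
    calc _ ≤ Real.exp b * Real.exp (a - b) :=
          mul_le_mul_of_nonneg_left (by linarith) (Real.exp_pos _).le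
      _ = _ := by rw [← Real.exp_add]; ring_nf
  have pa := Real.exp_pos a
  have pb := Real.exp_pos b
  rw [abs_le]
  constructor <;> nlinarith

/-- the Gaussian comparison -/
theorem gauss_cmp [Fintype ι] (x θ δ : ι → ℝ) {lam s h w : ℝ} (hl0 : 0 < lam) (hl : lam ≤ 1)
    (hs0 : 0 < s) (hs : s ≤ 1 / 4) (hh : 0 ≤ h) (hδ : ∑ c, δ c ^ 2 ≤ s ^ 2 * lam ^ 2 * h)
    (hw : w ≤ Real.exp (-(4 * Real.pi) * (∑ c, θ c ^ 2 + h))) :
    w * |Real.exp (-Real.pi * ∑ c, (x c + δ c / lam) ^ 2 + Real.pi * ∑ c, (θ c + δ c) ^ 2) -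
      Real.exp (-Real.pi * ∑ c, x c ^ 2 + Real.pi * ∑ c, θ c ^ 2)| ≤
      s * Real.exp (-Real.pi * (∑ c, (x c / 2) ^ 2 + h)) := by
  set X := ∑ c, x c ^ 2 with hX
  set Θ := ∑ c, θ c ^ 2 with hΘ
  have hX0 : 0 ≤ X := sum_nonneg fun _ _ => sq_nonneg _
  have hΘ0 : 0 ≤ Θ := sum_nonneg fun _ _ => sq_nonneg _
  have key : ∀ (y e : ι → ℝ), ∑ c, e c ^ 2 ≤ s ^ 2 * h →
      |∑ c, (y c + e c) ^ 2 - ∑ c, y c ^ 2| ≤ s * (∑ c, y c ^ 2 + 2 * h) := by
    intro y e he
    rw [← sum_sub_distrib]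
    refine (abs_sum_le_sum_abs _ _).trans ?_
    have h1 : ∀ c, |(y c + e c) ^ 2 - y c ^ 2| ≤ s * y c ^ 2 + (s⁻¹ + 1) * e c ^ 2 := by
      intro c
      have h2 : 0 ≤ s * (y c - e c / s) ^ 2 := by positivity
      have h3 : 0 ≤ s * (y c + e c / s) ^ 2 := by positivity
      have h4 : s * (y c - e c / s) ^ 2 = s * y c ^ 2 - 2 * y c * e c + s⁻¹ * e c ^ 2 := by
        field_simp; ring
      have h5 : s * (y c + e c / s) ^ 2 = s * y c ^ 2 + 2 * y c * e c + s⁻¹ * e c ^ 2 := by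
        field_simp; ring
      rw [abs_le]
      constructor <;> nlinarith [sq_nonneg (e c)]
    refine (sum_le_sum fun c _ => h1 c).trans ?_
    rw [sum_add_distrib, ← mul_sum, ← mul_sum]
    have h6 : (s⁻¹ + 1) * ∑ c, e c ^ 2 ≤ (s⁻¹ + 1) * (s ^ 2 * h) :=
      mul_le_mul_of_nonneg_left he (by positivity)
    have h7 : (s⁻¹ + 1) * (s ^ 2 * h) = s * h + s * (s * h) := by field_simp
    have h8 : s * h ≤ h := by nlinarith
    nlinarith
  have k1 := key x (fun c => δ c / lam) (by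
    have : ∑ c, (δ c / lam) ^ 2 = (∑ c, δ c ^ 2) / lam ^ 2 := by
      rw [sum_div]; exact sum_congr rfl fun c _ => by rw [div_pow]
    rw [this, div_le_iff₀ (by positivity)]
    linarith)
  have k2 := key θ δ (hδ.trans (by
    have : lam ^ 2 ≤ 1 := pow_le_one₀ hl0.le hl
    have h9 : 0 ≤ s ^ 2 * h := by positivity
    nlinarith))
  set S := X + Θ + 4 * h with hS
  have hS0 : 0 ≤ S := by positivity
  have hπ := Real.pi_pos
  have k3 : |(-Real.pi * ∑ c, (x c + δ c / lam) ^ 2 + Real.pi * ∑ c, (θ c + δ c) ^ 2) -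
      (-Real.pi * X + Real.pi * Θ)| ≤ Real.pi * s * S := by
    have e : (-Real.pi * ∑ c, (x c + δ c / lam) ^ 2 + Real.pi * ∑ c, (θ c + δ c) ^ 2) -
        (-Real.pi * X + Real.pi * Θ) = Real.pi * ((∑ c, (θ c + δ c) ^ 2 - Θ) -
          (∑ c, (x c + δ c / lam) ^ 2 - X)) := by ring
    rw [e, abs_mul, abs_of_pos hπ, mul_assoc]
    refine mul_le_mul_of_nonneg_left ((abs_sub _ _).trans ?_) hπ.le
    rw [hS]
    linarith
  have k4 := abs_exp_sub_le _ _ k3
  have e4 : ∑ c, (x c / 2) ^ 2 = X / 4 := by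
    rw [hX, sum_div]; exact sum_congr rfl fun c _ => by ring
  rw [e4]
  have k5 : Real.pi * S ≤ Real.exp (Real.pi * S / 2) := by
    have := Real.add_one_le_exp (Real.pi * S / 4)
    have e : Real.exp (Real.pi * S / 2) = Real.exp (Real.pi * S / 4) ^ 2 := by
      rw [← Real.exp_nat_mul]; congr 1; push_cast; ring
    have h0 : 0 ≤ Real.pi * S / 4 := by positivity
    rw [e]
    nlinarith [sq_nonneg (Real.pi * S / 4 - 1)]
  calc _ ≤ Real.exp (-(4 * Real.pi) * (Θ + h)) *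
        (Real.pi * s * S * Real.exp (-Real.pi * X + Real.pi * Θ + Real.pi * s * S)) :=
        mul_le_mul hw k4 (abs_nonneg _) (Real.exp_pos _).le
    _ = s * (Real.pi * S * Real.exp (-(4 * Real.pi) * (Θ + h) +
          (-Real.pi * X + Real.pi * Θ + Real.pi * s * S))) := by
        rw [Real.exp_add (-(4 * Real.pi) * (Θ + h))]; ring
    _ ≤ s * (Real.exp (Real.pi * S / 2) * Real.exp (-(4 * Real.pi) * (Θ + h) +
          (-Real.pi * X + Real.pi * Θ + Real.pi * s * S))) := by gcongr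
    _ ≤ _ := by
        rw [← Real.exp_add]
        refine mul_le_mul_of_nonneg_left (Real.exp_le_exp.2 ?_) hs0.le
        have h1 : s * S ≤ S / 4 := by nlinarith
        have h2 : S / 2 - 4 * (Θ + h) - X + Θ + s * S ≤ -(X / 4 + h) := by
          rw [hS] at h1 ⊢; linarith
        nlinarith

theorem cong_pt {lev : ι → ℕ} (V : Frm D lev) (g : ℕ) (u : Fin D → ℤ) :
    Cong g (V.pt ((g : ℤ) • u)) (V.pt 0) := by
  intro c
  unfold Frm.pt
  induction V.W c using MvPolynomial.induction_on with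
  | C a => simp
  | add p q hp hq =>
    rw [map_add, map_add]
    rw [add_sub_add_comm]
    exact hp.add hq
  | mul_X p i hp => simp [Dvd.dvd.mul_left]

theorem cls_pt {lev : ι → ℕ} (V : Frm D lev) (g : ℕ) (r : ι → ℤ) (u : Fin D → ℤ) :
    cls g r (V.pt ((g : ℤ) • u)) = cls g r (V.pt 0) := by
  classical
  unfold cls
  exact if_congr ⟨fun h => (cong_pt V g u).symm.trans h, fun h => (cong_pt V g u).trans h⟩ rfl rfl

theorem mem_pos {L : ℕ} {t : Fin D → ℤ} : t ∈ pos D L ↔ ∀ i, 0 ≤ t i ∧ t i < L := by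
  simp [pos, Fintype.mem_piFinset]

theorem card_pos (D L : ℕ) : #(pos D L) = L ^ D := by
  simp [pos, Fintype.card_piFinset]

/-- shifting the box -/
theorem shift_sum {L M : ℕ} (hM : M ≤ L) (φ : (Fin D → ℤ) → ℝ) {B : ℝ}
    (hφ : ∀ t ∈ pos D L, φ t ≤ B) (hB : 0 ≤ B) {v : Fin D → ℤ} (hv : ∀ i, 0 ≤ v i ∧ v i ≤ M) :
    (L : ℝ) * ∑ t ∈ pos D L, φ t ≤
      L * ∑ t ∈ pos D (L - M), φ (t + v) + D * M * (L : ℝ) ^ D * B := by
  classical
  have hsub : (pos D (L - M)).image (· + v) ⊆ pos D L := by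
    intro t ht
    obtain ⟨t', ht', rfl⟩ := mem_image.1 ht
    rw [mem_pos] at ht' ⊢
    intro i
    have h1 := ht' i
    have h2 := hv i
    rw [Nat.cast_sub hM] at h1
    simp only [Pi.add_apply]
    omega
  have hinj : Set.InjOn (· + v) (pos D (L - M) : Set (Fin D → ℤ)) :=
    fun _ _ _ _ h => add_right_cancel h
  rw [← sum_sdiff hsub, sum_image hinj, mul_add, add_comm]
  refine add_le_add_right ?_ _
  have h1 : ∑ t ∈ pos D L \ (pos D (L - M)).image (· + v), φ t ≤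
      ((L : ℝ) ^ D - ((L : ℝ) - M) ^ D) * B := by
    refine (sum_le_sum fun t ht => hφ t (mem_sdiff.1 ht).1).trans ?_
    rw [sum_const, nsmul_eq_mul, card_sdiff_of_subset hsub, card_image_of_injOn hinj, card_pos,
      card_pos, Nat.cast_sub (Nat.pow_le_pow_left (Nat.sub_le _ _) _)]
    push_cast [Nat.cast_sub hM]
    exact le_rfl
  have h2 : (L : ℝ) * ((L : ℝ) ^ D - ((L : ℝ) - M) ^ D) ≤ D * M * (L : ℝ) ^ D := by
    rcases Nat.eq_zero_or_pos L with rfl | hL
    · simp only [Nat.cast_zero, zero_mul]; positivity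
    have hL' : (0 : ℝ) < L := by exact_mod_cast hL
    have hM' : (M : ℝ) ≤ L := by exact_mod_cast hM
    have h3 := one_add_mul_le_pow (a := -((M : ℝ) / L))
      (by have := div_le_one_of_le₀ hM' hL'.le; linarith) D
    have h4 : ((L : ℝ) - M) ^ D = (L : ℝ) ^ D * (1 + -((M : ℝ) / L)) ^ D := by
      rw [← mul_pow]; congr 1; field_simp; ring
    have h5 : (L : ℝ) * ((M : ℝ) / L) = M := by field_simp
    have h6 := mul_le_mul_of_nonneg_left h3 (show 0 ≤ (L : ℝ) * (L : ℝ) ^ D by positivity)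
    rw [h4]
    have h7 : (L : ℝ) * (L : ℝ) ^ D * (1 + D * -((M : ℝ) / L)) =
        L * (L : ℝ) ^ D - D * (L * ((M : ℝ) / L)) * (L : ℝ) ^ D := by ring
    rw [h7, h5] at h6
    nlinarith
  calc _ ≤ (L : ℝ) * (((L : ℝ) ^ D - ((L : ℝ) - M) ^ D) * B) :=
        mul_le_mul_of_nonneg_left h1 (Nat.cast_nonneg _)
    _ ≤ _ := by rw [← mul_assoc]; exact mul_le_mul_of_nonneg_right h2 hB

end Crest.Agent.T49.End
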