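import Crest.Agent.T49.EndSubA_59

/-!
# Row 49 (helper59): END, passage to short sub-frames inside one piece
-/

set_option autoImplicit false

noncomputable section

namespace Crest.Agent.T49.End

open MvPolynomial Finset Crest.Agent.T49.Tw Crest.Agent.T49.Gl Crest.Agent.T49.Samp

variable {ι : Type} [Fintype ι] {D : ℕ}

/-- squared norm of the higher Taylor data of a frame -/
def hq (T : Cell ι) (σ : ℝ) (V : Frm D T.lev) : ℝ := ∑ c, h2 σ (bind₁ V.rl (T.th c))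

/-- weight of the piece (class `r` mod `g`, window of width `lam` at `cen`) relative to `T` -/
def pcw (T : Cell ι) (lam : ℝ) (cen : ι → ℝ) (g : ℕ) (r y : ι → ℤ) : ℝ :=
  cls g r y * Real.exp (-Real.pi * ∑ c, ((ev y (T.th c) - cen c) / lam) ^ 2 +
    Real.pi * ∑ c, ev y (T.th c) ^ 2)

/-- weight of the frames based in the piece (base window of width `2 lam`) -/
def pw (T : Cell ι) (σ lam : ℝ) (cen : ι → ℝ) (g : ℕ) (r : ι → ℤ) (V : Frm D T.lev) : ℝ :=
  cls g r (V.pt 0) *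
    Real.exp (-Real.pi * (∑ c, ((ev (V.pt 0) (T.th c) - cen c) / lam / 2) ^ 2 + hq T σ V))

theorem hq_nonneg (T : Cell ι) (σ : ℝ) (V : Frm D T.lev) : 0 ≤ hq T σ V :=
  sum_nonneg fun _ _ => h2_nonneg _ _

theorem fq_eq (T : Cell ι) (σ : ℝ) (V : Frm D T.lev) :
    fq T σ V = ∑ c, ev (V.pt 0) (T.th c) ^ 2 + hq T σ V := by
  unfold fq hq
  rw [← sum_add_distrib]
  exact sum_congr rfl fun c _ => by rw [q2_eq, coeff_zero_pt]

theorem pcw_nonneg (T : Cell ι) (lam : ℝ) (cen : ι → ℝ) (g : ℕ) (r y : ι → ℤ) :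
    0 ≤ pcw T lam cen g r y := mul_nonneg (cls_nonneg _ _ _) (Real.exp_pos _).le

theorem pw_nonneg (T : Cell ι) (σ lam : ℝ) (cen : ι → ℝ) (g : ℕ) (r : ι → ℤ) (V : Frm D T.lev) :
    0 ≤ pw T σ lam cen g r V := mul_nonneg (cls_nonneg _ _ _) (Real.exp_pos _).le

/-- domination at the base point -/
theorem mul_pcw_le (T : Cell ι) {σ lam : ℝ} (hl0 : 0 < lam) (hl : lam ≤ 1) (cen : ι → ℝ) (g : ℕ)
    (r : ι → ℤ) (V : Frm D T.lev) {w : ℝ} (hw : w ≤ Real.exp (-(4 * Real.pi) * fq T σ V)) :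
    w * pcw T lam cen g r (V.pt 0) ≤ Real.exp (-∑ c, cen c ^ 2) * pw T σ lam cen g r V := by
  unfold pcw pw
  rw [mul_left_comm, mul_left_comm (Real.exp _)]
  refine mul_le_mul_of_nonneg_left ?_ (cls_nonneg _ _ _)
  refine (mul_le_mul_of_nonneg_right hw (Real.exp_pos _).le).trans ?_
  rw [← Real.exp_add, ← Real.exp_add, Real.exp_le_exp, fq_eq]
  have h0 := hq_nonneg T σ V
  have e4 : ∑ c, ((ev (V.pt 0) (T.th c) - cen c) / lam / 2) ^ 2 =
      (∑ c, ((ev (V.pt 0) (T.th c) - cen c) / lam) ^ 2) / 4 := by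
    rw [sum_div]; exact sum_congr rfl fun c _ => by ring
  rw [e4]
  have h1 : ∑ c, cen c ^ 2 ≤ 2 * ∑ c, ev (V.pt 0) (T.th c) ^ 2 +
      2 * ∑ c, ((ev (V.pt 0) (T.th c) - cen c) / lam) ^ 2 := by
    rw [mul_sum, mul_sum, ← sum_add_distrib]
    refine sum_le_sum fun c _ => ?_
    set a := ev (V.pt 0) (T.th c)
    have h2 : (a - cen c) ^ 2 ≤ ((a - cen c) / lam) ^ 2 := by
      rw [div_pow, le_div_iff₀ (by positivity)]
      exact mul_le_of_le_one_right (sq_nonneg _) (pow_le_one₀ hl0.le hl)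
    nlinarith [sq_nonneg (2 * a - cen c)]
  have hX : 0 ≤ ∑ c, ((ev (V.pt 0) (T.th c) - cen c) / lam) ^ 2 := sum_nonneg fun _ _ => sq_nonneg _
  have hΘ : 0 ≤ ∑ c, ev (V.pt 0) (T.th c) ^ 2 := sum_nonneg fun _ _ => sq_nonneg _
  have := Real.pi_gt_three
  nlinarith

theorem mul_pcw_le' (T : Cell ι) {σ lam : ℝ} (hl0 : 0 < lam) (hl : lam ≤ 1) (cen : ι → ℝ) (g : ℕ)
    (r : ι → ℤ) (V : Frm D T.lev) {w : ℝ} (hw : w ≤ Real.exp (-(4 * Real.pi) * fq T σ V)) :
    w * pcw T lam cen g r (V.pt 0) ≤ pw T σ lam cen g r V :=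
  (mul_pcw_le T hl0 hl cen g r V hw).trans (mul_le_of_le_one_left (pw_nonneg _ _ _ _ _ _ _)
    (Real.exp_le_one_iff.2 (neg_nonpos.2 (sum_nonneg fun _ _ => sq_nonneg _))))

/-- the weight of the piece is almost constant on short sub-frames -/
theorem mul_pcw_sub_le (T : Cell ι) {s : ℕ} (hs : ∀ c, T.lev c ≤ s) {σ lam ρ ε : ℝ} (hσ : 0 < σ)
    (hl0 : 0 < lam) (hl : lam ≤ 1) (cen : ι → ℝ) (g : ℕ) (r : ι → ℤ) (V : Frm D T.lev) {w : ℝ}
    (hw : w ≤ Real.exp (-(4 * Real.pi) * fq T σ V)) (hε0 : 0 < ε) (hε : ε ≤ 1 / 4)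
    (hρ0 : 0 ≤ ρ) (hρ : ρ ≤ 1) (hρε : #(mi D s) * ρ ^ 2 ≤ ε ^ 2 * lam ^ 2) {u : Fin D → ℤ}
    (hu : ∀ i, |((g : ℤ) • u) i| * σ ≤ ρ) :
    w * |pcw T lam cen g r (V.pt ((g : ℤ) • u)) - pcw T lam cen g r (V.pt 0)| ≤
      ε * pw T σ lam cen g r V := by
  unfold pcw pw
  rw [cls_pt, ← mul_sub, abs_mul, abs_of_nonneg (cls_nonneg _ _ _), mul_left_comm,
    mul_left_comm ε]
  refine mul_le_mul_of_nonneg_left ?_ (cls_nonneg _ _ _)
  have key := gauss_cmp (fun c => (ev (V.pt 0) (T.th c) - cen c) / lam)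
    (fun c => ev (V.pt 0) (T.th c))
    (fun c => ev (V.pt ((g : ℤ) • u)) (T.th c) - ev (V.pt 0) (T.th c)) hl0 hl hε0 hε
    (hq_nonneg T σ V) (w := w) ?_ (by rwa [fq_eq] at hw)
  · have e1 : ∀ c, (ev (V.pt 0) (T.th c) - cen c) / lam +
        (ev (V.pt ((g : ℤ) • u)) (T.th c) - ev (V.pt 0) (T.th c)) / lam =
        (ev (V.pt ((g : ℤ) • u)) (T.th c) - cen c) / lam := fun c => by ring
    simpa only [e1, add_sub_cancel] using key
  · unfold hq
    rw [mul_sum]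
    refine sum_le_sum fun c _ => ?_
    rw [← coeff_zero_pt, ev_pt]
    refine (var_sq_le hσ hρ0 hρ (supp_subset T V c (hs c)) fun i => ?_).trans
      (mul_le_mul_of_nonneg_right hρε (h2_nonneg _ _))
    have := hu i
    rwa [Int.cast_abs] at this

/-- **SUB**: a correlation inside a piece is seen by a dense family of short sub-frames -/
theorem sub_main (T : Cell ι) {s : ℕ} (hs : ∀ c, T.lev c ≤ s) {σ lam ε K M Δ : ℝ} (hσ : 0 < σ)
    (hl0 : 0 < lam) (hl : lam ≤ 1) (cen : ι → ℝ) (g : ℕ) (r : ι → ℤ) {L L' : ℕ}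
    (Z : Finset (Frm D T.lev)) (wt : Frm D T.lev → ℝ)
    (rb : Frm D T.lev → (Fin D → ℤ) → Frm D T.lev)
    (hrb : ∀ W t v, (rb W t).pt v = W.pt (t + v)) (hinj : ∀ t, Function.Injective (rb · t))
    (hw0 : ∀ W, 0 ≤ wt W)
    (hw : ∀ W ∈ Z, ∀ t ∈ pos D L, wt W ≤ Real.exp (-(4 * Real.pi) * fq T σ (rb W t)))
    (ψ : (ι → ℤ) → ℝ) (hK : 0 < K) (hψ : ∀ y, |ψ y| ≤ K)
    (hM : ∀ S : Finset (Frm D T.lev), ∑ V ∈ S, pw T σ lam cen g r V ≤ M) (hΔ : 0 < Δ)
    (hε0 : 0 < ε) (hε : ε ≤ 1 / 4) (hεΔ : 4 * ε * K * M ≤ Δ) (hL' : 0 < L') (hL : 0 < L)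
    (hgL : g * L' ≤ L) (hb : (D : ℝ) * (g * L') ≤ ε * L) (hρ : σ * (g * L') ≤ 1)
    (hρε : #(mi D s) * (σ * (g * L')) ^ 2 ≤ ε ^ 2 * lam ^ 2)
    (h : Δ * (L : ℝ) ^ D ≤
      ∑ t ∈ pos D L, ∑ W ∈ Z, wt W * (pcw T lam cen g r (W.pt t) * ψ (W.pt t))) :
    Δ ≤ 2 * K * M * Real.exp (-∑ c, cen c ^ 2) ∧
    ∃ Z' : Finset (Frm D T.lev), Δ ≤ 2 * K * ∑ V ∈ Z', pw T σ lam cen g r V ∧
      ∀ V ∈ Z', Cong g (V.pt 0) r ∧ 0 ≤ ∑ u ∈ pos D L', ψ (V.pt ((g : ℤ) • u)) := by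
  classical
  have hM0 : 0 ≤ M := by simpa using hM ∅
  have hMt : ∀ t, ∑ W ∈ Z, pw T σ lam cen g r (rb W t) ≤ M := fun t => by
    have := hM (Z.image (rb · t))
    rwa [sum_image fun _ _ _ _ h => hinj t h] at this
  have hpt : ∀ W t, W.pt t = (rb W t).pt 0 := fun W t => by rw [hrb, add_zero]
  have hLr : (0 : ℝ) < L := by exact_mod_cast hL
  have hL'r : (0 : ℝ) < (L' : ℝ) ^ D := by positivity
  set φ : (Fin D → ℤ) → ℝ := fun t => ∑ W ∈ Z, wt W * (pcw T lam cen g r (W.pt t) * ψ (W.pt t))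
    with hφ
  have ha0 : ∀ W y, 0 ≤ wt W * pcw T lam cen g r y := fun W y =>
    mul_nonneg (hw0 W) (pcw_nonneg _ _ _ _ _ _)
  have hφB : ∀ t ∈ pos D L, φ t ≤ K * M := by
    intro t ht
    refine le_trans (sum_le_sum fun W hW => ?_) ((mul_sum _ _ _).symm.le.trans
      (mul_le_mul_of_nonneg_left (hMt t) hK.le))
    rw [← mul_assoc, mul_comm K]
    refine (mul_le_mul_of_nonneg_left ((le_abs_self _).trans (hψ _)) (ha0 _ _)).trans
      (mul_le_mul_of_nonneg_right ?_ hK.le)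
    rw [hpt]
    exact mul_pcw_le' T hl0 hl cen g r _ (hw W hW t ht)
  have hP : pos D (L - g * L') ⊆ pos D L := fun t ht => by
    rw [mem_pos] at ht ⊢
    intro i
    have h1 := ht i
    have h2 : ((L - g * L' : ℕ) : ℤ) ≤ L := by exact_mod_cast Nat.sub_le _ _
    omega
  have hPc : (#(pos D (L - g * L')) : ℝ) ≤ (L : ℝ) ^ D := by
    have := card_le_card hP
    rw [card_pos D L] at this
    exact_mod_cast this
  have hKM : 0 ≤ ε * K * M := by positivity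
  have h1 : ∀ u ∈ pos D L', Δ / 2 * (L : ℝ) ^ D ≤ ∑ t ∈ pos D (L - g * L'), ∑ W ∈ Z,
      wt W * pcw T lam cen g r (W.pt t) * ψ ((rb W t).pt ((g : ℤ) • u)) := by
    intro u hu
    rw [mem_pos] at hu
    have hv : ∀ i, 0 ≤ ((g : ℤ) • u) i ∧ ((g : ℤ) • u) i ≤ (g * L' : ℕ) := fun i => by
      have := hu i
      simp only [Pi.smul_apply, smul_eq_mul, Nat.cast_mul]
      exact ⟨by nlinarith [Int.natCast_nonneg g], by nlinarith [Int.natCast_nonneg g]⟩
    have h2 := shift_sum hgL φ hφB (by positivity) hv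
    have h3 : ∀ t ∈ pos D (L - g * L'), φ (t + (g : ℤ) • u) ≤ ∑ W ∈ Z,
        wt W * pcw T lam cen g r (W.pt t) * ψ ((rb W t).pt ((g : ℤ) • u)) + ε * K * M := by
      intro t ht
      have h4 : ε * K * ∑ W ∈ Z, pw T σ lam cen g r (rb W t) ≤ ε * K * M :=
        mul_le_mul_of_nonneg_left (hMt t) (by positivity)
      refine le_trans ?_ (add_le_add_right h4 _)
      rw [mul_sum, ← sum_add_distrib]
      refine sum_le_sum fun W hW => ?_
      have h5 := mul_pcw_sub_le T hs hσ hl0 hl cen g r (rb W t) (hw W hW t (hP ht)) hε0 hε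
        (by positivity) hρ hρε (u := u) fun i => by
          rw [mul_comm]
          refine mul_le_mul_of_nonneg_left ?_ hσ.le
          rw [abs_of_nonneg (hv i).1]
          exact_mod_cast (hv i).2
      rw [← hrb, hpt W t]
      set y := (rb W t).pt ((g : ℤ) • u)
      set a := pcw T lam cen g r y
      set b := pcw T lam cen g r ((rb W t).pt 0)
      have h6 : wt W * ((a - b) * ψ y) ≤ wt W * (|a - b| * K) :=
        mul_le_mul_of_nonneg_left ((le_abs_self _).trans (by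
          rw [abs_mul]; exact mul_le_mul_of_nonneg_left (hψ y) (abs_nonneg _))) (hw0 W)
      have h7 := mul_le_mul_of_nonneg_right h5 hK.le
      nlinarith
    have h4 := sum_le_sum h3
    rw [sum_add_distrib, sum_const, nsmul_eq_mul] at h4
    have h5 := mul_le_mul_of_nonneg_right hPc hKM
    have h6 : (D : ℝ) * (g * L' : ℕ) * (L : ℝ) ^ D * (K * M) ≤ L * ((L : ℝ) ^ D * (ε * K * M)) := by
      have := mul_le_mul_of_nonneg_right hb (show 0 ≤ (L : ℝ) ^ D * (K * M) by positivity)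
      push_cast
      nlinarith
    have h7 := mul_le_mul_of_nonneg_left h hLr.le
    have h8 := mul_le_mul_of_nonneg_left (h4.trans (add_le_add_right h5 _)) hLr.le
    have h9 := mul_le_mul_of_nonneg_left hεΔ (show 0 ≤ (L : ℝ) ^ D by positivity)
    refine le_of_mul_le_mul_left ?_ hLr
    nlinarith
  have h2 := sum_le_sum h1
  rw [sum_const, nsmul_eq_mul, card_pos, sum_comm] at h2
  obtain ⟨t, ht, h3⟩ : ∃ t ∈ pos D (L - g * L'), Δ / 2 * (L' : ℝ) ^ D ≤ ∑ u ∈ pos D L', ∑ W ∈ Z,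
      wt W * pcw T lam cen g r (W.pt t) * ψ ((rb W t).pt ((g : ℤ) • u)) := by
    by_contra hc
    push Not at hc
    have h4 := sum_le_sum fun t ht => (hc t ht).le
    rw [sum_const, nsmul_eq_mul] at h4
    rcases (pos D (L - g * L')).eq_empty_or_nonempty with he | he
    · rw [he, sum_empty] at h2
      have : 0 < ((L' ^ D : ℕ) : ℝ) * (Δ / 2 * (L : ℝ) ^ D) := by positivity
      linarith
    · have h5 := sum_lt_sum_of_nonempty he hc
      rw [sum_const, nsmul_eq_mul] at h5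
      have h6 := mul_le_mul_of_nonneg_right hPc (show 0 ≤ Δ / 2 * (L' : ℝ) ^ D by positivity)
      push_cast at h2
      nlinarith
  rw [sum_comm] at h3
  set Z0 := Z.filter fun W => Cong g (W.pt t) r ∧
    0 ≤ ∑ u ∈ pos D L', ψ ((rb W t).pt ((g : ℤ) • u)) with hZ0
  have h4 : Δ ≤ 2 * K * ∑ W ∈ Z0, wt W * pcw T lam cen g r (W.pt t) := by
    have h5 : ∑ W ∈ Z, ∑ u ∈ pos D L',
        wt W * pcw T lam cen g r (W.pt t) * ψ ((rb W t).pt ((g : ℤ) • u)) ≤
        ∑ W ∈ Z0, wt W * pcw T lam cen g r (W.pt t) * (K * (L' : ℝ) ^ D) := by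
      rw [hZ0, sum_filter]
      refine sum_le_sum fun W _ => ?_
      rw [← mul_sum]
      split_ifs with hc
      · refine mul_le_mul_of_nonneg_left ?_ (ha0 _ _)
        refine (sum_le_sum fun u _ => (le_abs_self _).trans (hψ _)).trans ?_
        rw [sum_const, nsmul_eq_mul, card_pos, mul_comm]
        push_cast
        exact le_rfl
      · rw [not_and_or] at hc
        rcases hc with hc | hc
        · rw [pcw, cls, if_neg hc]; simp
        · exact mul_nonpos_of_nonneg_of_nonpos (ha0 _ _) (not_le.1 hc).le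
    rw [← sum_mul] at h5
    refine le_of_mul_le_mul_right ?_ hL'r
    nlinarith
  have h5 : ∑ W ∈ Z0, wt W * pcw T lam cen g r (W.pt t) ≤ Real.exp (-∑ c, cen c ^ 2) *
      ∑ V ∈ Z0.image (rb · t), pw T σ lam cen g r V := by
    rw [sum_image fun _ _ _ _ h => hinj t h, mul_sum]
    refine sum_le_sum fun W hW => ?_
    rw [hpt]
    exact mul_pcw_le T hl0 hl cen g r _ (hw W (mem_filter.1 hW).1 t (hP ht))
  have h6 : 0 ≤ ∑ V ∈ Z0.image (rb · t), pw T σ lam cen g r V :=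
    sum_nonneg fun _ _ => pw_nonneg _ _ _ _ _ _ _
  refine ⟨?_, Z0.image (rb · t), ?_, fun V hV => ?_⟩
  · rw [mul_assoc, mul_comm M]
    exact h4.trans (mul_le_mul_of_nonneg_left (h5.trans
      (mul_le_mul_of_nonneg_left (hM _) (Real.exp_pos _).le)) (by positivity))
  · exact h4.trans (mul_le_mul_of_nonneg_left (h5.trans (mul_le_of_le_one_left h6
      (Real.exp_le_one_iff.2 (neg_nonpos.2 (sum_nonneg fun _ _ => sq_nonneg _))))) (by positivity))
  · obtain ⟨W, hW, rfl⟩ := mem_image.1 hV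
    have := (mem_filter.1 hW).2
    rwa [hpt] at this

end Crest.Agent.T49.End
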