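import Crest.Agent.T49.EndSub_59
import Crest.Agent.T49.EndDef_59
import Crest.Agent.T49.RegZm_81
import Crest.Agent.T49.MxCell_53

/-!
# Row 49 (helper59): END, plain zooms and the frames based in a zoom
-/

set_option autoImplicit false

noncomputable section

namespace Crest.Agent.T49.End

open MvPolynomial Finset Crest.Agent.T49.Tw Crest.Agent.T49.Gl Crest.Agent.T49.Fm
open Crest.Agent.T49.Samp (cls Cong cls_nonneg cls_le_one)
open Crest.Agent.T49.Rg (zm dl pt Sg pt_dl zm_th ev_zm_th zm_mu)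

variable {ι : Type} {D : ℕ}

/-- plain zoom: `θ' (z') = exp u * (θ (r + G z') - t)` -/
abbrev pz (T : Cell ι) (G : ℕ+) (u : ℝ) (r : ι → ℤ) (t : ι → ℝ) : Cell ι :=
  zm T (fun _ => G) (fun _ => u) r t

/-- the point `r + G z` -/
abbrev pp (G : ℕ+) (r z : ι → ℤ) : ι → ℤ := pt (dl (fun _ => G) r) z

theorem pp_apply (G : ℕ+) (r z : ι → ℤ) (c : ι) : pp G r z c = r c + ((G : ℕ) : ℤ) * z c := by
  rw [pp, pt_dl]

theorem pp_inj (G : ℕ+) (r : ι → ℤ) : Function.Injective (pp G r) := fun z z' h => funext fun c => by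
  have := congrFun h c
  rw [pp_apply, pp_apply, add_right_inj] at this
  exact mul_left_cancel₀ (by exact_mod_cast G.ne_zero) this

theorem cong_pp (G : ℕ+) (r z : ι → ℤ) : Cong G (pp G r z) r := fun c => by
  rw [pp_apply]; simp

theorem exists_pp {G : ℕ+} {r y : ι → ℤ} (h : Cong G y r) : ∃ z, pp G r z = y := by
  choose z hz using h
  exact ⟨z, funext fun c => by rw [pp_apply, ← hz]; ring⟩

theorem tsum_cls (G : ℕ+) (r : ι → ℤ) (F : (ι → ℤ) → ℝ) :
    ∑' y, cls G r y * F y = ∑' z, F (pp G r z) := by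
  rw [← (pp_inj G r).tsum_eq (f := fun y => cls G r y * F y)]
  · exact tsum_congr fun z => by rw [cls, if_pos (cong_pp G r z), one_mul]
  · intro y hy
    by_contra h
    refine hy ?_
    show cls G r y * F y = 0
    rw [cls, if_neg fun hc => h (exists_pp hc), zero_mul]

theorem pz_tth (T : Cell ι) (G : ℕ+) (u : ℝ) (r : ι → ℤ) (t : ι → ℝ) (c : ι) :
    (pz T G u r t).tth c =
      C (Real.exp u) * bind₁ (fun c => C ((G : ℕ) : ℝ) * X c) (T.tth c) := by
  rw [Cell.tth, zm_th, Cell.top_C_mul, Cell.top_sub, Cell.top_C _ ((pz T G u r t).lev_pos c),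
    sub_zero]
  congr 1
  refine (whc_bind_degLe (w := T.lev) (w' := T.lev)
    (fun c' => (degLe_C _ _).add ((degLe_X c').C_mul _)) (T.th_degLe c)).trans ?_
  congr 2
  funext c'
  rw [map_add, whc_eq_zero_of_lt (degLe_C _ 0) (T.lev_pos _), zero_add]
  exact whc_of_hom (hom_C_mul (isWeightedHomogeneous_X ℝ T.lev c') _)

variable [Fintype ι]

theorem pz_mu (T : Cell ι) (G : ℕ+) (u : ℝ) (r : ι → ℤ) (t : ι → ℝ) :
    (pz T G u r t).mu = T.mu / (((G : ℕ) : ℝ) * Real.exp u) ^ Fintype.card ι := by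
  rw [zm_mu, prod_const, prod_const, card_univ, mul_pow]

theorem pz_wgt (T : Cell ι) (G : ℕ+) (u : ℝ) (r : ι → ℤ) (t : ι → ℝ) (z : ι → ℤ) :
    (pz T G u r t).wgt z =
      Real.exp (-Real.pi * ∑ c, (Real.exp u * (ev (pp G r z) (T.th c) - t c)) ^ 2) := by
  simp only [Tri.wgt, ev_zm_th]

/-- plain zooms are projective covers -/
theorem pc_pz (T : Cell ι) {s : ℕ} (hs : ∀ c, T.lev c ≤ s) (G : ℕ+) {u z x : ℝ} (r : ι → ℤ)
    (t : ι → ℝ) (hz : 0 ≤ z) (hG : ((G : ℕ) : ℝ) ≤ Real.exp z) (hu : u ≤ z)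
    (hx : (s + 2) ^ 2 * z + 1 ≤ x) : T.PC x (pz T G u r t) id := by
  classical
  have hG1 : (1 : ℝ) ≤ (G : ℕ) := by exact_mod_cast G.pos
  have hs0 : (0 : ℝ) ≤ s := Nat.cast_nonneg s
  have hK : ∀ c, |Real.exp u * ((G : ℕ) : ℝ) ^ T.lev c| ≤ Real.exp ((s + 1) * z) := fun c => by
    rw [abs_of_pos (by positivity)]
    calc Real.exp u * ((G : ℕ) : ℝ) ^ T.lev c ≤ Real.exp z * Real.exp z ^ s :=
          mul_le_mul (Real.exp_le_exp.2 hu) ((pow_le_pow_right₀ hG1 (hs c)).trans
            (pow_le_pow_left₀ (by positivity) hG s)) (by positivity) (Real.exp_pos _).le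
      _ = _ := by rw [← Real.exp_nat_mul, ← Real.exp_add]; ring_nf
  refine Cell.DCov.pc' (K := Real.exp ((s + 1) * z)) (T := T) (T' := pz T G u r t) (π := id)
    (Cell.dcov_of_diag (α := Unit) (fun _ => rfl) (fun _ c => ((G : ℕ) : ℤ) ^ (T.lev c - 1))
    (fun _ c => Real.exp u * ((G : ℕ) : ℝ) ^ T.lev c) (fun _ => hK) (fun _ c => ?_) fun ξ hξ => ?_)
    (Real.one_le_exp (by positivity)) hs ?_ (fun _ => rfl) (N := 1) (K' := Real.exp (2 * z)) le_rfl
    (Real.one_le_exp (by positivity)) (Cell.nat_card_fib_inj Function.injective_id)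
    (fun c => ?_) ?_ fun cl hm => ?_
  · rw [pz_tth, map_mul, bind₁_C_right, bind₁_bind₁, C_mul, mul_assoc, id,
      ← Ch4.bind_dil (T.tth_hom c)]
    congr 3
    funext c'
    rw [map_mul, bind₁_C_right, bind₁_X_right, ← mul_assoc, ← C_mul]
    congr 2
    push_cast
    rw [← pow_succ', Nat.sub_add_cancel (T.lev_pos c')]
  · funext c
    have := hξ () c
    rw [Finset.sum_eq_single c (fun c' _ hc => by simp [Ne.symm hc]) (by simp)] at this
    simpa using this
  · rw [← Real.exp_nat_mul, Real.exp_le_exp]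
    push_cast
    nlinarith
  · show |T.a c * ((G : ℕ) : ℝ) * Real.exp u| ≤ _
    rw [mul_assoc, abs_mul, mul_comm, abs_of_pos (by positivity), two_mul, Real.exp_add]
    exact mul_le_mul_of_nonneg_right (mul_le_mul hG (Real.exp_le_exp.2 hu) (Real.exp_pos _).le
      (Real.exp_pos _).le) (abs_nonneg _)
  · rw [Real.log_exp]
    push_cast
    nlinarith [mul_nonneg hs0 hz, mul_nonneg (mul_nonneg hs0 hs0) hz]
  · refine Cell.isMC_of_th hm.pos fun c => ?_
    rw [zm_th]
    exact MCP.C_mul _ ((MCP.bind (fun c' => (MCP.C _).add ((MCP.X c').C_mul _)) (hm.th c)).sub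
      (MCP.C _))

/-- window means as means over plain zooms -/
theorem wm_eq (T : Cell ι) (d : ℕ+) (u : ℝ) (r : ι → ℤ) (t : ι → ℝ) (ψ : (ι → ℤ) → ℝ) :
    wm T (Real.exp u ^ 2) t d r ψ =
      Sg (pz T d u r t).toTri (fun z => ψ (pp d r z)) / (pz T d u r t).M := by
  have h : ∀ z, Samp.gw (fun z c => ev z (T.th c)) (fun _ => Real.exp u ^ 2) t (pp d r z) =
      (pz T d u r t).wgt z := fun z => by
    rw [pz_wgt, Samp.gw]
    simp only [mul_pow]
  unfold wm Samp.lm Samp.av Samp.cw Sg Tri.M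
  simp only [id, mul_assoc]
  rw [tsum_cls, tsum_cls]
  simp only [h]

/-! ### frames based in a zoom -/

/-- the shape of the sub-frames `u ↦ (V (G u) - r) / G` -/
def shp (ι : Type) (D : ℕ) (σ lam : ℝ) (G : ℕ+) (hσ : 0 < σ) (hl : 0 < lam) : Sh ι D where
  sc _ α := if α = 0 then 1 else (((G : ℕ) : ℝ) * σ) ^ α.degree / (2 * lam)
  g _ α := ((G : ℕ) : ℤ) ^ (α.degree - 1)
  r := 0
  cen := 0
  sc_pos _ α := by
    have : (0 : ℝ) < (G : ℕ) := by exact_mod_cast G.pos
    split_ifs <;> positivity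
  g_pos _ _ := pow_pos (by exact_mod_cast G.pos) _

/-- the shape of the frames with base point in a class -/
def shb (D : ℕ) (G : ℕ+) (r : ι → ℤ) : Sh ι D where
  sc _ _ := 1
  g _ α := if α = 0 then ((G : ℕ) : ℤ) else 1
  r c := C (r c)
  cen := 0
  sc_pos _ _ := one_pos
  g_pos _ α := by
    split_ifs
    · exact_mod_cast G.pos
    · exact one_pos

/-- the frame with coordinates `z` -/
def lift {lev : ι → ℕ} (G : ℕ+) (r : ι → ℤ) (z : FI D lev → ℤ) : Frm D lev :=
  ⟨(shb D G r).fr z, fr_deg _ (fun c => (totalDegree_C (r c)).le.trans (Nat.zero_le _)) z⟩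

omit [Fintype ι] in
theorem bind_lift {lev : ι → ℕ} {σ lam : ℝ} (hσ : 0 < σ) (hl : 0 < lam) (G : ℕ+) (r : ι → ℤ)
    (z : FI D lev → ℤ) (c : ι) :
    bind₁ (fun i => C ((G : ℕ) : ℤ) * X i) ((lift G r z).W c) =
      C (r c) + C ((G : ℕ) : ℤ) * (shp ι D σ lam G hσ hl).fr z c := by
  show bind₁ _ (C (r c) + ∑ α : {α // α ∈ mi D (lev c)}, monomial α.1 (_ * z ⟨c, α⟩)) =
    C (r c) + C _ * (0 + ∑ α : {α // α ∈ mi D (lev c)}, monomial α.1 (_ * z ⟨c, α⟩))
  rw [map_add, bind₁_C_right, map_sum, zero_add, mul_sum]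
  congr 1
  refine sum_congr rfl fun α _ => ?_
  rw [bind₁_monomial, C_mul_monomial, monomial_eq, Finsupp.prod]
  simp only [mul_pow, prod_mul_distrib, ← C_pow, ← map_prod, prod_pow_eq_pow_sum, shb, shp]
  rw [← mul_assoc, ← C_mul, ← Finsupp.degree_apply]
  congr 2
  split_ifs with h
  · simp [h]
  · have : α.1.degree ≠ 0 := fun h' => h ((Finsupp.degree_eq_zero_iff _).1 h')
    rw [← mul_assoc, ← pow_succ', Nat.sub_add_cancel (Nat.pos_of_ne_zero this)]
    ring

omit [Fintype ι] in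
theorem lift_pt {lev : ι → ℕ} {σ lam : ℝ} (hσ : 0 < σ) (hl : 0 < lam) (G : ℕ+) (r : ι → ℤ)
    (z : FI D lev → ℤ) (u : Fin D → ℤ) :
    (lift G r z).pt (((G : ℕ) : ℤ) • u) =
      pp G r fun c => eval u ((shp ι D σ lam G hσ hl).fr z c) := by
  funext c
  have h := congrArg (eval u) (bind_lift hσ hl G r z c)
  rw [map_add, map_mul, eval_C, eval_C] at h
  rw [pp_apply, ← h]
  unfold Frm.pt
  refine Eq.trans ?_ (eval₂Hom_bind₁ (RingHom.id ℤ) u _ _).symm
  have e : (fun i => eval₂Hom (RingHom.id ℤ) u (C ((G : ℕ) : ℤ) * X i : MvPolynomial (Fin D) ℤ)) =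
      ((G : ℕ) : ℤ) • u := by
    funext i
    simp
  rw [e]
  rfl

omit [Fintype ι] in
theorem exists_lift {lev : ι → ℕ} {G : ℕ+} {r : ι → ℤ} {V : Frm D lev} (h : Cong G (V.pt 0) r) :
    ∃ z, lift G r z = V := by
  classical
  choose k hk using h
  refine ⟨fun x => if x.2.1 = 0 then k x.1 else coeff x.2.1 (V.W x.1), Frm.ext' ?_⟩
  funext c
  ext α
  by_cases hα : α ∈ mi D (lev c)
  · have := coeff_fr (shb D G r) (lev := lev)
      (fun x => if x.2.1 = 0 then k x.1 else coeff x.2.1 (V.W x.1)) c ⟨α, hα⟩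
    refine this.trans ?_
    simp only [shb]
    split_ifs with h0
    · subst h0
      have h1 : V.pt 0 c = coeff 0 (V.W c) := by
        unfold Frm.pt
        rw [← constantCoeff_eq]
        exact DFunLike.congr_fun (eval_zero (σ := Fin D) (R := ℤ)) _
      rw [coeff_zero_C, ← hk, h1]; ring
    · rw [coeff_C, if_neg (Ne.symm h0)]; ring
  · have h1 : ∀ W : Frm D lev, coeff α (W.W c) = 0 := fun W => by
      by_contra h2
      exact hα (mem_mi.2 (degree_le_of_totalDegree (W.deg c) (mem_support_iff.2 h2)))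
    rw [h1, h1]

theorem coeff_bind_dil (a : ℝ) (p : Pl (Fin D)) (α : Fin D →₀ ℕ) :
    coeff α (bind₁ (fun i => C a * X i) p) = a ^ α.degree * coeff α p := by
  classical
  induction p using MvPolynomial.induction_on' with
  | monomial m r =>
    have : bind₁ (fun i => C a * X i) (monomial m r : Pl (Fin D)) = monomial m (a ^ m.degree * r) := by
      rw [bind₁_monomial, monomial_eq, Finsupp.prod]
      simp only [mul_pow, prod_mul_distrib, ← C_pow, ← map_prod, prod_pow_eq_pow_sum]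
      rw [← mul_assoc, ← C_mul, ← Finsupp.degree_apply, mul_comm r]
    rw [this, coeff_monomial, coeff_monomial]
    split_ifs with h
    · rw [h]
    · simp
  | add p q hp hq => rw [map_add, coeff_add, coeff_add, hp, hq, mul_add]

/-- the weight of a frame based in the piece is the weight of its sub-frame -/
theorem pw_lift (T : Cell ι) {σ lam u : ℝ} (hσ : 0 < σ) (hl : 0 < lam)
    (hu : Real.exp u * (2 * lam) = 1) (G : ℕ+) (r : ι → ℤ) (t : ι → ℝ) (z : FI D T.lev → ℤ) :
    pw T σ lam t G r (lift G r z) =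
      ((shp ι D σ lam G hσ hl).fc (pz T G u r t)).wgt z := by
  classical
  have hG : (0 : ℝ) < (G : ℕ) := by exact_mod_cast G.pos
  have h0 : Cong G ((lift G r z).pt 0) r := by
    have := lift_pt hσ hl G r z 0
    rw [smul_zero] at this
    rw [this]
    exact cong_pp _ _ _
  refine Eq.trans ?_ (Sh.fc_wgt _ (pz T G u r t) z).symm
  rw [pw, cls, if_pos h0, one_mul, Sh.wt, Sh.qf, hq, ← sum_add_distrib]
  congr 2
  refine sum_congr rfl fun c _ => ?_
  set V := lift G r z with hV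
  set p := bind₁ V.rl (T.th c) with hp
  have e : bind₁ (rl ((shp ι D σ lam G hσ hl).fr z)) ((pz T G u r t).th c) -
      (shp ι D σ lam G hσ hl).cen c =
      C (Real.exp u) * (bind₁ (fun i => C ((G : ℕ) : ℝ) * X i) p - C (t c)) := by
    show _ - 0 = _
    rw [sub_zero, zm_th, map_mul, map_sub, bind₁_C_right, bind₁_C_right, hp, bind₁_bind₁,
      bind₁_bind₁]
    congr 4
    funext c'
    have h1 := congrArg (map (Int.castRingHom ℝ)) (bind_lift hσ hl G r z c')
    rw [map_bind₁] at h1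
    simp only [map_add, map_mul, map_C, map_X] at h1
    simp only [Int.coe_castRingHom, Int.cast_natCast] at h1
    rw [dl, map_add, map_mul, bind₁_C_right, bind₁_C_right, bind₁_X_right]
    exact h1.symm
  show _ = ∑ α ∈ mi D (T.lev c), (coeff α (bind₁ (rl ((shp ι D σ lam G hσ hl).fr z))
    ((pz T G u r t).th c) - (shp ι D σ lam G hσ hl).cen c) / (shp ι D σ lam G hσ hl).sc c α) ^ 2
  rw [e, ← add_sum_erase _ _ (zero_mem_mi D (T.lev c))]
  congr 1
  · rw [coeff_C_mul, coeff_sub, coeff_bind_dil, coeff_zero_C, hp, coeff_zero_pt]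
    simp only [shp, if_true, div_one, map_zero, pow_zero, one_mul]
    congr 1
    have : Real.exp u = 1 / (2 * lam) := by rw [eq_div_iff (by positivity), hu]
    rw [this]
    field_simp
  · unfold h2
    have h1 : ∀ α ∈ (mi D (T.lev c)).erase 0, (coeff α (C (Real.exp u) *
        (bind₁ (fun i => C ((G : ℕ) : ℝ) * X i) p - C (t c))) /
        (shp ι D σ lam G hσ hl).sc c α) ^ 2 = (coeff α p / σ ^ α.degree) ^ 2 := by
      intro α hα
      have hα0 := ne_of_mem_erase hα
      rw [coeff_C_mul, coeff_sub, coeff_bind_dil, coeff_C, if_neg (Ne.symm hα0), sub_zero]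
      simp only [shp, if_neg hα0]
      congr 1
      have : Real.exp u = 1 / (2 * lam) := by rw [eq_div_iff (by positivity), hu]
      rw [this, mul_pow]
      field_simp
    rw [sum_congr rfl h1]
    refine sum_subset (erase_subset_erase _ (support_bind_th T V c)) fun α h1 h2 => ?_
    have : coeff α p = 0 := by
      by_contra h3
      exact h2 (mem_erase.2 ⟨ne_of_mem_erase h1, mem_support_iff.2 h3⟩)
    simp [this]

/-- ideal mass of the higher Taylor coefficients -/
def hmu (T : Cell ι) (D : ℕ) (σ : ℝ) : ℝ := fmu T D σ / T.mu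

theorem hmu_pos (T : Cell ι) (D : ℕ) {σ : ℝ} (hσ : 0 < σ) : 0 < hmu T D σ :=
  div_pos (fmu_pos T D hσ) T.mu_pos

theorem shp_mu (T : Cell ι) {σ lam u : ℝ} (hσ : 0 < σ) (hl : 0 < lam)
    (hu : Real.exp u * (2 * lam) = 1) (G : ℕ+) (r : ι → ℤ) (t : ι → ℝ) :
    (shp ι D σ lam G hσ hl).mu (pz T G u r t) = (pz T G u r t).mu * hmu T D σ := by
  classical
  have hG : (0 : ℝ) < (G : ℕ) := by exact_mod_cast G.pos
  rw [hmu, Sh.mu, fmu, Tri.mu, Tri.mu, ← prod_div_distrib, ← prod_mul_distrib]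
  refine prod_congr rfl fun c _ => ?_
  have ha : 0 < |T.a c| := abs_pos.2 (T.a_ne c)
  show ∏ α ∈ mi D (T.lev c), _ = _
  rw [← mul_prod_erase _ _ (zero_mem_mi D (T.lev c)), ← mul_prod_erase _ _ (zero_mem_mi D (T.lev c))]
  have h1 : ∀ α ∈ (mi D (T.lev c)).erase 0, (shp ι D σ lam G hσ hl).sc c α /
      ((shp ι D σ lam G hσ hl).g c α : ℝ) * |(pz T G u r t).a c|⁻¹ = σ ^ α.degree * |T.a c|⁻¹ := by
    intro α hα
    have hα0 := ne_of_mem_erase hα
    have h2 : α.degree ≠ 0 := fun h' => hα0 ((Finsupp.degree_eq_zero_iff _).1 h')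
    obtain ⟨k, hk⟩ := Nat.exists_eq_succ_of_ne_zero h2
    have : Real.exp u = 1 / (2 * lam) := by rw [eq_div_iff (by positivity), hu]
    simp only [shp, if_neg hα0, zm, abs_mul, this, hk]
    rw [abs_of_pos hG, abs_of_pos (by positivity : 0 < 1 / (2 * lam))]
    push_cast
    rw [mul_pow, Nat.succ_eq_add_one, pow_succ ((G : ℕ) : ℝ)]
    field_simp
  rw [prod_congr rfl h1]
  simp only [shp, if_true, map_zero, pow_zero, Nat.zero_sub, Int.cast_one, div_one, one_mul]
  field_simp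

end Crest.Agent.T49.End
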