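import Crest.Agent.T49.FibPiece_59

/-! Row 49, fibre theorem: local values, good pairs, mass of bad points. -/

set_option autoImplicit false

namespace Crest.Agent.T49.Fib
open Finset
open scoped Pointwise

variable {G : Type} [AddCommGroup G] [Fintype G] [DecidableEq G]

/-- Local value of the pair of translates `x + B`, `y + B`. -/
noncomputable def lval (X Y B : Finset G) (H : G → ℝ) (x y : G) : ℝ :=
  av B fun a => av B fun b => ind X (x + b) * ind Y (y + a) * H (x + b - (y + a))

lemma sum_lval (X Y : Finset G) {B : Finset G} (hB : B.Nonempty) (H : G → ℝ) (c : G) :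
    ∑ x, ∑ y, lval X Y B H (x + c) (y + c) = ∑ x ∈ X, ∑ y ∈ Y, H (x - y) := by
  have key : ∀ a b : G, ∑ x, ∑ y, ind X (x + c + b) * ind Y (y + c + a) *
      H (x + c + b - (y + c + a)) = ∑ x ∈ X, ∑ y ∈ Y, H (x - y) := by
    intro a b
    rw [Fintype.sum_equiv (Equiv.addRight (c + b))
      (fun x => ∑ y, ind X (x + c + b) * ind Y (y + c + a) * H (x + c + b - (y + c + a)))
      (fun x => ∑ y, ind X x * ind Y (y + c + a) * H (x - (y + c + a)))
      (fun x => by simp only [Equiv.coe_addRight, add_assoc])]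
    rw [← Finset.sum_subset (subset_univ X) (fun x _ hx => by simp [ind, hx])]
    refine sum_congr rfl fun x hx => ?_
    rw [Fintype.sum_equiv (Equiv.addRight (c + a))
      (fun y => ind X x * ind Y (y + c + a) * H (x - (y + c + a)))
      (fun y => ind X x * ind Y y * H (x - y))
      (fun y => by simp only [Equiv.coe_addRight, add_assoc])]
    rw [← Finset.sum_subset (subset_univ Y) (fun y _ hy => by simp [ind, hy])]
    exact sum_congr rfl fun y hy => by simp [ind, hx, hy]
  unfold lval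
  simp only [sum_av, key]
  simp only [av_const hB]

omit [Fintype G] in
lemma lval_le (X Y B : Finset G) {H : G → ℝ} (hH : ∀ u, H u ≤ 1) (x y : G) :
    lval X Y B H x y ≤ den X x B * den Y y B := by
  unfold lval den
  rw [← av_mul_left]
  refine av_mono fun a _ => ?_
  rw [← av_mul_right]
  refine av_mono fun b _ => ?_
  have := mul_nonneg (un_ind X (x + b)).1 (un_ind Y (y + a)).1
  nlinarith [hH (x + b - (y + a))]

omit [Fintype G] in
lemma lval_eq_zero_left {X Y B : Finset G} {H : G → ℝ} {x : G} (hB : B.Nonempty) (y : G)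
    (h : den X x B = 0) : lval X Y B H x y = 0 := by
  have hp : (0 : ℝ) < #B := by exact_mod_cast hB.card_pos
  have h1 : ∀ b ∈ B, ind X (x + b) = 0 := by
    unfold den av at h
    rw [div_eq_zero_iff, or_iff_left hp.ne', sum_eq_zero_iff_of_nonneg fun t _ => (un_ind X _).1] at h
    exact h
  unfold lval av
  rw [sum_eq_zero, zero_div]
  intro a _
  rw [sum_eq_zero, zero_div]
  intro b hb
  rw [h1 b hb]; ring

omit [Fintype G] in
lemma lval_eq_zero_right {X Y B : Finset G} {H : G → ℝ} (x : G) {y : G} (hB : B.Nonempty)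
    (h : den Y y B = 0) : lval X Y B H x y = 0 := by
  have hp : (0 : ℝ) < #B := by exact_mod_cast hB.card_pos
  have h1 : ∀ b ∈ B, ind Y (y + b) = 0 := by
    unfold den av at h
    rw [div_eq_zero_iff, or_iff_left hp.ne', sum_eq_zero_iff_of_nonneg fun t _ => (un_ind Y _).1] at h
    exact h
  unfold lval av
  rw [sum_eq_zero, zero_div]
  intro a ha
  rw [sum_eq_zero, zero_div]
  intro b _
  rw [h1 a ha]; ring

omit [Fintype G] in
lemma sum_filter_lval (X Y : Finset G) {B : Finset G} (hB : B.Nonempty) (H : G → ℝ) (x y : G) :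
    ∑ x' ∈ X.filter (fun u => u - x ∈ B), ∑ y' ∈ Y.filter (fun u => u - y ∈ B), H (x' - y')
      = lval X Y B H x y * #B * #B := by
  have hp : (0 : ℝ) < #B := by exact_mod_cast hB.card_pos
  rw [sum_comm, sum_filter_sub]
  simp only [sum_filter_sub]
  unfold lval av
  rw [div_mul_cancel₀ _ hp.ne', ← sum_div, div_mul_cancel₀ _ hp.ne']
  refine sum_congr rfl fun a _ => ?_
  rw [mul_sum]
  exact sum_congr rfl fun b _ => by ring

omit [Fintype G] in
lemma av_lval (X Y C B : Finset G) (H : G → ℝ) (x y : G) :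
    av C (fun c => lval X Y B H (x + c) (y + c)) = av B fun a => av B fun b =>
      cod C (fun z => ind X (x + z)) (fun z => ind Y (y + z)) b a * H (x - y + b - a) := by
  unfold lval
  rw [av_comm]
  congr 1; funext a
  rw [av_comm]
  congr 1; funext b
  unfold cod
  rw [← av_mul_right]
  congr 1; funext c
  have e1 : x + c + b = x + (b + c) := by abel
  have e2 : y + c + a = y + (a + c) := by abel
  have e3 : x + (b + c) - (y + (a + c)) = x - y + b - a := by abel
  rw [e1, e2, e3]

omit [AddCommGroup G] [Fintype G] [DecidableEq G] in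
lemma av_av_ite {B : Finset G} (q : G × G → Prop) [DecidablePred q] :
    av B (fun a => av B fun b => if q (b, a) then (1 : ℝ) else 0)
      = #((B ×ˢ B).filter q) / (#B : ℝ) ^ 2 := by
  rw [av_comm]
  unfold av
  rw [← sum_div, div_div, ← sq, ← sum_product' (f := fun b a => if q (b, a) then (1 : ℝ) else 0),
    sum_boole]

omit [Fintype G] [DecidableEq G] in
lemma un_cod {C : Finset G} (hC : C.Nonempty) {f w : G → ℝ} (hf : Un f) (hw : Un w) (b a : G) :
    0 ≤ cod C f w b a ∧ cod C f w b a ≤ 1 :=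
  ⟨av_nonneg fun _ _ => mul_nonneg (hf _).1 (hw _).1,
    av_le hC fun _ _ => mul_le_one₀ (hf _).2 (hw _).1 (hw _).2⟩

open Classical in
omit [Fintype G] in
/-- At a pair with two-sided codegrees the local value is controlled by the convolution kernel. -/
lemma good_bound {C B : Finset G} (hC : C.Nonempty) (hB : B.Nonempty) {f w P Q : G → ℝ}
    (hf : Un f) (hw : Un w) (hP : Un P) (hQ : Un Q) {D e θ' : ℝ} (hD : 0 ≤ D) (hD1 : D ≤ 1)
    (he : 0 ≤ e) (u : G)
    (h : (#((B ×ˢ B).filter fun z => ¬ ((1 - 30 * e) * D ≤ cod C f w z.1 z.2 ∧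
      cod C f w z.1 z.2 ≤ (1 + 30 * e) * D)) : ℝ) ≤ 2 * θ' * (#B : ℝ) ^ 2) :
    (av B fun a => av B fun b => cod C f w b a * (P (u + b - a) - Q (u + b - a))) ≤
      D * ((1 + 30 * e) * (av B fun a => av B fun b => P (u + b - a)) -
        (1 - 30 * e) * (av B fun a => av B fun b => Q (u + b - a))) + 4 * θ' := by
  have hp : (0 : ℝ) < #B := by exact_mod_cast hB.card_pos
  set q : G × G → Prop := fun z => ¬ ((1 - 30 * e) * D ≤ cod C f w z.1 z.2 ∧
      cod C f w z.1 z.2 ≤ (1 + 30 * e) * D) with hq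
  have h1 : av B (fun a => av B fun b => if q (b, a) then (1 : ℝ) else 0) ≤ 2 * θ' := by
    rw [av_av_ite, div_le_iff₀ (by positivity)]; exact h
  have h2 : (av B fun a => av B fun b => cod C f w b a * (P (u + b - a) - Q (u + b - a))) ≤
      av B fun a => av B fun b => (D * (1 + 30 * e) * P (u + b - a) -
        D * (1 - 30 * e) * Q (u + b - a)) + 2 * (if q (b, a) then (1 : ℝ) else 0) := by
    refine av_mono fun a _ => av_mono fun b _ => ?_
    obtain ⟨c0, c1⟩ := un_cod hC hf hw b a
    obtain ⟨p0, p1⟩ := hP (u + b - a)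
    obtain ⟨q0, q1⟩ := hQ (u + b - a)
    by_cases hz : q (b, a)
    · rw [if_pos hz]
      have a1 : cod C f w b a * P (u + b - a) ≤ 1 := mul_le_one₀ c1 p0 p1
      have a2 : 0 ≤ cod C f w b a * Q (u + b - a) := mul_nonneg c0 q0
      have a3 : 0 ≤ D * (1 + 30 * e) * P (u + b - a) := by positivity
      have a4 : D * Q (u + b - a) ≤ 1 := mul_le_one₀ hD1 q0 q1
      have a5 : 0 ≤ D * e * Q (u + b - a) := by positivity
      nlinarith
    · rw [if_neg hz]
      obtain ⟨l1, l2⟩ := not_not.1 hz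
      have a1 := mul_le_mul_of_nonneg_right l2 p0
      have a2 := mul_le_mul_of_nonneg_right l1 q0
      simp only at a1 a2
      nlinarith
  simp only [av_add, av_sub, av_mul_left] at h2
  nlinarith

omit [AddCommGroup G] [Fintype G] [DecidableEq G] in
open Classical in
/-- Points of low local density carry little mass. -/
lemma bad_mass (S : Finset G) (φ : G → ℝ) {N d e κ : ℝ} (hN : 0 ≤ N) (hd : 0 < d) (he : 0 < e)
    (he1 : e ≤ 1 / 10) (hκ : κ ≤ e ^ 2) (hS : (#S : ℝ) ≤ (1 + κ) * N)
    (hφ : ∀ x, φ x ≤ (1 + e ^ 2) * d) (hs : ∑ x ∈ S, φ x = d * N) :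
    ∑ x ∈ S, (if φ x < (1 - e / 2) * d then φ x else 0) ≤ 6 * e * (d * N) := by
  set β : ℝ := ∑ x ∈ S, (if φ x < (1 - e / 2) * d then (1 : ℝ) else 0) with hβ
  have h1 : ∑ x ∈ S, φ x ≤ ∑ x ∈ S, ((1 + e ^ 2) * d -
      (e ^ 2 + e / 2) * d * (if φ x < (1 - e / 2) * d then (1 : ℝ) else 0)) := by
    refine sum_le_sum fun x _ => ?_
    split_ifs with h
    · nlinarith
    · simpa using hφ x
  rw [sum_sub_distrib, sum_const, ← mul_sum, nsmul_eq_mul, hs, ← hβ] at h1
  have h2 : ∑ x ∈ S, (if φ x < (1 - e / 2) * d then φ x else 0) ≤ d * β := by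
    rw [hβ, mul_sum]
    refine sum_le_sum fun x _ => ?_
    split_ifs with h
    · nlinarith
    · simp
  have hβ0 : 0 ≤ β := sum_nonneg fun x _ => by split_ifs <;> norm_num
  have h3 : (#S : ℝ) * ((1 + e ^ 2) * d) ≤ (1 + e ^ 2) * N * ((1 + e ^ 2) * d) :=
    mul_le_mul_of_nonneg_right (hS.trans (by nlinarith)) (by positivity)
  have h4 : e / 2 * (d * β) ≤ 3 * e ^ 2 * (d * N) := by
    have a1 : 0 ≤ e ^ 2 * (d * β) := by positivity
    have a2 : e ^ 2 * e ^ 2 * (d * N) ≤ e ^ 2 * (d * N) := by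
      have : e ^ 2 ≤ 1 := by nlinarith
      have : 0 ≤ e ^ 2 * (d * N) := by positivity
      nlinarith
    nlinarith
  have h5 : d * β ≤ 6 * e * (d * N) := by
    by_contra h6
    have := mul_lt_mul_of_pos_left (not_le.1 h6) (show 0 < e / 2 by positivity)
    nlinarith
  linarith

end Crest.Agent.T49.Fib
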