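import Crest.Agent.T49.FibRound_59

/-! Row 49, fibre theorem: choice of parameters and assembly. -/

set_option autoImplicit false

namespace Crest.Agent.T49.Fib
open Finset
open scoped Pointwise

/-- Polynomially bounded functions. -/
def PB (f : ℕ → ℕ) : Prop := ∃ C : ℕ, ∀ n, 2 ≤ n → f n ≤ n ^ C

lemma PB.const (c : ℕ) : PB fun _ => c :=
  ⟨c, fun _ hn => Nat.lt_two_pow_self.le.trans (Nat.pow_le_pow_left hn c)⟩

lemma PB.id : PB fun n => n := ⟨1, fun n _ => by simp⟩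

lemma PB.mul {f g : ℕ → ℕ} (hf : PB f) (hg : PB g) : PB fun n => f n * g n := by
  obtain ⟨a, ha⟩ := hf; obtain ⟨b, hb⟩ := hg
  exact ⟨a + b, fun n hn => by rw [pow_add]; exact Nat.mul_le_mul (ha n hn) (hb n hn)⟩

lemma PB.add {f g : ℕ → ℕ} (hf : PB f) (hg : PB g) : PB fun n => f n + g n := by
  obtain ⟨a, ha⟩ := hf; obtain ⟨b, hb⟩ := hg
  refine ⟨a + b + 1, fun n hn => ?_⟩
  have h1 : n ^ a ≤ n ^ (a + b) := Nat.pow_le_pow_right (by omega) (by omega)
  have h2 : n ^ b ≤ n ^ (a + b) := Nat.pow_le_pow_right (by omega) (by omega)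
  have := ha n hn; have := hb n hn
  have h3 := Nat.mul_le_mul_left (n ^ (a + b)) hn
  rw [pow_succ]; dsimp only; omega

lemma PB.pow {f : ℕ → ℕ} (hf : PB f) (k : ℕ) : PB fun n => f n ^ k := by
  obtain ⟨a, ha⟩ := hf
  exact ⟨a * k, fun n hn => by rw [pow_mul]; exact Nat.pow_le_pow_left (ha n hn) k⟩

def jY (n : ℕ) : ℕ := 10 * n ^ 2 * (5 * n ^ 2 + 1)
def kX (n : ℕ) : ℕ := 2 * n ^ 2 * (jY n + 5)
def jX (n : ℕ) : ℕ := kX n * (5 * n ^ 2 + 1)
def JJ (n : ℕ) : ℕ := (n + 1) * (jX n + jY n + 5)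
def aT (n : ℕ) : ℕ := n + 10 * n ^ 2 + 8
def pp (n : ℕ) : ℕ := n * (2 * (aT n + 1))
def aθ (n : ℕ) : ℕ := 10 * n ^ 2 * pp n
def pq (n : ℕ) : ℕ := 8 * n * (aθ n + n + 8)
def ww (n : ℕ) : ℕ := aθ n + 10 * n ^ 2 * pq n + 4
def rr (K n : ℕ) : ℕ := K * (ww n * n) ^ K
def kk (K n : ℕ) : ℕ := 2 * rr K n + aθ n + 10 * n ^ 2 + 2 * n + 12
def uu (K n : ℕ) : ℕ :=
  JJ n * rr K n * (4 + 2 * rr K n + JJ n * (2 * rr K n + kk K n + 2)) + 1 + JJ n ^ 2 * rr K n
def AA (K n : ℕ) : ℕ := 2 * rr K n + kk K n + 2 + 3 * uu K n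
def MM (K n : ℕ) : ℕ := JJ n * rr K n + AA K n * JJ n + n + 9

lemma pb_MM (K : ℕ) : PB (MM K) := by
  have c := PB.const
  have i := PB.id
  have s := i.pow 2
  have h5 : PB fun n => 5 * n ^ 2 + 1 := ((c 5).mul s).add (c 1)
  have h10 : PB fun n => 10 * n ^ 2 := (c 10).mul s
  have hjY : PB jY := h10.mul h5
  have hkX : PB kX := ((c 2).mul s).mul (hjY.add (c 5))
  have hjX : PB jX := hkX.mul h5
  have hJ : PB JJ := (i.add (c 1)).mul ((hjX.add hjY).add (c 5))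
  have haT : PB aT := (i.add h10).add (c 8)
  have hp : PB pp := i.mul ((c 2).mul (haT.add (c 1)))
  have ha : PB aθ := h10.mul hp
  have hq : PB pq := ((c 8).mul i).mul ((ha.add i).add (c 8))
  have hw : PB ww := (ha.add (h10.mul hq)).add (c 4)
  have hr : PB (rr K) := (c K).mul ((hw.mul i).pow K)
  have hr2 : PB fun n => 2 * rr K n := (c 2).mul hr
  have hk : PB (kk K) := (((hr2.add ha).add h10).add ((c 2).mul i)).add (c 12)
  have hu : PB (uu K) := (((hJ.mul hr).mul (((c 4).add hr2).add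
    (hJ.mul ((hr2.add hk).add (c 2))))).add (c 1)).add ((hJ.pow 2).mul hr)
  have hA : PB (AA K) := ((hr2.add hk).add (c 2)).add ((c 3).mul hu)
  exact (((hJ.mul hr).add (hA.mul hJ)).add i).add (c 9)

lemma two_pow_le (q a : ℕ) (hq : 0 < q) : (2 : ℝ) ^ a ≤ (1 + 1 / (q : ℝ)) ^ (q * a) := by
  have hq' : (0 : ℝ) < q := by exact_mod_cast hq
  rw [pow_mul]
  refine pow_le_pow_left₀ (by norm_num) ?_ a
  have := one_add_mul_le_pow (a := 1 / (q : ℝ)) (by have : 0 < 1 / (q : ℝ) := by positivity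
                                                    linarith) q
  rw [mul_one_div_cancel hq'.ne'] at this
  linarith

lemma one_add_pow_le {x : ℝ} (k : ℕ) (hx : 0 ≤ x) (h : k * x ≤ 1) : (1 + x) ^ k ≤ 1 + 2 * (k * x) := by
  have h1 : (1 + x) ^ k ≤ Real.exp (k * x) := by
    rw [Real.exp_nat_mul]
    exact pow_le_pow_left₀ (by linarith) (by linarith [Real.add_one_le_exp x]) k
  have h0 : 0 ≤ k * x := by positivity
  have h2 := Real.abs_exp_sub_one_le (x := k * x) (by rwa [abs_of_nonneg h0])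
  rw [abs_of_nonneg h0] at h2
  linarith [(abs_le.1 h2).2]

lemma half_pow_eq (a : ℕ) : (1 / 2 : ℝ) ^ a = Real.exp (-(a * Real.log 2)) := by
  rw [Real.exp_neg, Real.exp_nat_mul, Real.exp_log (by norm_num), one_div, inv_pow]

lemma half_le {a b : ℕ} (h : a ≤ b) : (1 / 2 : ℝ) ^ b ≤ (1 / 2) ^ a :=
  pow_le_pow_of_le_one (by norm_num) (by norm_num) h

lemma half_mul_two (a : ℕ) : (1 / 2 : ℝ) ^ a * 2 ^ a = 1 := by rw [← mul_pow]; norm_num

lemma exp_le_half {x : ℝ} {a : ℕ} (h : (a : ℝ) ≤ x) : Real.exp (-x) ≤ (1 / 2) ^ a := by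
  rw [half_pow_eq, Real.exp_le_exp]
  have := Real.log_two_lt_d9
  have : (0 : ℝ) ≤ a := Nat.cast_nonneg _
  nlinarith

lemma half_le_exp {x : ℝ} {a : ℕ} (h : 2 * x ≤ a) : (1 / 2 : ℝ) ^ a ≤ Real.exp (-x) := by
  rw [half_pow_eq, Real.exp_le_exp]
  have := Real.log_two_gt_d9
  have : (0 : ℝ) ≤ a := Nat.cast_nonneg _
  nlinarith

lemma half_le_inv {n : ℕ} (hn : 0 < n) : (1 / 2 : ℝ) ^ n ≤ 1 / n := by
  have h1 : (n : ℝ) ≤ 2 ^ n := by exact_mod_cast Nat.lt_two_pow_self.le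
  rw [one_div_pow]
  exact one_div_le_one_div_of_le (by exact_mod_cast hn) h1

/-- The parameters. -/
noncomputable def par (K n : ℕ) (hn : 300 ≤ n) : Par K where
  κ := (1 / 2) ^ kk K n
  lam := (1 / 2) ^ AA K n
  μ := (1 / 2) ^ (2 * rr K n)
  e := 1 / n
  v0 := (1 / 2) ^ n
  ds := (1 / 2) ^ (5 * n ^ 2)
  θ := (1 / 2) ^ aθ n
  θ' := (1 / 2) ^ aT n
  εX := 1 / kX n
  εY := 1 / (10 * n ^ 2 : ℕ)
  r := rr K n
  J := JJ n
  p := pp n
  p' := pq n
  w := ww n
  jX := jX n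
  jY := jY n
  hl := by positivity
  he := by have : (0 : ℝ) < n := by exact_mod_cast (by omega : 0 < n)
           positivity
  he1 := one_div_le_one_div_of_le (by norm_num) (by exact_mod_cast hn)
  hv0 := by positivity
  hds := by positivity
  hθ := by positivity
  hp := (even_two_mul _).mul_left n
  hθd := by rw [← pow_mul]; exact half_le (le_of_eq (by unfold aθ; ring))
  hθ' := by
    have h1 := two_pow_le n (2 * (aT n + 1)) (by omega)
    have h2 : (2 : ℝ) ^ (aT n + 1) ≤ 2 ^ (2 * (aT n + 1)) :=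
      pow_le_pow_right₀ (by norm_num) (by omega)
    have h3 := half_mul_two (aT n)
    have h4 := mul_le_mul_of_nonneg_left (h2.trans h1)
      (show (0 : ℝ) ≤ (1 / 2) ^ aT n by positivity)
    rw [pow_succ, ← mul_assoc, h3, one_mul] at h4
    exact h4
  hθ'v := by
    unfold aT
    rw [← pow_mul, pow_add, pow_add, show 5 * n ^ 2 * 2 = 10 * n ^ 2 by ring]
    apply le_of_eq; ring
  hκθ := (half_le (a := aθ n + 1) (by unfold kk; omega)).trans (le_of_eq (by ring))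
  hκd := by
    refine (half_le (a := n + 10 * n ^ 2 + 2) (by unfold kk; omega)).trans ?_
    rw [← pow_mul, pow_add, pow_add, show 5 * n ^ 2 * 2 = 10 * n ^ 2 by ring]
    have := mul_le_mul_of_nonneg_right (half_le_inv (n := n) (by omega))
      (show (0 : ℝ) ≤ (1 / 2) ^ (10 * n ^ 2) by positivity)
    linarith
  hκe := by
    refine (half_le (a := n * 2) (by unfold kk; omega)).trans ?_
    rw [pow_mul]
    exact pow_le_pow_left₀ (by positivity) (half_le_inv (by omega)) 2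
  hp' := by
    have hn0 : (0 : ℝ) < n := by exact_mod_cast (by omega : 0 < n)
    have hn1 : (1 : ℝ) / n ≤ 1 := by rw [div_le_one hn0]; exact_mod_cast (by omega : 1 ≤ n)
    have he : (0 : ℝ) < 1 / n := by positivity
    have h1 := two_pow_le (8 * n) (aθ n + n + 8) (by omega)
    have e1 : (1 : ℝ) / ((8 * n : ℕ) : ℝ) = 1 / n / 8 := by push_cast; field_simp
    rw [e1] at h1
    have h2 : ((1 + 3 * (1 / (n : ℝ)) / 4) * (1 + 1 / n / 8)) ^ pq n ≤ (1 + 1 / (n : ℝ)) ^ pq n :=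
      pow_le_pow_left₀ (by positivity) (by nlinarith) _
    rw [mul_pow] at h2
    have h3 : (1 : ℝ) ≤ 1 / n * (1 / 2) ^ aθ n / 200 * 2 ^ (aθ n + n + 8) := by
      have a1 := half_mul_two (aθ n)
      have a2 := half_mul_two n
      have a3 := mul_le_mul_of_nonneg_right (half_le_inv (n := n) (by omega))
        (show (0 : ℝ) ≤ 2 ^ n by positivity)
      have : (1 : ℝ) / n * (1 / 2) ^ aθ n / 200 * 2 ^ (aθ n + n + 8) =
          (1 / n * 2 ^ n) * ((1 / 2) ^ aθ n * 2 ^ aθ n) * (256 / 200) := by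
        rw [pow_add, pow_add]; ring
      rw [this, a1]; linarith
    have h4 : (0 : ℝ) ≤ (1 + 3 * (1 / (n : ℝ)) / 4) ^ pq n := by positivity
    have h5 : (0 : ℝ) ≤ 1 / n * (1 / 2) ^ aθ n / 200 := by positivity
    calc _ ≤ (1 + 3 * (1 / (n : ℝ)) / 4) ^ pq n *
          (1 / n * (1 / 2) ^ aθ n / 200 * 2 ^ (aθ n + n + 8)) := le_mul_of_one_le_right h4 h3
      _ = 1 / n * (1 / 2) ^ aθ n / 200 *
          ((1 + 3 * (1 / (n : ℝ)) / 4) ^ pq n * 2 ^ (aθ n + n + 8)) := by ring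
      _ ≤ _ := mul_le_mul_of_nonneg_left ((mul_le_mul_of_nonneg_left h1 h4).trans h2) h5
  hw1 := by unfold ww; omega
  hw := by
    unfold ww
    rw [← pow_mul, show 5 * n ^ 2 * (2 * pq n) = 10 * n ^ 2 * pq n by ring, pow_add, pow_add]
    have a1 := half_mul_two (aθ n)
    have a2 := half_mul_two (10 * n ^ 2 * pq n)
    apply le_of_eq
    calc (16 : ℝ) = ((1 / 2) ^ aθ n * 2 ^ aθ n) *
        ((1 / 2) ^ (10 * n ^ 2 * pq n) * 2 ^ (10 * n ^ 2 * pq n)) * 16 := by rw [a1, a2]; norm_num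
      _ = _ := by ring
  hr := by unfold rr; push_cast; rw [div_div_eq_mul_div, div_one]
  hκr := by
    rw [div_div_eq_mul_div, div_one]
    refine (half_le (a := 2 * rr K n) (by unfold kk; omega)).trans (half_le_exp ?_)
    unfold rr; push_cast; exact le_rfl
  hμr := by
    rw [div_div_eq_mul_div, div_one]
    refine half_le_exp ?_
    unfold rr; push_cast; exact le_rfl
  hεX := by positivity
  hεY := by positivity
  hjX := by
    have h1 := two_pow_le (kX n) (5 * n ^ 2 + 1) (by unfold kX; positivity)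
    have h2 := mul_le_mul_of_nonneg_right h1 (show (0 : ℝ) ≤ (1 / 2) ^ (5 * n ^ 2) by positivity)
    have h3 := half_mul_two (5 * n ^ 2)
    rw [pow_succ] at h2
    unfold jX; linarith
  hjY := by
    have h1 := two_pow_le (10 * n ^ 2) (5 * n ^ 2 + 1) (by positivity)
    have h2 := mul_le_mul_of_nonneg_right h1 (show (0 : ℝ) ≤ (1 / 2) ^ (5 * n ^ 2) by positivity)
    have h3 := half_mul_two (5 * n ^ 2)
    rw [pow_succ] at h2
    unfold jY; linarith
  hX := by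
    have hn0 : (1 : ℝ) ≤ n := by exact_mod_cast (by omega : 1 ≤ n)
    have e1 : ((jY n + 5 : ℕ) : ℝ) * (1 / kX n) = (1 / n) ^ 2 / 2 := by
      unfold kX; push_cast; field_simp
    have e2 : (1 / (n : ℝ)) ^ 2 ≤ 1 :=
      pow_le_one₀ (by positivity) (by rw [div_le_one (by linarith)]; exact hn0)
    refine (one_add_pow_le _ (by positivity) (by rw [e1]; linarith)).trans (le_of_eq ?_)
    rw [e1]; ring
  hY := by
    have hn0 : (1 : ℝ) ≤ n := by exact_mod_cast (by omega : 1 ≤ n)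
    have e1 : ((5 : ℕ) : ℝ) * (1 / (10 * n ^ 2 : ℕ)) = (1 / n) ^ 2 / 2 := by
      push_cast; field_simp; norm_num
    have e2 : (1 / (n : ℝ)) ^ 2 ≤ 1 :=
      pow_le_one₀ (by positivity) (by rw [div_le_one (by linarith)]; exact hn0)
    refine (one_add_pow_le _ (by positivity) (by rw [e1]; linarith)).trans (le_of_eq ?_)
    rw [e1]; ring

lemma par_hEx (K n : ℕ) (hn : 300 ≤ n) (G : Type) [AddCommGroup G] [Fintype G] [DecidableEq G] :
    HEx G (par K n hn).κ (par K n hn).lam (par K n hn).μ (par K n hn).r (par K n hn).J := by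
  change HEx G ((1 / 2) ^ kk K n) ((1 / 2) ^ AA K n) ((1 / 2) ^ (2 * rr K n)) (rr K n) (JJ n)
  obtain ⟨E, hE⟩ : ∃ E, E = JJ n * rr K n * (4 + 2 * rr K n + AA K n * JJ n) + 1 := ⟨_, rfl⟩
  have hE3 : E ≤ 2 ^ (3 * uu K n) := by
    have h1 : uu K n + 1 ≤ 2 ^ uu K n := Nat.lt_two_pow_self
    have h2 : (uu K n + 1) ^ 3 ≤ 2 ^ (3 * uu K n) := by
      rw [mul_comm, pow_mul]; exact Nat.pow_le_pow_left h1 3
    refine le_trans ?_ h2
    obtain ⟨b, hb⟩ : ∃ b, b = JJ n * rr K n *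
      (4 + 2 * rr K n + JJ n * (2 * rr K n + kk K n + 2)) + 1 := ⟨_, rfl⟩
    obtain ⟨s, hs⟩ : ∃ s, s = JJ n ^ 2 * rr K n := ⟨_, rfl⟩
    have e1 : uu K n = b + s := by rw [hb, hs]; rfl
    have e2 : E = b + s * (3 * uu K n) := by rw [hE, hb, hs]; unfold AA; ring
    rw [e2, e1]
    nlinarith [Nat.zero_le (b * s), Nat.zero_le (b * b), Nat.zero_le ((b + s) ^ 3)]
  refine hEx_of (2 ^ kk K n * E) (by positivity) (pow_le_one₀ (by norm_num) (by norm_num))
    (by positivity) (pow_le_one₀ (by norm_num) (by norm_num)) (by positivity)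
    (Nat.mul_pos (by positivity) (by omega)) ?_ ?_
  · have h1 : (E : ℝ) ≤ 2 ^ (3 * uu K n) := by exact_mod_cast hE3
    have a1 := half_mul_two (kk K n)
    have a2 := half_mul_two (3 * uu K n)
    have h2 := mul_le_mul_of_nonneg_left h1 (show (0 : ℝ) ≤ (1 / 2) ^ (3 * uu K n) by positivity)
    have : 4 * ((2 ^ kk K n * E : ℕ) : ℝ) * (1 / 2) ^ AA K n = (1 / 2) ^ (2 * rr K n) *
        ((1 / 2) ^ kk K n * 2 ^ kk K n) * ((1 / 2) ^ (3 * uu K n) * E) := by
      unfold AA; push_cast; rw [pow_add, pow_add, pow_add]; ring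
    rw [this, a1, mul_one]
    exact mul_le_of_le_one_right (by positivity) (by linarith)
  · have h1 := two_pow_le (2 ^ kk K n) E (by positivity)
    have e1 : (1 : ℝ) / ((2 ^ kk K n : ℕ) : ℝ) = (1 / 2) ^ kk K n := by
      push_cast; rw [one_div_pow]
    rw [e1] at h1
    refine lt_of_lt_of_le ?_ h1
    have e2 : (16 : ℝ) / ((1 / 2) ^ (2 * rr K n) * ((1 / 2) ^ AA K n) ^ JJ n)
        = 2 ^ (4 + 2 * rr K n + AA K n * JJ n) := by
      rw [← pow_mul, ← pow_add, one_div_pow, div_div_eq_mul_div, div_one, add_assoc, pow_add _ 4]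
      norm_num
    rw [e2, ← pow_mul]
    refine pow_lt_pow_right₀ (by norm_num) ?_
    rw [hE, mul_comm]; omega

lemma weight_to_set {G : Type} [Fintype G] {X : G → ℝ} (hX : Un X) (g : G → ℝ) :
    ∃ S : Finset G, ∑ x, X x * g x ≤ ∑ x ∈ S, g x := by
  classical
  refine ⟨univ.filter fun x => 0 < g x, ?_⟩
  rw [sum_filter]
  refine sum_le_sum fun x _ => ?_
  obtain ⟨h0, h1⟩ := hX x
  split_ifs with h
  · nlinarith
  · nlinarith [not_lt.1 h]

theorem ftStmt_of (hT : TSStmt) (hU : ULStmt) (hPr : PruneStmt) : FTStmt := by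
  obtain ⟨K, hU⟩ := ulStmt_iff.1 hU
  obtain ⟨CP, hPr⟩ := hPr
  obtain ⟨c, hc⟩ := pb_MM K
  refine ⟨9 * c * (CP + 1), fun G _ _ m X Y P Q hm hX hY hP hQ h => ?_⟩
  classical
  obtain ⟨n, hnd⟩ : ∃ n, n = ⌈60 * m⌉₊ + 300 := ⟨_, rfl⟩
  have hn : 300 ≤ n := by omega
  have hn1 : 60 * m ≤ n := by
    rw [hnd]; push_cast; linarith [Nat.le_ceil (60 * m)]
  have hn2 : (n : ℝ) ≤ m ^ 9 := by
    have h1 : (n : ℝ) ≤ 60 * m + 301 := by
      rw [hnd]; push_cast; linarith [Nat.ceil_lt_add_one (show 0 ≤ 60 * m by linarith)]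
    have h2 : (2 : ℝ) ^ 8 ≤ m ^ 8 := pow_le_pow_left₀ (by norm_num) hm 8
    rw [pow_succ]; nlinarith
  have hn0 : (0 : ℝ) < n := by linarith
  have hG : (0 : ℝ) < Fintype.card G := by exact_mod_cast Fintype.card_pos
  -- reduction to sets
  obtain ⟨X₁, h1⟩ := weight_to_set hX fun x => ∑ y, Y y * (P (x + y) - Q (x + y))
  obtain ⟨Y₁, h2⟩ := weight_to_set hY fun y => ∑ x ∈ X₁, (P (x + y) - Q (x + y))
  have htot : (1 / 2 : ℝ) ^ n * (Fintype.card G : ℝ) ^ 2 ≤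
      ∑ x ∈ X₁, ∑ y ∈ Y₁.image (fun y => -y), (P (x - y) - Q (x - y)) := by
    simp only [sum_image fun _ _ _ _ h => neg_injective h, sub_neg_eq_add]
    rw [sum_comm]
    refine (mul_le_mul_of_nonneg_right (half_le_exp (by linarith)) (by positivity)).trans
      (h.trans (le_trans (le_of_eq ?_) (h1.trans (le_trans (le_of_eq ?_) h2))))
    · simp only [mul_sum, mul_assoc]
    · rw [sum_comm]; simp only [mul_sum]
  generalize Y₁.image (fun y => -y) = Y₂ at htot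
  have hXG : (#X₁ : ℝ) ≤ Fintype.card G := by exact_mod_cast card_le_univ _
  have hYG : (#Y₂ : ℝ) ≤ Fintype.card G := by exact_mod_cast card_le_univ _
  have hX0 : (0 : ℝ) ≤ #X₁ := Nat.cast_nonneg _
  have hY0 : (0 : ℝ) ≤ #Y₂ := Nat.cast_nonneg _
  have hle : ∑ x ∈ X₁, ∑ y ∈ Y₂, (P (x - y) - Q (x - y)) ≤ #X₁ * #Y₂ := by
    have : ∑ x ∈ X₁, ∑ y ∈ Y₂, (P (x - y) - Q (x - y)) ≤ ∑ x ∈ X₁, ∑ y ∈ Y₂, (1 : ℝ) :=
      sum_le_sum fun x _ => sum_le_sum fun y _ => by linarith [(hP (x - y)).2, (hQ (x - y)).1]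
    simpa using this
  have hv0 : (0 : ℝ) < (1 / 2) ^ n := by positivity
  have hO : Out (par K n hn) P Q := by
    refine iterate hT hU (par K n hn) (par_hEx K n hn G) hP hQ
      (pow_le_one₀ (by norm_num) (by norm_num)) (n + 1)
      (Cont.top G (by change (0 : ℝ) ≤ (1 / 2) ^ _; positivity) _ _) X₁ Y₂ ((1 / 2) ^ n)
      ((1 / 2) ^ n) ⟨⟨0, fun _ _ => mem_univ _⟩, ⟨0, fun _ _ => mem_univ _⟩, ?_, ?_, ?_⟩ le_rfl ?_ ?_
      (by change 0 + (n + 1) * (jX n + jY n + 5) ≤ JJ n; unfold JJ; omega)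
    · change _ * ((Fintype.card G : ℕ) : ℝ) ≤ _
      by_contra hc'
      have := mul_le_mul (not_le.1 hc').le hYG hY0 (by positivity)
      have := mul_lt_mul_of_pos_right (not_le.1 hc') hG
      have := mul_le_mul_of_nonneg_left hYG hX0
      nlinarith
    · change _ * ((Fintype.card G : ℕ) : ℝ) ≤ _
      by_contra hc'
      have := mul_lt_mul_of_pos_right (not_le.1 hc') hG
      have := mul_le_mul_of_nonneg_left hXG hY0
      nlinarith
    · refine le_trans (mul_le_mul_of_nonneg_left ?_ hv0.le) htot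
      rw [sq]; exact mul_le_mul hXG hYG hY0 hG.le
    · rw [pow_succ]; have := half_mul_two n; linarith
    · change (1 / 2 : ℝ) ^ (5 * n ^ 2) ≤
        (1 / 2) ^ n * ((((1 / 2) ^ n) ^ 2 / 2048) ^ (n + 1) * (1 / 2) ^ n) / 8
      have e1 : (((1 / 2 : ℝ) ^ n) ^ 2 / 2048) = (1 / 2) ^ (n * 2 + 11) := by
        rw [pow_add, pow_mul]; ring
      rw [e1, ← pow_mul, ← pow_add, ← pow_add]
      refine (half_le (a := n + ((n * 2 + 11) * (n + 1) + n) + 3) (by nlinarith)).trans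
        (le_of_eq (by ring))
  obtain ⟨B, u, hBl, hB⟩ := hO
  change B.l ≤ JJ n at hBl
  change (1 - 30 * (1 / (n : ℝ))) * _ + (1 / 2 : ℝ) ^ n / 64 ≤ (1 + 30 * (1 / (n : ℝ))) * _ at hB
  have he0 : (0 : ℝ) < 1 / n := by positivity
  have he1 : (1 : ℝ) / n ≤ 1 / 300 := (par K n hn).he1
  have he2 : 60 * (1 / (n : ℝ)) ≤ 1 / m := by
    rw [mul_one_div, div_le_div_iff₀ hn0 (by linarith)]; linarith
  generalize (1 : ℝ) / n = e at hB he0 he1 he2
  have hM1 : (2 : ℝ) ≤ MM K n := by exact_mod_cast (by unfold MM; omega : 2 ≤ MM K n)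
  have hlam : (par K n hn).lam ^ B.l = (1 / 2) ^ (AA K n * B.l) := (pow_mul _ _ _).symm
  have hα : 1 - 1 / m ≤ (1 - 30 * e) / (1 + 30 * e) := by
    rw [le_div_iff₀ (by linarith)]
    have : 0 < 1 / m := by positivity
    nlinarith
  obtain ⟨Λ, hΛ1, hΛ2, hΛ3⟩ := hPr G (MM K n) B.Γ B.B ((par K n hn).lam ^ B.l) (par K n hn).κ
    ((1 - 30 * e) / (1 + 30 * e)) ((1 / 2) ^ (n + 7)) P Q u hM1
    (by
      have h1 := B.card
      have h2 : B.l * (par K n hn).r ≤ JJ n * rr K n := Nat.mul_le_mul_right _ hBl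
      exact_mod_cast (by unfold MM; omega : #B.Γ ≤ MM K n))
    (by
      rw [hlam]
      have := Nat.mul_le_mul_left (AA K n) hBl
      exact exp_le_half (by exact_mod_cast (by unfold MM; omega : AA K n * B.l ≤ MM K n)))
    (by rw [hlam]; exact pow_le_one₀ (by norm_num) (by norm_num)) B.sub
    (fun t ht => B.inv (par K n hn).hl ht) hP hQ (div_nonneg (by linarith) (by linarith))
    (by rw [div_le_one (by linarith)]; linarith)
    (exp_le_half (by exact_mod_cast (by unfold MM; omega : n + 7 ≤ MM K n)))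
    ((half_le (a := n + 10) (by unfold kk; omega)).trans (le_of_eq (by ring)))
    (by
      rw [div_mul_eq_mul_div, div_add' _ _ _ (by linarith), div_le_iff₀ (by linarith), pow_add]
      nlinarith)
  have hMm : (MM K n : ℝ) ^ (CP + 1) ≤ m ^ (9 * c * (CP + 1)) := by
    have h1 : (MM K n : ℝ) ≤ (n : ℝ) ^ c := by exact_mod_cast hc n (by omega)
    rw [pow_mul, pow_mul]
    exact pow_le_pow_left₀ (by linarith) (h1.trans (pow_le_pow_left₀ hn0.le hn2 c)) _
  have hMa : (MM K n : ℝ) ^ CP ≤ m ^ (9 * c * (CP + 1)) :=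
    (pow_le_pow_right₀ (by linarith) (by omega)).trans hMm
  have hMb : (MM K n : ℝ) ≤ m ^ (9 * c * (CP + 1)) :=
    (le_self_pow₀ (by linarith) (by omega)).trans hMm
  have hexp : Real.exp (-m ^ (9 * c * (CP + 1))) ≤ Real.exp (-(MM K n : ℝ) ^ CP) :=
    Real.exp_le_exp.2 (by linarith)
  refine ⟨Λ, hΛ1.trans hMa, fun ξ hξ => (hΛ2 ξ hξ).imp
    (fun h => (mul_le_mul_of_nonneg_right hexp hG.le).trans h)
    (fun h => (mul_le_mul_of_nonneg_right hexp hG.le).trans h), fun ν hν hν' => ?_⟩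
  obtain ⟨u₁, hu⟩ := hΛ3 ν hν fun t ht ξ hξ => (hν' t ht ξ hξ).trans hexp
  refine ⟨u₁, le_trans (add_le_add ?_ ?_) hu⟩
  · exact mul_le_mul_of_nonneg_right hα (sum_nonneg fun t _ => mul_nonneg (hν t) (hQ _).1)
  · refine mul_le_mul_of_nonneg_right ?_ (sum_nonneg fun t _ => hν t)
    refine (exp_le_half (a := n + 9) (le_trans ?_ hMb)).trans (le_of_eq (by ring))
    exact_mod_cast (by unfold MM; omega : n + 9 ≤ MM K n)

end Crest.Agent.T49.Fib
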