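import Crest.Agent.T49.FibDefs_59

/-! Row 49, fibre theorem: containers and the extraction of one strongly spread piece. -/

set_option autoImplicit false

namespace Crest.Agent.T49.Fib
open Finset
open scoped Pointwise

variable {G : Type} [AddCommGroup G] [Fintype G] [DecidableEq G]

/-- A container of level `l`. -/
structure Cont (G : Type) [AddCommGroup G] [Fintype G] [DecidableEq G] (κ lam : ℝ) (r : ℕ) where
  l : ℕ
  B : Finset G
  Γ : Finset (AddChar G ℂ)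
  card : #Γ ≤ l * r
  symm : ∀ x ∈ B, -x ∈ B
  sub : bohr Γ (lam ^ l) ⊆ B
  reg : (#(B + bohr Γ (2 * lam ^ l)) : ℝ) ≤ (1 + κ) * #B

variable {κ lam μ : ℝ} {r J : ℕ}

/-- `c'` is a deeper container inside the certificate of `c`. -/
def Desc (c c' : Cont G κ lam r) : Prop := c.l < c'.l ∧ c'.B ⊆ bohr c.Γ (lam ^ c.l)

/-- One can always go one level deeper and add `r` frequencies at width `μ`. -/
def HEx (G : Type) [AddCommGroup G] [Fintype G] [DecidableEq G] (κ lam μ : ℝ) (r J : ℕ) : Prop :=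
  ∀ (c : Cont G κ lam r) (Λ : Finset (AddChar G ℂ)), c.l < J → #Λ ≤ r →
    ∃ c' : Cont G κ lam r, c'.l = c.l + 1 ∧ Desc c c' ∧ c'.B ⊆ bohr Λ μ

lemma Desc.trans {c c' c'' : Cont G κ lam r} (h : Desc c c') (h' : Desc c' c'') : Desc c c'' :=
  ⟨h.1.trans h'.1, h'.2.trans (c'.sub.trans h.2)⟩

lemma Cont.nonempty (hl : 0 < lam) (c : Cont G κ lam r) : c.B.Nonempty :=
  (bohr_nonempty _ (pow_pos hl _).le).mono c.sub

lemma Cont.card_pos (hl : 0 < lam) (c : Cont G κ lam r) : (0 : ℝ) < #c.B := by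
  exact_mod_cast (c.nonempty hl).card_pos

lemma Cont.bohr_sub (hl : 0 < lam) (c : Cont G κ lam r) :
    bohr c.Γ (lam ^ c.l) ⊆ bohr c.Γ (2 * lam ^ c.l) :=
  bohr_mono subset_rfl (by linarith [pow_pos hl c.l])

lemma Cont.inv (hl : 0 < lam) (c : Cont G κ lam r) {t : G} (ht : t ∈ bohr c.Γ (lam ^ c.l)) :
    Inv κ c.B t :=
  inv_of_card_add c.reg (c.bohr_sub hl ht) (zero_mem_bohr _ (by linarith [pow_pos hl c.l]))

lemma Cont.card_add (c : Cont G κ lam r) {U : Finset G} (hU : U ⊆ bohr c.Γ (2 * lam ^ c.l)) :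
    (#(c.B + U) : ℝ) ≤ (1 + κ) * #c.B := by
  refine le_trans ?_ c.reg
  exact_mod_cast card_le_card (Finset.add_subset_add_left hU)

/-- The trivial container. -/
noncomputable def Cont.top (G : Type) [AddCommGroup G] [Fintype G] [DecidableEq G] {κ : ℝ}
    (hκ : 0 ≤ κ) (lam : ℝ) (r : ℕ) : Cont G κ lam r where
  l := 0
  B := univ
  Γ := ∅
  card := by simp
  symm := fun _ _ => mem_univ _
  sub := subset_univ _
  reg := by
    have h1 : (#((univ : Finset G) + bohr (∅ : Finset (AddChar G ℂ)) (2 * lam ^ 0)) : ℝ)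
        ≤ #(univ : Finset G) := by exact_mod_cast card_le_card (subset_univ _)
    have h2 : (0 : ℝ) ≤ #(univ : Finset G) := Nat.cast_nonneg _
    nlinarith

theorem hEx_of (N : ℕ) (hl : 0 < lam) (hl1 : lam ≤ 1) (hμ : 0 < μ) (hμ1 : μ ≤ 1) (hκ : 0 ≤ κ)
    (hN1 : 1 ≤ N) (hN : 4 * N * lam ≤ μ) (hb : (16 / (μ * lam ^ J)) ^ (J * r) < (1 + κ) ^ N) :
    HEx G κ lam μ r J := by
  classical
  intro c Λ hc hΛ
  have hp : 0 < lam ^ c.l := pow_pos hl _
  have hp1 : lam ^ c.l ≤ 1 := pow_le_one₀ hl.le hl1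
  have hcard : #(c.Γ ∪ Λ) ≤ (c.l + 1) * r := by
    have := card_union_le c.Γ Λ; have := c.card; nlinarith
  have hcard' : #(c.Γ ∪ Λ) ≤ J * r := hcard.trans (Nat.mul_le_mul_right _ hc)
  have hρ1 : μ * lam ^ c.l ≤ 1 := by nlinarith
  have hb' : (16 / (μ * lam ^ c.l)) ^ #(c.Γ ∪ Λ) < (1 + κ) ^ N := by
    refine lt_of_le_of_lt ?_ hb
    have h1 : 16 / (μ * lam ^ c.l) ≤ 16 / (μ * lam ^ J) := by
      gcongr _ / (_ * ?_)
      exact pow_le_pow_of_le_one hl.le hl1 hc.le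
    have h2 : 1 ≤ 16 / (μ * lam ^ c.l) := by
      rw [le_div_iff₀ (by positivity)]; linarith
    exact (pow_le_pow_right₀ h2 hcard').trans (pow_le_pow_left₀ (by positivity) h1 _)
  have hN1' : (1 : ℝ) ≤ N := by exact_mod_cast hN1
  obtain ⟨σ, h1, h2, h3⟩ := exists_reg (c.Γ ∪ Λ) (ρ := μ * lam ^ c.l) (κ := κ)
    (η := 2 * lam ^ (c.l + 1)) N (by positivity) hρ1 hκ (by positivity)
    (by rw [pow_succ]; nlinarith) hb'
  have hη : 0 < lam ^ (c.l + 1) := pow_pos hl _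
  have h4 : lam ^ (c.l + 1) ≤ σ := by
    refine le_trans ?_ h1
    rw [pow_succ]
    have : 4 * lam ≤ μ := by nlinarith
    nlinarith
  refine ⟨⟨c.l + 1, bohr (c.Γ ∪ Λ) σ, c.Γ ∪ Λ, hcard, fun x hx => neg_mem_bohr hx,
    bohr_mono subset_rfl h4, le_trans ?_ h3⟩, rfl, ⟨Nat.lt_succ_self _, ?_⟩, ?_⟩
  · exact_mod_cast card_le_card (bohr_add_subset _ _ _)
  · exact bohr_mono subset_union_left (by nlinarith)
  · exact bohr_mono subset_union_right (by nlinarith)

/-- Density of `X` on the translate `z + B`. -/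
noncomputable def den (X : Finset G) (z : G) (B : Finset G) : ℝ := av B fun t => ind X (z + t)

omit [Fintype G] in
lemma den_nonneg (X : Finset G) (z : G) (B : Finset G) : 0 ≤ den X z B :=
  av_nonneg fun _ _ => (un_ind X _).1

omit [Fintype G] in
lemma den_le_one (X : Finset G) (z : G) {B : Finset G} (hB : B.Nonempty) : den X z B ≤ 1 :=
  av_le hB fun _ _ => (un_ind X _).2

omit [Fintype G] in
lemma den_mono {X Y : Finset G} (h : X ⊆ Y) (z : G) (B : Finset G) : den X z B ≤ den Y z B :=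
  av_mono fun t _ => by
    unfold ind; split_ifs with h1 h2
    · exact le_rfl
    · exact absurd (h h1) h2
    · norm_num
    · exact le_rfl

lemma sum_ind_add (X : Finset G) (t : G) : ∑ z, ind X (z + t) = #X := by
  rw [Fintype.sum_equiv (Equiv.addRight t) (fun z => ind X (z + t)) (ind X) (fun _ => rfl)]
  simp [ind]

lemma sum_den (X : Finset G) {B : Finset G} (hB : B.Nonempty) (u : G) :
    ∑ z, den X (z + u) B = #X := by
  unfold den
  rw [sum_av]
  simp only [add_assoc, sum_ind_add]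
  exact av_const hB _

omit [Fintype G] in
lemma sum_filter_sub (X B : Finset G) (z : G) (g : G → ℝ) :
    ∑ x ∈ X.filter (fun x => x - z ∈ B), g x = ∑ t ∈ B, ind X (z + t) * g (z + t) := by
  have : ∑ t ∈ B, ind X (z + t) * g (z + t) = ∑ t ∈ B.filter (fun t => z + t ∈ X), g (z + t) := by
    rw [sum_filter]; refine sum_congr rfl fun t _ => ?_
    unfold ind; split_ifs <;> simp
  rw [this]
  refine sum_bij' (fun x _ => x - z) (fun t _ => z + t) ?_ ?_ ?_ ?_ ?_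
  · intro x hx; simp only [mem_filter] at hx ⊢; simpa using hx.symm
  · intro t ht; simp only [mem_filter] at ht ⊢; simpa using ht.symm
  · intro x _; simp
  · intro t _; simp
  · intro x _; simp

omit [Fintype G] in
lemma card_filter_sub (X : Finset G) {B : Finset G} (hB : B.Nonempty) (z : G) :
    (#(X.filter fun x => x - z ∈ B) : ℝ) = den X z B * #B := by
  have hp : (0 : ℝ) < #B := by exact_mod_cast hB.card_pos
  have := sum_filter_sub X B z (fun _ => 1)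
  simp only [sum_const, nsmul_eq_mul, mul_one] at this
  rw [this, den, av, div_mul_cancel₀ _ hp.ne']

omit [Fintype G] in
lemma den_eq_zero {X B₀ B : Finset G} {z₀ z : G} (hX : ∀ x ∈ X, x - z₀ ∈ B₀)
    (hB : ∀ x ∈ B, -x ∈ B) (hz : z ∉ z₀ +ᵥ (B₀ + B)) : den X z B = 0 := by
  unfold den av
  rw [sum_eq_zero, zero_div]
  intro t ht
  unfold ind
  rw [if_neg]
  intro h
  exact hz (Finset.mem_vadd_finset.2 ⟨z + t - z₀ + -t,
    Finset.add_mem_add (hX _ h) (hB _ ht), by rw [vadd_eq_add]; abel⟩)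

/-- One good, dense, strongly spread piece. -/
theorem piece (hl : 0 < lam) (hE : HEx G κ lam μ r J) (c₁ : Cont G κ lam r) (B₀ X : Finset G)
    (z₀ : G) (h : G → ℝ) (v d ε : ℝ) (j : ℕ) (hc : c₁.l < J) (hB₀ : B₀.Nonempty)
    (hB : (#(B₀ + bohr c₁.Γ (lam ^ c₁.l)) : ℝ) ≤ 2 * #B₀) (hX : ∀ x ∈ X, x - z₀ ∈ B₀)
    (hd : d * #B₀ ≤ #X) (hd0 : 0 < d) (hv : 0 < v) (hh : ∀ x, h x ≤ 1)
    (hs : v * #X ≤ ∑ x ∈ X, h x) (hε : 0 ≤ ε) (hj : 1 < (1 + ε) ^ j * (v * d / 4)) :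
    ∃ (c₂ : Cont G κ lam r) (z : G) (π : Finset G), Desc c₁ c₂ ∧ c₂.l ≤ c₁.l + j ∧ π ⊆ X ∧
      (∀ x ∈ π, x - z ∈ c₂.B) ∧ v / 2 * #π ≤ ∑ x ∈ π, h x ∧ v * d / 4 * #c₂.B ≤ #π ∧
      ∀ (c₃ : Cont G κ lam r) (z' : G), Desc c₂ c₃ →
        den π z' c₃.B ≤ (1 + ε) ^ (c₃.l - c₂.l) * (#π / #c₂.B) := by
  classical
  set ℓ : Finset G → ℝ := fun S => ∑ x ∈ S, (h x - v / 2) with hℓ
  have hℓe : ∀ S, ℓ S = ∑ x ∈ S, h x - v / 2 * #S := fun S => by
    simp only [hℓ, sum_sub_distrib, sum_const, nsmul_eq_mul]; ring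
  obtain ⟨X', hX'm, hmin⟩ := ((X.powerset).filter fun S => ℓ X ≤ ℓ S).exists_min_image card
    ⟨X, by simp⟩
  obtain ⟨hX'X, hX'ℓ⟩ := mem_filter.1 hX'm
  rw [mem_powerset] at hX'X
  have hB0 : (0 : ℝ) < #B₀ := by exact_mod_cast hB₀.card_pos
  have hX'c : v * d / 2 * #B₀ ≤ #X' := by
    have h1 : ∑ x ∈ X', h x ≤ #X' := by
      simpa using sum_le_card_nsmul X' h 1 fun x _ => hh x
    rw [hℓe, hℓe] at hX'ℓ
    have : (0 : ℝ) ≤ #X' := Nat.cast_nonneg _
    nlinarith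
  set a := v * d / 4 with ha
  have ha0 : 0 < a := by positivity
  let Pn : ℕ → Prop := fun n => ∃ (c : Cont G κ lam r) (z : G), Desc c₁ c ∧ c.l = c₁.l + n + 1 ∧
    (1 + ε) ^ n * a ≤ den X' z c.B
  have P0 : Pn 0 := by
    obtain ⟨c, h1, h2, -⟩ := hE c₁ ∅ hc (by simp)
    have hne := c.nonempty hl
    have hS : (z₀ +ᵥ (B₀ + c.B)).Nonempty := (hB₀.add hne).vadd_finset
    obtain ⟨z, -, hz⟩ := exists_av_le hS fun z => den X' z c.B
    refine ⟨c, z, h2, h1, le_trans ?_ hz⟩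
    have e1 : ∑ z ∈ z₀ +ᵥ (B₀ + c.B), den X' z c.B = #X' := by
      rw [← sum_den X' hne 0]
      simp only [add_zero]
      exact sum_subset (subset_univ _) fun z _ hz =>
        den_eq_zero (fun x hx => hX x (hX'X hx)) c.symm hz
    have e2 : (#(z₀ +ᵥ (B₀ + c.B)) : ℝ) ≤ 2 * #B₀ := by
      rw [Finset.card_vadd_finset]
      refine le_trans ?_ hB
      exact_mod_cast card_le_card (Finset.add_subset_add_left h2.2)
    have e3 : (0 : ℝ) < #(z₀ +ᵥ (B₀ + c.B)) := by exact_mod_cast hS.card_pos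
    rw [av, e1, le_div_iff₀ e3, pow_zero, one_mul]
    nlinarith
  have Pj : ∀ n, j ≤ n → ¬ Pn n := by
    rintro n hn ⟨c, z, -, -, h3⟩
    have h4 := den_le_one X' z (c.nonempty hl)
    have h5 : (1 + ε) ^ j ≤ (1 + ε) ^ n := pow_le_pow_right₀ (by linarith) hn
    nlinarith
  set n := Nat.findGreatest Pn j with hn
  have Pnn : Pn n := Nat.findGreatest_spec (Nat.zero_le j) P0
  have hnj : n < j := by
    by_contra hc'; exact Pj n (by omega) Pnn
  have Pmax : ∀ n', n < n' → ¬ Pn n' := by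
    intro n' h1
    by_cases h2 : n' ≤ j
    · exact Nat.findGreatest_is_greatest h1 h2
    · exact Pj n' (by omega)
  obtain ⟨c, z, hD, hcl, hden⟩ := Pnn
  have hne := c.nonempty hl
  have hcp := c.card_pos hl
  set π := X'.filter fun x => x - z ∈ c.B with hπ
  have hπc : (#π : ℝ) = den X' z c.B * #c.B := card_filter_sub X' hne z
  have h1n : (1 : ℝ) ≤ (1 + ε) ^ n := one_le_pow₀ (by linarith)
  have hda : a ≤ den X' z c.B := by nlinarith
  have hππ : (0 : ℝ) < #π := by rw [hπc]; exact mul_pos (by linarith) hcp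
  have hπs : π ⊆ X' := filter_subset _ _
  refine ⟨c, z, π, hD, by omega, hπs.trans hX'X, fun x hx => (mem_filter.1 hx).2, ?_, ?_, ?_⟩
  · have h1 : ¬ ℓ X ≤ ℓ (X' \ π) := by
      intro h2
      have := hmin (X' \ π) (mem_filter.2 ⟨mem_powerset.2 (sdiff_subset.trans hX'X), h2⟩)
      have h3 := card_sdiff_add_card_eq_card hπs
      have h4 : 0 < #π := by exact_mod_cast hππ
      omega
    have h2 : ℓ (X' \ π) + ℓ π = ℓ X' := sum_sdiff hπs
    have h3 := hℓe π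
    linarith
  · rw [hπc]; exact mul_le_mul_of_nonneg_right hda hcp.le
  · intro c₃ z' hD'
    have h1 := Pmax (n + (c₃.l - c.l)) (by have := hD'.1; omega)
    have h2 : den X' z' c₃.B < (1 + ε) ^ (n + (c₃.l - c.l)) * a := by
      by_contra h3
      exact h1 ⟨c₃, z', hD.trans hD', by have := hD'.1; omega, not_lt.1 h3⟩
    rw [hπc, mul_div_cancel_right₀ _ hcp.ne']
    refine (den_mono hπs _ _).trans (h2.le.trans ?_)
    rw [pow_add, mul_comm ((1 + ε) ^ n), mul_assoc]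
    exact mul_le_mul_of_nonneg_left hden (by positivity)

end Crest.Agent.T49.Fib
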