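import Crest.Agent.T49.FibLoc_59

/-! Row 49, fibre theorem: one round and the iteration. -/

set_option autoImplicit false

namespace Crest.Agent.T49.Fib
open Finset
open scoped Pointwise

/-- The body of `ULStmt` for a fixed constant. -/
def ULB (K : ℕ) : Prop :=
  ∀ (G : Type) [AddCommGroup G] [Fintype G] [DecidableEq G] (C B B' S X : Finset G)
    (κ d e θ : ℝ) (p w : ℕ), C.Nonempty → B.Nonempty → B'.Nonempty → S.Nonempty →
    (∀ x ∈ B, -x ∈ B) → (∀ x ∈ B', -x ∈ B') → (∀ b ∈ B, Inv κ C b) → (∀ b ∈ B', Inv κ B b) →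
    #(B + B') ≤ 2 * #B → #(B' + S) ≤ 2 * #B' → 0 < d → d ≤ 1 → 0 < e → e ≤ 1 / 10 → 0 < θ →
    κ ≤ θ / 2 → κ ≤ e * d ^ 2 / 4 → (1 + 3 * e / 4) ^ p ≤ e * θ / 200 * (1 + e) ^ p → 1 ≤ w →
    16 ≤ θ * d ^ (2 * p) * 2 ^ w → av C (ind X) ≤ (1 + e / 10) * d →
    θ * (#B : ℝ) ^ 2 ≤ (tail C B (ind X) ((1 + e) * d ^ 2) : ℝ) →
    ∃ Λ : Finset (AddChar G ℂ), (#Λ : ℝ) ≤ K * (w / e) ^ K ∧ ∀ T : Finset G, T.Nonempty →
      (∀ t ∈ T, Inv (Real.exp (-(K * (w / e) ^ K))) S t ∧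
        t ∈ bohr Λ (Real.exp (-(K * (w / e) ^ K)))) →
      ∃ z, (1 + e / 10) * d < av T fun t => ind X (z + t)

lemma ulStmt_iff : ULStmt ↔ ∃ K, ULB K := Iff.rfl

/-- Numerical parameters of the iteration. -/
structure Par (K : ℕ) where
  (κ lam μ e v0 ds θ θ' εX εY : ℝ)
  (r J p p' w jX jY : ℕ)
  hl : 0 < lam
  he : 0 < e
  he1 : e ≤ 1 / 300
  hv0 : 0 < v0
  hds : 0 < ds
  hθ : 0 < θ
  hp : Even p
  hθd : θ ≤ ds ^ (2 * p)
  hθ' : 2 ≤ θ' * (1 + e) ^ p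
  hθ'v : 256 * θ' ≤ v0 * ds ^ 2
  hκθ : κ ≤ θ / 2
  hκd : κ ≤ e * ds ^ 2 / 4
  hκe : κ ≤ e ^ 2
  hp' : (1 + 3 * e / 4) ^ p' ≤ e * θ / 200 * (1 + e) ^ p'
  hw1 : 1 ≤ w
  hw : 16 ≤ θ * ds ^ (2 * p') * 2 ^ w
  hr : K * (w / e) ^ K ≤ r
  hκr : κ ≤ Real.exp (-(K * (w / e) ^ K))
  hμr : μ ≤ Real.exp (-(K * (w / e) ^ K))
  hεX : 0 ≤ εX
  hεY : 0 ≤ εY
  hjX : 1 < (1 + εX) ^ jX * ds
  hjY : 1 < (1 + εY) ^ jY * ds
  hX : (1 + εX) ^ (jY + 5) ≤ 1 + e ^ 2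
  hY : (1 + εY) ^ 5 ≤ 1 + e ^ 2

variable {G : Type} [AddCommGroup G] [Fintype G] [DecidableEq G] {K : ℕ}

lemma Par.hκ1 (π : Par K) : π.κ ≤ 1 := by nlinarith [π.hκe, π.he, π.he1]

lemma card_add_nat (π : Par K) {c c' : Cont G π.κ π.lam π.r} (h : Desc c c') :
    #(c.B + c'.B) ≤ 2 * #c.B := by
  have h1 := c.card_add (h.2.trans (c.bohr_sub π.hl))
  have h2 : (#(c.B + c'.B) : ℝ) ≤ 2 * #c.B := by nlinarith [π.hκ1, c.card_pos π.hl]
  exact_mod_cast h2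

lemma tail_small (hU : ULB K) (π : Par K) (hE : HEx G π.κ π.lam π.μ π.r π.J)
    {C B : Cont G π.κ π.lam π.r} (hCB : Desc C B) (hJ : B.l + 3 ≤ π.J) (X : Finset G) (x₀ : G)
    {d : ℝ} (hd : π.ds ≤ d) (hd1 : d ≤ 1) (hC : den X x₀ C.B ≤ (1 + π.e ^ 2) * d)
    (hsp : ∀ (c : Cont G π.κ π.lam π.r) (z : G), Desc B c → c.l = B.l + 3 →
      den X z c.B ≤ (1 + π.e ^ 2) * d) :
    (tail C.B B.B (fun z => ind X (x₀ + z)) ((1 + π.e) * d ^ 2) : ℝ) ≤ π.θ * (#B.B : ℝ) ^ 2 := by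
  by_contra hcon
  obtain ⟨B', hB'l, hB', -⟩ := hE B ∅ (by omega) (by simp)
  obtain ⟨S, hSl, hS, -⟩ := hE B' ∅ (by omega) (by simp)
  have hd0 : 0 < d := π.hds.trans_le hd
  have he := π.he
  have he1 := π.he1
  have hee : (1 + π.e ^ 2) * d ≤ (1 + π.e / 10) * d := by
    apply mul_le_mul_of_nonneg_right _ hd0.le; nlinarith
  set X' := X.image (fun x => x - x₀) with hX'
  have hi : ind X' = fun z => ind X (x₀ + z) := by
    funext z
    unfold ind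
    congr 1
    simp only [hX', mem_image, eq_iff_iff]
    exact ⟨fun ⟨x, hx, e⟩ => by rw [← e]; simpa using hx, fun h => ⟨_, h, by simp⟩⟩
  obtain ⟨Λ, hΛ, hT⟩ := hU G C.B B.B B'.B S.B X' π.κ d π.e π.θ π.p' π.w (C.nonempty π.hl)
    (B.nonempty π.hl) (B'.nonempty π.hl) (S.nonempty π.hl) B.symm B'.symm
    (fun b hb => C.inv π.hl (hCB.2 hb)) (fun b hb => B.inv π.hl (hB'.2 hb))
    (card_add_nat π hB') (card_add_nat π hS) hd0 hd1 he (by linarith) π.hθ π.hκθ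
    (π.hκd.trans (by have := pow_le_pow_left₀ π.hds.le hd 2; nlinarith)) π.hp' π.hw1
    (π.hw.trans (by
      have := pow_le_pow_left₀ π.hds.le hd (2 * π.p')
      have := π.hθ
      gcongr))
    (by rw [hi]; exact hC.trans hee) (by rw [hi]; exact (not_le.1 hcon).le)
  obtain ⟨T, hTl, hTS, hTΛ⟩ := hE S Λ (by omega) (by exact_mod_cast hΛ.trans π.hr)
  obtain ⟨z, hz⟩ := hT T.B (T.nonempty π.hl) fun t ht =>
    ⟨(S.inv π.hl (hTS.2 ht)).mono π.hκr, bohr_mono subset_rfl π.hμr (hTΛ ht)⟩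
  have := hsp T (x₀ + z) (hB'.trans (hS.trans hTS)) (by omega)
  rw [hi] at hz
  simp only [← add_assoc] at hz
  exact absurd (this.trans hee) (not_le.2 hz)

/-- A state of the iteration. -/
def St {κ lam : ℝ} {r : ℕ} (H : G → ℝ) (c : Cont G κ lam r) (X Y : Finset G) (d v : ℝ) : Prop :=
  (∃ z, ∀ x ∈ X, x - z ∈ c.B) ∧ (∃ z, ∀ y ∈ Y, y - z ∈ c.B) ∧ d * #c.B ≤ #X ∧ d * #c.B ≤ #Y ∧
    v * (#X * #Y) ≤ ∑ x ∈ X, ∑ y ∈ Y, H (x - y)

/-- The outcome of the iteration. -/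
def Out (π : Par K) (P Q : G → ℝ) : Prop :=
  ∃ (c : Cont G π.κ π.lam π.r) (u : G), c.l ≤ π.J ∧
    (1 - 30 * π.e) * (av c.B fun a => av c.B fun b => Q (u + b - a)) + π.v0 / 64 ≤
      (1 + 30 * π.e) * (av c.B fun a => av c.B fun b => P (u + b - a))

/-- What a spread piece gives at the two working scales `C`, `B`. -/
lemma side (hU : ULB K) (π : Par K) (hE : HEx G π.κ π.lam π.μ π.r π.J)
    {c C B : Cont G π.κ π.lam π.r} (hC : Desc c C) (hCB : Desc C B) (hJ : B.l + 3 ≤ π.J)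
    {X : Finset G} {z : G} (hX : ∀ x ∈ X, x - z ∈ c.B) {d : ℝ} (hd : π.ds ≤ d)
    (hc : (#X : ℝ) = d * #c.B)
    (hsp : ∀ (c' : Cont G π.κ π.lam π.r) (z' : G), Desc c c' → c'.l ≤ B.l + 3 →
      den X z' c'.B ≤ (1 + π.e ^ 2) * d) :
    ∃ (S : Finset G) (bad : G → Prop) (_ : DecidablePred bad), (#S : ℝ) ≤ 2 * #c.B ∧
      (∀ x ∉ S, ∀ u ∈ C.B, den X (x + u) B.B = 0) ∧
      (∑ x ∈ S, (if bad x then av C.B (fun u => den X (x + u) B.B) else 0) ≤ 6 * π.e * #X) ∧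
      (∑ x ∈ S, av C.B (fun u => den X (x + u) B.B) = #X) ∧
      ∀ x, (tail C.B B.B (fun t => ind X (x + t)) ((1 + π.e) * d ^ 2) : ℝ)
          ≤ π.θ * (#B.B : ℝ) ^ 2 ∧
        (¬ bad x → ∀ b ∈ B.B, (1 - π.e) * d ≤ av C.B fun u => ind X (x + (b + u))) := by
  classical
  have hcp := c.card_pos π.hl
  have hCn := C.nonempty π.hl
  have hBn := B.nonempty π.hl
  have he := π.he
  have he1 := π.he1
  have hd0 : 0 < d := π.hds.trans_le hd
  have hd1 : d ≤ 1 := by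
    have h1 : #(X.image fun x => x - z) ≤ #c.B := card_le_card fun y hy => by
      obtain ⟨x, hx, rfl⟩ := mem_image.1 hy; exact hX x hx
    rw [card_image_of_injective _ sub_left_injective] at h1
    have h2 : (#X : ℝ) ≤ #c.B := by exact_mod_cast h1
    nlinarith
  have hCl := hC.1
  have hBl := hCB.1
  set S := z +ᵥ (c.B + bohr c.Γ (2 * π.lam ^ c.l)) with hS
  have hSc : (#S : ℝ) ≤ (1 + π.κ) * #c.B := by rw [hS, card_vadd_finset]; exact c.reg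
  set φ : G → ℝ := fun x => av C.B fun u => den X (x + u) B.B with hφ
  have hz : ∀ x ∉ S, ∀ u ∈ C.B, den X (x + u) B.B = 0 := by
    intro x hx u hu
    refine den_eq_zero hX B.symm fun h => hx ?_
    obtain ⟨y, hy, e⟩ := mem_vadd_finset.1 h
    obtain ⟨y1, h1, y2, h2, rfl⟩ := mem_add.1 hy
    refine mem_vadd_finset.2 ⟨y1 + (y2 + -u), add_mem_add h1 ?_, ?_⟩
    · rw [two_mul]
      exact add_mem_bohr ((hC.trans hCB).2 h2) (neg_mem_bohr (hC.2 hu))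
    · rw [vadd_eq_add] at e ⊢
      rw [← add_assoc y1, ← add_assoc z, e]; abel
  have hsum : ∑ x ∈ S, φ x = #X := by
    rw [sum_subset (subset_univ S) fun x _ hx => by
      simp only [hφ]; unfold av; rw [sum_eq_zero (hz x hx), zero_div]]
    simp only [hφ]
    rw [sum_av]
    simp only [sum_den X hBn]
    exact av_const hCn _
  have hφle : ∀ x, φ x ≤ (1 + π.e ^ 2) * d := fun x =>
    av_le hCn fun u _ => hsp B _ (hC.trans hCB) (by omega)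
  refine ⟨S, fun x => φ x < (1 - π.e / 2) * d, inferInstance, by nlinarith [π.hκ1], hz, ?_, hsum,
    fun x => ⟨?_, fun hx b hb => ?_⟩⟩
  · rw [hc]
    exact bad_mass S φ hcp.le hd0 he (by linarith) π.hκe hSc hφle (hsum.trans hc)
  · exact tail_small hU π hE hCB hJ X x hd hd1 (hsp C x hC (by omega))
      fun c' z' h1 h2 => hsp c' z' (hC.trans (hCB.trans h1)) h2.le
  · have hm : ∀ b ∈ B.B, |(av C.B fun u => ind X (x + (b + u))) - av C.B fun u => ind X (x + u)|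
        ≤ π.κ := fun b hb =>
      (C.inv π.hl (hCB.2 hb)).av_shift hCn (f := fun u => ind X (x + u)) fun u => un_ind X _
    have h1 : φ x ≤ (av C.B fun u => ind X (x + u)) + π.κ := by
      simp only [hφ, den]
      rw [av_comm]
      refine av_le hBn fun b' hb' => ?_
      have := (abs_le.1 (hm b' hb')).2
      have e1 : (fun u => ind X (x + u + b')) = fun u => ind X (x + (b' + u)) := by
        funext u; congr 1; abel
      rw [e1]
      linarith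
    have h2 := (abs_le.1 (hm b hb)).1
    have h3 : π.κ ≤ π.e * d / 4 := π.hκd.trans (by
      have h4 : π.ds ^ 2 ≤ d := by nlinarith [π.hds]
      nlinarith)
    have h4 := not_lt.1 hx
    nlinarith

omit [Fintype G] in
lemma card_le_of_sub {Z B : Finset G} {z : G} (hZ : ∀ x ∈ Z, x - z ∈ B) : (#Z : ℝ) ≤ #B := by
  have h1 : #(Z.image fun x => x - z) ≤ #B := card_le_card fun y hy => by
    obtain ⟨x, hx, rfl⟩ := mem_image.1 hy; exact hZ x hx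
  rw [card_image_of_injective _ sub_left_injective] at h1
  exact_mod_cast h1

lemma num_good {D v v0 ds θ' A : ℝ} (hD : ds ^ 2 ≤ D) (hv0 : 0 < v0) (hv : v0 ≤ v)
    (hθ : 256 * θ' ≤ v0 * ds ^ 2) (hA : A ≤ v0 / 64) : D * A + 4 * θ' ≤ v / 32 * D := by
  have h0 : 0 ≤ D := (sq_nonneg _).trans hD
  have h1 := mul_le_mul_of_nonneg_left hA h0
  have h2 := mul_le_mul_of_nonneg_left hD hv0.le
  have h3 := mul_le_mul_of_nonneg_right hv h0
  nlinarith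

lemma num_fin {v D s N e T A : ℝ} (hv : 0 < v) (hN : 0 < N) (he : e ≤ 1 / 300)
    (hs : s * (v * D) ≤ 4 * v * N) (hA : A ≤ 12 * e * N) (h1 : v / 4 * N ≤ T)
    (h2 : T ≤ s * (v / 32 * D + v / 128 * D) + 2 * v * A) : False := by
  have h10 : 0 < v * N := mul_pos hv hN
  have h11 := mul_le_mul_of_nonneg_right he h10.le
  have h12 := mul_le_mul_of_nonneg_left hA (show 0 ≤ 2 * v by positivity)
  nlinarith

/-- If no good pair wins, some pair of translates doubles the conditional mean. -/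
theorem core (hT : TSStmt) (hU : ULB K) (π : Par K) (hE : HEx G π.κ π.lam π.μ π.r π.J)
    {P Q : G → ℝ} (hP : Un P) (hQ : Un Q) {c₁ c₂ C B : Cont G π.κ π.lam π.r} (hD₂ : Desc c₁ c₂)
    (hC : Desc c₂ C) (hB : Desc C B) (hJ : B.l + 3 ≤ π.J) {X₁ Y₁ : Finset G} {z₁ z₂ : G}
    (hz₁ : ∀ x ∈ X₁, x - z₁ ∈ c₁.B) (hz₂ : ∀ x ∈ Y₁, x - z₂ ∈ c₂.B) {d₁ d₂ v : ℝ}
    (hX₁c : (#X₁ : ℝ) = d₁ * #c₁.B) (hY₁c : (#Y₁ : ℝ) = d₂ * #c₂.B) (hd₁s : π.ds ≤ d₁)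
    (hd₂s : π.ds ≤ d₂) (hv : π.v0 ≤ v)
    (hspX : ∀ (c' : Cont G π.κ π.lam π.r) (z' : G), Desc c₁ c' → c'.l ≤ B.l + 3 →
      den X₁ z' c'.B ≤ (1 + π.e ^ 2) * d₁)
    (hspY : ∀ (c' : Cont G π.κ π.lam π.r) (z' : G), Desc c₂ c' → c'.l ≤ B.l + 3 →
      den Y₁ z' c'.B ≤ (1 + π.e ^ 2) * d₂)
    (htot : v / 4 * (#X₁ * #Y₁) ≤ ∑ x ∈ X₁, ∑ y ∈ Y₁, (P (x - y) - Q (x - y)))
    (hO : ¬ Out π P Q) :
    ∃ x y, 2 * v * (den X₁ x B.B * den Y₁ y B.B) + v / 128 * (d₁ * d₂) <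
      lval X₁ Y₁ B.B (fun u => P u - Q u) x y := by
  classical
  obtain ⟨H, hH⟩ : ∃ H : G → ℝ, H = fun u => P u - Q u := ⟨_, rfl⟩
  have htot' : v / 4 * (#X₁ * #Y₁) ≤ ∑ x ∈ X₁, ∑ y ∈ Y₁, H (x - y) := by rw [hH]; exact htot
  rw [← hH]
  clear htot
  have hv0 := π.hv0
  have hds := π.hds
  have he := π.he
  have he1 := π.he1
  have hvp : 0 < v := hv0.trans_le hv
  have hCn := C.nonempty π.hl
  have hBn := B.nonempty π.hl
  have hc₁p := c₁.card_pos π.hl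
  have hc₂p := c₂.card_pos π.hl
  have hd₁p : 0 < d₁ := hds.trans_le hd₁s
  have hd₂p : 0 < d₂ := hds.trans_le hd₂s
  have hX₁p : (0 : ℝ) < #X₁ := hX₁c ▸ mul_pos hd₁p hc₁p
  have hY₁p : (0 : ℝ) < #Y₁ := hY₁c ▸ mul_pos hd₂p hc₂p
  have hd₁1 : d₁ ≤ 1 := by
    have := card_le_of_sub hz₁
    rw [hX₁c] at this
    exact (mul_le_iff_le_one_left hc₁p).1 this
  have hd₂1 : d₂ ≤ 1 := by
    have := card_le_of_sub hz₂
    rw [hY₁c] at this
    exact (mul_le_iff_le_one_left hc₂p).1 this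
  have hD : 0 < d₁ * d₂ := mul_pos hd₁p hd₂p
  have hN : d₁ * d₂ * (#c₁.B * #c₂.B) = #X₁ * #Y₁ := by rw [hX₁c, hY₁c]; ring
  obtain ⟨SX, bX, _, hSX, hzX, hbX, -, hgX⟩ :=
    side hU π hE (hD₂.trans hC) hB hJ hz₁ hd₁s hX₁c hspX
  obtain ⟨SY, bY, _, hSY, hzY, hbY, -, hgY⟩ := side hU π hE hC hB hJ hz₂ hd₂s hY₁c hspY
  clear hX₁c hY₁c
  by_contra hcon
  push Not at hcon
  have hgood : ∀ x y, ¬ bX x → ¬ bY y →
      av C.B (fun u => lval X₁ Y₁ B.B H (x + u) (y + u)) ≤ v / 32 * (d₁ * d₂) := by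
    intro x y hx hy
    rw [av_lval, hH]
    have h1 := hT G C.B B.B (fun t => ind X₁ (x + t)) (fun t => ind Y₁ (y + t)) d₁ d₂ π.e π.θ π.θ'
      π.p hCn hBn (fun _ => un_ind _ _) (fun _ => un_ind _ _) hd₁p hd₁1 hd₂p hd₂1 he (by linarith)
      π.hp (π.hθd.trans (pow_le_pow_left₀ hds.le hd₁s _))
      (π.hθd.trans (pow_le_pow_left₀ hds.le hd₂s _)) π.hθ' ((hgX x).2 hx) ((hgY y).2 hy)
      (hgX x).1 (hgY y).1
    have h2 := good_bound hCn hBn (fun _ => un_ind X₁ _) (fun _ => un_ind Y₁ _) hP hQ hD.le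
      (mul_le_one₀ hd₁1 hd₂p.le hd₂1) he.le (x - y) h1
    refine h2.trans (num_good ?_ hv0 hv π.hθ'v ?_)
    · rw [sq]; exact mul_le_mul hd₁s hd₂s hds.le hd₁p.le
    · have h3 : ¬ _ := fun h => hO ⟨B, x - y, by omega, h⟩
      linarith [not_le.1 h3]
  obtain ⟨M, hM⟩ : ∃ M : G → G → ℝ, M = fun x y =>
    av C.B fun u => den X₁ (x + u) B.B * den Y₁ (y + u) B.B := ⟨_, rfl⟩
  have hM0 : ∀ x y, 0 ≤ M x y := fun x y => by
    rw [hM]; exact av_nonneg fun u _ => mul_nonneg (den_nonneg _ _ _) (den_nonneg _ _ _)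
  have hall : ∀ x y, av C.B (fun u => lval X₁ Y₁ B.B H (x + u) (y + u)) ≤
      (v / 32 * (d₁ * d₂) + v / 128 * (d₁ * d₂)) +
        2 * v * ((if bX x then M x y else 0) + if bY y then M x y else 0) := by
    intro x y
    have h1 : av C.B (fun u => lval X₁ Y₁ B.B H (x + u) (y + u)) ≤
        2 * v * M x y + v / 128 * (d₁ * d₂) := by
      refine (av_mono fun u _ => hcon (x + u) (y + u)).trans (le_of_eq ?_)
      rw [av_add, av_mul_left, av_const hCn, hM]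
    have h2 : 0 ≤ v * (d₁ * d₂) := (mul_pos hvp hD).le
    have h3 : 0 ≤ v * M x y := mul_nonneg hvp.le (hM0 x y)
    by_cases hx : bX x <;> by_cases hy : bY y <;> simp only [hx, hy, if_true, if_false]
    · linarith
    · linarith
    · linarith
    · linarith [hgood x y hx hy]
  have hT1 : ∑ x ∈ SX, ∑ y ∈ SY, av C.B (fun u => lval X₁ Y₁ B.B H (x + u) (y + u))
      = ∑ x ∈ X₁, ∑ y ∈ Y₁, H (x - y) := by
    have z0 : ∀ f : G → ℝ, (∀ u ∈ C.B, f u = 0) → av C.B f = 0 := fun f hf => by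
      unfold av; rw [sum_eq_zero hf, zero_div]
    rw [sum_subset (subset_univ SX) fun x _ hx => sum_eq_zero fun y _ =>
      z0 _ fun u hu => lval_eq_zero_left hBn _ (hzX x hx u hu)]
    rw [sum_congr rfl fun x _ => sum_subset (subset_univ SY) fun y _ hy =>
      z0 _ fun u hu => lval_eq_zero_right _ hBn (hzY y hy u hu)]
    simp only [sum_av, sum_lval X₁ Y₁ hBn]
    exact av_const hCn _
  have hMy : ∀ x, ∑ y ∈ SY, M x y ≤ av C.B (fun u => den X₁ (x + u) B.B) * #Y₁ := by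
    intro x
    simp only [hM]
    rw [sum_av, ← av_mul_right]
    refine av_mono fun u _ => ?_
    rw [← mul_sum, ← sum_den Y₁ hBn u]
    exact mul_le_mul_of_nonneg_left
      (sum_le_sum_of_subset_of_nonneg (subset_univ _) fun _ _ _ => den_nonneg _ _ _)
      (den_nonneg _ _ _)
  have hMx : ∀ y, ∑ x ∈ SX, M x y ≤ av C.B (fun u => den Y₁ (y + u) B.B) * #X₁ := by
    intro y
    simp only [hM]
    rw [sum_av, ← av_mul_right]
    refine av_mono fun u _ => ?_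
    rw [← sum_mul, ← sum_den X₁ hBn u, mul_comm]
    exact mul_le_mul_of_nonneg_left
      (sum_le_sum_of_subset_of_nonneg (subset_univ _) fun _ _ _ => den_nonneg _ _ _)
      (den_nonneg _ _ _)
  have hS1 : ∑ x ∈ SX, ∑ y ∈ SY, (if bX x then M x y else 0) ≤ 6 * π.e * #X₁ * #Y₁ := by
    refine le_trans ?_ (mul_le_mul_of_nonneg_right hbX hY₁p.le)
    rw [sum_mul]
    refine sum_le_sum fun x _ => ?_
    split_ifs
    · exact hMy x
    · simp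
  have hS2 : ∑ x ∈ SX, ∑ y ∈ SY, (if bY y then M x y else 0) ≤ 6 * π.e * #Y₁ * #X₁ := by
    refine le_trans ?_ (mul_le_mul_of_nonneg_right hbY hX₁p.le)
    rw [sum_comm, sum_mul]
    refine sum_le_sum fun y _ => ?_
    split_ifs
    · exact hMx y
    · simp
  have hfin := sum_le_sum fun x (_ : x ∈ SX) => sum_le_sum fun y (_ : y ∈ SY) => hall x y
  rw [hT1] at hfin
  have hSS : (#SX : ℝ) * #SY ≤ 2 * #c₁.B * (2 * #c₂.B) :=
    mul_le_mul hSX hSY (Nat.cast_nonneg _) (by linarith)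
  refine num_fin (s := #SX * #SY) (D := d₁ * d₂) hvp (mul_pos hX₁p hY₁p) he1 ?_
    ((add_le_add hS1 hS2).trans (le_of_eq (by ring))) htot' (hfin.trans (le_of_eq ?_))
  · have := mul_le_mul_of_nonneg_right hSS (mul_pos hvp hD).le
    rw [← hN]; linarith
  · simp only [sum_add_distrib, ← mul_sum, sum_const, nsmul_eq_mul, mul_add]
    ring

lemma num_den {v d₁ d₂ a b e : ℝ} (hv : 0 < v) (hd₂ : 0 < d₂) (ha : 0 ≤ a) (he : 0 < e)
    (he1 : e ≤ 1 / 300) (hb : b ≤ (1 + e ^ 2) * d₂) (h : v / 128 * (d₁ * d₂) ≤ a * b) :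
    v / 256 * d₁ ≤ a := by
  have b1 : b ≤ 2 * d₂ := hb.trans (mul_le_mul_of_nonneg_right (by nlinarith) hd₂.le)
  by_contra h4
  have h5 := mul_lt_mul_of_pos_right (not_le.1 h4) (show 0 < 2 * d₂ by positivity)
  have h6 := mul_le_mul_of_nonneg_left b1 ha
  nlinarith

lemma num_new {v v0 d d₁ a : ℝ} (hv0 : 0 < v0) (hv : v0 ≤ v) (hd : 0 < d) (h1 : v * d / 8 ≤ d₁)
    (h2 : v / 256 * d₁ ≤ a) : v0 ^ 2 / 2048 * d ≤ a := by
  have h3 : v0 ^ 2 ≤ v ^ 2 := pow_le_pow_left₀ hv0.le hv 2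
  have h4 := mul_le_mul_of_nonneg_left h1 (show 0 ≤ v / 256 by linarith)
  have h5 := mul_le_mul_of_nonneg_right h3 hd.le
  nlinarith

theorem round (hT : TSStmt) (hU : ULB K) (π : Par K) (hE : HEx G π.κ π.lam π.μ π.r π.J)
    {P Q : G → ℝ} (hP : Un P) (hQ : Un Q) {c : Cont G π.κ π.lam π.r} {X Y : Finset G} {d v : ℝ}
    (hs : St (fun u => P u - Q u) c X Y d v) (hv : π.v0 ≤ v) (hd : π.ds ≤ π.v0 * d / 8)
    (hJ : c.l + π.jX + π.jY + 5 ≤ π.J) (hO : ¬ Out π P Q) :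
    ∃ (c' : Cont G π.κ π.lam π.r) (X' Y' : Finset G), c'.l ≤ c.l + π.jX + π.jY + 5 ∧
      St (fun u => P u - Q u) c' X' Y' (π.v0 ^ 2 / 2048 * d) (2 * v) := by
  classical
  have hH1 : ∀ u, P u - Q u ≤ 1 := fun u => by linarith [(hP u).2, (hQ u).1]
  obtain ⟨⟨zx, hzx⟩, ⟨zy, hzy⟩, hdX, hdY, hval⟩ := hs
  have hv0 := π.hv0
  have hds := π.hds
  have hvp : 0 < v := hv0.trans_le hv
  have hd0 : 0 < d := by by_contra h; nlinarith [not_lt.1 h]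
  have hcp := c.card_pos π.hl
  have hXp : (0 : ℝ) < #X := lt_of_lt_of_le (mul_pos hd0 hcp) hdX
  have hYp : (0 : ℝ) < #Y := lt_of_lt_of_le (mul_pos hd0 hcp) hdY
  have hYn : Y.Nonempty := card_pos.1 (by exact_mod_cast hYp)
  have hvd : π.v0 * d ≤ v * d := mul_le_mul_of_nonneg_right hv hd0.le
  have hvd0 : 0 < v * d := mul_pos hvp hd0
  have hreg : ∀ c₁ : Cont G π.κ π.lam π.r, bohr c₁.Γ (π.lam ^ c₁.l) ⊆ bohr c.Γ (π.lam ^ c.l) →
      (#(c.B + bohr c₁.Γ (π.lam ^ c₁.l)) : ℝ) ≤ 2 * #c.B := fun c₁ h =>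
    (c.card_add (h.trans (c.bohr_sub π.hl))).trans
      (mul_le_mul_of_nonneg_right (by linarith [π.hκ1]) hcp.le)
  obtain ⟨c₁, z₁, X₁, hD₁, hl₁, -, hz₁, hv₁, hd₁, hsp₁⟩ := piece π.hl hE c c.B X zx
    (fun x => av Y fun y => P (x - y) - Q (x - y)) v d π.εX π.jX (by omega) (c.nonempty π.hl)
    (hreg c subset_rfl) hzx hdX hd0 hvp (fun x => av_le hYn fun y _ => hH1 _)
    (by unfold av; rw [← sum_div, le_div_iff₀ hYp]; linarith) π.hεX
    (π.hjX.trans_le (mul_le_mul_of_nonneg_left (by linarith) (pow_nonneg (by linarith [π.hεX]) _)))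
  have hc₁p := c₁.card_pos π.hl
  have hX₁p : (0 : ℝ) < #X₁ := lt_of_lt_of_le (mul_pos (by linarith) hc₁p) hd₁
  have hX₁n : X₁.Nonempty := card_pos.1 (by exact_mod_cast hX₁p)
  obtain ⟨c₂, z₂, Y₁, hD₂, hl₂, -, hz₂, hv₂, hd₂, hsp₂⟩ := piece π.hl hE c₁ c.B Y zy
    (fun y => av X₁ fun x => P (x - y) - Q (x - y)) (v / 2) d π.εY π.jY (by omega)
    (c.nonempty π.hl) (hreg c₁ (c₁.sub.trans hD₁.2)) hzy hdY hd0 (by linarith)
    (fun y => av_le hX₁n fun x _ => hH1 _)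
    (by
      unfold av at hv₁ ⊢
      rw [← sum_div, le_div_iff₀ hYp] at hv₁
      rw [← sum_div, le_div_iff₀ hX₁p, sum_comm]; linarith) π.hεY
    (π.hjY.trans_le (mul_le_mul_of_nonneg_left (by linarith) (pow_nonneg (by linarith [π.hεY]) _)))
  have hc₂p := c₂.card_pos π.hl
  have htot : v / 4 * (#X₁ * #Y₁) ≤ ∑ x ∈ X₁, ∑ y ∈ Y₁, (P (x - y) - Q (x - y)) := by
    unfold av at hv₂
    rw [← sum_div, le_div_iff₀ hX₁p, sum_comm] at hv₂; linarith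
  obtain ⟨C, hCl, hC, -⟩ := hE c₂ ∅ (by omega) (by simp)
  obtain ⟨B, hBl, hB, -⟩ := hE C ∅ (by omega) (by simp)
  have hBn := B.nonempty π.hl
  have hBp := B.card_pos π.hl
  have hd₁l : v * d / 4 ≤ #X₁ / #c₁.B := by rw [le_div_iff₀ hc₁p]; exact hd₁
  have hd₂l : v * d / 8 ≤ #Y₁ / #c₂.B := by rw [le_div_iff₀ hc₂p]; linarith
  have hX₁c : (#X₁ : ℝ) = #X₁ / #c₁.B * #c₁.B := (div_mul_cancel₀ _ hc₁p.ne').symm
  have hY₁c : (#Y₁ : ℝ) = #Y₁ / #c₂.B * #c₂.B := (div_mul_cancel₀ _ hc₂p.ne').symm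
  generalize (#X₁ : ℝ) / #c₁.B = d₁ at hd₁l hX₁c hsp₁
  generalize (#Y₁ : ℝ) / #c₂.B = d₂ at hd₂l hY₁c hsp₂
  have hd₁p : 0 < d₁ := by linarith
  have hd₂p : 0 < d₂ := by linarith
  have hl₁₂ := hD₂.1
  have hspX : ∀ (c' : Cont G π.κ π.lam π.r) (z' : G), Desc c₁ c' → c'.l ≤ B.l + 3 →
      den X₁ z' c'.B ≤ (1 + π.e ^ 2) * d₁ := fun c' z' h1 h2 =>
    (hsp₁ c' z' h1).trans (mul_le_mul_of_nonneg_right
      ((pow_le_pow_right₀ (by linarith [π.hεX]) (by omega)).trans π.hX) hd₁p.le)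
  have hspY : ∀ (c' : Cont G π.κ π.lam π.r) (z' : G), Desc c₂ c' → c'.l ≤ B.l + 3 →
      den Y₁ z' c'.B ≤ (1 + π.e ^ 2) * d₂ := fun c' z' h1 h2 =>
    (hsp₂ c' z' h1).trans (mul_le_mul_of_nonneg_right
      ((pow_le_pow_right₀ (by linarith [π.hεY]) (by omega)).trans π.hY) hd₂p.le)
  obtain ⟨x, y, h⟩ := core hT hU π hE hP hQ hD₂ hC hB (by omega) hz₁ hz₂ hX₁c hY₁c (by linarith)
    (by linarith) hv hspX hspY htot hO
  have a0 := den_nonneg X₁ x B.B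
  have b0 := den_nonneg Y₁ y B.B
  have h1 := lval_le X₁ Y₁ B.B hH1 x y
  have h2 : 0 ≤ 2 * v * (den X₁ x B.B * den Y₁ y B.B) :=
    mul_nonneg (by linarith) (mul_nonneg a0 b0)
  have h4 : 0 ≤ v / 128 * (d₁ * d₂) := (mul_pos (by linarith) (mul_pos hd₁p hd₂p)).le
  have a2 : v / 256 * d₁ ≤ den X₁ x B.B :=
    num_den hvp hd₂p a0 π.he π.he1 (hspY B y (hC.trans hB) (by omega)) (by linarith)
  have b2 : v / 256 * d₂ ≤ den Y₁ y B.B :=
    num_den hvp hd₁p b0 π.he π.he1 (hspX B x (hD₂.trans (hC.trans hB)) (by omega)) (by linarith)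
  refine ⟨B, X₁.filter (fun u => u - x ∈ B.B), Y₁.filter (fun u => u - y ∈ B.B), by omega,
    ⟨x, fun u hu => (mem_filter.1 hu).2⟩, ⟨y, fun u hu => (mem_filter.1 hu).2⟩, ?_, ?_, ?_⟩
  · rw [card_filter_sub X₁ hBn]
    exact mul_le_mul_of_nonneg_right (num_new hv0 hv hd0 (by linarith) a2) hBp.le
  · rw [card_filter_sub Y₁ hBn]
    exact mul_le_mul_of_nonneg_right (num_new hv0 hv hd0 hd₂l b2) hBp.le
  · rw [card_filter_sub X₁ hBn, card_filter_sub Y₁ hBn,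
      sum_filter_lval X₁ Y₁ hBn (fun u => P u - Q u)]
    have : 2 * v * (den X₁ x B.B * den Y₁ y B.B) * (#B.B * #B.B) ≤
        lval X₁ Y₁ B.B (fun u => P u - Q u) x y * (#B.B * #B.B) :=
      mul_le_mul_of_nonneg_right (by linarith) (mul_pos hBp hBp).le
    linarith

theorem iterate (hT : TSStmt) (hU : ULB K) (π : Par K) (hE : HEx G π.κ π.lam π.μ π.r π.J)
    {P Q : G → ℝ} (hP : Un P) (hQ : Un Q) (hv1 : π.v0 ≤ 1) (n : ℕ) :
    ∀ (c : Cont G π.κ π.lam π.r) (X Y : Finset G) (d v : ℝ), St (fun u => P u - Q u) c X Y d v →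
      π.v0 ≤ v → 1 < 2 ^ n * v → π.ds ≤ π.v0 * ((π.v0 ^ 2 / 2048) ^ n * d) / 8 →
      c.l + n * (π.jX + π.jY + 5) ≤ π.J → Out π P Q := by
  have hv0 := π.hv0
  have hds := π.hds
  induction n with
  | zero =>
    intro c X Y d v hs hv h1 hd _
    exfalso
    obtain ⟨-, -, hX, hY, h⟩ := hs
    simp only [pow_zero, one_mul] at h1 hd
    have hd0 : 0 < d := by by_contra h; nlinarith [not_lt.1 h]
    have hcp := c.card_pos π.hl
    have hXp : (0 : ℝ) < #X := lt_of_lt_of_le (by positivity) hX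
    have hYp : (0 : ℝ) < #Y := lt_of_lt_of_le (by positivity) hY
    have h2 : ∑ x ∈ X, ∑ y ∈ Y, (P (x - y) - Q (x - y)) ≤ ∑ x ∈ X, ∑ y ∈ Y, (1 : ℝ) :=
      sum_le_sum fun x _ => sum_le_sum fun y _ => by linarith [(hP (x - y)).2, (hQ (x - y)).1]
    simp only [sum_const, nsmul_eq_mul, mul_one] at h2
    nlinarith [mul_pos hXp hYp]
  | succ n ih =>
    intro c X Y d v hs hv h1 hd hJ
    by_contra hO
    have hq : 0 < π.v0 ^ 2 / 2048 := by positivity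
    have hq1 : π.v0 ^ 2 / 2048 ≤ 1 := by nlinarith
    have hqn : 0 < (π.v0 ^ 2 / 2048) ^ (n + 1) := pow_pos hq _
    have hd0 : 0 < d := by
      by_contra h
      have := mul_nonpos_of_nonneg_of_nonpos hqn.le (not_lt.1 h)
      nlinarith
    have hd' : π.ds ≤ π.v0 * d / 8 := hd.trans (by
      have : (π.v0 ^ 2 / 2048) ^ (n + 1) ≤ 1 := pow_le_one₀ hq.le hq1
      have : (π.v0 ^ 2 / 2048) ^ (n + 1) * d ≤ d := by nlinarith
      gcongr)
    obtain ⟨c', X', Y', hl, hs'⟩ := round hT hU π hE hP hQ hs hv hd'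
      (by rw [Nat.succ_mul] at hJ; omega) hO
    exact hO (ih c' X' Y' _ _ hs' (by linarith) (by rw [pow_succ] at h1; linarith)
      (by rw [pow_succ] at hd; linarith [mul_assoc ((π.v0 ^ 2 / 2048) ^ n) (π.v0 ^ 2 / 2048) d])
      (by rw [Nat.succ_mul] at hJ; omega))

end Crest.Agent.T49.Fib
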