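import Crest.Agent.T49.RngDer_63
import Crest.Agent.T49.Red_74

/-! # Row 49 (helper63): lattices, existence of triangular bases, polarisation -/

set_option autoImplicit false

open InnerProductSpace

namespace Crest.Agent.T49.Rng

section Lat
variable {A : Type} [AddCommGroup A] [Module ℝ A]

theorem IsLat.mono {L L' : Submodule ℤ A} (h : IsLat L) (hle : L' ≤ L) : IsLat L' :=
  ⟨h.1.of_le hle, fun n v hv hi => h.2 n v (fun i => hle (hv i)) hi⟩

theorem IsLat.exists_basis {L : Submodule ℤ A} (h : IsLat L) :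
    ∃ (n : ℕ) (v : Fin n → A), (∀ i, v i ∈ L) ∧ LinearIndependent ℝ v ∧
      ∀ y ∈ L, ∃ z : Fin n → ℤ, y = ∑ i, z i • v i := by
  have : Module.Finite ℤ L := Module.Finite.iff_fg.2 h.1
  have : IsAddTorsionFree A := IsAddTorsionFree.of_isTorsionFree ℝ A
  obtain ⟨n, b⟩ : Σ n, Module.Basis (Fin n) ℤ L := Module.basisOfFiniteTypeTorsionFree'
  refine ⟨n, fun i => b i, fun i => (b i).2, h.2 n _ (fun i => (b i).2) ?_, fun y hy => ?_⟩
  · exact b.linearIndependent.map' L.subtype (Submodule.ker_subtype L)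
  · refine ⟨fun i => b.repr ⟨y, hy⟩ i, ?_⟩
    have := congrArg Subtype.val (b.sum_repr ⟨y, hy⟩)
    simp only [AddSubmonoidClass.coe_finsetSum, Submodule.coe_smul] at this
    exact this.symm

/-- the `ℤ`-span of an `ℝ`-independent finite family is a lattice -/
theorem isLat_span {β : Type} [Fintype β] {v : β → A} (hv : LinearIndependent ℝ v) :
    IsLat (Submodule.span ℤ (Set.range v)) := by
  refine ⟨Submodule.fg_span (Set.finite_range v), fun n w hw hi => ?_⟩
  choose z hz using fun i => (Submodule.mem_span_range_iff_exists_fun ℤ).1 (hw i)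
  have h1 : LinearIndependent ℤ z := by
    refine LinearIndependent.of_comp (Fintype.linearCombination ℤ v) ?_
    convert hi using 1
    funext i
    simpa [Fintype.linearCombination_apply] using hz i
  have h2 : LinearIndependent ℝ fun i => algebraMap ℤ ℝ ∘ z i :=
    linearIndependent_algebraMap_comp_iff.2 h1
  have h3 := h2.map' (Fintype.linearCombination ℝ v)
    (LinearMap.ker_eq_bot.2 (linearIndependent_iff_injective_fintypeLinearCombination.1 hv))
  have h4 : w = (Fintype.linearCombination ℝ v) ∘ fun i => algebraMap ℤ ℝ ∘ z i := by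
    funext i
    rw [← hz i]
    simp [Fintype.linearCombination_apply, Int.cast_smul_eq_zsmul]
  rw [h4]; exact h3

/-- criterion: contained in the `ℤ`-span of an independent family -/
theorem isLat_of_gen {β : Type} [Fintype β] {v : β → A} (hv : LinearIndependent ℝ v)
    {L : Submodule ℤ A} (h : ∀ y ∈ L, ∃ z : β → ℤ, y = ∑ i, z i • v i) : IsLat L :=
  (isLat_span hv).mono fun y hy => by
    obtain ⟨z, rfl⟩ := h y hy
    exact (Submodule.mem_span_range_iff_exists_fun ℤ).2 ⟨z, rfl⟩

theorem IsLat.prod {A' : Type} [AddCommGroup A'] [Module ℝ A'] {L : Submodule ℤ A}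
    {L' : Submodule ℤ A'} (h : IsLat L) (h' : IsLat L') : IsLat (L.prod L') := by
  obtain ⟨n, v, -, hv, hg⟩ := h.exists_basis
  obtain ⟨n', v', -, hv', hg'⟩ := h'.exists_basis
  have hi : LinearIndependent ℝ (Sum.elim (LinearMap.inl ℝ A A' ∘ v) (LinearMap.inr ℝ A A' ∘ v')) :=
    linearIndependent_inl_union_inr' hv hv'
  refine isLat_of_gen hi fun y hy => ?_
  obtain ⟨z, hz⟩ := hg y.1 hy.1
  obtain ⟨z', hz'⟩ := hg' y.2 hy.2
  refine ⟨Sum.elim z z', ?_⟩
  rw [Fintype.sum_sum_type]
  simp only [Sum.elim_inl, Sum.elim_inr, Function.comp_apply]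
  simp only [← map_zsmul, ← map_sum]
  rw [← hz, ← hz']
  simp

/-- lattices pull back along maps that are injective on the real span -/
theorem IsLat.of_map {A' : Type} [AddCommGroup A'] [Module ℝ A'] {L : Submodule ℤ A}
    {L' : Submodule ℤ A'} (h' : IsLat L') (φ : A →ₗ[ℝ] A') (hm : ∀ y ∈ L, φ y ∈ L')
    (hi : ∀ y ∈ L, φ y = 0 → y = 0) : IsLat L := by
  have hinj : Function.Injective ((φ.restrictScalars ℤ).domRestrict L) := by
    rw [← LinearMap.ker_eq_bot, LinearMap.ker_eq_bot']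
    intro y hy
    exact Subtype.ext (hi y y.2 hy)
  refine ⟨?_, fun n v hv hind => ?_⟩
  · have h1 : (LinearMap.range ((φ.restrictScalars ℤ).domRestrict L)).FG :=
      h'.1.of_le (by rintro _ ⟨y, rfl⟩; exact hm y y.2)
    rw [← Module.Finite.iff_fg] at h1 ⊢
    exact Module.Finite.equiv (LinearEquiv.ofInjective _ hinj).symm
  · refine LinearIndependent.of_comp φ (h'.2 n _ (fun i => hm _ (hv i)) ?_)
    have h1 : LinearIndependent ℤ fun i => (⟨v i, hv i⟩ : L) :=
      LinearIndependent.of_comp L.subtype hind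
    exact h1.map' _ (LinearMap.ker_eq_bot.2 hinj)

theorem mem_span_of_gen {β : Type} [Fintype β] {v : β → A} {L : Submodule ℤ A}
    (h : ∀ y ∈ L, ∃ z : β → ℤ, y = ∑ i, z i • v i) {y : A}
    (hy : y ∈ Submodule.span ℝ (L : Set A)) : ∃ x : β → ℝ, y = ∑ i, x i • v i := by
  have : Submodule.span ℝ (L : Set A) ≤ Submodule.span ℝ (Set.range v) := by
    refine Submodule.span_le.2 fun y hy => ?_
    obtain ⟨z, rfl⟩ := h y hy
    refine Submodule.sum_mem _ fun j _ => ?_
    rw [← Int.cast_smul_eq_zsmul ℝ]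
    exact Submodule.smul_mem _ _ (Submodule.subset_span ⟨j, rfl⟩)
  obtain ⟨x, hx⟩ := (Submodule.mem_span_range_iff_exists_fun ℝ).1 (this hy)
  exact ⟨x, hx.symm⟩

variable {F : Type} [NormedAddCommGroup F] [InnerProductSpace ℝ F]

/-- Gram-Schmidt -/
theorem exists_TB_of_basis' {L : Submodule ℤ A} {Q : A →ₗ[ℝ] F} {K : ℝ} {n : ℕ} (v : Fin n → A)
    (hm : ∀ i, v i ∈ L) (hi : LinearIndependent ℝ fun i => Q (v i))
    (hg : ∀ y ∈ L, ∃ z : Fin n → ℤ, y = ∑ i, z i • v i) (hK : ∀ i, ‖Q (v i)‖ ≤ K) :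
    ∃ b : TB L Q K (Fin n), (∀ j y, Q y = 0 → b.co j y = 0) ∧ b.v = v ∧
      b.pos = fun j : Fin n => n - j := by
  set f : Fin n → F := fun i => Q (v i) with hf
  set g := gramSchmidtNormed ℝ f with hgd
  have hon : Orthonormal ℝ g := gramSchmidtNormed_orthonormal hi
  refine ⟨⟨v, fun j => (innerₛₗ ℝ (g j)).comp Q, fun j => n - j, hm, hg, fun y hy => ?_,
    fun i j h => ?_, fun j => ?_, fun j => ?_⟩, fun j y hy => by simp [hy], rfl, rfl⟩
  · obtain ⟨x, rfl⟩ := mem_span_of_gen hg hy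
    have h1 : Q (∑ i, x i • v i) ∈ Submodule.span ℝ (Set.range g) := by
      rw [hgd, span_gramSchmidtNormed_range, span_gramSchmidt, map_sum]
      exact Submodule.sum_mem _ fun i _ => by
        rw [map_smul]; exact Submodule.smul_mem _ _ (Submodule.subset_span ⟨i, rfl⟩)
    obtain ⟨c, hc⟩ := (Submodule.mem_span_range_iff_exists_fun ℝ).1 h1
    simp only [LinearMap.comp_apply, innerₛₗ_apply_apply]
    rw [← hc, ← real_inner_self_eq_norm_sq, hon.inner_sum]
    refine Finset.sum_congr rfl fun j _ => ?_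
    rw [hon.inner_right_fintype]; simp [sq]
  · rcases lt_trichotomy i j with h1 | h1 | h1
    · exfalso
      apply h
      simp only [LinearMap.comp_apply, innerₛₗ_apply_apply, hgd, gramSchmidtNormed,
        inner_smul_left]
      rw [gramSchmidt_inv_triangular ℝ f h1, mul_zero]
    · exact Or.inl h1
    · right
      have := i.2
      have : (j : ℕ) < i := h1
      show n - (i : ℕ) < n - (j : ℕ)
      omega
  · have h0 : gramSchmidt ℝ f j ≠ 0 := gramSchmidt_ne_zero j hi
    have h1 : ⟪gramSchmidt ℝ f j, f j⟫_ℝ = ‖gramSchmidt ℝ f j‖ ^ 2 := by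
      conv_lhs => rw [gramSchmidt_def'' ℝ f j]
      rw [inner_add_right, real_inner_self_eq_norm_sq, inner_sum, Finset.sum_eq_zero, add_zero]
      intro i hi
      rw [inner_smul_right, gramSchmidt_orthogonal ℝ f (Finset.mem_Iio.1 hi).ne', mul_zero]
    simp only [LinearMap.comp_apply, innerₛₗ_apply_apply, hgd, gramSchmidtNormed,
      inner_smul_left]
    rw [show Q (v j) = f j from rfl, h1]
    have := norm_pos_iff.2 h0
    simp [this.ne']
  · simp only [LinearMap.comp_apply, innerₛₗ_apply_apply]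
    refine (abs_real_inner_le_norm _ _).trans ?_
    rw [hon.1 j, one_mul]
    exact hK j

theorem exists_TB_of_basis {L : Submodule ℤ A} {Q : A →ₗ[ℝ] F} {K : ℝ} {n : ℕ} (v : Fin n → A)
    (hm : ∀ i, v i ∈ L) (hi : LinearIndependent ℝ fun i => Q (v i))
    (hg : ∀ y ∈ L, ∃ z : Fin n → ℤ, y = ∑ i, z i • v i) (hK : ∀ i, ‖Q (v i)‖ ≤ K) :
    ∃ b : TB L Q K (Fin n), ∀ j y, Q y = 0 → b.co j y = 0 :=
  let ⟨b, h, _⟩ := exists_TB_of_basis' v hm hi hg hK; ⟨b, h⟩

/-- a lattice spanned (over `ℝ`) by short vectors has a short triangular basis -/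
theorem exists_TB {L : Submodule ℤ A} (hL : IsLat L) {Q : A →ₗ[ℝ] F}
    (hQ : ∀ x ∈ Submodule.span ℝ (L : Set A), Q x = 0 → x = 0) {K : ℝ} (hK : 0 ≤ K) {r : ℕ}
    (hsp : Submodule.span ℝ (L : Set A) ≤ Submodule.span ℝ {y | y ∈ L ∧ ‖Q y‖ ≤ K})
    (hr : Module.finrank ℝ (Submodule.span ℝ (L : Set A)) ≤ r) :
    ∃ (n : ℕ) (b : TB L Q ((2 * r + 1) ^ r * K) (Fin n)), ∀ j y, Q y = 0 → b.co j y = 0 := by
  obtain ⟨n, v, hm, hi, hg⟩ := hL.exists_basis
  have hmem : ∀ x : Fin n → ℝ, ∑ i, x i • v i ∈ Submodule.span ℝ (L : Set A) := fun x =>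
    Submodule.sum_mem _ fun i _ => Submodule.smul_mem _ _ (Submodule.subset_span (hm i))
  have hn : n ≤ r := by
    have h1 : Submodule.span ℝ (Set.range v) = Submodule.span ℝ (L : Set A) := by
      refine le_antisymm (Submodule.span_mono ?_) fun y hy => ?_
      · rintro _ ⟨j, rfl⟩; exact hm j
      · obtain ⟨x, rfl⟩ := mem_span_of_gen hg hy
        exact (Submodule.mem_span_range_iff_exists_fun ℝ).2 ⟨x, rfl⟩
    rw [← h1, finrank_span_eq_card hi, Fintype.card_fin] at hr
    exact hr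
  set P : (Fin n → ℝ) →ₗ[ℝ] A := Fintype.linearCombination ℝ v with hP
  have hPa : ∀ x, P x = ∑ i, x i • v i := fun x => Fintype.linearCombination_apply _ _ _
  have hinj : Function.Injective (Q.comp P) := by
    rw [← LinearMap.ker_eq_bot, LinearMap.ker_eq_bot']
    intro x hx
    have := hQ _ (hmem x) (by rw [← hPa]; exact hx)
    funext i
    exact Fintype.linearIndependent_iff.1 hi x this i
  obtain ⟨R⟩ := Lat.exists_Red (Q.comp P) hinj
  have hcast : ∀ z : Fin n → ℤ, P (Lat.cast z) = ∑ i, z i • v i := fun z => by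
    rw [hPa]; simp [Lat.cast, Int.cast_smul_eq_zsmul]
  refine ⟨n, exists_TB_of_basis (fun i => P (Lat.cast (R.b i))) (fun i => ?_) ?_ (fun y hy => ?_)
    fun i => ?_⟩
  · rw [hcast]
    exact Submodule.sum_mem _ fun j _ => Submodule.smul_mem _ _ (hm j)
  · have h1 : LinearIndependent ℝ fun i => Lat.cast (R.b i) := by
      rw [Fintype.linearIndependent_iff]
      intro t ht i
      rw [← R.co_sum t i, ht, map_zero]
    exact h1.map' (Q.comp P) (LinearMap.ker_eq_bot.2 hinj)
  · obtain ⟨z, rfl⟩ := hg y hy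
    refine ⟨fun i => R.coZ i z, ?_⟩
    rw [← hcast]
    conv_lhs => rw [← R.sum_co (Lat.cast z), map_sum]
    refine Finset.sum_congr rfl fun i _ => ?_
    rw [map_smul, R.co_cast, Int.cast_smul_eq_zsmul]
  · have hc : Lat.cst (Fin n) ≤ (2 * r + 1) ^ r := by
      unfold Lat.cst
      rw [Fintype.card_fin]
      have : (n : ℝ) ≤ r := by exact_mod_cast hn
      calc (2 * n : ℝ) ^ n ≤ (2 * r + 1) ^ n := by gcongr; linarith
        _ ≤ (2 * r + 1) ^ r := pow_le_pow_right₀ (by linarith [Nat.cast_nonneg (α := ℝ) r]) hn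
    by_contra hcon
    have hlt : Lat.cst (Fin n) * K < ‖(Q.comp P) (Lat.cast (R.b i))‖ :=
      lt_of_le_of_lt (mul_le_mul_of_nonneg_right hc hK) (not_le.1 hcon)
    have hPinj : Function.Injective P := linearIndependent_iff_injective_fintypeLinearCombination.1 hi
    have key : ∀ y ∈ Submodule.span ℝ {y | y ∈ L ∧ ‖Q y‖ ≤ K},
        ∃ x, P x = y ∧ R.co i x = 0 := by
      intro y hy
      induction hy using Submodule.span_induction with
      | mem y hy =>
        obtain ⟨z, rfl⟩ := hg y hy.1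
        refine ⟨Lat.cast z, hcast z, ?_⟩
        rw [R.co_cast, R.coZ_eq_zero, Int.cast_zero]
        refine lt_of_le_of_lt (mul_le_mul_of_nonneg_left ?_
          (zero_le_one.trans (Lat.one_le_cst _))) hlt
        rw [LinearMap.comp_apply, hcast]
        exact hy.2
      | zero => exact ⟨0, map_zero _, map_zero _⟩
      | add y z _ _ hy hz =>
        obtain ⟨x, rfl, hx⟩ := hy
        obtain ⟨x', rfl, hx'⟩ := hz
        exact ⟨x + x', map_add _ _ _, by rw [map_add, hx, hx', add_zero]⟩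
      | smul t y _ hy =>
        obtain ⟨x, rfl, hx⟩ := hy
        exact ⟨t • x, map_smul _ _ _, by rw [map_smul, hx, smul_zero]⟩
    obtain ⟨x, hx, h0⟩ := key (P (Lat.cast (R.b i))) (hsp (by rw [hPa]; exact hmem _))
    rw [hPinj hx, R.co_b] at h0
    simp at h0

end Lat

section Polar
variable {A : Type} [CommRing A]

/-- iterated differences of `a ↦ a ^ n` -/
def dif : List A → ℕ → A → A
  | [], n, a => a ^ n
  | y :: ys, n, a => dif ys n (a + y) - dif ys n a

theorem dif_add (ys : List A) (n : ℕ) (a y : A) :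
    dif ys n (a + y) = ∑ j ∈ Finset.range (n + 1), dif ys j a * y ^ (n - j) * n.choose j := by
  induction ys generalizing a with
  | nil => exact add_pow a y n
  | cons z ys ih =>
    simp only [dif]
    rw [add_right_comm, ih, ih, ← Finset.sum_sub_distrib]
    exact Finset.sum_congr rfl fun j _ => by ring

theorem dif_eq (ys : List A) : (∀ n < ys.length, ∀ a, dif ys n a = 0) ∧
    ∀ a, dif ys ys.length a = ys.length.factorial * ys.prod := by
  induction ys with
  | nil => simp [dif]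
  | cons y ys ih =>
    have h : ∀ n a, dif (y :: ys) n a =
        ∑ j ∈ Finset.range n, dif ys j a * y ^ (n - j) * n.choose j := by
      intro n a
      simp only [dif]
      rw [dif_add, Finset.sum_range_succ]; simp
    refine ⟨fun n hn a => ?_, fun a => ?_⟩
    · rw [h]
      refine Finset.sum_eq_zero fun j hj => ?_
      rw [ih.1 j (by have := Finset.mem_range.1 hj; simp at hn; omega)]; simp
    · rw [h, List.length_cons, Finset.sum_range_succ, Finset.sum_eq_zero, ih.2]
      · simp [Nat.factorial_succ]; ring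
      · intro j hj
        rw [ih.1 j (Finset.mem_range.1 hj)]; simp

variable [Algebra ℝ A] {γ : Type} [Fintype γ]

/-- sums of at most `k` generators -/
def Sm (g : γ → A) (k : ℕ) (a : A) : Prop :=
  ∃ n : γ → ℕ, ∑ i, n i ≤ k ∧ a = ∑ i, (n i : ℤ) • g i

omit [Algebra ℝ A] in
theorem Sm.add {g : γ → A} {k : ℕ} {a : A} (h : Sm g k a) (i : γ) : Sm g (k + 1) (a + g i) := by
  classical
  obtain ⟨n, hn, rfl⟩ := h
  refine ⟨fun j => n j + if j = i then 1 else 0, by simp [Finset.sum_add_distrib, hn], ?_⟩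
  simp [add_mul, Finset.sum_add_distrib]

omit [Algebra ℝ A] in
theorem Sm.mono {g : γ → A} {k k' : ℕ} {a : A} (h : Sm g k a) (hk : k ≤ k') : Sm g k' a :=
  let ⟨n, hn, e⟩ := h; ⟨n, hn.trans hk, e⟩

theorem dif_mem (g : γ → A) (s n : ℕ) (u : List γ) : ∀ (k : ℕ) (a : A), Sm g k a →
    k + u.length ≤ s → dif (u.map g) n a ∈ Submodule.span ℝ {y | ∃ a, Sm g s a ∧ y = a ^ n} := by
  induction u with
  | nil => exact fun k a ha hk => Submodule.subset_span ⟨a, ha.mono (by simpa using hk), rfl⟩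
  | cons i u ih =>
    intro k a ha hk
    rw [List.length_cons] at hk
    exact sub_mem (ih (k + 1) _ (ha.add i) (by omega)) (ih k _ ha (by omega))

theorem prod_mem_span_pow (g : γ → A) {s l : ℕ} (hl : l ≤ s) (u : Fin l → γ) :
    ∏ i, g (u i) ∈ Submodule.span ℝ {y | ∃ a, Sm g s a ∧ y = a ^ l} := by
  have h := dif_mem g s l (List.ofFn u) 0 0 ⟨0, by simp, by simp⟩ (by simpa using hl)
  have h2 := (dif_eq ((List.ofFn u).map g)).2 0
  simp only [List.length_map, List.length_ofFn] at h2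
  rw [h2, List.map_ofFn, List.prod_ofFn] at h
  have h3 := Submodule.smul_mem _ ((l.factorial : ℝ)⁻¹) h
  rw [← nsmul_eq_mul, ← Nat.cast_smul_eq_nsmul ℝ, smul_smul,
    inv_mul_cancel₀ (by exact_mod_cast l.factorial_ne_zero), one_smul] at h3
  exact h3

omit [Algebra ℝ A] in
theorem pow_expand (g : γ → A) (n : γ → ℕ) (l : ℕ) :
    (∑ i, (n i : ℤ) • g i) ^ l = ∑ u : Fin l → γ, (∏ i, (n (u i) : ℤ)) • ∏ i, g (u i) := by
  classical
  rw [Finset.sum_pow', Fintype.piFinset_univ]
  exact Finset.sum_congr rfl fun u _ => Finset.prod_smul _ _ _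

end Polar

end Crest.Agent.T49.Rng
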