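import Crest.Agent.T49.FrDef_99
import Crest.Agent.T49.MxCov_53
import Crest.Agent.T49.RngTB_63

/-!
# Row 49 (helper17): the frame cell

`fc T S` is the cell whose integer points are the `D`-frames of `T` with Taylor coefficients in
`r + g ℤ`, and whose windows are the Taylor coefficients of `θ ∘ W - cen` divided by `sc`.
-/

set_option autoImplicit false

noncomputable section

namespace Crest.Agent.T49.Fm

open MvPolynomial Crest.Agent.T49.Tw Crest.Agent.T49.Gl Crest.Agent.T49.Rng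

variable {ι : Type} {D : ℕ}

/-- coordinates of the frame cell -/
abbrev FI (D : ℕ) (lev : ι → ℕ) : Type := Σ c : ι, {α // α ∈ mi D (lev c)}

/-- shape of a frame law: scales, lattice steps, lattice shift, window centre -/
structure Sh (ι : Type) (D : ℕ) where
  sc : ι → (Fin D →₀ ℕ) → ℝ
  g : ι → (Fin D →₀ ℕ) → ℤ
  r : ι → MvPolynomial (Fin D) ℤ
  cen : ι → Pl (Fin D)
  sc_pos : ∀ c α, 0 < sc c α
  g_pos : ∀ c α, 0 < g c α

/-- the natural shape -/
def nat (ι : Type) (D : ℕ) (σ : ℝ) (hσ : 0 < σ) : Sh ι D where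
  sc _ α := σ ^ α.degree
  g _ _ := 1
  r _ := 0
  cen _ := 0
  sc_pos _ _ := pow_pos hσ _
  g_pos _ _ := one_pos

/-- real version of an integer polynomial map -/
def rl (W : ι → MvPolynomial (Fin D) ℤ) (c : ι) : Pl (Fin D) := map (Int.castRingHom ℝ) (W c)

namespace Sh
variable (S : Sh ι D)

/-- the scaled Taylor coefficient -/
def cf (c : ι) (α : Fin D →₀ ℕ) : Pl (Fin D) →ₗ[ℝ] ℝ := (S.sc c α)⁻¹ • lcoeff ℝ α

theorem cf_apply (c : ι) (α : Fin D →₀ ℕ) (p : Pl (Fin D)) :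
    S.cf c α p = coeff α p / S.sc c α := by
  simp [cf, div_eq_inv_mul]

/-- the generic frame, linear part -/
def G0 (lev : ι → ℕ) (c : ι) : MvPolynomial (FI D lev) (Pl (Fin D)) :=
  ∑ α : {α // α ∈ mi D (lev c)}, C (monomial α.1 (S.g c α.1 : ℝ)) * X ⟨c, α⟩

/-- the generic frame -/
def Gw (lev : ι → ℕ) (c : ι) : MvPolynomial (FI D lev) (Pl (Fin D)) :=
  C (rl S.r c) + S.G0 lev c

/-- the frame with coordinates `z` -/
def fr {lev : ι → ℕ} (z : FI D lev → ℤ) (c : ι) : MvPolynomial (Fin D) ℤ :=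
  S.r c + ∑ α : {α // α ∈ mi D (lev c)}, monomial α.1 (S.g c α.1 * z ⟨c, α⟩)

theorem G0_mem {lev : ι → ℕ} {w : FI D lev → ℕ} {p : ℕ → Prop} {c : ι}
    (h : ∀ α, p (w ⟨c, α⟩)) : S.G0 lev c ∈ wtSub w p :=
  Submodule.sum_mem _ fun α _ => wtSub_mul (p := (· = 0)) (q := (· = w ⟨c, α⟩))
    (fun a b ha hb => by subst ha hb; simpa using h α) (C_mem_wtSub (p := (· = 0)) rfl _)
    (X_mem_wtSub (p := (· = w ⟨c, α⟩)) rfl)

theorem coP_G0 {lev : ι → ℕ} (c : ι) (α : {α // α ∈ mi D (lev c)}) :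
    coP (S.cf c α.1) (S.G0 lev c) = C (S.g c α.1 / S.sc c α.1) * X ⟨c, α⟩ := by
  classical
  rw [G0, map_sum, Finset.sum_eq_single α]
  · rw [← map_X (algebraMap ℝ (Pl (Fin D))), coP_C_mul_map, cf_apply, coeff_monomial, if_pos rfl]
  · intro β _ hβ
    rw [← map_X (algebraMap ℝ (Pl (Fin D))), coP_C_mul_map, cf_apply, coeff_monomial,
      if_neg (fun h => hβ (Subtype.ext h))]
    simp
  · simp

end Sh

theorem coP_C' {κ A : Type} [CommRing A] [Algebra ℝ A] (φ : A →ₗ[ℝ] ℝ) (y : A) :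
    coP φ (C y : MvPolynomial κ A) = C (φ y) := coP_monomial φ 0 y

/-- a substitution into variables of weight zero has weight zero -/
theorem aeval_mem_wt0 {κ A : Type} [CommRing A] [Algebra ℝ A] {w : κ → ℕ}
    {g : ι → MvPolynomial κ A} {s : Set ι} (hg : ∀ c ∈ s, g c ∈ wtSub w (· = 0)) {f : Pl ι}
    (hf : f ∈ supported ℝ s) : aeval g f ∈ wtSub w (· = 0) := by
  rw [supported_eq_adjoin_X] at hf
  induction hf using Algebra.adjoin_induction with
  | mem x hx =>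
    obtain ⟨c, hc, rfl⟩ := hx
    simpa using hg c hc
  | algebraMap r =>
    rw [AlgHom.commutes, MvPolynomial.algebraMap_apply]
    exact C_mem_wtSub (p := (· = 0)) rfl _
  | add x y _ _ hx hy => rw [map_add]; exact add_mem hx hy
  | mul x y _ _ hx hy => rw [map_mul]; exact wtSub_mul (fun a b ha hb => by omega) hx hy

namespace Sh
variable (S : Sh ι D) (T : Cell ι)

/-- generic centred window polynomial -/
def Thp (c : ι) : MvPolynomial (FI D T.lev) (Pl (Fin D)) :=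
  aeval (S.Gw T.lev) (T.th c) - C (S.cen c)

theorem Gw_lt (c : ι) : (S.Gw T.lev c, S.G0 T.lev c) ∈
    ltSub (fun x : FI D T.lev => T.lev x.1) (T.lev c) := by
  rw [mem_ltSub]
  refine ⟨S.G0_mem fun _ => rfl, ?_⟩
  simpa [Gw] using C_mem_wtSub (A := Pl (Fin D)) (w := fun x : FI D T.lev => T.lev x.1)
    (p := (· < T.lev c)) (T.lev_pos c) (rl S.r c)

theorem Thp_lt (c : ι) : (S.Thp T c, aeval (S.G0 T.lev) (T.tth c)) ∈
    ltSub (fun x : FI D T.lev => T.lev x.1) (T.lev c) := by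
  have h := hev_mem_ltSub T.lev (fun x : FI D T.lev => T.lev x.1) (1 : Pl (Fin D)) _ _
    (S.Gw_lt T) (T.lev c) (T.th c)
  rw [C_1, hev_one _ _ (degLe_th T c)] at h
  have h2 : ((C (S.cen c) : MvPolynomial (FI D T.lev) (Pl (Fin D))),
      (0 : MvPolynomial (FI D T.lev) (Pl (Fin D)))) ∈
      ltSub (fun x : FI D T.lev => T.lev x.1) (T.lev c) := by
    rw [mem_ltSub]
    exact ⟨zero_mem _, by
      simpa using C_mem_wtSub (A := Pl (Fin D)) (w := fun x : FI D T.lev => T.lev x.1)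
        (p := (· < T.lev c)) (T.lev_pos c) (S.cen c)⟩
  have := sub_mem h h2
  simpa [Thp, Cell.tth, Cell.top] using this

/-- the non-diagonal part of the window -/
def Bp (x : FI D T.lev) : Pl (FI D T.lev) :=
  C (T.a x.1 * S.cf x.1 x.2.1 (rl S.r x.1) - S.cf x.1 x.2.1 (S.cen x.1)) +
    coP (S.cf x.1 x.2.1) (aeval (S.Gw T.lev) (T.B x.1))

theorem coP_Thp (x : FI D T.lev) : coP (S.cf x.1 x.2.1) (S.Thp T x.1) =
    C (T.a x.1 * (S.g x.1 x.2.1 / S.sc x.1 x.2.1)) * X x + S.Bp T x := by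
  obtain ⟨c, α⟩ := x
  have h1 : aeval (S.Gw T.lev) (T.th c) = T.a c • S.Gw T.lev c + aeval (S.Gw T.lev) (T.B c) := by
    rw [Tri.th, map_add, map_mul, aeval_C, aeval_X, Algebra.smul_def]
  dsimp only
  rw [Thp, h1, map_sub, map_add, map_smul, Gw, map_add, coP_G0, coP_C', coP_C', Bp, smul_eq_C_mul]
  simp only [map_sub, map_mul]
  ring

/-- variables that occur in `coP φ (aeval Gw f)` -/
theorem coP_aeval_mem (φ : Pl (Fin D) →ₗ[ℝ] ℝ) {s : Set ι} {f : Pl ι} (hf : f ∈ supported ℝ s) :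
    coP φ (aeval (S.Gw T.lev) f) ∈ supported ℝ {x : FI D T.lev | x.1 ∈ s} := by
  classical
  refine mem_supported_of_wt fun m hm => ?_
  refine aeval_mem_wt0 (w := fun x : FI D T.lev => if x ∈ {x : FI D T.lev | x.1 ∈ s} then 0 else 1)
    (fun c hc => ?_) hf m (support_coP _ _ hm)
  exact add_mem (C_mem_wtSub (p := (· = 0)) rfl _) (S.G0_mem fun α => if_pos hc)

theorem Bp_mem (x : FI D T.lev) :
    S.Bp T x ∈ supported ℝ {y : FI D T.lev | T.rk y.1 < T.rk x.1} := by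
  have h := S.coP_aeval_mem T (S.cf x.1 x.2.1) (T.B_mem x.1)
  unfold Bp
  exact Subalgebra.add_mem _ (C_mem_supp _ _) h

/-- **the frame cell** -/
def fc : Cell (FI D T.lev) where
  rk x := T.rk x.1
  a x := T.a x.1 * (S.g x.1 x.2.1 / S.sc x.1 x.2.1)
  B := S.Bp T
  a_ne x := mul_ne_zero (T.a_ne _) (div_ne_zero (by exact_mod_cast (S.g_pos _ _).ne')
    (S.sc_pos _ _).ne')
  B_mem := S.Bp_mem T
  lev x := T.lev x.1
  lev_pos x := T.lev_pos _
  deg := by
    classical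
    intro x m hm
    have h1 := ltSub_le (S.Thp_lt T x.1)
    rw [← sub_eq_iff_eq_add'.2 (S.coP_Thp T x)] at hm
    rcases Finset.mem_union.1 (support_sub _ _ _ hm) with h | h
    · exact h1 m (support_coP _ _ h)
    · exact (((isWeightedHomogeneous_X ℝ (fun x : FI D T.lev => T.lev x.1) x).C_mul _)
        (mem_support_iff.1 h)).le

theorem fc_a (x : FI D T.lev) :
    (S.fc T).a x = T.a x.1 * (S.g x.1 x.2.1 / S.sc x.1 x.2.1) := rfl

theorem fc_lev (x : FI D T.lev) : (S.fc T).lev x = T.lev x.1 := rfl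

theorem fc_th (x : FI D T.lev) : (S.fc T).th x = coP (S.cf x.1 x.2.1) (S.Thp T x.1) :=
  (S.coP_Thp T x).symm

theorem fc_tth (x : FI D T.lev) :
    (S.fc T).tth x = coP (S.cf x.1 x.2.1) (aeval (S.G0 T.lev) (T.tth x.1)) := by
  rw [Cell.tth, Cell.top, fc_th, coP_whc]
  congr 1
  exact ltSub_whc (S.Thp_lt T x.1)

theorem evA_Gw {lev : ι → ℕ} (z : FI D lev → ℤ) (c : ι) :
    evA z (S.Gw lev c) = rl (S.fr z) c := by
  rw [Gw, map_add, evA_C, G0, map_sum, rl, rl, fr, map_add, map_sum]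
  congr 1
  refine Finset.sum_congr rfl fun α _ => ?_
  rw [map_mul, evA_C, evA_X, map_monomial, ← map_intCast (C : ℝ →+* Pl (Fin D)), mul_comm,
    C_mul_monomial]
  simp [mul_comm]

theorem evA_Thp (z : FI D T.lev → ℤ) (c : ι) :
    evA z (S.Thp T c) = bind₁ (rl (S.fr z)) (T.th c) - S.cen c := by
  have h : (evA z).comp (aeval (S.Gw T.lev)) = bind₁ (rl (S.fr z)) :=
    MvPolynomial.algHom_ext fun i => by
      rw [AlgHom.comp_apply, aeval_X, evA_Gw, bind₁_X_right]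
  rw [Thp, map_sub, evA_C, ← AlgHom.comp_apply, h]

/-- the value of a window of the frame cell -/
theorem ev_fc_th (z : FI D T.lev → ℤ) (x : FI D T.lev) :
    ev z ((S.fc T).th x) =
      coeff x.2.1 (bind₁ (rl (S.fr z)) (T.th x.1) - S.cen x.1) / S.sc x.1 x.2.1 := by
  rw [fc_th, ev_coP, evA_Thp, cf_apply]

variable [Fintype ι]

/-- squared norm of the Taylor data -/
def qf (W : ι → MvPolynomial (Fin D) ℤ) : ℝ :=
  ∑ c, ∑ α ∈ mi D (T.lev c), (coeff α (bind₁ (rl W) (T.th c) - S.cen c) / S.sc c α) ^ 2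

/-- the weight of a frame -/
def wt (W : ι → MvPolynomial (Fin D) ℤ) : ℝ := Real.exp (-Real.pi * S.qf T W)

/-- ideal mass -/
def mu : ℝ := ∏ c, ∏ α ∈ mi D (T.lev c), S.sc c α / S.g c α * |T.a c|⁻¹

theorem fc_wgt (z : FI D T.lev → ℤ) : (S.fc T).wgt z = S.wt T (S.fr z) := by
  unfold Tri.wgt wt qf
  congr 2
  rw [Fintype.sum_sigma]
  refine Finset.sum_congr rfl fun c _ => ?_
  rw [← Finset.sum_coe_sort (mi D (T.lev c))]
  exact Finset.sum_congr rfl fun α _ => by rw [ev_fc_th]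

theorem fc_mu : (S.fc T).mu = S.mu T := by
  unfold Tri.mu mu
  rw [Fintype.prod_sigma]
  refine Finset.prod_congr rfl fun c _ => ?_
  rw [← Finset.prod_coe_sort (mi D (T.lev c))]
  refine Finset.prod_congr rfl fun α _ => ?_
  have h1 : (0 : ℝ) < S.g c α.1 := by exact_mod_cast S.g_pos c α.1
  show |T.a c * (S.g c α.1 / S.sc c α.1)|⁻¹ = _
  rw [abs_mul, abs_of_pos (div_pos h1 (S.sc_pos _ _)), mul_inv, inv_div, mul_comm]

theorem mu_pos : 0 < S.mu T :=
  Finset.prod_pos fun c _ => Finset.prod_pos fun α _ =>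
    mul_pos (div_pos (S.sc_pos _ _) (by exact_mod_cast S.g_pos c α))
      (inv_pos.2 (abs_pos.2 (T.a_ne c)))

theorem wt_pos (W : ι → MvPolynomial (Fin D) ℤ) : 0 < S.wt T W := Real.exp_pos _

end Sh

/-! ### natural frames -/

theorem degLe_one_iff {σ : Type} {p : Pl σ} {d : ℕ} :
    DegLe (fun _ => 1) p d ↔ ∀ m ∈ p.support, m.degree ≤ d := by
  simp only [DegLe, Finsupp.degree_eq_weight_one]

theorem degree_le_of_totalDegree {σ R : Type} [CommSemiring R] {p : MvPolynomial σ R} {d : ℕ}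
    (h : p.totalDegree ≤ d) {m : σ →₀ ℕ} (hm : m ∈ p.support) : m.degree ≤ d :=
  le_trans (le_totalDegree hm) h

theorem totalDegree_le_of_degree {σ R : Type} [CommSemiring R] {p : MvPolynomial σ R} {d : ℕ}
    (h : ∀ m ∈ p.support, m.degree ≤ d) : p.totalDegree ≤ d :=
  Finset.sup_le h

theorem support_bind_th (T : Cell ι) (V : Frm D T.lev) (c : ι) :
    (bind₁ V.rl (T.th c)).support ⊆ mi D (T.lev c) := by
  intro m hm
  refine mem_mi.2 (degLe_one_iff.1 (DegLe.bind (w := T.lev) (fun c' => ?_) (degLe_th T c)) m hm)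
  exact degLe_one_iff.2 fun m hm => degree_le_of_totalDegree (V.deg c') (support_map_subset _ _ hm)

theorem coeff_fr (S : Sh ι D) {lev : ι → ℕ} (z : FI D lev → ℤ) (c : ι)
    (α : {α // α ∈ mi D (lev c)}) :
    coeff α.1 (S.fr z c) = coeff α.1 (S.r c) + S.g c α.1 * z ⟨c, α⟩ := by
  classical
  rw [Sh.fr, coeff_add, coeff_sum, Finset.sum_eq_single α]
  · rw [coeff_monomial, if_pos rfl]
  · intro β _ hβ
    rw [coeff_monomial, if_neg (fun h => hβ (Subtype.ext h))]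
  · simp

theorem fr_deg (S : Sh ι D) {lev : ι → ℕ} (hr : ∀ c, (S.r c).totalDegree ≤ lev c)
    (z : FI D lev → ℤ) (c : ι) : (S.fr z c).totalDegree ≤ lev c := by
  refine (totalDegree_add _ _).trans (max_le (hr c) (totalDegree_finsetSum_le fun α _ => ?_))
  exact (totalDegree_monomial_le _ _).trans (mem_mi.1 α.2)

theorem Frm.ext' {lev : ι → ℕ} {V V' : Frm D lev} (h : V.W = V'.W) : V = V' := by
  cases V; cases V'; congr

/-- natural frames are the points of the frame cell -/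
def frE (D : ℕ) (lev : ι → ℕ) : (FI D lev → ℤ) ≃ Frm D lev where
  toFun z := ⟨(nat ι D 1 one_pos).fr z, fr_deg _ (fun c => by simp [nat]) z⟩
  invFun V x := coeff x.2.1 (V.W x.1)
  left_inv z := by
    funext x
    obtain ⟨c, α⟩ := x
    simpa [nat] using coeff_fr (nat ι D 1 one_pos) z c α
  right_inv V := by
    refine Frm.ext' (funext fun c => MvPolynomial.ext _ _ fun m => ?_)
    by_cases hm : m ∈ mi D (lev c)
    · simpa [nat] using coeff_fr (nat ι D 1 one_pos) (fun x => coeff x.2.1 (V.W x.1)) c ⟨m, hm⟩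
    · have h1 : ∀ p : MvPolynomial (Fin D) ℤ, p.totalDegree ≤ lev c → coeff m p = 0 :=
        fun p hp => by
          by_contra h
          exact hm (mem_mi.2 (degree_le_of_totalDegree hp (mem_support_iff.2 h)))
      rw [h1 _ (V.deg c), h1 _ (fr_deg _ (fun c => by simp [nat]) _ c)]

theorem frE_W {lev : ι → ℕ} (σ : ℝ) (hσ : 0 < σ) (z : FI D lev → ℤ) :
    (frE D lev z).W = (nat ι D σ hσ).fr z := rfl

theorem frE_symm {lev : ι → ℕ} (V : Frm D lev) (x : FI D lev) :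
    (frE D lev).symm V x = coeff x.2.1 (V.W x.1) := rfl

variable [Fintype ι]

theorem fq_eq (T : Cell ι) {σ : ℝ} (hσ : 0 < σ) (V : Frm D T.lev) :
    fq T σ V = (nat ι D σ hσ).qf T V.W := by
  refine Finset.sum_congr rfl fun c _ => ?_
  show q2 σ _ = ∑ α ∈ mi D (T.lev c), (coeff α (bind₁ V.rl (T.th c) - 0) / σ ^ α.degree) ^ 2
  rw [sub_zero]
  refine Finset.sum_subset (support_bind_th T V c) fun α _ hα => ?_
  rw [notMem_support_iff.1 hα]
  simp

theorem fw_eq (T : Cell ι) {σ : ℝ} (hσ : 0 < σ) (V : Frm D T.lev) :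
    fw T σ V = (nat ι D σ hσ).wt T V.W := by
  rw [fw, Sh.wt, fq_eq T hσ]

theorem fmu_eq (T : Cell ι) (D : ℕ) {σ : ℝ} (hσ : 0 < σ) : fmu T D σ = (nat ι D σ hσ).mu T := by
  simp [fmu, Sh.mu, nat]

/-- the natural frame cell -/
abbrev nfc (T : Cell ι) (D : ℕ) {σ : ℝ} (hσ : 0 < σ) : Cell (FI D T.lev) := (nat ι D σ hσ).fc T

theorem nfc_wgt (T : Cell ι) {σ : ℝ} (hσ : 0 < σ) (z : FI D T.lev → ℤ) :
    (nfc T D hσ).wgt z = fw T σ (frE D T.lev z) := by
  rw [Sh.fc_wgt, fw_eq T hσ, frE_W σ hσ]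

theorem nfc_mu (T : Cell ι) {σ : ℝ} (hσ : 0 < σ) : (nfc T D hσ).mu = fmu T D σ := by
  rw [Sh.fc_mu, fmu_eq T D hσ]

theorem nfc_M (T : Cell ι) {σ : ℝ} (hσ : 0 < σ) :
    (nfc T D hσ).M = ∑' V : Frm D T.lev, fw T σ V := by
  rw [← (frE D T.lev).tsum_eq]
  exact tsum_congr fun z => nfc_wgt T hσ z

theorem fmu_pos (T : Cell ι) (D : ℕ) {σ : ℝ} (hσ : 0 < σ) : 0 < fmu T D σ := by
  rw [fmu_eq T D hσ]; exact Sh.mu_pos _ _

theorem fw_pos (T : Cell ι) (σ : ℝ) (V : Frm D T.lev) : 0 < fw T σ V := Real.exp_pos _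

end Crest.Agent.T49.Fm
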