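import Crest.Agent.T49.FmReb_17
import Crest.Agent.T49.SampAvg_57

/-!
# Row 49 (helper17): fibre masses of natural frames over the actual base point
-/

set_option autoImplicit false
set_option linter.unusedSectionVars false

noncomputable section

namespace Crest.Agent.T49.Fm

open MvPolynomial Crest.Agent.T49.Tw Crest.Agent.T49.Gl Crest.Agent.T49.Samp

variable {ι : Type} {D : ℕ}

/-- the Taylor coefficients of positive degree -/
abbrev HI (D : ℕ) (lev : ι → ℕ) : Type := {x : FI D lev // ¬ q0 x} → ℤ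

/-- a frame is a base point and the Taylor coefficients of positive degree -/
def eV (D : ℕ) (lev : ι → ℕ) : (ι → ℤ) × HI D lev ≃ Frm D lev :=
  ((eB D lev).prodCongr (Equiv.refl _)).trans ((glueE q0).trans (frE D lev))

theorem eV_apply {lev : ι → ℕ} (y : ι → ℤ) (u : HI D lev) :
    eV D lev (y, u) = frE D lev (glue q0 (eB D lev y) u) := rfl

theorem bp_glue {lev : ι → ℕ} (y : ι → ℤ) (u : HI D lev) : bp (glue q0 (eB D lev y) u) = y :=
  funext fun c => glue_val _ _ (eI D lev c)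

theorem eV_pt {lev : ι → ℕ} (y : ι → ℤ) (u : HI D lev) : (eV D lev (y, u)).pt 0 = y := by
  rw [eV_apply, pt_zero_frE, bp_glue]

theorem sum_not_q0 [Fintype ι] {lev : ι → ℕ} (f : ι → (Fin D →₀ ℕ) → ℝ) :
    ∑ x : {x : FI D lev // ¬ q0 x}, f x.1.1 x.1.2.1 =
      ∑ c, ∑ α ∈ (mi D (lev c)).erase 0, f c α := by
  have h1 := Tri.sum_split (p := q0 (D := D) (lev := lev)) fun x => f x.1 x.2.1
  rw [← (eI D lev).sum_comp, Fintype.sum_sigma] at h1
  have h2 : ∀ c, ∑ α : {α // α ∈ mi D (lev c)}, f c α.1 =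
      f c 0 + ∑ α ∈ (mi D (lev c)).erase 0, f c α := fun c => by
    rw [Finset.sum_coe_sort (mi D (lev c)) (f c), Finset.add_sum_erase _ _ (zero_mem_mi D _)]
  simp only [h2, Finset.sum_add_distrib] at h1
  exact (add_left_cancel h1).symm

variable [Fintype ι] (T : Cell ι)

/-- squared norm of the Taylor data of positive degree -/
def hq (σ : ℝ) (V : Frm D T.lev) : ℝ :=
  ∑ c, ∑ α ∈ (mi D (T.lev c)).erase 0, (coeff α (bind₁ V.rl (T.th c)) / σ ^ α.degree) ^ 2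

/-- weight of the Taylor data of positive degree -/
def hw (σ : ℝ) (V : Frm D T.lev) : ℝ := Real.exp (-Real.pi * hq T σ V)

/-- ideal mass of the fibres -/
def hmuN (D : ℕ) (σ : ℝ) : ℝ :=
  ∏ c, ∏ α ∈ (mi D (T.lev c)).erase 0, σ ^ α.degree * |T.a c|⁻¹

/-- mass of the frames with base point `y` -/
def Zf (D : ℕ) (σ : ℝ) (y : ι → ℤ) : ℝ := ∑' u : HI D T.lev, hw T σ (eV D T.lev (y, u))

theorem hw_pos (σ : ℝ) (V : Frm D T.lev) : 0 < hw T σ V := Real.exp_pos _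

theorem hq_nonneg (σ : ℝ) (V : Frm D T.lev) : 0 ≤ hq T σ V :=
  Finset.sum_nonneg fun _ _ => Finset.sum_nonneg fun _ _ => sq_nonneg _

theorem fq_split {σ : ℝ} (hσ : 0 < σ) (V : Frm D T.lev) :
    fq T σ V = ∑ c, ev (V.pt 0) (T.th c) ^ 2 + hq T σ V := by
  rw [fq_eq T hσ, hq, ← Finset.sum_add_distrib]
  refine Finset.sum_congr rfl fun c _ => ?_
  rw [← Finset.add_sum_erase _ _ (zero_mem_mi D _)]
  have h : (fun c => coeff 0 (V.W c)) = V.pt 0 := funext fun c => (pt_zero V c).symm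
  congr 1
  · show (coeff 0 (bind₁ (rl V.W) (T.th c) - 0) / σ ^ (0 : Fin D →₀ ℕ).degree) ^ 2 = _
    rw [sub_zero, coeff_zero_bind_rl, h]
    simp
  · refine Finset.sum_congr rfl fun α _ => ?_
    show (coeff α (bind₁ V.rl (T.th c) - 0) / _) ^ 2 = _
    rw [sub_zero]
    rfl

theorem fw_split {σ : ℝ} (hσ : 0 < σ) (V : Frm D T.lev) :
    fw T σ V = T.wgt (V.pt 0) * hw T σ V := by
  rw [fw, fq_split T hσ, mul_add, Real.exp_add]
  rfl

theorem fmu_split (D : ℕ) (σ : ℝ) : fmu T D σ = T.mu * hmuN T D σ := by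
  rw [fmu, Tri.mu, hmuN, ← Finset.prod_mul_distrib]
  refine Finset.prod_congr rfl fun c _ => ?_
  rw [← Finset.mul_prod_erase _ _ (zero_mem_mi D _)]
  simp

theorem hmuN_pos (D : ℕ) {σ : ℝ} (hσ : 0 < σ) : 0 < hmuN T D σ :=
  Finset.prod_pos fun c _ => Finset.prod_pos fun _ _ =>
    mul_pos (pow_pos hσ _) (inv_pos.2 (abs_pos.2 (T.a_ne c)))

/-- natural Taylor data over a base window and a base class -/
def bsh (D : ℕ) {σ lam : ℝ} (hσ : 0 < σ) (hl : 0 < lam) {g : ℕ} (hg : 0 < g) (r : ι → ℤ)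
    (cen : ι → ℝ) : Sh ι D where
  sc _ α := if α = 0 then lam else σ ^ α.degree
  g _ α := if α = 0 then g else 1
  r c := C (r c)
  cen c := C (cen c)
  sc_pos _ α := by split_ifs; exacts [hl, pow_pos hσ _]
  g_pos _ α := by split_ifs; exacts [by exact_mod_cast hg, one_pos]

section bsh
variable {σ lam : ℝ} (hσ : 0 < σ) (hl : 0 < lam) {g : ℕ} (hg : 0 < g) (r : ι → ℤ) (cen : ι → ℝ)

theorem bsh_r (c : ι) : (bsh D hσ hl hg r cen).r c = C (r c) := rfl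

theorem bsh_bpt (y : ι → ℤ) : (bsh D hσ hl hg r cen).bpt y = r + (g : ℤ) • y :=
  funext fun c => by rw [Sh.bpt, bsh_r, coeff_zero_C]; simp [bsh]

theorem bsh_bw (y : ι → ℤ) : (bsh D hσ hl hg r cen).bw T y =
    Real.exp (-Real.pi * ∑ c, ((ev (r + (g : ℤ) • y) (T.th c) - cen c) / lam) ^ 2) := by
  rw [Sh.bw, bsh_bpt]
  simp [bsh]

theorem bsh_bmu : (bsh D hσ hl hg r cen).bmu T = T.mu * (lam / g) ^ Fintype.card ι := by
  rw [Sh.bmu, Tri.mu, ← Finset.card_univ, ← Finset.prod_const, ← Finset.prod_mul_distrib]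
  refine Finset.prod_congr rfl fun c _ => ?_
  simp [bsh, mul_comm]

theorem bsh_ok {lev : ι → ℕ} (h0 : ∀ c, 0 < lev c) {s : ℕ} (hs : ∀ c, lev c ≤ s) {v u : ℝ}
    (hv : 0 ≤ v) (h : σ⁻¹ ≤ Real.exp v) (h1 : s * v ≤ u) (h2 : lam⁻¹ ≤ Real.exp u)
    (h3 : (g : ℝ) ≤ Real.exp u) : (bsh D hσ hl hg r cen).Ok lev u := by
  obtain ⟨G, -, -, h4⟩ := (nat_ok (D := D) hs hσ hv h).mono h1
  refine ⟨g, by exact_mod_cast hg, by exact_mod_cast h3, fun c α hα => ?_⟩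
  simp only [bsh]
  split_ifs
  · exact ⟨dvd_pow_self _ (h0 c).ne', h2⟩
  · exact ⟨one_dvd _, (h4 c α hα).2⟩

theorem bsh_fr {lev : ι → ℕ} (y : ι → ℤ) (u : HI D lev) :
    (bsh D hσ hl hg r cen).fr (glue q0 (eB D lev y) u) = (eV D lev (r + (g : ℤ) • y, u)).W := by
  classical
  funext c
  refine MvPolynomial.ext _ _ fun m => ?_
  by_cases hm : m ∈ mi D (lev c)
  · rw [eV_apply, frE_W 1 one_pos, coeff_fr _ _ c ⟨m, hm⟩, coeff_fr _ _ c ⟨m, hm⟩]
    by_cases h0 : m = 0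
    · subst h0
      have e : ∀ y : ι → ℤ, glue q0 (eB D lev y) u ⟨c, ⟨0, hm⟩⟩ = y c := fun y =>
        congrFun (bp_glue y u) c
      rw [e, e, bsh_r, coeff_zero_C]
      simp [bsh, nat]
    · have hq : ¬ q0 (⟨c, ⟨m, hm⟩⟩ : FI D lev) := h0
      rw [glue_neg _ _ hq, glue_neg _ _ hq, bsh_r, coeff_C, if_neg (Ne.symm h0)]
      simp [bsh, nat, h0]
  · have h1 : ∀ p : MvPolynomial (Fin D) ℤ, p.totalDegree ≤ lev c → coeff m p = 0 :=
      fun p hp => by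
        by_contra h
        exact hm (mem_mi.2 (degree_le_of_totalDegree hp (mem_support_iff.2 h)))
    rw [h1 _ (Frm.deg _ c), h1 _ (fr_deg _ (fun c => by
      rw [bsh_r, totalDegree_C]; exact Nat.zero_le _) _ c)]

theorem bsh_fib_wgt (y : ι → ℤ) (u : HI D T.lev) :
    (((bsh D hσ hl hg r cen).fc T).fib q0 (eB D T.lev y)).wgt u =
      hw T σ (eV D T.lev (r + (g : ℤ) • y, u)) := by
  classical
  rw [Tri.fib_wgt, hw, hq, ← sum_not_q0]
  congr 2
  refine Finset.sum_congr rfl fun x _ => ?_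
  have h0 : x.1.2.1 ≠ 0 := x.2
  rw [Sh.ev_fc_th, bsh_fr]
  simp only [bsh, if_neg h0, coeff_sub, coeff_C, if_neg (Ne.symm h0), sub_zero]
  rfl

theorem bsh_fib_M (y : ι → ℤ) :
    (((bsh D hσ hl hg r cen).fc T).fib q0 (eB D T.lev y)).M = Zf T D σ (r + (g : ℤ) • y) :=
  tsum_congr fun u => bsh_fib_wgt T hσ hl hg r cen y u

theorem bsh_hmu : hmu ((bsh D hσ hl hg r cen).fc T).toTri q0 = hmuN T D σ := by
  have h1 := mu_eq ((bsh D hσ hl hg r cen).fc T).toTri q0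
  rw [Sh.sub_mu, Sh.fc_mu] at h1
  refine mul_left_cancel₀ ((bsh D hσ hl hg r cen).bmu_pos T).ne' (h1.symm.trans ?_)
  rw [Sh.mu, Sh.bmu, hmuN, ← Finset.prod_mul_distrib]
  refine Finset.prod_congr rfl fun c _ => ?_
  rw [← Finset.mul_prod_erase _ _ (zero_mem_mi D _)]
  congr 1
  refine Finset.prod_congr rfl fun α hα => ?_
  simp [bsh, Finset.ne_of_mem_erase hα]

end bsh

theorem tsum_cls {g : ℕ} (hg : 0 < g) (r : ι → ℤ) (f : (ι → ℤ) → ℝ) :
    ∑' y, cls g r y * f y = ∑' y, f (r + (g : ℤ) • y) := by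
  have hi : Function.Injective fun y : ι → ℤ => r + (g : ℤ) • y := fun y y' h =>
    smul_right_injective _ (show (g : ℤ) ≠ 0 by exact_mod_cast hg.ne') (add_left_cancel h)
  rw [← hi.tsum_eq (f := fun y => cls g r y * f y) fun y hy => ?_]
  · exact tsum_congr fun y => by rw [cls, if_pos (cong_iff.2 ⟨y, rfl⟩), one_mul]
  · by_contra h
    refine hy ?_
    show cls g r y * f y = 0
    rw [cls, if_neg fun h' => h ?_, zero_mul]
    obtain ⟨v, hv⟩ := cong_iff.1 h'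
    exact ⟨v, hv.symm⟩

theorem summable_hw {σ : ℝ} (hσ : 0 < σ) (y : ι → ℤ) :
    Summable fun u : HI D T.lev => hw T σ (eV D T.lev (y, u)) := by
  refine (((bsh D hσ one_pos one_pos y 0).fc T).fib q0 (eB D T.lev 0)).summable_wgt.congr
    fun u => ?_
  rw [bsh_fib_wgt]; simp

theorem Zf_pos {σ : ℝ} (hσ : 0 < σ) (y : ι → ℤ) : 0 < Zf T D σ y :=
  (summable_hw T hσ y).tsum_pos (fun _ => (hw_pos _ _ _).le) 0 (hw_pos _ _ _)

theorem Zf_bdd (D : ℕ) {σ : ℝ} (hσ : 0 < σ) : ∃ K, ∀ y, Zf T D σ y ≤ K := by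
  refine ⟨_, fun y => le_of_eq_of_le ?_
    (((bsh D hσ one_pos one_pos 0 0).fc T).fib_M_le (eB D T.lev y))⟩
  rw [bsh_fib_M]; simp

/-- **L¹ bound** for the fibre masses against any base window and base class -/
theorem Zf_l1 {s : ℕ} (hs : ∀ c, T.lev c ≤ s) {σ lam v u x η : ℝ} (hσ : 0 < σ) (hl : 0 < lam)
    {g : ℕ} (hg : 0 < g) (r : ι → ℤ) (cen : ι → ℝ) (hv : 0 ≤ v) (h : σ⁻¹ ≤ Real.exp v)
    (h1 : s * v ≤ u) (h2 : lam⁻¹ ≤ Real.exp u) (h3 : (g : ℝ) ≤ Real.exp u) (hA : T.AllPC x η)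
    (hx : (s + 5) * fl D s u ≤ x) (hη : η ≤ 1) :
    ∑' y, cls g r y * Real.exp (-Real.pi * ∑ c, ((ev y (T.th c) - cen c) / lam) ^ 2) *
      |Zf T D σ y / hmuN T D σ - 1| ≤ 3 * √η * (T.mu * (lam / g) ^ Fintype.card ι) := by
  have h4 := (bsh D hσ hl hg r cen).l1 T hs (bsh_ok hσ hl hg r cen T.lev_pos hs hv h h1 h2 h3)
    hA hx hη
  rw [← (eB D T.lev).tsum_eq, Sh.sub_mu, bsh_bmu, bsh_hmu] at h4
  simp only [Sh.sub_wgt, bsh_bw, bsh_fib_M] at h4
  simp only [mul_assoc (cls g r _)]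
  rw [tsum_cls hg]
  exact h4

/-- mass of a base window and class -/
theorem wc_mass {s : ℕ} (hs : ∀ c, T.lev c ≤ s) {lam u x η : ℝ} (hl : 0 < lam)
    {g : ℕ} (hg : 0 < g) (r : ι → ℤ) (cen : ι → ℝ) (hu : 0 ≤ u) (h2 : lam⁻¹ ≤ Real.exp u)
    (h3 : (g : ℝ) ≤ Real.exp u) (hA : T.AllPC x η) (hx : (s + 5) * fl 0 s u ≤ x) :
    |(∑' y, cls g r y * Real.exp (-Real.pi * ∑ c, ((ev y (T.th c) - cen c) / lam) ^ 2)) /
      (T.mu * (lam / g) ^ Fintype.card ι) - 1| ≤ η := by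
  have h4 := (bsh 0 one_pos hl hg r cen).bw_mass T hs (bsh_ok one_pos hl hg r cen T.lev_pos hs
    (v := 0) le_rfl (by simp) (by simpa using hu) h2 h3) hA hx
  rw [bsh_bmu] at h4
  simp only [bsh_bw] at h4
  rw [tsum_cls hg]
  exact h4

theorem summable_wc {lam : ℝ} (hl : 0 < lam) (g : ℕ) (r : ι → ℤ) (cen : ι → ℝ) : Summable fun y =>
    cls g r y * Real.exp (-Real.pi * ∑ c, ((ev y (T.th c) - cen c) / lam) ^ 2) := by
  have h := (bsh 0 one_pos hl one_pos 0 cen).summable_bw T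
  refine Summable.of_nonneg_of_le (fun y => mul_nonneg (cls_nonneg _ _ _) (Real.exp_pos _).le)
    (fun y => ?_) h
  rw [bsh_bw]
  simpa using mul_le_of_le_one_left (Real.exp_pos _).le (cls_le_one g r y)

/-- **Fubini** over the base point, for any summable base weight -/
theorem fub {σ : ℝ} (hσ : 0 < σ) {w : (ι → ℤ) → ℝ} (hw0 : ∀ y, 0 ≤ w y) (hs : Summable w)
    {F : Frm D T.lev → ℝ} {K : ℝ} (hF : ∀ V, |F V| ≤ K) :
    (Summable fun V => w (V.pt 0) * (hw T σ V * F V)) ∧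
      ∑' V, w (V.pt 0) * (hw T σ V * F V) =
        ∑' y, w y * ∑' u, hw T σ (eV D T.lev (y, u)) * F (eV D T.lev (y, u)) := by
  obtain ⟨K', hK'⟩ := Zf_bdd T D hσ
  have s0 : Summable fun p : (ι → ℤ) × HI D T.lev => w p.1 * hw T σ (eV D T.lev p) := by
    refine (summable_prod_of_nonneg fun p => mul_nonneg (hw0 _) (hw_pos _ _ _).le).2
      ⟨fun y => (summable_hw T hσ y).mul_left (w y), ?_⟩
    refine Summable.of_nonneg_of_le
      (fun y => tsum_nonneg fun u => mul_nonneg (hw0 _) (hw_pos _ _ _).le) (fun y => ?_)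
      (hs.mul_right K')
    show ∑' u, w y * hw T σ (eV D T.lev (y, u)) ≤ _
    rw [tsum_mul_left]
    exact mul_le_mul_of_nonneg_left (hK' y) (hw0 y)
  have s1 : Summable fun p : (ι → ℤ) × HI D T.lev =>
      w ((eV D T.lev p).pt 0) * (hw T σ (eV D T.lev p) * F (eV D T.lev p)) := by
    refine Summable.of_norm_bounded (s0.mul_right K) fun p => ?_
    obtain ⟨y, u⟩ := p
    rw [eV_pt, Real.norm_eq_abs, abs_mul, abs_mul, abs_of_nonneg (hw0 _),
      abs_of_pos (hw_pos _ _ _), mul_assoc]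
    exact mul_le_mul_of_nonneg_left (mul_le_mul_of_nonneg_left (hF _) (hw_pos _ _ _).le) (hw0 _)
  refine ⟨(eV D T.lev).summable_iff.1 s1, ?_⟩
  rw [← (eV D T.lev).tsum_eq, s1.tsum_prod]
  refine tsum_congr fun y => ?_
  rw [← tsum_mul_left]
  exact tsum_congr fun u => by rw [eV_pt]

/-- conditional expectation given the base point (independent of the base window) -/
def cE (σ : ℝ) (b : Frm D T.lev → ℝ) (y : ι → ℤ) : ℝ :=
  (∑' u, hw T σ (eV D T.lev (y, u)) * b (eV D T.lev (y, u))) / Zf T D σ y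

theorem cE_nonneg {σ : ℝ} (hσ : 0 < σ) {b : Frm D T.lev → ℝ} (hb : ∀ V, 0 ≤ b V) (y : ι → ℤ) :
    0 ≤ cE T σ b y :=
  div_nonneg (tsum_nonneg fun _ => mul_nonneg (hw_pos _ _ _).le (hb _)) (Zf_pos T hσ y).le

theorem abs_cE_le {σ : ℝ} (hσ : 0 < σ) {b : Frm D T.lev → ℝ} (hb : ∀ V, |b V| ≤ 1) (y : ι → ℤ) :
    |cE T σ b y| ≤ 1 := by
  rw [cE, abs_div, abs_of_pos (Zf_pos T hσ y), div_le_one (Zf_pos T hσ y), ← Real.norm_eq_abs]
  refine tsum_of_norm_bounded (summable_hw T hσ y).hasSum fun u => ?_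
  rw [Real.norm_eq_abs, abs_mul, abs_of_pos (hw_pos _ _ _)]
  exact mul_le_of_le_one_right (hw_pos _ _ _).le (hb _)

/-- exact tower property -/
theorem tower {σ : ℝ} (hσ : 0 < σ) {w : (ι → ℤ) → ℝ} (hw0 : ∀ y, 0 ≤ w y) (hs : Summable w)
    {b : Frm D T.lev → ℝ} (hb : ∀ V, |b V| ≤ 1) {G : (ι → ℤ) → ℝ} {K : ℝ} (hG : ∀ y, |G y| ≤ K) :
    ∑' V, w (V.pt 0) * (hw T σ V * (b V * G (V.pt 0))) =
      ∑' y, w y * (Zf T D σ y * (cE T σ b y * G y)) := by
  rw [(fub T hσ hw0 hs (F := fun V => b V * G (V.pt 0)) (K := K) fun V => by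
    rw [abs_mul]
    exact (mul_le_of_le_one_left (abs_nonneg _) (hb V)).trans (hG _)).2]
  refine tsum_congr fun y => ?_
  congr 1
  simp only [eV_pt, ← mul_assoc]
  rw [tsum_mul_right, cE, mul_div_cancel₀ _ (Zf_pos T hσ y).ne']

/-- **COND** for an arbitrary base weight -/
theorem cond_w {σ : ℝ} (hσ : 0 < σ) {w : (ι → ℤ) → ℝ} (hw0 : ∀ y, 0 ≤ w y) (hs : Summable w)
    {ε : ℝ} (hε : ∑' y, w y * |Zf T D σ y / hmuN T D σ - 1| ≤ ε)
    {b : Frm D T.lev → ℝ} (hb : ∀ V, |b V| ≤ 1) {G : (ι → ℤ) → ℝ} {K : ℝ} (hG : ∀ y, |G y| ≤ K) :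
    |(∑' V, w (V.pt 0) * (hw T σ V * (b V * G (V.pt 0)))) / hmuN T D σ -
      ∑' y, w y * (cE T σ b y * G y)| ≤ ε * K := by
  obtain ⟨K', hK'⟩ := Zf_bdd T D hσ
  have hh := hmuN_pos T D hσ
  have hK : 0 ≤ K := (abs_nonneg _).trans (hG 0)
  have hcg : ∀ y, |cE T σ b y * G y| ≤ K := fun y => by
    rw [abs_mul]
    exact (mul_le_of_le_one_left (abs_nonneg _) (abs_cE_le T hσ hb y)).trans (hG y)
  have sm : ∀ {f : (ι → ℤ) → ℝ} {B : ℝ}, (∀ y, |f y| ≤ B) → Summable fun y => w y * f y :=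
    fun {f B} hf => Summable.of_norm_bounded (hs.mul_right B) fun y => by
      rw [Real.norm_eq_abs, abs_mul, abs_of_nonneg (hw0 y)]
      exact mul_le_mul_of_nonneg_left (hf y) (hw0 y)
  have s1 : Summable fun y => w y * (Zf T D σ y * (cE T σ b y * G y)) :=
    sm (B := K' * K) fun y => by
      rw [abs_mul, abs_of_pos (Zf_pos T hσ y)]
      exact mul_le_mul (hK' y) (hcg y) (abs_nonneg _) ((Zf_pos T hσ y).le.trans (hK' y))
  have s3 : Summable fun y => w y * |Zf T D σ y / hmuN T D σ - 1| :=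
    sm (B := K' / hmuN T D σ + 1) fun y => by
      rw [abs_abs]
      refine (abs_sub _ _).trans ?_
      rw [abs_one, abs_of_pos (div_pos (Zf_pos T hσ y) hh)]
      linarith [div_le_div_of_nonneg_right (hK' y) hh.le]
  rw [tower T hσ hw0 hs hb hG, ← tsum_div_const, ← (s1.div_const _).tsum_sub (sm hcg),
    ← Real.norm_eq_abs]
  refine le_trans (tsum_of_norm_bounded (s3.mul_right K).hasSum fun y => ?_) ?_
  · have e : w y * (Zf T D σ y * (cE T σ b y * G y)) / hmuN T D σ - w y * (cE T σ b y * G y) =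
        w y * (Zf T D σ y / hmuN T D σ - 1) * (cE T σ b y * G y) := by ring
    rw [e, Real.norm_eq_abs, abs_mul, abs_mul, abs_of_nonneg (hw0 y)]
    exact mul_le_mul_of_nonneg_left (hcg y) (mul_nonneg (hw0 y) (abs_nonneg _))
  · rw [tsum_mul_right]
    exact mul_le_mul_of_nonneg_right hε hK

theorem Zf_eq (σ : ℝ) (y : ι → ℤ) :
    Zf T D σ y = ∑' V : {V : Frm D T.lev // V.pt 0 = y}, hw T σ V.1 := by
  let e : HI D T.lev ≃ {V : Frm D T.lev // V.pt 0 = y} :=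
    { toFun := fun u => ⟨eV D T.lev (y, u), eV_pt y u⟩
      invFun := fun V => ((eV D T.lev).symm V.1).2
      left_inv := fun u => by simp
      right_inv := fun V => by
        obtain ⟨V, rfl⟩ := V
        obtain ⟨⟨y, u⟩, rfl⟩ := (eV D T.lev).surjective V
        simp [eV_pt] }
  rw [← e.tsum_eq]
  rfl

end Crest.Agent.T49.Fm
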