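import Crest.Agent.T49.MxDefB_53

/-!
# Row 49 (helper99): natural frames of a cell, definitions
-/

set_option autoImplicit false

noncomputable section

namespace Crest.Agent.T49.Gl

open MvPolynomial Finset Crest.Agent.T49.Tw

variable {ι : Type}

/-- the cell with all windows multiplied by `r` (`r < 1`: wider, `r > 1`: narrower) -/
def scl (T : Cell ι) (r : ℝ) (hr : r ≠ 0) : Cell ι where
  rk := T.rk
  a c := r * T.a c
  B c := C r * T.B c
  a_ne c := mul_ne_zero hr (T.a_ne c)
  B_mem c := mul_mem (C_mem_supp _ _) (T.B_mem c)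
  lev := T.lev
  lev_pos := T.lev_pos
  deg c m hm := T.deg c m (by
    rw [mem_support_iff, coeff_C_mul] at hm
    exact mem_support_iff.2 (right_ne_zero_of_mul hm))

/-- `D`-dimensional frames: integer polynomial maps of degree `≤ lev c` in the coordinate `c` -/
structure Frm (D : ℕ) (lev : ι → ℕ) where
  W : ι → MvPolynomial (Fin D) ℤ
  deg : ∀ c, (W c).totalDegree ≤ lev c

namespace Frm
variable {D : ℕ} {lev : ι → ℕ} (V : Frm D lev)

/-- the point of the frame at the position `t` -/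
def pt (t : Fin D → ℤ) : ι → ℤ := fun c => eval t (V.W c)

/-- the frame as a real polynomial map -/
def rl : ι → Pl (Fin D) := fun c => map (Int.castRingHom ℝ) (V.W c)

/-- the top homogeneous part of the frame -/
def tp : ι → Pl (Fin D) := fun c => homogeneousComponent (lev c) (V.rl c)

end Frm

/-- `∑_α (coeff α p / σ ^ |α|) ^ 2` -/
def q2 {D : ℕ} (σ : ℝ) (p : Pl (Fin D)) : ℝ := ∑ α ∈ p.support, (coeff α p / σ ^ α.degree) ^ 2

/-- the multi-indices of degree `≤ l` -/
def mi (D l : ℕ) : Finset (Fin D →₀ ℕ) := (Finsupp.finite_of_degree_le (σ := Fin D) l).toFinset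

theorem mem_mi {D l : ℕ} {α : Fin D →₀ ℕ} : α ∈ mi D l ↔ α.degree ≤ l := by simp [mi]

variable [Fintype ι]

/-- squared norm of the Taylor data of a frame -/
def fq (T : Cell ι) {D : ℕ} (σ : ℝ) (V : Frm D T.lev) : ℝ := ∑ c, q2 σ (bind₁ V.rl (T.th c))

/-- Gaussian weight of a frame -/
def fw (T : Cell ι) {D : ℕ} (σ : ℝ) (V : Frm D T.lev) : ℝ := Real.exp (-Real.pi * fq T σ V)

/-- ideal mass of the frames -/
def fmu (T : Cell ι) (D : ℕ) (σ : ℝ) : ℝ := ∏ c, ∏ α ∈ mi D (T.lev c), σ ^ α.degree * |T.a c|⁻¹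

/-- mass of a finite family of frames -/
def fm (T : Cell ι) {D : ℕ} (σ : ℝ) (Z : Finset (Frm D T.lev)) : ℝ := ∑ V ∈ Z, fw T σ V

/-- the positions `[0, L) ^ D` -/
def pos (D L : ℕ) : Finset (Fin D → ℤ) := Fintype.piFinset fun _ => Ico (0 : ℤ) L

end Crest.Agent.T49.Gl
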