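import Mathlib
import Crest.Agent.R275.ElkiesPoisson_692
import Crest.Agent.T49.Red_74

/-!
# Row 49 (helper64): Gaussian lattice library, part A (definitions, duality, Poisson summation)

`A : (ι → ℝ) →ₗ[ℝ] E` injective, lattice `A ℤ^ι` in an inner product space `E`.
* `rho v = exp (-π ‖v‖²)`, `e x = exp (2πi x)`;
* `th A c = ∑' x, rho (A x + c)`, `kap A = ∫ rho (A v) = 1 / covolume`;
* `IsDual A B` : `B` is the dual basis map, `⟪B t, A v⟫ = t ⬝ᵥ v`;
* `poisson`.
-/

set_option autoImplicit false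
set_option linter.unusedSectionVars false

noncomputable section

namespace Crest.Agent.T49.Gau

open MeasureTheory Real Complex
open scoped InnerProductSpace
open Crest.Agent.T49.Lat (cast cast_apply)
open Crest.Agent.R275.Elkies692 (poisson_pi fhP eP summable_shift integrable_of_decay)

variable {ι : Type*} [Fintype ι] {E : Type*} [NormedAddCommGroup E] [InnerProductSpace ℝ E]

/-- `e x = exp (2 π i x)` -/
def e (x : ℝ) : ℂ := Complex.exp (2 * π * I * x)

theorem e_add (x y : ℝ) : e (x + y) = e x * e y := by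
  unfold e; rw [← Complex.exp_add]; congr 1; push_cast; ring

@[simp] theorem e_zero : e 0 = 1 := by simp [e]

@[simp] theorem norm_e (x : ℝ) : ‖e x‖ = 1 := by
  unfold e
  rw [show (2 * π * I * x : ℂ) = ((2 * π * x : ℝ) : ℂ) * I by push_cast; ring]
  exact Complex.norm_exp_ofReal_mul_I _

@[simp] theorem e_int (k : ℤ) : e k = 1 := by
  unfold e
  rw [show (2 * π * I * (k : ℝ) : ℂ) = (k : ℂ) * (2 * π * I) by push_cast; ring]
  exact Complex.exp_int_mul_two_pi_mul_I _

theorem e_ne_zero (x : ℝ) : e x ≠ 0 := Complex.exp_ne_zero _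

theorem e_neg (x : ℝ) : e (-x) = (starRingEnd ℂ) (e x) := by
  unfold e
  rw [← Complex.exp_conj]
  congr 1
  simp only [map_mul, Complex.conj_ofReal, Complex.conj_I, map_ofNat]
  push_cast
  ring

theorem e_re (x : ℝ) : (e x).re = Real.cos (2 * π * x) := by
  unfold e
  rw [show (2 * π * I * x : ℂ) = ((2 * π * x : ℝ) : ℂ) * I by push_cast; ring]
  exact Complex.exp_ofReal_mul_I_re _

theorem norm_e_sub_one_le (x : ℝ) : ‖e x - 1‖ ≤ 2 * π * |x| := by
  unfold e
  rw [show (2 * π * I * x : ℂ) = I * ((2 * π * x : ℝ) : ℂ) by push_cast; ring]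
  refine (Real.norm_exp_I_mul_ofReal_sub_one_le).trans (le_of_eq ?_)
  rw [Real.norm_eq_abs, abs_mul, abs_of_pos (by positivity : 0 < 2 * π)]

theorem continuous_e : Continuous e := by unfold e; fun_prop

/-- the unit Gaussian -/
def rho (v : E) : ℝ := Real.exp (-π * ‖v‖ ^ 2)

theorem rho_pos (v : E) : 0 < rho v := Real.exp_pos _

theorem rho_le_one (v : E) : rho v ≤ 1 := by
  unfold rho
  rw [Real.exp_le_one_iff]
  have := Real.pi_pos
  nlinarith [sq_nonneg ‖v‖]

@[simp] theorem rho_zero : rho (0 : E) = 1 := by simp [rho]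

@[simp] theorem rho_neg (v : E) : rho (-v) = rho v := by simp [rho]

theorem rho_sub_comm (v w : E) : rho (v - w) = rho (w - v) := by
  rw [← rho_neg, neg_sub]

theorem rho_add (v w : E) : rho (v + w) = rho v * rho w * Real.exp (-2 * π * ⟪v, w⟫_ℝ) := by
  unfold rho
  rw [← Real.exp_add, ← Real.exp_add, norm_add_sq_real]
  congr 1; ring

theorem rho_add_of_inner {v w : E} (h : ⟪v, w⟫_ℝ = 0) : rho (v + w) = rho v * rho w := by
  rw [rho_add, h]; simp

theorem rho_smul (s : ℝ) (v : E) : rho (s • v) = Real.exp (-π * s ^ 2 * ‖v‖ ^ 2) := by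
  unfold rho
  rw [norm_smul, mul_pow, Real.norm_eq_abs, sq_abs]
  congr 1; ring

theorem rho_le_of_norm_le {F : Type*} [NormedAddCommGroup F] [InnerProductSpace ℝ F] {v : E}
    {w : F} (h : ‖v‖ ≤ ‖w‖) : rho w ≤ rho v := by
  unfold rho
  refine Real.exp_le_exp.2 ?_
  have := Real.pi_pos
  have h2 : ‖v‖ ^ 2 ≤ ‖w‖ ^ 2 := pow_le_pow_left₀ (norm_nonneg _) h 2
  nlinarith

theorem continuous_rho : Continuous (rho : E → ℝ) := by unfold rho; fun_prop

theorem cast_add (x y : ι → ℤ) : cast (x + y) = cast x + cast y := by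
  funext i; simp

theorem cast_neg (x : ι → ℤ) : cast (-x) = -cast x := by
  funext i; simp

theorem cast_sub (x y : ι → ℤ) : cast (x - y) = cast x - cast y := by
  funext i; simp

@[simp] theorem cast_zero : cast (0 : ι → ℤ) = 0 := by
  funext i; simp

theorem cast_zsmul (b : ℤ) (x : ι → ℤ) : cast (b • x) = (b : ℝ) • cast x := by
  funext i; simp

theorem cast_dot (k x : ι → ℤ) : cast k ⬝ᵥ cast x = ((k ⬝ᵥ x : ℤ) : ℝ) := by
  simp [dotProduct]

@[simp] theorem e_cast_dot (k x : ι → ℤ) : e (cast k ⬝ᵥ cast x) = 1 := by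
  rw [cast_dot, e_int]

/-- the theta value of the shifted lattice `A ℤ^ι + c` -/
def th (A : (ι → ℝ) →ₗ[ℝ] E) (c : E) : ℝ := ∑' x : ι → ℤ, rho (A (cast x) + c)

/-- the inverse of the covolume -/
def kap (A : (ι → ℝ) →ₗ[ℝ] E) : ℝ := ∫ v : ι → ℝ, rho (A v)

section Decay

variable {A : (ι → ℝ) →ₗ[ℝ] E}

theorem exists_lower (hA : Function.Injective A) : ∃ c : ℝ, 0 < c ∧ ∀ v, c * ‖v‖ ≤ ‖A v‖ := by
  obtain ⟨K, hK, h⟩ := A.exists_antilipschitzWith (LinearMap.ker_eq_bot.2 hA)
  have hK' : (0 : ℝ) < K := hK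
  refine ⟨K⁻¹, inv_pos.2 hK', fun v => ?_⟩
  have := h.le_mul_dist v 0
  rw [map_zero, dist_zero_right, dist_zero_right] at this
  rw [inv_mul_le_iff₀ hK']
  exact this

theorem exists_decay (hA : Function.Injective A) (c : E) :
    ∃ C : ℝ, ∀ v : ι → ℝ, rho (A v + c) ≤ C / (1 + ‖v‖) ^ (Fintype.card ι + 1) := by
  obtain ⟨a, ha, hl⟩ := exists_lower hA
  set N := Fintype.card ι + 1
  set b := π * a ^ 2 / 2 with hb
  have hb0 : 0 < b := by positivity
  refine ⟨N.factorial * Real.exp (π * ‖c‖ ^ 2 + 1 + 1 / (4 * b)), fun v => ?_⟩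
  rw [le_div_iff₀ (by positivity)]
  have h1 := Real.pow_div_factorial_le_exp (x := 1 + ‖v‖) (by positivity) N
  rw [div_le_iff₀ (by positivity)] at h1
  have h2 : ‖A v‖ ≤ ‖A v + c‖ + ‖c‖ := by
    calc ‖A v‖ = ‖(A v + c) - c‖ := by rw [add_sub_cancel_right]
      _ ≤ _ := norm_sub_le _ _
  have h3 : (a * ‖v‖) ^ 2 ≤ 2 * ‖A v + c‖ ^ 2 + 2 * ‖c‖ ^ 2 := by
    have h4 : (a * ‖v‖) ^ 2 ≤ (‖A v + c‖ + ‖c‖) ^ 2 :=
      pow_le_pow_left₀ (by positivity) ((hl v).trans h2) 2
    nlinarith [sq_nonneg (‖A v + c‖ - ‖c‖)]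
  have h5 : ‖v‖ ≤ b * ‖v‖ ^ 2 + 1 / (4 * b) := by
    have : 0 ≤ b * (‖v‖ - 1 / (2 * b)) ^ 2 := by positivity
    have e1 : b * (‖v‖ - 1 / (2 * b)) ^ 2 = b * ‖v‖ ^ 2 - ‖v‖ + 1 / (4 * b) := by
      field_simp; ring
    linarith
  calc rho (A v + c) * (1 + ‖v‖) ^ N
      ≤ rho (A v + c) * (Real.exp (1 + ‖v‖) * N.factorial) :=
        mul_le_mul_of_nonneg_left h1 (rho_pos _).le
    _ = N.factorial * Real.exp (-π * ‖A v + c‖ ^ 2 + (1 + ‖v‖)) := by
        rw [Real.exp_add (-π * ‖A v + c‖ ^ 2)]; unfold rho; ring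
    _ ≤ _ := by
        refine mul_le_mul_of_nonneg_left (Real.exp_le_exp.2 ?_) (by positivity)
        have h6 : b * ‖v‖ ^ 2 ≤ π * ‖A v + c‖ ^ 2 + π * ‖c‖ ^ 2 := by
          have : b * ‖v‖ ^ 2 = π / 2 * (a * ‖v‖) ^ 2 := by rw [hb]; ring
          rw [this]
          nlinarith [Real.pi_pos]
        linarith

theorem continuous_lin (A : (ι → ℝ) →ₗ[ℝ] E) : Continuous A := A.continuous_of_finiteDimensional

theorem summable_rho (hA : Function.Injective A) (c : E) :
    Summable fun x : ι → ℤ => rho (A (cast x) + c) := by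
  obtain ⟨C, hC⟩ := exists_decay hA c
  have hg : ∀ v : ι → ℝ, ‖((rho (A v + c) : ℝ) : ℂ)‖ ≤ C / (1 + ‖v‖) ^ (Fintype.card ι + 1) := by
    intro v
    rw [Complex.norm_real, Real.norm_of_nonneg (rho_pos _).le]
    exact hC v
  refine (summable_shift hg 0).norm.congr fun x => ?_
  rw [Complex.norm_real, Real.norm_of_nonneg (rho_pos _).le, zero_add]
  rfl

theorem summable_rho_mul (hA : Function.Injective A) (c : E) {f : (ι → ℤ) → ℂ} {M : ℝ}
    (hf : ∀ x, ‖f x‖ ≤ M) : Summable fun x : ι → ℤ => (rho (A (cast x) + c) : ℂ) * f x := by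
  refine Summable.of_norm_bounded ((summable_rho hA c).mul_right M) fun x => ?_
  rw [norm_mul, Complex.norm_real, Real.norm_of_nonneg (rho_pos _).le]
  exact mul_le_mul_of_nonneg_left (hf x) (rho_pos _).le

theorem summable_rho_mul_real (hA : Function.Injective A) (c : E) {f : (ι → ℤ) → ℝ} {M : ℝ}
    (hf : ∀ x, |f x| ≤ M) : Summable fun x : ι → ℤ => rho (A (cast x) + c) * f x := by
  refine Summable.of_norm_bounded ((summable_rho hA c).mul_right M) fun x => ?_
  rw [norm_mul, Real.norm_of_nonneg (rho_pos _).le]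
  exact mul_le_mul_of_nonneg_left (hf x) (rho_pos _).le

theorem th_pos (hA : Function.Injective A) (c : E) : 0 < th A c :=
  (summable_rho hA c).tsum_pos (fun _ => (rho_pos _).le) 0 (rho_pos _)

theorem th_nonneg (A : (ι → ℝ) →ₗ[ℝ] E) (c : E) : 0 ≤ th A c :=
  tsum_nonneg fun _ => (rho_pos _).le

theorem rho_le_th (hA : Function.Injective A) (c : E) (x : ι → ℤ) :
    rho (A (cast x) + c) ≤ th A c :=
  (summable_rho hA c).le_tsum x fun _ _ => (rho_pos _).le

theorem one_le_th (hA : Function.Injective A) : 1 ≤ th A 0 := by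
  simpa using rho_le_th hA 0 0

theorem th_add_cast (A : (ι → ℝ) →ₗ[ℝ] E) (c : E) (y : ι → ℤ) :
    th A (A (cast y) + c) = th A c := by
  unfold th
  rw [← (Equiv.addRight y).tsum_eq fun x : ι → ℤ => rho (A (cast x) + c)]
  refine tsum_congr fun x => ?_
  rw [Equiv.coe_addRight, cast_add, map_add, add_assoc]

theorem th_neg (A : (ι → ℝ) →ₗ[ℝ] E) (c : E) : th A (-c) = th A c := by
  unfold th
  rw [← (Equiv.neg (ι → ℤ)).tsum_eq fun x : ι → ℤ => rho (A (cast x) + c)]
  refine tsum_congr fun x => ?_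
  rw [Equiv.neg_apply, cast_neg, map_neg, ← rho_neg]
  congr 1; abel

theorem integrable_rho (hA : Function.Injective A) (c : E) :
    Integrable fun v : ι → ℝ => rho (A v + c) := by
  obtain ⟨C, hC⟩ := exists_decay hA c
  have hg : ∀ v : ι → ℝ, ‖((rho (A v + c) : ℝ) : ℂ)‖ ≤ C / (1 + ‖v‖) ^ (Fintype.card ι + 1) := by
    intro v
    rw [Complex.norm_real, Real.norm_of_nonneg (rho_pos _).le]
    exact hC v
  have h := integrable_of_decay (g := fun v => ((rho (A v + c) : ℝ) : ℂ))
    (Complex.continuous_ofReal.comp (continuous_rho.comp ((continuous_lin A).add continuous_const)))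
    hg
  exact h.re.congr (Filter.Eventually.of_forall fun v => by simp)

theorem kap_pos (hA : Function.Injective A) : 0 < kap A := by
  unfold kap
  have h := integrable_rho hA 0
  simp only [add_zero] at h
  rw [integral_pos_iff_support_of_nonneg (fun v => (rho_pos _).le) h]
  have : Function.support (fun v : ι → ℝ => rho (A v)) = Set.univ :=
    Set.eq_univ_of_forall fun v => (rho_pos _).ne'
  rw [this]
  exact isOpen_univ.measure_pos _ Set.univ_nonempty

/-- the Fourier transform of the Gaussian -/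
theorem integral_rho_e (hA : Function.Injective A) {ξ : E} (hξ : ξ ∈ LinearMap.range A) :
    ∫ v : ι → ℝ, (rho (A v) : ℂ) * e ⟪ξ, A v⟫_ℝ = kap A * rho ξ := by
  let V := LinearMap.range A
  let q : (ι → ℝ) ≃L[ℝ] V := (LinearEquiv.ofInjective A hA).toContinuousLinearEquiv
  borelize ↥V
  have hq : ∀ v, ((q v : V) : E) = A v := fun v => rfl
  let μ : Measure V := Measure.map q volume
  have : μ.IsAddHaarMeasure := q.isAddHaarMeasure_map volume
  have hμ := Measure.isAddLeftInvariant_eq_smul μ (volume : Measure V)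
  set a := Measure.addHaarScalarFactor μ (volume : Measure V)
  have key : ∀ F : V → ℂ, ∫ v, F (q v) = (a : ℂ) * ∫ w, F w := fun F => by
    have h1 := q.toHomeomorph.measurableEmbedding.integral_map (μ := volume) F
    have h2 : ∫ v, F (q v) = ∫ w, F w ∂μ := h1.symm
    rw [h2, hμ, integral_smul_nnreal_measure]
    simp [NNReal.smul_def]
  have gen : ∀ w : V, ∫ v : ι → ℝ, (rho (A v) : ℂ) * e ⟪(w : E), A v⟫_ℝ = a * rho (w : E) := by
    intro w
    have h1 := key fun u => Complex.exp (-(π : ℂ) * ‖u‖ ^ 2 + 2 * π * I * ⟪w, u⟫_ℝ)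
    rw [GaussianFourier.integral_cexp_neg_mul_sq_norm_add (by simpa using Real.pi_pos)] at h1
    have hpi : (π : ℂ) ≠ 0 := by exact_mod_cast Real.pi_ne_zero
    rw [div_self hpi, Complex.one_cpow, one_mul] at h1
    convert h1 using 2
    · funext v
      unfold rho e
      rw [Complex.ofReal_exp, ← Complex.exp_add]
      congr 1
      have h3 : ‖q v‖ = ‖A v‖ := rfl
      have h4 : ⟪w, q v⟫_ℝ = ⟪(w : E), A v⟫_ℝ := rfl
      rw [h3, h4]
      push_cast
      ring
    · unfold rho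
      rw [Complex.ofReal_exp]
      congr 1
      have h3 : ‖w‖ = ‖(w : E)‖ := rfl
      rw [h3]
      push_cast
      field_simp
      rw [Complex.I_sq]
      ring
  have h0 := gen 0
  have hk : (kap A : ℂ) = a := by
    unfold kap
    rw [← integral_complex_ofReal]
    simpa using h0
  rw [hk]
  exact gen ⟨ξ, hξ⟩

end Decay

/-- `B` is the dual of `A` -/
structure IsDual (A B : (ι → ℝ) →ₗ[ℝ] E) : Prop where
  range_eq : LinearMap.range B = LinearMap.range A
  pair : ∀ t v, ⟪B t, A v⟫_ℝ = t ⬝ᵥ v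

namespace IsDual

variable {A B : (ι → ℝ) →ₗ[ℝ] E}

theorem symm (h : IsDual A B) : IsDual B A :=
  ⟨h.range_eq.symm, fun t v => by rw [real_inner_comm, h.pair, dotProduct_comm]⟩

theorem inj (h : IsDual A B) : Function.Injective A := by
  refine (injective_iff_map_eq_zero A).2 fun v hv => ?_
  have := h.pair v v
  rw [hv, inner_zero_right] at this
  exact dotProduct_self_eq_zero.1 this.symm

theorem inj' (h : IsDual A B) : Function.Injective B := h.symm.inj

theorem mem (h : IsDual A B) (t : ι → ℝ) : B t ∈ LinearMap.range A :=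
  h.range_eq ▸ LinearMap.mem_range_self B t

theorem abs_dot_le (h : IsDual A B) (t v : ι → ℝ) : |t ⬝ᵥ v| ≤ ‖B t‖ * ‖A v‖ := by
  rw [← h.pair]; exact abs_real_inner_le_norm _ _

/-- the dual norm is the operator norm -/
theorem norm_le (h : IsDual A B) {t : ι → ℝ} {R : ℝ} (hR : 0 ≤ R)
    (ht : ∀ v, t ⬝ᵥ v ≤ R * ‖A v‖) : ‖B t‖ ≤ R := by
  obtain ⟨v, hv⟩ := h.mem t
  have h1 := ht v
  rw [← h.pair, hv, real_inner_self_eq_norm_sq] at h1
  rcases (norm_nonneg (B t)).eq_or_lt with h0 | h0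
  · rw [← h0]; exact hR
  · exact le_of_mul_le_mul_right (by nlinarith) h0

theorem smul (h : IsDual A B) {s : ℝ} (hs : s ≠ 0) : IsDual (s • A) (s⁻¹ • B) := by
  refine ⟨?_, fun t v => ?_⟩
  · rw [LinearMap.range_smul _ _ hs, LinearMap.range_smul _ _ (inv_ne_zero hs), h.range_eq]
  · rw [LinearMap.smul_apply, LinearMap.smul_apply, real_inner_smul_left, real_inner_smul_right,
      h.pair, ← mul_assoc, inv_mul_cancel₀ hs, one_mul]

/-- orthogonal decomposition of a centre -/
theorem exists_proj (h : IsDual A B) (c : E) :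
    ∃ u : ι → ℝ, ∀ v, ⟪A v, c - A u⟫_ℝ = 0 := by
  classical
  refine ⟨fun i => ⟪B (Pi.single i 1), c⟫_ℝ, fun v => ?_⟩
  obtain ⟨t, ht⟩ := h.symm.mem v
  rw [← ht, inner_sub_right, h.pair, sub_eq_zero]
  conv_lhs => rw [pi_eq_sum_univ' t, map_sum, sum_inner]
  refine Finset.sum_congr rfl fun i _ => ?_
  rw [map_smul, real_inner_smul_left]

end IsDual

theorem exists_dual {A : (ι → ℝ) →ₗ[ℝ] E} (hA : Function.Injective A) : ∃ B, IsDual A B := by
  classical
  let G : (ι → ℝ) →ₗ[ℝ] (ι → ℝ) :=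
    LinearMap.pi fun i => (innerₛₗ ℝ (A (Pi.single i 1))).comp A
  have hG : ∀ u v, G u ⬝ᵥ v = ⟪A u, A v⟫_ℝ := fun u v => by
    conv_rhs => rw [pi_eq_sum_univ' v, map_sum, inner_sum]
    refine Finset.sum_congr rfl fun i _ => ?_
    rw [map_smul, real_inner_smul_right, mul_comm, real_inner_comm]
    rfl
  have hi : Function.Injective G := by
    refine (injective_iff_map_eq_zero G).2 fun v hv => ?_
    have := hG v v
    rw [hv, zero_dotProduct, eq_comm, inner_self_eq_zero] at this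
    exact hA (by rw [this, map_zero])
  let g := LinearEquiv.ofInjectiveEndo G hi
  refine ⟨A.comp g.symm.toLinearMap, ?_, fun t v => ?_⟩
  · rw [LinearMap.range_comp_of_range_eq_top _ g.symm.range]
  · have : G (g.symm t) = t := g.apply_symm_apply t
    rw [LinearMap.comp_apply, ← hG]
    exact congrArg (· ⬝ᵥ v) this

/-- **Poisson summation** for Gaussians -/
theorem poisson {A B : (ι → ℝ) →ₗ[ℝ] E} (h : IsDual A B) (u t : ι → ℝ) :
    ∑' x : ι → ℤ, (rho (A (cast x) + A u) : ℂ) * e (t ⬝ᵥ (cast x + u)) =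
      kap A * ∑' k : ι → ℤ, (rho (B (cast k) + B (-t)) : ℂ) * e (cast k ⬝ᵥ u) := by
  obtain ⟨C, hC⟩ := exists_decay h.inj 0
  let g : (ι → ℝ) → ℂ := fun v => (rho (A v) : ℂ) * e (t ⬝ᵥ v)
  have hg : Continuous g :=
    (Complex.continuous_ofReal.comp (continuous_rho.comp (continuous_lin A))).mul
      (continuous_e.comp (continuous_const.dotProduct continuous_id))
  have hb : ∀ v, ‖g v‖ ≤ C / (1 + ‖v‖) ^ (Fintype.card ι + 1) := fun v => by
    have := hC v
    rw [add_zero] at this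
    rw [norm_mul, norm_e, mul_one, Complex.norm_real, Real.norm_of_nonneg (rho_pos _).le]
    exact this
  have heP : ∀ (k : ι → ℤ) (v : ι → ℝ), eP k v = e (cast k ⬝ᵥ v) := fun k v => by
    unfold eP e
    congr 2
    simp [dotProduct]
  have hf : ∀ k : ι → ℤ, fhP g k = kap A * rho (B (cast k) + B (-t)) := fun k => by
    have h1 := integral_rho_e h.inj (h.mem (t - cast k))
    rw [show B (cast k) + B (-t) = -B (t - cast k) by rw [map_neg, map_sub]; abel, rho_neg, ← h1]
    unfold fhP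
    congr 1
    funext v
    rw [heP, h.pair, sub_dotProduct, sub_eq_add_neg, e_add, cast_neg, neg_dotProduct]
    simp only [g]
    ring
  have hs : Summable (fhP g) := by
    have := (Complex.summable_ofReal.2 (summable_rho h.inj' (B (-t)))).mul_left (kap A : ℂ)
    exact this.congr fun k => (hf k).symm
  have hP := poisson_pi hg hb hs u
  rw [← tsum_mul_left]
  refine Eq.trans (tsum_congr fun x => ?_) (hP.trans (tsum_congr fun k => ?_))
  · have e1 : u + Crest.Agent.R275.Elkies692.zc x = cast x + u := add_comm _ _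
    rw [e1, ← map_add]
  · rw [hf, heP, mul_assoc]

end Crest.Agent.T49.Gau
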