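import Mathlib

/-!
# Row 49 (helper40): inverse theorem GI, the two purely combinatorial leaves
-/

set_option autoImplicit false

namespace Crest.Agent.T49.GI

open Finset

/-- additive quadruples in `[-L, L)` -/
def IsQuad (L : ℕ) (q : Fin 4 → ℤ) : Prop :=
  (∀ i, q i ∈ Ico (-(L : ℤ)) L) ∧ q 0 + q 1 = q 2 + q 3

/-- approximate homomorphisms with REAL vector values (no reduction mod `ℤ`). -/
def AHRealStmt : Prop :=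
  ∃ C : ℕ, 1 ≤ C ∧ ∀ (m : ℝ), 2 ≤ m → ∀ (κ : Type) [Fintype κ], (Fintype.card κ : ℝ) ≤ m →
    ∀ (L : ℕ), 0 < L → ∀ (f : Fin 4 → ℤ → κ → ℝ) (Q : Finset (Fin 4 → ℤ)),
      (∀ q ∈ Q, IsQuad L q ∧ ∀ l, |∑ i, f i (q i) l| ≤ 1) →
      Real.exp (-m) * (L : ℝ) ^ 3 ≤ #Q →
      ∃ H' : Finset ℤ, (∀ h ∈ H', ∃ q ∈ Q, q 0 = h) ∧ Real.exp (-m ^ C) * L ≤ #H' ∧
        ∃ r : ℕ, (r : ℝ) ≤ m ^ C ∧ ∃ (β : Fin r → ℝ) (c a : κ → ℝ) (b : Fin r → κ → ℝ),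
          ∀ h ∈ H', ∀ l,
            |f 0 h l - (c l + h * a l + ∑ j, (⌊β j * h⌋ : ℝ) * b j l)| ≤ Real.exp (m ^ C)

/-- the second free role on the `a`-th line of role `i` -/
def oth (i : Fin 4) (a : Fin 2) : Fin 4 := i + 1 + Fin.castLE (by norm_num) a

/-- auxiliary lines: for every role `i` two lines of quadruples (all coordinates except `i` and
`oth i a` frozen) that carry a quadruple of `Q` above the `i`-th entry of every `q ∈ Q'`. -/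
def AuxStmt : Prop :=
  ∃ C : ℕ, 1 ≤ C ∧ ∀ (m : ℝ), 2 ≤ m → ∀ (L : ℕ), 0 < L → ∀ Q : Finset (Fin 4 → ℤ),
    (∀ q ∈ Q, IsQuad L q) → Real.exp (-m) * (L : ℝ) ^ 3 ≤ #Q →
    ∃ (p : Fin 4 → Fin 2 → Fin 4 → ℤ) (Q' : Finset (Fin 4 → ℤ)), Q' ⊆ Q ∧
      Real.exp (-m ^ C) * (L : ℝ) ^ 3 ≤ #Q' ∧
      ∀ q ∈ Q', ∀ i a, ∃ q' ∈ Q, q' i = q i ∧ ∀ j, j ≠ i → j ≠ oth i a → q' j = p i a j

end Crest.Agent.T49.GI
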