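import Crest.Agent.T49.GiDef_40
import Crest.Agent.T49.NilPw_67
import Crest.Agent.T49.NilCnt_14
import Crest.Agent.T49.Qp_85

/-!
# Row 49 (helper67): step 2 of the inverse theorem (many quadruples of symbols near one subalgebra)
-/

set_option autoImplicit false

noncomputable section

namespace Crest.Agent.T49.GI

open Finset Crest.Agent.T49.Nil Crest.Agent.T49.Nil.ND
open Crest.Agent.T49.Bch (star expAd)
open Crest.Agent.T49.Gow (Supp D U)
open Crest.Agent.T49.Box (cz quads qcorr mem_quads)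
open scoped ComplexConjugate

variable {ι : Type} [Fintype ι]

namespace S2

theorem near_mono {g : ND ι} {S : ℕ} {T m m' : ℝ} {V : Submodule ℝ g.L} {x : g.L}
    (h : Near g S T m V x) (hm : m ≤ m') : Near g S T m' V x := by
  obtain ⟨ε, y, γ, h1, h2, ⟨q, h3, h4, h5⟩, h6⟩ := h
  exact ⟨ε, y, γ, fun k => (h1 k).trans (Real.exp_le_exp.2 hm), h2,
    ⟨q, h3, h4.trans (Real.exp_le_exp.2 hm), h5⟩, h6⟩

theorem cor_mono {m m' : ℝ} {L : ℕ} {a ψ : ℤ → ℂ} (h : Cor m L a ψ) (hm : m ≤ m') :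
    Cor m' L a ψ :=
  le_trans (mul_le_mul_of_nonneg_right (Real.exp_le_exp.2 (by linarith)) (Nat.cast_nonneg _)) h

theorem famA_mono {t : ℕ} {m m' : ℝ} {L : ℕ} {f : ℤ → ℂ} {N : ND ι} {η : ι → ℤ} {H : Finset ℤ}
    {F : ℤ → N.L → ℂ} {P : ℤ → N.PS Unit} (h : FamA t m L f N η H F P) (hm : m ≤ m') :
    FamA t m' L f N η H F P :=
  ⟨h.dim.trans hm, h.good.mono (Real.exp_le_exp.2 hm), h.wt_le,
    ⟨h.freq.supp, fun k => (h.freq.le k).trans (Real.exp_le_exp.2 hm)⟩, h.sub,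
    le_trans (mul_le_mul_of_nonneg_right (Real.exp_le_exp.2 (by linarith)) (Nat.cast_nonneg _))
      h.dense,
    fun a ha => (h.chr a ha).mono (Real.exp_le_exp.2 hm), h.poly,
    fun a ha => cor_mono (h.cor a ha) hm⟩

/-- the symbol does not see translations -/
theorem symAt_tr {σ : Type} (N g : ND ι) (t h : σ → ℝ) {P : N.PS σ} (hP : P ∈ N.poly σ) :
    symAt N g t (N.tr h P) = symAt N g t P := by
  classical
  ext k
  have h0 : MvPolynomial.homogeneousComponent (N.wt k) ((N.tr h P - P) k) = 0 := by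
    ext α
    rw [MvPolynomial.coeff_homogeneousComponent]
    split_ifs with hα
    · exact tr_sub_mem_cf (fun _ _ => FA_anti) hP h α k (by rw [hα]; omega)
    · rfl
  rw [ND.sub_apply, map_sub, sub_eq_zero] at h0
  simp only [symAt, h0]

theorem sum_ibox_unit (lo hi : ℤ) (φ : ℤ → ℂ) :
    ∑ n ∈ ibox (fun _ : Unit => lo) (fun _ => hi - 1), φ (n ()) = ∑ n ∈ Ico lo hi, φ n := by
  refine sum_bij' (fun n _ => n ()) (fun n _ _ => n) (fun n hn => ?_) (fun n hn => ?_)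
    (fun _ _ => rfl) (fun _ _ => rfl) fun _ _ => rfl
  · have := mem_ibox.1 hn ()
    rw [mem_Ico]; omega
  · rw [mem_Ico] at hn
    exact mem_ibox.2 fun _ => by constructor <;> omega

/-- the signs as units -/
def sgU : Fin 4 → ℤˣ := ![1, 1, -1, -1]

theorem sgU_eq : (fun a => ((sgU a : ℤˣ) : ℤ)) = sg4 := by
  funext a; fin_cases a <;> rfl

/-- a quadruple as a function -/
def toF (q : ℤ × ℤ × ℤ × ℤ) : Fin 4 → ℤ := ![q.1, q.2.1, q.2.2.1, q.2.2.2]

theorem toF_inj : Function.Injective toF := by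
  rintro ⟨a, b, c, d⟩ ⟨a', b', c', d'⟩ h
  have h0 : a = a' := congrFun h 0
  have h1 : b = b' := congrFun h 1
  have h2 : c = c' := congrFun h 2
  have h3 : d = d' := congrFun h 3
  rw [h0, h1, h2, h3]

theorem cnt_sub {g : ND ι} {m : ℝ} (hm : 2 ≤ m) (hι : (Fintype.card ι : ℝ) ≤ m) :
    Cnt (fun 𝔥 : LieSubalgebra ℝ g.L => g.RatS (Real.exp m) 𝔥.toSubmodule) (Real.exp (m ^ 4)) :=
  (cnt_ratS_exp g hm hι).of_inj (fun 𝔥 => 𝔥.toSubmodule) (fun _ h => h)
    fun _ _ _ _ h => LieSubalgebra.toSubmodule_injective h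

end S2

open S2

theorem step2Stmt67 : Step2Stmt := by
  intro t ⟨C₁, hC₁, hLt⟩
  obtain ⟨C, hC1, hC⟩ : ∃ C : ℕ, 1 ≤ C ∧ ∀ m : ℝ, 2 ≤ m →
      (6 * m) ^ C₁ ≤ m ^ C ∧ m ≤ m ^ C ∧ 9 * m + ((6 * m) ^ C₁) ^ 4 ≤ m ^ C := by
    obtain ⟨C, hC⟩ : ∃ C : ℕ, ∀ m : ℝ, 2 ≤ m →
      (6 * m) ^ C₁ ≤ m ^ C ∧ m ≤ m ^ C ∧ 9 * m + ((6 * m) ^ C₁) ^ 4 ≤ m ^ C := by qp
    refine ⟨C, ?_, hC⟩
    by_contra h
    have h0 : C = 0 := by omega
    have := (hC 2 le_rfl).2.1
    rw [h0] at this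
    norm_num at this
  refine ⟨C, hC1, fun m L f hm hL hf hb ⟨ι, _, N, η, H, F, P, hA⟩ => ?_⟩
  obtain ⟨hc1, hc2, hc3⟩ := hC m hm
  have hL0 : (0 : ℝ) < L := (Real.exp_pos _).trans_le hL
  have hLn : 0 < L := by exact_mod_cast hL0
  classical
  set χ : ℤ → ℤ → ℂ := fun h n => if h ∈ H then sq N (F h) (P h) n else 0 with hχ
  have hχb : ∀ h n, ‖χ h n‖ ≤ 1 := fun h n => by
    simp only [hχ]
    split_ifs with hh
    · exact (hA.chr h hh).bdd _
    · simp
  have hcard : (#(Ico (0 : ℤ) L) : ℝ) = L := by simp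
  have hq := Box.quad_many (Ico (0 : ℤ) L) (Ico (0 : ℤ) L) H (f₁ := fun n => conj (f n)) (f₂ := f)
    (χ := χ) (fun x => by simpa using hb x) hb hf hχb (δ := Real.exp (-m)) (σ := Real.exp (-m))
    (K := 1) (Real.exp_pos _).le (Real.exp_pos _).le one_pos
    (nonempty_Ico.2 (by exact_mod_cast hLn)) (by rw [one_mul]) (by rw [hcard]; exact hA.dense)
    fun h hh => by
      rw [hcard]
      refine (hA.cor h hh).trans_eq (congrArg _ (sum_congr rfl fun n _ => ?_))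
      simp only [hχ, if_pos hh, D]
      ring
  rw [hcard] at hq
  have h2 : (2 : ℝ) ≤ Real.exp m := by linarith [Real.add_one_le_exp m]
  have hd : ∀ k : ℝ, Real.exp (-(k + m)) ≤ Real.exp (-k) / 2 := fun k => by
    rw [neg_add, Real.exp_add, Real.exp_neg m, ← div_eq_mul_inv]
    exact div_le_div_of_nonneg_left (Real.exp_pos _).le two_pos h2
  have e1 : Real.exp (-m) ^ 4 * Real.exp (-m) ^ 4 / (2 * 1 ^ 2) = Real.exp (-(8 * m)) / 2 := by
    rw [← pow_add, ← Real.exp_nat_mul]; norm_num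
  have e2 : Real.exp (-m) ^ 4 * Real.exp (-m) / (2 * 1 ^ 2) = Real.exp (-(5 * m)) / 2 := by
    rw [← pow_succ, ← Real.exp_nat_mul]; norm_num
  rw [e1, e2] at hq
  have hZ : Real.exp (-(9 * m)) * (L : ℝ) ^ 3 ≤ #{q ∈ quads H H H H |
      Real.exp (-(5 * m)) / 2 * L ≤ ‖qcorr (Ico (0 : ℤ) L) χ q‖} := by
    refine le_trans (mul_le_mul_of_nonneg_right ?_ (by positivity)) hq
    rw [show 9 * m = 8 * m + m by ring]; exact hd _
  have hm6 : 2 ≤ 6 * m := by linarith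
  have hm6' : 6 * m ≤ (6 * m) ^ C₁ := le_self_pow₀ (by linarith) (by omega)
  have hdim : (Fintype.card (Fin 4 × ι) : ℝ) ≤ 6 * m := by
    rw [Fintype.card_prod, Fintype.card_fin]; push_cast; linarith [hA.dim]
  obtain ⟨𝔥, -, Z', hZ', hZ'c, hZ'p⟩ := (cnt_sub (g := pw (gr N) (Fin 4)) (hm6.trans hm6')
    (hdim.trans hm6')).pigeon_exp (by positivity) hZ
    (fun q 𝔥 => GR (pw (gr N) (Fin 4)) ((6 * m) ^ C₁) 𝔥.toSubmodule ∧
      (∀ z ∈ 𝔥, (pw (gr N) (Fin 4)).fn (pwη sg4 η) z = 0) ∧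
      Near (pw (gr N) (Fin 4)) (t + 2) L ((6 * m) ^ C₁) 𝔥.toSubmodule
        (tup fun i => sym N (gr N) (P (toF q i)))) fun q hq => by
    obtain ⟨hq1, hq2⟩ := mem_filter.1 hq
    obtain ⟨m0, m1, m2, m3, -⟩ := mem_quads.1 hq1
    have hmem : ∀ i, toF q i ∈ H := fun i => by fin_cases i <;> assumption
    obtain ⟨n₀, L', a1, a2, a3, a4⟩ := Box.qcorr_Ico L hχb q (by positivity) hq2
    have hL' : 0 < L' := by
      have : (0 : ℝ) < L' := lt_of_lt_of_le (by positivity) a3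
      exact_mod_cast this
    set u : Unit → ℤ := fun _ => q.1 - q.2.2.2 with hu
    set P4 : Fin 4 → N.PS Unit := ![P q.1, N.tr (fun v => (u v : ℝ)) (P q.2.1), P q.2.2.1,
      N.tr (fun v => (u v : ℝ)) (P q.2.2.2)] with hP4
    have hchr := nChar_pw_cz (F := fun a => F (toF q a)) (Real.exp_pos m).le sgU
      fun a => hA.chr _ (hmem a)
    rw [sgU_eq] at hchr
    obtain ⟨𝔥, g1, g2, g3⟩ := hLt (6 * m) hm6 (Fin 4 × ι) Unit (pw N (Fin 4)) (pw (gr N) (Fin 4))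
      (pwη sg4 η) _ (tup P4) L (fun _ => n₀) (fun _ => n₀ + L' - 1) ((grOf_gr N).pw _) (by simp)
      hdim (good_pw (hA.good.mono (Real.exp_le_exp.2 (by linarith))) (Real.exp_pos _).le _)
      (hchr.mono (by
        rw [Fintype.card_fin, show 6 * m = 5 * m + m by ring, Real.exp_add]
        refine mul_le_mul_of_nonneg_right ?_ (Real.exp_pos _).le
        push_cast; linarith [Real.add_one_le_exp (5 * m)]))
      (tup_mem_poly fun a => by
        fin_cases a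
        exacts [hA.poly _ m0, tr_mem_poly (hA.poly _ m1) _, hA.poly _ m2,
          tr_mem_poly (hA.poly _ m3) _])
      ((Real.exp_le_exp.2 hc1).trans hL)
      (fun _ => by
        have b1 : |n₀| ≤ L := abs_le.2 ⟨by omega, by omega⟩
        have b2 : |n₀ + L' - 1| ≤ L := abs_le.2 ⟨by omega, by omega⟩
        exact ⟨by exact_mod_cast b1, by exact_mod_cast b2⟩)
      (by
        rw [Fintype.card_unit, pow_one]
        refine le_trans (mul_le_mul_of_nonneg_right ?_ hL0.le) (a4.trans_eq ?_)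
        · rw [show 6 * m = 5 * m + m by ring]; exact hd _
        · rw [← sum_ibox_unit]
          refine congrArg _ (sum_congr rfl fun n _ => ?_)
          simp only [hχ, if_pos m0, if_pos m1, if_pos m2, if_pos m3, Fin.prod_univ_four, evZ_tup,
            pr_tup, hP4, sq, sgU, toF]
          simp only [Matrix.cons_val_zero, Matrix.cons_val_one, Matrix.cons_val, evZ_tr,
            Box.cz_one, Box.cz_neg_one]
          rfl)
    refine ⟨𝔥, g1.rat, g1, g2, ?_⟩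
    convert g3 (fun _ => 1) (fun _ => by simp) using 1
    refine pw_ext fun a => ?_
    change sym N (gr N) (P (toF q a)) = symAt N (gr N) (fun _ => ((1 : ℤ) : ℝ)) (P4 a)
    rw [Int.cast_one]
    fin_cases a
    exacts [rfl, (symAt_tr N _ _ _ (hA.poly _ m1)).symm, rfl,
      (symAt_tr N _ _ _ (hA.poly _ m3)).symm]
  have hne : Z'.Nonempty := by
    rw [← card_pos]
    have : (0 : ℝ) < #Z' := lt_of_lt_of_le (by positivity) hZ'c
    exact_mod_cast this
  obtain ⟨q₀, hq₀⟩ := hne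
  refine ⟨ι, _, N, η, H, F, P, famA_mono hA hc2, 𝔥, Z'.image toF,
    ⟨(hZ'p q₀ hq₀).1.gr, (hZ'p q₀ hq₀).1.rat.mono (Real.exp_le_exp.2 hc1)⟩, (hZ'p q₀ hq₀).2.1, ?_,
    fun q' hq' => ?_⟩
  · rw [card_image_of_injective _ toF_inj]
    exact le_trans (mul_le_mul_of_nonneg_right (Real.exp_le_exp.2 (by linarith)) (by positivity))
      hZ'c
  · obtain ⟨q, hq, rfl⟩ := mem_image.1 hq'
    obtain ⟨m0, m1, m2, m3, m4⟩ := mem_quads.1 (mem_filter.1 (hZ' hq)).1
    have hmem : ∀ i, toF q i ∈ H := fun i => by fin_cases i <;> assumption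
    exact ⟨⟨fun i => hA.sub (hmem i), m4⟩, hmem, near_mono (hZ'p q hq).2.2 hc1⟩

end Crest.Agent.T49.GI
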