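import Crest.Agent.T49.GiDef_40
import Crest.Agent.T49.NilPw_67
import Crest.Agent.T49.Qp_85

/-!
# Row 49 (helper54): step 5 of the inverse theorem (the symmetry argument)
-/

set_option autoImplicit false

noncomputable section

namespace Crest.Agent.T49.GI

open Finset Crest.Agent.T49.Nil Crest.Agent.T49.Nil.ND
open Crest.Agent.T49.Bch (star expAd)
open Crest.Agent.T49.Gow (Supp D U)
open Crest.Agent.T49.Box (SV SF sgnF argH argN symF cz)
open MvPolynomial (C X homogeneousComponent)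

namespace S5

/-! ### top components of products of affine polynomials -/

section top

variable {σ : Type}

/-- `p` has degree `≤ n` and its component of degree `n` takes the value `r` at `v` -/
def Top (v : σ → ℝ) (n : ℕ) (p : MvPolynomial σ ℝ) (r : ℝ) : Prop :=
  p.totalDegree ≤ n ∧ MvPolynomial.eval v (homogeneousComponent n p) = r

theorem hc_mul {a b : ℕ} {p q : MvPolynomial σ ℝ} (hp : p.totalDegree ≤ a)
    (hq : q.totalDegree ≤ b) :
    homogeneousComponent (a + b) (p * q) = homogeneousComponent a p * homogeneousComponent b q := by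
  classical
  ext α
  have hp' : ∀ β : σ →₀ ℕ, a < β.degree → p.coeff β = 0 := fun β h =>
    MvPolynomial.coeff_eq_zero_of_totalDegree_lt (hp.trans_lt h)
  have hq' : ∀ β : σ →₀ ℕ, b < β.degree → q.coeff β = 0 := fun β h =>
    MvPolynomial.coeff_eq_zero_of_totalDegree_lt (hq.trans_lt h)
  simp only [MvPolynomial.coeff_homogeneousComponent, MvPolynomial.coeff_mul]
  split_ifs with h
  · refine sum_congr rfl fun x hx => ?_
    have h1 : x.1.degree + x.2.degree = a + b := by rw [← map_add, mem_antidiagonal.1 hx, h]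
    rcases lt_trichotomy x.1.degree a with h2 | h2 | h2
    · rw [hq' _ (by omega)]; simp
    · rw [if_pos h2, if_pos (by omega)]
    · rw [hp' _ h2]; simp
  · refine (sum_eq_zero fun x hx => ?_).symm
    have h1 : x.1.degree + x.2.degree = α.degree := by rw [← map_add, mem_antidiagonal.1 hx]
    split_ifs <;> first | omega | simp

theorem Top.mul {v : σ → ℝ} {a b : ℕ} {p q : MvPolynomial σ ℝ} {r s : ℝ} (hp : Top v a p r)
    (hq : Top v b q s) : Top v (a + b) (p * q) (r * s) :=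
  ⟨(MvPolynomial.totalDegree_mul p q).trans (add_le_add hp.1 hq.1), by
    rw [hc_mul hp.1 hq.1, map_mul, hp.2, hq.2]⟩

theorem top_C (v : σ → ℝ) (r : ℝ) : Top v 0 (C r) r :=
  ⟨(MvPolynomial.totalDegree_C r).le, by simp⟩

theorem Top.pow {v : σ → ℝ} {p : MvPolynomial σ ℝ} {r : ℝ} (hp : Top v 1 p r) (n : ℕ) :
    Top v n (p ^ n) (r ^ n) := by
  induction n with
  | zero => simpa using top_C v 1
  | succ n ih => rw [pow_succ, pow_succ]; exact ih.mul hp

theorem Top.add {v : σ → ℝ} {a : ℕ} {p q : MvPolynomial σ ℝ} {r s : ℝ} (hp : Top v a p r)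
    (hq : Top v a q s) : Top v a (p + q) (r + s) :=
  ⟨(MvPolynomial.totalDegree_add p q).trans (max_le hp.1 hq.1), by
    rw [map_add, map_add, hp.2, hq.2]⟩

theorem Top.sub {v : σ → ℝ} {a : ℕ} {p q : MvPolynomial σ ℝ} {r s : ℝ} (hp : Top v a p r)
    (hq : Top v a q s) : Top v a (p - q) (r - s) :=
  ⟨(MvPolynomial.totalDegree_sub p q).trans (max_le hp.1 hq.1), by
    rw [map_sub, map_sub, hp.2, hq.2]⟩

theorem top_C_one (v : σ → ℝ) (r : ℝ) : Top v 1 (C r) 0 :=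
  ⟨(MvPolynomial.totalDegree_C r).le.trans zero_le_one, by
    rw [MvPolynomial.homogeneousComponent_eq_zero (h := by simp), map_zero]⟩

theorem top_zero (v : σ → ℝ) : Top v 1 0 0 := by simpa using top_C_one v 0

theorem top_X (v : σ → ℝ) (i : σ) : Top v 1 (X i) (v i) :=
  ⟨(MvPolynomial.totalDegree_X i).le, by
    rw [MvPolynomial.homogeneousComponent_of_mem (MvPolynomial.isHomogeneous_X ℝ i), if_pos rfl,
      MvPolynomial.eval_X]⟩

theorem top_sum {β : Type*} (v : σ → ℝ) (s : Finset β) {p : β → MvPolynomial σ ℝ} {r : β → ℝ}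
    (h : ∀ i ∈ s, Top v 1 (p i) (r i)) : Top v 1 (∑ i ∈ s, p i) (∑ i ∈ s, r i) := by
  classical
  induction s using Finset.induction_on with
  | empty => simpa using top_zero v
  | insert i s hi ih =>
    rw [sum_insert hi, sum_insert hi]
    exact (h i (mem_insert_self _ _)).add (ih fun j hj => h j (mem_insert_of_mem hj))

end top

variable {ι : Type} [Fintype ι] {t : ℕ}

/-- the first argument as a polynomial -/
def aH (z : ℤ) (j : SF t) : MvPolynomial (SV t) ℝ := argH (C (z : ℝ)) j X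

/-- the second argument as a polynomial -/
def aN (k₀ : Fin t → ℤ) (j : SF t) : MvPolynomial (SV t) ℝ := argN (fun i => C (k₀ i : ℝ)) j X

theorem eval_aH (z : ℤ) (j : SF t) (v : SV t → ℤ) :
    MvPolynomial.aeval (fun i => (v i : ℝ)) (aH z j) = ((argH z j v : ℤ) : ℝ) := by
  simp [aH, argH]

theorem eval_aN (k₀ : Fin t → ℤ) (j : SF t) (v : SV t → ℤ) :
    MvPolynomial.aeval (fun i => (v i : ℝ)) (aN k₀ j) = ((argN k₀ j v : ℤ) : ℝ) := by
  simp only [aN, argN, map_add, map_sum, MvPolynomial.aeval_X, Int.cast_add, Int.cast_sum]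
  congr 1
  refine sum_congr rfl fun i _ => ?_
  split_ifs <;> simp

theorem top_aH (z : ℤ) (j : SF t) (v : SV t → ℤ) :
    Top (fun i => (v i : ℝ)) 1 (aH z j) ((argH (0 : ℤ) j v : ℤ) : ℝ) := by
  have := ((top_C_one (fun i => (v i : ℝ)) (z : ℝ)).sub (top_X _ (.inl (false, j.1)))).sub
    (top_X _ (.inl (true, j.2.1)))
  simpa [aH, argH] using this

theorem top_aN (k₀ : Fin t → ℤ) (j : SF t) (v : SV t → ℤ) :
    Top (fun i => (v i : ℝ)) 1 (aN k₀ j) ((argN (0 : Fin t → ℤ) j v : ℤ) : ℝ) := by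
  simp only [aN, argN, Int.cast_add, Int.cast_sum]
  refine (top_X _ _).add (top_sum _ _ fun i _ => ?_)
  split_ifs
  · simpa using (top_C_one (fun i => (v i : ℝ)) (k₀ i : ℝ)).add (top_X _ (.inr i))
  · simpa using top_zero _

/-- the polynomial map of the symmetry step -/
def PP (A : ND ι) (hd : ι → Bool) (z : ℤ) (k₀ : Fin t → ℤ) (x : A.L) :
    (pw A (SF t)).PS (SV t) :=
  fun p => if hd p.2 then aH z p.1 * aN k₀ p.1 ^ (A.wt p.2 - 1) * C (x p.2)
    else aN k₀ p.1 ^ A.wt p.2 * C (x p.2)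

theorem top_PP (A : ND ι) (hd : ι → Bool) (z : ℤ) (k₀ : Fin t → ℤ) (x : A.L) (v : SV t → ℤ)
    (p : SF t × ι) :
    Top (fun i => (v i : ℝ)) (A.wt p.2) (PP A hd z k₀ x p) (iot A hd t v x p) := by
  unfold PP
  change Top _ _ _ (if hd p.2 then _ else _)
  split_ifs
  · have := ((top_aH z p.1 v).mul ((top_aN k₀ p.1 v).pow (A.wt p.2 - 1))).mul
      (top_C _ (x p.2))
    rwa [add_zero, Nat.add_sub_cancel' (A.wt_pos p.2)] at this
  · exact ((top_aN k₀ p.1 v).pow (A.wt p.2)).mul (top_C _ (x p.2))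

theorem PP_mem (A : ND ι) (hd : ι → Bool) (z : ℤ) (k₀ : Fin t → ℤ) (x : A.L) :
    PP A hd z k₀ x ∈ (pw A (SF t)).poly (SV t) := fun _ p hp =>
  MvPolynomial.coeff_eq_zero_of_totalDegree_lt ((top_PP A hd z k₀ x 0 p).1.trans_lt hp)

theorem symAt_PP (A : ND ι) (hd : ι → Bool) (z : ℤ) (k₀ : Fin t → ℤ) (x : A.L) (v : SV t → ℤ) :
    symAt (pw A (SF t)) (pw A (SF t)) (fun i => (v i : ℝ)) (PP A hd z k₀ x) = iot A hd t v x :=
  funext fun p => (top_PP A hd z k₀ x v p).2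

theorem evZ_PP (A : ND ι) (hd : ι → Bool) (z : ℤ) (k₀ : Fin t → ℤ) (x : A.L) (v : SV t → ℤ)
    (j : SF t) : pr A ℝ j ((pw A (SF t)).evZ v (PP A hd z k₀ x)) =
      dil2 A hd ((argH z j v : ℤ) : ℝ) ((argN k₀ j v : ℤ) : ℝ) x := by
  ext k
  change MvPolynomial.aeval (fun i => (v i : ℝ)) (PP A hd z k₀ x (j, k)) = _
  unfold PP dil2
  split_ifs <;> simp only [map_mul, map_pow, eval_aH, eval_aN, MvPolynomial.aeval_C] <;> rfl

/-- the scaling factor of `dil2` -/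
def fac (A : ND ι) (hd : ι → Bool) (h n : ℤ) (k : ι) : ℤ :=
  if hd k then h * n ^ (A.wt k - 1) else n ^ A.wt k

theorem dil2_eq (A : ND ι) (hd : ι → Bool) (h n : ℤ) (x : A.L) (k : ι) :
    dil2 A hd h n x k = (fac A hd h n k : ℝ) * x k := by
  unfold dil2 fac
  split_ifs <;> simp

theorem fac_mul {A : ND ι} {hd : ι → Bool} (hB : Bigr A hd) (h n : ℤ) {i j k : ι}
    (hc : A.c i j k ≠ 0) : fac A hd h n k = fac A hd h n i * fac A hd h n j := by
  have h1 := hB.gr i j k hc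
  have h2 := hB.add i j k hc
  have hi := A.wt_pos i
  have hj := A.wt_pos j
  unfold fac
  cases ei : hd i <;> cases ej : hd j <;> cases ek : hd k <;> simp [ei, ej, ek] at h2 ⊢
  · rw [← h1, pow_add]
  · rw [show A.wt k - 1 = A.wt i + (A.wt j - 1) by omega, pow_add]; ring
  · rw [show A.wt k - 1 = (A.wt i - 1) + A.wt j by omega, pow_add]; ring

/-- `dil2` as a Lie homomorphism -/
def dilH {A : ND ι} {hd : ι → Bool} (hB : Bigr A hd) (h n : ℤ) : A.L →ₗ⁅ℝ⁆ A.L where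
  toFun := dil2 A hd h n
  map_add' x y := by ext k; simp [dil2_eq, mul_add]
  map_smul' r x := by ext k; simp [dil2_eq, mul_left_comm]
  map_lie' {x y} := by
    ext k
    simp only [dil2_eq, lie_apply, mul_sum]
    refine sum_congr rfl fun i _ => sum_congr rfl fun j _ => ?_
    by_cases hc : A.c i j k = 0
    · simp [hc]
    · rw [fac_mul hB h n hc]; push_cast; ring

/-- `iot` as a Lie homomorphism -/
def iotH {A : ND ι} {hd : ι → Bool} (hB : Bigr A hd) (t : ℕ) (v : SV t → ℤ) :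
    A.L →ₗ⁅ℝ⁆ (pw A (SF t)).L :=
  toPw fun j => dilH hB (argH (0 : ℤ) j v) (argN (0 : Fin t → ℤ) j v)

theorem iotH_apply {A : ND ι} {hd : ι → Bool} (hB : Bigr A hd) (v : SV t → ℤ) (x : A.L) :
    iotH hB t v x = iot A hd t v x := rfl

theorem abs_argH_le (j : SF t) {v : SV t → ℤ} (hv : ∀ i, |v i| ≤ 1) :
    |argH (0 : ℤ) j v| ≤ t + 2 := by
  have h1 := abs_le.1 (hv (.inl (false, j.1)))
  have h2 := abs_le.1 (hv (.inl (true, j.2.1)))
  unfold argH
  rw [abs_le]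
  constructor <;> omega

theorem abs_argN_le (j : SF t) {v : SV t → ℤ} (hv : ∀ i, |v i| ≤ 1) :
    |argN (0 : Fin t → ℤ) j v| ≤ t + 2 := by
  unfold argN
  refine (abs_add_le _ _).trans ?_
  have h1 : |∑ i, if j.2.2.2 i then (0 : Fin t → ℤ) i + v (.inr i) else 0| ≤ t := by
    refine (abs_sum_le_sum_abs _ _).trans ?_
    calc _ ≤ ∑ _i : Fin t, (1 : ℤ) := sum_le_sum fun i _ => by
          split_ifs
          · simpa using hv (.inr i)
          · simp
      _ = t := by simp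
  have h2 := hv (.inl (j.2.2.1, if j.2.2.1 then j.2.1 else j.1))
  omega

theorem abs_fac_le {A : ND ι} (hd : ι → Bool) {S : ℕ} (hS : ∀ k, A.wt k ≤ S) {h n B : ℤ}
    (hB : 1 ≤ B) (hh : |h| ≤ B) (hn : |n| ≤ B) (k : ι) : |fac A hd h n k| ≤ B ^ S := by
  refine le_trans ?_ (pow_le_pow_right₀ hB (hS k))
  unfold fac
  split_ifs
  · rw [abs_mul, abs_pow]
    conv_rhs => rw [← Nat.add_sub_cancel' (A.wt_pos k), pow_add, pow_one]
    exact mul_le_mul hh (pow_le_pow_left₀ (abs_nonneg _) hn _) (by positivity) (by omega)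
  · rw [abs_pow]
    exact pow_le_pow_left₀ (abs_nonneg _) hn _

theorem gMap_iotH {A : ND ι} {hd : ι → Bool} (hB : Bigr A hd) (hS : ∀ k, A.wt k ≤ t + 2)
    {v : SV t → ℤ} (hv : ∀ i, |v i| ≤ 1) {m : ℝ} (hm : ((t : ℝ) + 2) ^ (t + 2) ≤ Real.exp m) :
    GMap A (pw A (SF t)) m (iotH hB t v).toLinearMap := by
  classical
  have key : ∀ i (p : SF t × ι), (iotH hB t v).toLinearMap (A.e i) p =
      ((if p.2 = i then fac A hd (argH (0 : ℤ) p.1 v) (argN (0 : Fin t → ℤ) p.1 v) p.2 else 0 : ℤ)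
        : ℝ) := by
    intro i p
    change dil2 A hd _ _ (A.e i) p.2 = _
    rw [dil2_eq, e_apply]
    split_ifs <;> simp
  refine ⟨fun i p => ⟨_, key i p, le_trans ?_ hm⟩, fun i p hp => ?_⟩
  · split_ifs
    · have := abs_fac_le hd hS (B := t + 2) (by omega) (abs_argH_le p.1 hv) (abs_argN_le p.1 hv) p.2
      exact_mod_cast this
    · simp only [Int.cast_zero, abs_zero]; positivity
  · rw [key] at hp
    by_cases h : p.2 = i
    · rw [pw_wt, h]
    · simp [h] at hp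

/-! ### monotonicity -/

theorem isNil1_mono {s : ℕ} {m m' : ℝ} {ψ : ℤ → ℂ} (h : IsNil1 s m ψ) (hm : m ≤ m') :
    IsNil1 s m' ψ := by
  obtain ⟨κ, _, N, F, P, h1, h2, h3, h4, h5⟩ := h
  have := Real.exp_le_exp.2 hm
  exact ⟨κ, _, N, F, P, h1.trans hm, h2.mono this, h3.mono this, h4, h5⟩

theorem cor_mono {m m' : ℝ} {L : ℕ} {a ψ : ℤ → ℂ} (h : Cor m L a ψ) (hm : m ≤ m') :
    Cor m' L a ψ :=
  le_trans (mul_le_mul_of_nonneg_right (Real.exp_le_exp.2 (neg_le_neg hm)) (Nat.cast_nonneg _)) h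

theorem famB_mono {m m' : ℝ} {L : ℕ} {f : ℤ → ℂ} {A : ND ι} {hd : ι → Bool} {η : ι → ℤ}
    {x : A.L} {F : A.L → ℂ} {b : ℤ → ℂ} {H : Finset ℤ} (h : FamB t m L f A hd η x F b H)
    (hm : m ≤ m') : FamB t m' L f A hd η x F b H where
  dim := h.dim.trans hm
  good := h.good.mono (Real.exp_le_exp.2 hm)
  bigr := h.bigr
  chr := h.chr.mono (Real.exp_le_exp.2 hm)
  top := h.top
  bdd := h.bdd
  sub := h.sub
  dense := le_trans (mul_le_mul_of_nonneg_right (Real.exp_le_exp.2 (neg_le_neg hm))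
    (Nat.cast_nonneg _)) h.dense
  cor a ha := by
    obtain ⟨ψ, h1, h2⟩ := h.cor a ha
    exact ⟨ψ, isNil1_mono h1 hm, cor_mono h2 hm⟩

theorem gr_mono {g : ND ι} {m m' : ℝ} {U : Submodule ℝ g.L} (h : GR g m U) (hm : m ≤ m') :
    GR g m' U := ⟨h.gr, h.rat.mono (Real.exp_le_exp.2 hm)⟩

theorem near_mono {g : ND ι} {S : ℕ} {T m m' : ℝ} {U : Submodule ℝ g.L} {x : g.L}
    (h : Near g S T m U x) (hm : m ≤ m') : Near g S T m' U x := by
  obtain ⟨ε, y, γ, h1, h2, ⟨q, h3, h4, h5⟩, h6⟩ := h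
  have := Real.exp_le_exp.2 hm
  exact ⟨ε, y, γ, fun k => (h1 k).trans this, h2, ⟨q, h3, h4.trans this, h5⟩, h6⟩

theorem card_SF (t : ℕ) : Fintype.card (SF t) = 8 * 2 ^ t := by
  simp [SF, Fintype.card_prod]; ring

theorem card_SV (t : ℕ) : Fintype.card (SV t) = t + 4 := by
  simp [SV, Fintype.card_sum]; ring

theorem ibox_eq (σ : Type) [Fintype σ] [DecidableEq σ] (L : ℕ) :
    ibox (fun _ : σ => (0 : ℤ)) (fun _ => (L : ℤ) - 1) =
      Fintype.piFinset fun _ : σ => Ico (0 : ℤ) L := by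
  unfold ibox
  congr 1
  ext _ n
  simp only [mem_Icc, mem_Ico]
  omega

end S5

open S5

theorem step5Stmt : Step5Stmt := by
  classical
  rintro ⟨C4, hC4, hPush⟩ hPull hDer hSym t ⟨C2, hC2, hLt⟩
  obtain ⟨C3, hC3, hPull⟩ := hPull (t + 2)
  obtain ⟨C1, hC1, hDer⟩ := hDer t
  obtain ⟨a, ha⟩ : ∃ C : ℕ, ∀ (m : ℝ) (d : ℕ), 2 ≤ m → (d : ℝ) ≤ m →
      m ≤ m ^ C ∧ 8 * 2 ^ t * (d : ℝ) ≤ m ^ C ∧ 8 * 2 ^ t * Real.exp m ≤ Real.exp (m ^ C) ∧
      Real.exp (-m ^ C) ≤ (Real.exp (-m) * Real.exp (-m ^ C1)) ^ 4 / 16 ^ (t + 1) ∧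
      (2 : ℝ) ^ (t + 4) ≤ m ^ C ∧ ((t : ℝ) + 2) ^ (t + 2) ≤ Real.exp (m ^ C) := by qp
  obtain ⟨Cf, hCf⟩ : ∃ C : ℕ, ∀ (m : ℝ), 2 ≤ m →
      m ≤ m ^ C ∧ (m ^ a) ^ C2 ≤ m ^ C ∧ ((m ^ a) ^ C2) ^ C3 ≤ m ^ C ∧
        (((m ^ a) ^ C2) ^ C4) ^ C4 ≤ m ^ C := by qp
  have hCf1 : 1 ≤ Cf := by
    by_contra h
    have := (hCf 2 le_rfl).1
    rw [show Cf = 0 by omega] at this
    norm_num at this
  refine ⟨Cf, hCf1, fun m L f hm hL hf hf1 hX => ?_⟩
  obtain ⟨ι, _, A, hd, η, x, F, b, H, hB⟩ := hX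
  obtain ⟨f1, f2, f3, f4⟩ := hCf m hm
  obtain ⟨a1, a2, a3, a4, a5, a6⟩ := ha m _ hm hB.dim
  set m1 := m ^ a with hm1
  have h21 : 2 ≤ m1 := hm.trans a1
  have hle : ∀ {y : ℝ} {c : ℕ}, 2 ≤ y → 1 ≤ c → y ≤ y ^ c := fun hy hc =>
    le_self_pow₀ (by linarith) (by omega)
  set m2 := m1 ^ C2 with hm2
  have h12 : m1 ≤ m2 := hle h21 hC2
  have h22 : 2 ≤ m2 := h21.trans h12
  have hL0 : (0 : ℝ) < L := (Real.exp_pos _).trans_le hL
  have hL1 : 0 < L := by exact_mod_cast hL0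
  -- the converse inverse theorem and the symmetry chain
  let b' : ℤ → ℂ := fun n => if n ∈ Ico (0 : ℤ) L then b n else 0
  have hb'1 : ∀ n, ‖b' n‖ ≤ 1 := fun n => by
    simp only [b']
    split_ifs
    · exact hB.bdd n
    · simp
  have hb' : Supp b' (Ico (0 : ℤ) L) := fun n hn => if_neg hn
  let M : ℤ → ℤ → ℂ := fun h n => F (dil2 A hd h n x)
  have hU : ∀ h ∈ H, Real.exp (-m ^ C1) * (L : ℝ) ^ (t + 2) ≤
      U (t + 1) (fun n => b' n * f (n + h) * M h n) := by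
    intro h hh
    obtain ⟨ψ, h1, h2⟩ := hB.cor h hh
    refine hDer m hm L _ ψ h1 (fun n hn => by simp [hb' n hn]) (fun n => ?_) ?_
    · rw [norm_mul, norm_mul]
      exact mul_le_one₀ (mul_le_one₀ (hb'1 n) (norm_nonneg _) (hf1 _)) (norm_nonneg _)
        (hB.chr.bdd _)
    · unfold Cor at h2 ⊢
      convert h2 using 2
      refine sum_congr rfl fun n hn => ?_
      simp only [b', M, if_pos hn]
      ring
  obtain ⟨z, -, k₀, -, hz⟩ := Box.symm_Ico t L H hf1 hb'1 hf hb' M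
    (δ := Real.exp (-m) * Real.exp (-m ^ C1)) (by positivity) hL1 (by
      calc Real.exp (-m) * Real.exp (-m ^ C1) * (L : ℝ) ^ (t + 3)
          = Real.exp (-m) * L * (Real.exp (-m ^ C1) * (L : ℝ) ^ (t + 2)) := by ring
        _ ≤ #H * (Real.exp (-m ^ C1) * (L : ℝ) ^ (t + 2)) :=
          mul_le_mul_of_nonneg_right hB.dense (by positivity)
        _ = ∑ _h ∈ H, Real.exp (-m ^ C1) * (L : ℝ) ^ (t + 2) := by simp
        _ ≤ _ := sum_le_sum hU)
  -- equidistribution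
  have hgr : Graded (pw A (SF t)) := hB.bigr.gr.pw _
  have hcard : (Fintype.card (SF t × ι) : ℝ) ≤ m1 := by
    rw [Fintype.card_prod, card_SF]; push_cast; exact a2
  have he1 : Real.exp m ≤ Real.exp m1 := Real.exp_le_exp.2 a1
  have he2 : Real.exp m1 ≤ Real.exp m2 := Real.exp_le_exp.2 h12
  have hgood : (pw A (SF t)).Good (t + 2) (Real.exp m1) :=
    good_pw (hB.good.mono he1) (Real.exp_pos _).le _
  have hchr := (nChar_pw_cz (g := A) (J := SF t) (F := fun _ => F) (Real.exp_pos m).le sgnF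
    fun _ => hB.chr).mono (M' := Real.exp m1) (by rw [card_SF]; push_cast; exact a3)
  obtain ⟨𝔥, g1, g2, g3⟩ := hLt m1 h21 (SF t × ι) (SV t) (pw A (SF t)) (pw A (SF t)) _ _
    (PP A hd z k₀ x) L (fun _ => 0) (fun _ => (L : ℤ) - 1) hgr.grOf (card_SV t).le hcard hgood hchr
    (PP_mem A hd z k₀ x) ((Real.exp_le_exp.2 f2).trans hL)
    (fun _ => ⟨by simp, by
      have : (1 : ℝ) ≤ L := by exact_mod_cast hL1
      push_cast
      rw [abs_of_nonneg (by linarith)]; linarith⟩)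
    (by
      rw [card_SV, ibox_eq]
      refine le_trans (mul_le_mul_of_nonneg_right a4 (by positivity)) (hz.trans ?_)
      refine (Complex.re_le_norm _).trans (le_of_eq ?_)
      congr 1
      refine sum_congr rfl fun v _ => ?_
      simp only [symF, evZ_PP, M])
  -- pull back
  let vz : (SV t → Bool) → SV t → ℤ := fun v i => if v i then 1 else 0
  have hvz : ∀ v i, |vz v i| ≤ 1 := fun v i => by
    simp only [vz]; split_ifs <;> simp
  let φ : (SV t → Bool) → A.L →ₗ⁅ℝ⁆ (pw A (SF t)).L := fun v => iotH hB.bigr t (vz v)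
  have hφ : ∀ v, GMap A (pw A (SF t)) m2 (φ v).toLinearMap := fun v =>
    gMap_iotH hB.bigr hB.good.wt_le (hvz v) (a6.trans he2)
  have hdA : (Fintype.card ι : ℝ) ≤ m2 := hB.dim.trans (a1.trans h12)
  have hGA : Gd A (t + 2) m2 :=
    ⟨⟨hB.good.wt_le, hdA, fun i j k => (hB.good.c_le i j k).trans (he1.trans he2)⟩, hB.bigr.gr⟩
  have hGP : Gd (pw A (SF t)) (t + 2) m2 :=
    ⟨⟨hgood.wt_le, hcard.trans h12, fun i j k => (hgood.c_le i j k).trans he2⟩, hgr⟩
  have hN := hPull m2 h22 ι (SF t × ι) (SV t → Bool) A (pw A (SF t)) φ (fun _ => 𝔥) L x hGA hGP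
    (by
      rw [Fintype.card_fun, card_SV, Fintype.card_bool]; push_cast
      exact a5.trans h12)
    ((Real.exp_le_exp.2 f3).trans hL) hφ (fun _ => g1) (fun v => by
      have := g3 (vz v) (hvz v)
      rwa [symAt_PP] at this)
  let 𝔟 : LieSubalgebra ℝ A.L :=
    { toSubmodule := ⨅ v, 𝔥.toSubmodule.comap (φ v).toLinearMap
      lie_mem' := fun {y y'} hy hy' => (Submodule.mem_iInf _).2 fun v => by
        have h1 : φ v y ∈ 𝔥 := (Submodule.mem_iInf _).1 hy v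
        have h2 : φ v y' ∈ 𝔥 := (Submodule.mem_iInf _).1 hy' v
        have h3 := 𝔥.lie_mem h1 h2
        rw [← LieHom.map_lie] at h3
        exact h3 }
  have h𝔟 : 𝔟.toSubmodule = ⨅ v, 𝔥.toSubmodule.comap (φ v).toLinearMap := rfl
  have h24 : 2 ≤ m2 ^ C4 := h22.trans (hle h22 hC4)
  have hG : GR A ((m2 ^ C4) ^ C4) 𝔟.toSubmodule := by
    rw [h𝔟]
    refine ((hPush (m2 ^ C4) h24 ι ι A A (hdA.trans (hle h22 hC4))
      (hdA.trans (hle h22 hC4))).2.2.1 (SV t → Bool) _ fun v => ?_).1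
    exact ((hPush m2 h22 ι (SF t × ι) A (pw A (SF t)) hdA (hcard.trans h12)).1 _ (hφ v)).2.1 _ g1
  refine ⟨ι, inferInstance, A, hd, η, x, F, b, H, famB_mono hB f1, 𝔟, gr_mono hG f4,
    hSym t ι A hd η 𝔟 hB.bigr hB.chr.supp hB.top hG.gr ⟨𝔥, g2, fun v hv y hy => ?_⟩, ?_⟩
  · have h1 : v = vz fun i => decide (v i = 1) := by
      funext i
      rcases hv i with h | h <;> simp [vz, h]
    have h2 := (Submodule.mem_iInf _).1 (h𝔟 ▸ hy : y ∈ ⨅ v, 𝔥.toSubmodule.comap (φ v).toLinearMap)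
      fun i => decide (v i = 1)
    rw [h1]
    exact h2
  · rw [h𝔟]
    exact near_mono hN f3

end Crest.Agent.T49.GI
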