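import Crest.Agent.T49.GiAll_9

/-! # The quasi-polynomial inverse theorem: `Crest.Agent.T49.GI.gi1` lives in `GiAll_9`. -/

namespace Crest.Agent.T49.GI

theorem petal : PetalStmt := petalStmt pushStmt

theorem struct : StructStmt := structStmt9

end Crest.Agent.T49.GI
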