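import Crest.Agent.T49.RiCell_12
import Crest.Agent.T49.HkDef_67
import Crest.Agent.T49.Gf_84
import Crest.Agent.T49.BrDef_62

/-!
# Row 49 (helper12): the inverse theorem relative to a regular cell; measure side

Dictionary with `GiDef_40`: `[0,L)` becomes the cell `T` (weight `T.wgt`), `h` runs over level-one
vectors, the derivative lives on the pair cell `pc T h` with the points `y0`, `y1`.
-/

set_option autoImplicit false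

noncomputable section

namespace Crest.Agent.T49.Ri

open Finset MvPolynomial
open Crest.Agent.T49.Tw Crest.Agent.T49.Nil Crest.Agent.T49.Nil.ND
open Crest.Agent.T49.Bch (star)
open Crest.Agent.T49.Gf (wcf)
open Crest.Agent.T49.GI (CoId On Gd GR GMap Freq GrOf gr pw pwη sg4 Bigr)
open Crest.Agent.T49.Br (Cs Mk Mor Hm NearR V at' up ren qt q3 StrdR HmL lamR linM)
open scoped ComplexConjugate

variable {ι : Type} [Fintype ι]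

/-! ### regular cells -/

/-- a regular mixed cell: weights and classes `≤ l`, exponent `D`, precision `q` -/
def Gm (T : Cell ι) (l D : ℕ) (q : ℝ) : Prop :=
  (∀ c, T.lev c ≤ l) ∧ ∃ (cl : ι → ℕ) (τ : ℕ → ℝ), T.IsMC cl ∧ (∀ c, cl c ≤ l) ∧ q ≤ τ (l + 1) ∧
    T.RegM cl D l τ

/-- the standing hypotheses -/
structure Ok (T : Cell ι) (l D : ℕ) (m q : ℝ) : Prop where
  two : 2 ≤ m
  card : (Fintype.card ι : ℝ) ≤ m
  gm : Gm T l D q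

theorem Gm.mono {T : Cell ι} {l D D' : ℕ} {q q' : ℝ} (h : Gm T l D q) (hD : D' ≤ D) (hq : q' ≤ q)
    (h0 : 0 ≤ q) : Gm T l D' q' := by
  obtain ⟨h1, cl, τ, h2, h3, h4, h5⟩ := h
  have hk : ∀ j, 1 ≤ T.kapM cl j := fun j => le_add_of_nonneg_right (sum_nonneg fun c _ =>
    add_nonneg zero_le_one (Real.log_nonneg (le_add_of_nonneg_right (abs_nonneg _))))
  have hτ : ∀ i j, j + i = l + 1 → 1 ≤ j → 0 ≤ τ j := by
    intro i
    induction i with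
    | zero => intro j hj _; rw [show j = l + 1 by omega]; linarith
    | succ i ih =>
      intro j hj hj1
      have := ih (j + 1) (by omega) (by omega)
      exact le_trans (pow_nonneg (by linarith [hk j]) D) (h5 j hj1 (by omega)).1
  refine ⟨h1, cl, τ, h2, h3, hq.trans h4, fun j hj hjl => ⟨le_trans ?_ (h5 j hj hjl).1,
    (h5 j hj hjl).2⟩⟩
  have := hτ (l - j) (j + 1) (by omega) (by omega)
  exact pow_le_pow_right₀ (by linarith [hk j]) hD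

theorem Ok.mono {T : Cell ι} {l D D' : ℕ} {m m' q q' : ℝ} (h : Ok T l D m q) (hD : D' ≤ D)
    (hm : m ≤ m') (hq : q' ≤ q) (h0 : 0 ≤ q) : Ok T l D' m' q' :=
  ⟨h.two.trans hm, h.card.trans hm, h.gm.mono hD hq h0⟩

/-! ### level-one vectors, the pair cell -/

/-- the level-one vector `h` is in the ball of radius `m` -/
def InB (T : Cell ι) (m : ℝ) (h : T.L1 → ℤ) : Prop := ∀ c, |T.ell h c| ≤ m

/-- a dense set of level-one vectors -/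
def Dense (T : Cell ι) (m : ℝ) (H : Finset (T.L1 → ℤ)) : Prop :=
  (∀ h ∈ H, InB T m h) ∧ Real.exp (-m) * T.mu1 ≤ #H

/-- the coordinates of the pair cell -/
abbrev PI (T : Cell ι) : Type := T.MI (Fin 1)

/-- the pair cell -/
abbrev pc (T : Cell ι) (h : T.L1 → ℤ) : Cell (PI T) := T.mp fun _ : Fin 1 => h

/-- the first point of a pair -/
def y0 (T : Cell ι) (p : PI T → ℤ) : ι → ℤ := fun c => p (Sum.inl c)

/-- the difference of the two points of a pair -/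
def dy (T : Cell ι) (h : T.L1 → ℤ) (p : PI T → ℤ) : ι → ℤ := T.wZ (fun _ : Fin 1 => h) 0 p

/-- the second point of a pair -/
def y1 (T : Cell ι) (h : T.L1 → ℤ) (p : PI T → ℤ) : ι → ℤ := y0 T p + dy T h p

/-! ### correlation, nilsequences, cheap phases, norms -/

/-- correlation on the cell `T` -/
def Cor (T : Cell ι) (m : ℝ) (a ψ : (ι → ℤ) → ℂ) : Prop :=
  Real.exp (-m) * T.mu ≤ ‖∑' z, (T.wgt z : ℂ) * (a z * ψ z)‖

/-- the function `z ↦ F (P z)` -/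
def sqW {κ σ : Type} [Fintype κ] (N : ND κ) (F : N.L → ℂ) (P : N.PS σ) (z : σ → ℤ) : ℂ :=
  F (N.evZ z P)

/-- weighted nilsequences of degree `≤ s` and complexity `≤ m` -/
def IsNilW {σ : Type} (lev : σ → ℕ) (s : ℕ) (m : ℝ) (ψ : (σ → ℤ) → ℂ) : Prop :=
  ∃ (κ : Type) (_ : Fintype κ) (N : ND κ) (F : N.L → ℂ) (P : N.PS σ),
    (Fintype.card κ : ℝ) ≤ m ∧ N.Good s (Real.exp m) ∧ N.LipFn s (Real.exp m) F ∧
      P ∈ wcf lev N.F ∧ ψ = sqW N F P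

/-- cheap phases `e (ξ · θ (z) + n · z / b)` -/
def Chp (T : Cell ι) (m : ℝ) (φ : (ι → ℤ) → ℂ) : Prop :=
  ∃ (ξ : ι → ℝ) (n : ι → ℤ) (b : ℕ), ∑ c, |ξ c| ≤ Real.exp m ∧ 1 ≤ b ∧ (b : ℝ) ≤ Real.exp m ∧
    ∀ z, φ z = ee (∑ c, ξ c * ev z (T.th c) + (∑ c, (n c : ℝ) * z c) / b)

/-- the ideal mass of the Host-Kra cubes of dimension `s` -/
def muK (T : Cell ι) (s : ℕ) : ℝ :=
  ∏ c, ∏ β : Fin s → Bool,
    if Hk.wt β ≤ T.lev c then (√2 ^ s / 2 ^ Hk.wt β * |T.a c|)⁻¹ else 1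

/-- large `U^{s+1}` norm relative to `T` -/
def BigU (s : ℕ) (m : ℝ) (T : Cell ι) (f : (ι → ℤ) → ℂ) : Prop :=
  Real.exp (-m) * muK T (s + 1) ≤ Hk.UK (Hk.lvl T.lev) (s + 1) fun z => T.wgt z * f z

/-- correlation with a weighted nilsequence of degree `s` times a cheap phase -/
def CorNil (s : ℕ) (m : ℝ) (T : Cell ι) (f : (ι → ℤ) → ℂ) : Prop :=
  ∃ ψ φ, IsNilW T.lev s m ψ ∧ Chp T m φ ∧ Cor T m (fun z => f z * φ z) ψ

/-- properties of functions on cells -/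
abbrev Pr : Type 1 := ℝ → ∀ (ι : Type) [Fintype ι], Cell ι → ((ι → ℤ) → ℂ) → Prop

/-- a polynomial implication between properties of `1`-bounded functions on regular cells -/
def Imp (l : ℕ) (X Y : Pr) : Prop :=
  ∃ D C : ℕ, 1 ≤ C ∧ ∀ (ι : Type) [Fintype ι] (T : Cell ι) (m : ℝ) (f : (ι → ℤ) → ℂ),
    Ok T l D m (m ^ C) → (∀ z, ‖f z‖ ≤ 1) → X m ι T f → Y (m ^ C) ι T f

/-- **the inverse theorem for `U^{s+1}` relative to a regular cell** -/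
def RI (l s : ℕ) : Prop := Imp l (fun m _ _ T f => BigU s m T f) fun m _ _ T f => CorNil s m T f

theorem Imp.trans {l : ℕ} {X Y Z : Pr} (h₁ : Imp l X Y) (h₂ : Imp l Y Z) : Imp l X Z := by
  obtain ⟨D₁, C₁, hC₁, h₁⟩ := h₁
  obtain ⟨D₂, C₂, hC₂, h₂⟩ := h₂
  refine ⟨D₁ + D₂, C₁ * C₂, Nat.mul_pos hC₁ hC₂, fun ι _ T m f h hb hX => ?_⟩
  have hm := h.two
  have hm1 : m ≤ m ^ C₁ := le_self_pow₀ (by linarith) (by omega)
  rw [pow_mul] at h ⊢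
  have h0 : 0 ≤ (m ^ C₁) ^ C₂ := by positivity
  exact h₂ ι T _ f (h.mono (by omega) hm1 le_rfl h0) hb
    (h₁ ι T m f (h.mono (by omega) le_rfl (le_self_pow₀ (by linarith) (by omega)) h0) hb hX)

/-- after one multiplier `b (y0)` and one cheap phase `φ (y1)`, many `a h` correlate with
degree `t` on their pair cells -/
def Red (t : ℕ) (m : ℝ) (T : Cell ι) (H : Finset (T.L1 → ℤ))
    (a : (T.L1 → ℤ) → (PI T → ℤ) → ℂ) : Prop :=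
  ∃ (b φ : (ι → ℤ) → ℂ) (H' : Finset (T.L1 → ℤ)), (∀ z, ‖b z‖ ≤ 1) ∧ Chp T m φ ∧ H' ⊆ H ∧
    Real.exp (-m) * #H ≤ #H' ∧ ∀ h ∈ H', ∃ ψ, IsNilW (T.mlev (Fin 1)) t m ψ ∧
      Cor (pc T h) m (fun p => a h p * φ (y1 T h p) * b (y0 T p)) ψ

/-! ### symbols -/

/-- the marked system of a cell -/
def mkT (T : Cell ι) : Mk ι T.U2 T.L1 where
  c0 := Cs.ofCell T
  lv c := T.lev c.1 - 1
  pos c := by have := T.lev_pos c.1; have := c.2; omega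
  Dh r c := pderiv r.1 (T.tth c.1)
  Du c' c := pderiv c'.1 (T.tth c.1)
  homh r c := (T.tth_hom c.1).pderiv (by have := T.lev_pos c.1; have := r.2; omega)
  homu c' c α h := by
    rw [coeff_pderiv] at h
    have h1 := T.tth_hom c.1 (left_ne_zero_of_mul h)
    rw [map_add, Finsupp.weight_single, one_smul] at h1
    have := T.lev_pos c'.1
    show Finsupp.weight T.lev α + (T.lev c'.1 - 1) = T.lev c.1 - 1
    omega

/-- the symbol (top weighted homogeneous part) of a weighted polynomial map -/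
def symW {κ σ : Type} [Fintype κ] (lev : σ → ℕ) (N g : ND κ) (P : N.PS σ) : g.PS σ :=
  fun k => weightedHomogeneousComponent lev (N.wt k) (P k)

/-- the symbol of a polynomial map on the pair cell, as a one-point object of `mkT T` -/
def symP {κ : Type} [Fintype κ] (T : Cell ι) (N : ND κ) (P : N.PS (PI T)) :
    (gr N).PS (V ι T.U2 Unit) :=
  (gr N).subst (ren ι T.U2 fun _ : Fin 1 => ()) (symW (T.mlev (Fin 1)) N (gr N) P)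

/-- bihomogeneous maps of a point `z` and a difference `w` -/
def BiH {κ σ : Type} [Fintype κ] (A : ND κ) (hd : κ → Bool) (lev : σ → ℕ) (x : A.PS (σ ⊕ σ)) :
    Prop :=
  ∀ k, IsWeightedHomogeneous (Sum.elim lev lev) (x k) (A.wt k) ∧
    IsWeightedHomogeneous (Sum.elim (fun _ => 0) fun _ => 1) (x k) (hd k).toNat

/-- the substitution `(z, w) ↦ (z, (h, u))` -/
def fixh (T : Cell ι) (h : T.L1 → ℤ) : ι ⊕ ι → Pl (PI T) :=
  Sum.elim (fun c => X (Sum.inl c)) (T.wv (fun _ : Fin 1 => h) 0)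

/-! ### tools -/

/-- (MP) exact identities for the multi-point cell -/
structure MpAt (T : Cell ι) (k : ℕ) : Prop where
  ev_ptP : ∀ (h : Fin k → T.L1 → ℤ) i p c, ev p (T.ptP h i c) = T.pt h i p c
  th_inl : ∀ (h : Fin k → T.L1 → ℤ) c, (T.mp h).th (Sum.inl c) =
    ∑ i, C (helm k 0 i) * bind₁ (T.ptP h i) (T.th c)
  th_inr : ∀ (h : Fin k → T.L1 → ℤ) j c, (T.mp h).th (Sum.inr (j, c)) =
    ∑ i, C (helm k j.succ i) * bind₁ (T.ptP h i) (T.th c.1)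
  orth : ∀ r r', ∑ i, helm k r i * helm k r' i = if r = r' then 1 else 0
  orth' : ∀ i i', ∑ r, helm k r i * helm k r i' = if i = i' then 1 else 0
  wgt : ∀ (h : Fin k → T.L1 → ℤ) p, ∏ i, T.wgt (T.pt h i p) = T.gamK h * (T.mp h).wgt p
  mu : ∀ h : Fin k → T.L1 → ℤ,
    (T.mp h).mu * (T.mu1 ^ k * √(k + 1) ^ Fintype.card T.L1) = T.mu ^ (k + 1)
  tth_inl : ∀ (h : Fin k → T.L1 → ℤ) c,
    (T.mp h).tth (Sum.inl c) = C √(k + 1) * T.tn h (Sum.inl c)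
  tth_inr : ∀ (h : Fin k → T.L1 → ℤ) j c, (T.mp h).tth (Sum.inr (j, c)) =
    ∑ i : Fin k, C (helm k j.succ i.succ) * T.tn h (Sum.inr (i, c))
  tn_inr : ∀ (h : Fin k → T.L1 → ℤ) i c, T.tn h (Sum.inr (i, c)) =
    ∑ j : Fin k, C (helm k j.succ i.succ - helm k j.succ 0) * (T.mp h).tth (Sum.inr (j, c))
  tn_eq : ∀ h : Fin k → T.L1 → ℤ, T.tn h = ((mkT T).cs h).th
  mor : ∀ h : Fin k → T.L1 → ℤ, Mor (Cs.ofCell (T.mp h)) ((mkT T).cs h) (2 * (k + 1)) X ∧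
    Mor ((mkT T).cs h) (Cs.ofCell (T.mp h)) (2 * (k + 1)) X
  bij : Function.Bijective fun x : (Fin k → T.L1 → ℤ) × (T.MI (Fin k) → ℤ) =>
    fun i => T.pt x.1 i x.2
  mc : ∀ (h : Fin k → T.L1 → ℤ) cl, T.IsMC cl → (T.mp h).IsMC (cl ∘ T.mpr (Fin k))
  gam_ge : ∀ (h : Fin k → T.L1 → ℤ) (m : ℝ), (∀ j, InB T m (h j)) →
    Real.exp (-(Real.pi * Fintype.card ι * k * m ^ 2)) ≤ T.gamK h
  tsum : ∀ G : (Fin (k + 1) → ι → ℤ) → ℂ, (∀ y, ‖G y‖ ≤ 1) →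
    ∑' y : Fin (k + 1) → ι → ℤ, (∏ i, (T.wgt (y i) : ℂ)) * G y =
      ∑' h : Fin k → T.L1 → ℤ, (T.gamK h : ℂ) *
        ∑' p, ((T.mp h).wgt p : ℂ) * G fun i => T.pt h i p
  summ : Summable fun h : Fin k → T.L1 → ℤ => T.gamK h * (T.mp h).M

def MpStmt : Prop := ∀ (ι : Type) [Fintype ι] (T : Cell ι) (k : ℕ), MpAt T k

/-- (MASS) masses of `T` and of its rescalings; Gaussian tails -/
def MsStmt : Prop := ∀ l : ℕ, ∃ D C : ℕ, 1 ≤ C ∧ ∀ (ι : Type) [Fintype ι] (T : Cell ι) (m : ℝ),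
  Ok T l D m (m ^ C) → |T.M / T.mu - 1| ≤ Real.exp (-m) ∧ T.AllPC m (Real.exp (-m)) ∧
    ∀ R : ℝ, 0 ≤ R → (∑' z, if ∀ c, |ev z (T.th c)| ≤ R then 0 else T.wgt z) ≤
      2 * √2 ^ Fintype.card ι * Real.exp (-(Real.pi * R ^ 2 / 2)) * T.mu

/-- (GMPC) projective covers of a regular cell are regular -/
def GmPcStmt : Prop := ∀ l D' : ℕ, ∃ D C : ℕ, 1 ≤ C ∧ ∀ (ι : Type) [Fintype ι] (T : Cell ι)
  (m : ℝ), Ok T l D m (m ^ C) → ∀ (ι' : Type) [Fintype ι'] (T' : Cell ι') (π : ι' → ι),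
    T.PC m T' π → Gm T' l D' m

/-- (ND) no short integer form on a regular cell -/
def NdStmt : Prop := ∀ l S : ℕ, ∃ D C : ℕ, 1 ≤ C ∧ ∀ (ι : Type) [Fintype ι] (T : Cell ι) (m : ℝ),
  Ok T l D m (m ^ C) → (Cs.ofCell T).ND S (Real.exp m)

/-- (HER) the multi-point cells are regular for most differences -/
def HerStmt : Prop := ∀ l k D' : ℕ, ∃ D C : ℕ, 1 ≤ C ∧ ∀ (ι : Type) [Fintype ι] (T : Cell ι)
  (m : ℝ), Ok T l D m (m ^ C) → ∀ Q : Finset (Fin k → T.L1 → ℤ),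
    (∀ h ∈ Q, (∀ j, InB T m (h j)) ∧ ¬ Gm (T.mp h) l D' m) → #Q ≤ Real.exp (-m) * T.mu1 ^ k

/-- (GENND) the tangent systems have no short integer form for most differences -/
def GenNDStmt : Prop := ∀ l k S : ℕ, ∃ D C : ℕ, 1 ≤ C ∧ ∀ (ι : Type) [Fintype ι] (T : Cell ι)
  (m : ℝ), Ok T l D m (m ^ C) → ∀ Q : Finset (Fin k → T.L1 → ℤ),
    (∀ h ∈ Q, (∀ j, InB T m (h j)) ∧ ¬ ((mkT T).cs h).ND S (Real.exp m)) →
    #Q ≤ Real.exp (-m) * T.mu1 ^ k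

/-- (BALL) the ball lies in a box of comparable size -/
def BallStmt : Prop := ∀ l : ℕ, ∃ D C : ℕ, 1 ≤ C ∧ ∀ (ι : Type) [Fintype ι] (T : Cell ι) (m : ℝ),
  Ok T l D m (m ^ C) → ∃ (R : (T.L1 → ℤ) ≃+ (T.L1 → ℤ)) (L : T.L1 → ℕ),
    ∏ i, (L i : ℝ) ≤ Real.exp (m ^ C) * T.mu1 ∧ (∀ h, InB T m h → ∀ i, 2 * |R h i| < L i) ∧
    ∀ H : Finset (T.L1 → ℤ), (∀ h ∈ H, InB T m h) → #H ≤ Real.exp (m ^ C) * T.mu1

/-- (ZM) the mass of the cubes -/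
def ZmStmt : Prop := ∀ l s : ℕ, ∃ D C : ℕ, 1 ≤ C ∧ ∀ (ι : Type) [Fintype ι] (T : Cell ι) (m : ℝ),
  Ok T l D m (m ^ C) → |Hk.Zm (Hk.lvl T.lev) s T.wgt / muK T s - 1| ≤ Real.exp (-m)

/-- (AVG) averaging over the differences -/
def AvgStmt : Prop := ∀ l k : ℕ, ∃ D C : ℕ, 1 ≤ C ∧ ∀ (ι : Type) [Fintype ι] (T : Cell ι) (m : ℝ),
  Ok T l D m (m ^ C) → ∀ v : (Fin k → T.L1 → ℤ) → ℝ, (∀ h, 0 ≤ v h ∧ v h ≤ (T.mp h).M) →
    Real.exp (-m) * T.mu ^ (k + 1) ≤ ∑' h, T.gamK h * v h →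
    ∃ Q : Finset (Fin k → T.L1 → ℤ), Real.exp (-m ^ C) * T.mu1 ^ k ≤ #Q ∧
      ∀ h ∈ Q, (∀ j, InB T (m ^ C) (h j)) ∧ Real.exp (-m ^ C) * (T.mp h).mu ≤ v h

/-- (DOWN) a large norm gives many derivatives of large norm -/
def DownStmt : Prop := ∀ l s : ℕ, Imp l (fun m _ _ T f => BigU (s + 1) m T f)
  fun m _ _ T f => ∃ H, Dense T m H ∧
    ∀ h ∈ H, BigU s m (pc T h) fun p => f (y1 T h p) * conj (f (y0 T p))

/-- (UP) the converse, with an arbitrary function at the first point -/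
def UpStmt : Prop := ∀ l s : ℕ, Imp l (fun m ι _ T f => ∃ (b : (ι → ℤ) → ℂ) (H : Finset _),
    (∀ z, ‖b z‖ ≤ 1) ∧ Dense T m H ∧
      ∀ h ∈ H, BigU s m (pc T h) fun p => f (y1 T h p) * b (y0 T p))
  fun m _ _ T f => BigU (s + 1) m T f

/-- (SPLIT) cheap phases of the pair cells split -/
def SplitStmt : Prop := ∀ l t : ℕ, ∃ D C : ℕ, 1 ≤ C ∧ ∀ (ι : Type) [Fintype ι] (T : Cell ι)
  (m : ℝ), Ok T l D m (m ^ C) → ∀ (H : Finset (T.L1 → ℤ)) (a : (T.L1 → ℤ) → (PI T → ℤ) → ℂ),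
    Dense T m H → (∀ h ∈ H, (∀ p, ‖a h p‖ ≤ 1) ∧ CorNil t m (pc T h) (a h)) →
    Red t (m ^ C) T H a

/-- (DER) converse of the inverse theorem (no cheap phase) -/
def DerStmt : Prop := ∀ l d : ℕ, Imp l
  (fun m _ _ T f => ∃ ψ, IsNilW T.lev d m ψ ∧ Cor T m f ψ) fun m _ _ T f => BigU d m T f

/-- (BASE) -/
def BaseStmt : Prop := ∀ l : ℕ, RI l 1

/-- (FIBC) removal of the part that depends only on the first point, coordinate form -/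
def FibCStmt : Prop := ∀ l S t : ℕ, ∃ D C : ℕ, 1 ≤ C ∧ ∀ (ι : Type) [Fintype ι] (T : Cell ι)
  (m : ℝ), Ok T l D m (m ^ C) → ∀ (κ' : Type) [Fintype κ'] (N : ND κ') (κ : κ' → Prop)
    (H : Finset (T.L1 → ℤ)) (F : (T.L1 → ℤ) → N.L → ℂ) (P : (T.L1 → ℤ) → N.PS (PI T))
    (P₀ : N.PS ι) (a : (T.L1 → ℤ) → (PI T → ℤ) → ℂ), (Fintype.card κ' : ℝ) ≤ m →
    N.Good S (Real.exp m) → CoId N κ → Dense T m H →
    (∀ h ∈ H, N.LipFn S (Real.exp m) (F h) ∧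
      (∀ Z ∈ N.F (t + 1), On N κ Z → ∀ x, F h (star S Z x) = F h x) ∧
      P h ∈ wcf (T.mlev (Fin 1)) N.F ∧ (∀ k, ¬ κ k → P h k = rename Sum.inl (P₀ k)) ∧
      (∀ p, ‖a h p‖ ≤ 1) ∧ Cor (pc T h) m (a h) (sqW N (F h) (P h))) →
    Red t (m ^ C) T H a

/-- (LT) equidistribution relative to a regular cell -/
def LtStmt : Prop := ∀ l S s : ℕ, 1 ≤ s → ∃ D C : ℕ, 1 ≤ C ∧ ∀ (ι : Type) [Fintype ι]
  (T : Cell ι) (m : ℝ), Ok T l D m (m ^ C) → ∀ (κ : Type) [Fintype κ] (N g : ND κ) (η : κ → ℤ)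
    (F : N.L → ℂ) (P : N.PS ι) (φ : (ι → ℤ) → ℂ), GrOf N g → (Fintype.card κ : ℝ) ≤ m →
    N.Good S (Real.exp m) → N.NChar S s (Real.exp m) η F → P ∈ wcf T.lev N.F → Chp T m φ →
    Cor T m φ (sqW N F P) →
    ∃ 𝔥 : LieSubalgebra ℝ g.L, GR g (m ^ C) 𝔥.toSubmodule ∧ (∀ x ∈ 𝔥, g.fn η x = 0) ∧
      NearR (Cs.ofCell T) g S (m ^ C) 𝔥.toSubmodule (symW T.lev N g P)

/-- (CONV) converse of `LT` on one cell -/
def ConvStmt : Prop := ∀ l S t : ℕ, ∃ D C : ℕ, 1 ≤ C ∧ ∀ (ι : Type) [Fintype ι]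
  (T : Cell ι) (m : ℝ), Ok T l D m (m ^ C) → ∀ (κ : Type) [Fintype κ] (N g : ND κ) (η : κ → ℤ)
    (𝔥 : LieSubalgebra ℝ g.L) (F : N.L → ℂ) (P : N.PS ι) (a : (ι → ℤ) → ℂ), GrOf N g →
    (Fintype.card κ : ℝ) ≤ m → N.Good S (Real.exp m) → GR g m 𝔥.toSubmodule →
    (∀ x ∈ 𝔥, g.fn η x = 0) → N.NChar S (t + 1) (Real.exp m) η F → P ∈ wcf T.lev N.F →
    NearR (Cs.ofCell T) g S m 𝔥.toSubmodule (symW T.lev N g P) → (∀ z, ‖a z‖ ≤ 1) →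
    Cor T m a (sqW N F P) → CorNil t (m ^ C) T a

/-- (CONVF) converse of `LT` for a family on the pair cells -/
def ConvFStmt : Prop := ∀ l S t : ℕ, ∃ D C : ℕ, 1 ≤ C ∧ ∀ (ι : Type) [Fintype ι]
  (T : Cell ι) (m : ℝ), Ok T l D m (m ^ C) → ∀ (κ : Type) [Fintype κ] (N g : ND κ) (η : κ → ℤ)
    (𝔥 : LieSubalgebra ℝ g.L) (H : Finset (T.L1 → ℤ)) (F : (T.L1 → ℤ) → N.L → ℂ)
    (P : (T.L1 → ℤ) → N.PS (PI T)) (a : (T.L1 → ℤ) → (PI T → ℤ) → ℂ), GrOf N g →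
    (Fintype.card κ : ℝ) ≤ m → N.Good S (Real.exp m) → GR g m 𝔥.toSubmodule →
    (∀ x ∈ 𝔥, g.fn η x = 0) → Dense T m H →
    (∀ h ∈ H, N.NChar S (t + 1) (Real.exp m) η (F h) ∧ P h ∈ wcf (T.mlev (Fin 1)) N.F ∧
      NearR ((mkT T).cs fun _ : Fin 1 => h) g S m 𝔥.toSubmodule
        (symW (T.mlev (Fin 1)) N g (P h)) ∧
      (∀ p, ‖a h p‖ ≤ 1) ∧ Cor (pc T h) m (a h) (sqW N (F h) (P h))) →
    Red t (m ^ C) T H a

/-- (MODEL) the bigraded model of a family that is bracket-linear in `h` and linear in `u` -/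
def ModelStmt : Prop :=
  ∀ t : ℕ, ∃ c : ℕ, 0 < c ∧ ∃ C : ℕ, 1 ≤ C ∧ ∀ (m : ℝ), 2 ≤ m → ∀ (ι : Type) [Fintype ι]
    (T : Cell ι) (κq : Type) [Fintype κq] (q : ND κq) (ν : κq → Prop) (η : κq → ℤ) (r : ℕ)
    (β : Fin r → T.L1 → ℝ) (y : q.PS ι) (a : T.L1 → q.PS ι) (b : Fin r → q.PS ι)
    (ℓ : T.U2 → q.PS ι), Gd q (t + 1) m → (∀ i j k, (c : ℤ) ∣ q.c i j k) → CoId q ν →
    (∀ i j k, ν i → ν j → q.c i j k = 0) → Freq q (t + 1) m η → (r : ℝ) ≤ m →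
    y ∈ Hm T.lev q → (∀ i, a i ∈ Hm T.lev q ∧ ∀ k, ¬ ν k → a i k = 0) →
    (∀ j, b j ∈ Hm T.lev q ∧ ∀ k, ¬ ν k → b j k = 0) → HmL (mkT T) q ℓ →
    (∀ i k, ¬ ν k → ℓ i k = 0) →
    ∃ (ιA : Type) (_ : Fintype ιA) (A : ND ιA) (hd : ιA → Bool) (ηA : ιA → ℤ) (x : A.PS (ι ⊕ ι))
      (ιB : Type) (_ : Fintype ιB) (B : ND ιB) (κ : ιB → Prop) (inc : B.L →ₗ⁅ℝ⁆ A.L)
      (θ : B.L →ₗ⁅ℝ⁆ q.L) (z : (T.L1 → ℤ) → B.PS (PI T)) (z₀ : B.PS ι),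
      (Fintype.card ιA : ℝ) ≤ m ^ C ∧ A.Good (t + 2) (Real.exp (m ^ C)) ∧ Bigr A hd ∧
      Freq A (t + 2) (m ^ C) ηA ∧ (∀ k, hd k = false → ηA k = 0) ∧ BiH A hd T.lev x ∧
      Gd B (t + 1) (m ^ C) ∧ B.Good (t + 2) (Real.exp (m ^ C)) ∧ CoId B κ ∧
      B.IntMap A (Real.exp (m ^ C)) inc.toLinearMap ∧ GMap B q (m ^ C) θ.toLinearMap ∧
      (∀ Z ∈ B.F (t + 1), On B κ Z → inc Z ∈ A.F (t + 2) ∧ A.fn ηA (inc Z) = q.fn η (θ Z)) ∧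
      (∀ h, z h ∈ Hm (T.mlev (Fin 1)) B) ∧ (∀ h k, ¬ κ k → z h k = rename Sum.inl (z₀ k)) ∧
      (∀ h, bc θ _ (z h) = star (t + 2)
        (at' q (0 : Fin 1) (q.subst (up ι T.U2 Unit) (lamR β a b h) + linM q ℓ))
        (q.subst (up ι T.U2 (Fin 1)) y)) ∧
      ∀ h, ∃ u γ : A.L, ‖u‖ ≤ 1 ∧ IsInt γ ∧ A.subst (fixh T h) x =
        star (t + 2) (A.cst _ u) (star (t + 2) (bc inc _ (z h)) (A.cst _ γ))

/-! ### the states -/

section states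

variable {κ : Type} [Fintype κ]

/-- many derivatives correlate with nilcharacters of one datum and one frequency -/
structure FamA (t : ℕ) (m : ℝ) (T : Cell ι) (f : (ι → ℤ) → ℂ) (N : ND κ) (η : κ → ℤ)
    (H : Finset (T.L1 → ℤ)) (F : (T.L1 → ℤ) → N.L → ℂ) (P : (T.L1 → ℤ) → N.PS (PI T))
    (φ b : (ι → ℤ) → ℂ) : Prop where
  dim : (Fintype.card κ : ℝ) ≤ m
  good : N.Good (t + 2) (Real.exp m)
  wt_le : ∀ k, N.wt k ≤ t + 1
  freq : Freq N (t + 1) m η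
  dense : Dense T m H
  chp : Chp T m φ
  bdd : ∀ z, ‖b z‖ ≤ 1
  chr : ∀ h ∈ H, N.NChar (t + 2) (t + 1) (Real.exp m) η (F h)
  poly : ∀ h ∈ H, P h ∈ wcf (T.mlev (Fin 1)) N.F
  cor : ∀ h ∈ H, Cor (pc T h) m (fun p => f (y1 T h p) * φ (y1 T h p) * b (y0 T p))
    (sqW N (F h) (P h))

/-- the derivatives are explained by one bigraded nilcharacter up to degree `t` -/
structure FamB (t : ℕ) (m : ℝ) (T : Cell ι) (f : (ι → ℤ) → ℂ) (A : ND κ) (hd : κ → Bool)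
    (η : κ → ℤ) (x : A.PS (ι ⊕ ι)) (F : A.L → ℂ) (φ b : (ι → ℤ) → ℂ)
    (H : Finset (T.L1 → ℤ)) : Prop where
  dim : (Fintype.card κ : ℝ) ≤ m
  good : A.Good (t + 2) (Real.exp m)
  bigr : Bigr A hd
  chr : A.NChar (t + 2) (t + 2) (Real.exp m) η F
  top : ∀ k, hd k = false → η k = 0
  bih : BiH A hd T.lev x
  dense : Dense T m H
  chp : Chp T m φ
  bdd : ∀ z, ‖b z‖ ≤ 1
  cor : ∀ h ∈ H, ∃ ψ, IsNilW (T.mlev (Fin 1)) t m ψ ∧
    Cor (pc T h) m (fun p => f (y1 T h p) * φ (y1 T h p) * b (y0 T p) *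
      sqW A F x (Sum.elim (y0 T p) (dy T h p))) ψ

end states

def StA (t : ℕ) : Pr := fun m _ _ T f =>
  ∃ (κ : Type) (_ : Fintype κ) (N : ND κ), ∃ η H F P φ b, FamA t m T f N η H F P φ b

def StQ (t : ℕ) : Pr := fun m _ _ T f =>
  ∃ (κ : Type) (_ : Fintype κ) (N : ND κ), ∃ η H F P φ b, FamA t m T f N η H F P φ b ∧
    ∃ (𝔥 : LieSubalgebra ℝ (pw (gr N) (Fin 4)).L) (Q : Finset (Fin 4 → T.L1 → ℤ)),
      GR (pw (gr N) (Fin 4)) m 𝔥.toSubmodule ∧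
      (∀ z ∈ 𝔥, (pw (gr N) (Fin 4)).fn (pwη sg4 η) z = 0) ∧ Real.exp (-m) * T.mu1 ^ 3 ≤ #Q ∧
      ∀ q ∈ Q, (∀ i, q i ∈ H) ∧ q 0 + q 1 = q 2 + q 3 ∧
        NearR ((mkT T).cs (q3 q)) (pw (gr N) (Fin 4)) (t + 2) m 𝔥.toSubmodule
          (qt (gr N) (fun _ h => symP T N (P h)) q)

def StS (t : ℕ) : Pr := fun m _ _ T f =>
  ∃ (κ : Type) (_ : Fintype κ) (N : ND κ), ∃ η H F P φ b, FamA t m T f N η H F P φ b ∧
    StrdR (mkT T) (gr N) (t + 2) m η (fun h => symP T N (P h)) H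

def StB (t : ℕ) : Pr := fun m _ _ T f =>
  ∃ (κ : Type) (_ : Fintype κ) (A : ND κ), ∃ hd η x F φ b H, FamB t m T f A hd η x F φ b H

def StE (t : ℕ) : Pr := fun m ι _ T f =>
  ∃ (Θ φ b : (ι → ℤ) → ℂ) (H : Finset (T.L1 → ℤ)), IsNilW T.lev (t + 2) m Θ ∧ Chp T m φ ∧
    (∀ z, ‖b z‖ ≤ 1) ∧ Dense T m H ∧ ∀ h ∈ H, ∃ ψ, IsNilW (T.mlev (Fin 1)) t m ψ ∧
      Cor (pc T h) m (fun p => f (y1 T h p) * φ (y1 T h p) * Θ (y1 T h p) * b (y0 T p)) ψ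

/-! ### the steps -/

def Step1Stmt : Prop :=
  ∀ l t, RI l (t + 1) → Imp l (fun m _ _ T f => BigU (t + 2) m T f) (StA t)
def Step2Stmt : Prop := ∀ l t, Imp l (StA t) (StQ t)
def Step3Stmt : Prop := ∀ l t, Imp l (StQ t) (StS t)
def Step4Stmt : Prop := ∀ l t, Imp l (StS t) (StB t)
/-- symmetry and integration (steps 5, 6, 7) -/
def BlockStmt : Prop := ∀ l t, Imp l (StB t) (StE t)
def Step8Stmt : Prop :=
  ∀ l t, RI l (t + 1) → Imp l (StE t) fun m _ _ T f => CorNil (t + 2) m T f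

/-- the assembly -/
theorem ri_of (h0 : BaseStmt) (h1 : Step1Stmt) (h2 : Step2Stmt) (h3 : Step3Stmt) (h4 : Step4Stmt)
    (h5 : BlockStmt) (h8 : Step8Stmt) (l t : ℕ) : RI l (t + 1) := by
  induction t with
  | zero => exact h0 l
  | succ t ih =>
    exact (h1 l t ih).trans <| (h2 l t).trans <| (h3 l t).trans <| (h4 l t).trans <|
      (h5 l t).trans (h8 l t ih)

end Crest.Agent.T49.Ri
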