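import Crest.Agent.T49.GlDef_99
import Crest.Agent.T49.Fr_26
import Crest.Agent.T49.RiDef_12
import Crest.Agent.T49.MxCell_53
import Crest.Agent.T49.MxAsmA_91
import Crest.Agent.T49.TwDblA_80

/-!
# Row 49 (helper99): lemmas for the bridge `RI → GLUE1`
-/

set_option autoImplicit false

noncomputable section

namespace Crest.Agent.T49.Gl

open MvPolynomial Finset Crest.Agent.T49.Tw Crest.Agent.T49.Nil Crest.Agent.T49.Nil.ND
open scoped ComplexConjugate

variable {ι : Type}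

/-! ### the rescaled cell -/

theorem scl_th (T : Cell ι) (r : ℝ) (hr : r ≠ 0) (c : ι) : (scl T r hr).th c = C r * T.th c := by
  show C (r * T.a c) * X c + C r * T.B c = _
  rw [Tri.th, C_mul]; ring

theorem scl_tth (T : Cell ι) (r : ℝ) (hr : r ≠ 0) (c : ι) :
    (scl T r hr).tth c = C r * T.tth c := by
  rw [Cell.tth, scl_th, Cell.top, weightedHomogeneousComponent_C_mul]
  rfl

theorem scl_isMC {T : Cell ι} {cl : ι → ℕ} (hm : T.IsMC cl) (r : ℝ) (hr : r ≠ 0) :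
    (scl T r hr).IsMC cl := Cell.isMC_of hm.pos fun c => (hm.B c).C_mul _

variable [Fintype ι]

/-- widening the windows keeps regularity -/
theorem scl_regM {T : Cell ι} {cl : ι → ℕ} (hm : T.IsMC cl) {r : ℝ} (h0 : 0 < r) (h1 : r ≤ 1)
    {D l : ℕ} {τ : ℕ → ℝ} (hR : T.RegM cl D l τ) (hD : 1 ≤ D) (hτ : 0 ≤ τ (l + 1)) :
    (scl T r h0.ne').RegM cl D l τ := by
  classical
  intro j hj hjl
  have hk : (scl T r h0.ne').kapM cl j ≤ T.kapM cl j := by
    refine add_le_add le_rfl (sum_le_sum fun c _ => add_le_add le_rfl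
      (Real.log_le_log (by positivity) (add_le_add le_rfl ?_)))
    show |r * T.a c| ≤ _
    rw [abs_mul, abs_of_pos h0]
    exact mul_le_of_le_one_left (abs_nonneg _) h1
  have hc : T.DCov (scl T r h0.ne') id 1 := by
    refine Cell.dcov_of_diag (α := Unit) (fun _ => rfl) (fun _ _ => 1) (fun _ _ => r)
      (fun _ _ => by rw [abs_of_pos h0]; exact h1) (fun _ c => ?_) fun ξ hξ => ?_
    · simp [scl_tth]
    · funext c
      have := hξ () c
      rw [Finset.sum_eq_single c (fun c' _ hc => by simp [Ne.symm hc]) (by simp)] at this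
      simpa [h0.ne'] using this
  have h2 := (hc.covM cl).regAtM (scl_isMC hm r h0.ne') le_rfl (l := Finset.univ.sup T.lev)
    (fun c => Finset.le_sup (f := T.lev) (Finset.mem_univ c)) (x := 0) (by simp) (hR j hj hjl).2
  rw [neg_zero, Real.exp_zero, mul_one, mul_one] at h2
  refine ⟨le_trans (pow_le_pow_left₀ ?_ (add_le_add le_rfl hk) D) (hR j hj hjl).1,
    Cell.regAtM_anti h2 (mul_le_mul_of_nonneg_left hk (Real.exp_pos _).le) le_rfl⟩
  have := MA.regM_le hR hD hτ (j + 1) (by omega) (by omega)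
  linarith [Cell.one_le_kapM (scl T r h0.ne') cl j]

/-! ### masses -/

theorem fw_pos (T : Cell ι) {D : ℕ} (σ : ℝ) (V : Frm D T.lev) : 0 < fw T σ V := Real.exp_pos _

theorem fq_nonneg (T : Cell ι) {D : ℕ} (σ : ℝ) (V : Frm D T.lev) : 0 ≤ fq T σ V :=
  sum_nonneg fun _ _ => sum_nonneg fun _ _ => sq_nonneg _

theorem fmu_pos (T : Cell ι) (D : ℕ) {σ : ℝ} (hσ : 0 < σ) : 0 < fmu T D σ :=
  prod_pos fun c _ => prod_pos fun _ _ =>
    mul_pos (pow_pos hσ _) (inv_pos.2 (abs_pos.2 (T.a_ne c)))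

theorem cmu_pos (T : Cell ι) (k : ℕ) : 0 < cmu T k :=
  prod_pos fun c _ => pow_pos (inv_pos.2 (abs_pos.2 (T.a_ne c))) _

theorem fb_of_bulk {T : Cell ι} {D : ℕ} {σ B : ℝ} (h : Sg.Bulk T D σ B) : FB T D σ B := by
  intro r Z hZ
  calc fm T σ Z ≤ ∑ V ∈ Z, Real.exp (-r) * Real.exp (-Real.pi * fq T σ V / 2) := by
        refine sum_le_sum fun V hV => ?_
        rw [fw, ← Real.exp_add, Real.exp_le_exp]
        nlinarith [hZ V hV, fq_nonneg T σ V, Real.pi_gt_three]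
    _ ≤ Real.exp (-r) * (Real.exp B * fmu T D σ) := by
        rw [← mul_sum]
        exact mul_le_mul_of_nonneg_left (h Z) (Real.exp_pos _).le
    _ = _ := by rw [← mul_assoc, ← Real.exp_add]; congr 2; ring

theorem FB.mono {T : Cell ι} {D : ℕ} {σ B B' : ℝ} (h : FB T D σ B) (hσ : 0 < σ) (hB : B ≤ B') :
    FB T D σ B' := fun r Z hZ => (h r Z hZ).trans
  (mul_le_mul_of_nonneg_right (Real.exp_le_exp.2 (by linarith)) (fmu_pos T D hσ).le)

theorem FB.mass {T : Cell ι} {D : ℕ} {σ B : ℝ} (h : FB T D σ B) (Z : Finset (Frm D T.lev)) :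
    fm T σ Z ≤ Real.exp B * fmu T D σ := by
  simpa using h 0 Z fun V _ => fq_nonneg T σ V

theorem card_pos_eq (D L : ℕ) : #(pos D L) = L ^ D := by
  simp [pos, Fintype.card_piFinset]

theorem muK_le (T : Cell ι) (k : ℕ) :
    Ri.muK T k ≤ Real.exp (k * 2 ^ k * Fintype.card ι) * cmu T k := by
  have h2 : (2 : ℝ) ≤ Real.exp 1 := by linarith [Real.add_one_le_exp 1]
  have e : Real.exp (k * 2 ^ k * Fintype.card ι) = ∏ _c : ι, ∏ _β : Fin k → Bool, Real.exp k := by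
    simp only [prod_const, card_univ, Fintype.card_fun, Fintype.card_bool, Fintype.card_fin,
      ← Real.exp_nat_mul]
    congr 1; push_cast; ring
  rw [e, cmu, ← prod_mul_distrib]
  refine prod_le_prod (fun c _ => prod_nonneg fun β _ => by split_ifs <;> positivity)
    fun c _ => ?_
  rw [← prod_const, prod_filter, ← prod_mul_distrib]
  refine prod_le_prod (fun β _ => by split_ifs <;> positivity) fun β _ => ?_
  split_ifs
  · rw [mul_inv, inv_div]
    refine mul_le_mul_of_nonneg_right ?_ (by positivity)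
    have h3 : Hk.wt β ≤ k := by
      calc Hk.wt β ≤ ∑ _i : Fin k, 1 := sum_le_sum fun i _ => Bool.toNat_le _
        _ = k := by simp
    calc (2 : ℝ) ^ Hk.wt β / √2 ^ k ≤ 2 ^ Hk.wt β :=
          div_le_self (by positivity) (one_le_pow₀ (Real.one_le_sqrt.2 (by norm_num)))
      _ ≤ 2 ^ k := pow_le_pow_right₀ (by norm_num) h3
      _ ≤ Real.exp 1 ^ k := pow_le_pow_left₀ (by norm_num) h2 k
      _ = _ := by rw [← Real.exp_nat_mul, mul_one]
  · rw [mul_one]
    exact Real.one_le_exp (Nat.cast_nonneg k)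

/-! ### cheap phases -/

theorem Cheap.norm {T : Cell ι} {m : ℝ} {ψ : (ι → ℤ) → ℂ} (h : Cheap T m ψ) (z : ι → ℤ) :
    ‖ψ z‖ = 1 := by
  obtain ⟨ξ, a, b, -, -, -, rfl⟩ := h
  exact norm_ee' _

theorem Cheap.mono {T : Cell ι} {m m' : ℝ} {ψ : (ι → ℤ) → ℂ} (h : Cheap T m ψ) (hm : m ≤ m') :
    Cheap T m' ψ := by
  obtain ⟨ξ, a, b, h1, h2, h3, h4⟩ := h
  exact ⟨ξ, a, b, fun c => (h1 c).trans (Real.exp_le_exp.2 hm), h2,
    h3.trans (Real.exp_le_exp.2 hm), h4⟩

theorem Cheap.mul {T : Cell ι} {m : ℝ} {ψ φ : (ι → ℤ) → ℂ} (h : Cheap T m ψ) (h' : Cheap T m φ)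
    (hm : 1 ≤ m) : Cheap T (2 * m) fun z => ψ z * φ z := by
  obtain ⟨ξ, a, b, h1, h2, h3, rfl⟩ := h
  obtain ⟨ξ', a', b', h1', h2', h3', rfl⟩ := h'
  have e : Real.exp (2 * m) = Real.exp m * Real.exp m := by rw [← Real.exp_add, two_mul]
  have h4 : 2 ≤ Real.exp m := by linarith [Real.add_one_le_exp m]
  refine ⟨ξ + ξ', fun c => b' * a c + b * a' c, b * b', fun c => ?_, Nat.mul_pos h2 h2', ?_, ?_⟩
  · rw [e]
    exact (abs_add_le _ _).trans (by nlinarith [h1 c, h1' c])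
  · rw [e, Nat.cast_mul]
    exact mul_le_mul h3 h3' (Nat.cast_nonneg _) (Real.exp_pos _).le
  · funext z
    have hb : (b : ℝ) ≠ 0 := by positivity
    have hb' : (b' : ℝ) ≠ 0 := by positivity
    rw [chp, chp, chp, ← ee_add]
    congr 1
    simp only [Pi.add_apply, add_mul, sum_add_distrib, Int.cast_add, Int.cast_mul,
      Int.cast_natCast, mul_assoc, ← mul_sum, Nat.cast_mul]
    field_simp
    ring

theorem cheap_of_chp {T : Cell ι} {r : ℝ} (h0 : 0 < r) (h1 : r ≤ 1) {m : ℝ} {φ : (ι → ℤ) → ℂ}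
    (h : Ri.Chp (scl T r h0.ne') m φ) : Cheap T m φ := by
  obtain ⟨ξ, n, b, k1, k2, k3, k4⟩ := h
  refine ⟨fun c => ξ c * r, n, b, fun c => ?_, k2, k3, funext fun z => ?_⟩
  · rw [abs_mul, abs_of_pos h0]
    exact (mul_le_of_le_one_right (abs_nonneg _) h1).trans
      ((single_le_sum (fun c _ => abs_nonneg (ξ c)) (mem_univ c)).trans k1)
  · rw [k4, chp]
    simp only [scl_th, ev_mul, ev_C, mul_assoc]

/-! ### three elementary inequalities -/

theorem exp_half (x : ℝ) : 2 * Real.exp (-(x + 1)) ≤ Real.exp (-x) := by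
  have h2 : (2 : ℝ) ≤ Real.exp 1 := by linarith [Real.add_one_le_exp 1]
  have : Real.exp (-x) = Real.exp 1 * Real.exp (-(x + 1)) := by
    rw [← Real.exp_add]; congr 1; ring
  rw [this]
  exact mul_le_mul_of_nonneg_right h2 (Real.exp_pos _).le

theorem exists_unit99 (z : ℂ) : ∃ c : ℂ, ‖c‖ ≤ 1 ∧ c * z = ‖z‖ := by
  rcases eq_or_ne z 0 with rfl | hz
  · exact ⟨0, by simp, by simp⟩
  · have h0 : (‖z‖ : ℂ) ≠ 0 := by simpa using hz
    refine ⟨conj z / ‖z‖, by simp [div_self (norm_ne_zero_iff.2 hz)], ?_⟩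
    rw [div_mul_eq_mul_div, Complex.conj_mul', sq, mul_div_assoc, div_self h0, mul_one]

/-- a weighted average that is large has many large terms -/
theorem dense_of_sum {α : Type} (Z : Finset α) {w x : α → ℝ} {μ N a B : ℝ} (hw : ∀ V, 0 ≤ w V)
    (hμ : 0 ≤ μ) (hN : 0 < N) (hx : ∀ V, x V ≤ N) (hB : ∑ V ∈ Z, w V ≤ Real.exp B * μ)
    (h : Real.exp (-a) * (μ * N) ≤ ∑ V ∈ Z, w V * x V) :
    ∃ Z' ⊆ Z, (∀ V ∈ Z', Real.exp (-(a + B + 1)) * N ≤ x V) ∧
      Real.exp (-(a + 1)) * μ ≤ ∑ V ∈ Z', w V := by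
  classical
  refine ⟨Z.filter fun V => Real.exp (-(a + B + 1)) * N ≤ x V, filter_subset _ _,
    fun V hV => (mem_filter.1 hV).2, ?_⟩
  have h1 : ∑ V ∈ Z, w V * x V ≤
      ∑ V ∈ Z, ((if Real.exp (-(a + B + 1)) * N ≤ x V then w V else 0) * N +
        w V * (Real.exp (-(a + B + 1)) * N)) := by
    refine sum_le_sum fun V _ => ?_
    have h2 : 0 ≤ w V * (Real.exp (-(a + B + 1)) * N) := by have := hw V; positivity
    split_ifs with h3
    · linarith [mul_le_mul_of_nonneg_left (hx V) (hw V)]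
    · linarith [mul_le_mul_of_nonneg_left (not_le.1 h3).le (hw V)]
  rw [sum_add_distrib, ← sum_mul, ← sum_mul, ← sum_filter] at h1
  have h3 := mul_le_mul_of_nonneg_right hB (show 0 ≤ Real.exp (-(a + B + 1)) * N by positivity)
  have h4 : Real.exp B * μ * (Real.exp (-(a + B + 1)) * N) = Real.exp (-(a + 1)) * (μ * N) := by
    rw [show -(a + 1) = B + -(a + B + 1) by ring, Real.exp_add]; ring
  have h5 := mul_le_mul_of_nonneg_right (exp_half a) (show 0 ≤ μ * N by positivity)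
  refine le_of_mul_le_mul_right ?_ hN
  nlinarith

/-- the dual function correlates with itself -/
theorem dual_self (T : Cell ι) (hM : T.M ≤ 2 * T.mu) {Dl H : (ι → ℤ) → ℂ} (hD : ∀ z, ‖Dl z‖ ≤ 1)
    (hH : ∀ z, ‖H z‖ ≤ 1) {a : ℝ}
    (h : Real.exp (-a) ≤ ‖(∑' z, (T.wgt z : ℂ) * (Dl z * H z)) / (T.mu : ℂ)‖) :
    Real.exp (-(2 * a + 1)) ≤ ‖(∑' z, (T.wgt z : ℂ) * (Dl z * conj (Dl z))) / (T.mu : ℂ)‖ := by
  have hμ := T.mu_pos
  have h2 : Summable fun z => T.wgt z * ‖Dl z‖ ^ 2 :=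
    T.summable_mul_real (K := 1) fun z => by
      rw [abs_of_nonneg (by positivity)]; exact pow_le_one₀ (norm_nonneg _) (hD z)
  have h1 := DblA.norm_tsum_sq_le (G := fun z => (T.wgt z : ℂ) * (Dl z * H z)) T.wgt_nonneg
    T.summable_wgt (g := fun z => ‖Dl z‖) (fun z => by
      rw [norm_mul, Complex.norm_real, Real.norm_of_nonneg (T.wgt_nonneg z), abs_norm, norm_mul]
      exact mul_le_mul_of_nonneg_left (mul_le_of_le_one_right (norm_nonneg _) (hH z))
        (T.wgt_nonneg z)) h2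
  have e : (∑' z, (T.wgt z : ℂ) * (Dl z * conj (Dl z))) = (∑' z, T.wgt z * ‖Dl z‖ ^ 2 : ℝ) := by
    rw [T.ofReal_tsum_mul]
    simp only [Complex.mul_conj', Complex.ofReal_pow]
  have h0 : 0 ≤ ∑' z, T.wgt z * ‖Dl z‖ ^ 2 :=
    tsum_nonneg fun z => mul_nonneg (T.wgt_nonneg z) (sq_nonneg _)
  rw [norm_div, Complex.norm_real, Real.norm_of_nonneg hμ.le, le_div_iff₀ hμ] at h ⊢
  rw [e, Complex.norm_real, Real.norm_of_nonneg h0]
  have h3 := (pow_le_pow_left₀ (by positivity) h 2).trans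
    (h1.trans (mul_le_mul_of_nonneg_right hM h0))
  have h4 : Real.exp (-a) ^ 2 = Real.exp (-(2 * a)) := by
    rw [← Real.exp_nat_mul]; congr 1; push_cast; ring
  rw [mul_pow, h4] at h3
  have h5 := mul_le_mul_of_nonneg_right (exp_half (2 * a)) (show 0 ≤ T.mu ^ 2 by positivity)
  refine le_of_mul_le_mul_right ?_ hμ
  nlinarith

end Crest.Agent.T49.Gl
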