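import Crest.Agent.T49.GlDef_99
import Crest.Agent.T49.FmReb_17

/-!
# Row 49 (helper32): the dual function of a family of functions on frames
-/

set_option autoImplicit false

noncomputable section

namespace Crest.Agent.T49.Gl

open MvPolynomial Finset Crest.Agent.T49.Tw Crest.Agent.T49.Fm

/-- **DUAL** -/
theorem dualStmt : DualStmt := by
  classical
  intro s D
  obtain ⟨A, hA⟩ : ∃ A : ℕ, A = (s + 5) * ((s + 1) ^ (D + 1) * ((s + 1) * (s * 2) + s ^ 2 + 1)) +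
    2 * (s + 1) ^ D + 8 := ⟨_, rfl⟩
  have hrc := one_le_rc D s
  refine ⟨A + 2, (1 + rc D s)⁻¹, by positivity,
    fun ι _ T σ L R y r hr Z a h hr1 hr2 ha => ?_⟩
  have hR := h.two
  have hy : 2 ≤ y := hR.trans h.le
  have hr0 : 0 < r := (Real.exp_pos _).trans_le hr1
  have hs0 : (0 : ℝ) ≤ s := Nat.cast_nonneg s
  have hp : (1 : ℝ) ≤ (s + 1) ^ D := one_le_pow₀ (by linarith)
  have hr3 : r ≤ 1 := hr2.trans (inv_le_one_of_one_le₀ (by linarith))
  have hr4 : (1 + rc D s) * |r| ≤ 1 := by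
    rwa [abs_of_pos hr0, ← le_div_iff₀' (by positivity), one_div]
  have hσL : 0 < σ * L := (Real.exp_pos _).trans_le h.lo
  have hL : (0 : ℝ) < L := by
    rcases (Nat.cast_nonneg (α := ℝ) L).eq_or_lt with h0 | h0
    · rw [← h0, mul_zero] at hσL; exact absurd hσL (lt_irrefl _)
    · exact h0
  have hσ : 0 < σ := (mul_pos_iff_of_pos_right hL).1 hσL
  have hpw : ∀ x : ℝ, 2 ≤ x → A * x ^ 2 ≤ x ^ (A + 2) := fun x hx => by
    rw [pow_add]
    refine mul_le_mul_of_nonneg_right ?_ (sq_nonneg x)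
    exact le_trans (by exact_mod_cast (Nat.lt_two_pow_self (n := A)).le)
      (pow_le_pow_left₀ zero_le_two hx A)
  have hA' : (A : ℝ) = (s + 5) * ((s + 1) ^ (D + 1) * ((s + 1) * (s * 2) + s ^ 2 + 1)) +
    2 * (s + 1) ^ D + 8 := by rw [hA]; push_cast; ring
  have hB : (0 : ℝ) ≤ (s + 5) * ((s + 1) ^ (D + 1) * ((s + 1) * (s * 2) + s ^ 2 + 1)) := by
    positivity
  have hyy : y ≤ y ^ 2 := by nlinarith
  have hx := hpw y hy
  generalize y ^ (A + 2) = x at h hx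
  have hx1 : (s + 5) * fl D s (s * (2 * y)) ≤ x - 1 := by
    have : (s + 5) * fl D s (s * (2 * y)) ≤
        (s + 5) * ((s + 1) ^ (D + 1) * ((s + 1) * (s * 2) + s ^ 2 + 1)) * y ^ 2 := by
      rw [fl, mul_assoc, mul_assoc _ _ (y ^ 2)]
      gcongr
      nlinarith [mul_nonneg (mul_nonneg (by linarith : (0 : ℝ) ≤ s + 1) hs0) (sub_nonneg.2 hyy),
        mul_nonneg (by positivity : (0 : ℝ) ≤ s ^ 2 + 1) (by nlinarith : (0 : ℝ) ≤ y ^ 2 - 1)]
    rw [hA'] at hx
    nlinarith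
  have hx2 : 2 * ((s + 1) ^ D * y ^ 2) + 8 * y ^ 2 ≤ x := by
    rw [hA'] at hx
    nlinarith
  have hx3 : 0 ≤ (s + 1 : ℝ) ^ D * y ^ 2 := by positivity
  have hη : Real.exp (-x) ≤ 1 := Real.exp_le_one_iff.2 (by nlinarith)
  have hA1 : (scl T r hr).AllPC (x - 1) (Real.exp (-x)) :=
    scl_allPC T hr h.lev (by rwa [abs_of_pos hr0]) h.pc (by linarith)
  refine ⟨?_, ?_⟩
  · have := (abs_le.1 (Cell.allPC_self hA1 (by nlinarith))).2
    rw [← div_le_iff₀ (Tri.mu_pos _)]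
    linarith
  have hσi : σ⁻¹ ≤ Real.exp (2 * y) := by
    rw [inv_le_comm₀ hσ (Real.exp_pos _), ← Real.exp_neg]
    refine le_of_mul_le_mul_right (le_trans ?_ h.lo) hL
    calc _ ≤ Real.exp (-(2 * y)) * Real.exp y := by gcongr; exact h.Lle
      _ ≤ _ := by rw [← Real.exp_add]; exact Real.exp_le_exp.2 (by linarith [h.le])
  have hcard : (#(pos D L) : ℝ) = (L : ℝ) ^ D := by simp [pos]
  let u : (Fin D → ℤ) → Frm D T.lev → ℂ := fun t W => if W ∈ Z then fw T σ W * a W t else 0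
  have hu : ∀ t W, ‖u t W‖ ≤ fw T σ W := fun t W => by
    simp only [u]
    split_ifs
    · rw [norm_mul, Complex.norm_real, Real.norm_of_nonneg (fw_pos T σ W).le]
      exact mul_le_of_le_one_right (fw_pos T σ W).le (ha W t)
    · simpa using (fw_pos T σ W).le
  let b : Frm D T.lev → ℂ := fun V =>
    (∑ t ∈ pos D L, u t ((rebE T.lev t).symm V)) / ((fw (scl T r hr) σ V * (L : ℝ) ^ D : ℝ) : ℂ)
  have hb : ∀ V, ‖b V‖ ≤ 1 := fun V => by
    have h0 : 0 < fw (scl T r hr) σ V * (L : ℝ) ^ D := mul_pos (fw_pos _ _ _) (by positivity)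
    rw [norm_div, Complex.norm_real, Real.norm_of_nonneg h0.le, div_le_one h0, ← hcard, mul_comm,
      ← nsmul_eq_mul]
    refine (norm_sum_le _ _).trans (sum_le_card_nsmul _ _ _ fun t h1 => (hu _ _).trans ?_)
    have := fw_le_reb T hr h.lev hσ (fun i => (abs_mul_le_of_mem_pos hσ h1 i).trans h.hi) hr4
      ((rebE T.lev t).symm V)
    exact this.trans_eq (congrArg (fw (scl T r hr) σ) ((rebE T.lev t).apply_symm_apply V))
  obtain ⟨Dl, h1, h2⟩ := fw_cond (scl T r hr) h.lev hσ (by linarith) hσi hA1 hx1 hη hb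
  have hri : 1 ≤ r⁻¹ := (one_le_inv₀ hr0).2 hr3
  have hK : r⁻¹ ^ Fintype.card (FI D T.lev) ≤ Real.exp ((s + 1) ^ D * R ^ 2) := by
    have h3 : r⁻¹ ≤ Real.exp R := by rwa [inv_le_comm₀ hr0 (Real.exp_pos _), ← Real.exp_neg]
    refine (pow_le_pow_left₀ (by positivity) h3 _).trans ?_
    rw [← Real.exp_nat_mul, Real.exp_le_exp, pow_two, ← mul_assoc]
    refine mul_le_mul_of_nonneg_right (le_trans ?_ (mul_le_mul_of_nonneg_left h.card
      (by positivity))) (by linarith)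
    exact_mod_cast card_FI_le T h.lev
  refine ⟨r⁻¹ ^ Fintype.card (FI D T.lev), Dl, one_le_pow₀ hri, hK.trans (Real.exp_le_exp.2
    (le_trans (mul_le_mul_of_nonneg_right (by rw [hA']; linarith) (sq_nonneg R)) (hpw R hR))), h1,
    fun G hG => ?_⟩
  have e1 : ∑ V ∈ Z, (fw T σ V : ℂ) * ∑ t ∈ pos D L, a V t * G (V.pt t) =
      ((L : ℝ) ^ D : ℝ) * ∑' V : Frm D T.lev, (fw (scl T r hr) σ V : ℂ) * (b V * G (V.pt 0)) := by
    have e2 : ∀ t, ∑ V ∈ Z, (fw T σ V : ℂ) * (a V t * G (V.pt t)) =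
        ∑' V, u t ((rebE T.lev t).symm V) * G (V.pt 0) := fun t => by
      rw [← (rebE T.lev t).tsum_eq, tsum_eq_sum (s := Z) fun V hV => by simp [u, hV]]
      refine sum_congr rfl fun V hV => ?_
      rw [Equiv.symm_apply_apply, rebE_apply, reb_pt_zero]
      simp [u, hV, mul_assoc]
    simp only [mul_sum]
    rw [sum_comm, sum_congr rfl fun t _ => e2 t, ← tsum_mul_left, ← Summable.tsum_finsetSum]
    · refine tsum_congr fun V => ?_
      have h3 : (fw (scl T r hr) σ V : ℂ) ≠ 0 := by exact_mod_cast (fw_pos _ _ _).ne'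
      have h4 : (L : ℂ) ≠ 0 := by exact_mod_cast hL.ne'
      simp only [b]
      rw [← sum_mul]
      push_cast
      field_simp
    · intro t _
      refine Summable.of_norm_bounded ((rebE T.lev t).symm.summable_iff.2 (summable_fw T hσ))
        fun V => ?_
      rw [norm_mul]
      exact (mul_le_of_le_one_right (norm_nonneg _) (hG _)).trans (hu _ _)
  have h3 : ‖(∑' V : Frm D T.lev, (fw (scl T r hr) σ V : ℂ) * (b V * G (V.pt 0))) / _ - _‖ ≤ _ :=
    h2 G hG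
  rw [fmu_scl T hr D σ, abs_of_pos hr0] at h3
  have h4 : (fmu T D σ : ℂ) ≠ 0 := by exact_mod_cast (fmu_pos T D hσ).ne'
  have h5 : (L : ℂ) ≠ 0 := by exact_mod_cast hL.ne'
  have h6 : 0 < r⁻¹ ^ Fintype.card (FI D T.lev) := by positivity
  rw [e1]
  generalize ∑' V : Frm D T.lev, (fw (scl T r hr) σ V : ℂ) * (b V * G (V.pt 0)) = X at h3 ⊢
  generalize (∑' z, ((scl T r hr).wgt z : ℂ) * (Dl z * G z)) / ((scl T r hr).mu : ℂ) = Y at h3 ⊢
  generalize r⁻¹ ^ Fintype.card (FI D T.lev) = K at *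
  have h7 : (K : ℂ) ≠ 0 := by exact_mod_cast h6.ne'
  have h8 := mul_le_mul (show ‖(K : ℂ)‖ ≤ _ by
    rwa [Complex.norm_real, Real.norm_of_nonneg h6.le]) h3 (norm_nonneg _) (Real.exp_pos _).le
  rw [← norm_mul] at h8
  refine le_of_eq_of_le (congrArg _ ?_) (h8.trans ?_)
  · push_cast
    field_simp
  · have h9 : √(Real.exp (-x)) = Real.exp (-x / 2) := (Real.exp_half _).symm
    have h10 : (3 : ℝ) ≤ Real.exp 2 := by linarith [Real.add_one_le_exp 2]
    rw [h9]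
    refine (mul_le_mul_of_nonneg_left (mul_le_mul_of_nonneg_right h10 (Real.exp_pos _).le)
      (Real.exp_pos _).le).trans ?_
    rw [← Real.exp_add, ← Real.exp_add, Real.exp_le_exp]
    have : (s + 1 : ℝ) ^ D * R ^ 2 ≤ (s + 1) ^ D * y ^ 2 := by have := h.le; gcongr
    nlinarith

end Crest.Agent.T49.Gl
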