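import Mathlib

/-! # Row 49: approximate homomorphisms: Hyers-Ulam modulo a separated subgroup (H), local to global
extension (EXT), bounded additive maps are linear (Lin), frames in dense lattices -/

set_option autoImplicit false
set_option linter.unusedSectionVars false

open Finset Filter Topology

namespace Crest.Agent.T49.Gon

variable {Λ : Type*} [AddCommGroup Λ]

section Hyers

variable {V : Type*} [NormedAddCommGroup V] [NormedSpace ℝ V] [CompleteSpace V]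

/-- a bounded symmetric cocycle is the coboundary of a bounded function -/
theorem exists_cobound (δ : Λ → Λ → V) {ε : ℝ} (hδ : ∀ x y, ‖δ x y‖ ≤ ε)
    (h4 : ∀ x y, δ x x + δ y y + δ (x + x) (y + y) = δ (x + y) (x + y) + (2 : ℝ) • δ x y) :
    ∃ ψ : Λ → V, (∀ x, ‖ψ x‖ ≤ ε) ∧ ∀ x y, ψ x + ψ y - ψ (x + y) = δ x y := by
  have hε : 0 ≤ ε := (norm_nonneg _).trans (hδ 0 0)
  let a : Λ → Λ → ℕ → V := fun x y n => ((1 / 2 : ℝ) ^ n) • δ (2 ^ n • x) (2 ^ n • y)
  have ha : ∀ x y n, ‖a x y n‖ ≤ ε * (1 / 2 : ℝ) ^ n := by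
    intro x y n
    simp only [a]
    rw [norm_smul, Real.norm_of_nonneg (by positivity), mul_comm]
    exact mul_le_mul_of_nonneg_right (hδ _ _) (by positivity)
  have hgeo : Summable fun n : ℕ => ε * (1 / 2 : ℝ) ^ n := summable_geometric_two.mul_left ε
  have hs : ∀ x y, Summable (a x y) := fun x y => Summable.of_norm_bounded hgeo (ha x y)
  refine ⟨fun x => (1 / 2 : ℝ) • ∑' n, a x x n, fun x => ?_, fun x y => ?_⟩
  · rw [norm_smul]
    have := tsum_of_norm_bounded (hasSum_geometric_two.mul_left ε) (ha x x)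
    norm_num at this ⊢
    linarith
  · have h1 : ∀ n, a x x n + a y y n - a (x + y) (x + y) n = (2 : ℝ) • a x y n - (2 : ℝ) • a x y (n + 1) := by
      intro n
      have h := h4 (2 ^ n • x) (2 ^ n • y)
      simp only [a, smul_add, pow_succ, mul_nsmul', two_nsmul]
      have e : ∀ z : Λ, 2 ^ n • z + 2 ^ n • z = 2 ^ n • z + 2 ^ n • z := fun _ => rfl
      have h' : δ (2 ^ n • x) (2 ^ n • x) + δ (2 ^ n • y) (2 ^ n • y) -
          δ (2 ^ n • x + 2 ^ n • y) (2 ^ n • x + 2 ^ n • y) =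
          (2 : ℝ) • δ (2 ^ n • x) (2 ^ n • y) - δ (2 ^ n • x + 2 ^ n • x) (2 ^ n • y + 2 ^ n • y) := by
        rw [sub_eq_sub_iff_add_eq_add, h, add_comm]
      rw [← smul_add, ← smul_sub, h']
      module
    have h2 : HasSum (fun n => a x y n - a x y (n + 1)) (a x y 0) := by
      have h3 := (hs x y).hasSum
      have h5 := ((summable_nat_add_iff 1).2 (hs x y)).hasSum
      have h6 := h3.sub h5
      rwa [(hs x y).tsum_eq_zero_add, add_sub_cancel_right] at h6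
    rw [← smul_add, ← smul_sub, ← (hs x x).tsum_add (hs y y),
      ← ((hs x x).add (hs y y)).tsum_sub (hs _ _)]
    simp only [h1, ← smul_sub]
    rw [(h2.const_smul (2 : ℝ)).tsum_eq, smul_smul]
    simp [a]

/-- **(H), global form.**  Defects within `ε` of a `4ε`-separated subgroup `Z` can be corrected into `Z`. -/
theorem hyers_mod (Z : AddSubgroup V) (φ : Λ → V) {ε : ℝ}
    (hsep : ∀ z ∈ Z, ‖z‖ ≤ 6 * ε → z = 0)
    (hφ : ∀ x y, ∃ z ∈ Z, ‖φ x + φ y - φ (x + y) - z‖ ≤ ε) :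
    ∃ ψ : Λ → V, (∀ x, ‖ψ x‖ ≤ ε) ∧
      ∀ x y, (φ x - ψ x) + (φ y - ψ y) - (φ (x + y) - ψ (x + y)) ∈ Z := by
  choose z hz hzε using hφ
  obtain ⟨ψ, h1, h2⟩ := exists_cobound (fun x y => φ x + φ y - φ (x + y) - z x y) hzε (by
    intro x y
    rw [← sub_eq_zero]
    apply hsep
    · have e : φ x + φ x - φ (x + x) - z x x + (φ y + φ y - φ (y + y) - z y y) +
          (φ (x + x) + φ (y + y) - φ (x + x + (y + y)) - z (x + x) (y + y)) -
          (φ (x + y) + φ (x + y) - φ (x + y + (x + y)) - z (x + y) (x + y) +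
            (2 : ℝ) • (φ x + φ y - φ (x + y) - z x y)) =
          z (x + y) (x + y) + z x y + z x y - z x x - z y y - z (x + x) (y + y) := by
        rw [show x + y + (x + y) = x + x + (y + y) by abel]
        module
      rw [e]
      exact Z.sub_mem (Z.sub_mem (Z.sub_mem (Z.add_mem (Z.add_mem (hz _ _) (hz _ _)) (hz _ _))
        (hz _ _)) (hz _ _)) (hz _ _)
    · refine (norm_sub_le _ _).trans ?_
      have a1 := norm_add₃_le (a := φ x + φ x - φ (x + x) - z x x) (b := φ y + φ y - φ (y + y) - z y y)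
        (c := φ (x + x) + φ (y + y) - φ (x + x + (y + y)) - z (x + x) (y + y))
      have a2 := norm_add_le (φ (x + y) + φ (x + y) - φ (x + y + (x + y)) - z (x + y) (x + y))
        ((2 : ℝ) • (φ x + φ y - φ (x + y) - z x y))
      rw [norm_smul, Real.norm_ofNat] at a2
      linarith [hzε x x, hzε y y, hzε (x + x) (y + y), hzε (x + y) (x + y), hzε x y])
  refine ⟨ψ, h1, fun x y => ?_⟩
  have : φ x - ψ x + (φ y - ψ y) - (φ (x + y) - ψ (x + y)) = z x y := by
    have := h2 x y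
    rw [show φ x - ψ x + (φ y - ψ y) - (φ (x + y) - ψ (x + y)) =
      φ x + φ y - φ (x + y) - (ψ x + ψ y - ψ (x + y)) by abel, this]
    abel
  rw [this]; exact hz x y

/-- Hyers-Ulam -/
theorem hyers (φ : Λ → V) {ε : ℝ} (hφ : ∀ x y, ‖φ x + φ y - φ (x + y)‖ ≤ ε) :
    ∃ χ : Λ →+ V, ∀ x, ‖φ x - χ x‖ ≤ ε := by
  obtain ⟨ψ, h1, h2⟩ := hyers_mod ⊥ φ (ε := ε) (fun z hz _ => hz)
    fun x y => ⟨0, AddSubgroup.zero_mem _, by simpa using hφ x y⟩
  refine ⟨AddMonoidHom.mk' (fun x => φ x - ψ x) fun x y => ?_, fun x => by simpa using h1 x⟩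
  exact (sub_eq_zero.1 (h2 x y)).symm

end Hyers

/-- a map on `ℤ^ι` that is additive modulo `Z` is an additive map modulo `Z`. -/
theorem exists_hom_of_mod {ι V : Type*} [Fintype ι] [AddCommGroup V] (Z : AddSubgroup V)
    (φ : (ι → ℤ) → V) (hφ : ∀ x y, φ x + φ y - φ (x + y) ∈ Z) :
    ∃ χ : (ι → ℤ) →+ V, ∀ x, φ x - χ x ∈ Z := by
  classical
  let φ' : (ι → ℤ) →+ V ⧸ Z := AddMonoidHom.mk' (fun x => (φ x : V ⧸ Z)) fun x y => by
    rw [← QuotientAddGroup.mk_add, eq_comm, QuotientAddGroup.eq_iff_sub_mem]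
    exact hφ x y
  let χ : (ι → ℤ) →+ V := AddMonoidHom.mk' (fun x => ∑ i, x i • φ (Pi.single i 1)) fun x y => by
    simp [add_smul, sum_add_distrib]
  refine ⟨χ, fun x => ?_⟩
  rw [← QuotientAddGroup.eq_iff_sub_mem]
  have h1 : (φ x : V ⧸ Z) = φ' x := rfl
  have h2 : ((χ x : V) : V ⧸ Z) = QuotientAddGroup.mk' Z (∑ i, x i • φ (Pi.single i 1)) := rfl
  rw [h1, h2, map_sum]
  conv_lhs => rw [pi_eq_sum_univ' x, map_sum]
  refine sum_congr rfl fun i _ => ?_
  rw [map_zsmul, map_zsmul]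
  rfl

/-- a frame: elements `p i` with dual real coordinates `c i` -/
structure Frame (Λ : Type*) [AddCommGroup Λ] (ι : Type*) [DecidableEq ι] where
  p : ι → Λ
  c : ι → Λ →+ ℝ
  dual : ∀ i j, c i (p j) = if i = j then 1 else 0

namespace Frame

variable {ι : Type*} [Fintype ι] [DecidableEq ι] (F : Frame Λ ι)

/-- the box of size `t` -/
def box (t : ℝ) (x : Λ) : Prop := ∀ i, |F.c i x| ≤ t

theorem c_sum (s : Finset ι) (n : ι → ℤ) (i : ι) :
    F.c i (∑ j ∈ s, n j • F.p j) = if i ∈ s then (n i : ℝ) else 0 := by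
  rw [map_sum]
  simp only [map_zsmul, F.dual, zsmul_eq_mul, mul_ite, mul_one, mul_zero]
  rw [sum_ite_eq]

/-- the residue of `x` in the fundamental box -/
noncomputable def res (x : Λ) : Λ := x - ∑ j, ⌊F.c j x⌋ • F.p j

theorem c_res (x : Λ) (i : ι) : F.c i (F.res x) = Int.fract (F.c i x) := by
  rw [res, map_sub, c_sum, if_pos (mem_univ i), Int.self_sub_floor]

theorem box_res (x : Λ) : F.box 1 (F.res x) := fun i => by
  rw [c_res, abs_of_nonneg (Int.fract_nonneg _)]; exact (Int.fract_lt_one _).le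

theorem box_p (j : ι) : F.box 1 (F.p j) := fun i => by
  rw [F.dual]; split_ifs <;> simp

theorem box.mono {F : Frame Λ ι} {t t' : ℝ} {x : Λ} (h : F.box t x) (ht : t ≤ t') : F.box t' x :=
  fun i => (h i).trans ht

/-- adding basis vectors one at a time inside the box of size 2 -/
theorem telescope {A : Type*} [AddCommGroup A] (μ : A → ℝ) (hμ0 : μ 0 ≤ 0)
    (hμadd : ∀ a b, μ (a + b) ≤ μ a + μ b) (φ : Λ → A) {ε : ℝ}
    (hφ : ∀ x y, F.box 2 x → F.box 2 y → F.box 2 (x + y) → μ (φ x + φ y - φ (x + y)) ≤ ε)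
    (y : Λ) (hy : F.box 1 y) (s : Finset ι) :
    μ (φ y + ∑ j ∈ s, φ (F.p j) - φ (y + ∑ j ∈ s, F.p j)) ≤ #s * ε := by
  have hb : ∀ s : Finset ι, F.box 2 (y + ∑ j ∈ s, F.p j) := by
    intro s i
    have := F.c_sum s (fun _ => 1) i
    simp only [one_smul] at this
    rw [map_add, this]
    have := abs_le.1 (hy i)
    split_ifs <;> rw [abs_le] <;> constructor <;> push_cast <;> linarith
  induction s using Finset.induction_on with
  | empty => simpa using hμ0
  | insert a s ha ih =>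
    have h1 := hφ _ _ (hb s) ((F.box_p a).mono (by norm_num)) (by
      have := hb (insert a s)
      rwa [sum_insert ha, add_comm (F.p a), ← add_assoc] at this)
    have h2 := hμadd (φ y + ∑ j ∈ s, φ (F.p j) - φ (y + ∑ j ∈ s, F.p j))
      (φ (y + ∑ j ∈ s, F.p j) + φ (F.p a) - φ (y + ∑ j ∈ s, F.p j + F.p a))
    rw [sum_insert ha, sum_insert ha, card_insert_of_notMem ha]
    push_cast
    rw [show φ y + (φ (F.p a) + ∑ j ∈ s, φ (F.p j)) - φ (y + (F.p a + ∑ j ∈ s, F.p j)) =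
      φ y + ∑ j ∈ s, φ (F.p j) - φ (y + ∑ j ∈ s, F.p j) +
        (φ (y + ∑ j ∈ s, F.p j) + φ (F.p a) - φ (y + ∑ j ∈ s, F.p j + F.p a)) by
      rw [show y + (F.p a + ∑ j ∈ s, F.p j) = y + ∑ j ∈ s, F.p j + F.p a by abel]; abel]
    linarith

theorem sum_zsmul_eq {A : Type*} [AddCommGroup A] (k : ι → ℤ) (hk : ∀ i, k i = 0 ∨ k i = 1)
    (f : ι → A) : ∑ j, k j • f j = ∑ j ∈ univ.filter (fun j => k j = 1), f j := by
  rw [sum_filter]
  refine sum_congr rfl fun j _ => ?_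
  rcases hk j with h | h <;> simp [h]

/-- **(EXT)** a local approximate homomorphism on the box of size 2 (target: any abelian group with a
subadditive even `μ`) extends to a global one. -/
theorem ext_approx {A : Type*} [AddCommGroup A] (μ : A → ℝ) (hμ0 : μ 0 ≤ 0)
    (hμadd : ∀ a b, μ (a + b) ≤ μ a + μ b) (hμneg : ∀ a, μ (-a) ≤ μ a) (φ : Λ → A) {ε : ℝ}
    (hε : 0 ≤ ε)
    (hφ : ∀ x y, F.box 2 x → F.box 2 y → F.box 2 (x + y) → μ (φ x + φ y - φ (x + y)) ≤ ε) :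
    ∃ Φ : Λ → A, (∀ x y, μ (Φ x + Φ y - Φ (x + y)) ≤ (Fintype.card ι + 1) * ε) ∧
      ∀ x, (∀ i, -1 ≤ F.c i x ∧ F.c i x < 1) → μ (φ x - Φ x) ≤ Fintype.card ι * ε := by
  have hcard : ∀ s : Finset ι, (#s : ℝ) * ε ≤ Fintype.card ι * ε := fun s =>
    mul_le_mul_of_nonneg_right (by exact_mod_cast card_le_univ s) hε
  refine ⟨fun x => ∑ j, ⌊F.c j x⌋ • φ (F.p j) + φ (F.res x), fun x y => ?_, fun x hx => ?_⟩
  · let k : ι → ℤ := fun j => ⌊F.c j (x + y)⌋ - ⌊F.c j x⌋ - ⌊F.c j y⌋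
    have hk : ∀ i, k i = 0 ∨ k i = 1 := by
      intro i
      simp only [k, map_add]
      have h1 := Int.le_floor_add (F.c i x) (F.c i y)
      have h2 := Int.le_floor_add_floor (F.c i x) (F.c i y)
      omega
    have hres : F.res x + F.res y = F.res (x + y) + ∑ j, k j • F.p j := by
      simp only [res, k, sub_smul, sum_sub_distrib]; abel
    have h1 := F.telescope μ hμ0 hμadd φ hφ _ (F.box_res (x + y)) (univ.filter fun j => k j = 1)
    rw [← sum_zsmul_eq k hk, ← sum_zsmul_eq k hk, ← hres] at h1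
    have h2 := hφ _ _ ((F.box_res x).mono (by norm_num)) ((F.box_res y).mono (by norm_num)) (by
      intro i
      rw [map_add]
      linarith [abs_add_le (F.c i (F.res x)) (F.c i (F.res y)), F.box_res x i, F.box_res y i])
    have h3 := hμadd (φ (F.res x) + φ (F.res y) - φ (F.res x + F.res y))
      (-(φ (F.res (x + y)) + ∑ j, k j • φ (F.p j) - φ (F.res x + F.res y)))
    have h4 := hμneg (φ (F.res (x + y)) + ∑ j, k j • φ (F.p j) - φ (F.res x + F.res y))
    have e : ∑ j, ⌊F.c j x⌋ • φ (F.p j) + φ (F.res x) + (∑ j, ⌊F.c j y⌋ • φ (F.p j) + φ (F.res y)) -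
        (∑ j, ⌊F.c j (x + y)⌋ • φ (F.p j) + φ (F.res (x + y))) =
        φ (F.res x) + φ (F.res y) - φ (F.res x + F.res y) +
          -(φ (F.res (x + y)) + ∑ j, k j • φ (F.p j) - φ (F.res x + F.res y)) := by
      simp only [k, sub_smul, sum_sub_distrib]; abel
    rw [e]
    linarith [hcard (univ.filter fun j => k j = 1)]
  · let k : ι → ℤ := fun j => -⌊F.c j x⌋
    have hk : ∀ i, k i = 0 ∨ k i = 1 := by
      intro i
      simp only [k]
      have h1 : -1 ≤ ⌊F.c i x⌋ := Int.le_floor.2 (by exact_mod_cast (hx i).1)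
      have h2 : ⌊F.c i x⌋ < 1 := Int.floor_lt.2 (by exact_mod_cast (hx i).2)
      omega
    have hres : F.res x = x + ∑ j, k j • F.p j := by
      simp only [res, k, neg_smul, sum_neg_distrib]; abel
    have h1 := F.telescope μ hμ0 hμadd φ hφ x (fun i => abs_le.2 ⟨(hx i).1, (hx i).2.le⟩)
      (univ.filter fun j => k j = 1)
    rw [← sum_zsmul_eq k hk, ← sum_zsmul_eq k hk, ← hres] at h1
    have e : φ x - (∑ j, ⌊F.c j x⌋ • φ (F.p j) + φ (F.res x)) =
        φ x + ∑ j, k j • φ (F.p j) - φ (F.res x) := by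
      simp only [k, neg_smul, sum_neg_distrib]; abel
    rw [e]
    linarith [hcard (univ.filter fun j => k j = 1)]

/-- exact local homomorphisms extend (any target). -/
theorem ext_exact {A : Type*} [AddCommGroup A] (φ : Λ → A)
    (hφ : ∀ x y, F.box 2 x → F.box 2 y → F.box 2 (x + y) → φ (x + y) = φ x + φ y) :
    ∃ χ : Λ →+ A, ∀ x, (∀ i, -1 ≤ F.c i x ∧ F.c i x < 1) → φ x = χ x := by
  classical
  have key : ∀ a : A, (if a = 0 then (0 : ℝ) else 1) ≤ 0 → a = 0 := by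
    intro a h; by_contra ha; rw [if_neg ha] at h; linarith
  obtain ⟨Φ, h1, h2⟩ := F.ext_approx (fun a : A => if a = 0 then (0 : ℝ) else 1) (by simp)
    (fun a b => by
      by_cases ha : a = 0 <;> by_cases hb : b = 0 <;> simp [ha, hb]
      split_ifs <;> norm_num) (fun a => by simp) φ le_rfl
    (fun x y hx hy hxy => by simp [hφ x y hx hy hxy])
  refine ⟨AddMonoidHom.mk' Φ fun x y => ?_, fun x hx => ?_⟩
  · exact (sub_eq_zero.1 (key _ (by simpa using h1 x y))).symm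
  · exact sub_eq_zero.1 (key _ (by simpa using h2 x hx))

variable {V : Type*} [NormedAddCommGroup V] [NormedSpace ℝ V]

/-- **(Lin)** an additive map that is bounded on the unit box is real linear in the coordinates. -/
theorem hom_eq_sum (χ : Λ →+ V) {M : ℝ} (hχ : ∀ x, F.box 1 x → ‖χ x‖ ≤ M) (x : Λ) :
    χ x = ∑ i, F.c i x • χ (F.p i) := by
  have hM : 0 ≤ M := (norm_nonneg _).trans (hχ 0 fun i => by simp)
  let D : Λ →+ V := AddMonoidHom.mk' (fun x => χ x - ∑ i, F.c i x • χ (F.p i)) fun x y => by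
    simp only [map_add, add_smul, sum_add_distrib]; abel
  have hDp : ∀ j, D (F.p j) = 0 := by
    intro j
    change χ (F.p j) - ∑ i, F.c i (F.p j) • χ (F.p i) = 0
    simp [F.dual]
  have hDb : ∀ y, ‖D y‖ ≤ M + Fintype.card ι * M := by
    intro y
    have : D y = D (F.res y) := by
      rw [res, map_sub, map_sum]; simp [hDp]
    rw [this]
    refine (norm_sub_le _ _).trans (add_le_add (hχ _ (F.box_res y)) ?_)
    refine (norm_sum_le _ _).trans ?_
    calc ∑ i, ‖F.c i (F.res y) • χ (F.p i)‖ ≤ ∑ _i : ι, M := sum_le_sum fun i _ => by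
          rw [norm_smul, Real.norm_eq_abs]
          calc _ ≤ 1 * M := mul_le_mul (F.box_res y i) (hχ _ (F.box_p i)) (norm_nonneg _) zero_le_one
            _ = M := one_mul M
      _ = _ := by simp
  have h0 : D x = 0 := by
    by_contra hne
    have hpos : 0 < ‖D x‖ := norm_pos_iff.2 hne
    obtain ⟨n, hn⟩ := exists_nat_gt ((M + Fintype.card ι * M) / ‖D x‖)
    have := hDb (n • x)
    rw [map_nsmul, ← Nat.cast_smul_eq_nsmul ℝ, norm_smul, Real.norm_natCast] at this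
    rw [div_lt_iff₀ hpos] at hn
    linarith
  exact sub_eq_zero.1 h0

/-- **(H)** local approximate homomorphism into `V / Z`. -/
theorem local_hyers_mod [CompleteSpace V] (Z : AddSubgroup V) (φ : Λ → V) {ε : ℝ} (hε : 0 < ε)
    (hsep : ∀ z ∈ Z, ‖z‖ ≤ 6 * ((Fintype.card ι + 2) * ε) → z = 0)
    (hφ : ∀ x y, F.box 2 x → F.box 2 y → F.box 2 (x + y) →
      ∃ z ∈ Z, ‖φ x + φ y - φ (x + y) - z‖ ≤ ε) :
    ∃ Φ : Λ → V, (∀ x y, Φ x + Φ y - Φ (x + y) ∈ Z) ∧
      ∀ x, (∀ i, -1 ≤ F.c i x ∧ F.c i x < 1) →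
        ∃ z ∈ Z, ‖φ x - Φ x - z‖ ≤ (2 * Fintype.card ι + 3) * ε := by
  let μ : V → ℝ := fun v => Metric.infDist v (Z : Set V)
  have hne : (Z : Set V).Nonempty := ⟨0, Z.zero_mem⟩
  have hle : ∀ v, ∀ z ∈ Z, μ v ≤ ‖v - z‖ := fun v z hz => by
    rw [← dist_eq_norm]; exact Metric.infDist_le_dist_of_mem hz
  have hlt : ∀ v r, μ v < r → ∃ z ∈ Z, ‖v - z‖ < r := fun v r h => by
    obtain ⟨z, hz, h⟩ := (Metric.infDist_lt_iff hne).1 h
    exact ⟨z, hz, by rwa [← dist_eq_norm]⟩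
  obtain ⟨Φ, h1, h2⟩ := F.ext_approx μ (by simpa using hle 0 0 Z.zero_mem)
    (fun a b => by
      refine le_of_forall_pos_lt_add fun η hη => ?_
      obtain ⟨z, hz, h⟩ := hlt a (μ a + η / 2) (by linarith)
      obtain ⟨z', hz', h'⟩ := hlt b (μ b + η / 2) (by linarith)
      have := hle (a + b) (z + z') (Z.add_mem hz hz')
      rw [show a + b - (z + z') = (a - z) + (b - z') by abel] at this
      linarith [norm_add_le (a - z) (b - z')])
    (fun a => by
      refine le_of_forall_pos_lt_add fun η hη => ?_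
      obtain ⟨z, hz, h⟩ := hlt a (μ a + η) (by linarith)
      have := hle (-a) (-z) (Z.neg_mem hz)
      rw [show -a - -z = -(a - z) by abel, norm_neg] at this
      linarith) φ hε.le
    (fun x y hx hy hxy => by
      obtain ⟨z, hz, h⟩ := hφ x y hx hy hxy
      exact (hle _ z hz).trans h)
  obtain ⟨ψ, h3, h4⟩ := hyers_mod Z Φ hsep fun x y => by
    obtain ⟨z, hz, h⟩ := hlt _ ((Fintype.card ι + 2) * ε) (lt_of_le_of_lt (h1 x y) (by linarith))
    exact ⟨z, hz, h.le⟩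
  refine ⟨fun x => Φ x - ψ x, h4, fun x hx => ?_⟩
  obtain ⟨z, hz, h⟩ := hlt _ ((Fintype.card ι + 1) * ε) (lt_of_le_of_lt (h2 x hx) (by linarith))
  refine ⟨z, hz, ?_⟩
  rw [show φ x - (Φ x - ψ x) - z = (φ x - Φ x - z) + ψ x by abel]
  linarith [norm_add_le (φ x - Φ x - z) (ψ x), h3 x]

/-- **(H) on `ℤ^κ`**: the homomorphism is given by an additive lift. -/
theorem local_hyers_lattice {κ : Type*} [Fintype κ] [CompleteSpace V] (F : Frame (κ → ℤ) ι)
    (Z : AddSubgroup V) (φ : (κ → ℤ) → V) {ε : ℝ} (hε : 0 < ε)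
    (hsep : ∀ z ∈ Z, ‖z‖ ≤ 6 * ((Fintype.card ι + 2) * ε) → z = 0)
    (hφ : ∀ x y, F.box 2 x → F.box 2 y → F.box 2 (x + y) →
      ∃ z ∈ Z, ‖φ x + φ y - φ (x + y) - z‖ ≤ ε) :
    ∃ χ : (κ → ℤ) →+ V, ∀ x, (∀ i, -1 ≤ F.c i x ∧ F.c i x < 1) →
      ∃ z ∈ Z, ‖φ x - χ x - z‖ ≤ (2 * Fintype.card ι + 3) * ε := by
  obtain ⟨Φ, h1, h2⟩ := F.local_hyers_mod Z φ hε hsep hφ
  obtain ⟨χ, h3⟩ := exists_hom_of_mod Z Φ h1
  refine ⟨χ, fun x hx => ?_⟩
  obtain ⟨z, hz, h⟩ := h2 x hx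
  refine ⟨z + (Φ x - χ x), Z.add_mem hz (h3 x), ?_⟩
  rwa [show φ x - χ x - (z + (Φ x - χ x)) = φ x - Φ x - z by abel]

/-- **(Lin) with defects**: a bounded local approximate homomorphism into a Banach space is close to a
real linear form in the coordinates. -/
theorem local_lin [CompleteSpace V] (φ : Λ → V) {ε M : ℝ} (hε : 0 ≤ ε)
    (hM : ∀ x, F.box 1 x → ‖φ x‖ ≤ M)
    (hφ : ∀ x y, F.box 2 x → F.box 2 y → F.box 2 (x + y) → ‖φ x + φ y - φ (x + y)‖ ≤ ε) :
    ∃ v : ι → V, ∀ x, (∀ i, -1 ≤ F.c i x ∧ F.c i x < 1) →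
      ‖φ x - ∑ i, F.c i x • v i‖ ≤ (2 * Fintype.card ι + 1) * ε := by
  obtain ⟨Φ, h1, h2⟩ := F.ext_approx (fun v : V => ‖v‖) (by simp) norm_add_le (by simp) φ hε hφ
  obtain ⟨χ, h3⟩ := hyers Φ h1
  have h4 : ∀ x, (∀ i, -1 ≤ F.c i x ∧ F.c i x < 1) → ‖φ x - χ x‖ ≤ (2 * Fintype.card ι + 1) * ε := by
    intro x hx
    rw [show φ x - χ x = (φ x - Φ x) + (Φ x - χ x) by abel]
    linarith [norm_add_le (φ x - Φ x) (Φ x - χ x), h2 x hx, h3 x]
  have h5 : ∀ x, F.box 1 x → ‖χ x‖ ≤ (M + (2 * Fintype.card ι + 1) * ε) +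
      ∑ j, ‖χ (F.p j)‖ := by
    intro x hx
    have e : χ x = χ (F.res x) + ∑ j, ⌊F.c j x⌋ • χ (F.p j) := by
      rw [res, map_sub, map_sum]; simp
    have a1 := h4 (F.res x) fun i => by
      rw [c_res]; exact ⟨by linarith [Int.fract_nonneg (F.c i x)], Int.fract_lt_one _⟩
    have a2 := hM _ (F.box_res x)
    have a3 : ‖χ (F.res x)‖ ≤ ‖φ (F.res x)‖ + ‖φ (F.res x) - χ (F.res x)‖ := by
      simpa using norm_sub_le (φ (F.res x)) (φ (F.res x) - χ (F.res x))
    have a4 : ‖∑ j, ⌊F.c j x⌋ • χ (F.p j)‖ ≤ ∑ j, ‖χ (F.p j)‖ := by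
      refine (norm_sum_le _ _).trans (sum_le_sum fun j _ => ?_)
      have b1 : -1 ≤ ⌊F.c j x⌋ := Int.le_floor.2 (by exact_mod_cast (abs_le.1 (hx j)).1)
      have b2 : ⌊F.c j x⌋ < 2 := Int.floor_lt.2 (by push_cast; linarith [(abs_le.1 (hx j)).2])
      have : ⌊F.c j x⌋ = -1 ∨ ⌊F.c j x⌋ = 0 ∨ ⌊F.c j x⌋ = 1 := by omega
      rcases this with h | h | h <;> simp [h]
    rw [e]
    linarith [norm_add_le (χ (F.res x)) (∑ j, ⌊F.c j x⌋ • χ (F.p j))]
  refine ⟨fun i => χ (F.p i), fun x hx => ?_⟩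
  rw [← F.hom_eq_sum χ h5 x]
  exact h4 x hx

end Frame

/-- **Frames in dense lattices.**  `e` a basis of `E` of vectors of norm `≤ 1` with coordinates
bounded by the norm (orthonormal basis, standard basis for the sup norm), `j Λ` `τ`-dense. -/
theorem exists_frame {ι E : Type*} [Fintype ι] [DecidableEq ι] [NormedAddCommGroup E]
    [NormedSpace ℝ E] (e : Module.Basis ι ℝ E) (he1 : ∀ i, ‖e i‖ ≤ 1)
    (he2 : ∀ i v, |e.repr v i| ≤ ‖v‖) (j : Λ →+ E) {τ ρ : ℝ} (hρ : 0 < ρ)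
    (hτ : 2 * Fintype.card ι * τ ≤ ρ) (hdense : ∀ v, ∃ x, ‖j x - v‖ ≤ τ) :
    ∃ F : Frame Λ ι, (∀ i x, |F.c i x| ≤ 2 * ‖j x‖ / ρ) ∧
      (∀ x, j x = ∑ i, F.c i x • j (F.p i)) ∧ (∀ i, ‖j (F.p i) - ρ • e i‖ ≤ τ) ∧
      ∀ x t, F.box t x → ‖j x‖ ≤ Fintype.card ι * t * (ρ + τ) := by
  choose p hp using fun i => hdense (ρ • e i)
  have hτ0 : 0 ≤ τ := by obtain ⟨x, hx⟩ := hdense 0; exact (norm_nonneg _).trans hx
  have key : ∀ t : ι → ℝ, ρ * ‖t‖ ≤ 2 * ‖∑ i, t i • j (p i)‖ := by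
    intro t
    have h1 : ‖∑ i, t i • (j (p i) - ρ • e i)‖ ≤ Fintype.card ι * (‖t‖ * τ) := by
      refine (norm_sum_le _ _).trans ?_
      calc ∑ i, ‖t i • (j (p i) - ρ • e i)‖ ≤ ∑ _i : ι, ‖t‖ * τ := sum_le_sum fun i _ => by
            rw [norm_smul]
            exact mul_le_mul (norm_le_pi_norm t i) (hp i) (norm_nonneg _) (norm_nonneg _)
        _ = _ := by simp
    have h2 : ‖t‖ ≤ ‖∑ i, t i • e i‖ := by
      refine (pi_norm_le_iff_of_nonneg (norm_nonneg _)).2 fun i => ?_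
      have := he2 i (∑ i, t i • e i)
      rwa [e.repr_sum_self] at this
    have h3 : ρ • ∑ i, t i • e i = ∑ i, t i • j (p i) - ∑ i, t i • (j (p i) - ρ • e i) := by
      rw [← sum_sub_distrib, smul_sum]
      exact sum_congr rfl fun i _ => by module
    have h4 : ρ * ‖∑ i, t i • e i‖ ≤ ‖∑ i, t i • j (p i)‖ + Fintype.card ι * (‖t‖ * τ) := by
      have := norm_sub_le (∑ i, t i • j (p i)) (∑ i, t i • (j (p i) - ρ • e i))
      rw [← h3, norm_smul, Real.norm_of_nonneg hρ.le] at this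
      linarith
    nlinarith [mul_le_mul_of_nonneg_left h2 hρ.le, mul_le_mul_of_nonneg_left hτ (norm_nonneg t)]
  have hli : LinearIndependent ℝ fun i => j (p i) := by
    rw [Fintype.linearIndependent_iff]
    intro t ht i
    have := key t
    rw [ht, norm_zero, mul_zero] at this
    have h0 : ‖t‖ ≤ 0 := by
      by_contra h
      push Not at h
      nlinarith
    exact congrFun (norm_le_zero_iff.1 h0) i
  have := Module.Finite.of_basis e
  let b : Module.Basis ι ℝ E := basisOfLinearIndependentOfCardEqFinrank' _ hli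
    (Module.finrank_eq_card_basis e).symm
  have hb : ∀ i, b i = j (p i) := fun i => by simp [b]
  have hsum : ∀ x, j x = ∑ i, b.repr (j x) i • j (p i) := fun x => by
    conv_lhs => rw [← b.sum_repr (j x)]
    simp only [hb]
  refine ⟨⟨p, fun i => (b.coord i).toAddMonoidHom.comp j, fun i k => ?_⟩, fun i x => ?_, hsum, hp,
    fun x t ht => ?_⟩
  · change b.repr (j (p k)) i = _
    rw [← hb, b.repr_self, Finsupp.single_apply]
    simp only [eq_comm]
  · change |b.repr (j x) i| ≤ _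
    have := key (b.repr (j x))
    rw [← hsum] at this
    rw [le_div_iff₀ hρ]
    have h2 : |b.repr (j x) i| ≤ ‖(b.repr (j x) : ι → ℝ)‖ := norm_le_pi_norm (b.repr (j x) : ι → ℝ) i
    nlinarith
  · rw [hsum x]
    refine (norm_sum_le _ _).trans ?_
    calc ∑ i, ‖b.repr (j x) i • j (p i)‖ ≤ ∑ _i : ι, t * (ρ + τ) := sum_le_sum fun i _ => by
          rw [norm_smul]
          refine mul_le_mul (ht i) ?_ (norm_nonneg _) ((abs_nonneg _).trans (ht i))
          have h1 : ‖j (p i)‖ ≤ ‖ρ • e i‖ + ‖j (p i) - ρ • e i‖ := by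
            simpa using norm_add_le (ρ • e i) (j (p i) - ρ • e i)
          rw [norm_smul, Real.norm_of_nonneg hρ.le] at h1
          nlinarith [hp i, he1 i]
      _ = _ := by simp; ring

end Crest.Agent.T49.Gon
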