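import Mathlib

/-! # Row 49: the LINE LEMMA (geometry-of-numbers step of the Leng-type theorem)

If the unit ball of a subgroup `Λ` of a real vector space has `δ N` distinct values of an integer
valued functional `w` with `|w| ≤ N ν`, then modulo the span of the short elements of `ker w` the
unit ball lies on a line.  Proof by growth of sumsets (Cauchy-Davenport), no determinants. -/

set_option autoImplicit false

open Finset
open scoped Pointwise

namespace Crest.Agent.T49.Gon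

section Growth

variable {V : Type*} [AddCommGroup V] [DecidableEq V]

theorem card_nsmul_ge [IsAddTorsionFree V] (A : Finset V) (hA : A.Nonempty) (u : ℕ) :
    u * (#A - 1) + 1 ≤ #(u • A) := by
  induction u with
  | zero => simp
  | succ u ih =>
    have hne : (u • A).Nonempty := by
      rw [← card_pos]; omega
    have h := cauchy_davenport_of_isAddTorsionFree hne hA
    rw [succ_nsmul]
    have hA1 : 1 ≤ #A := card_pos.2 hA
    have : (u + 1) * (#A - 1) = u * (#A - 1) + (#A - 1) := by ring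
    omega

/-- two-dimensional growth: `F` inside one fibre of `π`. -/
theorem card_add_ge_fibre {W : Type*} [AddCommGroup W] [DecidableEq W] (π : V →+ W)
    (F B : Finset V) (c : W) (hF : ∀ x ∈ F, π x = c) :
    #F * #(B.image π) ≤ #(F + B) := by
  classical
  have hrep : ∀ p ∈ B.image π, ∃ b ∈ B, π b = p := fun p hp => by
    simpa using hp
  choose! rep hrepB hrepπ using hrep
  rw [← card_product]
  refine card_le_card_of_injOn (fun q => q.1 + rep q.2) ?_ ?_
  · intro q hq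
    simp only [coe_product, Set.mem_prod, mem_coe] at hq
    exact mem_coe.2 (add_mem_add hq.1 (hrepB _ hq.2))
  · intro q hq q' hq' h
    simp only [coe_product, Set.mem_prod, mem_coe] at hq hq'
    have h1 : q.2 = q'.2 := by
      have := congrArg π h
      simp only [map_add, hF _ hq.1, hF _ hq'.1, hrepπ _ hq.2, hrepπ _ hq'.2] at this
      exact add_left_cancel this
    have h2 : q.1 = q'.1 := by
      simp only [h1] at h
      exact add_right_cancel h
    exact Prod.ext h2 h1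

theorem growth_two {W : Type*} [AddCommGroup W] [DecidableEq W] [IsAddTorsionFree V]
    [IsAddTorsionFree W] (π : V →+ W) (A : Finset V) (x y : V) (h0 : (0 : V) ∈ A) (hx : x ∈ A)
    (hy : y ∈ A) (hx0 : x ≠ 0) (hπx : π x = 0) (hπy : π y ≠ 0) (u : ℕ) :
    u * u * #A ≤ 4 * #((u + u) • A) := by
  classical
  have hne : (A.image π).Nonempty := ⟨π 0, mem_image_of_mem _ h0⟩
  obtain ⟨c, hc, hmax⟩ := exists_max_image (A.image π) (fun c => #(A.filter fun a => π a = c)) hne
  set F := A.filter fun a => π a = c with hFdef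
  have hn2 : 2 ≤ #F := by
    refine le_trans ?_ (hmax (π 0) (mem_image_of_mem _ h0))
    have : ({0, x} : Finset V) ⊆ A.filter fun a => π a = π 0 := by
      intro a ha
      simp only [mem_insert, mem_singleton] at ha
      rcases ha with rfl | rfl
      · simp [h0]
      · simp [hx, hπx]
    have h2 := card_le_card this
    rwa [card_pair hx0.symm] at h2
  have hm2 : 2 ≤ #(A.image π) := by
    have : ({π 0, π y} : Finset W) ⊆ A.image π := by
      intro a ha
      simp only [mem_insert, mem_singleton] at ha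
      rcases ha with rfl | rfl
      · exact mem_image_of_mem _ h0
      · exact mem_image_of_mem _ hy
    have h2 := card_le_card this
    rwa [card_pair (by simpa using hπy.symm)] at h2
  have hA : #A ≤ #F * #(A.image π) := by
    rw [card_eq_sum_card_image π A, mul_comm]
    calc ∑ b ∈ A.image π, #(A.filter fun a => π a = b) ≤ ∑ _b ∈ A.image π, #F :=
          sum_le_sum fun b hb => hmax b hb
      _ = _ := by simp
  have hFne : F.Nonempty := by rw [← card_pos]; omega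
  have h1 := card_nsmul_ge F hFne u
  have h2 := card_nsmul_ge (A.image π) hne u
  have himg : (u • A).image π = u • A.image π := by
    induction u with
    | zero => simp; rfl
    | succ u ih =>
      rw [succ_nsmul, succ_nsmul, image_add π, ih (card_nsmul_ge F hFne u)
        (card_nsmul_ge (A.image π) hne u)]
  have hfib : ∀ a ∈ u • F, π a = u • c := by
    clear h1 h2 himg
    induction u with
    | zero => intro a ha; simp at ha; simp [ha]
    | succ u ih =>
      intro a ha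
      rw [succ_nsmul, mem_add] at ha
      obtain ⟨p, hp, q, hq, rfl⟩ := ha
      rw [map_add, ih p hp, (mem_filter.1 hq).2, succ_nsmul]
  have h3 := card_add_ge_fibre π (u • F) (u • A) (u • c) hfib
  have hsub : u • F + u • A ⊆ (u + u) • A := by
    rw [add_nsmul]
    exact add_subset_add_right (nsmul_subset_nsmul_left (filter_subset _ _))
  have h4 := card_le_card hsub
  rw [himg] at h3
  have h5 : u * #F ≤ 2 * #(u • F) := by
    have : u * #F ≤ u * (2 * (#F - 1)) := Nat.mul_le_mul_left _ (by omega)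
    nlinarith
  have h6 : u * #(A.image π) ≤ 2 * #(u • A.image π) := by
    have : u * #(A.image π) ≤ u * (2 * (#(A.image π) - 1)) := Nat.mul_le_mul_left _ (by omega)
    nlinarith
  calc u * u * #A ≤ u * u * (#F * #(A.image π)) := Nat.mul_le_mul_left _ hA
    _ = (u * #F) * (u * #(A.image π)) := by ring
    _ ≤ (2 * #(u • F)) * (2 * #(u • A.image π)) := Nat.mul_le_mul h5 h6
    _ = 4 * (#(u • F) * #(u • A.image π)) := by ring
    _ ≤ 4 * #((u + u) • A) := Nat.mul_le_mul_left _ (h3.trans h4)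

end Growth

section Line

variable {E : Type*} [AddCommGroup E] [Module ℝ E]

/-- span of the elements of `Λ ∩ ker w` of size at most `R`. -/
def shortKer (Λ : AddSubgroup E) (ν : E → ℝ) (w : E →ₗ[ℝ] ℝ) (R : ℝ) : Submodule ℝ E :=
  Submodule.span ℝ {z | z ∈ Λ ∧ w z = 0 ∧ ν z ≤ R}

theorem shortKer_le_ker (Λ : AddSubgroup E) (ν : E → ℝ) (w : E →ₗ[ℝ] ℝ) (R : ℝ) :
    shortKer Λ ν w R ≤ LinearMap.ker w :=
  Submodule.span_le.2 fun _ hz => hz.2.1

theorem shortKer_mono (Λ : AddSubgroup E) (ν : E → ℝ) (w : E →ₗ[ℝ] ℝ) {R R' : ℝ} (h : R ≤ R') :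
    shortKer Λ ν w R ≤ shortKer Λ ν w R' :=
  Submodule.span_mono fun _ hz => ⟨hz.1, hz.2.1, hz.2.2.trans h⟩

theorem card_int_le (T : Finset ℝ) (R : ℝ) (hR : 0 ≤ R)
    (hT : ∀ t ∈ T, (∃ n : ℤ, t = n) ∧ |t| ≤ R) : (#T : ℝ) ≤ 2 * R + 1 := by
  classical
  have hsub : T ⊆ (Icc (-⌊R⌋) ⌊R⌋).image fun n : ℤ => (n : ℝ) := by
    intro t ht
    obtain ⟨⟨n, rfl⟩, h⟩ := hT t ht
    refine mem_image.2 ⟨n, ?_, rfl⟩
    rw [abs_le] at h
    rw [mem_Icc]
    refine ⟨?_, Int.le_floor.2 h.2⟩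
    have : -n ≤ ⌊R⌋ := Int.le_floor.2 (by push_cast; linarith [h.1])
    omega
  have h1 := (card_le_card hsub).trans card_image_le
  rw [Int.card_Icc] at h1
  have h0 : 0 ≤ ⌊R⌋ := Int.floor_nonneg.2 hR
  have h2 : ((#T : ℕ) : ℤ) ≤ ⌊R⌋ + 1 - -⌊R⌋ := by
    have := Int.toNat_of_nonneg (show 0 ≤ ⌊R⌋ + 1 - -⌊R⌋ by omega)
    omega
  have h3 : (#T : ℝ) ≤ (⌊R⌋ : ℝ) + 1 - -(⌊R⌋ : ℝ) := by exact_mod_cast h2
  linarith [Int.floor_le R]

/-- **Line lemma.** -/
theorem line_lemma (Λ : AddSubgroup E) (ν : E → ℝ) (hν0 : ν 0 ≤ 0)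
    (hνadd : ∀ x ∈ Λ, ∀ y ∈ Λ, ν (x + y) ≤ ν x + ν y) (hνneg : ∀ x ∈ Λ, ν (-x) ≤ ν x)
    (w : E →ₗ[ℝ] ℝ) (hw : ∀ x ∈ Λ, ∃ n : ℤ, w x = n) (N δ : ℝ) (hN : 1 ≤ N) (hδ : 0 < δ)
    (hδ1 : δ ≤ 1) (hwN : ∀ x ∈ Λ, |w x| ≤ N * ν x) (S : Finset E)
    (hS : ∀ x ∈ S, x ∈ Λ ∧ ν x ≤ 1) (hinj : Set.InjOn w S) (hcard : δ * N ≤ #S)
    (x y : E) (hx : x ∈ Λ) (hx1 : ν x ≤ 1) (hy : y ∈ Λ) (hy1 : ν y ≤ 1) :
    w y • x - w x • y ∈ shortKer Λ ν w (100 / δ) := by
  classical
  set W0 := shortKer Λ ν w (100 / δ) with hW0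
  by_contra hne
  have : IsAddTorsionFree (E ⧸ W0) := .of_isTorsionFree ℝ _
  set mk : E →ₗ[ℝ] E ⧸ W0 := W0.mkQ with hmk
  let wb : (E ⧸ W0) →ₗ[ℝ] ℝ := W0.liftQ w (shortKer_le_ker Λ ν w _)
  have hwb : ∀ z, wb (mk z) = w z := fun z => rfl
  have hne' : w y • mk x - w x • mk y ≠ 0 := by
    intro h
    apply hne
    rw [← Submodule.Quotient.mk_eq_zero, ← Submodule.mkQ_apply, ← hmk, map_sub, map_smul,
      map_smul]
    exact h
  have hx0 : mk x ≠ 0 := by
    intro h
    apply hne'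
    have : w x = 0 := by rw [← hwb, h, map_zero]
    rw [h, this]; simp
  set L := Submodule.span ℝ {mk x} with hL
  have : IsAddTorsionFree ((E ⧸ W0) ⧸ L) := .of_isTorsionFree ℝ _
  have hπx : L.mkQ (mk x) = 0 := by
    rw [Submodule.mkQ_apply, Submodule.Quotient.mk_eq_zero]
    exact Submodule.mem_span_singleton_self _
  have hπy : L.mkQ (mk y) ≠ 0 := by
    intro h
    rw [Submodule.mkQ_apply, Submodule.Quotient.mk_eq_zero, hL,
      Submodule.mem_span_singleton] at h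
    obtain ⟨c, hc⟩ := h
    apply hne'
    have : w y = c * w x := by rw [← hwb, ← hc, map_smul, hwb, smul_eq_mul]
    rw [this, ← hc, smul_smul, mul_comm, sub_self]
  set A0 : Finset E := insert 0 (insert x (insert y S)) with hA0
  have hA0m : ∀ z ∈ A0, z ∈ Λ ∧ ν z ≤ 1 := by
    intro z hz
    simp only [hA0, mem_insert] at hz
    rcases hz with rfl | rfl | rfl | hz
    · exact ⟨Λ.zero_mem, by linarith⟩
    · exact ⟨hx, hx1⟩
    · exact ⟨hy, hy1⟩
    · exact hS z hz
  set A := A0.image mk with hA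
  set u : ℕ := ⌊20 / δ⌋₊ + 1 with hu
  have hg := growth_two L.mkQ.toAddMonoidHom A (mk x) (mk y)
    (mem_image.2 ⟨0, by simp [hA0], map_zero _⟩) (mem_image_of_mem _ (by simp [hA0]))
    (mem_image_of_mem _ (by simp [hA0])) hx0 hπx hπy u
  have hSA : #S ≤ #A := by
    refine card_le_card_of_injOn mk (fun z hz => mem_coe.2 (mem_image_of_mem _ ?_)) ?_
    · simp only [hA0, mem_insert]; exact Or.inr (Or.inr (Or.inr (mem_coe.1 hz)))
    · intro a ha b hb h
      exact hinj ha hb (by rw [← hwb, h, hwb])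
  have hmem : ∀ t : ℕ, ∀ a ∈ t • A, ∃ z ∈ Λ, ν z ≤ t ∧ mk z = a := by
    intro t
    induction t with
    | zero =>
      intro a ha
      simp at ha
      exact ⟨0, Λ.zero_mem, by simpa using hν0, by rw [ha, map_zero]⟩
    | succ t ih =>
      intro a ha
      rw [succ_nsmul, mem_add] at ha
      obtain ⟨p, hp, q, hq, rfl⟩ := ha
      obtain ⟨z, hz, hz1, rfl⟩ := ih p hp
      obtain ⟨z', hz', rfl⟩ := mem_image.1 hq
      refine ⟨z + z', Λ.add_mem hz (hA0m z' hz').1, ?_, map_add _ _ _⟩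
      have := hνadd z hz z' (hA0m z' hz').1
      push_cast
      linarith [(hA0m z' hz').2]
  have hu1 : 20 / δ < u := by rw [hu]; push_cast; exact Nat.lt_floor_add_one _
  have hu2 : (u : ℝ) ≤ 20 / δ + 1 := by
    rw [hu]; push_cast; linarith [Nat.floor_le (show 0 ≤ 20 / δ by positivity)]
  have hδ' : 1 ≤ 1 / δ := by rw [le_div_iff₀ hδ]; linarith
  have h100 : 4 * (u : ℝ) ≤ 100 / δ := by
    have : (20 : ℝ) / δ = 20 * (1 / δ) := by ring
    have h2 : (100 : ℝ) / δ = 100 * (1 / δ) := by ring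
    linarith
  have hup : (#((u + u) • A) : ℝ) ≤ 2 * (N * (2 * u)) + 1 := by
    have hinj' : Set.InjOn wb (((u + u) • A : Finset _) : Set _) := by
      intro a ha b hb h
      obtain ⟨z, hz, hz1, rfl⟩ := hmem _ a ha
      obtain ⟨z', hz', hz1', rfl⟩ := hmem _ b hb
      rw [hwb, hwb] at h
      rw [← sub_eq_zero, ← map_sub, hmk, Submodule.mkQ_apply, Submodule.Quotient.mk_eq_zero]
      refine Submodule.subset_span ⟨Λ.sub_mem hz hz', by rw [map_sub, h, sub_self], ?_⟩
      have h1 := hνadd z hz (-z') (Λ.neg_mem hz')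
      have h2 := hνneg z' hz'
      rw [sub_eq_add_neg]
      push_cast at hz1 hz1'
      linarith
    rw [← card_image_of_injOn hinj']
    refine card_int_le _ _ (by positivity) fun t ht => ?_
    obtain ⟨a, ha, rfl⟩ := mem_image.1 ht
    obtain ⟨z, hz, hz1, rfl⟩ := hmem _ a ha
    rw [hwb]
    refine ⟨hw z hz, (hwN z hz).trans ?_⟩
    push_cast at hz1
    exact mul_le_mul_of_nonneg_left (by linarith) (by linarith)
  have hg' : (u : ℝ) * u * #A ≤ 4 * #((u + u) • A) := by exact_mod_cast hg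
  have hSA' : (#S : ℝ) ≤ #A := by exact_mod_cast hSA
  have hu0 : (1 : ℝ) ≤ u := by rw [hu]; push_cast; linarith [Nat.cast_nonneg (α := ℝ) ⌊20 / δ⌋₊]
  have huδ : 20 < u * δ := by rwa [div_lt_iff₀ hδ] at hu1
  have huN : 1 ≤ (u : ℝ) * N := by nlinarith
  have h1 : (u : ℝ) * u * (δ * N) ≤ u * u * #A :=
    mul_le_mul_of_nonneg_left (hcard.trans hSA') (by positivity)
  have h2 : 20 * ((u : ℝ) * N) < (u * δ) * (u * N) := mul_lt_mul_of_pos_right huδ (by linarith)
  nlinarith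

/-- In a set of at least `δ N ≥ 4`... integers of absolute value `≤ N` there are a far pair and a close pair. -/
theorem exists_far_close (T : Finset ℤ) (N δ : ℝ) (hδ : 0 < δ) (hT : ∀ t ∈ T, |(t : ℝ)| ≤ N)
    (hcard : δ * N ≤ #T) (h2 : 2 ≤ δ * N) :
    (∃ a ∈ T, ∃ b ∈ T, δ * N / 2 ≤ ((a - b : ℤ) : ℝ)) ∧
      ∃ a ∈ T, ∃ b ∈ T, 1 ≤ a - b ∧ ((a - b : ℤ) : ℝ) ≤ 4 / δ := by
  classical
  have hT2 : (2 : ℝ) ≤ #T := h2.trans hcard
  have hTne : T.Nonempty := by
    rw [← card_pos]; exact_mod_cast (show (0 : ℝ) < #T by linarith)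
  constructor
  · refine ⟨T.max' hTne, T.max'_mem _, T.min' hTne, T.min'_mem _, ?_⟩
    have hsub : T ⊆ Icc (T.min' hTne) (T.max' hTne) := fun t ht =>
      mem_Icc.2 ⟨T.min'_le t ht, T.le_max' t ht⟩
    have h1 := card_le_card hsub
    rw [Int.card_Icc] at h1
    have h0 : T.min' hTne ≤ T.max' hTne := T.min'_le_max' hTne
    have h3 : ((#T : ℕ) : ℤ) ≤ T.max' hTne - T.min' hTne + 1 := by
      have := Int.toNat_of_nonneg (show 0 ≤ T.max' hTne + 1 - T.min' hTne by omega)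
      omega
    have h4 : (#T : ℝ) ≤ ((T.max' hTne - T.min' hTne : ℤ) : ℝ) + 1 := by exact_mod_cast h3
    linarith
  · by_contra hcon
    push Not at hcon
    set g : ℕ := ⌊4 / δ⌋₊ + 1 with hg
    have hg1 : 4 / δ < g := by rw [hg]; push_cast; exact Nat.lt_floor_add_one _
    have hg0 : (0 : ℤ) < g := by rw [hg]; push_cast; positivity
    have hgap : ∀ a ∈ T, ∀ b ∈ T, b < a → (g : ℤ) ≤ a - b := by
      intro a ha b hb hlt
      have := hcon a ha b hb (by omega)
      have h5 : ((⌊4 / δ⌋₊ : ℕ) : ℝ) < ((a - b : ℤ) : ℝ) :=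
        lt_of_le_of_lt (Nat.floor_le (by positivity)) this
      have h6 : ((⌊4 / δ⌋₊ : ℕ) : ℤ) < a - b := by exact_mod_cast h5
      rw [hg]; push_cast; omega
    set m := T.min' hTne with hm
    set M := T.max' hTne with hM
    have hinj : Set.InjOn (fun t : ℤ => (t - m) / g) T := by
      intro a ha b hb h
      by_contra hab
      have key : ∀ a ∈ T, ∀ b ∈ T, b < a → (b - m) / g < (a - m) / g := by
        intro a ha b hb hlt
        have h1 := hgap a ha b hb hlt
        have h2 : (b - m + g) / g ≤ (a - m) / g := Int.ediv_le_ediv hg0 (by omega)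
        rw [Int.add_ediv_of_dvd_right (dvd_refl _), Int.ediv_self hg0.ne'] at h2
        omega
      rcases lt_or_gt_of_ne hab with hlt | hlt
      · exact absurd h (key b hb a ha hlt).ne
      · exact absurd h (key a ha b hb hlt).ne'
    have hmaps : ∀ t ∈ T, (t - m) / g ∈ Icc (0 : ℤ) ((M - m) / g) := by
      intro t ht
      rw [mem_Icc]
      exact ⟨Int.ediv_nonneg (by have := T.min'_le t ht; omega) hg0.le,
        Int.ediv_le_ediv hg0 (by have := T.le_max' t ht; omega)⟩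
    have h1 := card_le_card_of_injOn _ (fun t ht => mem_coe.2 (hmaps t ht)) hinj
    rw [Int.card_Icc] at h1
    have hMm : 0 ≤ M - m := by have := T.min'_le_max' hTne; omega
    have h0 : 0 ≤ (M - m) / g := Int.ediv_nonneg hMm hg0.le
    have h3 : ((#T : ℕ) : ℤ) ≤ (M - m) / g + 1 := by
      have := Int.toNat_of_nonneg (show 0 ≤ (M - m) / g + 1 - 0 by omega)
      omega
    have h4 : (M - m) / g * g ≤ M - m := Int.ediv_mul_le _ hg0.ne'
    have h5 : (#T : ℝ) ≤ (((M - m) / g : ℤ) : ℝ) + 1 := by exact_mod_cast h3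
    have h6 : (((M - m) / g : ℤ) : ℝ) * g ≤ (M : ℝ) - m := by exact_mod_cast h4
    have h7 := abs_le.1 (hT M (T.max'_mem _))
    have h8 := abs_le.1 (hT m (T.min'_mem _))
    have h9 : 4 < g * δ := by rwa [div_lt_iff₀ hδ] at hg1
    have hN : 0 < N := by
      by_contra hN
      push Not at hN
      nlinarith
    have h10 : δ * N / 2 ≤ (((M - m) / g : ℤ) : ℝ) := by linarith
    have hgr : (0 : ℝ) < g := by exact_mod_cast hg0
    have h11 : δ * N / 2 * g ≤ 2 * N := by
      calc δ * N / 2 * g ≤ (((M - m) / g : ℤ) : ℝ) * g := mul_le_mul_of_nonneg_right h10 hgr.le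
        _ ≤ 2 * N := by linarith
    nlinarith

/-- **Line lemma, form used by LT**: a far difference `s₀`, a close difference `s₁`, with slopes
congruent modulo the span of the short elements of `Λ ∩ ker w`. -/
theorem line_slopes (Λ : AddSubgroup E) (ν : E → ℝ) (hν0 : ν 0 ≤ 0)
    (hνadd : ∀ x ∈ Λ, ∀ y ∈ Λ, ν (x + y) ≤ ν x + ν y) (hνneg : ∀ x ∈ Λ, ν (-x) ≤ ν x)
    (w : E →ₗ[ℝ] ℝ) (hw : ∀ x ∈ Λ, ∃ n : ℤ, w x = n) (N δ : ℝ) (hδ : 0 < δ)
    (hδ1 : δ ≤ 1) (h2 : 2 ≤ δ * N) (hwN : ∀ x ∈ Λ, |w x| ≤ N * ν x) (S : Finset E)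
    (hS : ∀ x ∈ S, x ∈ Λ ∧ ν x ≤ 1) (hinj : Set.InjOn w S) (hcard : δ * N ≤ #S) :
    ∃ s₀ ∈ Λ, ∃ s₁ ∈ Λ, ∃ g : ℕ, ν s₀ ≤ 2 ∧ ν s₁ ≤ 2 ∧ δ * N / 2 ≤ w s₀ ∧ w s₁ = g ∧ 1 ≤ g ∧
      (g : ℝ) ≤ 4 / δ ∧ (w s₀)⁻¹ • s₀ - (g : ℝ)⁻¹ • s₁ ∈ shortKer Λ ν w (100 / δ) := by
  classical
  have hN : 1 ≤ N := by nlinarith
  have hL := line_lemma Λ ν hν0 hνadd hνneg w hw N δ hN hδ hδ1 hwN S hS hinj hcard
  have hw' : ∀ x ∈ S, ∃ n : ℤ, w x = n := fun x hx => hw x (hS x hx).1
  choose! n hn using hw'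
  have hninj : Set.InjOn n S := fun a ha b hb h => hinj ha hb (by rw [hn a ha, hn b hb, h])
  obtain ⟨⟨a, ha, b, hb, hab⟩, c, hc, d, hd, hcd1, hcd2⟩ :=
    exists_far_close (S.image n) N δ hδ (by
      intro t ht
      obtain ⟨x, hx, rfl⟩ := mem_image.1 ht
      rw [← hn x hx]
      exact (hwN x (hS x hx).1).trans (by nlinarith [(hS x hx).2]))
      (by rwa [card_image_of_injOn hninj]) h2
  obtain ⟨a, ha', rfl⟩ := mem_image.1 ha
  obtain ⟨b, hb', rfl⟩ := mem_image.1 hb
  obtain ⟨c, hc', rfl⟩ := mem_image.1 hc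
  obtain ⟨d, hd', rfl⟩ := mem_image.1 hd
  have hν2 : ∀ p ∈ S, ∀ q ∈ S, ν (p - q) ≤ 2 := by
    intro p hp q hq
    have h1 := hνadd p (hS p hp).1 (-q) (Λ.neg_mem (hS q hq).1)
    have h2 := hνneg q (hS q hq).1
    rw [sub_eq_add_neg]
    linarith [(hS p hp).2, (hS q hq).2]
  have hwab : w (a - b) = ((n a - n b : ℤ) : ℝ) := by
    rw [map_sub, hn a ha', hn b hb']; push_cast; ring
  have hwcd : w (c - d) = ((n c - n d : ℤ) : ℝ) := by
    rw [map_sub, hn c hc', hn d hd']; push_cast; ring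
  obtain ⟨g, hg⟩ := Int.eq_ofNat_of_zero_le (show 0 ≤ n c - n d by omega)
  have hgw : w (c - d) = g := by rw [hwcd, hg]; push_cast; ring
  have hg1 : 1 ≤ g := by omega
  have hgr : (0 : ℝ) < g := by exact_mod_cast hg1
  have hpos : 0 < w (a - b) := by rw [hwab]; linarith
  refine ⟨a - b, Λ.sub_mem (hS a ha').1 (hS b hb').1, c - d, Λ.sub_mem (hS c hc').1 (hS d hd').1,
    g, hν2 a ha' b hb', hν2 c hc' d hd', by rwa [hwab], hgw, hg1, by rw [← hgw, hwcd]; exact hcd2, ?_⟩
  have key : w (c - d) • (a - b) - w (a - b) • (c - d) ∈ shortKer Λ ν w (100 / δ) := by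
    have e : w (c - d) • (a - b) - w (a - b) • (c - d) =
        ((w c • a - w a • c) - (w d • a - w a • d)) - ((w c • b - w b • c) - (w d • b - w b • d)) := by
      simp only [map_sub]; module
    rw [e]
    have H := fun p hp q hq => hL p q (hS p hp).1 (hS p hp).2 (hS q hq).1 (hS q hq).2
    exact Submodule.sub_mem _ (Submodule.sub_mem _ (H a ha' c hc') (H a ha' d hd'))
      (Submodule.sub_mem _ (H b hb' c hc') (H b hb' d hd'))
  have e2 : (w (a - b))⁻¹ • (a - b) - (g : ℝ)⁻¹ • (c - d) =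
      ((w (a - b))⁻¹ * (g : ℝ)⁻¹) • (w (c - d) • (a - b) - w (a - b) • (c - d)) := by
    rw [hgw]
    generalize w (a - b) = r at hpos ⊢
    generalize a - b = p
    generalize c - d = q
    rw [smul_sub, smul_smul, smul_smul]
    congr 2
    · field_simp
    · field_simp
  rw [e2]
  exact Submodule.smul_mem _ _ key

end Line

end Crest.Agent.T49.Gon
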