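import Mathlib

/-! # Row 49: rational linear algebra with heights

One generalised inverse `A * B * A = q • A` with Cramer bounds gives kernels, annihilators,
intersections, exact and approximate solutions. -/

set_option autoImplicit false
set_option linter.unusedSectionVars false

open Finset Matrix

namespace Crest.Agent.T49.Gon

/-- the blow-up of a height `H` in dimension `d`. -/
noncomputable def bl (d : ℕ) (H : ℝ) : ℝ := (((d : ℝ) + 1) * H) ^ (d + 2)

theorem one_le_bl (d : ℕ) {H : ℝ} (hH : 1 ≤ H) : 1 ≤ bl d H :=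
  one_le_pow₀ (by nlinarith [Nat.cast_nonneg (α := ℝ) d])

theorem mul_le_bl (d : ℕ) {H : ℝ} (hH : 1 ≤ H) : ((d : ℝ) + 1) * H ≤ bl d H :=
  le_self_pow₀ (by nlinarith [Nat.cast_nonneg (α := ℝ) d]) (by omega)

theorem le_bl (d : ℕ) {H : ℝ} (hH : 1 ≤ H) : H ≤ bl d H :=
  le_trans (by nlinarith [Nat.cast_nonneg (α := ℝ) d]) (mul_le_bl d hH)

theorem bl_mono {d d' : ℕ} {H H' : ℝ} (hH : 1 ≤ H) (hd : d ≤ d') (h : H ≤ H') :
    bl d H ≤ bl d' H' := by
  have hd' : (d : ℝ) ≤ d' := by exact_mod_cast hd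
  have h0 : (0 : ℝ) ≤ d := Nat.cast_nonneg d
  unfold bl
  calc (((d : ℝ) + 1) * H) ^ (d + 2) ≤ (((d' : ℝ) + 1) * H') ^ (d + 2) :=
        pow_le_pow_left₀ (by positivity) (by nlinarith) _
    _ ≤ _ := pow_le_pow_right₀ (by nlinarith) (by omega)

/-- quasi-polynomial form of the blow-up. -/
theorem bl_le_exp {d : ℕ} {H Q : ℝ} (hQ : 2 ≤ Q) (hd : (d : ℝ) ≤ Q) (hH0 : 0 ≤ H)
    (hH : H ≤ Real.exp Q) : bl d H ≤ Real.exp (Q ^ 4) := by
  have h1 : (d : ℝ) + 1 ≤ Real.exp Q := le_trans (by linarith) (Real.add_one_le_exp Q)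
  have h2 : ((d : ℝ) + 1) * H ≤ Real.exp (2 * Q) := by
    rw [two_mul, Real.exp_add]
    exact mul_le_mul h1 hH hH0 (Real.exp_pos _).le
  unfold bl
  calc (((d : ℝ) + 1) * H) ^ (d + 2) ≤ Real.exp (2 * Q) ^ (d + 2) :=
        pow_le_pow_left₀ (by positivity) h2 _
    _ = Real.exp (((d + 2 : ℕ) : ℝ) * (2 * Q)) := (Real.exp_nat_mul _ _).symm
    _ ≤ _ := by
      apply Real.exp_le_exp.2
      push_cast
      have h3 : ((d : ℝ) + 2) * (2 * Q) ≤ (2 * Q) * (2 * Q) :=
        mul_le_mul_of_nonneg_right (by linarith) (by linarith)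
      have h4 : 4 ≤ Q ^ 2 := by nlinarith
      nlinarith [mul_le_mul_of_nonneg_right h4 (sq_nonneg Q)]

section GInv

variable {μ ι : Type*} [Fintype μ] [Fintype ι] [DecidableEq μ] [DecidableEq ι]

theorem abs_det_le {r : ℕ} (M : Matrix (Fin r) (Fin r) ℤ) {H : ℝ} (hH : 1 ≤ H)
    (hM : ∀ a b, |(M a b : ℝ)| ≤ H) {d : ℕ} (hr : r ≤ d) : |(M.det : ℝ)| ≤ ((d : ℝ) * H) ^ d := by
  have h1 : (M.det : ℝ) = (M.map (Int.cast : ℤ → ℝ)).det := by
    rw [Int.cast_det]
  rw [h1]
  have h2 := Matrix.det_le (A := M.map (Int.cast : ℤ → ℝ)) (abv := AbsoluteValue.abs) (x := H)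
    (fun i j => by simpa using hM i j)
  simp only [AbsoluteValue.abs_apply, Fintype.card_fin, nsmul_eq_mul] at h2
  refine h2.trans ?_
  rcases Nat.eq_zero_or_pos d with rfl | hd
  · obtain rfl : r = 0 := by omega
    simp
  · have hd1 : (1 : ℝ) ≤ d := by exact_mod_cast hd
    have h3 : ((r.factorial : ℕ) : ℝ) ≤ (d : ℝ) ^ r := by
      have : r.factorial ≤ d ^ r := (Nat.factorial_le_pow r).trans (Nat.pow_le_pow_left hr r)
      exact_mod_cast this
    calc ((r.factorial : ℕ) : ℝ) * H ^ r ≤ (d : ℝ) ^ r * H ^ r :=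
          mul_le_mul_of_nonneg_right h3 (by positivity)
      _ = ((d : ℝ) * H) ^ r := (mul_pow _ _ _).symm
      _ ≤ _ := pow_le_pow_right₀ (by nlinarith) hr

/-- **Generalised inverse with Cramer bounds.** -/
theorem exists_ginv (A : Matrix μ ι ℤ) {H : ℝ} (hH : 1 ≤ H) (hA : ∀ i j, |(A i j : ℝ)| ≤ H)
    {d : ℕ} (hd : Fintype.card ι ≤ d ∨ Fintype.card μ ≤ d) :
    ∃ (q : ℕ) (B : Matrix ι μ ℤ), 1 ≤ q ∧ (q : ℝ) ≤ ((d : ℝ) * H) ^ d ∧
      ∑ j, ∑ i, |(B j i : ℝ)| ≤ (d : ℝ) ^ 2 * ((d : ℝ) * H) ^ d ∧ A * B * A = (q : ℤ) • A := by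
  classical
  let P : ℕ → Prop := fun r => ∃ (s : Fin r → μ) (t : Fin r → ι), (A.submatrix s t).det ≠ 0
  have hP0 : P 0 := ⟨Fin.elim0, Fin.elim0, by simp⟩
  have hPle : ∀ r, P r → r ≤ Fintype.card ι ∧ r ≤ Fintype.card μ := by
    rintro r ⟨s, t, h⟩
    constructor
    · have : Function.Injective t := by
        intro a b hab
        by_contra hne
        exact h (Matrix.det_zero_of_column_eq hne fun k => by simp [hab])
      simpa using Fintype.card_le_of_injective t this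
    · have : Function.Injective s := by
        intro a b hab
        by_contra hne
        exact h (Matrix.det_zero_of_row_eq hne (by ext k; simp [hab]))
      simpa using Fintype.card_le_of_injective s this
  set r := Nat.findGreatest P (Fintype.card ι) with hr
  have hPr : P r := Nat.findGreatest_spec (Nat.zero_le _) hP0
  have hnot : ¬ P (r + 1) := fun h =>
    Nat.findGreatest_is_greatest (Nat.lt_succ_self r) (hPle _ h).1 h
  have hrd : r ≤ d := by
    have := hPle r hPr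
    omega
  obtain ⟨s, t, hdet⟩ := hPr
  set M := A.submatrix s t with hM
  have hkey : ∀ i j, M.det * A i j = ∑ a, ∑ b, A i (t a) * M.adjugate a b * A (s b) j := by
    intro i j
    let b : Matrix (Fin r) Unit ℤ := fun a _ => A (s a) j
    let c : Matrix Unit (Fin r) ℤ := fun _ a => A i (t a)
    let e : Matrix Unit Unit ℤ := fun _ _ => A i j
    have h0 : (fromBlocks M b c e).det = 0 := by
      by_contra hne
      apply hnot
      let eq : Fin (r + 1) ≃ Fin r ⊕ Unit := (finSuccEquivLast.trans (Equiv.optionEquivSumPUnit _))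
      refine ⟨Sum.elim s (fun _ => i) ∘ eq, Sum.elim t (fun _ => j) ∘ eq, ?_⟩
      have : A.submatrix (Sum.elim s (fun _ => i) ∘ eq) (Sum.elim t (fun _ => j) ∘ eq) =
          (fromBlocks M b c e).submatrix eq eq := by
        ext x y
        simp only [submatrix_apply, Function.comp]
        rcases eq x with x | x <;> rcases eq y with y | y <;> rfl
      rw [this, det_submatrix_equiv_self]
      exact hne
    have h1 : fromBlocks M b c e * fromBlocks 1 (-(M.adjugate * b)) 0 (M.det • (1 : Matrix Unit Unit ℤ)) =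
        fromBlocks M 0 c (M.det • e - c * M.adjugate * b) := by
      rw [fromBlocks_multiply]
      congr 1
      · simp
      · rw [Matrix.mul_neg, ← Matrix.mul_assoc, mul_adjugate, Matrix.smul_mul, Matrix.one_mul,
          Matrix.mul_smul, Matrix.mul_one, neg_add_cancel]
      · simp
      · rw [Matrix.mul_neg, ← Matrix.mul_assoc, Matrix.mul_smul, Matrix.mul_one, sub_eq_neg_add]
    have h2 := congrArg det h1
    rw [det_mul, h0, zero_mul, det_fromBlocks_zero₁₂] at h2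
    have h3 := (mul_eq_zero.1 h2.symm).resolve_left hdet
    rw [det_unique] at h3
    simp only [Matrix.sub_apply, Matrix.smul_apply, smul_eq_mul, Matrix.mul_apply, sum_mul] at h3
    rw [sum_comm]
    simp only [b, c, e] at h3
    linarith
  let B0 : Matrix ι μ ℤ := fun j i =>
    ∑ a, ∑ b, if t a = j ∧ s b = i then M.adjugate a b else 0
  have hB0 : A * B0 * A = M.det • A := by
    ext i j
    rw [Matrix.smul_apply, smul_eq_mul, hkey]
    rw [Matrix.mul_apply]
    simp only [Matrix.mul_apply]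
    simp only [B0, mul_sum, sum_mul]
    calc ∑ x, ∑ y, ∑ a, ∑ b, A i y * (if t a = y ∧ s b = x then M.adjugate a b else 0) * A x j
        = ∑ a, ∑ b, ∑ x, ∑ y,
            A i y * (if t a = y ∧ s b = x then M.adjugate a b else 0) * A x j := by
          simp only [sum_comm (s := (univ : Finset ι)) (t := (univ : Finset (Fin r)))]
          simp only [sum_comm (s := (univ : Finset μ)) (t := (univ : Finset (Fin r)))]
      _ = _ := by
          refine sum_congr rfl fun a _ => sum_congr rfl fun b _ => ?_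
          rw [sum_eq_single (s b), sum_eq_single (t a)]
          · simp
          · intro y _ hy; simp [Ne.symm hy]
          · simp
          · intro x _ hx; simp [Ne.symm hx]
          · simp
  have hMb : ∀ a b, |(M a b : ℝ)| ≤ H := fun a b => hA _ _
  have hadj : ∀ a b, |(M.adjugate a b : ℝ)| ≤ ((d : ℝ) * H) ^ d := by
    intro a b
    rw [adjugate_apply]
    refine abs_det_le _ hH (fun x y => ?_) hrd
    rw [updateRow_apply]
    split_ifs
    · rw [Pi.single_apply]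
      split_ifs
      · simpa using hH
      · simp; linarith
    · exact hMb _ _
  have hB0s : ∑ j, ∑ i, |(B0 j i : ℝ)| ≤ (d : ℝ) ^ 2 * ((d : ℝ) * H) ^ d := by
    have h1 : ∀ j i, |(B0 j i : ℝ)| ≤
        ∑ a, ∑ b, if t a = j ∧ s b = i then ((d : ℝ) * H) ^ d else 0 := by
      intro j i
      simp only [B0]
      push_cast
      refine (abs_sum_le_sum_abs _ _).trans (sum_le_sum fun a _ => ?_)
      refine (abs_sum_le_sum_abs _ _).trans (sum_le_sum fun b _ => ?_)
      split_ifs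
      · exact hadj a b
      · simp
    calc ∑ j, ∑ i, |(B0 j i : ℝ)|
        ≤ ∑ j, ∑ i, ∑ a, ∑ b, if t a = j ∧ s b = i then ((d : ℝ) * H) ^ d else 0 :=
          sum_le_sum fun j _ => sum_le_sum fun i _ => h1 j i
      _ = ∑ a : Fin r, ∑ b : Fin r, ∑ j, ∑ i,
            if t a = j ∧ s b = i then ((d : ℝ) * H) ^ d else 0 := by
          simp only [sum_comm (s := (univ : Finset μ)) (t := (univ : Finset (Fin r)))]
          simp only [sum_comm (s := (univ : Finset ι)) (t := (univ : Finset (Fin r)))]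
      _ = ∑ _a : Fin r, ∑ _b : Fin r, ((d : ℝ) * H) ^ d := by
          refine sum_congr rfl fun a _ => sum_congr rfl fun b _ => ?_
          rw [sum_eq_single (t a), sum_eq_single (s b)]
          · simp
          · intro y _ hy; simp [Ne.symm hy]
          · simp
          · intro x _ hx; simp [Ne.symm hx]
          · simp
      _ = (r : ℝ) ^ 2 * ((d : ℝ) * H) ^ d := by simp; ring
      _ ≤ _ := by
          have : (r : ℝ) ≤ d := by exact_mod_cast hrd
          exact mul_le_mul_of_nonneg_right (pow_le_pow_left₀ (Nat.cast_nonneg _) this 2)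
            (by positivity)
  refine ⟨M.det.natAbs, M.det.sign • B0, Int.natAbs_pos.2 hdet, ?_, ?_, ?_⟩
  · have := abs_det_le M hH hMb hrd
    rwa [← Int.cast_abs, Int.abs_eq_natAbs, Int.cast_natCast] at this
  · refine le_trans (le_of_eq ?_) hB0s
    refine sum_congr rfl fun j _ => sum_congr rfl fun i _ => ?_
    rw [Matrix.smul_apply, smul_eq_mul]
    push_cast
    rw [abs_mul, ← Int.cast_abs, Int.abs_sign_of_ne_zero hdet]
    simp
  · rw [Matrix.mul_smul, Matrix.smul_mul, hB0, smul_smul, Int.sign_mul_self_eq_natAbs]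

end GInv

section Lin

variable {μ ι κ : Type*} [Fintype μ] [Fintype ι] [Fintype κ]

/-- an integer vector as a real vector -/
def cst (z : ι → ℤ) : ι → ℝ := fun i => (z i : ℝ)

@[simp] theorem cst_apply (z : ι → ℤ) (i : ι) : cst z i = (z i : ℝ) := rfl
@[simp] theorem cst_zero : cst (0 : ι → ℤ) = 0 := by ext; simp
theorem cst_add (z z' : ι → ℤ) : cst (z + z') = cst z + cst z' := by ext; simp
theorem cst_sub (z z' : ι → ℤ) : cst (z - z') = cst z - cst z' := by ext; simp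
theorem cst_neg (z : ι → ℤ) : cst (-z) = -cst z := by ext; simp
theorem cst_smul (n : ℤ) (z : ι → ℤ) : cst (n • z) = (n : ℝ) • cst z := by ext; simp
theorem cst_injective : Function.Injective (cst : (ι → ℤ) → ι → ℝ) := by
  intro z z' h; ext i; exact_mod_cast (show (z i : ℝ) = z' i from congrFun h i)

/-- an integer vector of sup norm `< 1` vanishes -/
theorem cst_eq_zero_of_norm_lt {z : ι → ℤ} (h : ‖cst z‖ < 1) : z = 0 := by
  ext i
  have h1 : |(z i : ℝ)| < 1 := lt_of_le_of_lt (norm_le_pi_norm (cst z) i) h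
  have h2 : |z i| < 1 := by exact_mod_cast h1
  exact Int.abs_lt_one_iff.1 h2

/-- an integer matrix as a real linear map -/
def lin (A : Matrix μ ι ℤ) : (ι → ℝ) →ₗ[ℝ] (μ → ℝ) := (A.map (Int.cast : ℤ → ℝ)).mulVecLin

theorem lin_apply (A : Matrix μ ι ℤ) (x : ι → ℝ) (i : μ) :
    lin A x i = ∑ j, (A i j : ℝ) * x j := rfl

theorem lin_mul (A : Matrix μ ι ℤ) (B : Matrix ι κ ℤ) (x : κ → ℝ) :
    lin (A * B) x = lin A (lin B x) := by
  ext i
  simp only [lin_apply, Matrix.mul_apply, mul_sum]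
  push_cast
  simp only [sum_mul]
  rw [sum_comm]
  exact sum_congr rfl fun j _ => sum_congr rfl fun k _ => by ring

theorem lin_smul (n : ℤ) (A : Matrix μ ι ℤ) (x : ι → ℝ) : lin (n • A) x = (n : ℝ) • lin A x := by
  ext i
  simp only [lin_apply, Matrix.smul_apply, smul_eq_mul, Pi.smul_apply, mul_sum]
  push_cast
  exact sum_congr rfl fun j _ => by ring

theorem lin_sub (A B : Matrix μ ι ℤ) (x : ι → ℝ) : lin (A - B) x = lin A x - lin B x := by
  ext i
  simp only [lin_apply, Matrix.sub_apply, Pi.sub_apply, ← sum_sub_distrib]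
  push_cast
  exact sum_congr rfl fun j _ => by ring

theorem lin_one [DecidableEq ι] (x : ι → ℝ) : lin (1 : Matrix ι ι ℤ) x = x := by
  ext i
  rw [lin_apply, sum_eq_single i]
  · simp
  · intro j _ hj; simp [Matrix.one_apply_ne (Ne.symm hj)]
  · simp

theorem lin_cst (A : Matrix μ ι ℤ) (z : ι → ℤ) : lin A (cst z) = cst (A.mulVec z) := by
  ext i
  simp [lin_apply, Matrix.mulVec, dotProduct]

theorem lin_single [DecidableEq ι] (A : Matrix μ ι ℤ) (j : ι) :
    lin A (Pi.single j 1) = cst fun i => A i j := by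
  ext i
  rw [lin_apply, sum_eq_single j]
  · simp
  · intro k _ hk; simp [Pi.single_eq_of_ne hk]
  · simp

theorem lin_eq_sum (A : Matrix μ ι ℤ) (x : ι → ℝ) :
    lin A x = ∑ j, x j • cst fun i => A i j := by
  ext i
  simp [lin_apply, Finset.sum_apply, mul_comm]

theorem norm_lin_le_of_row (A : Matrix μ ι ℤ) {R : ℝ} (hR : 0 ≤ R)
    (hA : ∀ i, ∑ j, |(A i j : ℝ)| ≤ R) (x : ι → ℝ) : ‖lin A x‖ ≤ R * ‖x‖ := by
  refine (pi_norm_le_iff_of_nonneg (by positivity)).2 fun i => ?_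
  rw [lin_apply, Real.norm_eq_abs]
  calc |∑ j, (A i j : ℝ) * x j| ≤ ∑ j, |(A i j : ℝ)| * ‖x‖ := by
        refine (abs_sum_le_sum_abs _ _).trans (sum_le_sum fun j _ => ?_)
        rw [abs_mul]
        exact mul_le_mul_of_nonneg_left (norm_le_pi_norm x j) (abs_nonneg _)
    _ = (∑ j, |(A i j : ℝ)|) * ‖x‖ := (sum_mul _ _ _).symm
    _ ≤ _ := mul_le_mul_of_nonneg_right (hA i) (norm_nonneg _)

theorem norm_lin_le (A : Matrix μ ι ℤ) {H : ℝ} (hH : 0 ≤ H) (hA : ∀ i j, |(A i j : ℝ)| ≤ H)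
    {d : ℕ} (hd : Fintype.card ι ≤ d) (x : ι → ℝ) : ‖lin A x‖ ≤ d * H * ‖x‖ := by
  refine norm_lin_le_of_row A (by positivity) (fun i => ?_) x
  calc ∑ j, |(A i j : ℝ)| ≤ ∑ _j : ι, H := sum_le_sum fun j _ => hA i j
    _ = Fintype.card ι * H := by simp
    _ ≤ _ := mul_le_mul_of_nonneg_right (by exact_mod_cast hd) hH

/-- **Generalised inverse, real form.**  All bounds are `bl d H`. -/
theorem exists_ginv_lin (A : Matrix μ ι ℤ) {H : ℝ} (hH : 1 ≤ H) (hA : ∀ i j, |(A i j : ℝ)| ≤ H)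
    {d : ℕ} (hd : Fintype.card ι ≤ d ∨ Fintype.card μ ≤ d) :
    ∃ (q : ℕ) (B : Matrix ι μ ℤ), 1 ≤ q ∧
      (q : ℝ) + H * ∑ j, ∑ i, |(B j i : ℝ)| ≤ bl d H ∧ (∀ y, ‖lin B y‖ ≤ bl d H * ‖y‖) ∧
      ∀ x, lin A (lin B (lin A x)) = (q : ℝ) • lin A x := by
  classical
  obtain ⟨q, B, hq1, hq, hB, hABA⟩ := exists_ginv A hH hA hd
  have hd0 : (0 : ℝ) ≤ d := Nat.cast_nonneg d
  have hbl : (q : ℝ) + H * ∑ j, ∑ i, |(B j i : ℝ)| ≤ bl d H := by
    have h1 : ((d : ℝ) * H) ^ d ≤ (((d : ℝ) + 1) * H) ^ d :=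
      pow_le_pow_left₀ (by positivity) (by nlinarith) _
    have h2 : 1 + H * (d : ℝ) ^ 2 ≤ (((d : ℝ) + 1) * H) ^ 2 := by
      have h3 : H ≤ H ^ 2 := by nlinarith
      have h4 : 1 ≤ H ^ 2 := by nlinarith
      nlinarith [mul_le_mul_of_nonneg_right h3 (sq_nonneg (d : ℝ)), mul_nonneg hd0 (sq_nonneg H)]
    calc (q : ℝ) + H * ∑ j, ∑ i, |(B j i : ℝ)|
        ≤ ((d : ℝ) * H) ^ d + H * ((d : ℝ) ^ 2 * ((d : ℝ) * H) ^ d) :=
          add_le_add hq (mul_le_mul_of_nonneg_left hB (by linarith))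
      _ = ((d : ℝ) * H) ^ d * (1 + H * (d : ℝ) ^ 2) := by ring
      _ ≤ (((d : ℝ) + 1) * H) ^ d * (((d : ℝ) + 1) * H) ^ 2 :=
          mul_le_mul h1 h2 (by positivity) (by positivity)
      _ = bl d H := by rw [bl, pow_add]
  have hS0 : 0 ≤ ∑ j, ∑ i, |(B j i : ℝ)| := sum_nonneg fun j _ => sum_nonneg fun i _ => abs_nonneg _
  refine ⟨q, B, hq1, hbl, fun y => norm_lin_le_of_row B (by linarith [one_le_bl d hH]) (fun j => ?_) y,
    fun x => ?_⟩
  · calc ∑ i, |(B j i : ℝ)| ≤ ∑ j, ∑ i, |(B j i : ℝ)| :=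
          single_le_sum (f := fun j => ∑ i, |(B j i : ℝ)|)
            (fun j _ => sum_nonneg fun i _ => abs_nonneg _) (mem_univ j)
      _ ≤ H * ∑ j, ∑ i, |(B j i : ℝ)| := le_mul_of_one_le_left hS0 hH
      _ ≤ _ := by linarith [Nat.cast_nonneg (α := ℝ) q]
  · rw [← lin_mul, ← lin_mul, hABA, lin_smul]; simp

/-- **Cramer, exact.**  A solvable integer system is solved by `q⁻¹ B b`, for every real right side;
in particular integer right sides have rational solutions of denominator `q ≤ bl d H`. -/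
theorem exists_solver (A : Matrix μ ι ℤ) {H : ℝ} (hH : 1 ≤ H) (hA : ∀ i j, |(A i j : ℝ)| ≤ H)
    {d : ℕ} (hd : Fintype.card ι ≤ d ∨ Fintype.card μ ≤ d) :
    ∃ (q : ℕ) (B : Matrix ι μ ℤ), 1 ≤ q ∧ (q : ℝ) ≤ bl d H ∧ (∀ j i, |(B j i : ℝ)| ≤ bl d H) ∧
      (∀ y, ‖lin B y‖ ≤ bl d H * ‖y‖) ∧
      ∀ b ∈ LinearMap.range (lin A), lin A ((q : ℝ)⁻¹ • lin B b) = b := by
  obtain ⟨q, B, hq1, hbl, hB, h⟩ := exists_ginv_lin A hH hA hd
  have hS0 : 0 ≤ ∑ j, ∑ i, |(B j i : ℝ)| := sum_nonneg fun j _ => sum_nonneg fun i _ => abs_nonneg _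
  have hq : (0 : ℝ) < q := by exact_mod_cast hq1
  refine ⟨q, B, hq1, by nlinarith, fun j i => ?_, hB, ?_⟩
  · calc |(B j i : ℝ)| ≤ ∑ i, |(B j i : ℝ)| :=
          single_le_sum (f := fun i => |(B j i : ℝ)|) (fun i _ => abs_nonneg _) (mem_univ i)
      _ ≤ ∑ j, ∑ i, |(B j i : ℝ)| :=
          single_le_sum (f := fun j => ∑ i, |(B j i : ℝ)|)
            (fun j _ => sum_nonneg fun i _ => abs_nonneg _) (mem_univ j)
      _ ≤ H * ∑ j, ∑ i, |(B j i : ℝ)| := le_mul_of_one_le_left hS0 hH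
      _ ≤ _ := by linarith
  · rintro b ⟨x, rfl⟩
    rw [map_smul, h, smul_smul, inv_mul_cancel₀ hq.ne', one_smul]

/-- **Cramer, approximate.**  `x` is within `bl d H * ‖A x‖` of the kernel, and the correction is
rational when `A x` is. -/
theorem exists_near_ker (A : Matrix μ ι ℤ) {H : ℝ} (hH : 1 ≤ H) (hA : ∀ i j, |(A i j : ℝ)| ≤ H)
    {d : ℕ} (hd : Fintype.card ι ≤ d ∨ Fintype.card μ ≤ d) (x : ι → ℝ) :
    ∃ u, lin A u = 0 ∧ ‖x - u‖ ≤ bl d H * ‖lin A x‖ := by
  obtain ⟨q, B, hq1, -, -, hB, h⟩ := exists_solver A hH hA hd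
  have hq : (1 : ℝ) ≤ q := by exact_mod_cast hq1
  refine ⟨x - (q : ℝ)⁻¹ • lin B (lin A x), by rw [map_sub, h _ ⟨x, rfl⟩, sub_self], ?_⟩
  rw [sub_sub_cancel, norm_smul, norm_inv, Real.norm_natCast]
  calc (q : ℝ)⁻¹ * ‖lin B (lin A x)‖ ≤ 1 * ‖lin B (lin A x)‖ :=
        mul_le_mul_of_nonneg_right (inv_le_one_of_one_le₀ hq) (norm_nonneg _)
    _ ≤ _ := by rw [one_mul]; exact hB _

end Lin

end Crest.Agent.T49.Gon
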