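import Crest.Agent.T49.GowBox_71
import Crest.Agent.T49.GowA_67

/-! Row 49 (helper71): the Cauchy-Schwarz steps of the inverse theorem:
the additive quadruple lemma and the symmetry chain. -/

set_option autoImplicit false

noncomputable section

open Finset
open scoped ComplexConjugate BigOperators Pointwise Classical

namespace Crest.Agent.T49.Box

open Crest.Agent.T49.Gow (Supp D U vtx)

variable {G : Type*} [AddCommGroup G]

/-- additive quadruples `h₁ + h₂ = h₃ + h₄` -/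
def quads (H₁ H₂ H₃ H₄ : Finset G) : Finset (G × G × G × G) :=
  (H₁ ×ˢ H₂ ×ˢ H₃ ×ˢ H₄).filter fun q => q.1 + q.2.1 = q.2.2.1 + q.2.2.2

lemma mem_quads {H₁ H₂ H₃ H₄ : Finset G} {q : G × G × G × G} : q ∈ quads H₁ H₂ H₃ H₄ ↔
    q.1 ∈ H₁ ∧ q.2.1 ∈ H₂ ∧ q.2.2.1 ∈ H₃ ∧ q.2.2.2 ∈ H₄ ∧ q.1 + q.2.1 = q.2.2.1 + q.2.2.2 := by
  simp only [quads, mem_filter, mem_product, and_assoc]

lemma card_quads_le (H₁ H₂ H₃ H₄ : Finset G) : #(quads H₁ H₂ H₃ H₄) ≤ #H₁ * #H₂ * #H₃ := by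
  rw [mul_assoc, ← card_product, ← card_product]
  refine card_le_card_of_injOn (fun q => (q.1, q.2.1, q.2.2.1)) (fun q hq => ?_) ?_
  · obtain ⟨h1, h2, h3, -⟩ := mem_quads.1 hq
    simp [h1, h2, h3]
  · rintro ⟨a, b, c, d⟩ h ⟨a', b', c', d'⟩ h' e
    simp only [Prod.mk.injEq] at e
    obtain ⟨rfl, rfl, rfl⟩ := e
    have h1 := (mem_quads.1 h).2.2.2.2
    have h2 := (mem_quads.1 h').2.2.2.2
    simp only at h1 h2
    rw [add_left_cancel (h1.symm.trans h2)]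

/-- the correlation attached to an additive quadruple -/
def qcorr (B : Finset G) (χ : G → G → ℂ) (q : G × G × G × G) : ℂ :=
  ∑ n ∈ B.filter (fun n => n + (q.1 - q.2.2.2) ∈ B), χ q.1 n * χ q.2.1 (n + (q.1 - q.2.2.2)) *
    conj (χ q.2.2.1 n) * conj (χ q.2.2.2 (n + (q.1 - q.2.2.2)))

lemma norm_qcorr_le (B : Finset G) {χ : G → G → ℂ} (hχ : ∀ h n, ‖χ h n‖ ≤ 1)
    (q : G × G × G × G) : ‖qcorr B χ q‖ ≤ #B := by
  refine (norm_sum_le _ _).trans ((sum_le_card_nsmul _ _ 1 fun n _ => ?_).trans ?_)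
  · simp only [norm_mul, Complex.norm_conj]
    exact mul_le_one₀ (mul_le_one₀ (mul_le_one₀ (hχ _ _) (norm_nonneg _) (hχ _ _))
      (norm_nonneg _) (hχ _ _)) (norm_nonneg _) (hχ _ _)
  · rw [nsmul_eq_mul, mul_one]
    exact_mod_cast card_filter_le _ _

/-- **additive quadruple lemma** -/
theorem quad (B H : Finset G) (f₁ f₂ : G → ℂ) (χ : G → G → ℂ) :
    (∑ h ∈ H, ‖∑ n ∈ B, f₁ n * f₂ (n + h) * χ h n‖) ^ 4 ≤ (∑ n ∈ B, ‖f₁ n‖ ^ 2) ^ 2 *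
      ((∑ m ∈ B + H, ‖f₂ m‖ ^ 2) ^ 2 * ∑ q ∈ quads H H H H, ‖qcorr B χ q‖) := by
  obtain ⟨c, hc, hsum⟩ := exists_units H fun h => ∑ n ∈ B, f₁ n * f₂ (n + h) * χ h n
  set F : G → G → ℂ := fun n m => if m - n ∈ H then c (m - n) * χ (m - n) n else 0 with hF
  have shift : ∀ n ∈ B, ∀ φ : G → ℂ, (∀ m, m - n ∉ H → φ m = 0) →
      ∑ m ∈ B + H, φ m = ∑ h ∈ H, φ (n + h) := by
    intro n hn φ hφ
    rw [← sum_image (s := H) (g := fun h => n + h) (f := φ) fun a _ b _ e => add_left_cancel e]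
    refine (sum_subset (fun m hm => ?_) fun m _ hm => hφ m fun h1 => hm ?_).symm
    · obtain ⟨h, hh, rfl⟩ := mem_image.1 hm
      exact add_mem_add hn hh
    · exact mem_image.2 ⟨_, h1, by abel⟩
  have e1 : ∑ n ∈ B, ∑ m ∈ B + H, f₁ n * f₂ m * F n m
      = ∑ h ∈ H, c h * ∑ n ∈ B, f₁ n * f₂ (n + h) * χ h n := by
    simp only [mul_sum]
    rw [sum_comm (s := H)]
    refine sum_congr rfl fun n hn => ?_
    rw [shift n hn _ fun m hm => by simp [hF, hm]]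
    refine sum_congr rfl fun h hh => ?_
    simp only [hF, add_sub_cancel_left, hh, if_true]; ring
  have h1 := box_two B (B + H) f₁ f₂ F
  rw [e1, hsum, Complex.norm_real, Real.norm_of_nonneg (sum_nonneg fun _ _ => norm_nonneg _)] at h1
  refine h1.trans (mul_le_mul_of_nonneg_left (mul_le_mul_of_nonneg_left ?_ (sq_nonneg _))
    (sq_nonneg _))
  have e2 : ∑ n ∈ B, ∑ n' ∈ B, ∑ m ∈ B + H, ∑ m' ∈ B + H,
      F n m * conj (F n' m) * conj (F n m') * F n' m'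
      = ∑ q ∈ quads H H H H, (c q.1 * c q.2.1 * conj (c q.2.2.1) * conj (c q.2.2.2)) *
        qcorr B χ q := by
    have e3 : ∀ n ∈ B, ∀ n', ∑ m ∈ B + H, ∑ m' ∈ B + H,
        F n m * conj (F n' m) * conj (F n m') * F n' m' = ∑ h₁ ∈ H, ∑ h₃ ∈ H,
        F n (n + h₁) * conj (F n' (n + h₁)) * conj (F n (n + h₃)) * F n' (n + h₃) := by
      intro n hn n'
      rw [shift n hn _ fun m hm => by simp [hF, hm]]
      exact sum_congr rfl fun h₁ _ => shift n hn _ fun m hm => by simp [hF, hm]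
    rw [sum_congr rfl fun n hn => sum_congr rfl fun n' _ => e3 n hn n']
    simp only [qcorr, mul_sum]
    rw [sum_sigma', sum_sigma', sum_sigma', sum_sigma']
    symm
    refine sum_bij_ne_zero (fun x _ _ => ⟨⟨⟨x.2, x.2 + (x.1.1 - x.1.2.2.2)⟩, x.1.1⟩, x.1.2.2.1⟩)
      ?_ ?_ ?_ ?_
    · rintro ⟨⟨a, b, c', d⟩, n⟩ hx -
      simp only [mem_sigma, mem_quads, mem_filter] at hx ⊢
      exact ⟨⟨⟨hx.2.1, hx.2.2⟩, hx.1.1⟩, hx.1.2.2.1⟩
    · rintro ⟨⟨a, b, c', d⟩, n⟩ hx - ⟨⟨a', b', c'', d'⟩, n'⟩ hx' - e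
      simp only [mem_sigma, mem_quads, mem_filter] at hx hx'
      simp only [Sigma.mk.injEq, heq_eq_eq] at e
      obtain ⟨⟨⟨rfl, e4⟩, rfl⟩, rfl⟩ := e
      obtain rfl : d = d' := by simpa using e4
      obtain rfl : b = b' := add_left_cancel (hx.1.2.2.2.2.trans hx'.1.2.2.2.2.symm)
      rfl
    · rintro ⟨⟨⟨n, n'⟩, h₁⟩, h₃⟩ hx hne
      simp only [mem_sigma] at hx
      have h4 : n + h₁ - n' ∈ H := by
        by_contra h; exact hne (by simp [hF, h])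
      have h2 : n + h₃ - n' ∈ H := by
        by_contra h; exact hne (by simp [hF, h])
      have e5 : n + (h₁ - (n + h₁ - n')) = n' := by abel
      refine ⟨⟨(h₁, n + h₃ - n', h₃, n + h₁ - n'), n⟩, ?_, ?_, ?_⟩
      · simp only [mem_sigma, mem_quads, mem_filter, e5]
        exact ⟨⟨hx.1.2, h2, hx.2, h4, by abel⟩, hx.1.1.1, hx.1.1.2⟩
      · intro h0
        refine hne ?_
        simp only [e5] at h0
        simp only [hF, add_sub_cancel_left, hx.1.2, hx.2, h2, h4, if_true, map_mul]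
        rw [← h0]; ring
      · simp only [e5]
    · rintro ⟨⟨a, b, c', d⟩, n⟩ hx -
      simp only [mem_sigma, mem_quads, mem_filter] at hx
      obtain ⟨⟨ha, hb, hc', hd, e⟩, -⟩ := hx
      have e6 : n + a - (n + (a - d)) = d := by abel
      have e7 : n + c' - (n + (a - d)) = b := by
        rw [eq_sub_of_add_eq' e]; abel
      simp only [hF, add_sub_cancel_left, e6, e7, ha, hb, hc', hd, if_true, map_mul]
      ring
  rw [e2]
  refine (Complex.re_le_norm _).trans ((norm_sum_le _ _).trans (le_of_eq ?_))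
  refine sum_congr rfl fun q _ => ?_
  simp only [norm_mul, Complex.norm_conj, hc, one_mul]

omit [AddCommGroup G] in
lemma sum_normSq_le_supp (A S : Finset G) {f : G → ℂ} (hf : Supp f S) (hb : ∀ x, ‖f x‖ ≤ 1) :
    ∑ x ∈ A, ‖f x‖ ^ 2 ≤ #S := by
  calc _ = ∑ x ∈ A ∩ S, ‖f x‖ ^ 2 := (sum_subset inter_subset_left fun x hx hx' => by
          rw [hf x fun h => hx' (mem_inter.2 ⟨hx, h⟩)]; simp).symm
    _ ≤ #(A ∩ S) := sum_normSq_le_card _ _ fun x _ => hb x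
    _ ≤ _ := by exact_mod_cast card_le_card inter_subset_right

/-- **many biased additive quadruples**: `f₂` supported in `S`, every `h ∈ H` correlates -/
theorem quad_popular (B S H : Finset G) {f₁ f₂ : G → ℂ} {χ : G → G → ℂ} (h₁ : ∀ x, ‖f₁ x‖ ≤ 1)
    (h₂ : ∀ x, ‖f₂ x‖ ≤ 1) (hS : Supp f₂ S) (hχ : ∀ h n, ‖χ h n‖ ≤ 1) {a t : ℝ} (ha : 0 ≤ a)
    (ht : 0 ≤ t) (hH : ∀ h ∈ H, a ≤ ‖∑ n ∈ B, f₁ n * f₂ (n + h) * χ h n‖) :
    (a * #H) ^ 4 ≤ (#B : ℝ) ^ 2 * ((#S : ℝ) ^ 2 *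
      (#B * #{q ∈ quads H H H H | t ≤ ‖qcorr B χ q‖} + t * (#H : ℝ) ^ 3)) := by
  have h1 : a * #H ≤ ∑ h ∈ H, ‖∑ n ∈ B, f₁ n * f₂ (n + h) * χ h n‖ := by
    rw [mul_comm, ← nsmul_eq_mul]; exact card_nsmul_le_sum _ _ _ hH
  refine (pow_le_pow_left₀ (by positivity) h1 4).trans ((quad B H f₁ f₂ χ).trans ?_)
  have h3 := popular (quads H H H H) (fun q => ‖qcorr B χ q‖) ht fun q _ => norm_qcorr_le B hχ q
  have h4 : (#(quads H H H H) : ℝ) ≤ (#H : ℝ) ^ 3 := by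
    have := card_quads_le H H H H
    exact_mod_cast this.trans (le_of_eq (by ring))
  have h5 := sum_normSq_le_card B f₁ fun x _ => h₁ x
  have h6 := sum_normSq_le_supp (B + H) S hS h₂
  have h7 : 0 ≤ ∑ q ∈ quads H H H H, ‖qcorr B χ q‖ := sum_nonneg fun _ _ => norm_nonneg _
  gcongr
  refine h3.trans ?_
  gcongr

/-- normalised form: `#S ≤ K #B`, correlation `δ #B`, `#H ≥ σ #B` -/
theorem quad_many (B S H : Finset G) {f₁ f₂ : G → ℂ} {χ : G → G → ℂ} (h₁ : ∀ x, ‖f₁ x‖ ≤ 1)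
    (h₂ : ∀ x, ‖f₂ x‖ ≤ 1) (hS : Supp f₂ S) (hχ : ∀ h n, ‖χ h n‖ ≤ 1) {δ σ K : ℝ} (hδ : 0 ≤ δ)
    (hσ : 0 ≤ σ) (hK : 0 < K) (hB : B.Nonempty) (hSB : (#S : ℝ) ≤ K * #B) (hσH : σ * #B ≤ #H)
    (hH : ∀ h ∈ H, δ * #B ≤ ‖∑ n ∈ B, f₁ n * f₂ (n + h) * χ h n‖) :
    δ ^ 4 * σ ^ 4 / (2 * K ^ 2) * (#B : ℝ) ^ 3 ≤
      #{q ∈ quads H H H H | δ ^ 4 * σ / (2 * K ^ 2) * #B ≤ ‖qcorr B χ q‖} := by
  have hB0 : (0 : ℝ) < #B := by exact_mod_cast card_pos.2 hB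
  have h := quad_popular B S H h₁ h₂ hS hχ (a := δ * #B) (t := δ ^ 4 * σ / (2 * K ^ 2) * #B)
    (by positivity) (by positivity) hH
  set Q : ℝ := ((#{q ∈ quads H H H H | δ ^ 4 * σ / (2 * K ^ 2) * #B ≤ ‖qcorr B χ q‖} : ℕ) : ℝ)
    with hQ
  have hQ0 : 0 ≤ Q := Nat.cast_nonneg _
  have h3 : (δ * #B * #H) ^ 4 ≤ (#B : ℝ) ^ 2 * ((K * #B) ^ 2 *
      (#B * Q + δ ^ 4 / (2 * K ^ 2) * #H * (#H : ℝ) ^ 3)) := by
    have h0 : δ ^ 4 * σ / (2 * K ^ 2) * #B ≤ δ ^ 4 / (2 * K ^ 2) * #H :=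
      calc _ = δ ^ 4 / (2 * K ^ 2) * (σ * #B) := by ring
        _ ≤ _ := by gcongr
    refine h.trans ?_
    gcongr
  have h4 : δ ^ 4 * (#H : ℝ) ^ 4 / (2 * K ^ 2) ≤ #B * Q := by
    have e : (#B : ℝ) ^ 2 * ((K * #B) ^ 2 * (#B * Q + δ ^ 4 / (2 * K ^ 2) * #H * (#H : ℝ) ^ 3))
        = (#B : ℝ) ^ 4 * (K ^ 2 * (#B * Q) + δ ^ 4 * (#H : ℝ) ^ 4 / 2) := by field_simp
    have e' : (δ * #B * #H) ^ 4 = (#B : ℝ) ^ 4 * (δ ^ 4 * (#H : ℝ) ^ 4) := by ring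
    rw [e, e'] at h3
    have h5 := le_of_mul_le_mul_left h3 (by positivity)
    rw [div_le_iff₀ (by positivity)]
    linarith
  refine le_of_mul_le_mul_left (le_trans ?_ h4) hB0
  calc _ = δ ^ 4 * (σ * #B) ^ 4 / (2 * K ^ 2) := by ring
    _ ≤ _ := by gcongr

section Iter
variable {s : ℕ}

/-- iterated multiplicative derivative -/
def Dk (k : Fin s → G) (f : G → ℂ) (x : G) : ℂ := ∏ w, Gow.cj w (f (vtx x k w))

lemma Dk_zero (k : Fin 0 → G) (f : G → ℂ) : Dk k f = f := by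
  funext x
  rw [Dk, Fintype.prod_subsingleton _ (default : Fin 0 → Bool)]
  simp [Gow.cj, vtx]

lemma Dk_cons (h : G) (k : Fin s → G) (f : G → ℂ) :
    Dk (Fin.cons h k : Fin (s + 1) → G) f = Dk k (D h f) := by
  funext x
  rw [Dk, Dk, Gow.prod_cube_succ]
  refine prod_congr rfl fun w _ => ?_
  rw [Gow.vtx_cons_true, Gow.vtx_cons_false, D, Gow.cj_mul]
  rfl

lemma Dk_mul (k : Fin s → G) (f g : G → ℂ) (x : G) :
    Dk k (fun x => f x * g x) x = Dk k f x * Dk k g x := by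
  simp only [Dk, Gow.cj_mul, prod_mul_distrib]

lemma Dk_shift (k : Fin s → G) (f : G → ℂ) (h x : G) :
    Dk k (fun x => f (x + h)) x = Dk k f (x + h) := by
  simp only [Dk, vtx, add_right_comm x h]

lemma norm_Dk_le (k : Fin s → G) {f : G → ℂ} (hf : ∀ x, ‖f x‖ ≤ 1) (x : G) : ‖Dk k f x‖ ≤ 1 := by
  rw [Dk, norm_prod]
  exact prod_le_one (fun _ _ => norm_nonneg _) fun w _ => by rw [Gow.norm_cj]; exact hf _

lemma supp_Dk (k : Fin s → G) {f : G → ℂ} {S : Finset G} (hf : Supp f S) : Supp (Dk k f) S :=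
  fun x hx => prod_eq_zero (mem_univ fun _ => false) (by rw [Gow.vtx_false, hf x hx, Gow.cj_zero])

/-- `U^{s+1}` as a sum of squares -/
lemma U_eq_sum_sq {S T : Finset G} (hT : S - S ⊆ T) : ∀ (s : ℕ) {f : G → ℂ}, Supp f S →
    U (s + 1) f = ∑ k ∈ Fintype.piFinset fun _ : Fin s => T, ‖∑ x ∈ S, Dk k f x‖ ^ 2
  | 0, f, hf => by
    rw [Gow.U_one hf, Fintype.piFinset_of_isEmpty, Finset.sum_unique_nonempty _ _ univ_nonempty,
      Dk_zero]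
  | s + 1, f, hf => by
    rw [Gow.U_succ hf hT, Gow.sum_piFinset_succ]
    refine sum_congr rfl fun h _ => ?_
    rw [U_eq_sum_sq hT s (hf.D h)]
    simp only [Dk_cons]

end Iter

/-- the kernel of the symmetry step -/
def sk (X : G → G → ℂ) (z y y' : G) : ℂ := X (z - y - y') y * conj (X (z - y - y') y')

/-- the four-fold product of the symmetry step -/
def sk4 (X : G → G → ℂ) (z y₁ y₂ y₁' y₂' : G) : ℂ :=
  sk X z y₁ y₁' * conj (sk X z y₂ y₁') * conj (sk X z y₁ y₂') * sk X z y₂ y₂'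

/-- **symmetry chain**, one layer: three Cauchy-Schwarz steps -/
theorem symm_chain (B S Z H : Finset G) (hZ : B + S ⊆ Z) {b₁ b₂ : G → ℂ} (h₁ : ∀ x, ‖b₁ x‖ ≤ 1)
    (h₂ : ∀ x, ‖b₂ x‖ ≤ 1) (hS : Supp b₂ S) (X : G → G → ℂ) :
    (∑ h ∈ H, ‖∑ n ∈ B, b₁ n * b₂ (n + h) * X h n‖ ^ 2) ^ 4 ≤ (#Z : ℝ) ^ 3 * ((#B : ℝ) ^ 4 *
      (∑ z ∈ Z, ∑ y₁ ∈ B, ∑ y₂ ∈ B, ∑ y₁' ∈ B, ∑ y₂' ∈ B, sk4 X z y₁ y₂ y₁' y₂').re) := by
  have a1 : ∑ h ∈ H, ‖∑ n ∈ B, b₁ n * b₂ (n + h) * X h n‖ ^ 2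
      ≤ ∑ h ∈ S - B, ‖∑ n ∈ B, b₁ n * b₂ (n + h) * X h n‖ ^ 2 := by
    rw [← sum_subset (inter_subset_left (s₁ := H) (s₂ := S - B)) fun h hh hh' => ?_]
    · exact sum_le_sum_of_subset_of_nonneg inter_subset_right fun _ _ _ => sq_nonneg _
    · rw [sum_eq_zero fun n hn => ?_]
      · simp
      · rw [hS _ fun h1 => hh' (mem_inter.2 ⟨hh, mem_sub.2 ⟨_, h1, _, hn, by abel⟩⟩)]; simp
  set I : G → ℂ := fun z => ∑ y ∈ B, ∑ y' ∈ B, (b₁ y * conj (b₂ (z - y))) *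
    (conj (b₁ y') * b₂ (z - y')) * sk X z y y' with hI
  have a2 : ∑ h ∈ S - B, ‖∑ n ∈ B, b₁ n * b₂ (n + h) * X h n‖ ^ 2 = (∑ z ∈ Z, I z).re := by
    simp only [normSq_sum_re]
    rw [← Complex.re_sum, sum_comm, sum_comm (s := Z)]
    congr 1
    refine sum_congr rfl fun y hy => ?_
    rw [sum_comm, sum_comm (s := Z)]
    refine sum_congr rfl fun y' hy' => ?_
    refine sum_bij_ne_zero (fun h _ _ => h + y + y') (fun h _ hne => hZ ?_)
      (fun h _ _ h' _ _ e => by simpa using e) (fun z _ hne => ?_) fun h _ _ => ?_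
    · have : y + h ∈ S := by
        by_contra h1; exact hne (by simp [hS _ h1])
      exact mem_add.2 ⟨_, hy', _, this, by abel⟩
    · have h3 : z - y' ∈ S := by
        by_contra h1; exact hne (by simp [hS _ h1])
      have e1 : y + (z - y - y') = z - y' := by abel
      have e2 : y' + (z - y - y') = z - y := by abel
      refine ⟨z - y - y', mem_sub.2 ⟨_, h3, _, hy, by abel⟩, fun h0 => hne ?_, by abel⟩
      rw [← h0, e1, e2, sk]
      simp only [map_mul]; ring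
    · have e1 : h + y + y' - y = y' + h := by abel
      have e2 : h + y + y' - y' = y + h := by abel
      have e3 : y' + h - y' = h := by abel
      rw [sk, e1, e2, e3]
      simp only [map_mul]; ring
  have a3 : ∀ z, ‖I z‖ ^ 4 ≤ (#B : ℝ) ^ 4 *
      (∑ y₁ ∈ B, ∑ y₂ ∈ B, ∑ y₁' ∈ B, ∑ y₂' ∈ B, sk4 X z y₁ y₂ y₁' y₂').re := fun z => by
    have h := box_two B B (fun y => b₁ y * conj (b₂ (z - y))) (fun y' => conj (b₁ y') * b₂ (z - y'))
      (sk X z)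
    have n1 := sum_normSq_le_card B (fun y => b₁ y * conj (b₂ (z - y))) fun y _ => by
      rw [norm_mul, Complex.norm_conj]; exact mul_le_one₀ (h₁ _) (norm_nonneg _) (h₂ _)
    have n2 := sum_normSq_le_card B (fun y' => conj (b₁ y') * b₂ (z - y')) fun y _ => by
      rw [norm_mul, Complex.norm_conj]; exact mul_le_one₀ (h₁ _) (norm_nonneg _) (h₂ _)
    have n3 : 0 ≤ (∑ y₁ ∈ B, ∑ y₂ ∈ B, ∑ y₁' ∈ B, ∑ y₂' ∈ B, sk4 X z y₁ y₂ y₁' y₂').re := by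
      have h' := box_two B B (fun _ => 1) (fun _ => 1) (sk X z)
      rcases B.eq_empty_or_nonempty with rfl | hB
      · simp
      have hB0 : (0 : ℝ) < #B := by exact_mod_cast card_pos.2 hB
      simp only [norm_one, one_pow, sum_const, nsmul_eq_mul, mul_one] at h'
      have h'' := le_trans (by positivity) h'
      exact nonneg_of_mul_nonneg_right (nonneg_of_mul_nonneg_right h'' (by positivity))
        (by positivity)
    refine h.trans ?_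
    calc _ ≤ (#B : ℝ) ^ 2 * ((#B : ℝ) ^ 2 *
        (∑ y₁ ∈ B, ∑ y₂ ∈ B, ∑ y₁' ∈ B, ∑ y₂' ∈ B, sk4 X z y₁ y₂ y₁' y₂').re) := by
          refine mul_le_mul (by gcongr) (mul_le_mul_of_nonneg_right (by gcongr) n3)
            (mul_nonneg (sq_nonneg _) n3) (sq_nonneg _)
      _ = _ := by ring
  have a4 := (a1.trans a2.le).trans ((Complex.re_le_norm _).trans (norm_sum_le _ _))
  refine (pow_le_pow_left₀ (sum_nonneg fun _ _ => sq_nonneg _) a4 4).trans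
    ((pow_sum_le Z _ (fun _ _ => norm_nonneg _) 3).trans ?_)
  refine mul_le_mul_of_nonneg_left ?_ (by positivity)
  rw [Complex.re_sum, mul_sum]
  exact sum_le_sum fun z _ => a3 z

/-- **symmetry chain** starting from Gowers norms -/
theorem symm_chain_U (s : ℕ) (B S T Z H : Finset G) (hZ : B + S ⊆ Z) (hT : B - B ⊆ T)
    {f₁ f₂ : G → ℂ} (h₁ : ∀ x, ‖f₁ x‖ ≤ 1) (h₂ : ∀ x, ‖f₂ x‖ ≤ 1) (hB : Supp f₁ B)
    (hS : Supp f₂ S) (χ : G → G → ℂ) :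
    (∑ h ∈ H, U (s + 1) (fun n => f₁ n * f₂ (n + h) * χ h n)) ^ 4 ≤
      ((#T : ℝ) ^ s) ^ 3 * ((#Z : ℝ) ^ 3 * ((#B : ℝ) ^ 4 *
      (∑ k ∈ Fintype.piFinset fun _ : Fin s => T, ∑ z ∈ Z, ∑ y₁ ∈ B, ∑ y₂ ∈ B, ∑ y₁' ∈ B,
        ∑ y₂' ∈ B, sk4 (fun h => Dk k (χ h)) z y₁ y₂ y₁' y₂').re)) := by
  have e : ∀ h, U (s + 1) (fun n => f₁ n * f₂ (n + h) * χ h n) =
      ∑ k ∈ Fintype.piFinset fun _ : Fin s => T,
        ‖∑ n ∈ B, Dk k f₁ n * Dk k f₂ (n + h) * Dk k (χ h) n‖ ^ 2 := fun h => by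
    rw [U_eq_sum_sq hT s ((hB.mul_right _).mul_right _)]
    simp only [Dk_mul, Dk_shift]
  simp only [e]
  rw [sum_comm]
  refine (pow_sum_le _ _ (fun _ _ => sum_nonneg fun _ _ => sq_nonneg _) 3).trans ?_
  rw [Fintype.card_piFinset, prod_const, card_univ, Fintype.card_fin, Nat.cast_pow]
  refine mul_le_mul_of_nonneg_left ?_ (by positivity)
  rw [Complex.re_sum, mul_sum, mul_sum]
  exact sum_le_sum fun k _ => symm_chain B S Z H hZ (norm_Dk_le k h₁) (norm_Dk_le k h₂)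
    (supp_Dk k hS) _

end Crest.Agent.T49.Box
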