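import Crest.Agent.T49.RngMass_63
import Crest.Agent.T49.MxCell_53
import Crest.Agent.T49.TwDblA_80

/-!
# Row 49 (helper89): homogeneous frames, Stanley–Reisner patterns and their masses

A homogeneous frame is a map `W : ι → MvPolynomial V ℤ` with `W c` homogeneous of degree `lev c`;
`t0` is the homogenising linear form.  `hw T t0 sc 𝒜 W` is the Gaussian weight of the Taylor
coefficients at the monomials in `𝒜`.
-/

set_option autoImplicit false
set_option linter.unusedSectionVars false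

noncomputable section

namespace Crest.Agent.T49.Hf

open MvPolynomial Finset Crest.Agent.T49.Tw Crest.Agent.T49.Rng
open scoped Classical

variable {ι V : Type} [Fintype V]

/-- monomials of degree `l` -/
def mh (V : Type) [Fintype V] (l : ℕ) : Finset (V →₀ ℕ) :=
  (Finsupp.finite_of_degree_le (σ := V) l).toFinset.filter fun α => α.degree = l

theorem mem_mh {l : ℕ} {α : V →₀ ℕ} : α ∈ mh V l ↔ α.degree = l := by
  simp only [mh, mem_filter, Set.Finite.mem_toFinset, Set.mem_ofPred_eq]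
  exact ⟨fun h => h.2, fun h => ⟨h.le, h⟩⟩

/-- the linear form with coefficients `t` -/
def lin (t : V → ℤ) : Pl V := ∑ v, C (t v : ℝ) * X v

/-- real version of an integer polynomial map -/
def rl (W : ι → MvPolynomial V ℤ) (c : ι) : Pl V := map (Int.castRingHom ℝ) (W c)

/-- homogeneous frames supported on the monomials in `𝒜` -/
def IsH (lev : ι → ℕ) (𝒜 : Set (V →₀ ℕ)) (W : ι → MvPolynomial V ℤ) : Prop :=
  ∀ c, ∀ α ∈ (W c).support, α.degree = lev c ∧ α ∈ 𝒜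

/-- the window polynomial of a frame -/
def ht (T : Cell ι) (t0 : V → ℤ) (W : ι → MvPolynomial V ℤ) (c : ι) : Pl V :=
  hev T.lev (lin t0) (rl W) (T.lev c) (T.th c)

variable [Fintype ι]

/-- squared norm of the Taylor data at the monomials in `𝒜` -/
def hq (T : Cell ι) (t0 : V → ℤ) (sc : (V →₀ ℕ) → ℝ) (𝒜 : Set (V →₀ ℕ))
    (W : ι → MvPolynomial V ℤ) : ℝ :=
  ∑ c, ∑ α ∈ mh V (T.lev c) with α ∈ 𝒜, (coeff α (ht T t0 W c) / sc α) ^ 2

/-- Gaussian weight -/
def hw (T : Cell ι) (t0 : V → ℤ) (sc : (V →₀ ℕ) → ℝ) (𝒜 : Set (V →₀ ℕ))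
    (W : ι → MvPolynomial V ℤ) : ℝ := Real.exp (-Real.pi * hq T t0 sc 𝒜 W)

/-- ideal mass -/
def hmu (T : Cell ι) (sc : (V →₀ ℕ) → ℝ) (𝒜 : Set (V →₀ ℕ)) : ℝ :=
  ∏ c, ∏ α ∈ mh V (T.lev c) with α ∈ 𝒜, sc α * |T.a c|⁻¹

section basic
variable (T : Cell ι) (t0 : V → ℤ) (sc : (V →₀ ℕ) → ℝ) {𝒜 ℬ : Set (V →₀ ℕ)}

theorem hq_nonneg (W : ι → MvPolynomial V ℤ) : 0 ≤ hq T t0 sc 𝒜 W :=
  sum_nonneg fun _ _ => sum_nonneg fun _ _ => sq_nonneg _

theorem hw_pos (W : ι → MvPolynomial V ℤ) : 0 < hw T t0 sc 𝒜 W := Real.exp_pos _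

theorem hw_le_one (W : ι → MvPolynomial V ℤ) : hw T t0 sc 𝒜 W ≤ 1 :=
  Real.exp_le_one_iff.2 (by
    have := hq_nonneg T t0 sc (𝒜 := 𝒜) W
    have := Real.pi_pos
    nlinarith)

theorem hmu_pos (hsc : ∀ α, 0 < sc α) : 0 < hmu T sc 𝒜 :=
  prod_pos fun c _ => prod_pos fun α _ => mul_pos (hsc α) (inv_pos.2 (abs_pos.2 (T.a_ne c)))

theorem filter_union_set (s : Finset (V →₀ ℕ)) :
    (s.filter fun α => α ∈ 𝒜 ∪ ℬ) = (s.filter fun α => α ∈ 𝒜) ∪ s.filter fun α => α ∈ ℬ := by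
  ext α; simp only [mem_filter, Set.mem_union, mem_union]; tauto

theorem disjoint_filter_set (h : Disjoint 𝒜 ℬ) (s : Finset (V →₀ ℕ)) :
    Disjoint (s.filter fun α => α ∈ 𝒜) (s.filter fun α => α ∈ ℬ) :=
  disjoint_left.2 fun _ h1 h2 => Set.disjoint_left.1 h (mem_filter.1 h1).2 (mem_filter.1 h2).2

theorem hq_union (h : Disjoint 𝒜 ℬ) (W : ι → MvPolynomial V ℤ) :
    hq T t0 sc (𝒜 ∪ ℬ) W = hq T t0 sc 𝒜 W + hq T t0 sc ℬ W := by
  rw [hq, hq, hq, ← sum_add_distrib]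
  refine sum_congr rfl fun c _ => ?_
  rw [← sum_union (disjoint_filter_set h _), ← filter_union_set]
  congr!

theorem hw_union (h : Disjoint 𝒜 ℬ) (W : ι → MvPolynomial V ℤ) :
    hw T t0 sc (𝒜 ∪ ℬ) W = hw T t0 sc 𝒜 W * hw T t0 sc ℬ W := by
  rw [hw, hq_union T t0 sc h, mul_add, Real.exp_add]; rfl

theorem hmu_union (h : Disjoint 𝒜 ℬ) : hmu T sc (𝒜 ∪ ℬ) = hmu T sc 𝒜 * hmu T sc ℬ := by
  rw [hmu, hmu, hmu, ← prod_mul_distrib]
  refine prod_congr rfl fun c _ => ?_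
  rw [← prod_union (disjoint_filter_set h _), ← filter_union_set]
  congr!

end basic

/-! ### the ring -/

/-- monomials of degree `≤ s` -/
abbrev ML (V : Type) [Fintype V] (s : ℕ) : Type :=
  {α // α ∈ (Finsupp.finite_of_degree_le (σ := V) s).toFinset}

/-- the lattice of integer forms of degree `l` -/
def hL (V : Type) [Fintype V] (l : ℕ) : Submodule ℤ (Pl V) :=
  Submodule.span ℤ (Set.range fun α : {α // α ∈ mh V l} => (monomial α.1 1 : Pl V))

theorem indep_mono (l : ℕ) :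
    LinearIndependent ℝ fun α : {α // α ∈ mh V l} => (monomial α.1 1 : Pl V) := by
  have := (basisMonomials V ℝ).linearIndependent.comp (fun α : {α // α ∈ mh V l} => α.1)
    Subtype.val_injective
  have e : (fun α : {α // α ∈ mh V l} => (monomial α.1 1 : Pl V)) =
      basisMonomials V ℝ ∘ fun α : {α // α ∈ mh V l} => α.1 := by
    funext α
    simp
  rw [e]
  exact this

theorem eq_sum_mh {R : Type} [CommRing R] {p : MvPolynomial V R} {l : ℕ}
    (h : ∀ α ∈ p.support, α.degree = l) :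
    p = ∑ α : {α // α ∈ mh V l}, coeff α.1 p • (monomial α.1 1 : MvPolynomial V R) := by
  rw [sum_coe_sort (mh V l) fun α => coeff α p • (monomial α 1 : MvPolynomial V R)]
  conv_lhs => rw [p.as_sum]
  simp only [smul_monomial, smul_eq_mul, mul_one]
  exact sum_subset (fun α hα => mem_mh.2 (h α hα)) fun α _ hα => by
    rw [notMem_support_iff.1 hα, map_zero]

theorem mem_span_hL {l : ℕ} {p : Pl V} :
    p ∈ Submodule.span ℝ (hL V l : Set (Pl V)) ↔ ∀ α ∈ p.support, α.degree = l := by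
  constructor
  · intro h
    have h1 : Submodule.span ℝ (hL V l : Set (Pl V)) ≤ homogeneousSubmodule V ℝ l := by
      refine Submodule.span_le.2 fun x hx => ?_
      refine Submodule.span_induction (p := fun x _ => x ∈ homogeneousSubmodule V ℝ l) ?_
        (zero_mem _) (fun _ _ _ _ => add_mem) (fun a _ _ h => zsmul_mem h a) hx
      rintro _ ⟨α, rfl⟩
      exact isHomogeneous_monomial _ (mem_mh.1 α.2)
    intro α hα
    rw [Finsupp.degree_eq_weight_one]
    exact h1 h (mem_support_iff.1 hα)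
  · intro h
    rw [eq_sum_mh h]
    exact Submodule.sum_mem _ fun α _ => Submodule.smul_mem _ _
      (Submodule.subset_span (Submodule.subset_span ⟨α, rfl⟩))

theorem mem_span_hL' {l : ℕ} {p : Pl V} :
    p ∈ Submodule.span ℝ (hL V l : Set (Pl V)) ↔ p.IsHomogeneous l := by
  rw [mem_span_hL]
  exact ⟨fun h α hα => by
      rw [← h α (mem_support_iff.2 hα), Finsupp.degree_eq_weight_one]; rfl,
    fun h α hα => by rw [Finsupp.degree_eq_weight_one]; exact h (mem_support_iff.1 hα)⟩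

theorem mem_hL {l : ℕ} {p : Pl V} : p ∈ hL V l ↔ p.IsHomogeneous l ∧ IsInt p := by
  constructor
  · intro h
    refine ⟨mem_span_hL'.1 (Submodule.subset_span h), ?_⟩
    refine Submodule.span_induction (p := fun x _ => x ∈ intSub V) ?_
      (zero_mem _) (fun _ _ _ _ => add_mem) (fun a _ _ h => zsmul_mem h a) h |> mem_intSub.1
    rintro _ ⟨α, rfl⟩
    refine mem_intSub.2 fun m => ?_
    rw [coeff_monomial]
    split_ifs
    exacts [⟨1, by simp⟩, ⟨0, by simp⟩]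
  · rintro ⟨h1, h2⟩
    rw [eq_sum_mh (mem_span_hL.1 (mem_span_hL'.2 h1))]
    refine Submodule.sum_mem _ fun α _ => ?_
    obtain ⟨n, hn⟩ := h2 α.1
    rw [hn, Int.cast_smul_eq_zsmul]
    exact Submodule.smul_mem _ _ (Submodule.subset_span ⟨α, rfl⟩)

theorem lin_hom (t : V → ℤ) : (lin t).IsHomogeneous 1 :=
  IsHomogeneous.sum _ _ _ fun v _ => by simpa using (isHomogeneous_C V (t v : ℝ)).mul (isHomogeneous_X ℝ v)

/-- the window map -/
def hQ (s : ℕ) (sc : (V →₀ ℕ) → ℝ) : Pl V →ₗ[ℝ] EuclideanSpace ℝ (ML V s) :=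
  (WithLp.linearEquiv 2 ℝ (ML V s → ℝ)).symm.toLinearMap ∘ₗ
    LinearMap.pi fun α : ML V s => (sc α.1)⁻¹ • lcoeff ℝ α.1

theorem hQ_apply (s : ℕ) (sc : (V →₀ ℕ) → ℝ) (p : Pl V) (α : ML V s) :
    hQ s sc p α = coeff α.1 p / sc α.1 := by
  simp [hQ, div_eq_inv_mul]

theorem norm_hQ {s l : ℕ} (hl : l ≤ s) (sc : (V →₀ ℕ) → ℝ) {p : Pl V} (hp : p.IsHomogeneous l) :
    ‖hQ s sc p‖ ^ 2 = ∑ α ∈ mh V l, (coeff α p / sc α) ^ 2 := by
  rw [EuclideanSpace.real_norm_sq_eq]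
  simp only [hQ_apply]
  rw [sum_coe_sort _ fun α => (coeff α p / sc α) ^ 2]
  refine (sum_subset (fun α hα => ?_) fun α _ hα => ?_).symm
  · simpa using (mem_mh.1 hα).le.trans hl
  · rw [hp.coeff_eq_zero (fun h => hα (mem_mh.2 h))]; simp

/-- the ring of homogeneous frames -/
def hRg (s : ℕ) (t0 : V → ℤ) (sc : (V →₀ ℕ) → ℝ) (hsc : ∀ α, 0 < sc α) :
    Rg s (Pl V) (EuclideanSpace ℝ (ML V s)) where
  L := hL V
  t0 := lin t0
  Q _ := hQ s sc
  lat l := isLat_span (indep_mono l)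
  one_mem := mem_span_hL'.2 (isHomogeneous_one V ℝ)
  t0_mem := mem_span_hL'.2 (lin_hom t0)
  mul_mem _ _ _ _ hx _ hy := mem_span_hL'.2 ((mem_span_hL'.1 hx).mul (mem_span_hL'.1 hy))
  inj l hl x hx h := by
    ext α
    by_contra h0
    have h1 := mem_span_hL.1 hx α (mem_support_iff.2 h0)
    have h2 := hQ_apply s sc x ⟨α, by simpa using h1.le.trans hl⟩
    rw [h] at h2
    exact h0 (by simpa [(hsc α).ne'] using h2.symm)

/-- the monomial basis -/
def hTB {s l : ℕ} (hl : l ≤ s) (t0 : V → ℤ) {sc : (V →₀ ℕ) → ℝ} (hsc : ∀ α, 0 < sc α) {K : ℝ}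
    (hK : ∀ α : V →₀ ℕ, α.degree ≤ s → (sc α)⁻¹ ≤ K) :
    TB ((hRg s t0 sc hsc).L l) ((hRg s t0 sc hsc).Q l) K {α // α ∈ mh V l} where
  v α := monomial α.1 1
  co α := (sc α.1)⁻¹ • lcoeff ℝ α.1
  pos _ := 0
  mem α := Submodule.subset_span ⟨α, rfl⟩
  gen y hy := by
    obtain ⟨h1, h2⟩ := mem_hL.1 hy
    choose n hn using h2
    refine ⟨fun α => n α.1, ?_⟩
    conv_lhs => rw [eq_sum_mh (mem_span_hL.1 (mem_span_hL'.2 h1))]
    exact sum_congr rfl fun α _ => by rw [hn, Int.cast_smul_eq_zsmul]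
  nrm y hy := by
    refine (norm_hQ hl sc (mem_span_hL'.1 hy)).trans ?_
    rw [← sum_coe_sort]
    exact sum_congr rfl fun α _ => by simp [div_eq_inv_mul]
  tri i j h := Or.inl (Subtype.ext (by
    by_contra h'
    exact h (by simp [coeff_monomial, h'])))
  ne α := by simp [(hsc α.1).ne']
  le α := by
    simpa [abs_of_pos (hsc α.1)] using hK α.1 ((mem_mh.1 α.2).le.trans hl)

theorem prod_X_eq {l : ℕ} (u : Fin l → V) :
    (∏ i, X (u i) : Pl V) = monomial (∑ i, Finsupp.single (u i) 1) 1 := by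
  rw [monomial_sum_one]; rfl

theorem degree_sum_single {l : ℕ} (u : Fin l → V) :
    (∑ i, Finsupp.single (u i) 1 : V →₀ ℕ).degree = l := by
  simp [map_sum]

theorem exists_fin_of_degree : ∀ (l : ℕ) (α : V →₀ ℕ), α.degree = l →
    ∃ u : Fin l → V, α = ∑ i, Finsupp.single (u i) 1 := by
  intro l
  induction l with
  | zero => intro α h; exact ⟨Fin.elim0, by simpa using (Finsupp.degree_eq_zero_iff α).1 h⟩
  | succ l ih =>
    intro α h
    obtain ⟨v, hv⟩ : ∃ v, α v ≠ 0 := by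
      by_contra h0
      push Not at h0
      rw [show α = 0 from Finsupp.ext h0] at h
      simp at h
    have e : α = Finsupp.single v 1 + (α - Finsupp.single v 1) :=
      (add_tsub_cancel_of_le (Finsupp.single_le_iff.2 (Nat.one_le_iff_ne_zero.2 hv))).symm
    obtain ⟨u, hu⟩ := ih (α - Finsupp.single v 1) (by
      rw [e, map_add, Finsupp.degree_single] at h; omega)
    exact ⟨Fin.cons v u, by rw [Fin.sum_univ_succ, Fin.cons_zero, e, hu]; simp⟩

theorem norm_hQ_mono {s l : ℕ} (hl : l ≤ s) {sc : (V →₀ ℕ) → ℝ} (hsc : ∀ α, 0 < sc α)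
    {α : V →₀ ℕ} (hα : α.degree = l) : ‖hQ s sc (monomial α 1)‖ = (sc α)⁻¹ := by
  have h := norm_hQ hl sc (isHomogeneous_monomial (1 : ℝ) hα)
  rw [sum_eq_single_of_mem α (mem_mh.2 hα) fun β _ hβ => by simp [coeff_monomial, hβ.symm],
    coeff_monomial, if_pos rfl, one_div] at h
  exact (pow_left_inj₀ (norm_nonneg _) (inv_pos.2 (hsc α)).le two_ne_zero).1 h

/-- the variables generate -/
def hGens (s : ℕ) (t0 : V → ℤ) {sc : (V →₀ ℕ) → ℝ} (hsc : ∀ α, 0 < sc α) {K : ℝ}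
    (hK : ∀ α : V →₀ ℕ, α.degree ≤ s → (sc α)⁻¹ ≤ K) : (hRg s t0 sc hsc).Gens V K where
  g := X
  mem l _ _ u := by
    rw [prod_X_eq]
    exact Submodule.subset_span ⟨⟨_, mem_mh.2 (degree_sum_single u)⟩, rfl⟩
  nrm l _ hl u := by
    rw [prod_X_eq]
    exact (norm_hQ_mono hl hsc (degree_sum_single u)).trans_le
      (hK _ ((degree_sum_single u).le.trans hl))
  span l _ _ p hp := by
    rw [eq_sum_mh (mem_span_hL.1 hp)]
    refine Submodule.sum_mem _ fun α _ => Submodule.smul_mem _ _ (Submodule.subset_span ?_)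
    obtain ⟨u, hu⟩ := exists_fin_of_degree l α.1 (mem_mh.1 α.2)
    exact ⟨u, by rw [hu]; exact prod_X_eq u⟩

/-! ### masses of Stanley–Reisner patterns -/

/-- polynomials without monomials in `𝒜` -/
def offI {𝒜 : Set (V →₀ ℕ)} (h : IsLowerSet 𝒜) : Ideal (Pl V) where
  carrier := {p | ∀ α ∈ 𝒜, coeff α p = 0}
  add_mem' hp hq α hα := by rw [coeff_add, hp α hα, hq α hα, add_zero]
  zero_mem' α _ := rfl
  smul_mem' r p hp α hα := by
    rw [smul_eq_mul, coeff_mul]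
    refine sum_eq_zero fun x hx => ?_
    rw [hp x.2 (h (by rw [← HasAntidiagonal.mem_antidiagonal.1 hx]; exact le_add_self) hα),
      mul_zero]

/-- polynomials whose monomials with a variable outside `q` have coefficients in `J` -/
def badSub {κ A : Type} [CommRing A] [Algebra ℝ A] (q : κ → Prop) (J : Ideal A) :
    Submodule ℝ (MvPolynomial κ A) where
  carrier := {f | ∀ m : κ →₀ ℕ, (∃ x ∈ m.support, ¬ q x) → coeff m f ∈ J}
  add_mem' hf hg m hm := by rw [coeff_add]; exact add_mem (hf m hm) (hg m hm)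
  zero_mem' m _ := by simp
  smul_mem' r f hf m hm := by
    rw [coeff_smul, Algebra.smul_def]; exact J.mul_mem_left _ (hf m hm)

section bad
variable {κ A : Type} [CommRing A] [Algebra ℝ A] {q : κ → Prop} {J : Ideal A}

theorem C_mem_badSub (a : A) : (C a : MvPolynomial κ A) ∈ badSub q J := by
  rintro m ⟨x, hx, -⟩
  rw [coeff_C, if_neg (by rintro rfl; simp at hx)]
  exact zero_mem _

theorem mul_mem_badSub {f g : MvPolynomial κ A} (hf : f ∈ badSub q J) (hg : g ∈ badSub q J) :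
    f * g ∈ badSub q J := by
  rintro m ⟨x, hx, hq⟩
  rw [coeff_mul]
  refine sum_mem fun y hy => ?_
  rw [← HasAntidiagonal.mem_antidiagonal.1 hy] at hx
  rcases mem_union.1 (Finsupp.support_add hx) with h | h
  exacts [J.mul_mem_right _ (hf _ ⟨x, h, hq⟩), J.mul_mem_left _ (hg _ ⟨x, h, hq⟩)]

theorem C_mul_X_mem_badSub {a : A} {x : κ} (h : ¬ q x → a ∈ J) :
    (C a * X x : MvPolynomial κ A) ∈ badSub q J := by
  rintro m ⟨y, hy, hq⟩
  rw [C_mul_X_eq_monomial, coeff_monomial]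
  split_ifs with h'
  · subst h'
    rw [Finsupp.support_single _ one_ne_zero, mem_singleton] at hy
    exact h (hy ▸ hq)
  · exact zero_mem _

end bad

section cell
variable {s : ℕ} (T : Cell ι) (t0 : V → ℤ) {sc : (V →₀ ℕ) → ℝ} (hsc : ∀ α, 0 < sc α) {K : ℝ}
  (hK : ∀ α : V →₀ ℕ, α.degree ≤ s → (sc α)⁻¹ ≤ K) (hlev : ∀ c, T.lev c ≤ s)

/-- the cell of homogeneous frames -/
def hc : Cell (Σ c : ι, {α // α ∈ mh V (T.lev c)}) :=
  (hRg s t0 sc hsc).cell T (fun c => hTB (hlev c) t0 hsc hK) (Off.zero ι _)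

theorem hc_clo {𝒜 : Set (V →₀ ℕ)} (h : IsLowerSet 𝒜) :
    (hc T t0 hsc hK hlev).Clo fun x => x.2.1 ∈ 𝒜 := by
  intro x hx
  have h1 : (hRg s t0 sc hsc).Thp T (fun c => hTB (hlev c) t0 hsc hK) (Off.zero ι _) x.1 ∈
      badSub (fun x : Σ c : ι, {α // α ∈ mh V (T.lev c)} => x.2.1 ∈ 𝒜) (offI h) := by
    refine sub_mem (hev_mem_grade (s := T.lev x.1) (E := fun _ => badSub _ (offI h))
      (C_mem_badSub 1) (fun _ _ _ _ ha _ hb => mul_mem_badSub ha hb) (C_mem_badSub _)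
      (fun m _ c _ => add_mem (C_mem_badSub _) (sum_mem fun j _ => C_mul_X_mem_badSub ?_)) le_rfl)
      (C_mem_badSub _)
    intro hj α hα
    change coeff α (monomial j.1 (1 : ℝ)) = 0
    rw [coeff_monomial, if_neg]
    rintro rfl
    exact hj hα
  refine sub_mem ?_ (mul_mem (C_mem_supp _ _) (X_mem_supp hx))
  rw [mem_supported]
  intro y hy
  obtain ⟨m, hm, hym⟩ := (mem_vars_iff_mem_support _).1 hy
  by_contra h2
  refine mem_support_iff.1 hm ?_
  rw [coeff_coP]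
  have h3 : ∀ p : Pl V, (hTB (hlev x.1) t0 hsc hK).co x.2 p = (sc x.2.1)⁻¹ * coeff x.2.1 p :=
    fun p => rfl
  refine (h3 _).trans ?_
  rw [h1 m ⟨y, hym, h2⟩ _ hx, mul_zero]

theorem hc_pc (hK1 : 1 ≤ K) {y : ℝ}
    (hy : ((Fintype.card V + 1 : ℕ) : ℝ) ^ s + s + Real.log K + 2 ≤ y) :
    T.PC (y ^ 4) (hc T t0 hsc hK hlev) Sigma.fst := by
  set G := hGens s t0 hsc hK
  set r := (Fintype.card V + 1) ^ s with hr
  have hr1 : 1 ≤ r := Nat.one_le_pow _ _ (Nat.succ_pos _)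
  have hr1' : (1 : ℝ) ≤ r := by exact_mod_cast hr1
  have hlog : 0 ≤ Real.log K := Real.log_nonneg hK1
  have hs0 : (0 : ℝ) ≤ s := Nat.cast_nonneg _
  have hy' : (r : ℝ) + s + Real.log K + 2 ≤ y := by rw [hr]; push_cast at hy ⊢; exact hy
  have hp2 : (1 : ℝ) ≤ (s + 1) ^ s := one_le_pow₀ (by linarith)
  have hy3 : 3 ≤ y := by linarith
  have hy2 : 9 ≤ y ^ 2 := by nlinarith
  refine Rg.cell_pc _ T _ _ hlev (r := r) (fun c => ?_) hr1 hK1
    (one_le_mul_of_one_le_of_one_le hp2 hK1) (Sm G.g s) (fun a ha c => ?_)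
    (fun c => G.span_pow (T.lev_pos c) (hlev c)) ?_ ?_
  · rw [← (hTB (hlev c) t0 hsc hK).finrank_eq]; exact G.rk_le' (T.lev_pos c) (hlev c)
  · have h := G.pow_mem ha (T.lev_pos c) (hlev c)
    refine ⟨h.1, h.2.trans ?_⟩
    rw [abs_of_nonneg (by linarith)]
    exact mul_le_mul_of_nonneg_right ((pow_le_pow_left₀ hs0 (by linarith) _).trans
      (pow_le_pow_right₀ (by linarith) (hlev c))) (by linarith)
  · have : (r : ℝ) * (1 + Real.log K) ≤ y * y :=
      mul_le_mul (by linarith) (by linarith) (by linarith) (by linarith)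
    nlinarith
  · rw [← Real.exp_log (show (0 : ℝ) < ((s + 1) ^ s * K) ^ (s + 1) by positivity),
      Real.exp_le_exp, Real.log_pow, Real.log_mul (by positivity) (by positivity), Real.log_pow]
    have h1 := Real.log_le_sub_one_of_pos (show (0 : ℝ) < s + 1 by positivity)
    have h0 : 0 ≤ Real.log (s + 1) := Real.log_nonneg (by linarith)
    have h2 : (s : ℝ) * Real.log (s + 1) ≤ y * y :=
      mul_le_mul (by linarith) (by linarith) h0 (by linarith)
    have h3 : ((s + 1 : ℕ) : ℝ) * (s * Real.log (s + 1) + Real.log K) ≤ y * (y * y + y) :=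
      mul_le_mul (by push_cast; linarith) (by linarith) (by positivity) (by linarith)
    refine h3.trans ?_
    rw [show y ^ 4 = y * (y * y * y) by ring]
    exact mul_le_mul_of_nonneg_left (by nlinarith) (by linarith)

theorem hc_ev {W : ι → MvPolynomial V ℤ} (hW : IsH T.lev Set.univ W)
    (x : Σ c : ι, {α // α ∈ mh V (T.lev c)}) :
    ev (fun x => coeff x.2.1 (W x.1)) ((hc T t0 hsc hK hlev).th x) =
      coeff x.2.1 (ht T t0 W x.1) / sc x.2.1 := by
  rw [hc, Rg.cell_th, ev_coP, Rg.evA_Thp]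
  change (sc x.2.1)⁻¹ * coeff x.2.1 (hev T.lev (lin t0) _ _ _ - 0) = _
  rw [sub_zero, div_eq_inv_mul, ht]
  congr 3
  funext c
  change 0 + ∑ α : {α // α ∈ mh V (T.lev c)}, coeff α.1 (W c) • (monomial α.1 1 : Pl V) = _
  rw [zero_add, rl]
  conv_rhs => rw [eq_sum_mh fun α hα => (hW c α hα).1, map_sum]
  exact sum_congr rfl fun α _ => by rw [map_zsmul, map_monomial, map_one (Int.castRingHom ℝ)]

include hsc hK hlev in
/-- **SRM**: the mass of a Stanley–Reisner pattern -/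
theorem srm (hK1 : 1 ≤ K) {y x η : ℝ}
    (hy : ((Fintype.card V + 1 : ℕ) : ℝ) ^ s + s + Real.log K + 2 ≤ y) (hx : y ^ 6 ≤ x)
    (hA : T.AllPC x η) {𝒜 : Set (V →₀ ℕ)} (h𝒜 : IsLowerSet 𝒜) (Z : Finset (ι → MvPolynomial V ℤ))
    (hZ : ∀ W ∈ Z, IsH T.lev 𝒜 W) : ∑ W ∈ Z, hw T t0 sc 𝒜 W ≤ (1 + η) * hmu T sc 𝒜 := by
  set q : (Σ c : ι, {α // α ∈ mh V (T.lev c)}) → Prop := fun x => x.2.1 ∈ 𝒜 with hq'
  set U := (hc T t0 hsc hK hlev).frz q with hU
  have hy2 : 2 ≤ y := by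
    have := Real.log_nonneg hK1
    have : (0 : ℝ) ≤ ((Fintype.card V + 1 : ℕ) : ℝ) ^ s := by positivity
    linarith [(Nat.cast_nonneg s : (0 : ℝ) ≤ s)]
  have hy4 : 16 ≤ y ^ 4 := le_trans (by norm_num) (pow_le_pow_left₀ (by norm_num) hy2 4)
  have hy6 : y ^ 4 * 4 ≤ y ^ 6 := by
    rw [show y ^ 6 = y ^ 4 * y ^ 2 by ring]
    exact mul_le_mul_of_nonneg_left (by nlinarith) (by linarith)
  have hM := hA _ U _ ((hc_pc T t0 hsc hK hlev hK1 hy).trans
    (Cell.pc_frz _ (hc_clo T t0 hsc hK hlev h𝒜)) (by linarith) (by linarith))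
  have hmu' : U.mu = hmu T sc 𝒜 := by
    change ∏ x : {x // q x}, |(hc T t0 hsc hK hlev).a x.1|⁻¹ = _
    rw [← prod_subtype (univ.filter q) (by simp) fun x => |(hc T t0 hsc hK hlev).a x|⁻¹,
      prod_filter, Fintype.prod_sigma, hmu]
    refine prod_congr rfl fun c _ => ?_
    rw [prod_filter, ← prod_coe_sort (mh V (T.lev c))]
    refine prod_congr rfl fun α _ => if_congr Iff.rfl ?_ rfl
    change |T.a c * ((sc α.1)⁻¹ * coeff α.1 (monomial α.1 (1 : ℝ)))|⁻¹ = _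
    rw [coeff_monomial, if_pos rfl, mul_one, abs_mul, abs_of_pos (inv_pos.2 (hsc _)), mul_inv,
      inv_inv, mul_comm]
  set Φ : (ι → MvPolynomial V ℤ) → {x // q x} → ℤ := fun W x => coeff x.1.2.1 (W x.1.1) with hΦ
  have hwt : ∀ W ∈ Z, U.wgt (Φ W) = hw T t0 sc 𝒜 W := fun W hW => by
    have h1 : ∀ x : {x // q x}, ev (Φ W) (U.th x) = coeff x.1.2.1 (ht T t0 W x.1.1) / sc x.1.2.1 :=
      fun x => by
        rw [← hc_ev T t0 hsc hK hlev (fun c α hα => ⟨(hZ W hW c α hα).1, trivial⟩),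
          ← Cell.rename_frz_th _ (hc_clo T t0 hsc hK hlev h𝒜) x, ev, ev, eval_rename]
        rfl
    rw [Tri.wgt, hw, hq]
    simp only [h1]
    rw [← sum_subtype (univ.filter q) (by simp)
      fun x => (coeff x.2.1 (ht T t0 W x.1) / sc x.2.1) ^ 2, sum_filter, Fintype.sum_sigma]
    congr 2
    refine sum_congr rfl fun c _ => ?_
    rw [sum_filter, ← sum_coe_sort (mh V (T.lev c))]
  have hinj : Set.InjOn Φ Z := fun W hW W' hW' h => by
    funext c
    ext α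
    by_cases h1 : α.degree = T.lev c ∧ α ∈ 𝒜
    · exact congrFun h ⟨⟨c, α, mem_mh.2 h1.1⟩, h1.2⟩
    · rw [notMem_support_iff.1 fun h2 => h1 (hZ W hW c α h2),
        notMem_support_iff.1 fun h2 => h1 (hZ W' hW' c α h2)]
  have h1 : ∑ W ∈ Z, hw T t0 sc 𝒜 W ≤ U.M := by
    rw [← sum_congr rfl hwt, ← sum_image hinj]
    exact (DblA.summable_wgt U.toTri).sum_le_tsum _ fun _ _ => (Real.exp_pos _).le
  have h2 := (abs_le.1 hM).2
  rw [hmu', sub_le_iff_le_add', div_le_iff₀ (hmu_pos T sc hsc)] at h2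
  exact h1.trans h2

end cell

end Crest.Agent.T49.Hf
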