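import Crest.Agent.T49.HkB_67

/-!
# Row 49 (helper67): Host-Kra cubes, the norm, the dual function, box Cauchy-Schwarz
-/

set_option autoImplicit false

noncomputable section

namespace Crest.Agent.T49.Hk

open Finset
open Crest.Agent.T49.Box (cz sb cz_neg cz_mul norm_cz cz_one)
open scoped ComplexConjugate Classical

variable {G G' : Type*} [AddCommGroup G] [AddCommGroup G'] {κ κ' κ'' : Type} [Fintype κ]
  [DecidableEq κ] [Fintype κ'] [DecidableEq κ'] [Fintype κ''] [DecidableEq κ'']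
  {F : ℕ → AddSubgroup G} {F' : ℕ → AddSubgroup G'}

theorem tsum_pi_le {X α : Type*} [Fintype α] [DecidableEq α] {w : α → X → ℝ}
    (h0 : ∀ a x, 0 ≤ w a x) (hw : ∀ a, Summable (w a)) :
    ∑' A : α → X, ∏ a, w a (A a) ≤ ∏ a, ∑' x, w a x := by
  refine (summable_pi h0 hw).tsum_le_of_sum_le fun S => ?_
  calc ∑ A ∈ S, ∏ a, w a (A a)
      ≤ ∑ A ∈ Fintype.piFinset fun a => S.image (· a), ∏ a, w a (A a) :=
        sum_le_sum_of_subset_of_nonneg
          (fun A hA => Fintype.mem_piFinset.2 fun a => mem_image_of_mem _ hA)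
          fun A _ _ => prod_nonneg fun a _ => h0 a _
    _ = ∏ a, ∑ x ∈ S.image (· a), w a x := (prod_univ_sum _ _).symm
    _ ≤ _ := prod_le_prod (fun a _ => sum_nonneg fun x _ => h0 a x)
          fun a _ => (hw a).sum_le_tsum _ fun x _ => h0 a x

/-! ### the dual function -/

section dual

/-- the product over the vertices other than `v` -/
def vq (f : (κ → Bool) → G → ℂ) (v : κ → Bool) (A : (κ → Bool) → G) : ℂ :=
  ∏ ω ∈ univ.erase v, cz (sg ω) (f ω (A ω))

omit [AddCommGroup G] in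
theorem vp_eq_vq (f : (κ → Bool) → G → ℂ) (v : κ → Bool) (A : (κ → Bool) → G) :
    vp f A = cz (sg v) (f v (A v)) * vq f v A := (mul_prod_erase _ _ (mem_univ v)).symm

omit [AddCommGroup G] in
theorem vq_update (f : (κ → Bool) → G → ℂ) (v : κ → Bool) (g : G → ℂ) :
    vq (Function.update f v g) v = vq f v :=
  funext fun _ => prod_congr rfl fun ω hω => by rw [Function.update_of_ne (ne_of_mem_erase hω)]

omit [AddCommGroup G] in
theorem vp_update (f : (κ → Bool) → G → ℂ) (v : κ → Bool) (g : G → ℂ) (A : (κ → Bool) → G) :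
    vp (Function.update f v g) A = cz (sg v) (g (A v)) * vq f v A := by
  rw [vp_eq_vq _ v, vq_update, Function.update_self]

omit [AddCommGroup G] [DecidableEq κ] in
theorem Sm.update {f : (κ → Bool) → G → ℂ} (hf : Sm f) (v : κ → Bool) {g : G → ℂ}
    (hg : Summable fun x => ‖g x‖) : Sm (Function.update f v g) := fun ω => by
  by_cases h : ω = v
  · subst h; simpa using hg
  · simpa [h] using hf ω

/-- the dual function at the vertex `v` -/
def dual (F : ℕ → AddSubgroup G) (f : (κ → Bool) → G → ℂ) (v : κ → Bool) (x : G) : ℂ :=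
  ∑' A : {A : Cu F κ // A.1 v = x}, vq f v A.1.1

theorem hasSum_dual {f : (κ → Bool) → G → ℂ} (hf : Sm f) (v : κ → Bool) :
    HasSum (fun x => cz (sg v) (f v x) * dual F f v x) (gip F f) := by
  have h := (hf.cu (Cu F κ)).of_norm.hasSum.tsum_fiberwise fun A : Cu F κ => A.1 v
  have e : ∀ x, cz (sg v) (f v x) * dual F f v x =
      ∑' A : (fun A : Cu F κ => A.1 v) ⁻¹' {x}, vp f A.1.1 := fun x => by
    rw [dual, ← tsum_mul_left]
    exact tsum_congr fun A => by rw [vp_eq_vq f v, show A.1.1 v = x from A.2]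
  simp only [e]
  exact h

theorem dual_update (f : (κ → Bool) → G → ℂ) (v : κ → Bool) (g : G → ℂ) :
    dual F (Function.update f v g) v = dual F f v := by
  funext x; simp only [dual, vq_update]

theorem hasSum_update {f : (κ → Bool) → G → ℂ} (hf : Sm f) (v : κ → Bool) {g : G → ℂ}
    (hg : Summable fun x => ‖g x‖) :
    HasSum (fun x => cz (sg v) (g x) * dual F f v x) (gip F (Function.update f v g)) := by
  simpa only [dual_update, Function.update_self] using hasSum_dual (F := F) (hf.update v hg) v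

theorem norm_dual_le {f : (κ → Bool) → G → ℂ} (hf : Sm f) (v : κ → Bool) (x : G) :
    ‖dual F f v x‖ ≤ ∏ ω ∈ univ.erase v, ∑' y, ‖f ω y‖ := by
  have hs : Summable fun y : G => ‖if y = x then (1 : ℂ) else 0‖ :=
    summable_of_ne_finset_zero (s := {x}) fun y hy => by simp at hy; simp [hy]
  have h1 := (hasSum_update (F := F) hf v hs).unique
    (hasSum_single (f := fun y => cz (sg v) (if y = x then (1 : ℂ) else 0) * dual F f v y) x
      fun y hy => by simp [hy, cz])
  have h2 : ‖dual F f v x‖ = ‖gip F (Function.update f v fun y => if y = x then 1 else 0)‖ := by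
    rw [h1]; simp
  have h3 := hf.update v hs
  rw [h2]
  refine (norm_gip_le h3 fun _ _ => le_rfl).trans ?_
  refine ((summable_pi (fun _ _ => norm_nonneg _) h3).tsum_subtype_le _ _
    fun _ => prod_nonneg fun _ _ => norm_nonneg _).trans ((tsum_pi_le (fun _ _ => norm_nonneg _)
      h3).trans_eq ?_)
  rw [← mul_prod_erase _ _ (mem_univ v), Function.update_self, tsum_eq_single x fun y hy => by
    simp [hy]]
  simp only [if_true, norm_one, one_mul]
  exact prod_congr rfl fun ω hω => by rw [Function.update_of_ne (ne_of_mem_erase hω)]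

end dual

/-! ### the norm -/

section norm

/-- the Gowers-Host-Kra norm -/
def UN (F : ℕ → AddSubgroup G) (s : ℕ) (f : G → ℂ) : ℝ := UK F s f ^ ((2 ^ s : ℕ) : ℝ)⁻¹

theorem UN_nonneg (s : ℕ) (f : G → ℂ) : 0 ≤ UN F s f := Real.rpow_nonneg (UK_nonneg _ _) _

theorem UN_pow (s : ℕ) (f : G → ℂ) : UN F s f ^ 2 ^ s = UK F s f :=
  Real.rpow_inv_natCast_pow (UK_nonneg _ _) (by positivity)

theorem gcs_UN (hF : Antitone F) {f : (κ → Bool) → G → ℂ} (hf : Sm f) :
    ‖gip F f‖ ≤ ∏ v, UN F (Fintype.card κ) (f v) := by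
  refine (pow_le_pow_iff_left₀ (norm_nonneg _) (prod_nonneg fun _ _ => UN_nonneg _ _)
    (n := 2 ^ Fintype.card κ) (by positivity)).1 ?_
  simpa only [← prod_pow, UN_pow] using gcs hF hf

theorem norm_gip_update_le (hF : Antitone F) {s : ℕ} {f g : G → ℂ} (hf : Summable fun x => ‖f x‖)
    (hg : Summable fun x => ‖g x‖) (v : Fin s → Bool) :
    ‖gip F (Function.update (fun _ => f) v g)‖ ≤ UN F s g * UN F s f ^ (2 ^ s - 1) := by
  refine (gcs_UN hF (Sm.update (fun _ => hf) v hg)).trans_eq ?_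
  rw [← mul_prod_erase _ _ (mem_univ v), Function.update_self, prod_congr rfl fun ω hω => by
    rw [Function.update_of_ne (ne_of_mem_erase hω)]]
  simp [card_erase_of_mem]

/-- a bound for the pairing with the dual function bounds the norm -/
theorem UN_le_of (s : ℕ) {f : G → ℂ} {B : ℝ} (hB : 0 ≤ B)
    (h : UK F s f ≤ B * UN F s f ^ (2 ^ s - 1)) : UN F s f ≤ B := by
  rcases (UN_nonneg (F := F) s f).eq_or_lt with h0 | h0
  · rwa [← h0]
  · rw [← UN_pow, show 2 ^ s = 2 ^ s - 1 + 1 from (Nat.sub_add_cancel Nat.one_le_two_pow).symm,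
      pow_succ', Nat.add_sub_cancel] at h
    exact le_of_mul_le_mul_right h (pow_pos h0 _)

/-- the norm as the pairing with the bounded dual function -/
theorem exists_dual (hF : Antitone F) (s : ℕ) {f : G → ℂ} (hf : Summable fun x => ‖f x‖) :
    ∃ D : G → ℂ, (∀ x, ‖D x‖ ≤ (∑' y, ‖f y‖) ^ (2 ^ s - 1)) ∧ ‖∑' x, f x * D x‖ = UK F s f ∧
      ∀ g : G → ℂ, (Summable fun x => ‖g x‖) →
        ‖∑' x, g x * D x‖ ≤ UN F s g * UN F s f ^ (2 ^ s - 1) := by
  refine ⟨dual F (fun _ : Fin s → Bool => f) fun _ => true, fun x => ?_, ?_, fun g hg => ?_⟩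
  · simpa [card_erase_of_mem] using
      norm_dual_le (F := F) (f := fun _ : Fin s → Bool => f) (fun _ => hf) (fun _ => true) x
  · have := (hasSum_dual (F := F) (f := fun _ : Fin s → Bool => f) (fun _ => hf)
      fun _ => true).tsum_eq
    simp only [sg_top, cz_one] at this
    rw [this, UK]
  · have := (hasSum_update (F := F) (f := fun _ : Fin s → Bool => f) (fun _ => hf)
      (fun _ => true) hg).tsum_eq
    simp only [sg_top, cz_one] at this
    rw [this]
    exact norm_gip_update_le hF hf hg _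

theorem summable_mul_bdd {X : Type*} {g D : X → ℂ} {B : ℝ} (hg : Summable fun x => ‖g x‖)
    (hD : ∀ x, ‖D x‖ ≤ B) : Summable fun x => ‖g x * D x‖ :=
  (hg.mul_right B).of_nonneg_of_le (fun _ => norm_nonneg _) fun x => by
    rw [norm_mul]; exact mul_le_mul_of_nonneg_left (hD x) (norm_nonneg _)

/-- **triangle inequality**, series -/
theorem UN_tsum_le (hF : Antitone F) (s : ℕ) {α : Type*} {g : α → G → ℂ}
    (hg : Summable fun p : α × G => ‖g p.1 p.2‖) (hU : Summable fun a => UN F s (g a)) :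
    UN F s (fun x => ∑' a, g a x) ≤ ∑' a, UN F s (g a) := by
  have hf : Summable fun x => ‖∑' a, g a x‖ :=
    hg.prod_symm.prod.of_nonneg_of_le (fun _ => norm_nonneg _) fun x =>
      norm_tsum_le_tsum_norm (hg.prod_symm.prod_factor x)
  obtain ⟨D, hD, h1, h2⟩ := exists_dual hF s hf
  refine UN_le_of s (tsum_nonneg fun _ => UN_nonneg _ _) ?_
  have h3 : Summable fun p : α × G => g p.1 p.2 * D p.2 :=
    (summable_mul_bdd (D := fun p : α × G => D p.2) hg fun p => hD _).of_norm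
  rw [← h1, ← tsum_mul_right]
  simp only [← tsum_mul_right (a := D _)]
  rw [Summable.tsum_comm (f := fun a x => g a x * D x) h3]
  exact tsum_of_norm_bounded (hU.mul_right _).hasSum fun a => h2 _ (hg.prod_factor a)

/-- **triangle inequality**, finite sums -/
theorem UN_sum_le (hF : Antitone F) (s : ℕ) {α : Type*} (I : Finset α) {g : α → G → ℂ}
    (hg : ∀ a ∈ I, Summable fun x => ‖g a x‖) :
    UN F s (fun x => ∑ a ∈ I, g a x) ≤ ∑ a ∈ I, UN F s (g a) := by
  have hf : Summable fun x => ‖∑ a ∈ I, g a x‖ :=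
    (summable_sum hg).of_nonneg_of_le (fun _ => norm_nonneg _) fun x => norm_sum_le _ _
  obtain ⟨D, hD, h1, h2⟩ := exists_dual hF s hf
  refine UN_le_of s (sum_nonneg fun _ _ => UN_nonneg _ _) ?_
  rw [← h1, sum_mul]
  simp only [sum_mul]
  rw [Summable.tsum_finsetSum fun a ha => (summable_mul_bdd (hg a ha) hD).of_norm]
  exact norm_sum_le_of_le _ fun a ha => h2 _ (hg a ha)

theorem UN_add_le (hF : Antitone F) (s : ℕ) {f g : G → ℂ} (hf : Summable fun x => ‖f x‖)
    (hg : Summable fun x => ‖g x‖) : UN F s (fun x => f x + g x) ≤ UN F s f + UN F s g := by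
  simpa using UN_sum_le hF s univ (g := fun b : Bool => if b then f else g)
    fun b _ => by split_ifs <;> assumption

open MeasureTheory in
/-- **triangle inequality**, integrals -/
theorem UN_integral_le [Countable G] (hF : Antitone F) (s : ℕ) {α : Type*} [MeasurableSpace α]
    {μ : Measure α} {g : α → G → ℂ} (hi : ∀ x, Integrable (g · x) μ)
    (hs : Summable fun x => ∫ a, ‖g a x‖ ∂μ) (hg : ∀ a, Summable fun x => ‖g a x‖) {b : α → ℝ}
    (hb : Integrable b μ) (hU : ∀ a, UN F s (g a) ≤ b a) :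
    UN F s (fun x => ∫ a, g a x ∂μ) ≤ ∫ a, b a ∂μ := by
  have hf : Summable fun x => ‖∫ a, g a x ∂μ‖ :=
    hs.of_nonneg_of_le (fun _ => norm_nonneg _) fun x => norm_integral_le_integral_norm _
  obtain ⟨D, hD, h1, h2⟩ := exists_dual hF s hf
  refine UN_le_of s (integral_nonneg fun a => (UN_nonneg _ _).trans (hU a)) ?_
  rw [← h1, ← integral_mul_const]
  simp only [← integral_mul_const (r := D _)]
  rw [integral_tsum_of_summable_integral_norm (fun x => (hi x).mul_const _)]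
  · exact norm_integral_le_of_norm_le (hb.mul_const _) (.of_forall fun a =>
      (h2 _ (hg a)).trans (mul_le_mul_of_nonneg_right (hU a) (pow_nonneg (UN_nonneg _ _) _)))
  · refine (hs.mul_right ((∑' y, ‖∫ a, g a y ∂μ‖) ^ (2 ^ s - 1))).of_nonneg_of_le
      (fun _ => integral_nonneg fun _ => norm_nonneg _) fun x => ?_
    simp only [norm_mul, integral_mul_const]
    exact mul_le_mul_of_nonneg_left (hD x) (integral_nonneg fun _ => norm_nonneg _)

theorem UK_smul (s : ℕ) (c : ℂ) (f : G → ℂ) :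
    UK F s (fun x => c * f x) = ‖c‖ ^ 2 ^ s * UK F s f := by
  simp only [UK, gip, vp_mul (fun _ _ => c) fun _ => f]
  rw [show (fun A : Cu F (Fin s) => vp (fun _ _ => c) A.1 * vp (fun _ => f) A.1) = fun A =>
    (∏ ω : Fin s → Bool, cz (sg ω) c) * vp (fun _ => f) A.1 from rfl, tsum_mul_left]
  simp

theorem UN_smul (s : ℕ) (c : ℂ) (f : G → ℂ) : UN F s (fun x => c * f x) = ‖c‖ * UN F s f := by
  refine (pow_left_inj₀ (UN_nonneg _ _) (mul_nonneg (norm_nonneg _) (UN_nonneg _ _))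
    (n := 2 ^ s) (by positivity)).1 ?_
  rw [mul_pow, UN_pow, UN_pow, UK_smul]

theorem UN_le_iff {s : ℕ} {f g : G → ℂ} {K : ℝ} (hK : 0 ≤ K) :
    UN F s f ≤ K * UN F s g ↔ UK F s f ≤ K ^ 2 ^ s * UK F s g := by
  rw [← UN_pow, ← UN_pow, ← mul_pow, pow_le_pow_iff_left₀ (UN_nonneg _ _)
    (mul_nonneg hK (UN_nonneg _ _)) (by positivity)]

/-- pigeonhole on a finite expansion -/
theorem exists_UK_ge (hF : Antitone F) (s : ℕ) {α : Type*} {I : Finset α} (hI : I.Nonempty)
    (c : α → ℂ) {g : α → G → ℂ} (hg : ∀ a ∈ I, Summable fun x => ‖g a x‖) :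
    ∃ a ∈ I, UK F s (fun x => ∑ a ∈ I, c a * g a x) ≤ (∑ a ∈ I, ‖c a‖) ^ 2 ^ s * UK F s (g a) := by
  obtain ⟨a, ha, h⟩ := I.exists_max_image (fun a => UN F s (g a)) hI
  refine ⟨a, ha, (UN_le_iff (sum_nonneg fun _ _ => norm_nonneg _)).1 ?_⟩
  refine (UN_sum_le hF s I fun b hb => by simpa using (hg b hb).mul_left ‖c b‖).trans ?_
  rw [sum_mul]
  exact sum_le_sum fun b hb => by
    rw [UN_smul]; exact mul_le_mul_of_nonneg_left (h b hb) (norm_nonneg _)

end norm

/-! ### box Cauchy-Schwarz -/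

section box

variable {X Y : Type*}

/-- weighted Cauchy-Schwarz -/
theorem cs_wt {a S : X → ℂ} {w : X → ℝ} {B : ℝ} (hw : Summable w) (ha : ∀ x, ‖a x‖ ≤ w x)
    (hS : ∀ x, ‖S x‖ ≤ B) :
    ‖∑' x, a x * S x‖ ^ 2 ≤ (∑' x, w x) * ∑' x, w x * ‖S x‖ ^ 2 := by
  have h0 : ∀ x, 0 ≤ w x := fun x => (norm_nonneg _).trans (ha x)
  have h1 : ∀ x, √(w x) ^ 2 = w x := fun x => Real.sq_sqrt (h0 x)
  have h2 : Summable fun x => w x * ‖S x‖ ^ 2 :=
    (hw.mul_right (B ^ 2)).of_nonneg_of_le (fun x => mul_nonneg (h0 x) (sq_nonneg _)) fun x =>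
      mul_le_mul_of_nonneg_left (pow_le_pow_left₀ (norm_nonneg _) (hS x) 2) (h0 x)
  have h3 : Summable fun x => √(w x) ^ 2 := by simpa only [h1] using hw
  have h4 : Summable fun x => (√(w x) * ‖S x‖) ^ 2 := by simpa only [mul_pow, h1] using h2
  have h5 := tsum_mul_sq_le (fun x => Real.sqrt_nonneg (w x))
    (fun x => mul_nonneg (Real.sqrt_nonneg (w x)) (norm_nonneg (S x))) h3 h4
  simp only [mul_pow, h1] at h5
  refine le_trans (pow_le_pow_left₀ (norm_nonneg _) ?_ 2) h5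
  refine tsum_of_norm_bounded (summable_mul_of_sq (fun x => Real.sqrt_nonneg (w x))
    (fun x => mul_nonneg (Real.sqrt_nonneg (w x)) (norm_nonneg (S x))) h3 h4).hasSum fun x => ?_
  rw [← mul_assoc, Real.mul_self_sqrt (h0 x), norm_mul]
  exact mul_le_mul_of_nonneg_right (ha x) (norm_nonneg _)

/-- one step: remove the function of `x`, double `y` -/
theorem cs_step {a : X → ℂ} {w : X → ℝ} {v : Y → ℝ} {K : X → Y → ℂ} (hw : Summable w)
    (hv : Summable v) (ha : ∀ x, ‖a x‖ ≤ w x) (hK : ∀ x y, ‖K x y‖ ≤ v y) :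
    ‖∑' x, a x * ∑' y, K x y‖ ^ 2 ≤
      (∑' x, w x) * ‖∑' p : Y × Y, ∑' x, w x * (K x p.1 * conj (K x p.2))‖ := by
  have h0 : ∀ x, 0 ≤ w x := fun x => (norm_nonneg _).trans (ha x)
  have h1 : ∀ x, Summable fun y => ‖K x y‖ := fun x =>
    hv.of_nonneg_of_le (fun _ => norm_nonneg _) (hK x)
  refine (cs_wt hw ha fun x => tsum_of_norm_bounded hv.hasSum (hK x)).trans
    (mul_le_mul_of_nonneg_left ?_ (tsum_nonneg h0))
  rcases isEmpty_or_nonempty X with hX | ⟨⟨x₀⟩⟩
  · simp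
  have hv0 : ∀ y, 0 ≤ v y := fun y => (norm_nonneg _).trans (hK x₀ y)
  have h2 : Summable fun q : X × (Y × Y) => (w q.1 : ℂ) * (K q.1 q.2.1 * conj (K q.1 q.2.2)) := by
    refine .of_norm_bounded (hw.mul_of_nonneg (hv.mul_of_nonneg hv hv0 hv0) h0
      fun p => mul_nonneg (hv0 _) (hv0 _)) fun q => ?_
    simp only [norm_mul, Complex.norm_real, Real.norm_of_nonneg (h0 _), Complex.norm_conj]
    exact mul_le_mul_of_nonneg_left (mul_le_mul (hK _ _) (hK _ _) (norm_nonneg _) (hv0 _)) (h0 _)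
  rw [Summable.tsum_comm (f := fun x (p : Y × Y) => (w x : ℂ) * (K x p.1 * conj (K x p.2))) h2]
  have h3 : ∀ x, ∑' p : Y × Y, (w x : ℂ) * (K x p.1 * conj (K x p.2)) =
      ((w x * ‖∑' y, K x y‖ ^ 2 : ℝ) : ℂ) := fun x => by
    rw [tsum_mul_left, ← tsum_mul_tsum_of_summable_norm (h1 x) (g := fun y => conj (K x y))
      (by simpa using h1 x), ← Complex.conj_tsum, Complex.mul_conj, Complex.normSq_eq_norm_sq,
      Complex.ofReal_mul]
  simp only [h3]
  rw [← Complex.ofReal_tsum, Complex.norm_real]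
  exact le_abs_self _

/-- **box Cauchy-Schwarz** with product weights -/
theorem box_cs {a : X → ℂ} {b : Y → ℂ} {w : X → ℝ} {v : Y → ℝ} {K : X → Y → ℂ} (hw : Summable w)
    (hv : Summable v) (ha : ∀ x, ‖a x‖ ≤ w x) (hb : ∀ y, ‖b y‖ ≤ v y) (hK : ∀ x y, ‖K x y‖ ≤ 1) :
    ‖∑' p : X × Y, a p.1 * b p.2 * K p.1 p.2‖ ^ 4 ≤ (∑' x, w x) ^ 2 * (∑' y, v y) ^ 2 *
      ‖∑' q : (X × X) × (Y × Y), (w q.1.1 * w q.1.2 * v q.2.1 * v q.2.2 : ℝ) *
        (K q.1.1 q.2.1 * conj (K q.1.1 q.2.2) * conj (K q.1.2 q.2.1) * K q.1.2 q.2.2)‖ := by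
  have h0 : ∀ x, 0 ≤ w x := fun x => (norm_nonneg _).trans (ha x)
  have hv0 : ∀ y, 0 ≤ v y := fun y => (norm_nonneg _).trans (hb y)
  have hbK : ∀ x y, ‖b y * K x y‖ ≤ v y := fun x y => by
    rw [norm_mul]; exact (mul_le_of_le_one_right (norm_nonneg _) (hK x y)).trans (hb y)
  have hKK : ∀ x y y', ‖(w x : ℂ) * (K x y * conj (K x y'))‖ ≤ w x := fun x y y' => by
    simp only [norm_mul, Complex.norm_real, Real.norm_of_nonneg (h0 _), Complex.norm_conj]
    exact mul_le_of_le_one_right (h0 x) (mul_le_one₀ (hK _ _) (norm_nonneg _) (hK _ _))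
  have hvv := hv.mul_of_nonneg hv hv0 hv0
  have e1 : ∑' p : X × Y, a p.1 * b p.2 * K p.1 p.2 = ∑' x, a x * ∑' y, b y * K x y := by
    rw [Summable.tsum_prod]
    · simp only [mul_assoc, tsum_mul_left]
    · refine .of_norm_bounded (hw.mul_of_nonneg hv h0 hv0) fun p => ?_
      rw [mul_assoc, norm_mul]
      exact mul_le_mul (ha _) (hbK _ _) (norm_nonneg _) (h0 _)
  have h1 := cs_step hw hv ha hbK
  have e2 : ∀ p : Y × Y, ∑' x, (w x : ℂ) * (b p.1 * K x p.1 * conj (b p.2 * K x p.2)) =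
      b p.1 * conj (b p.2) * ∑' x, w x * (K x p.1 * conj (K x p.2)) := fun p => by
    rw [← tsum_mul_left]
    exact tsum_congr fun x => by rw [map_mul]; ring
  simp only [e2] at h1
  have h2 := cs_step (a := fun p : Y × Y => b p.1 * conj (b p.2))
    (K := fun p x => w x * (K x p.1 * conj (K x p.2))) hvv hw (fun p => by
      rw [norm_mul, Complex.norm_conj]
      exact mul_le_mul (hb _) (hb _) (norm_nonneg _) (hv0 _)) fun p x => hKK x _ _
  rw [← hv.tsum_mul_tsum hv hvv, ← sq] at h2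
  rw [e1, show 4 = 2 * 2 from rfl, pow_mul]
  refine (pow_le_pow_left₀ (sq_nonneg _) h1 2).trans ?_
  rw [mul_pow, mul_assoc]
  refine mul_le_mul_of_nonneg_left (h2.trans_eq ?_) (sq_nonneg _)
  rw [Summable.tsum_prod (β := X × X) (γ := Y × Y)]
  · congr 2
    refine tsum_congr fun p => tsum_congr fun q => ?_
    simp only [map_mul, Complex.conj_ofReal, Complex.conj_conj]
    push_cast
    ring
  · refine .of_norm_bounded ((hw.mul_of_nonneg hw h0 h0).mul_of_nonneg hvv
      (fun _ => mul_nonneg (h0 _) (h0 _)) fun _ => mul_nonneg (hv0 _) (hv0 _)) fun q => ?_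
    rw [norm_mul, Complex.norm_real, Real.norm_of_nonneg
      (mul_nonneg (mul_nonneg (mul_nonneg (h0 _) (h0 _)) (hv0 _)) (hv0 _)), ← mul_assoc]
    refine mul_le_of_le_one_right
      (mul_nonneg (mul_nonneg (mul_nonneg (h0 _) (h0 _)) (hv0 _)) (hv0 _)) ?_
    simp only [norm_mul, Complex.norm_conj]
    exact mul_le_one₀ (mul_le_one₀ (mul_le_one₀ (hK _ _) (norm_nonneg _) (hK _ _))
      (norm_nonneg _) (hK _ _)) (norm_nonneg _) (hK _ _)

end box

/-! ### the diagonal splitting: a cube is four cubes `(A, D), (B, C)` -/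

section diag

theorem mem_Cu_ins2 (e₁ : Option κ' ≃ κ) (e₂ : Option κ'' ≃ κ') {A : (κ → Bool) → G} :
    A ∈ Cu F κ ↔ (fun w => A (ins e₁ false (ins e₂ false w))) ∈ Cu F κ'' ∧
      (fun w => A (ins e₁ false (ins e₂ true w)) - A (ins e₁ false (ins e₂ false w))) ∈
        Cu (sh F 1) κ'' ∧
      (fun w => A (ins e₁ true (ins e₂ false w)) - A (ins e₁ false (ins e₂ false w))) ∈
        Cu (sh F 1) κ'' ∧
      (fun w => A (ins e₁ true (ins e₂ true w)) - A (ins e₁ false (ins e₂ true w)) -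
        (A (ins e₁ true (ins e₂ false w)) - A (ins e₁ false (ins e₂ false w)))) ∈
        Cu (sh F 2) κ'' := by
  rw [mem_Cu_ins e₁, mem_Cu_ins e₂, mem_Cu_ins e₂, sh_sh, and_assoc]

/-- the class of a pair `(A, D)`: `A` modulo the first shift, `A + D` modulo the second -/
def cl2 (F : ℕ → AddSubgroup G) (e : Option κ'' ≃ κ') (P : Cu F κ') :
    (((κ'' → Bool) → G) ⧸ Cu (sh F 1) κ'') × (((κ'' → Bool) → G) ⧸ Cu (sh F 2) κ'') :=
  (QuotientAddGroup.mk fun w => P.1 (ins e false w),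
    QuotientAddGroup.mk fun w => P.1 (ins e false w) + P.1 (ins e true w))

theorem cl2_eq (e : Option κ'' ≃ κ') {P Q : Cu F κ'} : cl2 F e P = cl2 F e Q ↔
    (fun w => P.1 (ins e false w) - Q.1 (ins e false w)) ∈ Cu (sh F 1) κ'' ∧
      (fun w => P.1 (ins e false w) + P.1 (ins e true w) -
        (Q.1 (ins e false w) + Q.1 (ins e true w))) ∈ Cu (sh F 2) κ'' := by
  rw [cl2, cl2, Prod.ext_iff]
  exact and_congr QuotientAddGroup.eq_iff_sub_mem QuotientAddGroup.eq_iff_sub_mem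

/-- a cube is a diagonal face `P = (A, D)` and an antidiagonal face `Q = (C, B)` -/
def diagE (hF : Antitone F) (e₁ : Option κ' ≃ κ) (e₂ : Option κ'' ≃ κ') :
    Cu F κ ≃ {p : Cu F κ' × Cu F κ' // cl2 F e₂ p.1 = cl2 F e₂ p.2} where
  toFun A := ⟨(⟨fun w => A.1 (ins e₁ (w (e₂ none)) w), by
      obtain ⟨h1, h2, h3, h4⟩ := (mem_Cu_ins2 e₁ e₂).1 A.2
      refine (mem_Cu_ins e₂).2 ⟨by simpa using h1, ?_⟩
      convert add_mem (add_mem (Cu_sh_le_sh hF one_le_two h4) h2) h3 using 1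
      funext w; simp; abel⟩,
    ⟨fun w => A.1 (ins e₁ (!w (e₂ none)) w), by
      obtain ⟨h1, h2, h3, h4⟩ := (mem_Cu_ins2 e₁ e₂).1 A.2
      refine (mem_Cu_ins e₂).2 ⟨?_, ?_⟩
      · convert add_mem (Cu_sh_le hF 1 h3) h1 using 1
        funext w; simp
      · convert sub_mem h2 h3 using 1
        funext w; simp⟩), by
      obtain ⟨h1, h2, h3, h4⟩ := (mem_Cu_ins2 e₁ e₂).1 A.2
      refine (cl2_eq e₂).2 ⟨?_, ?_⟩
      · convert neg_mem h3 using 1
        funext w; simp
      · convert h4 using 1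
        funext w; simp; abel⟩
  invFun p := ⟨fun ω => if ω (e₁ none) = ω (e₁ (some (e₂ none))) then
      p.1.1.1 fun j => ω (e₁ (some j)) else p.1.2.1 fun j => ω (e₁ (some j)), by
    obtain ⟨h1, h2⟩ := (cl2_eq e₂).1 p.2
    obtain ⟨h3, h4⟩ := (mem_Cu_ins e₂).1 p.1.1.2
    obtain ⟨h5, h6⟩ := (mem_Cu_ins e₂).1 p.1.2.2
    refine (mem_Cu_ins2 e₁ e₂).2 ⟨by simpa using h3, ?_, ?_, ?_⟩
    · convert sub_mem h6 h1 using 1
      funext w; simp
    · convert neg_mem h1 using 1
      funext w; simp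
    · convert h2 using 1
      funext w; simp; abel⟩
  left_inv A := by
    ext ω
    obtain ⟨b, w, rfl⟩ := exists_ins e₁ ω
    obtain ⟨b', w, rfl⟩ := exists_ins e₂ w
    cases b <;> cases b' <;> simp
  right_inv p := by
    ext w
    · simp
    · cases h : w (e₂ none) <;> simp [h]

theorem gip_diag (hF : Antitone F) (e₁ : Option κ' ≃ κ) (e₂ : Option κ'' ≃ κ')
    (f : (κ → Bool) → G → ℂ) :
    gip F f = bil (cl2 F e₂) (cl2 F e₂)
      (fun P => vp (fun w => f (ins e₁ true (ins e₂ true w))) (fun w => P.1 (ins e₂ true w)) *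
        vp (fun w => f (ins e₁ false (ins e₂ false w))) fun w => P.1 (ins e₂ false w))
      fun Q => vp (fun w => f (ins e₁ false (ins e₂ true w))) (fun w => Q.1 (ins e₂ true w)) *
        vp (fun w => f (ins e₁ true (ins e₂ false w))) fun w => Q.1 (ins e₂ false w) := by
  rw [gip, bil, ← (diagE hF e₁ e₂).tsum_eq]
  refine tsum_congr fun A => ?_
  rw [vp_ins e₁, vp_ins e₂, vp_ins e₂]
  simp only [diagE, Equiv.coe_fn_mk, ins_none, Bool.not_true, Bool.not_false, map_mul,
    Complex.conj_conj]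
  ring

end diag

end Crest.Agent.T49.Hk
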