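import Crest.Agent.T49.HkC_67
import Crest.Agent.T49.RiDef_12
import Crest.Agent.T49.TwTri_51

/-!
# Row 49 (helper67): the Host-Kra recursion on a cell (pairs `y0`, `y1`), ideal masses
-/

set_option autoImplicit false

noncomputable section

namespace Crest.Agent.T49.Ri.D67

open Finset MvPolynomial
open Crest.Agent.T49.Tw Crest.Agent.T49.Hk
open scoped ComplexConjugate Classical

variable {ι : Type} (T : Cell ι)

/-- the first point -/
def xH : (PI T → ℤ) →+ (ι → ℤ) where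
  toFun := y0 T
  map_zero' := rfl
  map_add' _ _ := rfl

/-- the second point, without the offset -/
def yH : (PI T → ℤ) →+ (ι → ℤ) where
  toFun p c := p (Sum.inl c) + if hc : T.lev c = 1 then 0 else p (Sum.inr (0, ⟨c, hc⟩))
  map_zero' := by funext c; simp
  map_add' p q := by
    funext c
    simp only [Pi.add_apply]
    split_ifs <;> ring

theorem xH_apply (p : PI T → ℤ) : xH T p = y0 T p := rfl

theorem yH_apply (p : PI T → ℤ) (c : ι) :
    yH T p c = p (Sum.inl c) + if hc : T.lev c = 1 then 0 else p (Sum.inr (0, ⟨c, hc⟩)) := rfl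

theorem yH_add (h : T.L1 → ℤ) (p : PI T → ℤ) : yH T p + T.ext1 h = y1 T h p := by
  funext c
  simp only [Pi.add_apply, yH_apply, Cell.ext1, y1, y0, dy, Cell.wZ]
  split_ifs <;> ring

theorem pair_aux (i j : ℕ) (hj : j = max i 1 + 1) (a b : ι → ℤ) :
    (a ∈ lvl T.lev i ∧ b - a ∈ lvl T.lev j) ↔
      ∃ p ∈ lvl (T.mlev (Fin 1)) i, xH T p = a ∧ yH T p = b := by
  constructor
  · rintro ⟨ha, hb⟩
    refine ⟨Sum.elim a fun q => b q.2.1 - a q.2.1, ?_, rfl, funext fun c => ?_⟩
    · rintro (c | ⟨k, c⟩) hc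
      · exact ha c hc
      · have h1 : T.lev c.1 - 1 < i := hc
        exact hb c.1 (by have := T.lev_pos c.1; omega)
    · rw [yH_apply]
      split_ifs with hc
      · have := hb c (by omega)
        simp only [Pi.sub_apply] at this
        simp only [Sum.elim_inl]
        omega
      · simp
  · rintro ⟨p, hp, rfl, rfl⟩
    refine ⟨fun c hc => hp (Sum.inl c) hc, fun c hc => ?_⟩
    rw [Pi.sub_apply, yH_apply, xH_apply, y0]
    split_ifs with h1
    · simp
    · rw [hp (Sum.inr (0, ⟨c, h1⟩)) (by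
        show T.lev c - 1 < i
        have := T.lev_pos c; omega)]
      simp

/-- **the pair cell parametrises the pairs** -/
theorem pair : Pair (lvl T.lev) (lvl (T.mlev (Fin 1))) (xH T) (yH T) T.ext1 where
  inj p hx hy := by
    funext c
    rcases c with c | ⟨k, c⟩
    · exact congrFun hx c
    · have h1 := congrFun hy c.1
      rw [yH_apply, dif_neg c.2, show p (Sum.inl c.1) = 0 from congrFun hx c.1] at h1
      rw [Subsingleton.elim k 0]
      simpa using h1
  zero := pair_aux T 0 2 rfl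
  succ i := pair_aux T (i + 1) (i + 2) (by omega)
  mem h c hc := absurd (T.lev_pos c) (by omega)
  sec d _ := by
    refine ⟨fun c => d c.1, fun c hc => ?_, fun h hh => funext fun c => ?_⟩
    · have := T.lev_pos c
      simp [Cell.ext1, show T.lev c = 1 by omega]
    · have := hh c.1 (by rw [c.2]; omega)
      simp only [Pi.sub_apply, Cell.ext1, dif_pos c.2] at this
      exact (sub_eq_zero.1 this).symm

variable {T}

theorem hasSum_face (s : ℕ) {f g : (ι → ℤ) → ℂ} (hf : Summable fun a => ‖f a‖)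
    (hg : Summable fun a => ‖g a‖) :
    HasSum (fun h => UK (lvl (T.mlev (Fin 1))) (s + 1) fun p => f (y1 T h p) * conj (g (y0 T p)))
      ‖gip (lvl T.lev) fun ω : Fin (s + 2) → Bool => if ω 0 then f else g‖ := by
  simpa only [yH_add, xH_apply] using (pair T).hasSum_face lvl_anti s hf hg

theorem hasSum_UK (s : ℕ) {f : (ι → ℤ) → ℂ} (hf : Summable fun a => ‖f a‖) :
    HasSum (fun h => UK (lvl (T.mlev (Fin 1))) (s + 1) fun p => f (y1 T h p) * conj (f (y0 T p)))
      (UK (lvl T.lev) (s + 2) f) := by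
  simpa only [yH_add, xH_apply] using (pair T).hasSum_UK lvl_anti s hf

theorem face_cs (s : ℕ) {f g : (ι → ℤ) → ℂ} (hf : Summable fun a => ‖f a‖)
    (hg : Summable fun a => ‖g a‖) :
    (∑' h, UK (lvl (T.mlev (Fin 1))) (s + 1) fun p => f (y1 T h p) * conj (g (y0 T p))) ^ 2 ≤
      UK (lvl T.lev) (s + 2) f * UK (lvl T.lev) (s + 2) g := by
  simpa only [yH_add, xH_apply] using (pair T).face_cs lvl_anti s hf hg

theorem hasSum_Zm (s : ℕ) {w : (ι → ℤ) → ℝ} (h0 : ∀ a, 0 ≤ w a) (hw : Summable w) :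
    HasSum (fun h => Zm (lvl (T.mlev (Fin 1))) s fun p => w (y1 T h p) * w (y0 T p))
      (Zm (lvl T.lev) (s + 1) w) := by
  simpa only [yH_add, xH_apply] using (pair T).hasSum_Zm lvl_anti s h0 hw

theorem Zm_smul {G : Type*} [AddCommGroup G] (F : ℕ → AddSubgroup G) (s : ℕ) (r : ℝ) (w : G → ℝ) :
    Zm F s (fun x => r * w x) = r ^ 2 ^ s * Zm F s w := by
  simp [Zm, prod_mul_distrib, tsum_mul_left]

theorem pt_zero (h : T.L1 → ℤ) (p : PI T → ℤ) : T.pt (fun _ : Fin 1 => h) 0 p = y0 T p := by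
  funext c; simp [Cell.pt, y0]

theorem pt_one (h : T.L1 → ℤ) (p : PI T → ℤ) : T.pt (fun _ : Fin 1 => h) 1 p = y1 T h p := rfl

variable [Fintype ι]

theorem summable_wgt_mul (T : Cell ι) {f : (ι → ℤ) → ℂ} (hf : ∀ z, ‖f z‖ ≤ 1) :
    Summable fun z => ‖(T.wgt z : ℂ) * f z‖ := (T.summable_mul hf).norm

theorem norm_wgt_mul_le (T : Cell ι) {f : (ι → ℤ) → ℂ} (hf : ∀ z, ‖f z‖ ≤ 1) (z : ι → ℤ) :
    ‖(T.wgt z : ℂ) * f z‖ ≤ T.wgt z := by
  rw [norm_mul, Complex.norm_real, Real.norm_of_nonneg (T.wgt_nonneg z)]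
  exact mul_le_of_le_one_right (T.wgt_nonneg z) (hf z)

/-- the Gaussian factor of a pair -/
abbrev g1 (T : Cell ι) (h : T.L1 → ℤ) : ℝ := T.gamK fun _ : Fin 1 => h

theorem g1_pos (h : T.L1 → ℤ) : 0 < g1 T h := Real.exp_pos _

theorem wgt_pair (hM : MpAt T 1) (h : T.L1 → ℤ) (p : PI T → ℤ) :
    T.wgt (y1 T h p) * T.wgt (y0 T p) = g1 T h * (pc T h).wgt p := by
  rw [← hM.wgt, Fin.prod_univ_two, pt_zero, pt_one, mul_comm]

theorem helm_one : helm 1 1 1 = (√2)⁻¹ := by norm_num [helm]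

theorem g1_pow (h : T.L1 → ℤ) (s : ℕ) :
    g1 T h ^ 2 ^ (s + 1) = Real.exp (-Real.pi * ∑ c, (√2 ^ s * T.ell h c) ^ 2) := by
  rw [g1, Cell.gamK, ← Real.exp_nat_mul]
  congr 1
  simp only [Fin.sum_univ_one, Fin.succ_zero_eq_one, helm_one, mul_pow, inv_pow,
    pow_right_comm (√2) s 2, Real.sq_sqrt zero_le_two, ← mul_sum]
  push_cast
  ring

theorem UK_pair (hM : MpAt T 1) (s : ℕ) (f g : (ι → ℤ) → ℂ) (h : T.L1 → ℤ) :
    (UK (lvl (T.mlev (Fin 1))) s fun p =>
      T.wgt (y1 T h p) * f (y1 T h p) * conj (T.wgt (y0 T p) * g (y0 T p))) = g1 T h ^ 2 ^ s *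
      UK (lvl (T.mlev (Fin 1))) s fun p => (pc T h).wgt p * (f (y1 T h p) * conj (g (y0 T p))) := by
  have := UK_smul (F := lvl (T.mlev (Fin 1))) s (g1 T h : ℂ)
    fun p => (pc T h).wgt p * (f (y1 T h p) * conj (g (y0 T p)))
  rw [Complex.norm_real, Real.norm_of_nonneg (g1_pos h).le] at this
  rw [← this]
  congr 1
  funext p
  rw [← mul_assoc, ← Complex.ofReal_mul, ← wgt_pair hM, map_mul, Complex.conj_ofReal]
  push_cast
  ring

theorem hasSum_Zm_pc (hM : MpAt T 1) (s : ℕ) :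
    HasSum (fun h => g1 T h ^ 2 ^ s * Zm (lvl (T.mlev (Fin 1))) s (pc T h).wgt)
      (Zm (lvl T.lev) (s + 1) T.wgt) := by
  simpa only [wgt_pair hM, Zm_smul] using hasSum_Zm (T := T) s T.wgt_nonneg T.summable_wgt

theorem muK_pos (T : Cell ι) (s : ℕ) : 0 < muK T s :=
  prod_pos fun c _ => prod_pos fun β _ => by
    have := abs_pos.2 (T.a_ne c)
    split_ifs <;> positivity

theorem mu1_pos (T : Cell ι) : 0 < T.mu1 := prod_pos fun c _ => inv_pos.2 (abs_pos.2 (T.a_ne c.1))

/-- the ideal mass of the Gaussian factor of the cubes of pairs -/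
def muG (T : Cell ι) (s : ℕ) : ℝ := (√2 ^ s) ⁻¹ ^ Fintype.card T.L1 * T.mu1

theorem muG_pos (T : Cell ι) (s : ℕ) : 0 < muG T s := mul_pos (by positivity) (mu1_pos T)

/-- **the recursion for the ideal masses** -/
theorem muK_succ (h : T.L1 → ℤ) (s : ℕ) : muK T (s + 2) = muG T s * muK (pc T h) (s + 1) := by
  have h2 : (0 : ℝ) < √2 := by positivity
  have h22 : (√2 : ℝ) * √2 = 2 := Real.mul_self_sqrt zero_le_two
  have e1 : ∀ c, (pc T h).a (Sum.inl c) = √2 * T.a c := fun c => by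
    show √((1 : ℕ) + 1) * _ = _
    norm_num
  have e2 : ∀ c, (pc T h).a (Sum.inr (0, c)) = (√2)⁻¹ * T.a c.1 := fun c => by
    rw [← helm_one]; rfl
  rw [muK, muK, Fintype.prod_sum_type, Fintype.prod_prod_type, Fin.prod_univ_one]
  simp only [prod_ins (fe (s + 1)), wt_ins, prod_mul_distrib, e1, e2]
  rw [mul_comm (∏ c : ι, _) (∏ c : T.U2, _), ← mul_assoc]
  congr 1
  · rw [← Fintype.prod_subtype_mul_prod_subtype fun c => T.lev c = 1]
    congr 1
    · rw [muG, Cell.mu1, ← card_univ, ← prod_const, ← prod_mul_distrib]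
      refine prod_congr rfl fun c _ => ?_
      rw [prod_eq_single (fun _ => false) (fun β _ hβ => if_neg fun h1 => hβ (wt_eq_zero.1 (by
        rw [c.2] at h1; simpa using h1))) (by simp), if_pos (by simp [c.2]), ← mul_inv]
      congr 2
      simp only [wt_bot, Bool.toNat_true, zero_add, pow_succ]
      linear_combination (√2 ^ s / 2) * h22
    · refine prod_congr rfl fun c _ => prod_congr rfl fun β _ => if_congr ?_ ?_ rfl
      · have := T.lev_pos c.1
        show _ ↔ wt β ≤ T.lev c.1 - 1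
        simp only [Bool.toNat_true]
        omega
      · rw [abs_mul, abs_of_pos (inv_pos.2 h2), ← mul_assoc]
        congr 2
        simp only [Bool.toNat_true, pow_succ]
        field_simp
        linear_combination h22
  · refine prod_congr rfl fun c _ => prod_congr rfl fun β _ => if_congr Iff.rfl ?_ rfl
    rw [abs_mul, abs_of_pos h2, ← mul_assoc]
    congr 2
    simp only [Bool.toNat_false, add_zero, pow_succ]
    ring

/-! ### the level-one lattice -/

omit [Fintype ι] in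
theorem eq_single_of_wt {w : ι → ℕ} (hw : ∀ c, 0 < w c) {m : ι →₀ ℕ} (h : Finsupp.weight w m = 1) :
    ∃ c, w c = 1 ∧ m = Finsupp.single c 1 := by
  obtain ⟨c, m', rfl, hc, h0⟩ := exists_of_weight_one h
  have : m' = 0 := Finsupp.support_eq_empty.1
    (eq_empty_of_forall_notMem fun c' hc' => (hw c').ne' (h0 c' hc'))
  exact ⟨c, hc, by simp [this]⟩

/-- the matrix of the level-one windows -/
def L1m (T : Cell ι) : Matrix T.L1 T.L1 ℝ := fun c c' => coeff (Finsupp.single c'.1 1) (T.tth c.1)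

theorem ell_eq (h : T.L1 → ℤ) (c : T.L1) : T.ell h c = ∑ c', L1m T c c' * h c' := by
  have e : T.tth c.1 = ∑ c' : T.L1, monomial (Finsupp.single c'.1 1) (L1m T c c') := by
    ext m
    rw [coeff_sum]
    by_cases hm : ∃ c' : T.L1, m = Finsupp.single c'.1 1
    · obtain ⟨c', rfl⟩ := hm
      rw [sum_eq_single c' (fun c'' _ h1 => by
        rw [coeff_monomial, if_neg fun h2 =>
          h1 (Subtype.ext ((Finsupp.single_left_inj one_ne_zero).1 h2))]) (by simp)]
      simp [L1m]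
    · rw [sum_eq_zero fun c' _ => by rw [coeff_monomial, if_neg fun h1 => hm ⟨c', h1.symm⟩]]
      by_contra h1
      obtain ⟨c', h2, h3⟩ := eq_single_of_wt T.lev_pos ((T.tth_hom c.1 h1).trans c.2)
      exact hm ⟨⟨c', h2⟩, h3⟩
  rw [Cell.ell, ev]
  conv_lhs => rw [e]
  rw [map_sum]
  refine sum_congr rfl fun c' _ => ?_
  simp [eval_monomial, Cell.ext1, c'.2]

omit [Fintype ι] in
theorem L1m_eq {c c' : T.L1} (h : ¬ T.rk c'.1 < T.rk c.1) :
    L1m T c c' = if c = c' then T.a c.1 else 0 := by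
  have h0 : coeff (Finsupp.single c'.1 1) (T.hcell.B c.1) = 0 := by
    by_contra h1
    exact h (mem_supported.1 (T.hcell.B_mem c.1)
      ((mem_vars_iff_mem_support _).2 ⟨_, mem_support_iff.2 h1, by simp⟩))
  rw [L1m, ← T.hcell_th, Tri.th, coeff_add, h0, add_zero, coeff_C_mul, coeff_X]
  by_cases hc : c = c'
  · subst hc; simp [Cell.hcell]
  · rw [if_neg fun h1 => hc (Subtype.ext ((Finsupp.single_left_inj one_ne_zero).1 h1)), if_neg hc,
      mul_zero]

omit [Fintype ι] in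
theorem isTri_L1m (T : Cell ι) : IsTri (fun c => T.rk c.1) (fun c => T.a c.1) (L1m T) where
  ne c := T.a_ne c.1
  diag c := by rw [L1m_eq (lt_irrefl _), if_pos rfl]
  tri c c' h1 h2 := by rw [L1m_eq h2, if_neg h1.symm]

theorem tlin_L1m (h : T.L1 → ℤ) (c : T.L1) : tlin (L1m T) (Lat.cast h) c = T.ell h c := by
  rw [tlin_apply, ell_eq]; rfl

theorem g1_pow_eq (h : T.L1 → ℤ) (s : ℕ) :
    g1 T h ^ 2 ^ (s + 1) = Gau.rho ((√2 ^ s • tlin (L1m T)) (Lat.cast h) + 0) := by
  rw [g1_pow, add_zero, rho_eq_exp_sum]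
  simp only [LinearMap.smul_apply, PiLp.smul_apply, smul_eq_mul, tlin_L1m]

/-- most of the Gaussian factor sits on a finite part of the ball -/
theorem exists_ball (T : Cell ι) (s : ℕ) {R η : ℝ} (hR : 0 ≤ R) (hη : 0 < η)
    (h : Real.exp (Fintype.card ι / 2 - 3 / 2 * R ^ 2) ≤ η) (h1 : η ≤ 1) :
    ∃ B : Finset (T.L1 → ℤ), (∀ h ∈ B, InB T R h) ∧
      (1 - 2 * η) * muG T s ≤ ∑ h ∈ B, g1 T h ^ 2 ^ (s + 1) := by
  have h2 : (1 : ℝ) ≤ √2 ^ s := one_le_pow₀ (Real.one_le_sqrt.2 one_le_two)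
  set A := (√2 ^ s : ℝ) • tlin (L1m T) with hA
  have hi : Function.Injective A := Gau.inj_smul (isTri_L1m T).inj (by positivity)
  have hk : muG T s ≤ Gau.th A 0 := by
    refine le_of_eq_of_le ?_ (Gau.kap_le_th hi)
    rw [hA, Gau.kap_smul _ (by positivity), (isTri_L1m T).kap, muG, inv_pow]; rfl
  have hs := Gau.summable_rho hi 0
  have hm := muG_pos T s
  obtain ⟨S, hS⟩ := (hs.hasSum.eventually (lt_mem_nhds (show Gau.th A 0 - η * muG T s <
    ∑' x, Gau.rho (A (Lat.cast x) + 0) from sub_lt_self _ (by positivity)))).exists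
  have ht := Gau.tail_le hi 0 hR (f := fun x => if InB T R x then 0 else 1)
    (fun x => by split_ifs <;> simp) fun x hx => by
      rw [if_pos (show InB T R x from fun c => ?_)]
      have h3 := PiLp.norm_apply_le (A (Lat.cast x) + 0) c
      rw [add_zero, hA, LinearMap.smul_apply, PiLp.smul_apply, tlin_L1m, smul_eq_mul, norm_mul,
        Real.norm_of_nonneg (by positivity), Real.norm_eq_abs] at h3
      rw [add_zero, hA, LinearMap.smul_apply] at hx
      nlinarith [abs_nonneg (T.ell x c)]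
  have h4 : Real.exp (Fintype.card T.L1 / 2 - 3 / 2 * R ^ 2) ≤ η := by
    refine le_trans (Real.exp_le_exp.2 ?_) h
    have : (Fintype.card T.L1 : ℝ) ≤ Fintype.card ι := by exact_mod_cast Fintype.card_subtype_le _
    linarith
  have h5 := (Gau.summable_rho_mul_real hi 0 (f := fun x => if InB T R x then 0 else 1) (M := 1)
    fun x => by split_ifs <;> simp).sum_le_tsum S fun x _ =>
      mul_nonneg (Gau.rho_pos _).le (by split_ifs <;> simp)
  refine ⟨S.filter (InB T R), fun x hx => (mem_filter.1 hx).2, ?_⟩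
  have h6 : ∑ x ∈ S, Gau.rho (A (Lat.cast x) + 0) = ∑ x ∈ S.filter (InB T R), g1 T x ^ 2 ^ (s + 1) +
      ∑ x ∈ S, Gau.rho (A (Lat.cast x) + 0) * if InB T R x then 0 else 1 := by
    rw [sum_filter, ← sum_add_distrib]
    exact sum_congr rfl fun x _ => by rw [g1_pow_eq]; split_ifs <;> simp [hA]
  have h7 := mul_le_mul_of_nonneg_right h4 (Gau.th_nonneg A 0)
  have h8 := mul_le_mul_of_nonneg_left hk (sub_nonneg.2 h1)
  nlinarith

end Crest.Agent.T49.Ri.D67
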