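import Mathlib

/-! Row 49, lower-tail lemma (L), part 1: product expectations, grids of copies, the Hoelder lift. -/

set_option autoImplicit false

namespace Crest.Agent.T49
open Finset

section Ex
variable {ι X : Type*} [Fintype ι] [DecidableEq ι] [Fintype X]

/-- Expectation of `g` under the product weight `∏ j, p j (x j)`. -/
noncomputable def Ex (p : ι → X → ℝ) (g : (ι → X) → ℝ) : ℝ :=
  ∑ x : ι → X, (∏ j, p j (x j)) * g x

/-- Every `p j` is a probability weight. -/
structure IsPr (p : ι → X → ℝ) : Prop where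
  nn : ∀ j x, 0 ≤ p j x
  sum : ∀ j, ∑ x, p j x = 1

variable {p : ι → X → ℝ}

lemma Ex_prod (p : ι → X → ℝ) (h : ι → X → ℝ) :
    Ex p (fun x => ∏ j, h j (x j)) = ∏ j, ∑ y, p j y * h j y := by
  unfold Ex
  rw [Finset.prod_univ_sum]
  simp only [Fintype.piFinset_univ]
  refine Finset.sum_congr rfl fun x _ => ?_
  rw [Finset.prod_mul_distrib]

lemma Ex_wt_nonneg (hp : IsPr p) (x : ι → X) : 0 ≤ ∏ j, p j (x j) :=
  Finset.prod_nonneg fun j _ => hp.nn j _

lemma Ex_wt_sum (hp : IsPr p) : ∑ x : ι → X, ∏ j, p j (x j) = 1 := by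
  have := Ex_prod p (fun _ _ => 1)
  simp only [Ex, Finset.prod_const_one, mul_one, hp.sum] at this
  exact this

lemma Ex_const (hp : IsPr p) (c : ℝ) : Ex p (fun _ => c) = c := by
  unfold Ex
  rw [← Finset.sum_mul, Ex_wt_sum hp, one_mul]

lemma Ex_mono (hp : IsPr p) {g h : (ι → X) → ℝ} (H : ∀ x, g x ≤ h x) : Ex p g ≤ Ex p h :=
  Finset.sum_le_sum fun x _ => mul_le_mul_of_nonneg_left (H x) (Ex_wt_nonneg hp x)

lemma Ex_nonneg (hp : IsPr p) {g : (ι → X) → ℝ} (H : ∀ x, 0 ≤ g x) : 0 ≤ Ex p g :=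
  Finset.sum_nonneg fun x _ => mul_nonneg (Ex_wt_nonneg hp x) (H x)

lemma Ex_add (p : ι → X → ℝ) (g h : (ι → X) → ℝ) :
    Ex p (fun x => g x + h x) = Ex p g + Ex p h := by
  simp only [Ex, mul_add, Finset.sum_add_distrib]

lemma Ex_sub (p : ι → X → ℝ) (g h : (ι → X) → ℝ) :
    Ex p (fun x => g x - h x) = Ex p g - Ex p h := by
  simp only [Ex, mul_sub, Finset.sum_sub_distrib]

lemma Ex_mul_left (p : ι → X → ℝ) (c : ℝ) (g : (ι → X) → ℝ) :
    Ex p (fun x => c * g x) = c * Ex p g := by
  simp only [Ex, Finset.mul_sum]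
  exact Finset.sum_congr rfl fun x _ => by ring

lemma Ex_sum {α : Type*} (p : ι → X → ℝ) (s : Finset α) (g : α → (ι → X) → ℝ) :
    Ex p (fun x => ∑ a ∈ s, g a x) = ∑ a ∈ s, Ex p (g a) := by
  simp only [Ex, Finset.mul_sum]
  exact Finset.sum_comm

lemma Ex_congr (p : ι → X → ℝ) {g h : (ι → X) → ℝ} (H : ∀ x, g x = h x) : Ex p g = Ex p h := by
  rw [funext H]

/-- Resampling one coordinate does not change the expectation. -/
lemma Ex_update (hp : IsPr p) (i : ι) (g : (ι → X) → ℝ) :
    Ex p g = Ex p (fun x => ∑ y, p i y * g (Function.update x i y)) := by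
  have key : ∀ (x : ι → X) (y : X), (∏ j, p j (x j)) * p i y
      = (∏ j, p j (Function.update x i y j)) * p i (x i) := by
    intro x y
    rw [← Finset.mul_prod_erase _ _ (Finset.mem_univ i),
      ← Finset.mul_prod_erase _ (fun j => p j (Function.update x i y j)) (Finset.mem_univ i)]
    have : ∏ j ∈ univ.erase i, p j (Function.update x i y j) = ∏ j ∈ univ.erase i, p j (x j) :=
      Finset.prod_congr rfl fun j hj => by rw [Function.update_of_ne (Finset.ne_of_mem_erase hj)]
    rw [this, Function.update_self]; ring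
  let σ : (ι → X) × X ≃ (ι → X) × X :=
    { toFun := fun z => (Function.update z.1 i z.2, z.1 i)
      invFun := fun z => (Function.update z.1 i z.2, z.1 i)
      left_inv := fun z => by simp
      right_inv := fun z => by simp }
  have h1 : Ex p (fun x => ∑ y, p i y * g (Function.update x i y))
      = ∑ z : (ι → X) × X, (∏ j, p j ((σ z).1 j)) * p i (σ z).2 * g (σ z).1 := by
    unfold Ex
    rw [Fintype.sum_prod_type]
    refine Finset.sum_congr rfl fun x _ => ?_
    rw [Finset.mul_sum]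
    refine Finset.sum_congr rfl fun y _ => ?_
    rw [← mul_assoc, key]; rfl
  rw [h1, Equiv.sum_comp σ (fun z => (∏ j, p j (z.1 j)) * p i z.2 * g z.1), Fintype.sum_prod_type]
  unfold Ex
  refine Finset.sum_congr rfl fun x _ => ?_
  have : ∑ y, (∏ j, p j (x j)) * p i y * g x = (∏ j, p j (x j)) * g x * ∑ y, p i y := by
    rw [Finset.mul_sum]; exact Finset.sum_congr rfl fun y _ => by ring
  rw [this, hp.sum, mul_one]

/-- One-coordinate marginal. -/
lemma Ex_coord (hp : IsPr p) (i : ι) (h : X → ℝ) :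
    Ex p (fun x => h (x i)) = ∑ y, p i y * h y := by
  rw [Ex_update hp i]
  simp only [Function.update_self]
  exact Ex_const hp _

/-- Two-coordinate marginal. -/
lemma Ex_coord2 (hp : IsPr p) {i i' : ι} (hi : i ≠ i') (h : X → X → ℝ) :
    Ex p (fun x => h (x i) (x i')) = ∑ y, p i y * ∑ y', p i' y' * h y y' := by
  rw [Ex_update hp i']
  simp only [Function.update_self, Function.update_of_ne hi]
  exact Ex_coord hp i (fun y => ∑ y', p i' y' * h y y')

/-- Jensen / Hoelder in polynomial form. -/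
lemma Ex_jensen (hp : IsPr p) {Φ h : (ι → X) → ℝ} (hΦ : ∀ x, 0 ≤ Φ x) {n : ℕ}
    (hn : Even (n + 1)) :
    (Ex p (fun x => Φ x * h x)) ^ (n + 1) ≤ (Ex p Φ) ^ n * Ex p (fun x => Φ x * h x ^ (n + 1)) := by
  set w : (ι → X) → ℝ := fun x => (∏ j, p j (x j)) * Φ x with hw
  have hw0 : ∀ x, 0 ≤ w x := fun x => mul_nonneg (Ex_wt_nonneg hp x) (hΦ x)
  have e1 : Ex p (fun x => Φ x * h x) = ∑ x, w x * h x :=
    Finset.sum_congr rfl fun x _ => by simp only [hw]; ring
  have e2 : Ex p (fun x => Φ x * h x ^ (n + 1)) = ∑ x, w x * h x ^ (n + 1) :=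
    Finset.sum_congr rfl fun x _ => by simp only [hw]; ring
  have e3 : Ex p Φ = ∑ x, w x := rfl
  rw [e1, e2, e3]
  rcases (Finset.sum_nonneg fun x (_ : x ∈ univ) => hw0 x).eq_or_lt with h0 | h0
  · have hz : ∀ x, w x = 0 := fun x =>
      (Finset.sum_eq_zero_iff_of_nonneg fun x _ => hw0 x).1 h0.symm x (Finset.mem_univ x)
    simp [hz]
  · set S := ∑ x, w x with hS
    have := Real.pow_arith_mean_le_arith_mean_pow_of_even univ (fun x => w x / S) h
      (fun x _ => div_nonneg (hw0 x) h0.le)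
      (by rw [← Finset.sum_div, div_self h0.ne']) hn
    have a1 : ∑ x, w x / S * h x = (∑ x, w x * h x) / S := by
      rw [Finset.sum_div]; exact Finset.sum_congr rfl fun x _ => by ring
    have a2 : ∑ x, w x / S * h x ^ (n + 1) = (∑ x, w x * h x ^ (n + 1)) / S := by
      rw [Finset.sum_div]; exact Finset.sum_congr rfl fun x _ => by ring
    rw [a1, a2, div_pow, div_le_div_iff₀ (pow_pos h0 _) h0] at this
    have h2 : (∑ x, w x * h x) ^ (n + 1) * S ≤ (S ^ n * ∑ x, w x * h x ^ (n + 1)) * S := by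
      calc _ ≤ _ := this
        _ = _ := by ring
    exact le_of_mul_le_mul_right h2 h0

/-- Cauchy-Schwarz over a point and an extra finite index. -/
lemma Ex_cs {α : Type*} (hp : IsPr p) (s : Finset α) (A B : α → (ι → X) → ℝ) :
    (Ex p (fun x => ∑ t ∈ s, A t x * B t x)) ^ 2
      ≤ Ex p (fun x => ∑ t ∈ s, A t x ^ 2) * Ex p (fun x => ∑ t ∈ s, B t x ^ 2) := by
  set w : (ι → X) → ℝ := fun x => Real.sqrt (∏ j, p j (x j)) with hw
  have hw2 : ∀ x, w x * w x = ∏ j, p j (x j) := fun x => Real.mul_self_sqrt (Ex_wt_nonneg hp x)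
  have e : ∀ C D : α → (ι → X) → ℝ, Ex p (fun x => ∑ t ∈ s, C t x * D t x)
      = ∑ z ∈ (univ : Finset (ι → X)) ×ˢ s, (w z.1 * C z.2 z.1) * (w z.1 * D z.2 z.1) := by
    intro C D
    unfold Ex
    rw [Finset.sum_product]
    refine Finset.sum_congr rfl fun x _ => ?_
    rw [Finset.mul_sum]
    refine Finset.sum_congr rfl fun t _ => ?_
    rw [← hw2]; ring
  have eA : Ex p (fun x => ∑ t ∈ s, A t x ^ 2)
      = ∑ z ∈ (univ : Finset (ι → X)) ×ˢ s, (w z.1 * A z.2 z.1) ^ 2 := by
    simp only [sq]; exact e A A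
  have eB : Ex p (fun x => ∑ t ∈ s, B t x ^ 2)
      = ∑ z ∈ (univ : Finset (ι → X)) ×ˢ s, (w z.1 * B z.2 z.1) ^ 2 := by
    simp only [sq]; exact e B B
  rw [e A B, eA, eB]
  exact Finset.sum_mul_sq_le_sq_mul_sq _ _ _

end Ex

section Grid
variable {ι X κ : Type*} [Fintype ι] [DecidableEq ι] [Fintype X] [Fintype κ] [DecidableEq κ]

/-- Weights of `κ` independent copies of every coordinate. -/
noncomputable def cp (κ : Type*) [Fintype κ] (p : ι → X → ℝ) : ι → (κ → X) → ℝ :=
  fun j u => ∏ a, p j (u a)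

/-- The point of the grid `ω` selected by the cell `c`. -/
def pt (ω : ι → κ → X) (c : ι → κ) : ι → X := fun j => ω j (c j)

/-- Cells that use only the copy `o` outside `J`. -/
def cells (o : κ) (J : Finset ι) : Finset (ι → κ) := univ.filter fun c => ∀ j, j ∉ J → c j = o

variable {p : ι → X → ℝ}

omit [Fintype ι] [DecidableEq ι] in
lemma isPr_const (hp : IsPr p) (i : ι) : IsPr (fun _ : κ => p i) := ⟨fun _ => hp.nn i, fun _ => hp.sum i⟩

omit [Fintype ι] [DecidableEq ι] in
lemma isPr_cp (hp : IsPr p) : IsPr (cp κ p) :=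
  ⟨fun j _ => Finset.prod_nonneg fun _ _ => hp.nn j _, fun j => Ex_wt_sum (isPr_const hp j)⟩

omit [Fintype X] in
lemma mem_cells {o : κ} {J : Finset ι} {c : ι → κ} : c ∈ cells o J ↔ ∀ j, j ∉ J → c j = o := by
  simp [cells]

omit [Fintype ι] [Fintype X] [Fintype κ] [DecidableEq κ] in
lemma pt_update (ω : ι → κ → X) (c : ι → κ) (i : ι) (u : κ → X) (a : κ) :
    pt (Function.update ω i u) (Function.update c i a) = Function.update (pt ω c) i (u a) := by
  funext j
  by_cases h : j = i
  · subst h; simp [pt]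
  · simp [pt, Function.update_of_ne h]

omit [Fintype ι] [Fintype X] [Fintype κ] [DecidableEq κ] in
lemma pt_update' (ω : ι → κ → X) (c : ι → κ) (i : ι) (u : κ → X) :
    pt (Function.update ω i u) c = Function.update (pt ω c) i (u (c i)) := by
  rw [← pt_update, Function.update_eq_self]

omit [Fintype X] in
lemma cells_empty (o : κ) : cells o (∅ : Finset ι) = {fun _ => o} := by
  ext c; simp [mem_cells, funext_iff]

omit [Fintype X] in
lemma cells_insert (o : κ) {J : Finset ι} {i : ι} :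
    cells o (insert i J) = ((univ : Finset κ) ×ˢ cells o J).image
      (fun z => Function.update z.2 i z.1) := by
  ext c
  simp only [mem_cells, Finset.mem_image, Finset.mem_product, Finset.mem_univ, true_and,
    Finset.mem_insert, not_or]
  constructor
  · intro h
    refine ⟨(c i, Function.update c i o), fun j hj => ?_, by simp⟩
    by_cases e : j = i
    · subst e; simp
    · simp only [Function.update_of_ne e]; exact h j ⟨e, hj⟩
  · rintro ⟨z, hz, rfl⟩ j ⟨e, hj⟩
    rw [Function.update_of_ne e]; exact hz j hj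

omit [Fintype X] in
lemma cells_injOn (o : κ) {J : Finset ι} {i : ι} (hi : i ∉ J) :
    Set.InjOn (fun z : κ × (ι → κ) => Function.update z.2 i z.1)
      ((univ : Finset κ) ×ˢ cells o J : Finset _) := by
  rintro ⟨a, c⟩ h1 ⟨a', c'⟩ h2 h
  simp only [Finset.coe_product, Set.mem_prod, Finset.mem_coe, mem_cells] at h1 h2
  have ha : a = a' := by simpa using congrFun h i
  refine Prod.ext ha (funext fun j => ?_)
  by_cases e : j = i
  · subst e; simp only; rw [h1.2 j hi, h2.2 j hi]
  · simpa [Function.update_of_ne e] using congrFun h j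

omit [Fintype X] in
lemma prod_cells_insert (o : κ) {J : Finset ι} {i : ι} (hi : i ∉ J) (h : (ι → κ) → ℝ) :
    ∏ c ∈ cells o (insert i J), h c = ∏ a, ∏ c ∈ cells o J, h (Function.update c i a) := by
  rw [cells_insert, Finset.prod_image (cells_injOn o hi), Finset.prod_product]

omit [Fintype X] in
lemma card_cells_insert (o : κ) {J : Finset ι} {i : ι} (hi : i ∉ J) :
    (cells o (insert i J)).card = (cells o J).card * Fintype.card κ := by
  rw [cells_insert, Finset.card_image_of_injOn (cells_injOn o hi), Finset.card_product,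
    Finset.card_univ, mul_comm]

omit [Fintype X] in
lemma card_cells (o : κ) (J : Finset ι) : (cells o J).card = Fintype.card κ ^ J.card := by
  induction J using Finset.induction_on with
  | empty => simp [cells_empty]
  | insert i J hi ih => rw [card_cells_insert o hi, ih, Finset.card_insert_of_notMem hi, pow_succ]

/-- The copy `o` of every coordinate has the original law. -/
lemma Ex_cp_pt (hp : IsPr p) (c : ι → κ) (g : (ι → X) → ℝ) :
    Ex (cp κ p) (fun ω => g (pt ω c)) = Ex p g := by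
  classical
  have h1 : ∀ ω : ι → κ → X, g (pt ω c)
      = ∑ x : ι → X, g x * ∏ j, (if ω j (c j) = x j then (1 : ℝ) else 0) := by
    intro ω
    rw [Finset.sum_eq_single (pt ω c)]
    · simp [pt]
    · intro x _ hx
      obtain ⟨j, hj⟩ := Function.ne_iff.1 hx
      rw [Finset.prod_eq_zero (Finset.mem_univ j), mul_zero]
      rw [if_neg]; exact fun e => hj e.symm
    · simp
  rw [Ex_congr _ h1, Ex_sum]
  unfold Ex
  refine Finset.sum_congr rfl fun x _ => ?_
  have h2 := Ex_mul_left (cp κ p) (g x)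
    (fun ω => ∏ j, (if ω j (c j) = x j then (1 : ℝ) else 0))
  have h3 := Ex_prod (cp κ p) (fun j u => if u (c j) = x j then (1 : ℝ) else 0)
  have h4 : ∀ j, ∑ u : κ → X, cp κ p j u * (if u (c j) = x j then (1 : ℝ) else 0) = p j (x j) := by
    intro j
    have := Ex_coord (isPr_const (κ := κ) hp j) (c j) (fun y => if y = x j then (1 : ℝ) else 0)
    simp only [mul_ite, mul_one, mul_zero, Finset.sum_ite_eq', Finset.mem_univ, if_true] at this
    rw [← this]; simp [Ex, cp]
  simp only [h4] at h3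
  rw [h3] at h2
  unfold Ex at h2
  rw [h2, mul_comm]

/-- The Hoelder lift: remove a face `F` that misses coordinate `i`. -/
lemma lift_step (hp : IsPr p) (o : κ) {n : ℕ} (hn : Fintype.card κ = n + 1) (he : Even (n + 1))
    {J : Finset ι} {i : ι} (hi : i ∉ J) {F g : (ι → X) → ℝ} {M : ℝ}
    (hF0 : ∀ x, 0 ≤ F x) (hFM : ∀ x, F x ≤ M) (hFi : ∀ x y, F (Function.update x i y) = F x) :
    (Ex (cp κ p) (fun ω => ∏ c ∈ cells o J, (F (pt ω c) * g (pt ω c)))) ^ (n + 1)
      ≤ (Ex (cp κ p) (fun ω => ∏ c ∈ cells o J, F (pt ω c))) ^ n * M ^ (cells o J).card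
        * Ex (cp κ p) (fun ω => ∏ c ∈ cells o (insert i J), g (pt ω c)) := by
  have hP := isPr_cp (κ := κ) hp
  set Φ : (ι → κ → X) → ℝ := fun ω => ∏ c ∈ cells o J, F (pt ω c) with hΦ
  set h : (ι → κ → X) → ℝ := fun ω =>
    ∑ x, p i x * ∏ c ∈ cells o J, g (Function.update (pt ω c) i x) with hh
  have e1 : Ex (cp κ p) (fun ω => ∏ c ∈ cells o J, (F (pt ω c) * g (pt ω c)))
      = Ex (cp κ p) (fun ω => Φ ω * h ω) := by
    rw [Ex_update hP i]
    refine Ex_congr _ fun ω => ?_
    have a1 : ∀ u : κ → X, ∏ c ∈ cells o J, (F (pt (Function.update ω i u) c)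
        * g (pt (Function.update ω i u) c))
        = Φ ω * ∏ c ∈ cells o J, g (Function.update (pt ω c) i (u o)) := by
      intro u
      rw [hΦ, ← Finset.prod_mul_distrib]
      refine Finset.prod_congr rfl fun c hc => ?_
      rw [pt_update', hFi, mem_cells.1 hc i hi]
    simp only [a1]
    have a2 := Ex_coord (isPr_const (κ := κ) hp i) o
      (fun x => Φ ω * ∏ c ∈ cells o J, g (Function.update (pt ω c) i x))
    have a3 : Φ ω * h ω
        = ∑ y, p i y * (Φ ω * ∏ c ∈ cells o J, g (Function.update (pt ω c) i y)) := by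
      rw [hh, Finset.mul_sum]; exact Finset.sum_congr rfl fun y _ => by ring
    rw [a3, ← a2]; rfl
  have e2 : Ex (cp κ p) (fun ω => ∏ c ∈ cells o (insert i J), g (pt ω c))
      = Ex (cp κ p) (fun ω => h ω ^ (n + 1)) := by
    rw [Ex_update hP i]
    refine Ex_congr _ fun ω => ?_
    simp only [prod_cells_insert o hi, pt_update]
    have a2 := Ex_prod (fun _ : κ => p i)
      (fun _ x => ∏ c ∈ cells o J, g (Function.update (pt ω c) i x))
    rw [Finset.prod_const, Finset.card_univ, hn] at a2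
    rw [hh, ← a2]; rfl
  have hΦ0 : ∀ ω, 0 ≤ Φ ω := fun ω => Finset.prod_nonneg fun c _ => hF0 _
  have hΦM : ∀ ω, Φ ω ≤ M ^ (cells o J).card := fun ω => by
    rw [← Finset.prod_const]
    exact Finset.prod_le_prod (fun c _ => hF0 _) fun c _ => hFM _
  rw [e1, e2, mul_assoc]
  refine (Ex_jensen hP hΦ0 he).trans (mul_le_mul_of_nonneg_left ?_ (pow_nonneg (Ex_nonneg hP hΦ0) _))
  rw [← Ex_mul_left]
  exact Ex_mono hP fun ω => mul_le_mul_of_nonneg_right (hΦM ω) (he.pow_nonneg _)

end Grid

end Crest.Agent.T49
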