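import Crest.Agent.T49.L_50

/-! Row 49, (L) part 3: ratio pigeonhole and the "state" form (one free copy per coordinate). -/

set_option autoImplicit false

namespace Crest.Agent.T49
open Finset

/-- Ratio pigeonhole: a weighted ratio `≥ R` is attained up to `R'` on a part whose denominator is
at least `τ`, as soon as `M τ < (R - R') * (total denominator)` and `N ≤ M D` pointwise. -/
lemma ratio_pigeon {α : Type*} (s : Finset α) (w N D : α → ℝ) {M R R' τ : ℝ}
    (hw : ∀ a ∈ s, 0 ≤ w a) (hw1 : ∑ a ∈ s, w a ≤ 1) (hD : ∀ a ∈ s, 0 ≤ D a)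
    (hN : ∀ a ∈ s, N a ≤ M * D a) (hM : 0 ≤ M) (hR' : 0 ≤ R') (hτ : 0 ≤ τ)
    (hR : R * ∑ a ∈ s, w a * D a ≤ ∑ a ∈ s, w a * N a)
    (hMτ : M * τ < (R - R') * ∑ a ∈ s, w a * D a) :
    ∃ a ∈ s, R' * D a < N a ∧ τ < D a := by
  by_contra h
  push Not at h
  have h1 : ∀ a ∈ s, w a * N a ≤ R' * (w a * D a) + w a * (M * τ) := by
    intro a ha
    have : N a ≤ R' * D a + M * τ := by
      rcases le_or_gt (N a) (R' * D a) with h2 | h2
      · have := mul_nonneg hM hτ; linarith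
      · have h3 := mul_le_mul_of_nonneg_left (h a ha h2) hM
        have := mul_nonneg hR' (hD a ha)
        have := hN a ha
        linarith
    have := mul_le_mul_of_nonneg_left this (hw a ha)
    linarith
  have h2 := Finset.sum_le_sum h1
  rw [Finset.sum_add_distrib, ← Finset.mul_sum, ← Finset.sum_mul] at h2
  have h3 := mul_le_mul_of_nonneg_right hw1 (mul_nonneg hM hτ)
  linarith

variable {ι X κ : Type*} [Fintype ι] [DecidableEq ι] [Fintype X] [Fintype κ] [DecidableEq κ]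
variable {p : ι → X → ℝ}

/-- The grid `ω` with the copy `c₀ j` of each coordinate `j` replaced by `x j`. -/
def plug (ω : ι → κ → X) (c₀ : ι → κ) (x : ι → X) : ι → κ → X :=
  fun j => Function.update (ω j) (c₀ j) (x j)

omit [Fintype ι] [DecidableEq ι] [Fintype X] [Fintype κ] in
lemma pt_plug_self (ω : ι → κ → X) (c₀ : ι → κ) (x : ι → X) : pt (plug ω c₀ x) c₀ = x := by
  funext j; simp [pt, plug]

omit [Fintype ι] [DecidableEq ι] [Fintype X] [Fintype κ] in
lemma pt_plug (ω : ι → κ → X) (c₀ c : ι → κ) (x : ι → X) (j : ι) :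
    pt (plug ω c₀ x) c j = if c j = c₀ j then x j else ω j (c j) := by
  simp only [pt, plug]
  split_ifs with h
  · rw [h, Function.update_self]
  · rw [Function.update_of_ne h]

/-- Resampling the copies selected by `c₀`. -/
lemma Ex_plug (hp : IsPr p) (c₀ : ι → κ) (H : (ι → κ → X) → ℝ) :
    Ex (cp κ p) H = Ex (cp κ p) (fun ω => Ex p (fun x => H (plug ω c₀ x))) := by
  have key : ∀ (j : ι) (u : κ → X) (y : X), (∏ a, p j (u a)) * p j y
      = (∏ a, p j (Function.update u (c₀ j) y a)) * p j (u (c₀ j)) := by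
    intro j u y
    rw [← Finset.mul_prod_erase _ _ (Finset.mem_univ (c₀ j)),
      ← Finset.mul_prod_erase _ (fun a => p j (Function.update u (c₀ j) y a))
        (Finset.mem_univ (c₀ j))]
    have : ∏ a ∈ univ.erase (c₀ j), p j (Function.update u (c₀ j) y a)
        = ∏ a ∈ univ.erase (c₀ j), p j (u a) :=
      Finset.prod_congr rfl fun a ha => by rw [Function.update_of_ne (Finset.ne_of_mem_erase ha)]
    rw [this, Function.update_self]; ring
  let σ : (ι → κ → X) × (ι → X) ≃ (ι → κ → X) × (ι → X) :=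
    { toFun := fun z => (plug z.1 c₀ z.2, pt z.1 c₀)
      invFun := fun z => (plug z.1 c₀ z.2, pt z.1 c₀)
      left_inv := fun z => by
        refine Prod.ext (funext fun j => ?_) (pt_plug_self _ _ _)
        simp [plug, pt]
      right_inv := fun z => by
        refine Prod.ext (funext fun j => ?_) (pt_plug_self _ _ _)
        simp [plug, pt] }
  have h1 : Ex (cp κ p) (fun ω => Ex p (fun x => H (plug ω c₀ x)))
      = ∑ z : (ι → κ → X) × (ι → X),
        (∏ j, cp κ p j ((σ z).1 j)) * (∏ j, p j ((σ z).2 j)) * H (σ z).1 := by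
    unfold Ex
    rw [Fintype.sum_prod_type]
    refine Finset.sum_congr rfl fun ω _ => ?_
    rw [Finset.mul_sum]
    refine Finset.sum_congr rfl fun x _ => ?_
    rw [← mul_assoc, ← Finset.prod_mul_distrib, ← Finset.prod_mul_distrib]
    congr 1
    exact Finset.prod_congr rfl fun j _ => key j (ω j) (x j)
  rw [h1, Equiv.sum_comp σ (fun z => (∏ j, cp κ p j (z.1 j)) * (∏ j, p j (z.2 j)) * H z.1),
    Fintype.sum_prod_type]
  unfold Ex
  refine Finset.sum_congr rfl fun ω _ => ?_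
  have : ∑ x : ι → X, (∏ j, cp κ p j (ω j)) * (∏ j, p j (x j)) * H ω
      = (∏ j, cp κ p j (ω j)) * H ω * ∑ x : ι → X, ∏ j, p j (x j) := by
    rw [Finset.mul_sum]; exact Finset.sum_congr rfl fun x _ => by ring
  rw [this, Ex_wt_sum hp, mul_one]

/-- **(L), state form**.  If the simplex count is small there are a face `i`, a frozen grid `ω`
and a finite set `T` of vertices such that `f i` has a ratio increment `R'` against the weight
`W x = ∏ c ∈ T, f i (pt (plug ω c₀ x) c)`, of mean `> τ`.  By `pt_plug` the vertex `c` depends only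
on the coordinates `j` with `c j = c₀ j`; every `c ∈ T` misses a coordinate `j ∈ K`, `j ≠ i`. -/
theorem simplex_state (hp : IsPr p) {o o' : κ} (ho : o ≠ o') (he : Even (Fintype.card κ))
    {K : Finset ι} {f : ι → (ι → X) → ℝ} {M R R' η γ τ : ℝ} (hR : 1 ≤ R)
    (hM : M ≤ R ^ Fintype.card κ) (hη : 0 ≤ η) (hγ : R ^ (2 * K.card) ≤ 1 + γ)
    (hf0 : ∀ i ∈ K, ∀ x, 0 ≤ f i x) (hfM : ∀ i ∈ K, ∀ x, f i x ≤ M)
    (hfi : ∀ i ∈ K, ∀ x y, f i (Function.update x i y) = f i x)
    (hmean : ∀ i ∈ K, 1 - η ≤ Ex p (f i))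
    (hsmall : Ex p (fun x => ∏ i ∈ K, f i x) < 1 - 11 ^ K.card * (η + γ))
    (hM0 : 0 < M) (hR' : 0 ≤ R') (hτ : 0 ≤ τ) (hMτ : M ^ 2 * τ < R - R') :
    ∃ i ∈ K, ∃ (T : Finset (ι → κ)) (c₀ : ι → κ) (ω : ι → κ → X),
      Adm o K i (insert c₀ T) ∧ (∀ c ∈ T, ∃ j ∈ K, j ≠ i ∧ c j ≠ c₀ j) ∧
      R' * Ex p (fun x => ∏ c ∈ T, f i (pt (plug ω c₀ x) c))
        < Ex p (fun x => f i x * ∏ c ∈ T, f i (pt (plug ω c₀ x) c)) ∧
      τ < Ex p (fun x => ∏ c ∈ T, f i (pt (plug ω c₀ x) c)) := by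
  have hP := isPr_cp (κ := κ) hp
  obtain ⟨i, hi, T, c₀, hc₀, hadm, h1, h2⟩ :=
    simplex_increment hp ho he hR hM hη hγ hf0 hfM hfi hmean hsmall
  have h3 : M * τ < (R - R') * Ex (cp κ p) (fun ω => ∏ c ∈ T, f i (pt ω c)) := by
    have hpos : 0 < R - R' := lt_of_le_of_lt (by positivity) hMτ
    have a1 : M * (M * τ) < M * ((R - R') * Ex (cp κ p) (fun ω => ∏ c ∈ T, f i (pt ω c))) := by
      have := mul_le_mul_of_nonneg_left h2 hpos.le
      nlinarith
    exact lt_of_mul_lt_mul_left a1 hM0.le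
  rw [Ex_plug hp c₀ (fun ω => ∏ c ∈ T, f i (pt ω c))] at h1 h3
  rw [Ex_plug hp c₀ (fun ω => f i (pt ω c₀) * ∏ c ∈ T, f i (pt ω c))] at h1
  simp only [pt_plug_self] at h1
  obtain ⟨ω, _, h4, h5⟩ := ratio_pigeon univ (fun ω : ι → κ → X => ∏ j, cp κ p j (ω j))
    (fun ω => Ex p (fun x => f i x * ∏ c ∈ T, f i (pt (plug ω c₀ x) c)))
    (fun ω => Ex p (fun x => ∏ c ∈ T, f i (pt (plug ω c₀ x) c))) (M := M) (R := R) (R' := R')
    (τ := τ) (fun ω _ => Ex_wt_nonneg hP ω) (Ex_wt_sum hP).le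
    (fun ω _ => Ex_nonneg hp fun x => Finset.prod_nonneg fun c _ => hf0 i hi _)
    (fun ω _ => by
      rw [← Ex_mul_left]
      exact Ex_mono hp fun x => mul_le_mul_of_nonneg_right (hfM i hi x)
        (Finset.prod_nonneg fun c _ => hf0 i hi _))
    hM0.le hR' hτ h1.le h3
  refine ⟨i, hi, T, c₀, ω, hadm, fun c hc => ?_, h4, h5⟩
  have hne : c ≠ c₀ := fun e => hc₀ (e ▸ hc)
  obtain ⟨j, hj⟩ := Function.ne_iff.1 hne
  have a1 := hadm c (Finset.mem_insert_of_mem hc)
  have a2 := hadm c₀ (Finset.mem_insert_self _ _)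
  refine ⟨j, ?_, fun e => hj ?_, hj⟩
  · by_contra hK; exact hj ((a1.2 j hK).trans (a2.2 j hK).symm)
  · rw [e, a1.1, a2.1]

end Crest.Agent.T49
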