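import Crest.Agent.T49.LTCj_65
import Crest.Agent.T49.NilUq_61
import Crest.Agent.T49.Qp_85

/-!
# Row 49 (helper65): the core factorisation from its stages, and the inductive step of `LT`
-/

set_option autoImplicit false

noncomputable section

namespace Crest.Agent.T49.Nil

open Finset ND Real
open Crest.Agent.T49.Bch (star)

variable {ι σ : Type} [Fintype ι] {N : ND ι}

theorem two_le_pw {m : ℝ} (hm : 2 ≤ m) {a : ℕ} (ha : 1 ≤ a) : 2 ≤ m ^ a :=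
  hm.trans (le_self_pow₀ (by linarith) (by omega))

theorem le_pw {m : ℝ} (hm : 2 ≤ m) {a : ℕ} (ha : 1 ≤ a) : m ≤ m ^ a :=
  le_self_pow₀ (by linarith) (by omega)

theorem exp_le_exp_pw {m : ℝ} (hm : 2 ≤ m) {a : ℕ} (ha : 1 ≤ a) : exp m ≤ exp (m ^ a) :=
  exp_le_exp.2 (le_pw hm ha)

theorem ND.Gen.mono {S : ℕ} {T M M' : ℝ} {q q' : ℕ} {K : ℕ → Submodule ℝ N.L} {g : N.PS σ}
    (hM : M ≤ M') (hq : q ∣ q') : N.Gen S T M q K g ⊆ N.Gen S T M' q' K g :=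
  fun _ ⟨h1, h2, a, h3, h4, h5⟩ => ⟨h1, h2.of_dvd hq, a, h3, h4.mono hM, h5⟩

theorem ND.GenU.mono {S : ℕ} {T M M' : ℝ} {q q' : ℕ} {K : ℕ → Submodule ℝ N.L}
    {U : Submodule ℝ N.L} {g : N.PS σ} (hM : M ≤ M') (hq : q ∣ q') :
    N.GenU S T M q K U g ⊆ N.GenU S T M' q' K U g :=
  fun _ hb => ⟨Gen.mono hM hq hb.1, hb.2⟩

theorem ND.Slope.mono [DecidableEq σ] {S : ℕ} {T M M' : ℝ} {q q' : ℕ} {K : ℕ → Submodule ℝ N.L}
    {g : N.PS σ} {G G' : Set (N.PS σ)} (h : N.Slope S T M q K g G) (hT : 0 ≤ T) (hM : M ≤ M')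
    (hq : q ∣ q') (hG : G ⊆ G') : N.Slope S T M' q' K g G' := fun v => by
  obtain ⟨a, h1, b, h2, h3, h4, h5⟩ := h v
  exact ⟨a, h1, b, h2, h3.mono (div_le_div_of_nonneg_right hM hT), h4.of_dvd hq,
    (sup_le_sup_left (Submodule.span_mono (R := ℝ) hG) (N.sh σ K) :) h5⟩

theorem ND.St.mono [DecidableEq σ] {S : ℕ} {T M M' : ℝ} {q q' j : ℕ} {H K : ℕ → Submodule ℝ N.L}
    {U : Submodule ℝ N.L} {g : N.PS σ} (h : N.St S T M q H K U j g) (hT : 0 ≤ T) (hM : M ≤ M')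
    (hq : q ∣ q') : N.St S T M' q' H K U j g :=
  ⟨h.mem, h.span.trans (sup_le_sup_right
      (Submodule.span_mono (Set.image_mono (GenU.mono hM hq))) _),
    h.slope.mono hT hM hq (GenU.mono hM hq)⟩

theorem ND.CoreData.mono {R R' : ℝ} {H K : ℕ → Submodule ℝ N.L} {U : Submodule ℝ N.L}
    (h : N.CoreData R H K U) (hR : R ≤ R') : N.CoreData R' H K U :=
  ⟨h.ks, fun i => (h.ratH i).mono hR, fun i => (h.ratK i).mono hR, h.ratU.mono hR, h.leU⟩

theorem ND.SR.mono {τ τ' : ℝ} {q q' : ℕ} {V : Submodule ℝ N.L} {x : N.L} (h : N.SR τ q V x)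
    (hτ : τ ≤ τ') (hq : q ∣ q') : N.SR τ' q' V x := by
  obtain ⟨e, r, h1, h2, h3⟩ := h
  exact ⟨e, r, h1.trans hτ, Gon.IsDen.of_dvd h2 hq, h3⟩

/-- a smooth factor on the left and a rational factor on the right -/
theorem fact_wrap (S : ℕ) : ∃ C : ℕ, 1 ≤ C ∧ ∀ m : ℝ, 2 ≤ m → ∀ (ι σ : Type) [Fintype ι] (N : ND ι)
    (H : ℕ → Submodule ℝ N.L) (T : ℝ) (q : ℕ) (ε γ x : N.PS σ), (Fintype.card ι : ℝ) ≤ m →
    N.Good S (exp m) → 0 ≤ T → ε ∈ N.poly σ → γ ∈ N.poly σ → N.Sm T (exp m) ε → N.RatP q γ →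
    1 ≤ q → (q : ℝ) ≤ exp m → N.Fact S T (exp m) H x →
    N.Fact S T (exp (m ^ C)) H (star S ε (star S x γ)) := by
  obtain ⟨C₁, h₁⟩ := St.star_qp S
  obtain ⟨C₂, h₂⟩ : ∃ C : ℕ, ∀ (m : ℝ) (q q' : ℕ), 2 ≤ m → (q : ℝ) ≤ exp m → (q' : ℝ) ≤ exp m →
      (St.dS S : ℝ) * (q * q') ^ (S + 1) ≤ exp (m ^ C) := by qp
  refine ⟨C₁ + C₂ + 1, by omega, fun m hm ι σ _ N H T q ε γ x hd hG hT hε hγ hs hr hq1 hq hx => ?_⟩
  obtain ⟨q', hq1', hq', ε', hε', h, hh, γ', hγ', hs', hr', rfl⟩ := hx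
  have := hG.nil (MvPolynomial σ ℝ)
  refine ⟨St.dS S * (q * q') ^ (S + 1), ?_, ?_, star S ε ε', St.star_mem_poly S hε hε', h, hh,
    star S γ' γ, St.star_mem_poly S hγ' hγ, ?_, ?_, ?_⟩
  · exact Nat.mul_pos (St.one_le_dS S) (pow_pos (Nat.mul_pos hq1 hq1') _)
  · push_cast
    exact (h₂ m q q' hm hq hq').trans (Qp.exp_pw_mono hm (by omega))
  · exact ((h₁ m hm).1 ι σ N T ε ε' hd hG.wt_le hG.c_le hT hε hε' hs hs').mono
      (Qp.exp_pw_mono hm (by omega))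
  · exact St.RatP_star S (hr'.of_dvd (dvd_mul_left _ _)) (hr.of_dvd (dvd_mul_right _ _))
  · simp only [Bch.star_assoc]

theorem fact_of_mem {S : ℕ} {T M : ℝ} (hM : 1 ≤ M) {H : ℕ → Submodule ℝ N.L} {g : N.PS σ}
    (hg : g ∈ cf σ H) : N.Fact S T M H g :=
  ⟨1, le_rfl, by simpa using hM, 0, zero_mem _, g, hg, 0, zero_mem _,
    fun α => by simpa using zero_le_one.trans hM, St.RatP_zero 1, by simp⟩

theorem core_ind (hA : StaStmt) (hB : StbStmt) (hC : StcStmt) (S D r : ℕ) :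
    ∃ C : ℕ, 1 ≤ C ∧ ∀ (m : ℝ), 2 ≤ m → ∀ (ι σ : Type) [Fintype ι] [Fintype σ] [DecidableEq σ]
      (N : ND ι) (H K : ℕ → Submodule ℝ N.L) (U : Submodule ℝ N.L) (g : N.PS σ) (T : ℝ) (q j : ℕ),
      Fintype.card σ ≤ D → (Fintype.card ι : ℝ) ≤ m → N.Good S (exp m) →
      N.CoreData (exp m) H K U → exp (m ^ C) ≤ T → 1 ≤ q → (q : ℝ) ≤ exp m → 1 ≤ j →
      S + 1 ≤ j + r → N.St S T (exp m) q H K U j g →
      N.Fact S T (exp (m ^ C)) (N.Hc H K U) g := by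
  have base : ∀ (ι σ : Type) [Fintype ι] [Fintype σ] [DecidableEq σ] (N : ND ι)
      (H K : ℕ → Submodule ℝ N.L) (U : Submodule ℝ N.L) (g : N.PS σ) (T M : ℝ) (q j : ℕ),
      (∀ k, N.wt k ≤ S) → N.KSys H K → S + 1 ≤ j → N.St S T M q H K U j g →
      g ∈ cf σ (N.Hc H K U) := by
    intro ι σ _ _ _ N H K U g T M q j hS hK hj h α
    by_cases hα : α.degree < j
    · simpa [upto, hα] using h.mem α
    · rw [St.cv_eq_zero hS (hK.mem_poly h.mem_cf) (by omega)]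
      exact zero_mem _
  induction r with
  | zero =>
    exact ⟨1, le_rfl, fun m hm ι σ _ _ _ N H K U g T q j _ _ hG hD _ _ _ _ hj h =>
      fact_of_mem (one_le_exp (by positivity)) (base ι σ N H K U g T _ q j hG.wt_le hD.ks hj h)⟩
  | succ r ih =>
    obtain ⟨Cr, hCr, ih⟩ := ih
    obtain ⟨Ca, hA⟩ := hA
    obtain ⟨Cb, hB⟩ := hB
    obtain ⟨Cc, hC⟩ := hC S D
    obtain ⟨Cw, hCw, hW⟩ := fact_wrap S
    obtain ⟨a, ha⟩ : ∃ C : ℕ, ∀ (m : ℝ) (q : ℕ), 2 ≤ m → (q : ℝ) ≤ exp m →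
        (S.factorial : ℝ) * q ≤ exp (m ^ C) := by qp
    obtain ⟨b, hb⟩ : ∃ C : ℕ, ∀ (m : ℝ), 2 ≤ m →
        exp ((m ^ (a + 1)) ^ Cb) * exp m ≤ exp (m ^ C) := by qp
    set c := (b + 1) * (Cc + 1) with hc
    have hc1 : b + 1 ≤ c := Nat.le_mul_of_pos_right _ (by omega)
    have hc2 : c ≤ c * Cr := Nat.le_mul_of_pos_right _ hCr
    have hc3 : c * Cr ≤ c * Cr * Cw := Nat.le_mul_of_pos_right _ hCw
    refine ⟨c * Cr * Cw + Ca, by omega,
      fun m hm ι σ _ _ _ N H K U g T q j hσ hd hG hD hT hq1 hq hj1 hj h => ?_⟩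
    by_cases hjS : S + 1 ≤ j
    · exact fact_of_mem (one_le_exp (by positivity))
        (base ι σ N H K U g T _ q j hG.wt_le hD.ks hjS h)
    have hTk : ∀ k, k ≤ c * Cr * Cw + Ca → exp (m ^ k) ≤ T := fun k hk =>
      (Qp.exp_pw_mono hm hk).trans hT
    have hT1 : 1 ≤ T := (one_le_exp (by positivity)).trans (hTk 0 (by omega))
    have hT0 : 0 < T := by linarith
    have hTj : T ≤ T ^ j := le_self_pow₀ hT1 (by omega)
    obtain ⟨hA1, hA2⟩ := hA m hm S ι σ N H K U g T q j hd hG.wt_le hD (hTk _ (by omega)) hq1 hq hj1 h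
    have hm1 : 2 ≤ m ^ (a + 1) := two_le_pw hm (by omega)
    have e1 : exp m ≤ exp (m ^ (a + 1)) := exp_le_exp_pw hm (by omega)
    have hjq : ((j.factorial * q : ℕ) : ℝ) ≤ exp (m ^ (a + 1)) := by
      refine le_trans ?_ ((ha m q hm hq).trans (Qp.exp_pw_mono hm (by omega)))
      have : j.factorial ≤ S.factorial := Nat.factorial_le (by omega)
      push_cast
      gcongr
    obtain ⟨q', hq1', hq', hB'⟩ := hB (m ^ (a + 1)) hm1 ι N H K U
      (N.cv 0 '' N.GenU S T (exp m) q K U g) (j.factorial * q) j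
      (hd.trans (le_pw hm (by omega))) (fun i j k => (hG.c_le i j k).trans e1) (hD.mono e1)
      (Nat.mul_pos j.factorial_pos hq1) hjq hj1
      (by
        rintro _ ⟨b, hb, rfl⟩
        exact ⟨Gon.IsDen.of_dvd (hb.1.2.1 0) (dvd_mul_left _ _),
          fun k hk => (hA1 b hb k hk).trans e1⟩) h.span
    have hb' := hb m hm
    have hτ : exp m / T ^ j ≤ exp (-(m ^ (a + 1)) ^ Cb) := by
      rw [div_le_iff₀ (by positivity), exp_neg, ← div_eq_inv_mul, le_div_iff₀ (exp_pos _), mul_comm]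
      exact hb'.trans ((hTk b (by omega)).trans hTj)
    have hex : ∀ α : σ →₀ ℕ, ∃ e ∈ H α.degree, ∃ r ∈ H α.degree,
        ‖e‖ * T ^ α.degree ≤ exp (m ^ b) ∧ N.Den q' r ∧ (α.degree ≠ j → e = 0 ∧ r = 0) ∧
        (α.degree = j → N.cv α g - e - r ∈ N.Hc H K U j) := by
      intro α
      by_cases hα : α.degree = j
      · obtain ⟨h1, h2⟩ := hA2 α hα
        obtain ⟨e, he, r, hr, h3, h4, h5⟩ := hB' (exp m / T ^ j) (by positivity) hτ (N.cv α g)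
          (hα ▸ h.mem_cf α)
          (by rintro _ ⟨b, hb, rfl⟩; exact (h1 b hb).mono le_rfl (dvd_mul_left _ _)) h2
        refine ⟨e, hα ▸ he, r, hα ▸ hr, ?_, h4, fun h => absurd hα h, fun _ => h5⟩
        rw [hα, ← le_div_iff₀ (by positivity)]
        refine h3.trans ?_
        rw [← mul_div_assoc]
        gcongr
      · exact ⟨0, zero_mem _, 0, zero_mem _, by simpa using (exp_pos _).le, Gon.IsDen.zero _,
          fun _ => ⟨rfl, rfl⟩, fun h => absurd h hα⟩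
    choose e he r hr h1 h2 h3 h4 using hex
    have hfin : {α : σ →₀ ℕ | α.degree ≤ j}.Finite := Finsupp.finite_of_degree_le j
    obtain ⟨ε, hε⟩ := St.exists_ps (N := N) e (hfin.subset fun α hα => by
      by_contra h'
      exact hα (h3 α (by simp at h'; omega)).1)
    obtain ⟨γ, hγ⟩ := St.exists_ps (N := N) r (hfin.subset fun α hα => by
      by_contra h'
      exact hα (h3 α (by simp at h'; omega)).2)
    have hεH : ε ∈ cf σ H := fun α => by rw [hε]; exact he α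
    have hγH : γ ∈ cf σ H := fun α => by rw [hγ]; exact hr α
    have hεS : N.Sm T (exp (m ^ b)) ε := fun α => by rw [hε]; exact h1 α
    have hγR : N.RatP (q' * q) γ := fun α => by
      rw [hγ]; exact Gon.IsDen.of_dvd (h2 α) (dvd_mul_right _ _)
    have hqq : ((q' * q : ℕ) : ℝ) ≤ exp (m ^ b) := by
      refine le_trans ?_ hb'
      push_cast
      gcongr
    have hqq1 : 1 ≤ q' * q := Nat.mul_pos hq1' hq1
    have eb : ∀ k, b ≤ k → exp (m ^ b) ≤ exp (m ^ k) := fun k hk => Qp.exp_pw_mono hm hk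
    have em : ∀ k, 1 ≤ k → exp m ≤ exp (m ^ k) := fun k hk => exp_le_exp_pw hm hk
    obtain ⟨q₃, hq31, hq3, hSt⟩ := hC (m ^ (b + 1)) (two_le_pw hm (by omega)) ι σ N H K U g ε γ T
      (q' * q) j hσ (hd.trans (le_pw hm (by omega))) (hG.mono (em _ (by omega))) hD.ks hD.leU hT1
      hqq1 (hqq.trans (eb _ (by omega))) hj1 (h.mono hT0.le (em _ (by omega)) (dvd_mul_left _ _))
      hεH hγH (fun α hα => by rw [hε, hγ]; exact h3 α hα) (hεS.mono (eb _ (by omega))) hγR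
      (fun α hα => by rw [map_sub, map_sub, hε, hγ]; exact h4 α hα)
    have ec : exp ((m ^ (b + 1)) ^ Cc) ≤ exp (m ^ c) := by
      rw [← pow_mul]
      exact Qp.exp_pw_mono hm (Nat.mul_le_mul_left _ (by omega))
    have hF := ih (m ^ c) (two_le_pw hm (by omega)) ι σ N H K U _ T q₃ (j + 1) hσ
      (hd.trans (le_pw hm (by omega))) (hG.mono (em _ (by omega))) (hD.mono (em _ (by omega)))
      (by rw [← pow_mul]; exact hTk _ (by omega)) hq31 (hq3.trans ec) (by omega) (by omega)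
      (hSt.mono hT0.le ec dvd_rfl)
    rw [← pow_mul] at hF
    have hF' := hW (m ^ (c * Cr)) (two_le_pw hm (by omega)) ι σ N _ T (q' * q) ε γ _
      (hd.trans (le_pw hm (by omega))) (hG.mono (em _ (by omega))) hT0.le (hD.ks.mem_poly hεH)
      (hD.ks.mem_poly hγH) (hεS.mono (eb _ (by omega))) hγR hqq1 (hqq.trans (eb _ (by omega))) hF
    have := hG.nil (MvPolynomial σ ℝ)
    rw [← pow_mul, Bch.star_assoc, Bch.star_neg_star', Bch.star_neg_star] at hF'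
    exact hF'.mono (Qp.exp_pw_mono hm (by omega))

theorem coreStmt_of (hI : InitStmt) (hA : StaStmt) (hB : StbStmt) (hC : StcStmt) : CoreStmt := by
  intro S D
  obtain ⟨Ci, hI⟩ := hI
  obtain ⟨Cr, hCr, hR⟩ := core_ind hA hB hC S D S
  have h1 : Ci + 1 ≤ (Ci + 1) * Cr := Nat.le_mul_of_pos_right _ hCr
  refine ⟨(Ci + 1) * Cr, fun m hm ι σ _ _ _ N H K g T q hσ hd hG hK hR' hg hT hq1 hq hS => ?_⟩
  obtain ⟨U, hD, hSt, hGr, hRat⟩ := hI m hm S ι σ N H K g T q hd hG hK hR' hg hq1 hq hS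
  have em : exp m ≤ exp (m ^ (Ci + 1)) := exp_le_exp_pw hm (by omega)
  have hT0 : 0 ≤ T := (exp_pos _).le.trans hT
  refine ⟨N.Hc H K U, hGr, fun i => (hRat i).mono (Qp.exp_pw_mono hm (by omega)),
    fun i hi x hx => ?_, ?_⟩
  · have := hx.1.2
    rwa [ND.Kh, if_neg (by omega)] at this
  · rw [pow_mul] at hT ⊢
    exact hR (m ^ (Ci + 1)) (two_le_pw hm (by omega)) ι σ N H K U g T q 1 hσ
      (hd.trans (le_pw hm (by omega))) (hG.mono em) (hD.mono (Qp.exp_pw_mono hm (by omega))) hT hq1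
      (hq.trans em) le_rfl (by omega) (hSt.mono hT0 em dvd_rfl)

theorem lt_succ_of (hP : PigStmt) (hK : RedKStmt) (hR : RedStmt) (hG : GnStmt) (hC : CoreStmt)
    (S s D : ℕ) (hs : 1 ≤ s) (h : LT S s D) : LT S (s + 1) D := by
  obtain ⟨Cp, hP⟩ := hP S s D hs h
  obtain ⟨Ck, hK⟩ := hK
  obtain ⟨Cr, hR⟩ := hR S D
  obtain ⟨Cg, hG⟩ := hG S D
  obtain ⟨Cc, hC⟩ := hC S D
  obtain ⟨Cw, hCw, hW⟩ := fact_wrap S
  set a := Cp + 1 with ha
  set b := a * (Ck + Cr + 1) with hb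
  set c := b * (Cg + 1) with hc
  set d := c * (Cc + 1) with hd'
  have hab : a ≤ b := Nat.le_mul_of_pos_right _ (by omega)
  have hbc : b ≤ c := Nat.le_mul_of_pos_right _ (by omega)
  have hcd : c ≤ d := Nat.le_mul_of_pos_right _ (by omega)
  have hde : d ≤ d * Cw := Nat.le_mul_of_pos_right _ hCw
  have h1 : a * Ck ≤ b := Nat.mul_le_mul_left _ (by omega)
  have h2 : a * Cr ≤ b := Nat.mul_le_mul_left _ (by omega)
  have h3 : b * Cg ≤ c := Nat.mul_le_mul_left _ (by omega)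
  have h4 : c * Cc ≤ d := Nat.mul_le_mul_left _ (by omega)
  refine ⟨d * Cw, fun m hm ι σ _ _ _ N η F P T lo hi hσ hd hGd hF hPp hT hbox hsum => ?_⟩
  have ee : ∀ k l, k ≤ l → exp (m ^ k) ≤ exp (m ^ l) := fun k l hk => Qp.exp_pw_mono hm hk
  have em : ∀ k, 1 ≤ k → exp m ≤ exp (m ^ k) := fun k hk => exp_le_exp_pw hm hk
  have hTk : ∀ k, k ≤ d * Cw → exp (m ^ k) ≤ T := fun k hk => (ee _ _ hk).trans hT
  have hT0 : 0 < T := (exp_pos _).trans_le hT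
  have hdk : ∀ k, 1 ≤ k → (Fintype.card ι : ℝ) ≤ m ^ k := fun k hk => hd.trans (le_pw hm hk)
  obtain ⟨H', q, W, hH', hRat, hq1, hq, hη, hWc, hWf⟩ :=
    hP m hm ι σ N η F P T lo hi hσ hd hGd hF hPp (hTk _ (by omega)) hbox hsum
  have hWk : ∀ k, Cp ≤ k → exp (-m ^ k) * T ^ Fintype.card σ ≤ W.card := fun k hk =>
    le_trans (mul_le_mul_of_nonneg_right (Qp.exp_neg_pw_mono hm hk) (by positivity)) hWc
  have hWne : W.Nonempty := by
    rw [← card_pos, ← Nat.cast_pos (α := ℝ)]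
    exact lt_of_lt_of_le (by positivity) hWc
  have hRat' : ∀ i, N.box.RatS (exp (m ^ a)) (H' i) := fun i => (hRat i).mono (ee _ _ (by omega))
  obtain ⟨hKS, hRHK, -⟩ := hK (m ^ a) (two_le_pw hm (by omega)) ι N H' (hdk _ (by omega)) hH' hRat'
  obtain ⟨g, ε, γ, c₀, q', hg, hε, hγ, hεS, hγR, rfl, hq1', hq', hDe⟩ :=
    hR (m ^ a) (two_le_pw hm (by omega)) ι σ N P T H' q W hσ (hdk _ (by omega))
      (hGd.mono (em _ (by omega))) hPp (by rw [← pow_mul]; exact hTk _ (by omega)) hH' hRat' hq1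
      (hq.trans (ee _ _ (by omega))) hWne fun w hw => ⟨(hWf w hw).1, by
        obtain ⟨u, z, k1, k2, Q, k3, k4, k5⟩ := (hWf w hw).2
        exact ⟨u, z, k1, k2, Q, k3, k4, k5.mono (ee _ _ (by omega)) dvd_rfl⟩⟩
  simp only [← pow_mul] at hRHK hq' hDe
  obtain ⟨q₂, hq21, hq2, hSl⟩ := hG (m ^ b) (two_le_pw hm (by omega)) ι σ N _ _ g c₀ T q' W hσ
    hGd.wt_le hKS hg (by rw [← pow_mul]; exact hTk _ (by omega)) hq1' (hq'.trans (ee _ _ h2))
    (fun w hw => (hWf w hw).1) (hWk _ (by omega)) fun w hw => by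
      obtain ⟨x, k1, y, k2, k3, k4, k5⟩ := hDe w hw
      exact ⟨x, k1, y, k2, k3.mono (ee _ _ h2), k4, k5⟩
  simp only [← pow_mul] at hq2 hSl
  obtain ⟨H₁, hH₁, hR₁, hle, hF₁⟩ := hC (m ^ c) (two_le_pw hm (by omega)) ι σ N _ _ g T q₂ hσ
    (hdk _ (by omega)) (hGd.mono (em _ (by omega))) hKS
    (fun i => ⟨(hRHK i).1.mono (ee _ _ (by omega)), (hRHK i).2.mono (ee _ _ (by omega))⟩) hg
    (by rw [← pow_mul]; exact hTk _ (by omega)) hq21 (hq2.trans (ee _ _ h3))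
    (hSl.mono hT0.le (ee _ _ h3) dvd_rfl (Gen.mono (ee _ _ h3) dvd_rfl))
  simp only [← pow_mul] at hR₁ hF₁
  refine ⟨H₁, hH₁, fun i => (hR₁ i).mono (ee _ _ (by omega)), fun x hx => ?_, ?_⟩
  · have := hle (s + 1) (by omega) hx
    exact hη x this.1.1 this.2
  · rw [pow_mul]
    exact hW (m ^ d) (two_le_pw hm (by omega)) ι σ N H₁ T q ε γ g (hdk _ (by omega))
      (hGd.mono (em _ (by omega))) hT0.le hε hγ (hεS.mono (ee _ _ (by omega))) hγR hq1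
      (hq.trans (ee _ _ (by omega))) (hF₁.mono (ee _ _ h4))

theorem ltStmt_of (h1 : ∀ S D, LT S 1 D) (hP : PigStmt) (hK : RedKStmt) (hR : RedStmt)
    (hG : GnStmt) (hI : InitStmt) (hA : StaStmt) (hB : StbStmt) (hC : StcStmt) : LTStmt := by
  intro S s D hs
  induction s, hs using Nat.le_induction with
  | base => exact h1 S D
  | succ s hs ih => exact lt_succ_of hP hK hR hG (coreStmt_of hI hA hB hC) S s D hs ih

end Crest.Agent.T49.Nil
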