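import Crest.Agent.T49.LEx_50

/-! Row 49, lower-tail lemma (L), part 2: upper bounds for positive grid patterns imply a lower
bound for the simplex count.  Key identity: `6 + 2f + 3w - fw = ⟨(3,f),(2+w,2-w)⟩`, and both Gram
forms `9 + ff'`, `8 + 2ww'` are positive. -/

set_option autoImplicit false

namespace Crest.Agent.T49
open Finset

variable {ι X κ : Type*} [Fintype ι] [DecidableEq ι] [Fintype X] [Fintype κ] [DecidableEq κ]
variable {p : ι → X → ℝ}

/-- The Gram identity for two independent copies of coordinate `b`. -/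
lemma Ex_gram (hp : IsPr p) {o o' : κ} (ho : o ≠ o') {D : Finset ι} {b : ι} (hb : b ∉ D)
    (U1 U0 : (ι → X) → ℝ) :
    Ex (cp κ p) (fun ω => ∑ t ∈ (cells o D).powerset,
      (∑ y, p b y * ((∏ c ∈ t, U1 (Function.update (pt ω c) b y))
        * ∏ c ∈ cells o D \ t, U0 (Function.update (pt ω c) b y))) ^ 2)
    = Ex (cp κ p) (fun ω => ∏ c ∈ cells o D,
      (U1 (pt ω c) * U1 (pt ω (Function.update c b o'))
        + U0 (pt ω c) * U0 (pt ω (Function.update c b o')))) := by
  have hP := isPr_cp (κ := κ) hp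
  rw [Ex_update hP b (fun ω => ∏ c ∈ cells o D, _)]
  refine Ex_congr _ fun ω => ?_
  set G : X → X → ℝ := fun y y' => ∏ c ∈ cells o D,
      (U1 (Function.update (pt ω c) b y) * U1 (Function.update (pt ω c) b y')
        + U0 (Function.update (pt ω c) b y) * U0 (Function.update (pt ω c) b y')) with hG
  have a1 : ∀ u : κ → X, ∏ c ∈ cells o D,
      (U1 (pt (Function.update ω b u) c) * U1 (pt (Function.update ω b u) (Function.update c b o'))
        + U0 (pt (Function.update ω b u) c)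
          * U0 (pt (Function.update ω b u) (Function.update c b o'))) = G (u o) (u o') := by
    intro u
    refine Finset.prod_congr rfl fun c hc => ?_
    rw [pt_update, pt_update', mem_cells.1 hc b hb]
  simp only [a1]
  have a2 := Ex_coord2 (isPr_const (κ := κ) hp b) ho G
  have a3 : ∑ u : κ → X, cp κ p b u * G (u o) (u o') = ∑ y, p b y * ∑ y', p b y' * G y y' := a2
  rw [a3]
  simp only [sq, Finset.sum_mul_sum]
  simp only [hG, Finset.prod_add, Finset.mul_sum]
  rw [Finset.sum_comm]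
  refine Finset.sum_congr rfl fun y _ => ?_
  rw [Finset.sum_comm]
  refine Finset.sum_congr rfl fun y' _ => Finset.sum_congr rfl fun t _ => ?_
  simp only [Finset.prod_mul_distrib]
  ring

/-- Splitting a rank-two edge function along the two kept coordinates. -/
lemma Ex_split (hp : IsPr p) (o : κ) {D : Finset ι} {a b : ι} (hab : a ≠ b) (ha : a ∉ D)
    (hb : b ∉ D) {U1 U0 W1 W0 : (ι → X) → ℝ}
    (hU1 : ∀ x y, U1 (Function.update x a y) = U1 x) (hU0 : ∀ x y, U0 (Function.update x a y) = U0 x)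
    (hW1 : ∀ x y, W1 (Function.update x b y) = W1 x)
    (hW0 : ∀ x y, W0 (Function.update x b y) = W0 x) :
    Ex (cp κ p) (fun ω => ∏ c ∈ cells o D,
      (U1 (pt ω c) * W1 (pt ω c) + U0 (pt ω c) * W0 (pt ω c)))
    = Ex (cp κ p) (fun ω => ∑ t ∈ (cells o D).powerset,
      (∑ y, p b y * ((∏ c ∈ t, U1 (Function.update (pt ω c) b y))
        * ∏ c ∈ cells o D \ t, U0 (Function.update (pt ω c) b y)))
      * (∑ x, p a x * ((∏ c ∈ t, W1 (Function.update (pt ω c) a x))
        * ∏ c ∈ cells o D \ t, W0 (Function.update (pt ω c) a x)))) := by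
  have hP := isPr_cp (κ := κ) hp
  -- resample coordinate `a`
  set H : (ι → κ → X) → X → ℝ := fun ω x => ∏ c ∈ cells o D,
      (U1 (pt ω c) * W1 (Function.update (pt ω c) a x)
        + U0 (pt ω c) * W0 (Function.update (pt ω c) a x)) with hH
  have e1 : Ex (cp κ p) (fun ω => ∏ c ∈ cells o D,
      (U1 (pt ω c) * W1 (pt ω c) + U0 (pt ω c) * W0 (pt ω c)))
      = Ex (cp κ p) (fun ω => ∑ x, p a x * H ω x) := by
    rw [Ex_update hP a]
    refine Ex_congr _ fun ω => ?_
    have a1 : ∀ u : κ → X, ∏ c ∈ cells o D,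
        (U1 (pt (Function.update ω a u) c) * W1 (pt (Function.update ω a u) c)
          + U0 (pt (Function.update ω a u) c) * W0 (pt (Function.update ω a u) c)) = H ω (u o) := by
      intro u
      refine Finset.prod_congr rfl fun c hc => ?_
      rw [pt_update', mem_cells.1 hc a ha, hU1, hU0]
    simp only [a1]
    exact Ex_coord (isPr_const (κ := κ) hp a) o (H ω)
  rw [e1, Ex_update hP b]
  refine Ex_congr _ fun ω => ?_
  set G : X → X → ℝ := fun y x => ∏ c ∈ cells o D,
      (U1 (Function.update (pt ω c) b y) * W1 (Function.update (pt ω c) a x)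
        + U0 (Function.update (pt ω c) b y) * W0 (Function.update (pt ω c) a x)) with hG
  have a1 : ∀ (u : κ → X) (x : X), H (Function.update ω b u) x = G (u o) x := by
    intro u x
    refine Finset.prod_congr rfl fun c hc => ?_
    rw [pt_update', mem_cells.1 hc b hb, Function.update_comm hab.symm, hW1, hW0]
  simp only [a1]
  have a2 := Ex_coord (isPr_const (κ := κ) hp b) o (fun y => ∑ x, p a x * G y x)
  have a3 : ∑ u : κ → X, cp κ p b u * ∑ x, p a x * G (u o) x
      = ∑ y, p b y * ∑ x, p a x * G y x := a2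
  rw [a3]
  simp only [Finset.sum_mul_sum]
  simp only [hG, Finset.prod_add, Finset.mul_sum]
  rw [Finset.sum_comm (s := (cells o D).powerset)]
  refine Finset.sum_congr rfl fun y _ => ?_
  rw [Finset.sum_comm (s := (cells o D).powerset)]
  refine Finset.sum_congr rfl fun x _ => Finset.sum_congr rfl fun t _ => ?_
  simp only [Finset.prod_mul_distrib]
  ring

/-- Cells that are admissible for a face missing coordinate `i`, when only the coordinates in `K`
are copied. -/
def Adm (o : κ) (K : Finset ι) (i : ι) (T : Finset (ι → κ)) : Prop :=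
  ∀ c ∈ T, c i = o ∧ ∀ j, j ∉ K → c j = o

/-- All positive sub-patterns of the grid have count at most `R ^ (number of vertices)`. -/
def Spr (p : ι → X → ℝ) (o : κ) (K : Finset ι) (i : ι) (f : (ι → X) → ℝ) (R : ℝ) : Prop :=
  ∀ T : Finset (ι → κ), Adm o K i T →
    Ex (cp κ p) (fun ω => ∏ c ∈ T, f (pt ω c)) ≤ R ^ T.card

/-- Bound for a positive Gram pattern. -/
lemma gram_bound {o o' : κ} (ho : o ≠ o') {K D : Finset ι} (hDK : D ⊆ K) {a b : ι}
    (hab : a ≠ b) (ha : a ∉ D) (hb : b ∉ D) (hbK : b ∈ K) {f : (ι → X) → ℝ} {R β γ : ℝ}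
    (hβ : 0 ≤ β) (hγ : 0 ≤ γ) (hS : Spr p o K a f R) :
    Ex (cp κ p) (fun ω => ∏ c ∈ cells o D,
      (β * (f (pt ω c) * f (pt ω (Function.update c b o'))) + γ))
      ≤ (β * R ^ 2 + γ) ^ (cells o D).card := by
  simp only [Finset.prod_add, Finset.prod_const]
  rw [Ex_sum, ← Finset.prod_const, Finset.prod_add]
  refine Finset.sum_le_sum fun t ht => ?_
  have ht' := Finset.mem_powerset.1 ht
  have hinj : Set.InjOn (fun c : ι → κ => Function.update c b o') t := by
    intro c hc c' hc' h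
    funext j
    by_cases e : j = b
    · subst e; rw [mem_cells.1 (ht' hc) j hb, mem_cells.1 (ht' hc') j hb]
    · simpa [Function.update_of_ne e] using congrFun h j
  have hdis : Disjoint t (t.image fun c => Function.update c b o') := by
    rw [Finset.disjoint_left]
    intro c hc hc2
    obtain ⟨c', _, rfl⟩ := Finset.mem_image.1 hc2
    have := mem_cells.1 (ht' hc) b hb
    rw [Function.update_self] at this
    exact ho this.symm
  have hadm : Adm o K a (t ∪ t.image fun c => Function.update c b o') := by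
    intro c hc
    rcases Finset.mem_union.1 hc with hc | hc
    · exact ⟨mem_cells.1 (ht' hc) a ha, fun j hj => mem_cells.1 (ht' hc) j fun h => hj (hDK h)⟩
    · obtain ⟨c', hc', rfl⟩ := Finset.mem_image.1 hc
      refine ⟨?_, fun j hj => ?_⟩
      · rw [Function.update_of_ne hab]; exact mem_cells.1 (ht' hc') a ha
      · rw [Function.update_of_ne (fun e : j = b => hj (e ▸ hbK))]
        exact mem_cells.1 (ht' hc') j fun h => hj (hDK h)
  have h1 := hS _ hadm
  simp only [Finset.prod_union hdis, Finset.prod_image hinj, Finset.card_union_of_disjoint hdis,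
    Finset.card_image_of_injOn hinj] at h1
  have h2 : ∀ ω : ι → κ → X, (∏ c ∈ t, β * (f (pt ω c) * f (pt ω (Function.update c b o'))))
      * γ ^ (cells o D \ t).card = (β ^ t.card * γ ^ (cells o D \ t).card)
        * ((∏ c ∈ t, f (pt ω c)) * ∏ c ∈ t, f (pt ω (Function.update c b o'))) := by
    intro ω
    simp only [Finset.prod_mul_distrib, Finset.prod_const]; ring
  rw [Ex_congr _ h2, Ex_mul_left, Finset.prod_const, Finset.prod_const]
  calc _ ≤ (β ^ t.card * γ ^ (cells o D \ t).card) * R ^ (t.card + t.card) :=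
        mul_le_mul_of_nonneg_left h1 (by positivity)
    _ = _ := by ring

/-- The Cauchy-Schwarz step. -/
lemma edge_bound (hp : IsPr p) {o o' : κ} (ho : o ≠ o') {K D : Finset ι} (hDK : D ⊆ K) {a b : ι}
    (hab : a ≠ b) (ha : a ∉ D) (hb : b ∉ D) (haK : a ∈ K) (hbK : b ∈ K) {f w : (ι → X) → ℝ}
    {R : ℝ} (hR : 1 ≤ R) (hf : ∀ x y, f (Function.update x a y) = f x)
    (hw : ∀ x y, w (Function.update x b y) = w x) (hSf : Spr p o K a f R)
    (hSw : Spr p o K b w R) :
    |Ex (cp κ p) (fun ω => ∏ c ∈ cells o D,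
      (6 + 2 * f (pt ω c) + 3 * w (pt ω c) - f (pt ω c) * w (pt ω c)))|
      ≤ (10 * R ^ 2) ^ (cells o D).card := by
  have hP := isPr_cp (κ := κ) hp
  have e1 : ∀ ω : ι → κ → X, ∏ c ∈ cells o D,
      (6 + 2 * f (pt ω c) + 3 * w (pt ω c) - f (pt ω c) * w (pt ω c))
      = ∏ c ∈ cells o D, (f (pt ω c) * (fun x => 2 - w x) (pt ω c)
        + (fun _ => (3 : ℝ)) (pt ω c) * (fun x => 2 + w x) (pt ω c)) :=
    fun ω => Finset.prod_congr rfl fun c _ => by simp only; ring
  rw [Ex_congr _ e1, Ex_split hp o hab ha hb (U0 := fun _ => (3 : ℝ)) (W1 := fun x => 2 - w x)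
    (W0 := fun x => 2 + w x) hf (fun _ _ => rfl) (fun x y => by simp only [hw])
    (fun x y => by simp only [hw])]
  refine abs_le_of_sq_le_sq' ((Ex_cs hP _ _ _).trans ?_) (by positivity) |> abs_le.2
  rw [Ex_gram hp ho hb f (fun _ => (3 : ℝ)),
    Ex_gram hp ho ha (fun x => 2 - w x) (fun x => 2 + w x)]
  have b1 := gram_bound (β := 1) (γ := 9) ho hDK hab ha hb hbK zero_le_one (by norm_num) hSf
  have b2 := gram_bound (β := 2) (γ := 8) ho hDK hab.symm hb ha haK (by norm_num) (by norm_num) hSw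
  have e2 : ∀ ω : ι → κ → X, ∏ c ∈ cells o D,
      (f (pt ω c) * f (pt ω (Function.update c b o')) + (3 : ℝ) * 3) = ∏ c ∈ cells o D,
      (1 * (f (pt ω c) * f (pt ω (Function.update c b o'))) + 9) :=
    fun ω => Finset.prod_congr rfl fun c _ => by ring
  have e3 : ∀ ω : ι → κ → X, ∏ c ∈ cells o D,
      ((2 - w (pt ω c)) * (2 - w (pt ω (Function.update c a o')))
        + (2 + w (pt ω c)) * (2 + w (pt ω (Function.update c a o')))) = ∏ c ∈ cells o D,
      (2 * (w (pt ω c) * w (pt ω (Function.update c a o'))) + 8) :=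
    fun ω => Finset.prod_congr rfl fun c _ => by ring
  rw [Ex_congr _ e2, Ex_congr _ e3]
  have hR2 : 1 ≤ R ^ 2 := one_le_pow₀ hR
  have c1 : (1 * R ^ 2 + 9) ^ (cells o D).card ≤ (10 * R ^ 2) ^ (cells o D).card :=
    pow_le_pow_left₀ (by positivity) (by linarith) _
  have c2 : (2 * R ^ 2 + 8) ^ (cells o D).card ≤ (10 * R ^ 2) ^ (cells o D).card :=
    pow_le_pow_left₀ (by positivity) (by linarith) _
  have n2 : 0 ≤ Ex (cp κ p) (fun ω => ∏ c ∈ cells o D,
      (2 * (w (pt ω c) * w (pt ω (Function.update c a o'))) + 8)) := by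
    rw [← Ex_congr _ e3, ← Ex_gram hp ho ha (fun x => 2 - w x) (fun x => 2 + w x)]
    exact Ex_nonneg hP fun ω => Finset.sum_nonneg fun t _ => sq_nonneg _
  rw [sq]
  exact mul_le_mul (b1.trans c1) (b2.trans c2) n2 (by positivity)

/-- Removing all faces of `D` by Hoelder lifts. -/
lemma lift_all (hp : IsPr p) (o : κ) {n : ℕ} (hn : Fintype.card κ = n + 1) (he : Even (n + 1))
    {K : Finset ι} {f : ι → (ι → X) → ℝ} {M R C : ℝ} (hR : 1 ≤ R) (hM : M ≤ R ^ (n + 1))
    (hC : 0 ≤ C) (hf0 : ∀ i ∈ K, ∀ x, 0 ≤ f i x) (hfM : ∀ i ∈ K, ∀ x, f i x ≤ M)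
    (hfi : ∀ i ∈ K, ∀ x y, f i (Function.update x i y) = f i x)
    (hS : ∀ i ∈ K, Spr p o K i (f i) R) (e : (ι → X) → ℝ) (D : Finset ι) :
    ∀ J : Finset ι, Disjoint J D → J ⊆ K → D ⊆ K →
      |Ex (cp κ p) (fun ω => ∏ c ∈ cells o (J ∪ D), e (pt ω c))| ≤ C ^ (cells o (J ∪ D)).card →
      |Ex (cp κ p) (fun ω => ∏ c ∈ cells o J, ((∏ i ∈ D, f i (pt ω c)) * e (pt ω c)))|
        ≤ (R ^ (2 * D.card) * C) ^ (cells o J).card := by
  have hP := isPr_cp (κ := κ) hp
  induction D using Finset.induction_on with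
  | empty => intro J _ _ _ h; simpa using h
  | insert i D hi ih =>
    intro J hJ hJK hDK h
    have hiK : i ∈ K := hDK (Finset.mem_insert_self _ _)
    have hiJ : i ∉ J := fun hh => Finset.disjoint_left.1 hJ hh (Finset.mem_insert_self _ _)
    have hJD : Disjoint (insert i J) D := by
      rw [Finset.disjoint_insert_left]
      exact ⟨hi, hJ.mono_right (Finset.subset_insert _ _)⟩
    have hU : insert i J ∪ D = J ∪ insert i D := by
      rw [Finset.insert_union, Finset.union_insert]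
    have ih' := ih (insert i J) hJD (Finset.insert_subset hiK hJK)
      ((Finset.subset_insert _ _).trans hDK) (by rw [hU]; exact h)
    have st := lift_step hp o hn he hiJ (g := fun x => (∏ i ∈ D, f i x) * e x)
      (hf0 i hiK) (hfM i hiK) (hfi i hiK)
    have hΦ : Ex (cp κ p) (fun ω => ∏ c ∈ cells o J, f i (pt ω c)) ≤ R ^ (cells o J).card :=
      hS i hiK _ fun c hc => ⟨mem_cells.1 hc i hiJ, fun j hj => mem_cells.1 hc j fun h => hj (hJK h)⟩
    have hΦ0 : 0 ≤ Ex (cp κ p) (fun ω => ∏ c ∈ cells o J, f i (pt ω c)) :=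
      Ex_nonneg hP fun ω => Finset.prod_nonneg fun c _ => hf0 i hiK _
    simp only [Finset.prod_insert hi, mul_assoc, Finset.card_insert_of_notMem hi]
    simp only [← mul_assoc] at st ⊢
    set I := Ex (cp κ p) (fun ω => ∏ c ∈ cells o J,
      f i (pt ω c) * (∏ i ∈ D, f i (pt ω c)) * e (pt ω c)) with hI
    set N := (cells o J).card with hN
    rw [card_cells_insert o hiJ, hn, ← hN] at ih'
    have hR0 : 0 ≤ R := zero_le_one.trans hR
    rcases isEmpty_or_nonempty (ι → X) with hE | ⟨⟨x0⟩⟩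
    · exfalso
      have := Ex_wt_sum hp
      rw [Finset.univ_eq_empty, Finset.sum_empty] at this
      exact zero_ne_one this
    have hM0 : 0 ≤ M := (hf0 i hiK x0).trans (hfM i hiK x0)
    have h1 : |I| ^ (n + 1) ≤ ((R ^ (2 * (D.card + 1)) * C) ^ N) ^ (n + 1) := by
      rw [he.pow_abs]
      refine st.trans ?_
      calc _ ≤ (R ^ N) ^ n * (R ^ (n + 1)) ^ N * (R ^ (2 * D.card) * C) ^ (N * (n + 1)) := by
            refine (mul_le_mul_of_nonneg_left ((le_abs_self _).trans ih') (by positivity)).trans ?_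
            gcongr
        _ ≤ (R ^ N) ^ (n + 1) * (R ^ (n + 1)) ^ N * (R ^ (2 * D.card) * C) ^ (N * (n + 1)) := by
            gcongr
            · exact one_le_pow₀ hR
            · exact Nat.le_succ n
        _ = _ := by ring
    exact le_of_pow_le_pow_left₀ (Nat.succ_ne_zero n) (by positivity) h1

/-- The one-step inequality `L_S ≥ 6 L_{S-a-b} + 2 L_{S-b} + 3 L_{S-a} - 10 R^(2|S|-2)`. -/
lemma simplex_rec (hp : IsPr p) {o o' : κ} (ho : o ≠ o') (he : Even (Fintype.card κ))
    {K : Finset ι} {f : ι → (ι → X) → ℝ} {M R : ℝ} (hR : 1 ≤ R) (hM : M ≤ R ^ Fintype.card κ)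
    (hf0 : ∀ i ∈ K, ∀ x, 0 ≤ f i x) (hfM : ∀ i ∈ K, ∀ x, f i x ≤ M)
    (hfi : ∀ i ∈ K, ∀ x y, f i (Function.update x i y) = f i x)
    (hS : ∀ i ∈ K, Spr p o K i (f i) R) {D : Finset ι} (hDK : D ⊆ K) {a b : ι}
    (hab : a ≠ b) (ha : a ∉ D) (hb : b ∉ D) (haK : a ∈ K) (hbK : b ∈ K) :
    6 * Ex p (fun x => ∏ i ∈ D, f i x) + 2 * Ex p (fun x => ∏ i ∈ insert a D, f i x)
      + 3 * Ex p (fun x => ∏ i ∈ insert b D, f i x) - 10 * R ^ (2 * D.card + 2)
      ≤ Ex p (fun x => ∏ i ∈ insert a (insert b D), f i x) := by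
  obtain ⟨n, hn⟩ : ∃ n, Fintype.card κ = n + 1 :=
    Nat.exists_eq_succ_of_ne_zero (Fintype.card_pos_iff.2 ⟨o⟩).ne'
  rw [hn] at he hM
  have h1 := edge_bound hp ho hDK hab ha hb haK hbK hR (hfi a haK) (hfi b hbK) (hS a haK) (hS b hbK)
  have h2 := lift_all hp o hn he hR hM (C := 10 * R ^ 2) (by positivity) hf0 hfM hfi hS
    (fun x => 6 + 2 * f a x + 3 * f b x - f a x * f b x) D ∅ (Finset.disjoint_empty_left _)
    (Finset.empty_subset _) hDK (by simpa only [Finset.empty_union] using h1)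
  simp only [cells_empty, Finset.prod_singleton, Finset.card_singleton, pow_one] at h2
  rw [Ex_cp_pt hp (fun _ => o)
    (fun x => (∏ i ∈ D, f i x) * (6 + 2 * f a x + 3 * f b x - f a x * f b x))] at h2
  have hab' : a ∉ insert b D := by simp [hab, ha]
  have e1 : ∀ x, (∏ i ∈ D, f i x) * (6 + 2 * f a x + 3 * f b x - f a x * f b x)
      = (6 * ∏ i ∈ D, f i x + 2 * ∏ i ∈ insert a D, f i x + 3 * ∏ i ∈ insert b D, f i x)
        - ∏ i ∈ insert a (insert b D), f i x := by
    intro x
    rw [Finset.prod_insert hab', Finset.prod_insert ha, Finset.prod_insert hb]; ring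
  rw [Ex_congr _ e1, Ex_sub, Ex_add, Ex_add, Ex_mul_left, Ex_mul_left, Ex_mul_left] at h2
  have h3 := (le_abs_self _).trans h2
  have e2 : R ^ (2 * D.card) * (10 * R ^ 2) = 10 * R ^ (2 * D.card + 2) := by ring
  rw [e2] at h3
  linarith

/-- **(L)**: if every face has mean at least `1 - η` and all positive grid sub-patterns of every
face have count at most `R ^ (number of vertices)`, then every sub-simplex count is nearly `≥ 1`. -/
theorem simplex_lower (hp : IsPr p) {o o' : κ} (ho : o ≠ o') (he : Even (Fintype.card κ))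
    {K : Finset ι} {f : ι → (ι → X) → ℝ} {M R η γ : ℝ} (hR : 1 ≤ R)
    (hM : M ≤ R ^ Fintype.card κ) (hη : 0 ≤ η) (hγ : R ^ (2 * K.card) ≤ 1 + γ)
    (hf0 : ∀ i ∈ K, ∀ x, 0 ≤ f i x) (hfM : ∀ i ∈ K, ∀ x, f i x ≤ M)
    (hfi : ∀ i ∈ K, ∀ x y, f i (Function.update x i y) = f i x)
    (hmean : ∀ i ∈ K, 1 - η ≤ Ex p (f i))
    (hS : ∀ i ∈ K, Spr p o K i (f i) R) {S : Finset ι} (hSK : S ⊆ K) :
    1 - 11 ^ S.card * (η + γ) ≤ Ex p (fun x => ∏ i ∈ S, f i x) := by
  have hγ0 : 0 ≤ γ := by have := one_le_pow₀ hR (n := 2 * K.card); linarith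
  suffices H : ∀ n : ℕ, ∀ S : Finset ι, S ⊆ K → S.card ≤ n →
      1 - (11 ^ n * (η + γ) - γ) ≤ Ex p (fun x => ∏ i ∈ S, f i x) by
    have := H _ S hSK le_rfl
    linarith
  intro n
  induction n with
  | zero =>
    intro S _ h0
    rw [Nat.le_zero, Finset.card_eq_zero] at h0
    subst h0
    simp only [Finset.prod_empty, Ex_const hp]
    linarith
  | succ n ih =>
    intro S hSK hc
    have hp11 : (1 : ℝ) ≤ 11 ^ n := one_le_pow₀ (by norm_num)
    have hmono : 11 ^ n * (η + γ) ≤ 11 ^ (n + 1) * (η + γ) := by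
      rw [pow_succ]; nlinarith
    rcases Nat.lt_or_ge S.card (n + 1) with hlt | hge
    · have := ih S hSK (Nat.lt_succ_iff.1 hlt); linarith
    have hcard : S.card = n + 1 := le_antisymm hc hge
    obtain ⟨a, S1, ha, rfl, hS1⟩ := Finset.card_eq_succ.1 hcard
    have haK : a ∈ K := hSK (Finset.mem_insert_self _ _)
    rcases n with _ | n
    · rw [Finset.card_eq_zero] at hS1
      subst hS1
      have := hmean a haK
      have e : (fun x => ∏ i ∈ insert a (∅ : Finset ι), f i x) = f a := by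
        funext x; simp
      rw [e]
      norm_num
      linarith
    obtain ⟨b, D, hb, rfl, hD⟩ := Finset.card_eq_succ.1 hS1
    have hbK : b ∈ K := hSK (Finset.mem_insert_of_mem (Finset.mem_insert_self _ _))
    have hDK : D ⊆ K := ((Finset.subset_insert _ _).trans (Finset.subset_insert _ _)).trans hSK
    have hab : a ≠ b := fun e => ha (e ▸ Finset.mem_insert_self _ _)
    have haD : a ∉ D := fun e => ha (Finset.mem_insert_of_mem e)
    have r := simplex_rec hp ho he hR hM hf0 hfM hfi hS hDK hab haD hb haK hbK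
    have i0 := ih D hDK (by omega)
    have i1 := ih (insert a D) (Finset.insert_subset haK hDK)
      (by rw [Finset.card_insert_of_notMem haD]; omega)
    have i2 := ih (insert b D) (Finset.insert_subset hbK hDK)
      (by rw [Finset.card_insert_of_notMem hb]; omega)
    have hk : 2 * D.card + 2 ≤ 2 * K.card := by
      have := Finset.card_le_card hSK
      omega
    have hR' : R ^ (2 * D.card + 2) ≤ 1 + γ := (pow_le_pow_right₀ hR hk).trans hγ
    rw [pow_succ (11 : ℝ) (n + 1)]
    linarith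

/-- Telescoping a large pattern count into one large ratio with a dense denominator. -/
lemma telescope {α Ω : Type*} [DecidableEq α] (E : (Ω → ℝ) → ℝ)
    (hmono : ∀ g h : Ω → ℝ, (∀ x, g x ≤ h x) → E g ≤ E h)
    (hmul : ∀ (c : ℝ) (g : Ω → ℝ), E (fun x => c * g x) = c * E g) (hone : E (fun _ => 1) = 1)
    (g : α → Ω → ℝ) {M R : ℝ} (hR : 1 ≤ R) (hg0 : ∀ c x, 0 ≤ g c x)
    (hgM : ∀ c x, g c x ≤ M) (T : Finset α) (hT : R ^ T.card < E (fun x => ∏ c ∈ T, g c x)) :
    ∃ T' c, insert c T' ⊆ T ∧ c ∉ T' ∧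
      R * E (fun x => ∏ c ∈ T', g c x) < E (fun x => g c x * ∏ c ∈ T', g c x) ∧
      1 ≤ M * E (fun x => ∏ c ∈ T', g c x) := by
  induction T using Finset.induction_on with
  | empty => simp [hone] at hT
  | insert c T hc ih =>
    by_cases h : R ^ T.card < E (fun x => ∏ c ∈ T, g c x)
    · obtain ⟨T', c', h1, h2⟩ := ih h
      exact ⟨T', c', h1.trans (Finset.subset_insert _ _), h2⟩
    · rw [not_lt] at h
      simp only [Finset.prod_insert hc, Finset.card_insert_of_notMem hc] at hT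
      refine ⟨T, c, subset_rfl, hc, ?_, ?_⟩
      · refine lt_of_le_of_lt ?_ hT
        rw [pow_succ, mul_comm]
        exact mul_le_mul_of_nonneg_right h (zero_le_one.trans hR)
      · rw [← hmul]
        refine ((one_le_pow₀ hR).trans hT.le).trans (hmono _ _ fun x => ?_)
        exact mul_le_mul_of_nonneg_right (hgM c x) (Finset.prod_nonneg fun c _ => hg0 c x)

/-- **(L), increment form**: if the simplex count is small, some face has a ratio increment `R` on
a grid pattern whose count is at least `1/M`. -/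
theorem simplex_increment (hp : IsPr p) {o o' : κ} (ho : o ≠ o') (he : Even (Fintype.card κ))
    {K : Finset ι} {f : ι → (ι → X) → ℝ} {M R η γ : ℝ} (hR : 1 ≤ R)
    (hM : M ≤ R ^ Fintype.card κ) (hη : 0 ≤ η) (hγ : R ^ (2 * K.card) ≤ 1 + γ)
    (hf0 : ∀ i ∈ K, ∀ x, 0 ≤ f i x) (hfM : ∀ i ∈ K, ∀ x, f i x ≤ M)
    (hfi : ∀ i ∈ K, ∀ x y, f i (Function.update x i y) = f i x)
    (hmean : ∀ i ∈ K, 1 - η ≤ Ex p (f i))
    (hsmall : Ex p (fun x => ∏ i ∈ K, f i x) < 1 - 11 ^ K.card * (η + γ)) :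
    ∃ i ∈ K, ∃ (T : Finset (ι → κ)) (c₀ : ι → κ), c₀ ∉ T ∧ Adm o K i (insert c₀ T) ∧
      R * Ex (cp κ p) (fun ω => ∏ c ∈ T, f i (pt ω c))
        < Ex (cp κ p) (fun ω => f i (pt ω c₀) * ∏ c ∈ T, f i (pt ω c)) ∧
      1 ≤ M * Ex (cp κ p) (fun ω => ∏ c ∈ T, f i (pt ω c)) := by
  have hP := isPr_cp (κ := κ) hp
  by_contra hcon
  refine absurd (simplex_lower hp ho he hR hM hη hγ hf0 hfM hfi hmean (fun i hi T hT => ?_)
    subset_rfl) (not_le.2 hsmall)
  by_contra hlt
  obtain ⟨T', c, h1, h2, h3, h4⟩ := telescope (Ex (cp κ p)) (fun g h H => Ex_mono hP H)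
    (Ex_mul_left _) (Ex_const hP 1) (fun c ω => f i (pt ω c)) hR (fun c ω => hf0 i hi _)
    (fun c ω => hfM i hi _) T (not_le.1 hlt)
  exact hcon ⟨i, hi, T', c, h2, fun c' hc' => hT c' (h1 hc'), h3, h4⟩

end Crest.Agent.T49
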