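import Crest.Agent.T49.GowB_67

/-!
Row 49 (helper10).  The dual function inequality for cubes twisted by shift-dependent linear phases.
-/

set_option autoImplicit false

noncomputable section

namespace Crest.Agent.T49.Ginc

open Finset Crest.Agent.T49.Gow
open scoped ComplexConjugate Pointwise Classical

variable {G : Type*} [AddCommGroup G] {S T : Finset G}

/-- product over the vertices -/
def cg {r : ℕ} (f : (Fin r → Bool) → G → ℂ) (h : Fin r → G) (y : G) : ℂ := ∏ w, f w (vtx y h w)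

theorem cg_cons {r : ℕ} (f : (Fin (r + 1) → Bool) → G → ℂ) (k : G) (h : Fin r → G) :
    cg f (Fin.cons k h) =
      cg (fun w => D2 k (f (Fin.cons true w)) fun x => conj (f (Fin.cons false w) x)) h := by
  funext y
  simp only [cg, prod_cube_succ, vtx_cons_true, vtx_cons_false, D2, Complex.conj_conj]

theorem cg_supp {r : ℕ} {f : (Fin r → Bool) → G → ℂ} (hf : ∀ w, Supp (f w) S) (h : Fin r → G) :
    Supp (cg f h) S := fun y hy =>
  prod_eq_zero (mem_univ fun _ => false) (by rw [vtx_false]; exact hf _ y hy)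

theorem sumU_cg (hT : S - S ⊆ T) (s : ℕ) : ∀ (r : ℕ) (f : (Fin r → Bool) → G → ℂ),
    (∀ w, Supp (f w) S) →
    (∑ h ∈ Fintype.piFinset fun _ : Fin r => T, U (s + 1) (cg f h)) ^ 2 ^ r ≤
      ∏ w, U (s + r + 1) (f w)
  | 0, f, _ => by
    have : ∀ h : Fin 0 → G, cg f h = f default := fun h => by
      funext y
      rw [cg, Fintype.prod_subsingleton _ (default : Fin 0 → Bool)]
      simp [vtx]
    rw [Fintype.prod_subsingleton _ (default : Fin 0 → Bool)]
    simp only [this]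
    simp
  | r + 1, f, hf => by
    have hne : (2 ^ r : ℕ) ≠ 0 := by positivity
    set a : (Fin r → Bool) → G → ℝ := fun w k => U (s + r + 1)
      (D2 k (f (Fin.cons true w)) fun x => conj (f (Fin.cons false w) x)) ^ ((2 ^ r : ℕ) : ℝ)⁻¹
      with ha
    have ha0 : ∀ w k, 0 ≤ a w k := fun w k => Real.rpow_nonneg (U_nonneg _ _) _
    have ha1 : ∀ w k, a w k ^ 2 ^ r = U (s + r + 1)
        (D2 k (f (Fin.cons true w)) fun x => conj (f (Fin.cons false w) x)) :=
      fun w k => Real.rpow_inv_natCast_pow (U_nonneg _ _) hne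
    have h1 : ∑ h ∈ Fintype.piFinset fun _ : Fin (r + 1) => T, U (s + 1) (cg f h) ≤
        ∑ k ∈ T, ∏ w, a w k := by
      rw [sum_piFinset_succ]
      refine sum_le_sum fun k _ => ?_
      refine le_of_pow_le_pow_left₀ hne (prod_nonneg fun w _ => ha0 w k) ?_
      rw [← prod_pow]
      simp only [ha1, cg_cons]
      exact sumU_cg hT s r _ fun w => (hf _).conj.D2 _ _
    have h2 := (pow_le_pow_left₀ (sum_nonneg fun _ _ => U_nonneg _ _) h1 _).trans
      (holder_cube T r a ha0)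
    simp only [ha1] at h2
    rw [pow_succ 2 r, pow_mul, prod_cube_succ]
    refine (pow_le_pow_left₀ (pow_nonneg (sum_nonneg fun _ _ => U_nonneg _ _) _) h2 2).trans ?_
    rw [← prod_pow]
    refine prod_le_prod (fun w _ => by positivity) fun w _ => ?_
    have h3 := sum_U_D2 (s + r) (hf (Fin.cons true w)) (hf (Fin.cons false w)).conj
    rw [U_conj] at h3
    rw [← sum_subset hT fun k _ hk => by
      rw [D2_eq_zero (hf _) (hf _).conj hk, U_zero]]
    exact h3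

theorem norm_sum_pow_four (hT : S - S ⊆ T) {F : G → ℂ} (hF : Supp F S) :
    ‖∑ y ∈ S, F y‖ ^ 4 ≤ #T * U 2 F := by
  have h1 : ‖∑ y ∈ S, F y‖ ^ 2 ≤ ∑ k ∈ T, ‖∑ y ∈ S, D k F y‖ := by
    rw [← U_one hF, U, Uc_succ hF hT]
    refine (norm_sum_le _ _).trans (le_of_eq (sum_congr rfl fun k _ => ?_))
    rw [Uc_zero_eq (hF.D k)]
  have h2 : U 2 F = ∑ k ∈ T, ‖∑ y ∈ S, D k F y‖ ^ 2 := by
    rw [U_succ hF hT]
    exact sum_congr rfl fun k _ => U_one (hF.D k)
  rw [h2, show (4 : ℕ) = 2 * 2 from rfl, pow_mul]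
  exact (pow_le_pow_left₀ (by positivity) h1 2).trans sq_sum_le_card_mul_sum_sq

/-- the twisted cube form -/
def Lam (S : Finset G) {r : ℕ} (H : Finset (Fin r → G)) (u : (Fin r → G) → G → ℂ)
    (f : (Fin r → Bool) → G → ℂ) : ℂ := ∑ h ∈ H, ∑ y ∈ S, cg f h y * u h y

/-- **dual function inequality** -/
theorem dual (hT : S - S ⊆ T) (hST : #S ≤ #T) {r : ℕ} {f : (Fin r → Bool) → G → ℂ}
    (hf : ∀ w, Supp (f w) S) (w₀ : Fin r → Bool) (hb : ∀ w, w ≠ w₀ → ∀ x, ‖f w x‖ ≤ 1)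
    {H : Finset (Fin r → G)} (hH : H ⊆ Fintype.piFinset fun _ => T) {u : (Fin r → G) → G → ℂ}
    (hu : ∀ h, IsPh 2 (u h)) :
    ‖Lam S H u f‖ ^ 2 ^ (r + 2) * (#T : ℝ) ^ (r + 3) ≤
      (#T : ℝ) ^ ((r + 1) * 2 ^ (r + 2)) * U (r + 2) (f w₀) := by
  set τ : ℝ := (#T : ℝ) with hτ
  have hτ0 : 0 ≤ τ := by positivity
  have hHc : (#H : ℝ) ≤ τ ^ r := by
    have := card_le_card hH
    rw [Fintype.card_piFinset, prod_const, card_univ, Fintype.card_fin] at this
    rw [hτ]; exact_mod_cast this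
  have h1 : ‖Lam S H u f‖ ^ 4 ≤
      τ ^ (3 * r + 1) * ∑ h ∈ Fintype.piFinset fun _ : Fin r => T, U 2 (cg f h) := by
    calc ‖Lam S H u f‖ ^ 4 ≤ (∑ h ∈ H, ‖∑ y ∈ S, cg f h y * u h y‖) ^ (3 + 1) :=
          pow_le_pow_left₀ (norm_nonneg _) (norm_sum_le _ _) _
      _ ≤ (#H : ℝ) ^ 3 * ∑ h ∈ H, ‖∑ y ∈ S, cg f h y * u h y‖ ^ (3 + 1) :=
          pow_sum_le_card_mul_sum_pow (fun _ _ => norm_nonneg _) 3
      _ ≤ (τ ^ r) ^ 3 * ∑ h ∈ H, τ * U 2 (cg f h) := by
          refine mul_le_mul (pow_le_pow_left₀ (by positivity) hHc 3) (sum_le_sum fun h _ => ?_)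
            (sum_nonneg fun _ _ => by positivity) (by positivity)
          rw [← U_mul_ph 2 (cg f h) (hu h)]
          exact norm_sum_pow_four hT ((cg_supp hf h).mul_right _)
      _ ≤ (τ ^ r) ^ 3 * ∑ h ∈ Fintype.piFinset fun _ : Fin r => T, τ * U 2 (cg f h) :=
          mul_le_mul_of_nonneg_left (sum_le_sum_of_subset_of_nonneg hH fun _ _ _ =>
            mul_nonneg hτ0 (U_nonneg _ _)) (by positivity)
      _ = _ := by rw [← mul_sum]; ring
  have h2 := sumU_cg hT 1 r f hf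
  rw [show 1 + r + 1 = r + 2 by omega] at h2
  have h3 : ∏ w, U (r + 2) (f w) ≤ U (r + 2) (f w₀) * (τ ^ (r + 3)) ^ (2 ^ r - 1) := by
    rw [← mul_prod_erase _ _ (mem_univ w₀)]
    refine mul_le_mul_of_nonneg_left ?_ (U_nonneg _ _)
    rw [← card_cube, ← card_univ, ← card_erase_of_mem (mem_univ w₀), ← prod_const]
    refine prod_le_prod (fun _ _ => U_nonneg _ _) fun w hw => ?_
    refine (U_le _ (hf w) (hb w (ne_of_mem_erase hw))).trans ?_
    rw [pow_succ' τ]
    refine mul_le_mul (by rw [hτ]; exact_mod_cast hST) (pow_le_pow_left₀ (by positivity) ?_ _)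
      (by positivity) hτ0
    rw [hτ]; exact_mod_cast card_le_card hT
  have h4 : ‖Lam S H u f‖ ^ 2 ^ (r + 2) ≤
      (τ ^ (3 * r + 1)) ^ 2 ^ r * (U (r + 2) (f w₀) * (τ ^ (r + 3)) ^ (2 ^ r - 1)) := by
    rw [show 2 ^ (r + 2) = 4 * 2 ^ r by ring, pow_mul]
    refine (pow_le_pow_left₀ (by positivity) h1 _).trans ?_
    rw [mul_pow]
    exact mul_le_mul_of_nonneg_left (h2.trans h3) (by positivity)
  refine (mul_le_mul_of_nonneg_right h4 (by positivity)).trans (le_of_eq ?_)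
  obtain ⟨n, hn⟩ : ∃ n, 2 ^ r = n + 1 := ⟨2 ^ r - 1, by have := Nat.one_le_two_pow (n := r); omega⟩
  rw [show 2 ^ (r + 2) = 4 * 2 ^ r by ring, hn, Nat.add_sub_cancel]
  ring

/-- the dual function of the slot `w₀` -/
def Dl (S : Finset G) {r : ℕ} (H : Finset (Fin r → G)) (u : (Fin r → G) → G → ℂ)
    (f : (Fin r → Bool) → G → ℂ) (w₀ : Fin r → Bool) (x : G) : ℂ :=
  ∑ h ∈ H, ∑ y ∈ S, if vtx y h w₀ = x then (∏ w ∈ univ.erase w₀, f w (vtx y h w)) * u h y else 0

theorem sum_mul_Dl {r : ℕ} (H : Finset (Fin r → G)) (u : (Fin r → G) → G → ℂ)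
    (f : (Fin r → Bool) → G → ℂ) (w₀ : Fin r → Bool) {g : G → ℂ} (hg : Supp g S) :
    ∑ x ∈ S, g x * Dl S H u f w₀ x = Lam S H u (Function.update f w₀ g) := by
  simp only [Dl, Lam, mul_sum]
  rw [sum_comm]
  refine sum_congr rfl fun h _ => ?_
  rw [sum_comm]
  refine sum_congr rfl fun y _ => ?_
  simp only [mul_ite, mul_zero]
  rw [sum_ite_eq, cg, ← mul_prod_erase _ _ (mem_univ w₀), Function.update_self]
  have : ∏ w ∈ univ.erase w₀, Function.update f w₀ g w (vtx y h w) =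
      ∏ w ∈ univ.erase w₀, f w (vtx y h w) :=
    prod_congr rfl fun w hw => by rw [Function.update_of_ne (ne_of_mem_erase hw)]
  rw [this]
  split_ifs with h1
  · ring
  · rw [hg _ h1]; ring

theorem norm_Dl_le {r : ℕ} (H : Finset (Fin r → G)) {u : (Fin r → G) → G → ℂ}
    (hu : ∀ h, IsPh 2 (u h)) {f : (Fin r → Bool) → G → ℂ} (w₀ : Fin r → Bool)
    (hb : ∀ w, w ≠ w₀ → ∀ x, ‖f w x‖ ≤ 1) (x : G) : ‖Dl S H u f w₀ x‖ ≤ #H := by
  refine (norm_sum_le _ _).trans ?_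
  rw [card_eq_sum_ones, Nat.cast_sum]
  refine sum_le_sum fun h _ => ?_
  rw [← sum_filter]
  refine (norm_sum_le _ _).trans ?_
  have h1 : #(S.filter fun y => vtx y h w₀ = x) ≤ 1 := by
    refine card_le_one.2 fun a ha b hb => ?_
    have := (mem_filter.1 ha).2.trans (mem_filter.1 hb).2.symm
    exact add_right_cancel this
  refine (sum_le_card_nsmul _ _ 1 fun y _ => ?_).trans ?_
  · rw [norm_mul, (hu h).norm, mul_one, norm_prod]
    exact prod_le_one (fun _ _ => norm_nonneg _) fun w hw => hb w (ne_of_mem_erase hw) _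
  · rw [nsmul_eq_mul, mul_one]; exact_mod_cast h1

end Crest.Agent.T49.Ginc
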