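import Mathlib

/-!
Row 49 (helper10).  LIST LEMMA: if every element of a convex set `K` of bounded functions
correlates with some element of `Ψ`, then `O(1/c²)` elements of `Ψ` serve all of `K`
(online gradient descent; replaces Hahn-Banach + Maurey).
-/

set_option autoImplicit false

namespace Crest.Agent.T49.Lst
open Finset

/-- one projection step -/
theorem exists_proj {H : Type*} [NormedAddCommGroup H] [InnerProductSpace ℝ H] [CompleteSpace H]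
    {K : Set H} (hne : K.Nonempty) (hc : IsClosed K) (hK : Convex ℝ K) (u : H) :
    ∃ v ∈ K, ∀ w ∈ K, ‖v - w‖ ^ 2 ≤ ‖u - w‖ ^ 2 := by
  obtain ⟨v, hv, hmin⟩ := exists_norm_eq_iInf_of_complete_convex hne hc.isComplete hK u
  refine ⟨v, hv, fun w hw => ?_⟩
  have h := (norm_eq_iInf_iff_real_inner_le_zero hK hv).1 hmin w hw
  have e : u - w = (u - v) + (v - w) := by abel
  rw [e, norm_add_sq_real]
  have h2 : inner ℝ (u - v) (v - w) = - inner ℝ (u - v) (w - v) := by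
    rw [← inner_neg_right]; congr 1; abel
  nlinarith [sq_nonneg ‖u - v‖]

/-- List lemma in a real Hilbert space, closed convex set. -/
theorem list_closed {H : Type*} [NormedAddCommGroup H] [InnerProductSpace ℝ H] [CompleteSpace H]
    {J : Type*} {K : Set H} (P : J → Prop) (ψ : J → H) (hc : IsClosed K) (hK : Convex ℝ K)
    (hK1 : ∀ φ ∈ K, ‖φ‖ ≤ 1) (hψ1 : ∀ j, P j → ‖ψ j‖ ≤ 1) {c : ℝ} (hc0 : 0 < c)
    (h : ∀ φ ∈ K, ∃ j, P j ∧ c ≤ inner ℝ (ψ j) φ) {T : ℕ} (hT : 16 / c ^ 2 ≤ T) :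
    ∃ L : Finset J, L.card ≤ T ∧ (∀ j ∈ L, P j) ∧
      ∀ φ ∈ K, ∃ j ∈ L, c / 2 ≤ inner ℝ (ψ j) φ := by
  classical
  rcases K.eq_empty_or_nonempty with rfl | hne
  · exact ⟨∅, by simp, by simp, fun φ hφ => absurd hφ (Set.notMem_empty _)⟩
  choose! j hjP hjc using fun φ : K => h φ.1 φ.2
  choose v hvK hv using fun u => exists_proj hne hc hK u
  obtain ⟨φ₀, hφ₀⟩ := hne
  let a : ℕ → K := fun n => Nat.rec (⟨φ₀, hφ₀⟩ : K)
    (fun _ x => ⟨v (x.1 - (c / 2) • ψ (j x)), hvK _⟩) n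
  have ha : ∀ n, (a (n + 1)).1 = v ((a n).1 - (c / 2) • ψ (j (a n))) := fun n => rfl
  refine ⟨(Finset.range T).image fun n => j (a n), ?_, ?_, fun φ hφ => ?_⟩
  · exact card_image_le.trans (by simp)
  · intro x hx
    obtain ⟨n, -, rfl⟩ := mem_image.1 hx
    exact hjP _
  by_contra hcon
  push Not at hcon
  have hT0 : 0 < (T : ℝ) := lt_of_lt_of_le (by positivity) hT
  have step : ∀ n, n < T → ‖(a (n + 1)).1 - φ‖ ^ 2 < ‖(a n).1 - φ‖ ^ 2 - c ^ 2 / 4 := by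
    intro n hn
    have h1 := hv ((a n).1 - (c / 2) • ψ (j (a n))) φ hφ
    rw [← ha] at h1
    have e : (a n).1 - (c / 2) • ψ (j (a n)) - φ = ((a n).1 - φ) - (c / 2) • ψ (j (a n)) := by abel
    rw [e, norm_sub_sq_real ((a n).1 - φ), inner_smul_right, inner_sub_left, norm_smul] at h1
    have h2 := hjc (a n)
    have h3 := hcon (j (a n)) (mem_image.2 ⟨n, mem_range.2 hn, rfl⟩)
    have h4 := hψ1 _ (hjP (a n))
    rw [real_inner_comm] at h2 h3
    have h5 : (‖c / 2‖ * ‖ψ (j (a n))‖) ^ 2 ≤ c ^ 2 / 4 := by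
      rw [Real.norm_of_nonneg (by positivity), mul_pow]
      have : ‖ψ (j (a n))‖ ^ 2 ≤ 1 := by
        have := norm_nonneg (ψ (j (a n))); nlinarith
      nlinarith [sq_nonneg c]
    nlinarith
  have tot : ∀ n, n ≤ T → ‖(a n).1 - φ‖ ^ 2 ≤ ‖(a 0).1 - φ‖ ^ 2 - n * (c ^ 2 / 4) := by
    intro n
    induction n with
    | zero => intro _; simp
    | succ n ih =>
      intro hn
      have h1 := step n (by omega)
      have h2 := ih (by omega)
      push_cast; linarith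
  obtain ⟨T', rfl⟩ : ∃ T', T = T' + 1 := ⟨T - 1, by
    have : T ≠ 0 := by rintro rfl; simp at hT0
    omega⟩
  have h1 := step T' (by omega)
  have h2 := tot T' (by omega)
  have h3 : ‖(a 0).1 - φ‖ ≤ 2 := by
    have := norm_sub_le (a 0).1 φ
    have := hK1 _ (a 0).2
    have := hK1 _ hφ
    linarith
  have h4 : ‖(a 0).1 - φ‖ ^ 2 ≤ 4 := by
    have := norm_nonneg ((a 0).1 - φ); nlinarith
  have h5 : 16 ≤ ((T' + 1 : ℕ) : ℝ) * c ^ 2 := by
    rwa [div_le_iff₀ (by positivity)] at hT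
  push_cast at h5
  nlinarith [sq_nonneg ‖(a (T' + 1)).1 - φ‖]

/-- List lemma in a real Hilbert space, arbitrary convex set. -/
theorem list_convex {H : Type*} [NormedAddCommGroup H] [InnerProductSpace ℝ H] [CompleteSpace H]
    {J : Type*} {K : Set H} (P : J → Prop) (ψ : J → H) (hK : Convex ℝ K)
    (hK1 : ∀ φ ∈ K, ‖φ‖ ≤ 1) (hψ1 : ∀ j, P j → ‖ψ j‖ ≤ 1) {c : ℝ} (hc0 : 0 < c)
    (h : ∀ φ ∈ K, ∃ j, P j ∧ c ≤ inner ℝ (ψ j) φ) {T : ℕ} (hT : 64 / c ^ 2 ≤ T) :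
    ∃ L : Finset J, L.card ≤ T ∧ (∀ j ∈ L, P j) ∧
      ∀ φ ∈ K, ∃ j ∈ L, c / 4 ≤ inner ℝ (ψ j) φ := by
  have h1 : ∀ φ ∈ closure K, ‖φ‖ ≤ 1 := fun φ hφ =>
    (closure_minimal (t := {φ : H | ‖φ‖ ≤ 1}) hK1
      (isClosed_le continuous_norm continuous_const)) hφ
  have h2 : ∀ φ ∈ closure K, ∃ j, P j ∧ c / 2 ≤ inner ℝ (ψ j) φ := by
    intro φ hφ
    obtain ⟨φ', hφ', hd⟩ := Metric.mem_closure_iff.1 hφ (c / 2) (by positivity)
    obtain ⟨j, hj, hc⟩ := h φ' hφ'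
    refine ⟨j, hj, ?_⟩
    have e : inner ℝ (ψ j) φ = inner ℝ (ψ j) φ' + inner ℝ (ψ j) (φ - φ') := by
      rw [inner_sub_right]; ring
    have h3 := abs_real_inner_le_norm (ψ j) (φ - φ')
    rw [dist_eq_norm] at hd
    have h4 := hψ1 j hj
    have h5 : ‖ψ j‖ * ‖φ - φ'‖ ≤ c / 2 := by
      have := norm_nonneg (φ - φ'); have := norm_nonneg (ψ j); nlinarith
    have := neg_abs_le (inner ℝ (ψ j) (φ - φ'))
    linarith
  obtain ⟨L, hL, hP, hφ⟩ := list_closed P ψ isClosed_closure hK.closure h1 hψ1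
    (c := c / 2) (by positivity) h2 (T := T) (by
      have : 16 / (c / 2) ^ 2 = 64 / c ^ 2 := by field_simp; ring
      rw [this]; exact hT)
  refine ⟨L, hL, hP, fun φ hφ' => ?_⟩
  obtain ⟨j, hj, hc⟩ := hφ φ (subset_closure hφ')
  exact ⟨j, hj, by linarith⟩

/-- the pairing `∑_{x ∈ S} f x * conj (g x)` -/
noncomputable def ip {A : Type*} (S : Finset A) (f g : A → ℂ) : ℂ :=
  ∑ x ∈ S, f x * (starRingEnd ℂ) (g x)

/-- restriction to `S`, scaled by `|S|^{-1/2}` -/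
noncomputable def res {A : Type*} (S : Finset A) : (A → ℂ) →ₗ[ℝ] EuclideanSpace ℂ S where
  toFun f := WithLp.toLp 2 fun x : S => ((Real.sqrt S.card : ℝ) : ℂ)⁻¹ * f x.1
  map_add' f g := by ext x; simp [mul_add]
  map_smul' r f := by ext x; simp; ring

theorem norm_res_le {A : Type*} (S : Finset A) {f : A → ℂ} (hf : ∀ x ∈ S, ‖f x‖ ≤ 1) :
    ‖res S f‖ ≤ 1 := by
  rcases S.eq_empty_or_nonempty with rfl | hS
  · rw [EuclideanSpace.norm_eq]; simp
  have hc : (0 : ℝ) < S.card := by exact_mod_cast hS.card_pos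
  rw [EuclideanSpace.norm_eq, Real.sqrt_le_iff, one_pow]
  refine ⟨zero_le_one, ?_⟩
  calc ∑ x : S, ‖(res S f) x‖ ^ 2 ≤ ∑ _x : S, (S.card : ℝ)⁻¹ := by
        refine Finset.sum_le_sum fun x _ => ?_
        have h1 := hf x.1 x.2
        have h0 := norm_nonneg (f x.1)
        have : ‖(res S f) x‖ = (Real.sqrt S.card)⁻¹ * ‖f x.1‖ := by
          simp [res, abs_of_nonneg (Real.sqrt_nonneg _)]
        rw [this, mul_pow, inv_pow, Real.sq_sqrt hc.le]
        have h2 : ‖f x.1‖ ^ 2 ≤ 1 := by nlinarith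
        have h3 : 0 ≤ (S.card : ℝ)⁻¹ := by positivity
        nlinarith
    _ = 1 := by simp; field_simp

theorem inner_res {A : Type*} (S : Finset A) (f g : A → ℂ) :
    inner ℂ (res S g) (res S f) = (S.card : ℂ)⁻¹ * ip S f g := by
  have h : ((Real.sqrt S.card : ℝ) : ℂ)⁻¹ * ((Real.sqrt S.card : ℝ) : ℂ)⁻¹ = (S.card : ℂ)⁻¹ := by
    rw [← mul_inv, ← Complex.ofReal_mul, Real.mul_self_sqrt (by positivity)]; simp
  unfold ip
  rw [← Finset.sum_coe_sort S, Finset.mul_sum, PiLp.inner_apply]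
  refine Finset.sum_congr rfl fun x _ => ?_
  simp only [res, LinearMap.coe_mk, AddHom.coe_mk, RCLike.inner_apply, map_mul, map_inv₀,
    Complex.conj_ofReal]
  rw [← h]; ring

/-- **List lemma.**  `K` a convex set of functions `1`-bounded on `S`; every element of `K`
correlates (`≥ c|S|`) with some `ψ j`, `P j`.  Then `64/c²` indices serve all of `K`. -/
theorem list_fun {A J : Type*} (S : Finset A) {K : Set (A → ℂ)} (P : J → Prop) (ψ : J → A → ℂ)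
    (hK : Convex ℝ K) (hK1 : ∀ φ ∈ K, ∀ x ∈ S, ‖φ x‖ ≤ 1)
    (hψ1 : ∀ j, P j → ∀ x ∈ S, ‖ψ j x‖ ≤ 1) {c : ℝ} (hc0 : 0 < c)
    (h : ∀ φ ∈ K, ∃ j, P j ∧ c * S.card ≤ ‖ip S φ (ψ j)‖) {T : ℕ} (hT : 64 / c ^ 2 ≤ T) :
    ∃ L : Finset J, L.card ≤ T ∧ (∀ j ∈ L, P j) ∧
      ∀ φ ∈ K, ∃ j ∈ L, c / 4 * S.card ≤ ‖ip S φ (ψ j)‖ := by
  classical
  rcases S.eq_empty_or_nonempty with rfl | hS
  · rcases K.eq_empty_or_nonempty with rfl | ⟨φ₀, hφ₀⟩
    · exact ⟨∅, by simp, by simp, fun φ hφ => absurd hφ (Set.notMem_empty _)⟩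
    obtain ⟨j, hj, -⟩ := h φ₀ hφ₀
    have hT0 : 0 < (T : ℝ) := lt_of_lt_of_le (by positivity) hT
    have : 0 < T := by exact_mod_cast hT0
    exact ⟨{j}, by simp; omega, by simpa using hj, fun φ _ => ⟨j, by simp, by simp⟩⟩
  have hc : (0 : ℝ) < S.card := by exact_mod_cast hS.card_pos
  let _ : InnerProductSpace ℝ (EuclideanSpace ℂ S) := InnerProductSpace.complexToReal
  have hin : ∀ u v : EuclideanSpace ℂ S, inner ℝ u v = (inner ℂ u v).re := fun _ _ => rfl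
  obtain ⟨L, hL, hP, hφ⟩ := list_convex (H := EuclideanSpace ℂ S) (J := J × ℂ)
    (K := res S '' K) (fun p => P p.1 ∧ ‖p.2‖ = 1) (fun p => p.2 • res S (ψ p.1))
    (hK.linear_image (res S))
    (by rintro _ ⟨φ, hφ, rfl⟩; exact norm_res_le S (hK1 φ hφ))
    (by
      rintro ⟨j, u⟩ ⟨hj, hu⟩
      simp only at hu ⊢
      rw [norm_smul, hu, one_mul]; exact norm_res_le S (hψ1 j hj)) hc0
    (by
      rintro _ ⟨φ, hφ, rfl⟩
      obtain ⟨j, hj, hcj⟩ := h φ hφ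
      have hz : ip S φ (ψ j) ≠ 0 := by
        intro h0; rw [h0, norm_zero] at hcj
        have := mul_pos hc0 hc; linarith
      have hn : (‖ip S φ (ψ j)‖ : ℂ) ≠ 0 := by exact_mod_cast norm_ne_zero_iff.2 hz
      refine ⟨(j, ip S φ (ψ j) / ‖ip S φ (ψ j)‖), ⟨hj, ?_⟩, ?_⟩
      · simp [norm_ne_zero_iff.2 hz]
      · rw [hin, inner_smul_left, inner_res]
        have e : (starRingEnd ℂ) (ip S φ (ψ j) / ‖ip S φ (ψ j)‖) *
            ((S.card : ℂ)⁻¹ * ip S φ (ψ j)) = ((‖ip S φ (ψ j)‖ / S.card : ℝ) : ℂ) := by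
          rw [map_div₀, Complex.conj_ofReal]
          have h2 := Complex.conj_mul' (ip S φ (ψ j))
          push_cast
          field_simp
          rw [h2]
        rw [e, Complex.ofReal_re, le_div_iff₀ hc]; exact hcj) hT
  refine ⟨L.image Prod.fst, card_image_le.trans hL, ?_, fun φ hφ' => ?_⟩
  · intro j hj
    obtain ⟨p, hp, rfl⟩ := mem_image.1 hj
    exact (hP p hp).1
  obtain ⟨p, hp, hcp⟩ := hφ _ ⟨φ, hφ', rfl⟩
  refine ⟨p.1, mem_image.2 ⟨p, hp, rfl⟩, ?_⟩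
  rw [hin, inner_smul_left, inner_res] at hcp
  have h1 := (Complex.re_le_norm _).trans' hcp
  rw [norm_mul, norm_mul, Complex.norm_conj, (hP p hp).2, one_mul, norm_inv,
    Complex.norm_natCast, ← div_eq_inv_mul, le_div_iff₀ hc] at h1
  exact h1

end Crest.Agent.T49.Lst
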