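import Crest.Agent.T49.LinA_10
import Crest.Agent.T49.List_10
import Crest.Agent.T49.PB_10
import Crest.Agent.T49.GincDef_10
import Crest.Agent.T49.Ftz_58

/-!
Row 49 (helper10).  Linearisation: `Basic Nil → GI Nil (r+1) → Lin Nil r`.
-/

set_option autoImplicit false

noncomputable section

namespace Crest.Agent.T49.Ginc

open Finset Crest.Agent.T49.Gow Crest.Agent.T49.Tor Crest.Agent.T49.Rat Crest.Agent.T49.Lst
open scoped ComplexConjugate

variable {ι : Type} [Fintype ι] [DecidableEq ι]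

theorem mem_box' {N : ℕ} {x : ι → ℤ} : x ∈ Rat.box ι N ↔ ∀ i, -(N : ℤ) ≤ x i ∧ x i ≤ N := by
  simp [Rat.box]

theorem one_le_card_box (N : ℕ) : (1 : ℝ) ≤ #(box ι N) := by
  rw [card_box]; exact_mod_cast Nat.one_le_pow _ _ (by omega)

theorem sub_mem_box {N : ℕ} {a b : ι → ℤ} (ha : a ∈ box ι N) (hb : b ∈ box ι N) :
    a - b ∈ box ι (2 * N) := by
  rw [mem_box'] at *
  intro i
  have := ha i; have := hb i
  simp only [Pi.sub_apply]; push_cast; omega

theorem box_subset (N : ℕ) : box ι N ⊆ box ι (2 * N) := fun x hx => by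
  rw [mem_box'] at *
  intro i
  have := hx i
  push_cast; omega

theorem card_box_two (N : ℕ) :
    (#(box ι (2 * N)) : ℝ) ≤ Real.exp (Fintype.card ι) * #(box ι N) := by
  rw [card_box, card_box, ← Real.exp_one_pow]
  push_cast
  rw [← mul_pow]
  refine pow_le_pow_left₀ (by positivity) ?_ _
  have := Real.add_one_le_exp 1
  have h2 : (0 : ℝ) ≤ N := by positivity
  nlinarith

theorem card_Hs (N r : ℕ) : (#(Hs ι N r) : ℝ) = (#(box ι N) : ℝ) ^ r := by
  rw [Hs, Fintype.card_piFinset, prod_const, card_univ, Fintype.card_fin]; push_cast; rfl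

/-- truncation to the box -/
def cut (N : ℕ) (φ : (ι → ℤ) → ℂ) (x : ι → ℤ) : ℂ := if x ∈ box ι N then φ x else 0

theorem supp_cut (N : ℕ) (φ : (ι → ℤ) → ℂ) : Supp (cut N φ) (box ι N) := fun _ hx => if_neg hx

theorem norm_cut_le {N : ℕ} {φ : (ι → ℤ) → ℂ} (h : ∀ x ∈ box ι N, ‖φ x‖ ≤ 1) (x : ι → ℤ) :
    ‖cut N φ x‖ ≤ 1 := by
  unfold cut; split_ifs with h1
  · exact h x h1
  · simp

/-- the convex set to which the list lemma is applied -/
def KK (N s : ℕ) (η : ℝ) (B : (ι → ℤ) → ℂ) : Set ((ι → ℤ) → ℂ) :=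
  {φ | (∀ x ∈ box ι N, ‖φ x‖ ≤ 1) ∧
    (∀ g, Supp g (box ι N) → ‖∑ x ∈ box ι N, g x * φ x‖ ^ 2 ^ s * (#(box ι (2 * N)) : ℝ) ^ (s + 1) ≤
      (#(box ι (2 * N)) : ℝ) ^ 2 ^ s * U s g) ∧
    η * #(box ι N) ≤ (∑ x ∈ box ι N, B x * φ x).re}

theorem norm_comb_le {a b : ℝ} (ha : 0 ≤ a) (hb : 0 ≤ b) (hab : a + b = 1) (z w : ℂ) :
    ‖(a : ℂ) * z + b * w‖ ≤ max ‖z‖ ‖w‖ := by
  refine (norm_add_le _ _).trans ?_
  rw [norm_mul, norm_mul, Complex.norm_real, Complex.norm_real, Real.norm_of_nonneg ha,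
    Real.norm_of_nonneg hb]
  have h1 := mul_le_mul_of_nonneg_left (le_max_left ‖z‖ ‖w‖) ha
  have h2 := mul_le_mul_of_nonneg_left (le_max_right ‖z‖ ‖w‖) hb
  have h3 : a * max ‖z‖ ‖w‖ + b * max ‖z‖ ‖w‖ = max ‖z‖ ‖w‖ := by rw [← add_mul, hab, one_mul]
  linarith

theorem convex_KK (N s : ℕ) (η : ℝ) (B : (ι → ℤ) → ℂ) : Convex ℝ (KK N s η B) := by
  intro φ hφ ψ hψ a b ha hb hab
  have e : ∀ g : (ι → ℤ) → ℂ, ∑ x ∈ box ι N, g x * (a • φ + b • ψ) x =
      (a : ℂ) * ∑ x ∈ box ι N, g x * φ x + b * ∑ x ∈ box ι N, g x * ψ x := fun g => by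
    rw [mul_sum, mul_sum, ← sum_add_distrib]
    refine sum_congr rfl fun x _ => ?_
    simp only [Pi.add_apply, Pi.smul_apply, Complex.real_smul]; ring
  refine ⟨fun x hx => ?_, fun g hg => ?_, ?_⟩
  · simp only [Pi.add_apply, Pi.smul_apply, Complex.real_smul]
    exact (norm_comb_le ha hb hab _ _).trans (max_le (hφ.1 x hx) (hψ.1 x hx))
  · rw [e]
    have h1 := norm_comb_le ha hb hab (∑ x ∈ box ι N, g x * φ x) (∑ x ∈ box ι N, g x * ψ x)
    rcases le_max_iff.1 h1 with h2 | h2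
    · exact (mul_le_mul_of_nonneg_right (pow_le_pow_left₀ (norm_nonneg _) h2 _)
        (by positivity)).trans (hφ.2.1 g hg)
    · exact (mul_le_mul_of_nonneg_right (pow_le_pow_left₀ (norm_nonneg _) h2 _)
        (by positivity)).trans (hψ.2.1 g hg)
  · rw [e, Complex.add_re, Complex.re_ofReal_mul, Complex.re_ofReal_mul]
    have h1 := mul_le_mul_of_nonneg_left hφ.2.2 ha
    have h2 := mul_le_mul_of_nonneg_left hψ.2.2 hb
    have h3 : a * (η * #(box ι N)) + b * (η * #(box ι N)) = η * #(box ι N) := by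
      rw [← add_mul, hab, one_mul]
    linarith

/-- elements of `KK` have a large Gowers norm -/
theorem U_ge_of_KK {N s : ℕ} {a : ℝ} {B φ : (ι → ℤ) → ℂ} (hB : ∀ x, ‖B x‖ ≤ 1)
    (hφ : φ ∈ KK N s (Real.exp (-a)) B) :
    Real.exp (-(2 ^ s * (2 * a + Fintype.card ι))) * (#(box ι N) : ℝ) ^ (s + 1) ≤ U s (cut N φ) := by
  set σ : ℝ := (#(box ι N) : ℝ) with hσ
  set τ : ℝ := (#(box ι (2 * N)) : ℝ) with hτ
  have hσ0 : 0 < σ := card_box_pos N
  have hτ0 : 0 < τ := card_box_pos _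
  have hστ : σ ≤ τ := by rw [hσ, hτ]; exact_mod_cast card_le_card (box_subset N)
  have hτσ : τ ≤ Real.exp (Fintype.card ι) * σ := card_box_two N
  have h1 : Real.exp (-a) * σ ≤ ∑ x ∈ box ι N, ‖φ x‖ := by
    refine hφ.2.2.trans ((Complex.re_le_norm _).trans ((norm_sum_le _ _).trans
      (sum_le_sum fun x _ => ?_)))
    rw [norm_mul]; exact mul_le_of_le_one_left (norm_nonneg _) (hB x)
  have h2 : Real.exp (-a) ^ 2 * σ ≤ ∑ x ∈ box ι N, ‖φ x‖ ^ 2 := by
    have h3 := (pow_le_pow_left₀ (by positivity) h1 2).trans sq_sum_le_card_mul_sum_sq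
    rw [← hσ] at h3
    refine le_of_mul_le_mul_left ?_ hσ0
    nlinarith
  have h4 := hφ.2.1 (fun x => conj (cut N φ x)) (supp_cut N φ).conj
  rw [U_conj, ← hτ] at h4
  have h5 : ∑ x ∈ box ι N, conj (cut N φ x) * φ x = ((∑ x ∈ box ι N, ‖φ x‖ ^ 2 : ℝ) : ℂ) := by
    push_cast
    exact sum_congr rfl fun x hx => by rw [cut, if_pos hx, Complex.conj_mul']
  rw [h5, Complex.norm_real, Real.norm_of_nonneg (sum_nonneg fun _ _ => by positivity)] at h4
  have h6 : Real.exp (-(2 * a + Fintype.card ι)) * τ ≤ ∑ x ∈ box ι N, ‖φ x‖ ^ 2 := by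
    refine le_trans ?_ h2
    refine (mul_le_mul_of_nonneg_left hτσ (by positivity)).trans (le_of_eq ?_)
    rw [← mul_assoc, ← Real.exp_add, ← Real.exp_nat_mul]
    congr 2; push_cast; ring
  have h7 := (mul_le_mul (pow_le_pow_left₀ (by positivity) h6 (2 ^ s))
    (pow_le_pow_left₀ hσ0.le hστ (s + 1)) (by positivity) (by positivity)).trans h4
  rw [mul_pow, ← Real.exp_nat_mul] at h7
  refine le_of_mul_le_mul_left (le_trans (le_of_eq ?_) h7) (pow_pos hτ0 (2 ^ s))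
  push_cast; ring_nf

theorem exists_unit (z : ℂ) : ∃ c : ℂ, ‖c‖ = 1 ∧ c * z = ‖z‖ := by
  rcases eq_or_ne z 0 with rfl | hz
  · exact ⟨1, by simp, by simp⟩
  have hn : (‖z‖ : ℂ) ≠ 0 := by exact_mod_cast norm_ne_zero_iff.2 hz
  refine ⟨conj z / ‖z‖, by simp [hz], ?_⟩
  have := Complex.conj_mul' z
  field_simp
  rw [this]

/-- a normalised dual function lies in `KK` -/
theorem Dl_mem_KK {N r : ℕ} {a : ℝ} {H : Finset (Fin r → ι → ℤ)} (hH : H ⊆ Hs ι N r)
    {u : (Fin r → ι → ℤ) → (ι → ℤ) → ℂ} (hu : ∀ h, IsPh 2 (u h))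
    {f : (Fin r → Bool) → (ι → ℤ) → ℂ} (hf : ∀ w, Supp (f w) (box ι N)) (hb : ∀ w x, ‖f w x‖ ≤ 1)
    (w₀ : Fin r → Bool)
    (ha : Real.exp (-a) * (#(box ι N) : ℝ) ^ (r + 1) ≤ ‖Lam (box ι N) H u f‖) :
    ∃ c : ℂ, ‖c‖ = ((#(box ι (2 * N)) : ℝ) ^ r)⁻¹ ∧ (fun x => c * Dl (box ι N) H u f w₀ x) ∈
      KK N (r + 2) (Real.exp (-(a + r * Fintype.card ι))) (f w₀) := by
  set σ : ℝ := (#(box ι N) : ℝ) with hσ
  set τ : ℝ := (#(box ι (2 * N)) : ℝ) with hτ
  have hσ0 : 0 < σ := card_box_pos N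
  have hτ0 : 0 < τ := card_box_pos _
  have hστ : σ ≤ τ := by rw [hσ, hτ]; exact_mod_cast card_le_card (box_subset N)
  have hτσ : τ ≤ Real.exp (Fintype.card ι) * σ := card_box_two N
  obtain ⟨c, hc1, hc2⟩ := exists_unit (Lam (box ι N) H u f)
  have hn : ‖c * ((τ ^ r)⁻¹ : ℝ)‖ = (τ ^ r)⁻¹ := by
    rw [norm_mul, hc1, one_mul, Complex.norm_real, Real.norm_of_nonneg (by positivity)]
  have e : ∀ g, Supp g (box ι N) →
      ∑ x ∈ box ι N, g x * (c * ((τ ^ r)⁻¹ : ℝ) * Dl (box ι N) H u f w₀ x) =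
        c * ((τ ^ r)⁻¹ : ℝ) * Lam (box ι N) H u (Function.update f w₀ g) := fun g hg => by
    rw [← sum_mul_Dl H u f w₀ hg, mul_sum]
    exact sum_congr rfl fun x _ => by ring
  refine ⟨c * ((τ ^ r)⁻¹ : ℝ), hn, fun x _ => ?_, fun g hg => ?_, ?_⟩
  · rw [norm_mul, hn, inv_mul_le_iff₀ (by positivity), mul_one]
    refine (norm_Dl_le H hu w₀ (fun w _ => hb w) x).trans ?_
    have : (#H : ℝ) ≤ #(Hs ι N r) := by exact_mod_cast card_le_card hH
    rw [card_Hs] at this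
    exact this.trans (pow_le_pow_left₀ hσ0.le hστ r)
  · rw [e g hg, norm_mul, hn]
    have h1 := dual (S := box ι N) (T := box ι (2 * N))
      (by
        intro x hx
        obtain ⟨a, ha, b, hb, rfl⟩ := (@Finset.mem_sub _ (_) _ _ _ _).1 hx
        exact sub_mem_box ha hb)
      (card_le_card (box_subset N)) (f := Function.update f w₀ g)
      (fun w => by
        rcases eq_or_ne w w₀ with rfl | hw
        · rw [Function.update_self]; exact hg
        · rw [Function.update_of_ne hw]; exact hf w) w₀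
      (fun w hw x => by rw [Function.update_of_ne hw]; exact hb w x) (H := H)
      (hH.trans (Fintype.piFinset_subset _ _ fun _ => box_subset N)) hu
    rw [Function.update_self, ← hτ] at h1
    rw [mul_pow, mul_assoc, inv_pow, inv_mul_le_iff₀ (by positivity)]
    refine h1.trans (le_of_eq ?_)
    ring
  · rw [e _ (hf w₀), Function.update_eq_self, mul_right_comm, hc2, ← Complex.ofReal_mul,
      Complex.ofReal_re, ← div_eq_mul_inv, le_div_iff₀ (by positivity)]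
    refine le_trans ?_ ha
    have h1 := pow_le_pow_left₀ hτ0.le hτσ r
    refine (mul_le_mul_of_nonneg_left h1 (by positivity)).trans (le_of_eq ?_)
    rw [mul_pow, ← Real.exp_nat_mul, neg_add, Real.exp_add, Real.exp_neg (r * _)]
    field_simp
    ring

/-- the slots in `Ω` replaced -/
def mix (N : ℕ) {r : ℕ} (B : (Fin r → Bool) → (ι → ℤ) → ℝ) (Ω : Finset (Fin r → Bool))
    (ψ : (Fin r → Bool) → (ι → ℤ) → ℂ) (w : Fin r → Bool) : (ι → ℤ) → ℂ :=
  if w ∈ Ω then cut N fun x => conj (ψ w x) else fun x => (B w x : ℂ)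

/-- unconditional monotonicity in the complexity -/
def Mono (Nil : Cls ι) : Prop := ∀ s m m' f, Nil s m f → m ≤ m' → Nil s m' f

theorem lists {Nil : Cls ι} (hN : Basic Nil) (hM : Mono Nil) {r : ℕ} (hG : GI Nil (r + 1))
    (Ω : Finset (Fin r → Bool)) :
    ∃ C : ℕ, 1 ≤ C ∧ ∀ (m : ℝ) (N : ℕ) (B : (Fin r → Bool) → (ι → ℤ) → ℝ), 2 ≤ m →
      Real.exp (m ^ C) ≤ N → (∀ w, Wt N (B w)) →
      ∃ J : Finset ((ι → ℤ) → ℂ), (#J : ℝ) ≤ Real.exp (m ^ C) ∧
        (∀ ψ ∈ J, Nil (r + 1) (m ^ C) ψ) ∧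
        ∀ H ⊆ Hs ι N r, ∀ u : (Fin r → ι → ℤ) → (ι → ℤ) → ℂ, (∀ h, IsPh 2 (u h)) →
          Real.exp (-m) * (#(box ι N) : ℝ) ^ (r + 1) ≤
            ‖Lam (box ι N) H u fun w x => (B w x : ℂ)‖ →
          ∃ ψ : (Fin r → Bool) → (ι → ℤ) → ℂ, (∀ w ∈ Ω, ψ w ∈ J) ∧
            Real.exp (-m ^ C) * (#(box ι N) : ℝ) ^ (r + 1) ≤
              ‖Lam (box ι N) H u (mix N B Ω ψ)‖ := by
  classical
  induction Ω using Finset.induction_on with
  | empty =>
    refine ⟨1, le_rfl, fun m N B hm _ _ => ⟨∅, by simp [Real.exp_nonneg], by simp,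
      fun H _ u _ h => ⟨fun _ _ => 0, by simp, ?_⟩⟩⟩
    rw [pow_one]
    exact h
  | insert w₀ Ω hw₀ ih =>
    obtain ⟨C₁, hC₁, ih⟩ := ih
    obtain ⟨C₂, hG⟩ := hG
    let D : ℝ := Fintype.card ι
    let μ : ℝ → ℝ := fun m => 2 ^ (r + 2) * (2 * (m ^ C₁ + r * D) + D)
    obtain ⟨C, hC, hb⟩ := PB.exists_le (f := fun m => m ^ C₁ + 2 * μ m ^ C₂ + 8)
      (by simp only [μ]; fun_prop)
    refine ⟨C, hC, fun m N B hm hNl hB => ?_⟩
    have hD : 0 ≤ D := by positivity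
    have hm₁ : 2 ≤ m ^ C₁ := PB.two_le_pow hm hC₁
    have hμ : 2 ≤ μ m := by
      have h1 : (1 : ℝ) ≤ 2 ^ (r + 2) := one_le_pow₀ (by norm_num)
      have h2 : 0 ≤ (r : ℝ) * D := by positivity
      simp only [μ]; nlinarith
    have hμ₂ : 0 ≤ μ m ^ C₂ := by positivity
    have hb := hb m hm
    obtain ⟨J₁, hJ₁, hJ₁N, ih⟩ := ih m N B hm
      ((Real.exp_le_exp.2 (by linarith)).trans hNl) hB
    have hBw : ∀ w x, ‖(B w x : ℂ)‖ ≤ 1 := fun w x => by
      rw [Complex.norm_real, Real.norm_of_nonneg ((hB w).1 x).1]; exact ((hB w).1 x).2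
    obtain ⟨J₂, hJ₂, hJ₂N, hJ₂K⟩ := list_fun (box ι N)
      (K := KK N (r + 2) (Real.exp (-(m ^ C₁ + r * D))) fun x => (B w₀ x : ℂ))
      (fun ψ => Nil (r + 1) (μ m ^ C₂) ψ) (fun ψ => ψ) (convex_KK _ _ _ _) (fun φ hφ => hφ.1)
      (fun ψ hψ x _ => hN.bdd _ _ _ hψ x) (Real.exp_pos (-μ m ^ C₂))
      (fun φ hφ => by
        obtain ⟨ψ, h1, h2⟩ := hG (μ m) N (cut N φ) hμ
          ((Real.exp_le_exp.2 (by linarith)).trans hNl) (supp_cut N φ) (norm_cut_le hφ.1)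
          (U_ge_of_KK (hBw w₀) hφ)
        refine ⟨ψ, h1, h2.trans (le_of_eq ?_)⟩
        unfold ip
        congr 1
        exact sum_congr rfl fun x hx => by rw [cut, if_pos hx])
      (T := ⌈64 / Real.exp (-μ m ^ C₂) ^ 2⌉₊) (Nat.le_ceil _)
    refine ⟨J₁ ∪ J₂, ?_, fun ψ hψ => ?_, fun H hH u hu hL => ?_⟩
    · have h1 : (#(J₁ ∪ J₂) : ℝ) ≤ #J₁ + #J₂ := by exact_mod_cast card_union_le _ _
      have h2 : (#J₂ : ℝ) ≤ 64 / Real.exp (-μ m ^ C₂) ^ 2 + 1 :=
        le_trans (by exact_mod_cast hJ₂) (Nat.ceil_lt_add_one (by positivity)).le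
      have h3 : 64 / Real.exp (-μ m ^ C₂) ^ 2 = 64 * Real.exp (2 * μ m ^ C₂) := by
        rw [Real.exp_neg, inv_pow, div_inv_eq_mul, ← Real.exp_nat_mul]; norm_num
      have h4 : Real.exp (m ^ C₁ + 2 * μ m ^ C₂ + 8) ≤ Real.exp (m ^ C) := Real.exp_le_exp.2 hb
      rw [Real.exp_add, Real.exp_add] at h4
      have h5 : (1 : ℝ) ≤ Real.exp (m ^ C₁) := Real.one_le_exp (by positivity)
      have h6 : (1 : ℝ) ≤ Real.exp (2 * μ m ^ C₂) := Real.one_le_exp (by positivity)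
      have h7 : (66 : ℝ) ≤ Real.exp 8 := by
        have h8 := Real.add_one_le_exp (1 : ℝ)
        have h9 : Real.exp 8 = Real.exp 1 ^ 8 := by rw [← Real.exp_nat_mul]; norm_num
        have h10 : (2 : ℝ) ^ 8 ≤ Real.exp 1 ^ 8 := pow_le_pow_left₀ (by norm_num) (by linarith) 8
        rw [h9]; linarith
      have h8 : Real.exp (m ^ C₁) ≤ Real.exp (m ^ C₁) * Real.exp (2 * μ m ^ C₂) := by nlinarith
      have h9 : Real.exp (2 * μ m ^ C₂) ≤ Real.exp (m ^ C₁) * Real.exp (2 * μ m ^ C₂) := by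
        nlinarith
      nlinarith
    · rcases mem_union.1 hψ with h | h
      · exact hM _ _ _ _ (hJ₁N ψ h) (by linarith)
      · exact hM _ _ _ _ (hJ₂N ψ h) (by linarith)
    · obtain ⟨ψ, hψ, hL₁⟩ := ih H hH u hu hL
      have hf : ∀ w, Supp (mix N B Ω ψ w) (box ι N) := fun w => by
        unfold mix; split_ifs
        · exact supp_cut _ _
        · exact fun x hx => by simp [(hB w).2 x hx]
      have hfb : ∀ w x, ‖mix N B Ω ψ w x‖ ≤ 1 := fun w x => by
        unfold mix; split_ifs with h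
        · refine norm_cut_le (fun y _ => ?_) x
          rw [Complex.norm_conj]; exact hN.bdd _ _ _ (hJ₁N _ (hψ w h)) y
        · exact hBw w x
      obtain ⟨c, hc, hK⟩ := Dl_mem_KK hH hu hf hfb w₀ hL₁
      have e₀ : mix N B Ω ψ w₀ = fun x => (B w₀ x : ℂ) := if_neg hw₀
      rw [e₀] at hK
      obtain ⟨ψ₀, hψ₀, h2⟩ := hJ₂K _ hK
      refine ⟨Function.update ψ w₀ ψ₀, fun w hw => ?_, ?_⟩
      · rcases eq_or_ne w w₀ with rfl | h
        · rw [Function.update_self]; exact mem_union_right _ hψ₀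
        · rw [Function.update_of_ne h]
          exact mem_union_left _ (hψ w ((mem_insert.1 hw).resolve_left h))
      have e₁ : mix N B (insert w₀ Ω) (Function.update ψ w₀ ψ₀) =
          Function.update (mix N B Ω ψ) w₀ (cut N fun x => conj (ψ₀ x)) := by
        funext w
        rcases eq_or_ne w w₀ with rfl | h
        · simp [mix]
        · simp [mix, h]
      have e₂ : ip (box ι N) (fun x => c * Dl (box ι N) H u (mix N B Ω ψ) w₀ x) ψ₀ =
          c * Lam (box ι N) H u (mix N B (insert w₀ Ω) (Function.update ψ w₀ ψ₀)) := by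
        rw [e₁, ← sum_mul_Dl H u _ w₀ (supp_cut _ _), mul_sum, ip]
        exact sum_congr rfl fun x hx => by rw [cut, if_pos hx]; ring
      rw [e₂, norm_mul, hc, le_inv_mul_iff₀ (pow_pos (card_box_pos _) r)] at h2
      refine le_trans ?_ h2
      have hστ : (#(box ι N) : ℝ) ≤ #(box ι (2 * N)) := by
        exact_mod_cast card_le_card (box_subset N)
      have hσ0 := card_box_pos (ι := ι) N
      have h3 : Real.exp (-m ^ C) ≤ Real.exp (-μ m ^ C₂) / 4 := by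
        have h4 : Real.exp (-m ^ C) ≤ Real.exp (-μ m ^ C₂ - 3) := Real.exp_le_exp.2 (by linarith)
        rw [Real.exp_sub] at h4
        refine h4.trans (div_le_div_of_nonneg_left (Real.exp_nonneg _) (by norm_num) ?_)
        have := Real.add_one_le_exp (3 : ℝ); linarith
      rw [pow_succ, mul_left_comm]
      exact mul_le_mul (pow_le_pow_left₀ hσ0.le hστ r) (mul_le_mul_of_nonneg_right h3 hσ0.le)
        (by positivity) (by positivity)

/-- **Linearisation** -/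
theorem lin {Nil : Cls ι} (hN : Basic Nil) (hM : Mono Nil) {r : ℕ} (hG : GI Nil (r + 1)) :
    Lin Nil r := by
  classical
  obtain ⟨C₁, hC₁, h⟩ := lists hN hM hG univ
  obtain ⟨C, hC, hb⟩ := PB.exists_le (f := fun m => (2 * m) ^ C₁) (by fun_prop)
  refine ⟨C, fun m N B hm hNl hB => ?_⟩
  have hb := hb m hm
  obtain ⟨J, hJ, hJN, h⟩ := h (2 * m) N B (by linarith) ((Real.exp_le_exp.2 hb).trans hNl) hB
  let bad := (Hs ι N r).filter fun h => ∃ θ : ι → ℝ, Real.exp (-m) * #(box ι N) ≤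
    ‖∑ y ∈ box ι N, ((cub B h y : ℝ) : ℂ) * e (dot y θ)‖ ∧ ¬ Expl N (m ^ C) J h θ
  refine ⟨J, bad, hJ.trans (Real.exp_le_exp.2 hb), fun ψ hψ => hM _ _ _ _ (hJN ψ hψ) hb, ?_,
    fun h hh hb θ hθ => by_contra fun hc => hb (mem_filter.2 ⟨hh, θ, hθ, hc⟩)⟩
  by_contra hbad
  push Not at hbad
  have hσ0 := card_box_pos (ι := ι) N
  choose! θ hθ₁ hθ₂ using fun h (hh : h ∈ bad) => (mem_filter.1 hh).2
  choose c hc₁ hc₂ using fun h => exists_unit (∑ y ∈ box ι N, ((cub B h y : ℝ) : ℂ) * e (dot y (θ h)))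
  have hu : ∀ h, IsPh 2 fun y => c h * e (dot y (θ h)) := fun h =>
    ((isPh_const (hc₁ h)).succ).mul (isPh_char (fun _ => norm_e _) fun x y => by
      rw [add_dot, e_add])
  obtain ⟨ψ, hψ, hL⟩ := h bad (filter_subset _ _) _ hu (by
    have e₁ : Lam (box ι N) bad (fun h y => c h * e (dot y (θ h))) (fun w x => (B w x : ℂ)) =
        ((∑ h ∈ bad, ‖∑ y ∈ box ι N, ((cub B h y : ℝ) : ℂ) * e (dot y (θ h))‖ : ℝ) : ℂ) := by
      rw [Complex.ofReal_sum]
      refine sum_congr rfl fun h _ => ?_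
      rw [← hc₂, mul_sum]
      refine sum_congr rfl fun y _ => ?_
      simp only [cg, cub, Complex.ofReal_prod]; ring
    rw [e₁, Complex.norm_real, Real.norm_of_nonneg (sum_nonneg fun _ _ => norm_nonneg _)]
    refine le_trans ?_ (card_nsmul_le_sum _ _ _ hθ₁)
    rw [nsmul_eq_mul]
    refine le_trans (le_of_eq ?_) (mul_le_mul_of_nonneg_right hbad.le (by positivity))
    rw [two_mul, neg_add, Real.exp_add]; ring)
  have hbc : (#bad : ℝ) ≤ (#(box ι N) : ℝ) ^ r := by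
    rw [← card_Hs]; exact_mod_cast card_le_card (filter_subset _ _)
  have hne : bad.Nonempty := by
    rw [← card_pos]
    have : (0 : ℝ) < #bad := lt_of_le_of_lt (by positivity) hbad
    exact_mod_cast this
  obtain ⟨h, hh, h1⟩ := exists_le_of_sum_le hne
    (f := fun _ => Real.exp (-m ^ C) * (#(box ι N) : ℝ))
    (g := fun h => ‖∑ y ∈ box ι N, cg (mix N B univ ψ) h y * (c h * e (dot y (θ h)))‖) (by
      refine le_trans ?_ (hL.trans (norm_sum_le _ _))
      rw [sum_const, nsmul_eq_mul, pow_succ, mul_left_comm]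
      exact mul_le_mul (Real.exp_le_exp.2 (by linarith))
        (mul_le_mul_of_nonneg_right hbc hσ0.le) (by positivity) (by positivity))
  refine hθ₂ h hh ⟨ψ, fun w => hψ w (mem_univ w), h1.trans (le_of_eq ?_)⟩
  have e₂ : ∑ y ∈ box ι N, cg (mix N B univ ψ) h y * (c h * e (dot y (θ h))) =
      c h * conj (∑ y ∈ (box ι N).filter (fun y => ∀ w, vtx y h w ∈ box ι N),
        (∏ w, ψ w (vtx y h w)) * e (-dot y (θ h))) := by
    rw [map_sum, mul_sum, sum_filter]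
    refine sum_congr rfl fun y _ => ?_
    split_ifs with hy
    · rw [map_mul, map_prod, e_neg, Complex.conj_conj, cg,
        prod_congr rfl fun w _ => show mix N B univ ψ w (vtx y h w) = conj (ψ w (vtx y h w)) by
          simp [mix, cut, hy w]]
      ring
    · push Not at hy
      obtain ⟨w, hw⟩ := hy
      rw [cg, prod_eq_zero (mem_univ w) (by simp [mix, cut, hw]), zero_mul]
  rw [e₂, norm_mul, hc₁, one_mul, Complex.norm_conj]

end Crest.Agent.T49.Ginc
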