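import Crest.Agent.T49.LrA_84
import Crest.Agent.T49.GowConv_73
import Crest.Agent.T49.TwTri_51
import Crest.Agent.T49.FrDef_99
import Crest.Agent.T49.TorC_46

/-!
# Row 49 (helper84): the converse of `LT` for weighted sums over a cell, up to a cheap phase
-/

set_option autoImplicit false
set_option linter.unusedSectionVars false

noncomputable section

namespace Crest.Agent.T49.Lr

open Finset MvPolynomial
open Crest.Agent.T49.Nil Crest.Agent.T49.Nil.ND Crest.Agent.T49.Gf Crest.Agent.T49.Tor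
open Crest.Agent.T49.Tw (Pl nrm DegLe)

/-- local approximation along a torus map: one local model and one character carry a correlation -/
theorem exists_char {α κ : Type} [Fintype κ] [DecidableEq κ] {w u : α → ℝ} (hw0 : ∀ y, 0 ≤ w y)
    (hw : Summable w) (hu0 : ∀ y, 0 ≤ u y) (hu : Summable u) (t : α → κ → ℝ) (A : α → Prop)
    (hA : ∀ y, ¬ A y → w y ≤ u y) {a G : α → ℂ} {G' : α → α → ℂ} (ha : ∀ y, ‖a y‖ ≤ 1)
    (hG : ∀ y, ‖G y‖ ≤ 1) (hG' : ∀ y0, A y0 → ∀ y, ‖G' y0 y‖ ≤ 1) {Q K : ℕ} (hQ : 2 ≤ Q)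
    (hK : 0 < K) {ε δ : ℝ} (hε : 0 ≤ ε) (hδ : 0 < δ)
    (hcl : ∀ y0 y, A y0 → A y → (∀ i, Q * nz (t y i - t y0 i) < 2) → ‖G y - G' y0 y‖ ≤ ε)
    (herr : (ε + (Q : ℝ) ^ Fintype.card κ * (Fintype.card κ * Q * Fintype.card κ / (2 * √K))) *
      ∑' y, w y + 2 * ∑' y, u y ≤ δ / 2)
    (h : δ ≤ ‖∑' y, w y * (a y * G y)‖) :
    ∃ y0, A y0 ∧ ∃ ξ ∈ cube κ K, δ / 2 / ((Q : ℝ) ^ Fintype.card κ * (2 * K + 1) ^ Fintype.card κ) ≤
      ‖∑' y, w y * (a y * e (dot ξ (t y)) * G' y0 y)‖ := by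
  classical
  set E : ℝ := Fintype.card κ * Q * Fintype.card κ / (2 * √K) with hE
  have hE0 : 0 ≤ E := by positivity
  have hW0 : 0 ≤ ∑' y, w y := tsum_nonneg hw0
  have hne : ∃ y, A y := by
    by_contra hn
    have h1 : ‖∑' y, w y * (a y * G y)‖ ≤ ∑' y, u y :=
      tsum_of_norm_bounded hu.hasSum fun y => by
        rw [norm_mul, Complex.norm_real, Real.norm_of_nonneg (hw0 y), norm_mul]
        exact (mul_le_of_le_one_right (hw0 y) (mul_le_one₀ (ha y) (norm_nonneg _) (hG y))).trans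
          (hA y fun h => hn ⟨y, h⟩)
    have h2 : 0 ≤ (ε + (Q : ℝ) ^ Fintype.card κ * E) * ∑' y, w y := by positivity
    linarith
  have hρ : ∀ b : κ → Fin Q, ∃ y0, A y0 ∧ ∀ y, A y → pu Q b (t y) ≠ 0 → pu Q b (t y0) ≠ 0 :=
    fun b => by
      by_cases hb : ∃ y, A y ∧ pu Q b (t y) ≠ 0
      · obtain ⟨y, h1, h2⟩ := hb
        exact ⟨y, h1, fun _ _ _ => h2⟩
      · exact ⟨hne.choose, hne.choose_spec, fun y h1 h2 => absurd ⟨y, h1, h2⟩ hb⟩
  choose ρ hρA hρ using hρ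
  have htr : ∀ b : κ → Fin Q, ∃ c : (κ → ℤ) → ℂ, (∀ ξ, ‖c ξ‖ ≤ 1) ∧
      ∀ x, ‖(pu Q b x : ℂ) - ∑ ξ ∈ cube κ K, c ξ * e (dot ξ x)‖ ≤ E := fun b => by
    obtain ⟨c, h1, -, h2⟩ := exists_trig (f := fun x => (pu Q b x : ℂ)) (M := Fintype.card κ * Q)
      (fun x n => congrArg _ (per_pu Q b x n)) (by positivity)
      (fun s t => by rw [← Complex.ofReal_sub, Complex.norm_real]; exact pu_lip Q b s t) (B := 1)
      (fun x => by rw [Complex.norm_real, Real.norm_of_nonneg (pu_nonneg _ _ _)]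
                   exact pu_le_one _ _ _) hK
    exact ⟨c, h1, h2⟩
  choose c hc1 hc using htr
  let J := (univ : Finset (κ → Fin Q)) ×ˢ cube κ K
  let f : (κ → Fin Q) × (κ → ℤ) → α → ℂ := fun p y =>
    w y * (a y * e (dot p.2 (t y)) * G' (ρ p.1) y)
  have hsum : ∀ g : α → ℂ, (∀ y, ‖g y‖ ≤ 1) → Summable fun y => (w y : ℂ) * g y := fun g hg =>
    Summable.of_norm_bounded hw fun y => by
      rw [norm_mul, Complex.norm_real, Real.norm_of_nonneg (hw0 y)]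
      exact mul_le_of_le_one_right (hw0 y) (hg y)
  have hf : ∀ p, Summable (f p) := fun p => hsum _ fun y => by
    rw [norm_mul, norm_mul, norm_e, mul_one]
    exact mul_le_one₀ (ha y) (norm_nonneg _) (hG' _ (hρA _) y)
  have hm : Summable fun y => (w y : ℂ) * (a y * G y) := hsum _ fun y => by
    rw [norm_mul]; exact mul_le_one₀ (ha y) (norm_nonneg _) (hG y)
  have hpt : ∀ y, ‖w y * (a y * G y) - ∑ p ∈ J, c p.1 p.2 * f p y‖ ≤
      (ε + (Q : ℝ) ^ Fintype.card κ * E) * w y + 2 * u y := fun y => by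
    have e1 : w y * (a y * G y) - ∑ p ∈ J, c p.1 p.2 * f p y = w y * (a y *
        (∑ b, (pu Q b (t y) : ℂ) * (G y - G' (ρ b) y) +
          ∑ b, ((pu Q b (t y) : ℂ) - ∑ ξ ∈ cube κ K, c b ξ * e (dot ξ (t y))) * G' (ρ b) y)) := by
      have e2 : ∑ b : κ → Fin Q, (pu Q b (t y) : ℂ) = 1 := by exact_mod_cast sum_pu hQ (t y)
      rw [← sum_add_distrib, sum_product]
      simp only [mul_sub, sub_mul, sub_add_sub_cancel, sum_sub_distrib, ← sum_mul, e2, one_mul, f]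
      simp only [mul_sum, sum_mul]
      congr 1
      exact sum_congr rfl fun b _ => sum_congr rfl fun ξ _ => by ring
    have b1 : ∀ x : ℝ, (∀ b, pu Q b (t y) ≠ 0 → ‖G y - G' (ρ b) y‖ ≤ x) →
        ‖∑ b, (pu Q b (t y) : ℂ) * (G y - G' (ρ b) y)‖ ≤ x := fun x hx => by
      refine (norm_sum_le _ _).trans ?_
      rw [← one_mul x, ← sum_pu hQ (t y), sum_mul]
      refine sum_le_sum fun b _ => ?_
      rw [norm_mul, Complex.norm_real, Real.norm_of_nonneg (pu_nonneg _ _ _)]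
      by_cases hb : pu Q b (t y) = 0
      · rw [hb, zero_mul, zero_mul]
      · exact mul_le_mul_of_nonneg_left (hx b hb) (pu_nonneg _ _ _)
    have b2 : ‖∑ b, ((pu Q b (t y) : ℂ) - ∑ ξ ∈ cube κ K, c b ξ * e (dot ξ (t y))) * G' (ρ b) y‖ ≤
        (Q : ℝ) ^ Fintype.card κ * E := by
      refine (norm_sum_le _ _).trans ((sum_le_card_nsmul _ _ E fun b _ => ?_).trans (by simp))
      rw [norm_mul]
      exact (mul_le_of_le_one_right (norm_nonneg _) (hG' _ (hρA b) y)).trans (hc b _)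
    rw [e1, norm_mul, Complex.norm_real, Real.norm_of_nonneg (hw0 y), norm_mul]
    refine (mul_le_mul_of_nonneg_left ((mul_le_of_le_one_left (norm_nonneg _) (ha y)).trans
      (norm_add_le _ _)) (hw0 y)).trans ?_
    have := hw0 y
    have := hu0 y
    by_cases hy : A y
    · have b3 := b1 ε fun b hb => hcl _ _ (hρA b) hy (nz_sub_lt_of_pu hb (hρ b y hy hb))
      nlinarith [mul_le_mul_of_nonneg_left (add_le_add b3 b2) (hw0 y)]
    · have b3 := b1 2 fun b _ => (norm_sub_le _ _).trans (by linarith [hG y, hG' _ (hρA b) y])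
      nlinarith [mul_le_mul_of_nonneg_left (add_le_add b3 b2) (hw0 y), hA y hy, mul_nonneg hε this]
  have h1 := tsum_of_norm_bounded ((hw.hasSum.mul_left (ε + (Q : ℝ) ^ Fintype.card κ * E)).add
    (hu.hasSum.mul_left 2)) hpt
  rw [hm.tsum_sub (summable_sum fun p _ => (hf p).mul_left _),
    Summable.tsum_finsetSum fun p _ => (hf p).mul_left _] at h1
  have h2 : δ / 2 ≤ ‖∑ p ∈ J, ∑' y, c p.1 p.2 * f p y‖ := by
    have := norm_sub_norm_le (∑' y, (w y : ℂ) * (a y * G y)) (∑ p ∈ J, ∑' y, c p.1 p.2 * f p y)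
    linarith
  obtain ⟨p, hp, h3⟩ := Gow.exists_piece J _ (by positivity)
    (M := (Q : ℝ) ^ Fintype.card κ * (2 * K + 1) ^ Fintype.card κ)
    (by simp [J, card_cube]) h2
  refine ⟨ρ p.1, hρA _, p.2, (mem_product.1 hp).2, h3.trans ?_⟩
  rw [tsum_mul_left, norm_mul]
  exact mul_le_of_le_one_left (norm_nonneg _) (hc1 _ _)

theorem dvd_of_nz {q Q : ℕ} (hq : 1 ≤ q) (hQ : 2 * q ≤ Q) {y y' : ℤ}
    (h : Q * nz ((y : ℝ) / q - y' / q) < 2) : (q : ℤ) ∣ y - y' := by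
  have hq' : (0 : ℝ) < q := by exact_mod_cast hq
  have hQ' : (2 : ℝ) * q ≤ Q := by exact_mod_cast hQ
  obtain ⟨n, hn⟩ := exists_int_of_nz ((y : ℝ) / q - y' / q)
  rw [← hn] at h
  have h1 : |((y - y' - q * n : ℤ) : ℝ)| < 1 := by
    have e : ((y - y' - q * n : ℤ) : ℝ) = q * ((y : ℝ) / q - y' / q - n) := by
      push_cast; field_simp
    rw [e, abs_mul, abs_of_pos hq']
    nlinarith [abs_nonneg ((y : ℝ) / q - y' / q - n)]
  have h2 : y - y' - q * n = 0 := Int.abs_lt_one_iff.1 (by exact_mod_cast h1)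
  exact ⟨n, by linarith⟩

/-- the cheap phase `ξ · θ(y) / (8 m) + n · y / q` -/
def chp {σ : Type} [Fintype σ] (th : σ → Pl σ) (m : ℝ) (q : ℕ) (ξ n : σ → ℤ) (y : σ → ℤ) : ℝ :=
  ∑ c, (ξ c : ℝ) * (Tw.ev y (th c) / (8 * m)) + ∑ c, (n c : ℝ) * ((y c : ℝ) / q)

/-- **converse of `LT` on a cell**: `N', q', K` depend on `m, N, H, q` only -/
theorem convF {S : ℕ} (hS : 1 ≤ S) : ∃ C : ℕ, 1 ≤ C ∧ ∀ (m : ℝ), 2 ≤ m → ∀ (ι : Type) [Fintype ι]
    (N : ND ι) (H : ℕ → Submodule ℝ N.L) (q : ℕ), (Fintype.card ι : ℝ) ≤ m →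
    N.Good S (Real.exp m) → N.GrSub H → (∀ i, N.RatS (Real.exp m) (H i)) → 1 ≤ q →
    (q : ℝ) ≤ Real.exp m →
    ∃ (r : ℕ) (N' : ND (Fin r)) (q' K : ℕ), r ≤ Fintype.card ι ∧ N'.Good S (Real.exp (m ^ C)) ∧
      1 ≤ q' ∧ (q' : ℝ) ≤ Real.exp (m ^ C) ∧ (K : ℝ) ≤ Real.exp (m ^ C) ∧
      ∀ (σ : Type) [Fintype σ] (lev : σ → ℕ) (th : σ → Pl σ) (s : ℕ) (η : ι → ℤ) (F : N.L → ℂ)
        (X : N.PS σ) (p : N.PS σ → Prop) (w : (σ → ℤ) → ℝ) (a : (σ → ℤ) → ℂ) (W : ℝ),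
        (∀ c, 0 < lev c) → (Fintype.card σ : ℝ) ≤ m →
        N.NChar S (s + 1) (Real.exp m) η F → (∀ x ∈ H (s + 1), N.fn η x = 0) →
        WF N lev th S (Real.exp m) q H X p → 0 < W → (∀ y, 0 ≤ w y) →
        (Summable fun y => w y * Real.exp (∑ c, Tw.ev y (th c) ^ 2)) →
        ∑' y, w y * Real.exp (∑ c, Tw.ev y (th c) ^ 2) ≤ Real.exp m * W → (∀ y, ‖a y‖ ≤ 1) →
        Real.exp (-m) * W ≤ ‖∑' y, w y * (a y * F (N.evZ y X))‖ →
        ∃ P' ∈ wcf lev N'.F, ∃ F' : N'.L → ℂ, N'.NFn S s (Real.exp (m ^ C)) F' ∧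
          ∃ ξ n : σ → ℤ, (∀ c, |ξ c| ≤ K ∧ |n c| ≤ K) ∧ Real.exp (-m ^ C) * W ≤
            ‖∑' y, w y * (a y * e (chp th m q' ξ n y) * F' (N'.evZ y P'))‖ := by
  classical
  obtain ⟨C1, -, hC1⟩ := cp hS
  obtain ⟨C2, hC2⟩ : ∃ C2 : ℕ, ∀ (m : ℝ) (d Q : ℕ), 2 ≤ m → (d : ℝ) ≤ 2 * m →
      (Q : ℝ) ≤ 128 * m * Real.exp (m ^ C1) * Real.exp m ^ 2 + 1 →
      ((Q : ℝ) ^ d * (d * Q * d) * (4 * Real.exp m ^ 2)) ^ 2 ≤ Real.exp (m ^ C2) := by qp
  obtain ⟨C, hC0, hC⟩ : ∃ C : ℕ, 1 ≤ C ∧ ∀ (m : ℝ) (d Q K : ℕ), 2 ≤ m → (d : ℝ) ≤ 2 * m →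
      (Q : ℝ) ≤ 128 * m * Real.exp (m ^ C1) * Real.exp m ^ 2 + 1 →
      (K : ℝ) ≤ Real.exp (m ^ C2) + 1 → 0 < (Q : ℝ) ^ d * (2 * K + 1) ^ d →
      m ^ C1 ≤ m ^ C ∧ (K : ℝ) ≤ Real.exp (m ^ C) ∧
      Real.exp (-m ^ C) ≤ Real.exp (-m) / 2 / ((Q : ℝ) ^ d * (2 * K + 1) ^ d) := by
    have : ∀ᶠ C : ℕ in Filter.atTop, ∀ (m : ℝ) (d Q K : ℕ), 2 ≤ m → (d : ℝ) ≤ 2 * m →
      (Q : ℝ) ≤ 128 * m * Real.exp (m ^ C1) * Real.exp m ^ 2 + 1 →
      (K : ℝ) ≤ Real.exp (m ^ C2) + 1 → 0 < (Q : ℝ) ^ d * (2 * K + 1) ^ d →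
      m ^ C1 ≤ m ^ C ∧ (K : ℝ) ≤ Real.exp (m ^ C) ∧
      Real.exp (-m ^ C) ≤ Real.exp (-m) / 2 / ((Q : ℝ) ^ d * (2 * K + 1) ^ d) := by qp
    exact ((Filter.eventually_ge_atTop 1).and this).exists
  refine ⟨C, hC0, fun m hm ι _ N H q hι hG hH hR hq1 hq2 => ?_⟩
  obtain ⟨r, N', q', hr, hN', hq1', hq2', hcp⟩ := hC1 m hm ι N H q hι hG hH hR hq1 hq2
  set E := Real.exp (m ^ C1) with hE
  set Q := ⌈128 * m * E * Real.exp m ^ 2⌉₊ with hQ
  set K := ⌈Real.exp (m ^ C2)⌉₊ with hK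
  have he : 2 * m ≤ Real.exp m := by
    have h1 := Real.add_one_le_exp (m / 2 - 1)
    have h2 : Real.exp m = Real.exp (m / 2 - 1) ^ 2 * Real.exp 1 ^ 2 := by
      rw [← mul_pow, ← Real.exp_add, ← Real.exp_nat_mul]; congr 1; push_cast; ring
    have h3 := Real.add_one_le_exp (1 : ℝ)
    have h4 : (m / 2) ^ 2 ≤ Real.exp (m / 2 - 1) ^ 2 := by gcongr; linarith
    have h5 : (2 : ℝ) ^ 2 ≤ Real.exp 1 ^ 2 := by gcongr; linarith
    rw [h2]
    nlinarith [mul_le_mul h4 h5 (by norm_num) (by positivity)]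
  have hE1 : 1 ≤ E := Real.one_le_exp (by positivity)
  have hQ1 : 128 * m * E * Real.exp m ^ 2 ≤ Q := Nat.le_ceil _
  have he2 : 1 ≤ Real.exp m ^ 2 := one_le_pow₀ (by linarith)
  have hQ2 : 2 * q' ≤ Q := by
    have : (2 : ℝ) * q' ≤ Q := by
      refine le_trans ?_ hQ1
      calc (2 : ℝ) * q' ≤ 128 * m * E * 1 := by nlinarith
        _ ≤ _ := by gcongr
    exact_mod_cast this
  have hQ0 : (0 : ℝ) < Q := by exact_mod_cast (by omega : 0 < Q)
  have hK1 : Real.exp (m ^ C2) ≤ K := Nat.le_ceil _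
  have hK0 : 0 < K := Nat.ceil_pos.2 (Real.exp_pos _)
  have hQ3 : (Q : ℝ) ≤ 128 * m * E * Real.exp m ^ 2 + 1 := (Nat.ceil_lt_add_one (by positivity)).le
  have hK3 : (K : ℝ) ≤ Real.exp (m ^ C2) + 1 := (Nat.ceil_lt_add_one (by positivity)).le
  obtain ⟨c1, c2, -⟩ := hC m 0 Q K hm (by push_cast; linarith) hQ3 hK3 (by positivity)
  have c3 := Real.exp_le_exp.2 c1
  refine ⟨r, N', q', K, hr, hN'.mono c3, hq1', hq2'.trans c3, c2,
    fun σ _ lev th s η F X p w a W hl hσ hF hη hX hW hw0 hws hwb ha hb => ?_⟩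
  obtain ⟨P', hP', F', hF'⟩ := hcp σ lev th s η F X p hl hσ hF hη hX
  have hd : (Fintype.card (σ ⊕ σ) : ℝ) ≤ 2 * m := by rw [Fintype.card_sum]; push_cast; linarith
  obtain ⟨-, -, c4⟩ := hC m _ Q K hm hd hQ3 hK3 (by positivity)
  have c5 := hC2 m _ Q hm hd hQ3
  have hle : ∀ y, w y ≤ w y * Real.exp (∑ c, Tw.ev y (th c) ^ 2) := fun y =>
    le_mul_of_one_le_right (hw0 y) (Real.one_le_exp (by positivity))
  have hw : Summable w := Summable.of_nonneg_of_le hw0 hle hws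
  have hM : ∑' y, w y ≤ Real.exp m * W := (hw.tsum_le_tsum hle hws).trans hwb
  have hA : ∀ {y : σ → ℤ}, (∀ c, |Tw.ev y (th c)| ≤ 2 * m) → ∀ c, |Tw.ev y (th c)| ≤ Real.exp m :=
    fun hy c => (hy c).trans he
  have hee : Real.exp (-m) * Real.exp m = 1 := by rw [← Real.exp_add]; simp
  obtain ⟨y0, hy0, ξ, hξ, h1⟩ := exists_char (κ := σ ⊕ σ) hw0 hw
    (u := fun y => Real.exp (-(2 * m) ^ 2) * (w y * Real.exp (∑ c, Tw.ev y (th c) ^ 2)))
    (fun y => by have := hw0 y; positivity) (hws.mul_left _)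
    (fun y => Sum.elim (fun c => Tw.ev y (th c) / (8 * m)) fun c => (y c : ℝ) / q')
    (fun y => ∀ c, |Tw.ev y (th c)| ≤ 2 * m) (fun y hy => by
      push Not at hy
      obtain ⟨c, hc⟩ := hy
      rw [mul_left_comm, ← Real.exp_add]
      refine le_mul_of_one_le_right (hw0 y) (Real.one_le_exp ?_)
      have h1 := single_le_sum (f := fun c => Tw.ev y (th c) ^ 2) (fun _ _ => sq_nonneg _)
        (mem_univ c)
      have h2 : (2 * m) ^ 2 ≤ |Tw.ev y (th c)| ^ 2 := by gcongr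
      rw [sq_abs] at h2
      linarith) ha (G := fun y => F (N.evZ y X)) (G' := fun y0 y => F' y0 (N'.evZ y P'))
    (fun y => hF.bdd _) (fun y0 hy0 y => (hF' y0 (hA hy0)).1.bdd _) (Q := Q) (by omega) hK0
    (ε := E * (16 * m / Q)) (δ := Real.exp (-m) * W) (by positivity) (by positivity)
    (fun y0 y hy0 hy hc => (hF' y0 (hA hy0)).2 y _ (by positivity) (hA hy) (fun c => by
      have h1 := hc (Sum.inl c)
      simp only [Sum.elim_inl] at h1
      have h2 : |Tw.ev y (th c) - Tw.ev y0 (th c)| ≤ 4 * m :=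
        (abs_sub _ _).trans (by linarith [hy c, hy0 c])
      have h3 : |Tw.ev y (th c) / (8 * m) - Tw.ev y0 (th c) / (8 * m)| =
          |Tw.ev y (th c) - Tw.ev y0 (th c)| / (8 * m) := by
        rw [← sub_div, abs_div, abs_of_pos (by positivity : 0 < 8 * m)]
      rw [nz_eq_abs (by rw [h3, div_le_iff₀ (by positivity)]; linarith), h3, ← mul_div_assoc,
        div_lt_iff₀ (by positivity)] at h1
      rw [le_div_iff₀ hQ0]
      linarith) fun c => dvd_of_nz hq1' hQ2 (hc (Sum.inr c)))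
    (by
      rw [tsum_mul_left]
      have e1 : E * (16 * m / Q) ≤ Real.exp (-m) * Real.exp (-m) / 8 := by
        rw [← mul_div_assoc, div_le_div_iff₀ hQ0 (by norm_num)]
        calc E * (16 * m) * 8 = Real.exp (-m) * Real.exp (-m) * (128 * m * E * Real.exp m ^ 2) := by
              linear_combination (-(128 * m * E) * (1 + Real.exp (-m) * Real.exp m)) * hee
          _ ≤ _ := by gcongr
      have e2 : (Q : ℝ) ^ Fintype.card (σ ⊕ σ) * (Fintype.card (σ ⊕ σ) * Q * Fintype.card (σ ⊕ σ) /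
          (2 * √K)) ≤ Real.exp (-m) * Real.exp (-m) / 8 := by
        have e3 := Real.le_sqrt_of_sq_le (c5.trans hK1)
        rw [← mul_div_assoc, div_le_div_iff₀ (by have : (0 : ℝ) < K := by exact_mod_cast hK0
                                                 positivity) (by norm_num)]
        calc _ = Real.exp (-m) * Real.exp (-m) * (2 * ((Q : ℝ) ^ Fintype.card (σ ⊕ σ) *
              (Fintype.card (σ ⊕ σ) * Q * Fintype.card (σ ⊕ σ)) * (4 * Real.exp m ^ 2))) := by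
              linear_combination (-(8 * (Q : ℝ) ^ Fintype.card (σ ⊕ σ) * (Fintype.card (σ ⊕ σ) * Q *
                Fintype.card (σ ⊕ σ))) * (1 + Real.exp (-m) * Real.exp m)) * hee
          _ ≤ _ := by gcongr
      have e3 : Real.exp (-(2 * m) ^ 2) ≤ Real.exp (-m) * Real.exp (-m) / 8 := by
        rw [le_div_iff₀ (by norm_num), ← Real.exp_add]
        have e4 : (8 : ℝ) ≤ Real.exp 7 := by linarith [Real.add_one_le_exp (7 : ℝ)]
        refine (mul_le_mul_of_nonneg_left e4 (Real.exp_pos _).le).trans ?_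
        rw [← Real.exp_add]
        exact Real.exp_le_exp.2 (by nlinarith)
      have e4 := mul_le_mul (add_le_add e1 e2) hM (tsum_nonneg hw0) (by positivity)
      have e5 := mul_le_mul e3 hwb (tsum_nonneg fun y => by have := hw0 y; positivity)
        (by positivity)
      have e6 : Real.exp (-m) * Real.exp (-m) / 8 * (Real.exp m * W) = Real.exp (-m) * W / 8 := by
        linear_combination (Real.exp (-m) * W / 8) * hee
      linarith) hb
  refine ⟨P', hP', F' y0, (hF' y0 (hA hy0)).1.mono c3, fun c => ξ (Sum.inl c),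
    fun c => ξ (Sum.inr c), fun c => ⟨mem_cube.1 hξ _, mem_cube.1 hξ _⟩, le_trans ?_
      (h1.trans (le_of_eq ?_))⟩
  · refine (mul_le_mul_of_nonneg_right c4 hW.le).trans (le_of_eq ?_)
    ring
  · simp only [dot, chp, Fintype.sum_sum_type, Sum.elim_inl, Sum.elim_inr]

/-- the weight hypothesis of `convF` on a cell follows from the mass of the twice wider cell -/
theorem wgt_exp_le {σ : Type} [Fintype σ] (T : Tw.Cell σ) (y : σ → ℤ) :
    T.wgt y * Real.exp (∑ c, Tw.ev y (T.th c) ^ 2) ≤ (Gl.scl T (1 / 2) (by norm_num)).wgt y := by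
  have h1 : ∀ c, Tw.ev y ((Gl.scl T (1 / 2) (by norm_num)).th c) = 1 / 2 * Tw.ev y (T.th c) :=
    fun c => by simp [Tw.Tri.th, Gl.scl]; ring
  simp only [Tw.Tri.wgt, h1, mul_pow, ← mul_sum]
  rw [← Real.exp_add]
  refine Real.exp_le_exp.2 ?_
  have h2 : 0 ≤ ∑ c, Tw.ev y (T.th c) ^ 2 := by positivity
  nlinarith [Real.pi_gt_three]

theorem summable_wgt_exp {σ : Type} [Fintype σ] (T : Tw.Cell σ) :
    Summable fun y => T.wgt y * Real.exp (∑ c, Tw.ev y (T.th c) ^ 2) :=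
  Summable.of_nonneg_of_le (fun y => mul_nonneg (T.wgt_nonneg y) (Real.exp_pos _).le)
    (wgt_exp_le T) (Tw.Tri.summable_wgt _)

theorem tsum_wgt_exp_le {σ : Type} [Fintype σ] (T : Tw.Cell σ) :
    ∑' y, T.wgt y * Real.exp (∑ c, Tw.ev y (T.th c) ^ 2) ≤ (Gl.scl T (1 / 2) (by norm_num)).M :=
  (summable_wgt_exp T).tsum_le_tsum (wgt_exp_le T) (Tw.Tri.summable_wgt _)

end Crest.Agent.T49.Lr
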