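import Crest.Agent.T49.GonLine_60

/-! # Row 49 (helper60): the abstract form of the leaf `GN` (one direction), and fibres -/

set_option autoImplicit false

open Finset

namespace Crest.Agent.T49.Gon

section Abs

variable {V : Type*} [AddCommGroup V] [Module ℝ V]

/-- a family of "balls" of a seminorm -/
structure Balls (Sm : ℝ → V → Prop) : Prop where
  mono : ∀ {M M' : ℝ} {x : V}, Sm M x → M ≤ M' → Sm M' x
  add : ∀ {M M' : ℝ} {x y : V}, Sm M x → Sm M' y → Sm (M + M') (x + y)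
  smul : ∀ (r : ℝ) {M : ℝ} {x : V}, Sm M x → Sm (|r| * M) (r • x)
  ex : ∀ x, ∃ M, Sm M x
  nonneg : ∀ {M : ℝ} {x : V}, Sm M x → 0 ≤ M

theorem Balls.neg {Sm : ℝ → V → Prop} (h : Balls Sm) {M : ℝ} {x : V} (hx : Sm M x) : Sm M (-x) := by
  simpa using h.smul (-1) hx

theorem Balls.zero {Sm : ℝ → V → Prop} (h : Balls Sm) : Sm 0 0 := by
  obtain ⟨M, hM⟩ := h.ex 0
  simpa using h.smul 0 hM

/-- the sizes of the representatives of `x` modulo `SH` -/
def reps (Sm : ℝ → V → Prop) (PM SH : Submodule ℝ V) (x : V) : Set ℝ :=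
  {M | ∃ a ∈ PM, Sm M a ∧ x - a ∈ SH}

/-- the quotient seminorm -/
noncomputable def qn (Sm : ℝ → V → Prop) (PM SH : Submodule ℝ V) (x : V) : ℝ :=
  sInf (reps Sm PM SH x)

variable {Sm : ℝ → V → Prop} {PM SH : Submodule ℝ V}

theorem reps_bdd (h : Balls Sm) (x : V) : BddBelow (reps Sm PM SH x) :=
  ⟨0, fun _ ⟨_, _, ha, _⟩ => h.nonneg ha⟩

theorem reps_ne (h : Balls Sm) {x : V} (hx : x ∈ PM) : (reps Sm PM SH x).Nonempty := by
  obtain ⟨M, hM⟩ := h.ex x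
  exact ⟨M, x, hx, hM, by simp⟩

theorem qn_le (h : Balls Sm) {x a : V} {M : ℝ} (ha : a ∈ PM) (hM : Sm M a) (hx : x - a ∈ SH) :
    qn Sm PM SH x ≤ M := csInf_le (reps_bdd h x) ⟨a, ha, hM, hx⟩

theorem exists_of_qn_lt (h : Balls Sm) {x : V} (hx : x ∈ PM) {M : ℝ} (hM : qn Sm PM SH x < M) :
    ∃ a ∈ PM, Sm M a ∧ x - a ∈ SH := by
  obtain ⟨M', ⟨a, ha, h1, h2⟩, hlt⟩ := exists_lt_of_csInf_lt (reps_ne h hx) hM
  exact ⟨a, ha, h.mono h1 hlt.le, h2⟩

theorem qn_add (h : Balls Sm) {x y : V} (hx : x ∈ PM) (hy : y ∈ PM) :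
    qn Sm PM SH (x + y) ≤ qn Sm PM SH x + qn Sm PM SH y := by
  refine le_of_forall_pos_le_add fun ε hε => ?_
  obtain ⟨a, ha, h1, h2⟩ := exists_of_qn_lt (SH := SH) h hx (lt_add_of_pos_right _ (half_pos hε))
  obtain ⟨b, hb, h3, h4⟩ := exists_of_qn_lt (SH := SH) h hy (lt_add_of_pos_right _ (half_pos hε))
  refine (qn_le h (add_mem ha hb) (h.add h1 h3) ?_).trans (le_of_eq (by ring))
  convert add_mem h2 h4 using 1
  abel

theorem qn_neg (h : Balls Sm) {x : V} (hx : x ∈ PM) : qn Sm PM SH (-x) ≤ qn Sm PM SH x := by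
  refine le_of_forall_pos_le_add fun ε hε => ?_
  obtain ⟨a, ha, h1, h2⟩ := exists_of_qn_lt (SH := SH) h hx (lt_add_of_pos_right _ hε)
  refine qn_le h (neg_mem ha) (h.neg h1) ?_
  convert neg_mem h2 using 1
  abel

/-- **`GN` in one direction.** -/
theorem gn_dir (h : Balls Sm) (A A' : V →ₗ[ℝ] V) (hAA : ∀ x, A (A' x) = x) (hAA' : ∀ x, A' (A x) = x)
    (hA : ∀ x ∈ PM, A x ∈ PM) (hAS : ∀ x ∈ SH, A x ∈ SH) (hAS' : ∀ x ∈ SH, A' x ∈ SH)
    (R : AddSubgroup V) {ρ : V} (hρ : ρ ∈ PM) (c : V) {M T δ : ℝ} (hM : 0 < M) (hT : 0 < T)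
    (hδ : 0 < δ) (hδ1 : δ ≤ 1) (h2 : 2 ≤ δ * (4 * T)) (Z : Finset ℤ)
    (hZ : ∀ t ∈ Z, |(t : ℝ)| ≤ 2 * T) (hcard : δ * (4 * T) ≤ #Z)
    (hD : ∀ t ∈ Z, ∃ a ∈ PM, ∃ b ∈ PM, Sm M a ∧ b ∈ R ∧ (t : ℝ) • ρ - A' a - b - c ∈ SH) :
    ∃ g : ℕ, 1 ≤ g ∧ (g : ℝ) ≤ 4 / δ ∧ ∃ a ∈ PM, ∃ b ∈ PM, Sm (3 * M / δ / T) a ∧ b ∈ R ∧
      ρ - A' a - (g : ℝ)⁻¹ • b ∈ SH ⊔ Submodule.span ℝ
        {b | b ∈ PM ∧ b ∈ R ∧ ∃ a ∈ PM, Sm (201 * M / δ) a ∧ A b - a ∈ SH} := by
  classical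
  let Λ : AddSubgroup (ℝ × V) :=
    { carrier := {p | (∃ n : ℤ, p.1 = n) ∧ p.2 ∈ PM ∧ p.2 ∈ R}
      add_mem' := fun ⟨⟨a, ha⟩, h1, h2⟩ ⟨⟨b, hb⟩, h3, h4⟩ =>
        ⟨⟨a + b, by simp [ha, hb]⟩, add_mem h1 h3, add_mem h2 h4⟩
      zero_mem' := ⟨⟨0, by simp⟩, zero_mem _, zero_mem _⟩
      neg_mem' := fun ⟨⟨a, ha⟩, h1, h2⟩ => ⟨⟨-a, by simp [ha]⟩, neg_mem h1, neg_mem h2⟩ }
  have hΛ : ∀ p, p ∈ Λ ↔ (∃ n : ℤ, p.1 = n) ∧ p.2 ∈ PM ∧ p.2 ∈ R := fun _ => Iff.rfl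
  let φ : ℝ × V →ₗ[ℝ] V := A ∘ₗ ((LinearMap.fst ℝ ℝ V).smulRight ρ - LinearMap.snd ℝ ℝ V)
  have hφ : ∀ p : ℝ × V, φ p = A (p.1 • ρ - p.2) := fun _ => rfl
  have hφm : ∀ p ∈ Λ, φ p ∈ PM := fun p hp => hA _ (sub_mem (PM.smul_mem _ hρ) hp.2.1)
  let ν : ℝ × V → ℝ := fun p => max (|p.1| / (4 * T)) (qn Sm PM SH (φ p) / (2 * M))
  have hν : ∀ p, ν p = max (|p.1| / (4 * T)) (qn Sm PM SH (φ p) / (2 * M)) := fun _ => rfl
  have hνq : ∀ p r, ν p ≤ r → qn Sm PM SH (φ p) ≤ r * (2 * M) := fun p r hp =>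
    (div_le_iff₀ (by positivity)).1 ((le_max_right _ _).trans hp)
  have hZne : Z.Nonempty := by
    rw [← card_pos]
    have : (0 : ℝ) < #Z := by linarith
    exact_mod_cast this
  obtain ⟨t₀, ht₀⟩ := hZne
  choose! a ha b hb hab using hD
  let P : ℤ → ℝ × V := fun t => ((t : ℝ) - t₀, b t - b t₀)
  have hPinj : Function.Injective P := fun t t' e => by
    have : (t : ℝ) - t₀ = (t' : ℝ) - t₀ := congrArg Prod.fst e
    exact_mod_cast sub_left_injective this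
  refine (line_slopes Λ ν ?_ ?_ ?_ (LinearMap.fst ℝ ℝ V) (fun p hp => hp.1) (4 * T) δ hδ hδ1 h2 ?_
      (Z.image P) ?_ ?_ (by rwa [card_image_of_injective _ hPinj])).elim ?_
  rotate_right
  · rintro s₀ ⟨hs₀, s₁, hs₁, g, n0, -, w0, w1, g1, g2, hk⟩
    simp only [LinearMap.fst_apply] at w0 w1 hk
    have hs0 : 0 < s₀.1 := by linarith
    obtain ⟨a₀, ha₀, h3, h4⟩ := exists_of_qn_lt (SH := SH) h (hφm _ hs₀) (M := 6 * M)
      ((hνq _ _ n0).trans_lt (by linarith))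
    refine ⟨g, g1, g2, s₀.1⁻¹ • a₀, PM.smul_mem _ ha₀, s₁.2, hs₁.2.1, ?_, hs₁.2.2, ?_⟩
    · refine h.mono (h.smul _ h3) ?_
      rw [abs_of_pos (inv_pos.2 hs0), div_div, le_div_iff₀ (by positivity), inv_mul_eq_div,
        div_mul_eq_mul_div, div_le_iff₀ hs0]
      nlinarith
    · have h5 : ρ - A' (s₀.1⁻¹ • a₀) - s₀.1⁻¹ • s₀.2 ∈ SH := by
        have h6 := SH.smul_mem s₀.1⁻¹ (hAS' _ h4)
        rw [map_sub, hφ, hAA', smul_sub, smul_sub, smul_smul, inv_mul_cancel₀ hs0.ne', one_smul,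
          ← map_smul] at h6
        convert h6 using 1
        abel
      have h7 : s₀.1⁻¹ • s₀.2 - (g : ℝ)⁻¹ • s₁.2 ∈ Submodule.span ℝ
          {b | b ∈ PM ∧ b ∈ R ∧ ∃ a ∈ PM, Sm (201 * M / δ) a ∧ A b - a ∈ SH} := by
        have h8 := Submodule.mem_map_of_mem (f := LinearMap.snd ℝ ℝ V) hk
        rw [shortKer, Submodule.map_span] at h8
        refine Submodule.span_mono ?_ h8
        rintro _ ⟨z, ⟨hz, hz0, hzν⟩, rfl⟩
        obtain ⟨a', ha', h9, h10⟩ := exists_of_qn_lt (SH := SH) h (hφm _ hz) (M := 201 * M / δ)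
          ((hνq _ _ hzν).trans_lt (by
            rw [div_mul_eq_mul_div]
            exact div_lt_div_of_pos_right (by linarith) hδ))
        refine ⟨hz.2.1, hz.2.2, -a', neg_mem ha', h.neg h9, ?_⟩
        have hz1 : z.1 = 0 := hz0
        rw [hφ, hz1, zero_smul, zero_sub, map_neg] at h10
        convert neg_mem h10 using 1
        simp only [LinearMap.snd_apply]
        abel
      convert add_mem (Submodule.mem_sup_left h5) (Submodule.mem_sup_right h7) using 1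
      abel
  · rw [hν, map_zero]
    refine max_le (by simp) (div_nonpos_of_nonpos_of_nonneg ?_ (by positivity))
    exact qn_le h (zero_mem _) h.zero (by simp)
  · intro x hx y hy
    rw [hν, hν, hν, map_add]
    refine max_le ?_ ?_
    · refine le_trans ?_ (add_le_add (le_max_left _ _) (le_max_left _ _))
      rw [← add_div]
      exact div_le_div_of_nonneg_right (abs_add_le _ _) (by positivity)
    · refine le_trans ?_ (add_le_add (le_max_right _ _) (le_max_right _ _))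
      rw [← add_div]
      exact div_le_div_of_nonneg_right (qn_add h (hφm _ hx) (hφm _ hy)) (by positivity)
  · intro x hx
    rw [hν, hν, map_neg, Prod.fst_neg, abs_neg]
    exact max_le_max le_rfl (div_le_div_of_nonneg_right (qn_neg h (hφm _ hx)) (by positivity))
  · intro x _
    rw [mul_comm, ← div_le_iff₀ (by positivity)]
    exact le_max_left _ _
  · intro x hx
    obtain ⟨t, ht, rfl⟩ := mem_image.1 hx
    refine ⟨⟨⟨t - t₀, by simp [P]⟩, sub_mem (hb t ht) (hb t₀ ht₀),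
      sub_mem (hab t ht).2.1 (hab t₀ ht₀).2.1⟩, max_le ?_ ?_⟩
    · rw [div_le_one (by positivity)]
      exact (abs_sub _ _).trans (by linarith [hZ t ht, hZ t₀ ht₀])
    · rw [div_le_one (by positivity), two_mul]
      refine qn_le h (add_mem (ha t ht) (neg_mem (ha t₀ ht₀)))
        (h.add (hab t ht).1 (h.neg (hab t₀ ht₀).1)) ?_
      have h3 := hAS _ (sub_mem (hab t ht).2.2 (hab t₀ ht₀).2.2)
      rw [hφ]
      convert h3 using 1
      simp only [P, map_sub, map_smul, hAA, sub_smul]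
      abel
  · intro x hx y hy e
    obtain ⟨t, -, rfl⟩ := mem_image.1 (mem_coe.1 hx)
    obtain ⟨t', -, rfl⟩ := mem_image.1 (mem_coe.1 hy)
    have : (t : ℝ) - t₀ = (t' : ℝ) - t₀ := e
    have : t = t' := by exact_mod_cast sub_left_injective this
    rw [this]

end Abs

/-- a dense subset of a box has a dense fibre in every direction -/
theorem exists_dense_fibre {σ : Type*} [Fintype σ] [DecidableEq σ] (W : Finset (σ → ℤ)) {T η : ℝ}
    (hT : 1 ≤ T) (hW : ∀ w ∈ W, ∀ v, |(w v : ℝ)| ≤ 2 * T)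
    (hcard : η * T ^ Fintype.card σ ≤ #W) (v : σ) :
    ∃ (u : σ → ℤ) (Z : Finset ℤ), η * T / 5 ^ Fintype.card σ ≤ #Z ∧
      ∀ t ∈ Z, u + t • Pi.single v 1 ∈ W ∧ |(t : ℝ)| ≤ 2 * T := by
  set B : Finset (σ → ℤ) := Fintype.piFinset fun u => if u = v then {0} else Icc (-⌊2 * T⌋) ⌊2 * T⌋
  have hB : (#B : ℝ) * T ≤ (5 * T) ^ Fintype.card σ := by
    have h1 : (#B : ℝ) * T =
        ∏ u, (#(if u = v then {0} else Icc (-⌊2 * T⌋) ⌊2 * T⌋) : ℝ) * if u = v then T else 1 := by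
      rw [prod_mul_distrib, Fintype.card_piFinset]
      simp
    rw [h1, ← card_univ, ← prod_const]
    refine prod_le_prod (fun u _ => by split_ifs <;> positivity) fun u _ => ?_
    split_ifs
    · simp; linarith
    · have h0 : 0 ≤ ⌊2 * T⌋ := Int.floor_nonneg.2 (by linarith)
      have h2 : ((#(Icc (-⌊2 * T⌋) ⌊2 * T⌋) : ℤ) : ℝ) = ((⌊2 * T⌋ + 1 - -⌊2 * T⌋ : ℤ) : ℝ) := by
        rw [Int.card_Icc_of_le _ _ (by omega)]
      push_cast at h2
      rw [mul_one, h2]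
      linarith [Int.floor_le (2 * T)]
  have hmaps : ∀ w ∈ W, Function.update w v 0 ∈ B := by
    intro w hw
    refine Fintype.mem_piFinset.2 fun u => ?_
    by_cases hu : u = v
    · subst hu; simp
    · rw [if_neg hu, Function.update_of_ne hu, mem_Icc, neg_le]
      have := abs_le.1 (hW w hw u)
      exact ⟨Int.le_floor.2 (by push_cast; linarith), Int.le_floor.2 this.2⟩
  have hBne : B.Nonempty := ⟨0, Fintype.mem_piFinset.2 fun u => by
    split_ifs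
    · simp
    · have h0 : 0 ≤ ⌊2 * T⌋ := Int.floor_nonneg.2 (by linarith)
      simp [h0]⟩
  rcases le_or_gt η 0 with hη | hη
  · refine ⟨0, ∅, ?_, by simp⟩
    rw [card_empty, Nat.cast_zero]
    exact div_nonpos_of_nonpos_of_nonneg (by nlinarith) (by positivity)
  obtain ⟨u, -, hu⟩ := exists_le_card_fiber_of_nsmul_le_card_of_maps_to
    (b := η * T / 5 ^ Fintype.card σ) hmaps hBne (by
      refine le_trans ?_ hcard
      rw [nsmul_eq_mul, mul_div_assoc', div_le_iff₀ (by positivity)]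
      calc (#B : ℝ) * (η * T) = η * (#B * T) := by ring
        _ ≤ η * (5 * T) ^ Fintype.card σ := by gcongr
        _ = _ := by rw [mul_pow]; ring)
  refine ⟨u, (W.filter fun w => Function.update w v 0 = u).image fun w => w v, ?_, ?_⟩
  · rw [card_image_of_injOn]
    · exact hu
    · intro w hw w' hw' e
      have h1 := (mem_filter.1 (mem_coe.1 hw)).2
      have h2 := (mem_filter.1 (mem_coe.1 hw')).2
      funext x
      by_cases hx : x = v
      · subst hx; exact e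
      · have := congrFun (h1.trans h2.symm) x
        rwa [Function.update_of_ne hx, Function.update_of_ne hx] at this
  · intro t ht
    obtain ⟨w, hw, rfl⟩ := mem_image.1 ht
    obtain ⟨hw', rfl⟩ := mem_filter.1 hw
    refine ⟨?_, hW w hw' v⟩
    convert hw' using 1
    funext x
    by_cases hx : x = v
    · subst hx; simp
    · simp [hx]

end Crest.Agent.T49.Gon
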