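import Crest.Agent.T49.TwPoly_91
import Crest.Agent.T49.TwTri_51

/-!
# Row 49 (helper33): the gain trick.  One extra free coordinate turns "small modulo `1` on a dense
set" into a bias, and a relation for the bias into a relation with the full gain.
-/

set_option autoImplicit false

noncomputable section

open MvPolynomial

namespace Crest.Agent.T49.Tw

namespace Gain

variable {ι : Type}

/-- the periodised Gaussian -/
def pg (K x : ℝ) : ℝ := K * ∑' n : ℤ, Real.exp (-Real.pi * (K * n + -(K * x)) ^ 2)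

theorem poisson1 {K : ℝ} (hK : 0 < K) (x : ℝ) :
    ∑' a : ℤ, (Real.exp (-Real.pi * (K⁻¹ * a) ^ 2) : ℂ) * ee (a * x) = pg K x := by
  have ha : 0 < (((K⁻¹ ^ 2 : ℝ) : ℂ)).re := by rw [Complex.ofReal_re]; positivity
  have h := Complex.tsum_exp_neg_quadratic ha (Complex.I * x)
  have hK' : (K : ℂ) ≠ 0 := by exact_mod_cast hK.ne'
  have h1 : (((K⁻¹ ^ 2 : ℝ) : ℂ)) ^ (1 / 2 : ℂ) = (K : ℂ)⁻¹ := by
    have : ((K⁻¹ ^ 2 : ℝ) ^ (1 / 2 : ℝ) : ℝ) = K⁻¹ := by
      rw [← Real.sqrt_eq_rpow, Real.sqrt_sq (by positivity)]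
    have h2 := Complex.ofReal_cpow (x := K⁻¹ ^ 2) (by positivity) (1 / 2)
    rw [this] at h2
    rw [← Complex.ofReal_inv, h2]
    norm_num
  rw [h1] at h
  rw [pg, Complex.ofReal_mul, Complex.ofReal_tsum]
  convert h using 2
  · funext a
    rw [ee, Complex.ofReal_exp, ← Complex.exp_add]
    congr 1
    push_cast
    ring
  · simp
  · refine tsum_congr fun n => ?_
    rw [Complex.ofReal_exp]
    congr 1
    rw [← mul_assoc, Complex.I_mul_I]
    push_cast
    field_simp

theorem pg_nonneg {K : ℝ} (hK : 0 < K) (x : ℝ) : 0 ≤ pg K x :=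
  mul_nonneg hK.le (tsum_nonneg fun _ => (Real.exp_pos _).le)

theorem pg_le {K : ℝ} (hK : 0 < K) (x : ℝ) : pg K x ≤ K * (1 + |K|⁻¹) :=
  mul_le_mul_of_nonneg_left (gauss_one hK.ne' _).2 hK.le

theorem le_pg {K : ℝ} (hK : 0 < K) {x : ℝ} {n : ℤ} (h : |x - n| * K ≤ 1) :
    Real.exp (-4) * K ≤ pg K x := by
  rw [pg, mul_comm]
  refine mul_le_mul_of_nonneg_left (le_trans ?_ ((gauss_one hK.ne' (-(K * x))).1.le_tsum n
    fun _ _ => (Real.exp_pos _).le)) hK.le
  refine Real.exp_le_exp.2 ?_
  have h1 : (K * n + -(K * x)) ^ 2 = (|x - n| * K) ^ 2 := by rw [mul_pow, sq_abs]; ring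
  have h2 : (|x - n| * K) ^ 2 ≤ 1 := pow_le_one₀ (by positivity) h
  have := Real.pi_le_four
  have := Real.pi_pos
  rw [h1]
  nlinarith [sq_nonneg (|x - n| * K)]

/-- the coefficient of the first power of the extra variable -/
def c1 (f : Pl (Option ι)) : Pl ι := (optionEquivLeft ℝ ι f).coeff 1

theorem coeff_c1 (f : Pl (Option ι)) (m : ι →₀ ℕ) : coeff m (c1 f) = coeff (m.optionElim 1) f :=
  optionEquivLeft_coeff_coeff _ _ _ _

theorem c1_sub (f g : Pl (Option ι)) : c1 (f - g) = c1 f - c1 g := by simp [c1]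

theorem oel_rename (g : Pl ι) : optionEquivLeft ℝ ι (rename some g) = Polynomial.C g := by
  induction g using MvPolynomial.induction_on with
  | C a => simp [optionEquivLeft_C]
  | add p q hp hq => simp only [map_add, hp, hq]
  | mul_X p i hp => simp only [map_mul, hp, rename_X, optionEquivLeft_X_some]

theorem c1_X_mul (b : ℝ) (g : Pl ι) : c1 (C b * (X none * rename some g)) = C b * g := by
  simp [c1, oel_rename, optionEquivLeft_C, optionEquivLeft_X_none]

theorem isInt_c1 {f : Pl (Option ι)} (h : IsInt f) : IsInt (c1 f) := fun m => by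
  rw [coeff_c1]; exact h _

theorem nrm_c1_le (f : Pl (Option ι)) : nrm (c1 f) ≤ nrm f := by
  classical
  have hi : Function.Injective fun m : ι →₀ ℕ => m.optionElim 1 := fun m m' h => by
    ext c
    simpa using DFunLike.congr_fun h (some c)
  refine le_trans (le_of_eq ?_) (sum_abs_coeff_le_nrm f
    ((c1 f).support.image fun m : ι →₀ ℕ => m.optionElim 1))
  rw [Finset.sum_image fun a _ b _ h => hi h, nrm]
  simp only [coeff_c1]

theorem weight_optionElim (w : Option ι → ℕ) (m : ι →₀ ℕ) :
    Finsupp.weight w (m.optionElim 1) = w none + Finsupp.weight (fun c => w (some c)) m := by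
  have h : m.optionElim 1 = Finsupp.single none 1 + m.mapDomain some := by
    ext c
    cases c with
    | none =>
      simp [Finsupp.mapDomain_of_notMem_range]
    | some c => simp [Finsupp.mapDomain_apply (Option.some_injective ι)]
  rw [h, map_add, Finsupp.weight_single, one_smul]
  congr 1
  rw [Finsupp.weight_apply, Finsupp.weight_apply,
    Finsupp.sum_mapDomain_index_inj (Option.some_injective ι)]

theorem hom_c1 {w : Option ι → ℕ} {f : Pl (Option ι)} {d : ℕ}
    (h : IsWeightedHomogeneous w f (w none + d)) :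
    IsWeightedHomogeneous (fun c => w (some c)) (c1 f) d := fun m hm => by
  rw [coeff_c1] at hm
  have := h hm
  rw [weight_optionElim] at this
  omega

theorem c1_bind (t : ι → Pl ι) (r : ℝ) {t' : Option ι → Pl (Option ι)}
    (h0 : t' none = C r * X none) (h1 : ∀ c, t' (some c) = rename some (t c))
    (e : Pl (Option ι)) : c1 (bind₁ t' e) = C r * bind₁ t (c1 e) := by
  have key : optionEquivLeft ℝ ι (bind₁ t' e) =
      ((optionEquivLeft ℝ ι e).map (bind₁ t : Pl ι →ₐ[ℝ] Pl ι).toRingHom).comp
        (Polynomial.C (C r) * Polynomial.X) := by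
    induction e using MvPolynomial.induction_on with
    | C a => simp [optionEquivLeft_C]
    | add p q hp hq => simp only [map_add, hp, hq, Polynomial.map_add, Polynomial.add_comp]
    | mul_X p i hp =>
      simp only [map_mul, hp, Polynomial.map_mul, Polynomial.mul_comp, bind₁_X_right]
      congr 1
      cases i with
      | none => simp [h0, optionEquivLeft_C, optionEquivLeft_X_none]
      | some c => simp [h1, oel_rename, optionEquivLeft_X_some]
  rw [c1, key, Polynomial.comp_C_mul_X_coeff, Polynomial.coeff_map, pow_one, mul_comm]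
  rfl

end Gain

open Gain

variable {ι : Type}

/-- one more free coordinate with window `X / K` -/
def Tri.ext (T : Tri ι) (K : ℝ) (hK : 0 < K) : Tri (Option ι) where
  rk c := c.elim 0 T.rk
  a c := c.elim K⁻¹ T.a
  B c := c.elim 0 fun c => rename some (T.B c)
  a_ne c := by
    cases c with
    | none => exact inv_ne_zero hK.ne'
    | some c => exact T.a_ne c
  B_mem c := by
    cases c with
    | none => exact zero_mem _
    | some c => exact rename_mem_supported some (fun c' hc' => hc') (T.B_mem c)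

theorem Tri.ext_th_none (T : Tri ι) {K : ℝ} (hK : 0 < K) :
    (T.ext K hK).th none = C K⁻¹ * X none := by simp [Tri.th, Tri.ext]

theorem Tri.ext_th_some (T : Tri ι) {K : ℝ} (hK : 0 < K) (c : ι) :
    (T.ext K hK).th (some c) = rename some (T.th c) := by simp [Tri.th, Tri.ext]

theorem Tri.ext_mu [Fintype ι] (T : Tri ι) {K : ℝ} (hK : 0 < K) :
    (T.ext K hK).mu = K * T.mu := by
  simp [Tri.mu, Tri.ext, Fintype.prod_option, abs_of_pos hK, mul_comm]

theorem Tri.ext_S [Fintype ι] (T : Tri ι) {K : ℝ} (hK : 0 < K) (G : Pl ι) :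
    (T.ext K hK).S (X none * rename some G) = ((∑' z, T.wgt z * pg K (ev z G) : ℝ) : ℂ) := by
  let e : ((ι → ℤ) × ℤ) ≃ (Option ι → ℤ) :=
    (Equiv.prodComm _ _).trans (Equiv.piOptionEquivProd (β := fun _ => ℤ)).symm
  have h0 : ∀ p : (ι → ℤ) × ℤ, e p none = p.2 := fun _ => rfl
  have h1 : ∀ p : (ι → ℤ) × ℤ, e p ∘ some = p.1 := fun _ => rfl
  have hs := e.summable_iff.2 ((T.ext K hK).summable_S (X none * rename some G))
  rw [Tri.S, ← e.tsum_eq, T.ofReal_tsum_mul]
  refine hs.tsum_prod.trans (tsum_congr fun z => ?_)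
  rw [← poisson1 hK, ← tsum_mul_left]
  refine tsum_congr fun a => ?_
  simp only [Function.comp_apply, Tri.wgt, Fintype.sum_option, Tri.ext_th_none, Tri.ext_th_some,
    ev_mul, ev_C, ev_X, ev_rename, h0, h1, mul_add, Real.exp_add]
  push_cast
  ring

/-- small modulo `1` on a dense set gives a bias on the extended system -/
theorem Tri.ext_bias [Fintype ι] (T : Tri ι) {K : ℝ} (hK : 0 < K) (G : Pl ι)
    (E : Finset (ι → ℤ)) (hE : ∀ z ∈ E, ∃ n : ℤ, |ev z G - n| * K ≤ 1) {δ : ℝ}
    (hδ : δ * T.mu ≤ ∑ z ∈ E, T.wgt z) :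
    δ * Real.exp (-4) * (T.ext K hK).mu ≤ ‖(T.ext K hK).S (X none * rename some G)‖ := by
  rw [Tri.ext_S, Complex.norm_real, Tri.ext_mu]
  refine le_trans ?_ (le_abs_self _)
  have hs := T.summable_mul_real (f := fun z => pg K (ev z G)) (K := K * (1 + |K|⁻¹))
    fun z => by rw [abs_of_nonneg (pg_nonneg hK _)]; exact pg_le hK _
  refine le_trans ?_ (hs.sum_le_tsum E fun z _ => mul_nonneg (T.wgt_nonneg z) (pg_nonneg hK _))
  calc _ = δ * T.mu * (Real.exp (-4) * K) := by ring
    _ ≤ (∑ z ∈ E, T.wgt z) * (Real.exp (-4) * K) := by gcongr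
    _ ≤ _ := by
      rw [Finset.sum_mul]
      refine Finset.sum_le_sum fun z hz => mul_le_mul_of_nonneg_left ?_ (T.wgt_nonneg z)
      obtain ⟨n, hn⟩ := hE z hz
      exact le_pg hK hn

/-- the extended cell; the new coordinate has level `k + 1` -/
def Cell.ext (T : Cell ι) (K : ℝ) (hK : 0 < K) (k : ℕ) : Cell (Option ι) where
  toTri := T.toTri.ext K hK
  lev c := c.elim (k + 1) T.lev
  lev_pos c := by
    cases c with
    | none => exact Nat.succ_pos k
    | some c => exact T.lev_pos c
  deg c := by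
    cases c with
    | none => exact degLe_zero _
    | some c => exact DegLe.rename (φ := some) (fun _ => le_rfl) (T.deg c)

namespace Cell

variable (T : Cell ι) {K : ℝ} (hK : 0 < K) (k : ℕ)

theorem ext_top_rename (d : ℕ) (f : Pl ι) :
    (T.ext K hK k).top d (rename some f) = rename some (T.top d f) := whc_rename _ _ _ _

theorem ext_tth_none : (T.ext K hK k).tth none = C K⁻¹ * X none := by
  rw [tth, top, show (T.ext K hK k).th none = _ from T.toTri.ext_th_none hK]
  exact whc_of_hom (hom_C_mul (isWeightedHomogeneous_X ℝ _ _) _)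

theorem ext_tth_some (c : ι) : (T.ext K hK k).tth (some c) = rename some (T.tth c) := by
  rw [tth, show (T.ext K hK k).th (some c) = _ from T.toTri.ext_th_some hK c, ext_top_rename]
  rfl

theorem ext_degLe {G : Pl ι} {i : ℕ} (hG : DegLe T.lev G i) :
    DegLe (T.ext K hK k).lev (X none * rename some G) (k + i + 1) := by
  have := (degLe_X (w := (T.ext K hK k).lev) none).mul
    (hG.rename (w' := (T.ext K hK k).lev) (φ := some) fun _ => le_rfl)
  exact this.mono (le_of_eq (by show k + 1 + i = _; ring))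

/-- a relation on the extended cell gives a relation with the gain `K⁻¹` -/
theorem ext_rel {G : Pl ι} {i : ℕ} (hG : DegLe T.lev G i) {b : ℝ} {e : Pl (Option ι)}
    (he : IsWeightedHomogeneous (T.ext K hK k).lev e (k + i + 1))
    (hI : IsInt (C b * (T.ext K hK k).top (k + i + 1) (X none * rename some G) -
      (T.ext K hK k).TTh e)) :
    ∃ e' : Pl ι, IsWeightedHomogeneous T.lev e' i ∧ nrm e' * K ≤ nrm e ∧
      IsInt (C b * T.top i G - T.TTh e') := by
  have h1 : (T.ext K hK k).top (k + i + 1) (X none * rename some G) =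
      X none * rename some (T.top i G) := by
    have := whc_mul (degLe_X (w := (T.ext K hK k).lev) none)
      (hG.rename (w' := (T.ext K hK k).lev) (φ := some) fun _ => le_rfl)
    rw [whc_of_hom (isWeightedHomogeneous_X ℝ _ _)] at this
    rw [← T.ext_top_rename hK k, top, top, ← this]
    congr 2
    show _ = k + 1 + i
    ring
  have h2 := isInt_c1 hI
  rw [c1_sub, h1, c1_X_mul, TTh, c1_bind T.tth K⁻¹ (T.ext_tth_none hK k) (T.ext_tth_some hK k)]
    at h2
  refine ⟨C K⁻¹ * c1 e, hom_C_mul (hom_c1 (w := (T.ext K hK k).lev) (d := i) ?_) _, ?_, ?_⟩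
  · rwa [show (T.ext K hK k).lev none + i = k + i + 1 by show k + 1 + i = _; ring]
  · rw [nrm_C_mul, abs_of_pos (inv_pos.2 hK), mul_comm, ← mul_assoc, mul_inv_cancel₀ hK.ne',
      one_mul]
    exact nrm_c1_le e
  · rwa [TTh, map_mul, bind₁_C_right]

end Cell

end Crest.Agent.T49.Tw
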