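import Crest.Agent.T49.LtrDef_33
import Crest.Agent.T49.LrA_84

/-!
# Row 49 (helper33): elementary facts on frames (dilations, top parts, norms), and extraction of a
dense family from a first moment
-/

set_option autoImplicit false

noncomputable section

namespace Crest.Agent.T49.Ltr

open Finset MvPolynomial
open Crest.Agent.T49.Nil Crest.Agent.T49.Nil.ND Crest.Agent.T49.Gl Crest.Agent.T49.Tw

variable {κ : Type} {D : ℕ}

theorem degLe_one_iff {p : Pl (Fin D)} {s : ℕ} :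
    DegLe (fun _ => 1) p s ↔ ∀ α ∈ p.support, α.degree ≤ s := by
  simp only [DegLe, Finsupp.degree_eq_weight_one]

theorem q2_nonneg (σ : ℝ) (p : Pl (Fin D)) : 0 ≤ q2 σ p := sum_nonneg fun _ _ => sq_nonneg _

theorem sum_abs_le {σ : ℝ} (hσ : 0 < σ) {p : Pl (Fin D)} {s : ℕ} (hp : DegLe (fun _ => 1) p s) :
    ∑ α ∈ p.support, |coeff α p| / σ ^ α.degree ≤ #(mi D s) + q2 σ p := by
  have h1 : (#p.support : ℝ) ≤ #(mi D s) := by
    exact_mod_cast card_le_card fun α hα => mem_mi.2 (degLe_one_iff.1 hp α hα)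
  refine le_trans (sum_le_sum (g := fun α => 1 + (coeff α p / σ ^ α.degree) ^ 2) fun α _ => ?_) ?_
  · rw [← abs_of_pos (pow_pos hσ α.degree), ← abs_div, abs_of_pos (pow_pos hσ α.degree),
      ← sq_abs]
    nlinarith [sq_nonneg (|coeff α p / σ ^ α.degree| - 1), abs_nonneg (coeff α p / σ ^ α.degree)]
  · rw [sum_add_distrib, sum_const, nsmul_eq_mul, mul_one]
    exact add_le_add h1 le_rfl

/-- variation of a polynomial near the origin -/
theorem abs_eval_sub_le {σ ρ : ℝ} (hσ : 0 < σ) (hρ0 : 0 ≤ ρ) (hρ : ρ ≤ 1) {p : Pl (Fin D)} {s : ℕ}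
    (hp : DegLe (fun _ => 1) p s) {t : Fin D → ℝ} (ht : ∀ i, |t i| * σ ≤ ρ) :
    |eval t p - eval 0 p| ≤ ρ * (#(mi D s) + q2 σ p) := by
  refine le_trans ?_ (mul_le_mul_of_nonneg_left (sum_abs_le hσ hp) hρ0)
  rw [eval_eq', eval_eq', ← sum_sub_distrib, mul_sum]
  refine (abs_sum_le_sum_abs _ _).trans (sum_le_sum fun α _ => ?_)
  by_cases h : α = 0
  · subst h; simp; positivity
  obtain ⟨i, hi⟩ : ∃ i, α i ≠ 0 := by
    by_contra h1
    exact h (Finsupp.ext fun i => not_not.1 fun h2 => h1 ⟨i, h2⟩)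
  have h0 : ∏ i, (0 : Fin D → ℝ) i ^ α i = 0 := prod_eq_zero (mem_univ i) (by simp [hi])
  have h1 := Lr.abs_mono_le' (T := ρ / σ) (fun i => (le_div_iff₀ hσ).2 (ht i)) α
  have h2 : ρ ^ α.degree ≤ ρ :=
    pow_le_of_le_one hρ0 hρ fun e => h ((Finsupp.degree_eq_zero_iff α).1 e)
  rw [h0, mul_zero, sub_zero, abs_mul]
  calc _ ≤ |coeff α p| * (ρ / σ ^ α.degree) := by
        refine mul_le_mul_of_nonneg_left (h1.trans ?_) (abs_nonneg _)
        rw [div_pow]
        exact div_le_div_of_nonneg_right h2 (by positivity)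
    _ = _ := by ring

theorem dil_degLe (r : ℝ) {p : Pl (Fin D)} {s : ℕ} (hp : DegLe (fun _ => 1) p s) :
    DegLe (fun _ => 1) (Gf.dil r p) s := fun α hα => hp α (by
  rw [mem_support_iff] at hα ⊢
  rw [Gf.coeff_dil] at hα
  exact left_ne_zero_of_mul hα)

theorem dil_whc (r : ℝ) (p : Pl (Fin D)) (i : ℕ) :
    weightedHomogeneousComponent (fun _ => 1) i (Gf.dil r p) =
      Gf.dil r (weightedHomogeneousComponent (fun _ => 1) i p) := by
  classical
  ext α
  simp only [coeff_weightedHomogeneousComponent, Gf.coeff_dil, ite_mul, zero_mul]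

theorem dil_isInt (b : ℕ) {p : Pl (Fin D)} (hp : Tw.IsInt p) : Tw.IsInt (Gf.dil b p) :=
  Tw.IsInt.bind (fun v => (isInt_X v).nat_mul b) hp

theorem eval_dil (r : ℝ) (t : Fin D → ℝ) (p : Pl (Fin D)) :
    eval t (Gf.dil r p) = eval (fun i => r * t i) p := by
  rw [Gf.dil, eval_bind]; simp

theorem bind_dil (r : ℝ) (g : κ → Pl (Fin D)) (f : Pl κ) :
    bind₁ (fun c => Gf.dil r (g c)) f = Gf.dil r (bind₁ g f) := by
  rw [Gf.dil, bind₁_bind₁]

theorem nrmL_dil_whc_le {σ r L : ℝ} (hσ : 0 < σ) (hr : 0 ≤ r) (hL : 0 ≤ L) (h : σ * (r * L) ≤ 1)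
    {p : Pl (Fin D)} {s : ℕ} (hp : DegLe (fun _ => 1) p s) (i : ℕ) :
    Gf.nrmL L (Gf.dil r (weightedHomogeneousComponent (fun _ => 1) i p)) ≤
      #(mi D s) + q2 σ p := by
  classical
  refine le_trans ?_ (sum_abs_le hσ hp)
  have hc : ∀ α, |coeff α (Gf.dil L (Gf.dil r (weightedHomogeneousComponent (fun _ => 1) i p)))| ≤
      |coeff α p| / σ ^ α.degree := by
    intro α
    rw [Gf.coeff_dil, Gf.coeff_dil, coeff_weightedHomogeneousComponent, mul_assoc, ← mul_pow,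
      abs_mul, abs_of_nonneg (pow_nonneg (mul_nonneg hr hL) _), le_div_iff₀ (by positivity),
      mul_assoc, ← mul_pow]
    have h1 : (r * L * σ) ^ α.degree ≤ 1 := pow_le_one₀ (by positivity) (by linarith)
    refine le_trans (mul_le_of_le_one_right (abs_nonneg _) h1) ?_
    split_ifs <;> simp
  rw [Gf.nrmL, nrm_eq_sum (s := p.support) fun α hα => ?_]
  · exact sum_le_sum fun α _ => hc α
  · by_contra h1
    have := hc α
    rw [notMem_support_iff.1 h1, abs_zero, zero_div, abs_nonpos_iff] at this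
    exact mem_support_iff.1 hα this

section frames

variable {lev : κ → ℕ} (V : Frm D lev)

theorem rl_degLe (c : κ) : DegLe (fun _ => 1) (V.rl c) (lev c) :=
  degLe_one_iff.2 fun _ hα => le_trans (le_totalDegree (support_map_subset _ _ hα)) (V.deg c)

theorem rl_isInt (c : κ) : Tw.IsInt (V.rl c) := isInt_iff.2 ⟨_, rfl⟩

theorem tp_eq (c : κ) : V.tp c = weightedHomogeneousComponent (fun _ => 1) (lev c) (V.rl c) := rfl

theorem eval_rl (t : Fin D → ℤ) (c : κ) : eval (fun i => (t i : ℝ)) (V.rl c) = V.pt t c := by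
  rw [Frm.rl, Frm.pt, eval_map]
  exact (eval₂_comp (Int.castRingHom ℝ) t (V.W c)).symm

theorem ev_pt (t : Fin D → ℤ) (f : Pl κ) :
    ev (V.pt t) f = eval (fun i => (t i : ℝ)) (bind₁ V.rl f) := by
  rw [eval_bind, Tw.ev]
  simp only [eval_rl]

theorem dvd_pt_sub {b : ℤ} {t t' : Fin D → ℤ} (h : ∀ i, b ∣ t i - t' i) (c : κ) :
    b ∣ V.pt t c - V.pt t' c := by
  rw [Frm.pt, Frm.pt]
  induction V.W c using MvPolynomial.induction_on with
  | C a => simp
  | add p q hp hq =>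
    rw [map_add, map_add, add_sub_add_comm]
    exact dvd_add hp hq
  | mul_X p i hp =>
    simp only [map_mul, eval_X]
    have : eval t p * t i - eval t' p * t' i =
      (eval t p - eval t' p) * t i + eval t' p * (t i - t' i) := by ring
    rw [this]
    exact dvd_add (hp.mul_right _) ((h i).mul_left _)

/-- the frame `t ↦ V (b t)` as a substitution -/
def rld (b : ℕ) : κ → Pl (Fin D) := fun c => Gf.dil b (V.rl c)

theorem rld_degLe (b : ℕ) (c : κ) : DegLe (fun _ => 1) (rld V b c) (lev c) :=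
  dil_degLe _ (rl_degLe V c)

theorem tpd_degLe (b : ℕ) (c : κ) : DegLe (fun _ => 1) (tpd V b c) (lev c) :=
  dil_degLe _ ((rl_degLe V c).whc _ _)

theorem tpd_isInt (b : ℕ) (c : κ) : Tw.IsInt (tpd V b c) := dil_isInt b ((rl_isInt V c).whc _ _)

theorem whc_tpd (b : ℕ) (c : κ) :
    weightedHomogeneousComponent (fun _ => 1) (lev c) (tpd V b c) =
      weightedHomogeneousComponent (fun _ => 1) (lev c) (rld V b c) := by
  rw [tpd, rld, dil_whc, dil_whc, tp_eq,
    whc_of_hom (weightedHomogeneousComponent_isWeightedHomogeneous _ _)]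

theorem evZ_rld {ι : Type} [Fintype ι] {N : ND ι} (b : ℕ) (k : Fin D → ℤ) (P : N.PS κ) :
    N.evZ k (N.subst (rld V b) P) = N.evZ (V.pt fun i => b * k i) P := by
  rw [ND.evZ, ev_subst, ND.evZ]
  congr 2
  funext c
  rw [aeval_eq_eval, rld, eval_dil, ← eval_rl]
  simp

/-- a factorisation along the frame is a factorisation along its top part -/
theorem factQ_tpd {ι : Type} [Fintype ι] {N : ND ι} {S : ℕ} (hS : ∀ k, N.wt k ≤ S)
    {H : ℕ → Submodule ℝ N.L} (hH : N.GrSub H) {L M : ℝ} {q b : ℕ} {P : N.PS κ}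
    (hP : P ∈ Gf.wcf lev N.F) (h : N.FactQ S L M q H (N.subst (rld V b) P)) :
    N.FactQ S L M q H (N.subst (tpd V b) P) := by
  refine Lr.factQ_congr hS hH h ?_
  have := Lr.subst_sub_mem (tpd_degLe V b) (rld_degLe V b) (whc_tpd V b) grSub_F.anti hP
  rwa [Gf.wcf_one] at this

end frames

section cell

variable [Fintype κ] (T : Cell κ) (V : Frm D T.lev)

omit [Fintype κ] in
theorem bind_th_degLe (c : κ) : DegLe (fun _ => 1) (bind₁ V.rl (T.th c)) (T.lev c) :=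
  DegLe.bind (rl_degLe V) (T.th_degLe c)

omit [Fintype κ] in
theorem bind_tpd_tth (b : ℕ) (c : κ) : bind₁ (tpd V b) (T.tth c) =
    Gf.dil b (weightedHomogeneousComponent (fun _ => 1) (T.lev c) (bind₁ V.rl (T.th c))) := by
  rw [whc_bind_degLe (rl_degLe V) (T.th_degLe c), ← bind_dil]
  rfl

theorem q2_le_fq (σ : ℝ) (c : κ) : q2 σ (bind₁ V.rl (T.th c)) ≤ fq T σ V :=
  single_le_sum (f := fun c => q2 σ (bind₁ V.rl (T.th c))) (fun _ _ => q2_nonneg _ _) (mem_univ c)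

theorem nrmL_tpd_le {s : ℕ} (hs : ∀ c, T.lev c ≤ s) {σ L : ℝ} (hσ : 0 < σ) (hL : 0 ≤ L) {b : ℕ}
    (h : σ * (b * L) ≤ 1) (c : κ) :
    Gf.nrmL L (bind₁ (tpd V b) (T.tth c)) ≤ #(mi D s) + fq T σ V := by
  rw [bind_tpd_tth]
  exact (nrmL_dil_whc_le hσ (Nat.cast_nonneg b) hL h ((bind_th_degLe T V c).mono (hs c)) _).trans
    (add_le_add le_rfl (q2_le_fq T V σ c))

/-- the windows are almost constant on the short part of a frame -/
theorem abs_th_pt_sub_le {s : ℕ} (hs : ∀ c, T.lev c ≤ s) {σ ρ : ℝ} (hσ : 0 < σ) (hρ0 : 0 ≤ ρ)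
    (hρ : ρ ≤ 1) {t : Fin D → ℤ} (ht : ∀ i, |(t i : ℝ)| * σ ≤ ρ) (c : κ) :
    |ev (V.pt t) (T.th c) - ev (V.pt 0) (T.th c)| ≤ ρ * (#(mi D s) + fq T σ V) := by
  rw [ev_pt, ev_pt]
  have := abs_eval_sub_le hσ hρ0 hρ ((bind_th_degLe T V c).mono (hs c)) ht
  simp only [Pi.zero_apply, Int.cast_zero]
  exact this.trans (mul_le_mul_of_nonneg_left (add_le_add le_rfl (q2_le_fq T V σ c)) hρ0)

theorem fmu_pos (D : ℕ) {σ : ℝ} (hσ : 0 < σ) : 0 < fmu T D σ :=
  prod_pos fun c _ => prod_pos fun _ _ =>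
    mul_pos (pow_pos hσ _) (inv_pos.2 (abs_pos.2 (T.a_ne c)))

end cell

open Classical in
/-- a dense family from a first moment -/
theorem exists_family {Ω K : Type} {w : Ω → ℝ} (hw : ∀ V, 0 ≤ w V) (hs : Summable w) {μ δ : ℝ}
    (hμ : 0 < μ) (hδ : 0 < δ) (hM : ∑' V, w V ≤ 2 * μ) (g : Ω → Prop)
    (hg : (∑' V, if g V then 0 else w V) ≤ δ / 8 * μ) (B : Finset K) (hB : B.Nonempty)
    (f : Ω → K → ℂ) (hf : ∀ V k, ‖f V k‖ ≤ 1) {A : ℂ} (hA : δ ≤ ‖A‖)
    (h : ∀ k ∈ B, ‖(∑' V, (w V : ℂ) * f V k) / μ - A‖ ≤ δ / 8) :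
    ∃ Z : Finset Ω, δ / 8 * μ ≤ ∑ V ∈ Z, w V ∧
      ∀ V ∈ Z, g V ∧ δ / 4 * #B ≤ ‖∑ k ∈ B, f V k‖ := by
  set G : Ω → Prop := fun V => g V ∧ δ / 4 * #B ≤ ‖∑ k ∈ B, f V k‖
  have hB0 : (0 : ℝ) < #B := by exact_mod_cast hB.card_pos
  have hsk : ∀ k, Summable fun V => (w V : ℂ) * f V k := fun k =>
    .of_norm_bounded hs fun V => by
      rw [norm_mul, Complex.norm_real, Real.norm_of_nonneg (hw V)]
      exact mul_le_of_le_one_right (hw V) (hf V k)
  have hs1 : Summable fun V => if G V then w V else 0 :=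
    hs.of_nonneg_of_le (fun V => by split_ifs; exacts [hw V, le_rfl])
      fun V => by split_ifs; exacts [le_rfl, hw V]
  have hs2 : Summable fun V => if g V then 0 else w V :=
    hs.of_nonneg_of_le (fun V => by split_ifs; exacts [le_rfl, hw V])
      fun V => by split_ifs; exacts [hw V, le_rfl]
  have h1 : ‖(∑ k ∈ B, ∑' V, (w V : ℂ) * f V k) / μ - #B * A‖ ≤ #B * (δ / 8) := by
    rw [sum_div, ← nsmul_eq_mul, ← sum_const, ← sum_sub_distrib, ← nsmul_eq_mul, ← sum_const]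
    exact (norm_sum_le _ _).trans (sum_le_sum h)
  have h2 : #B * (7 / 8 * δ) * μ ≤ ‖∑ k ∈ B, ∑' V, (w V : ℂ) * f V k‖ := by
    have h3 := norm_sub_norm_le (#B * A) ((∑ k ∈ B, ∑' V, (w V : ℂ) * f V k) / μ)
    rw [norm_sub_rev, norm_mul, norm_div, Complex.norm_natCast, Complex.norm_real,
      Real.norm_of_nonneg hμ.le] at h3
    rw [← le_div_iff₀ hμ]
    nlinarith [mul_le_mul_of_nonneg_left hA hB0.le]
  have h3 : ‖∑ k ∈ B, ∑' V, (w V : ℂ) * f V k‖ ≤
      ∑' V, (#B * (if G V then w V else 0) + (#B * (δ / 4) * w V +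
        #B * if g V then 0 else w V)) := by
    rw [← Summable.tsum_finsetSum fun k _ => hsk k]
    refine tsum_of_norm_bounded ((hs1.mul_left _).add ((hs.mul_left _).add
      (hs2.mul_left _))).hasSum fun V => ?_
    rw [← mul_sum, norm_mul, Complex.norm_real, Real.norm_of_nonneg (hw V)]
    have h4 : ‖∑ k ∈ B, f V k‖ ≤ #B :=
      (norm_sum_le _ _).trans (by simpa using sum_le_card_nsmul B _ 1 fun k _ => hf V k)
    have h5 := mul_le_mul_of_nonneg_left h4 (hw V)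
    have h6 : 0 ≤ #B * (δ / 4) * w V := mul_nonneg (by positivity) (hw V)
    have h7 : 0 ≤ #B * w V := mul_nonneg hB0.le (hw V)
    by_cases hG : G V
    · rw [if_pos hG, if_pos hG.1]; linarith
    · rw [if_neg hG]
      by_cases hg' : g V
      · rw [if_pos hg']
        have h8 : ‖∑ k ∈ B, f V k‖ ≤ δ / 4 * #B := (not_le.1 fun h => hG ⟨hg', h⟩).le
        nlinarith [mul_le_mul_of_nonneg_left h8 (hw V)]
      · rw [if_neg hg']; linarith
  rw [(hs1.mul_left _).tsum_add ((hs.mul_left _).add (hs2.mul_left _)),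
    (hs.mul_left _).tsum_add (hs2.mul_left _), tsum_mul_left, tsum_mul_left, tsum_mul_left] at h3
  have h4 : δ / 8 * μ < ∑' V, if G V then w V else 0 := by
    refine lt_of_mul_lt_mul_left ?_ hB0.le
    have h5 := mul_le_mul_of_nonneg_left hM (show 0 ≤ #B * (δ / 4) by positivity)
    have h6 := mul_le_mul_of_nonneg_left hg hB0.le
    have h7 : 0 < #B * δ * μ := by positivity
    nlinarith
  obtain ⟨Z, hZ⟩ : ∃ Z : Finset Ω, δ / 8 * μ < ∑ V ∈ Z, if G V then w V else 0 := by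
    by_contra h5
    exact absurd (hs1.tsum_le_of_sum_le fun Z => not_lt.1 fun h6 => h5 ⟨Z, h6⟩) (not_le.2 h4)
  exact ⟨Z.filter G, by rw [sum_filter]; exact hZ.le, fun V hV => (mem_filter.1 hV).2⟩

end Crest.Agent.T49.Ltr
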