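import Crest.Agent.T49.LtrA_33
import Crest.Agent.T49.MxCov_53

/-!
# Row 49 (helper33): SMALL.  A polynomial that is `K⁻¹`-small modulo `1` on a dense subset of a
regular mixed cell satisfies a relation whose real part has the full gain `K⁻¹`.
-/

set_option autoImplicit false

noncomputable section

open MvPolynomial

namespace Crest.Agent.T49.Tw

namespace Gain

variable {ι : Type}

/-- kill the extra variable -/
def kil : Pl (Option ι) →ₐ[ℝ] Pl ι := bind₁ fun c => c.elim 0 X

theorem kil_rename (f : Pl ι) : kil (rename some f) = f := by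
  have : (kil : Pl (Option ι) →ₐ[ℝ] Pl ι).comp (rename some) = AlgHom.id ℝ _ :=
    algHom_ext fun c => by simp [kil]
  exact DFunLike.congr_fun this f

/-- the class function on the extended cell -/
def extCl (cl : ι → ℕ) (j : ℕ) : Option ι → ℕ := fun c => c.elim j cl

variable [Fintype ι] {T : Cell ι} {cl : ι → ℕ}

theorem regM_le {D l : ℕ} {τ : ℕ → ℝ} (h : T.RegM cl D l τ) (hD : 1 ≤ D) (h0 : 0 ≤ τ (l + 1)) :
    ∀ j, 1 ≤ j → j ≤ l + 1 → τ (l + 1) ≤ τ j := by
  intro j hj hjl
  induction hjl using Nat.decreasingInduction with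
  | self => exact le_rfl
  | of_succ j hjl ih =>
    have h1 := ih (by omega)
    have h2 := (h j hj (by omega)).1
    have h3 := Cell.one_le_kapM T cl j
    have h4 : τ (j + 1) + T.kapM cl j ≤ (τ (j + 1) + T.kapM cl j) ^ D :=
      le_self_pow₀ (by linarith) (by omega)
    linarith

theorem regM_mono {D D' l : ℕ} {τ : ℕ → ℝ} (h : T.RegM cl D l τ) (hD : D' ≤ D) (hD1 : 1 ≤ D)
    (h0 : 0 ≤ τ (l + 1)) : T.RegM cl D' l τ := fun j hj hjl =>
  ⟨(pow_le_pow_right₀ (by
      linarith [regM_le h hD1 h0 (j + 1) (by omega) (by omega), Cell.one_le_kapM T cl j]) hD).trans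
    (h j hj hjl).1, (h j hj hjl).2⟩

end Gain

open Gain

namespace Cell

variable {ι : Type} (T : Cell ι) {K : ℝ} (hK : 0 < K) (k : ℕ) {cl : ι → ℕ}

theorem ext_isMC (h : T.IsMC cl) {j : ℕ} (hj : 0 < j) : (T.ext K hK k).IsMC (extCl cl j) := by
  refine isMC_of (fun c => ?_) fun c => ?_
  · cases c with
    | none => exact hj
    | some c => exact h.pos c
  · cases c with
    | none => exact MCP.zero
    | some c => exact MCP.rename (v := some) (fun _ => rfl) (h.B c)

theorem kil_TTh (e : Pl (Option ι)) : kil ((T.ext K hK k).TTh e) = T.TTh (kil e) := by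
  have : (kil : Pl (Option ι) →ₐ[ℝ] Pl ι).comp (T.ext K hK k).TTh = T.TTh.comp kil :=
    algHom_ext fun c => by
      simp only [AlgHom.comp_apply, TTh, bind₁_X_right]
      cases c with
      | none => rw [ext_tth_none]; simp [kil]
      | some c => rw [ext_tth_some, kil_rename]; simp [kil]
  exact DFunLike.congr_fun this e

variable [Fintype ι]

theorem ext_dotT (ξ : Option ι → ℝ) : (T.ext K hK k).dotT ξ =
    C (ξ none * K⁻¹) * X none + rename some (T.dotT fun c => ξ (some c)) := by
  simp only [dotT, Fintype.sum_option, ext_tth_none, ext_tth_some, map_sum, map_mul, rename_C,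
    mul_assoc]

theorem ext_kapM (j j' : ℕ) : (T.ext K hK k).kapM (extCl cl j) j' =
    T.kapM cl j' + if j = j' then 1 + Real.log (1 + |K⁻¹|) else 0 := by
  rw [kapM_eq, kapM_eq, Fintype.sum_option, add_comm (ite _ _ _), ← add_assoc]
  rfl

theorem ext_regAtM_ne {j j' : ℕ} (hj : j ≠ j') {H Λ : ℝ} (hR : T.RegAtM cl j' H Λ) :
    (T.ext K hK k).RegAtM (extCl cl j) j' H Λ := by
  intro w ξ b e hξ hw hH hb hbΛ he he' hn hI
  have h0 : ξ none = 0 := hξ.1 none hj
  have hd : (T.ext K hK k).dotT ξ = rename some (T.dotT fun c => ξ (some c)) := by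
    rw [ext_dotT, h0]; simp
  have h1 := hR w (fun c => ξ (some c)) b (kil e)
    ⟨fun c hc => hξ.1 (some c) hc, fun c hc => by
      have := hξ.2 (some c) hc
      rwa [hd, ← Finsupp.mapDomain_single (f := some),
        coeff_rename_mapDomain _ (Option.some_injective ι)] at this⟩
    (fun c hc => hw (some c) hc)
    (le_trans (by rw [Fintype.sum_option]; linarith [abs_nonneg (ξ none)]) hH) hb hbΛ
    (hom_bind (AddMonoidHom.id ℕ) (fun c => by
      cases c with
      | none => exact isWeightedHomogeneous_zero _ _ _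
      | some c => exact isWeightedHomogeneous_X ℝ T.lev c) he)
    (bind_mem_supported (fun c hc => by
      cases c with
      | none => exact zero_mem _
      | some c => exact X_mem_supp hc) he')
    ((nrm_bind_le_one (fun c => by cases c <;> simp) e).trans hn)
    (by
      have h2 : IsInt (kil _) := IsInt.bind (fun c => by
        cases c with
        | none => exact isInt_zero
        | some c => exact isInt_X c) hI
      rwa [map_add, map_mul, hd, kil_rename, kil_TTh, algHom_C, algebraMap_eq] at h2)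
  funext c
  cases c with
  | none => exact h0
  | some c => exact congrFun h1 c

theorem ext_regAtM_top {j : ℕ} (hj : ∀ c, cl c ≠ j) {H : ℝ} (hH : H < K) (Λ : ℝ) :
    (T.ext K hK k).RegAtM (extCl cl j) j H Λ := by
  intro w ξ b e hξ _ hH' _ _ _ _ _ _
  have h1 : ∀ c, ξ (some c) = 0 := fun c => hξ.1 (some c) (hj c)
  obtain ⟨n, hn⟩ := hξ.2 none rfl
  rw [ext_dotT] at hn
  simp only [h1, dotT, zero_mul, Finset.sum_const_zero, map_zero, add_zero, coeff_C_mul,
    coeff_X_same, mul_one] at hn
  simp only [Fintype.sum_option, h1, abs_zero, Finset.sum_const_zero, add_zero] at hH'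
  have h2 : |(n : ℝ)| < 1 := by
    rw [← hn, abs_mul, abs_of_pos (inv_pos.2 hK), ← div_eq_mul_inv, div_lt_one hK]
    exact hH'.trans_lt hH
  have h3 : n = 0 := Int.abs_lt_one_iff.1 (by exact_mod_cast h2)
  rw [h3, Int.cast_zero, mul_eq_zero] at hn
  funext c
  cases c with
  | none => exact hn.resolve_right (inv_ne_zero hK.ne')
  | some c => exact h1 c

end Cell

/-- (SMALL) small modulo `1` on a dense set implies a relation with the full gain -/
def SmallMStmt : Prop := ∀ l s d : ℕ, ∃ D : ℕ, ∀ (ι : Type) [Fintype ι] (T : Cell ι) (cl : ι → ℕ)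
  (τ : ℕ → ℝ) (G : Pl ι) (y K : ℝ) (E : Finset (ι → ℤ)), T.IsMC cl → (∀ c, cl c ≤ l) →
  (∀ c, T.lev c ≤ s) → DegLe T.lev G d → Real.log (Fintype.card ι + 2) + 2 ≤ y →
  y ^ D ≤ τ (l + 1) → T.RegM cl D l τ → Real.exp (D * y) ≤ K →
  (∀ z ∈ E, ∃ n : ℤ, |ev z G - n| * K ≤ 1) → Real.exp (-y) * T.mu ≤ ∑ z ∈ E, T.wgt z →
  ∃ (b : ℕ) (e : Pl ι), 1 ≤ b ∧ (b : ℝ) ≤ Real.exp (D * y) ∧
    IsWeightedHomogeneous T.lev e d ∧ nrm e * K ≤ Real.exp (D * y) ∧
    IsInt (C (b : ℝ) * T.top d G - T.TTh e)

theorem smallM_of_dap (hD : DAPMStmt) : SmallMStmt := by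
  intro l s d
  obtain ⟨D, hD⟩ := hD (l + 1) (s + 1) (0 + d)
  refine ⟨(3 * D + 4) * D + 3 * D + 1, ?_⟩
  intro ι _ T cl τ G y K E hm hl hs hG hy hτ hR hK hE hδ
  have hL : 0 ≤ Real.log (Fintype.card ι + 2) :=
    Real.log_nonneg (by linarith [Nat.cast_nonneg (α := ℝ) (Fintype.card ι)])
  have hy2 : 2 ≤ y := by linarith
  have hK0 : 0 < K := (Real.exp_pos _).trans_le hK
  have hD0 : (0 : ℝ) ≤ D := Nat.cast_nonneg D
  have hDy : D * (3 * y) + y ≤ (((3 * D + 4) * D + 3 * D + 1 : ℕ) : ℝ) * y := by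
    push_cast
    nlinarith [mul_nonneg (mul_nonneg hD0 hD0) (by linarith : 0 ≤ y),
      mul_nonneg hD0 (by linarith : 0 ≤ y)]
  have hK1 : 1 ≤ K :=
    le_trans (Real.one_le_exp (mul_nonneg (Nat.cast_nonneg _) (by linarith))) hK
  have hτ0 : 0 ≤ τ (l + 1) := le_trans (by positivity) hτ
  have hR' := regM_mono hR (D' := D) (by nlinarith) (by omega) hτ0
  have hne : ∀ c, cl c ≠ l + 1 := fun c => by have := hl c; omega
  have hk : (T.ext K hK0 0).kapM (extCl cl (l + 1)) (l + 1) ≤ 3 := by
    rw [Cell.ext_kapM, if_pos rfl, Cell.kapM_eq]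
    simp only [hne, if_false, Finset.sum_const_zero]
    have h1 : |K⁻¹| ≤ 1 := by rw [abs_of_pos (inv_pos.2 hK0)]; exact inv_le_one_of_one_le₀ hK1
    have := Real.log_le_sub_one_of_pos (show 0 < 1 + |K⁻¹| by positivity)
    linarith
  have hk1 := Cell.one_le_kapM (T.ext K hK0 0) (extCl cl (l + 1)) (l + 1)
  obtain ⟨b, e, hb, hb', he, hn, hI⟩ := hD (Option ι) (T.ext K hK0 0) (extCl cl (l + 1))
    (fun j => if j ≤ l + 1 then τ j else D * (3 * y)) (X none * rename some G) (3 * y)
    (T.ext_isMC hK0 0 hm (Nat.succ_pos l))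
    (fun c => by
      cases c with
      | none => exact le_rfl
      | some c => exact (hl c).trans (Nat.le_succ l))
    (fun c => by
      cases c with
      | none => exact Nat.succ_le_succ (Nat.zero_le s)
      | some c => exact (hs c).trans (Nat.le_succ s))
    (T.ext_degLe hK0 0 hG)
    (by
      have h1 : Real.log (Fintype.card (Option ι) + 2) ≤
          Real.log (2 * (Fintype.card ι + 2)) := by
        rw [Fintype.card_option]
        push_cast
        exact Real.log_le_log (by positivity)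
          (by linarith [Nat.cast_nonneg (α := ℝ) (Fintype.card ι)])
      rw [Real.log_mul two_ne_zero (by positivity)] at h1
      linarith [Real.log_le_sub_one_of_pos (show (0 : ℝ) < 2 by norm_num)])
    (by rw [if_neg (by omega)])
    (by
      intro j hj hjl
      rcases Nat.lt_or_eq_of_le hjl with h | rfl
      · have h1 := hR' j hj (by omega)
        simp only [if_pos hjl, if_pos (show j + 1 ≤ l + 1 by omega)]
        rw [Cell.ext_kapM, if_neg (by omega), add_zero]
        exact ⟨h1.1, T.ext_regAtM_ne hK0 0 (by omega) h1.2⟩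
      · simp only [if_pos hjl, if_neg (show ¬ l + 1 + 1 ≤ l + 1 by omega)]
        refine ⟨le_trans ?_ hτ, T.ext_regAtM_top hK0 0 hne (lt_of_lt_of_le ?_ hK) _⟩
        · have h2 : ((3 * D + 3 : ℕ) : ℝ) ≤ y ^ (3 * D + 3) :=
            le_trans (by exact_mod_cast Nat.lt_two_pow_self.le)
              (pow_le_pow_left₀ zero_le_two hy2 _)
          have h3 : D * (3 * y) + (T.ext K hK0 0).kapM (extCl cl (l + 1)) (l + 1) ≤
              y ^ (3 * D + 4) := by
            rw [pow_succ]
            push_cast at h2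
            nlinarith
          calc _ ≤ (y ^ (3 * D + 4)) ^ D := pow_le_pow_left₀ (by positivity) h3 _
            _ ≤ _ := by rw [← pow_mul]; exact pow_le_pow_right₀ (by linarith) (by omega)
        · refine lt_of_lt_of_le ?_ (Real.exp_le_exp.2 hDy)
          rw [Real.exp_add]
          refine mul_lt_mul_of_pos_left (hk.trans_lt ?_) (Real.exp_pos _)
          linarith [Real.add_one_lt_exp (show y ≠ 0 by linarith)])
    (by
      refine le_trans ?_ (T.toTri.ext_bias hK0 G E hE hδ)
      refine mul_le_mul_of_nonneg_right ?_ (Tri.mu_pos _).le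
      rw [← Real.exp_add]
      exact Real.exp_le_exp.2 (by linarith))
  obtain ⟨e', he', hn', hI'⟩ := T.ext_rel hK0 0 hG he hI
  have h4 := Real.exp_le_exp.2 (show D * (3 * y) ≤ _ from le_trans (by linarith) hDy)
  exact ⟨b, e', hb, hb'.trans h4, he', hn'.trans (hn.trans h4), hI'⟩

end Crest.Agent.T49.Tw
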