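import Crest.Agent.T49.LtrB_33
import Crest.Agent.T49.LtrS_33
import Crest.Agent.T49.NilCnt_14

/-!
# Row 49 (helper33): LT_rel from the first moment over lines, absolute `LT`, the oracle and `gfact`
-/

set_option autoImplicit false

noncomputable section

namespace Crest.Agent.T49.Ltr

open Finset MvPolynomial
open Crest.Agent.T49.Nil Crest.Agent.T49.Nil.ND Crest.Agent.T49.Gl Crest.Agent.T49.Tw

/-- on a short line of the bulk the cheap factor can be dropped -/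
theorem drop_cheap {κ : Type} [Fintype κ] {T : Cell κ} {D s : ℕ} (hs : ∀ c, T.lev c ≤ s)
    {M σ ρ R δ : ℝ} {a G : (κ → ℤ) → ℂ} {b : ℕ} (ha1 : ∀ z, ‖a z‖ ≤ 1) (hM : 0 ≤ M)
    (ha : ∀ z z' : κ → ℤ, (∀ c, (b : ℤ) ∣ z c - z' c) →
      ‖a z - a z'‖ ≤ M * ∑ c, |ev z (T.th c) - ev z' (T.th c)|)
    (hG : ∀ z, ‖G z‖ ≤ 1) (hσ : 0 < σ) (hρ0 : 0 ≤ ρ) (hρ : ρ ≤ 1) (V : Frm D T.lev)
    (hV : fq T σ V ≤ R) (B : Finset (Fin D → ℤ))
    (hB : ∀ k ∈ B, ∀ i, |((b * k i : ℤ) : ℝ)| * σ ≤ ρ)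
    (h : M * (Fintype.card κ * (#(mi D s) + R)) * ρ ≤ δ / 8)
    (hb : δ / 4 * #B ≤ ‖∑ k ∈ B, a (V.pt fun i => b * k i) * G (V.pt fun i => b * k i)‖) :
    δ / 8 * #B ≤ ‖∑ k ∈ B, G (V.pt fun i => b * k i)‖ := by
  have h1 : ‖∑ k ∈ B, a (V.pt fun i => b * k i) * G (V.pt fun i => b * k i) -
      a (V.pt 0) * ∑ k ∈ B, G (V.pt fun i => b * k i)‖ ≤ #B * (δ / 8) := by
    rw [mul_sum, ← sum_sub_distrib, ← nsmul_eq_mul, ← sum_const]
    refine (norm_sum_le _ _).trans (sum_le_sum fun k hk => ?_)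
    rw [← sub_mul, norm_mul]
    refine (mul_le_of_le_one_right (norm_nonneg _) (hG _)).trans ((ha _ _ fun c =>
      dvd_pt_sub V (fun i => by simp) c).trans (le_trans ?_ h))
    rw [mul_assoc]
    refine mul_le_mul_of_nonneg_left ?_ hM
    rw [mul_assoc, ← nsmul_eq_mul, ← card_univ, ← sum_const]
    refine sum_le_sum fun c _ => (abs_th_pt_sub_le T V hs hσ hρ0 hρ (hB k hk) c).trans ?_
    rw [mul_comm]
    exact mul_le_mul_of_nonneg_right (add_le_add le_rfl hV) hρ0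
  have h2 := norm_sub_norm_le
    (∑ k ∈ B, a (V.pt fun i => b * k i) * G (V.pt fun i => b * k i))
    (a (V.pt 0) * ∑ k ∈ B, G (V.pt fun i => b * k i))
  rw [norm_mul] at h2
  nlinarith [mul_le_of_le_one_left (norm_nonneg (∑ k ∈ B, G (V.pt fun i => b * k i)))
    (ha1 (V.pt 0))]

set_option maxHeartbeats 1600000 in
theorem ltR_of (hLT : LTStmt) (hA : AllDerMStmt) (hF : FmomStmt) (hO : OrcStmt) : LtRStmt := by
  intro S s l s' hs1
  obtain ⟨CL, hL⟩ := hLT S s 1 hs1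
  obtain ⟨CA, hA⟩ := hA l s'
  obtain ⟨CF, hCF, hF⟩ := hF 1 s'
  obtain ⟨CO, hO⟩ := hO 1 l s' S one_pos
  obtain ⟨CG, hG⟩ := Gf.gfact S (CO + 1)
  have hCF' : (1 : ℝ) ≤ CF := by exact_mod_cast hCF
  obtain ⟨a1, h1⟩ : ∃ C : ℕ, ∀ (m ρ : ℝ) (n : ℕ), 2 ≤ m → (n : ℝ) ≤ m → 0 ≤ ρ →
      ρ ≤ Real.exp (-m ^ C) → CF * (1 + n) * ρ ≤ Real.exp (-m) / 8 := by qp
  obtain ⟨a2, h2⟩ : ∃ C : ℕ, ∀ (m ρ : ℝ) (n : ℕ), 2 ≤ m → (n : ℝ) ≤ m → 0 ≤ ρ →
      ρ ≤ Real.exp (-m ^ C) → CF * ρ ≤ Real.exp (-m ^ a1) ∧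
      Real.exp m * (n * (#(mi 1 s') + Real.exp (m ^ a1))) * ρ ≤ Real.exp (-m) / 8 := by qp
  obtain ⟨a3, h3⟩ : ∃ C : ℕ, ∀ (m : ℝ) (n b : ℕ), 2 ≤ m → (n : ℝ) ≤ m → 1 ≤ b →
      (b : ℝ) ≤ Real.exp m → (m + 3) ^ CL ≤ m ^ C ∧ m + 4 ≤ m ^ C ∧
      Real.exp (-m ^ C) ≤ Real.exp (-m) / 8 /
        (Real.exp (((m + 3) ^ (CL + 1)) ^ (S + 5)) * Real.exp ((m + 3) ^ CL)) ∧
      #(mi 1 s') + Real.exp (m ^ a1) ≤ Real.exp (m ^ C) ∧
      Real.exp (-m ^ C) ≤ Real.exp (-m ^ a2) / Real.exp m := by qp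
  obtain ⟨a4, h4⟩ : ∃ C : ℕ, ∀ m : ℝ, 2 ≤ m → (m ^ a3) ^ CG ≤ m ^ C ∧
      CO * (m ^ a3) ^ CG ≤ m ^ C ∧ (m + 3) ^ CL ≤ m ^ C := by qp
  obtain ⟨a5, h5⟩ : ∃ C : ℕ, ∀ m : ℝ, 2 ≤ m → Real.exp (-m ^ C) ≤
      Real.exp (-m ^ a2) / (Real.exp m * (Real.exp (m ^ a4) + 1)) := by qp
  obtain ⟨C, hC1, hC2, hC3, h6⟩ : ∃ C : ℕ, 1 ≤ C ∧ CA ≤ C ∧ CO ≤ C ∧ ∀ m : ℝ, 2 ≤ m →
      CF * m ^ a5 + m + 4 + 2 * m ^ a1 + 2 * (CF * m ^ a5) ≤ m ^ C ∧
      ((m ^ a3) ^ CG + m ^ a5) ^ CO ≤ m ^ C ∧ (m ^ a3) ^ CG ≤ m ^ C ∧ m ^ a3 ≤ m ^ C := by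
    have : ∀ᶠ C : ℕ in Filter.atTop, ∀ m : ℝ, 2 ≤ m →
      CF * m ^ a5 + m + 4 + 2 * m ^ a1 + 2 * (CF * m ^ a5) ≤ m ^ C ∧
      ((m ^ a3) ^ CG + m ^ a5) ^ CO ≤ m ^ C ∧ (m ^ a3) ^ CG ≤ m ^ C ∧ m ^ a3 ≤ m ^ C := by qp
    exact ((Filter.eventually_ge_atTop 1).and ((Filter.eventually_ge_atTop CA).and
      ((Filter.eventually_ge_atTop CO).and this))).exists
  refine ⟨C, hC1, fun m hm ι κ _ _ T cl τ N η F P a hmc hl hs hκ hR hτ hι hN hch hP ha hb => ?_⟩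
  obtain ⟨ha1, b, hb1, hb2, ha⟩ := ha
  obtain ⟨b21, b22⟩ := h2 m _ _ hm hκ (Real.exp_pos _).le le_rfl
  obtain ⟨b31, b32, b33, b34, b35⟩ := h3 m _ b hm hκ hb1 hb2
  obtain ⟨b41, b42, b43⟩ := h4 m hm
  obtain ⟨b61, b62, b63, b64⟩ := h6 m hm
  have b1 := h1 m _ _ hm hκ (Real.exp_pos _).le le_rfl
  have b5 := h5 m hm
  clear h1 h2 h3 h4 h5 h6
  set ρ₁ := Real.exp (-m ^ a1) with hρ₁
  set ρ := Real.exp (-m ^ a2) with hρ
  set y := m ^ a3 with hy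
  set L : ℕ := ⌈Real.exp (m ^ a4)⌉₊ with hLdef
  have hL1 : Real.exp (m ^ a4) ≤ L := Nat.le_ceil _
  have hL2 : (L : ℝ) ≤ Real.exp (m ^ a4) + 1 := (Nat.ceil_lt_add_one (Real.exp_pos _).le).le
  have hL0 : (0 : ℝ) < L := (Real.exp_pos _).trans_le hL1
  have hb0 : (1 : ℝ) ≤ b := by exact_mod_cast hb1
  have pw : ∀ k : ℕ, 1 ≤ m ^ k := fun k => one_le_pow₀ (by linarith)
  have hρ0 : 0 < ρ := Real.exp_pos _
  have hρ1 : ρ ≤ 1 := Real.exp_le_one_iff.2 (by linarith [pw a2])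
  have hρ₁0 : 0 < ρ₁ := Real.exp_pos _
  have hρ₁1 : ρ₁ ≤ 1 := Real.exp_le_one_iff.2 (by linarith [pw a1])
  have hL1' : (1 : ℝ) ≤ L := le_trans (Real.one_le_exp (by linarith [pw a4])) hL1
  set σ := ρ / (b * L) with hσ
  have hσ0 : 0 < σ := by positivity
  have hσL : σ * (b * L) = ρ := div_mul_cancel₀ _ (by positivity)
  have hσ1 : σ ≤ 1 := (div_le_one (by positivity)).2 (hρ1.trans (one_le_mul_of_one_le_of_one_le hb0 hL1'))
  have hσu : Real.exp (-m ^ a5) ≤ σ := b5.trans (div_le_div_of_nonneg_left hρ0.le (by positivity)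
    (mul_le_mul hb2 hL2 hL0.le (Real.exp_pos _).le))
  have hlog : Real.log (Fintype.card κ + 2) ≤ m + 1 := by
    have := Real.log_le_sub_one_of_pos (show (0 : ℝ) < Fintype.card κ + 2 by positivity)
    linarith
  have hτ0 : 0 ≤ τ (l + 1) := le_trans (by positivity) hτ
  have hPC := (hA κ T cl τ (CF * m ^ a5) (CF * m ^ a5 + m + 4 + 2 * m ^ a1) hmc hl hs
    (Gain.regM_mono hR hC2 hC1 hτ0) (by linarith [pw a1]) (b61.trans hτ)).2
  have hη : Real.exp (-(CF * m ^ a5 + m + 4 + 2 * m ^ a1)) ≤ ρ₁ ^ 2 := by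
    rw [hρ₁, ← Real.exp_nat_mul]
    refine Real.exp_le_exp.2 ?_
    have : 0 ≤ CF * m ^ a5 := by positivity
    push_cast
    linarith
  obtain ⟨f1, f2, f3, f4⟩ := hF κ T σ _ ρ₁ (ρ₁ ^ 2) hs (pw a5) hσu hσ1 hρ₁0 hρ₁1
    (pow_le_one₀ hρ₁0.le hρ₁1) (Cell.allPC_mono hPC le_rfl hη)
  rw [Real.sqrt_sq hρ₁0.le] at f4
  have hμ := fmu_pos T 1 hσ0
  set B : Finset (Fin 1 → ℤ) := ibox 0 fun _ => L with hB
  have hBc : (L : ℝ) ≤ #B := by
    rw [hB, ibox, Fintype.card_piFinset]; simp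
  have hBk : ∀ k ∈ B, ∀ i, |((b * k i : ℤ) : ℝ)| * σ ≤ ρ := by
    intro k hk i
    obtain ⟨c1, c2⟩ := mem_ibox.1 hk i
    have c3 : (0 : ℝ) ≤ k i := by exact_mod_cast c1
    have c4 : (k i : ℝ) ≤ L := by exact_mod_cast c2
    push_cast
    rw [abs_of_nonneg (by positivity), ← hσL, mul_comm]
    gcongr
  have hF1 : ∀ z, ‖F (N.evZ z P)‖ ≤ 1 := fun z => hch.bdd _
  have hf : ∀ z, ‖a z * F (N.evZ z P)‖ ≤ 1 := fun z => by
    rw [norm_mul]; exact mul_le_one₀ (ha1 z) (norm_nonneg _) (hF1 z)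
  obtain ⟨Z, hZ, hZ'⟩ := exists_family (fun V => (Real.exp_pos _).le) f1 hμ (Real.exp_pos (-m)) f2
    (fun V => fq T σ V ≤ ρ₁⁻¹)
    (by
      refine le_trans (le_of_eq (tsum_congr fun V => by congr)) (f3.trans
        (mul_le_mul_of_nonneg_right (le_trans ?_ b1) hμ.le))
      rw [mul_assoc]
      refine mul_le_mul_of_nonneg_left ?_ (by linarith)
      nlinarith)
    B (card_pos.1 (by exact_mod_cast hL0.trans_le hBc))
    (fun V k => a (V.pt fun i => b * k i) * F (N.evZ (V.pt fun i => b * k i) P))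
    (fun V k => hf _) (A := (∑' z, (T.wgt z : ℂ) * (a z * F (N.evZ z P))) / T.mu)
    (by
      rw [norm_div, Complex.norm_real, Real.norm_of_nonneg T.mu_pos.le, le_div_iff₀ T.mu_pos]
      exact hb)
    (fun k hk => (f4 _ (fun i => (mul_le_mul_of_nonneg_right (hBk k hk i) (by linarith)).trans
      (by linarith)) _ hf).trans (le_trans (le_of_eq (by ring)) b1))
  have hm3 : 2 ≤ m + 3 := by linarith
  have he3 : Real.exp m ≤ Real.exp (m + 3) := Real.exp_le_exp.2 (by linarith)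
  have hy1 : (m + 3) ^ CL ≤ (m + 3) ^ (CL + 1) := pow_le_pow_right₀ (by linarith) (by omega)
  have hy2 : m + 3 ≤ (m + 3) ^ (CL + 1) := le_self_pow₀ (by linarith) (by omega)
  obtain ⟨⟨H, q⟩, ⟨⟨hH, hHr⟩, hq1, hq2⟩, Z', hZZ, hne, hw, hZ''⟩ :=
    ((cnt_grSub_exp N hN.wt_le (m := (m + 3) ^ (CL + 1)) (by linarith) (by linarith)).prod
      (cnt_nat (Real.exp_pos ((m + 3) ^ CL)).le)).pigeon_wt (Z := Z)
    (by
      by_contra h
      rw [not_nonempty_iff_eq_empty.1 h, sum_empty] at hZ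
      exact absurd hZ (not_le.2 (by positivity)))
    (fw T σ) (fun V _ => (Real.exp_pos _).le)
    (fun V x => (∀ i, N.RatS (Real.exp ((m + 3) ^ CL)) (x.1 i)) ∧ (∀ v ∈ x.1 s, N.fn η v = 0) ∧
      N.FactQ S L (Real.exp ((m + 3) ^ CL)) x.2 x.1 (N.subst (rld V b) P))
    (by
      intro V hV
      have d1 := drop_cheap hs ha1 (Real.exp_pos m).le ha hF1 hσ0 hρ0.le hρ1 V (hZ' V hV).1 B hBk
        (by rwa [hρ₁, ← Real.exp_neg, neg_neg]) (hZ' V hV).2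
      obtain ⟨H, e1, e2, e3, q, e4, e5, e6⟩ := hL (m + 3) hm3 ι (Fin 1) N η F
        (N.subst (rld V b) P) L 0 (fun _ => L) (by simp) (by linarith) (hN.mono he3) (hch.mono he3)
        (Gf.subst_mem_cf (rld_degLe V b) grSub_F.anti hP)
        ((Real.exp_le_exp.2 b43).trans hL1) (fun v => by simp [hL0.le])
        (by
          simp only [evZ_rld]
          refine le_trans ?_ d1
          rw [Fintype.card_fin, pow_one]
          refine mul_le_mul ?_ hBc hL0.le (by positivity)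
          rw [neg_add, Real.exp_add, div_eq_mul_inv]
          refine mul_le_mul_of_nonneg_left ?_ (Real.exp_pos _).le
          rw [Real.exp_neg]
          refine inv_anti₀ (by norm_num) ?_
          have := Real.quadratic_le_exp_of_nonneg (show (0 : ℝ) ≤ 3 by norm_num)
          linarith)
      exact ⟨(H, q), ⟨⟨e1, fun i => (e2 i).mono (Real.exp_le_exp.2 hy1)⟩, e4, e5⟩, e2, e3, e6⟩)
  obtain ⟨V₀, hV₀⟩ := hne
  have hey := Real.exp_le_exp.2 b31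
  have hmy : Real.exp m ≤ Real.exp y := Real.exp_le_exp.2 (by linarith)
  have hmass : Real.exp (-y) * fmu T 1 σ ≤ fm T σ Z' := by
    refine (mul_le_mul_of_nonneg_right b33 hμ.le).trans ?_
    rw [div_mul_eq_mul_div, div_le_iff₀ (by positivity), mul_comm (fm T σ Z')]
    exact hZ.trans hw
  have hσL' : Real.exp (-y) ≤ σ * L := by
    refine b35.trans ?_
    rw [div_le_iff₀ (Real.exp_pos m), ← hσL, mul_assoc, mul_comm (L : ℝ)]
    gcongr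
  obtain ⟨q', g1, g2, g3⟩ := hG y (by linarith) ι κ (Fin 1) Z' N T.lev T.tth
    (fun V => tpd V.1 b) H L q P (by linarith) hN.wt_le (fun i j k => (hN.c_le i j k).trans hmy) hH
    (fun i => ((hZ'' V₀ hV₀).1 i).mono hey) T.lev_pos T.tth_hom (fun V => tpd_isInt V.1 b)
    (fun V => tpd_degLe V.1 b)
    (fun V c => (nrmL_tpd_le T V.1 hs hσ0 hL0.le (hσL.trans_le hρ1) c).trans (le_trans
      (add_le_add le_rfl ((hZ' V.1 (hZZ V.2)).1.trans_eq (by rw [hρ₁, ← Real.exp_neg, neg_neg])))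
      b34))
    ((Real.exp_le_exp.2 b41).trans hL1)
    (fun u hu hu' => by
      have hu0 : Real.exp (-u) ≤ Real.exp (-y) := Real.exp_le_exp.2 (by linarith)
      refine (hO κ T cl τ σ L _ u b Z' hmc hl hs (Gain.regM_mono hR hC3 hC1 hτ0) (by linarith)
        (pw a5) hσu hσ1 (le_trans (pow_le_pow_left₀ (by linarith [pw a5]) (by linarith) _)
          (b62.trans hτ)) ((mul_le_mul_of_nonneg_right hu0 hμ.le).trans hmass) hb1
        (hb2.trans (Real.exp_le_exp.2 (by linarith))) (hu0.trans hσL')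
        ((Real.exp_le_exp.2 ((mul_le_mul_of_nonneg_left hu' (Nat.cast_nonneg _)).trans
          b42)).trans hL1)).mono le_rfl (Real.exp_le_exp.2 ?_)
      rw [pow_succ]
      refine mul_le_mul_of_nonneg_right (le_trans ?_ (pow_le_pow_left₀ zero_le_two
        (by linarith) _)) (by linarith)
      exact_mod_cast Nat.lt_two_pow_self.le)
    hq1 (hq2.trans hey) hP
    (fun V => factQ_tpd V.1 hN.wt_le hH hP ((hZ'' V.1 V.2).2.2.mono hey dvd_rfl))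
  obtain ⟨ε, k1, h, k2, γ, k3, k4, k5, k6⟩ := g3
  have hE := Real.exp_le_exp.2 b63
  exact ⟨H, q', hH, fun i => ((hZ'' V₀ hV₀).1 i).mono (hey.trans (Real.exp_le_exp.2 b64)),
    (hZ'' V₀ hV₀).2.1, g1, g2.trans hE, ε, k1, h, k2, γ, k3, k4.mono hE, k5, k6, trivial⟩

end Crest.Agent.T49.Ltr
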