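import Crest.Agent.T49.LtrDef_33
import Crest.Agent.T49.FmFib_17

/-!
# Row 49 (helper33): mass, bulk and first moment of the natural frames
-/

set_option autoImplicit false

noncomputable section

namespace Crest.Agent.T49.Ltr

open Finset MvPolynomial
open Crest.Agent.T49.Gl Crest.Agent.T49.Tw Crest.Agent.T49.Fm

/-- (REB) sharp rebasing -/
def RebStmt : Prop := ∀ D s : ℕ, ∃ C : ℕ, ∀ (κ : Type) [Fintype κ] (T : Cell κ) (σ ρ : ℝ)
  (t : Fin D → ℤ), (∀ c, T.lev c ≤ s) → 0 < σ → 0 < ρ → ρ ≤ 1 → (∀ i, |(t i : ℝ)| * σ * C ≤ ρ) →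
  ∃ e : Frm D T.lev ≃ Frm D T.lev, ∀ V, (e V).pt 0 = V.pt t ∧
    fq T σ V ≤ (1 + ρ) ^ 2 * fq T σ (e V)

theorem norm_tsum_sub_le {Ω : Type} {w w' : Ω → ℝ} (hw : Summable w) (hw' : Summable w')
    (h0 : ∀ V, 0 ≤ w' V) (h : ∀ V, w' V ≤ w V) {f : Ω → ℂ} (hf : ∀ V, ‖f V‖ ≤ 1) :
    ‖∑' V, (w V : ℂ) * f V - ∑' V, (w' V : ℂ) * f V‖ ≤ ∑' V, w V - ∑' V, w' V := by
  have hs : ∀ {v : Ω → ℝ}, Summable v → (∀ V, 0 ≤ v V) → Summable fun V => (v V : ℂ) * f V :=
    fun hv h0 => .of_norm_bounded hv fun V => by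
      rw [norm_mul, Complex.norm_real, Real.norm_of_nonneg (h0 V)]
      exact mul_le_of_le_one_right (h0 V) (hf V)
  rw [← (hs hw fun V => (h0 V).trans (h V)).tsum_sub (hs hw' h0), ← hw.tsum_sub hw']
  refine tsum_of_norm_bounded (hw.sub hw').hasSum fun V => ?_
  rw [← sub_mul, ← Complex.ofReal_sub, norm_mul, Complex.norm_real,
    Real.norm_of_nonneg (sub_nonneg.2 (h V))]
  exact mul_le_of_le_one_right (sub_nonneg.2 (h V)) (hf V)

/-- the slightly narrower law has almost the same mass -/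
theorem narrow_mass {κ : Type} [Fintype κ] (T : Cell κ) {D s : ℕ} (hs : ∀ c, T.lev c ≤ s)
    {σ v x η ρ : ℝ} (hσ : 0 < σ) (hv : 0 ≤ v) (h : σ⁻¹ ≤ Real.exp v) (hA : T.AllPC x η)
    (hx : fl D s (s * v + 1) ≤ x) (hη0 : 0 ≤ η) (hη : η ≤ 1) (hρ : 0 < ρ) (hρ1 : ρ ≤ 1) :
    Summable (fun V : Frm D T.lev => Real.exp (-Real.pi * ((1 + ρ) ^ 2 * fq T σ V))) ∧
    (1 - η - ρ * ((s + 1) ^ D * Fintype.card κ)) * fmu T D σ ≤
      ∑' V : Frm D T.lev, Real.exp (-Real.pi * ((1 + ρ) ^ 2 * fq T σ V)) := by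
  have hk : 0 < (1 + ρ)⁻¹ := by positivity
  have e : ∀ z, Real.exp (-Real.pi * ((1 + ρ) ^ 2 * fq T σ (frE D T.lev z))) =
      ((nat κ D σ hσ).wide _ hk).wt T (((nat κ D σ hσ).wide _ hk).fr z) := fun z => by
    rw [Sh.wt, Sh.wide_qf, Sh.wide_fr, fq_eq T hσ, frE_W σ hσ, inv_pow, div_inv_eq_mul,
      mul_comm ((1 + ρ) ^ 2)]
  refine ⟨(frE D T.lev).summable_iff.1 ((Sh.summable _ T).congr fun z => (e z).symm), ?_⟩
  have h1 := ((nat κ D σ hσ).wide _ hk).le_M T hs ((nat_ok hs hσ hv h).wide hk zero_le_one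
    (by rw [inv_inv]; linarith [Real.add_one_le_exp (1 : ℝ)])) hA hx
  rw [← (frE D T.lev).tsum_eq]
  simp only [e]
  refine le_trans ?_ h1
  rw [Sh.wide_mu, ← fmu_eq T D hσ, ← mul_assoc (1 - η)]
  refine mul_le_mul_of_nonneg_right ?_ (fmu_pos T D hσ).le
  have h2 : (Fintype.card (FI D T.lev) : ℝ) ≤ (s + 1) ^ D * Fintype.card κ := by
    exact_mod_cast card_FI_le T hs
  generalize Fintype.card (FI D T.lev) = n at h2 ⊢
  have h3 : 1 - ρ ≤ (1 + ρ)⁻¹ := by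
    rw [← one_div, le_div_iff₀ (by linarith)]; nlinarith
  have h4 : 1 + n * -ρ ≤ (1 + ρ)⁻¹ ^ n :=
    (one_add_mul_le_pow (by linarith) n).trans (pow_le_pow_left₀ (by linarith) h3 n)
  have h5 := mul_le_mul_of_nonneg_left h4 (sub_nonneg.2 hη)
  have h6 := mul_le_mul_of_nonneg_left h2 hρ.le
  nlinarith [mul_nonneg hη0 (mul_nonneg (Nat.cast_nonneg (α := ℝ) n) hρ.le)]

theorem fmom_of (hR : RebStmt) : FmomStmt := by
  intro D s
  obtain ⟨CR, hR⟩ := hR D s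
  obtain ⟨C₀, hC₀, c1, c2, c3, c4⟩ : ∃ C : ℕ, 1 ≤ C ∧ (CR : ℝ) ≤ C ∧ 2 * ((s : ℝ) + 1) ^ D ≤ C ∧
      (7 : ℝ) ≤ C ∧
      ((s : ℝ) + 5) * ((s + 1) ^ (D + 1) * ((s + 1) * (s + 1) + s ^ 2 + 1)) ≤ C := by
    have h0 : 0 ≤ ((s : ℝ) + 5) * ((s + 1) ^ (D + 1) * ((s + 1) * (s + 1) + s ^ 2 + 1)) := by
      positivity
    have h1 : (0 : ℝ) < (s + 1) ^ D := by positivity
    have h2 : (0 : ℝ) ≤ CR := Nat.cast_nonneg CR
    refine ⟨CR + (s + 5) * ((s + 1) ^ (D + 1) * ((s + 1) * (s + 1) + s ^ 2 + 1)) +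
      2 * (s + 1) ^ D + 7, by omega, ?_⟩
    push_cast
    exact ⟨by linarith, by linarith, by linarith, by linarith⟩
  refine ⟨C₀, hC₀, ?_⟩
  intro κ _ T σ u ρ η hs hu hσu hσ1 hρ hρ1 hη hA
  have hσ : 0 < σ := (Real.exp_pos _).trans_le hσu
  have hv : σ⁻¹ ≤ Real.exp u := by
    rw [inv_le_comm₀ hσ (Real.exp_pos _), ← Real.exp_neg]; exact hσu
  have hs0 : (0 : ℝ) ≤ s := Nat.cast_nonneg s
  have hR0 : (0 : ℝ) ≤ CR := Nat.cast_nonneg CR
  have hp : (0 : ℝ) < (s + 1) ^ D := by positivity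
  generalize (C₀ : ℝ) = C at *
  have hx : (s + 5) * fl D s (s * u + 1) ≤ C * u := by
    refine le_trans ?_ (mul_le_mul_of_nonneg_right c4 (by linarith))
    rw [fl, mul_assoc, mul_assoc]
    gcongr
    nlinarith [mul_nonneg hs0 (sub_nonneg.2 hu), mul_nonneg (sq_nonneg (s : ℝ)) (sub_nonneg.2 hu)]
  have hf0 : fl D s (s * u) ≤ fl D s (s * u + 1) := by unfold fl; gcongr; linarith
  have hf1 := Sh.one_le_fl D s (show 0 ≤ s * u by positivity)
  have hx1 : fl D s (s * u + 1) ≤ C * u := by nlinarith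
  have hx2 : (s + 5) * fl D s (s * u) ≤ C * u := le_trans (by gcongr) hx
  have hη0 : 0 ≤ η := (abs_nonneg _).trans (Cell.allPC_self hA (by linarith))
  have hμ := fmu_pos T D hσ
  have hw := summable_fw (D := D) T hσ
  have hM := fw_mass_le (D := D) T hs hσ (by linarith) hv hA (hf0.trans hx1)
  obtain ⟨hw', hM'⟩ := narrow_mass (D := D) T hs hσ (by linarith) hv hA hx1 hη0 hη hρ hρ1
  set w' := fun V : Frm D T.lev => Real.exp (-Real.pi * ((1 + ρ) ^ 2 * fq T σ V)) with hw'def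
  have hq0 : ∀ V : Frm D T.lev, 0 ≤ fq T σ V :=
    fun V => sum_nonneg fun _ _ => sum_nonneg fun _ _ => sq_nonneg _
  have hle : ∀ {a b : ℝ}, a ≤ b → Real.exp (-Real.pi * b) ≤ Real.exp (-Real.pi * a) :=
    fun h => Real.exp_le_exp.2 (by nlinarith [Real.pi_pos])
  have h1 : ∀ V, w' V ≤ fw T σ V := fun V =>
    hle (le_mul_of_one_le_left (hq0 V) (one_le_pow₀ (by linarith)))
  have hn : (0 : ℝ) ≤ ρ * Fintype.card κ := by positivity
  have hd : ∑' V : Frm D T.lev, fw T σ V - ∑' V, w' V ≤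
      (2 * η + (s + 1) ^ D * (ρ * Fintype.card κ)) * fmu T D σ := by linarith
  refine ⟨hw, by linarith [mul_le_mul_of_nonneg_right hη hμ.le], ?_, fun t ht f hf => ?_⟩
  · refine le_trans (Summable.tsum_le_tsum (g := fun V => 2 * (fw T σ V - w' V)) (fun V => ?_)
      (hw.of_nonneg_of_le (fun V => by split_ifs; exacts [le_rfl, (fw_pos T σ V).le])
        fun V => by split_ifs; exacts [(fw_pos T σ V).le, le_rfl]) ((hw.sub hw').mul_left 2)) ?_
    · split_ifs with h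
      · linarith [h1 V]
      · have h2 : 1 < ρ * fq T σ V := by
          rw [not_le, inv_lt_iff_one_lt_mul₀' hρ] at h; exact h
        have h3 : w' V ≤ fw T σ V * Real.exp (-1) := by
          rw [fw, ← Real.exp_add]
          refine Real.exp_le_exp.2 ?_
          have h5 : fq T σ V + 2 ≤ (1 + ρ) ^ 2 * fq T σ V := by
            linarith [mul_nonneg (sq_nonneg ρ) (hq0 V)]
          linarith [Real.pi_gt_three, mul_le_mul_of_nonneg_left h5 Real.pi_pos.le]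
        have h4 : Real.exp (-1) ≤ 1 / 2 := by
          rw [Real.exp_neg, one_div]
          exact inv_anti₀ two_pos (by linarith [Real.add_one_le_exp (1 : ℝ)])
        linarith [mul_le_mul_of_nonneg_left h4 (fw_pos T σ V).le]
    · rw [tsum_mul_left, hw.tsum_sub hw']
      refine le_trans (mul_le_mul_of_nonneg_left hd zero_le_two) ?_
      rw [← mul_assoc]
      refine mul_le_mul_of_nonneg_right ?_ hμ.le
      linarith [mul_le_mul_of_nonneg_right c2 hn, mul_le_mul_of_nonneg_right c3 hη0]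
  · obtain ⟨e, he⟩ := hR κ T σ ρ t hs hσ hρ hρ1 fun i =>
      le_trans (mul_le_mul_of_nonneg_left c1 (by positivity)) (ht i)
    have a1 := norm_tsum_sub_le hw (e.summable_iff.2 hw') (fun V => (Real.exp_pos _).le)
      (fun V => hle (he V).2) (f := fun V => f ((e V).pt 0)) fun V => hf _
    have a2 := norm_tsum_sub_le hw hw' (fun V => (Real.exp_pos _).le) h1
      (f := fun V => f (V.pt 0)) fun V => hf _
    have a3 := fw_fib (D := D) T hs hσ (by linarith) hv hA hx2 hη hf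
    simp only [Function.comp_apply] at a1
    rw [e.tsum_eq w', e.tsum_eq fun V => (w' V : ℂ) * f (V.pt 0)] at a1
    simp only [(he _).1] at a1
    have a4 : ‖(∑' V : Frm D T.lev, (fw T σ V : ℂ) * f (V.pt t)) / fmu T D σ -
        (∑' V : Frm D T.lev, (fw T σ V : ℂ) * f (V.pt 0)) / fmu T D σ‖ ≤
        2 * (2 * η + (s + 1) ^ D * (ρ * Fintype.card κ)) := by
      rw [← sub_div, norm_div, Complex.norm_real, Real.norm_of_nonneg hμ.le, div_le_iff₀ hμ]
      rw [norm_sub_rev] at a2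
      linarith [norm_sub_le_norm_sub_add_norm_sub
        (∑' V : Frm D T.lev, (fw T σ V : ℂ) * f (V.pt t)) (∑' V, (w' V : ℂ) * f (V.pt 0))
        (∑' V : Frm D T.lev, (fw T σ V : ℂ) * f (V.pt 0))]
    have a5 : η ≤ √η := by
      nlinarith [Real.sq_sqrt hη0, Real.sqrt_nonneg η, Real.sqrt_le_one.2 hη]
    refine (norm_sub_le_norm_sub_add_norm_sub _ _ _).trans ((add_le_add a4 a3).trans ?_)
    linarith [mul_le_mul_of_nonneg_right c2 hn, mul_le_mul_of_nonneg_right c3 (Real.sqrt_nonneg η)]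

end Crest.Agent.T49.Ltr
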