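import Crest.Agent.T49.LtrB_33
import Crest.Agent.T49.LtrS_33
import Crest.Agent.T49.FmPC_17
import Crest.Agent.T49.Mx_91

/-!
# Row 49 (helper33): the oracle for the top parts of a dense family of frames
-/

set_option autoImplicit false

noncomputable section

namespace Crest.Agent.T49.Tw

theorem smallMStmt : SmallMStmt := smallM_of_dap dapMStmt

end Crest.Agent.T49.Tw

namespace Crest.Agent.T49.Ltr

open Finset MvPolynomial
open Crest.Agent.T49.Gl Crest.Agent.T49.Tw Crest.Agent.T49.Fm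

variable {κ : Type} {D : ℕ}

theorem eval_single_of_hom (i₀ : Fin D) {p : Pl (Fin D)} {i : ℕ}
    (hp : IsWeightedHomogeneous (fun _ => 1) p i) :
    eval (Pi.single i₀ 1) p = coeff (Finsupp.single i₀ i) p := by
  rw [eval_eq', sum_eq_single (Finsupp.single i₀ i)]
  · rw [prod_eq_one, mul_one]
    intro j _
    by_cases h : j = i₀
    · simp [h]
    · simp [Finsupp.single_eq_of_ne h]
  · intro α hα hne
    obtain ⟨j, hj, hj'⟩ : ∃ j, j ≠ i₀ ∧ α j ≠ 0 := by
      by_contra h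
      have h1 : α = Finsupp.single i₀ (α i₀) := by
        ext j
        by_cases hj : j = i₀
        · simp [hj]
        · rw [Finsupp.single_eq_of_ne hj]
          exact not_not.1 fun h2 => h ⟨j, hj, h2⟩
      have h2 := hp (mem_support_iff.1 hα)
      rw [h1, Finsupp.weight_single, smul_eq_mul, mul_one] at h2
      exact hne (h2 ▸ h1)
    rw [prod_eq_zero (mem_univ j) (by simp [hj, hj']), mul_zero]
  · intro h
    rw [notMem_support_iff.1 h, zero_mul]

/-- the top coordinate in the direction `i₀` -/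
def tpI (i₀ : Fin D) (lev : κ → ℕ) (c : κ) : FI D lev :=
  ⟨c, Finsupp.single i₀ (lev c), mem_mi.2 (by simp)⟩

theorem coeff_bind_tpd (i₀ : Fin D) {lev : κ → ℕ} (V : Frm D lev) (b : ℕ) {G : Pl κ} {i : ℕ}
    (hG : IsWeightedHomogeneous lev G i) :
    coeff (Finsupp.single i₀ i) (bind₁ (tpd V b) G) =
      (b : ℝ) ^ i * ev ((frE D lev).symm V) (rename (tpI i₀ lev) G) := by
  have h1 : ∀ c, IsWeightedHomogeneous (fun _ => 1) (V.tp c) (lev c) := fun c =>
    weightedHomogeneousComponent_isWeightedHomogeneous _ _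
  have h2 : bind₁ (tpd V b) G = Gf.dil b (bind₁ V.tp G) := bind_dil _ _ _
  rw [h2, Gf.coeff_dil, Finsupp.degree_single, mul_comm,
    ← eval_single_of_hom i₀ (i := i) (hom_bind (AddMonoidHom.id ℕ) h1 hG), eval_bind, ev_rename, ev]
  congr 3
  funext c
  rw [eval_single_of_hom i₀ (h1 c), tp_eq, coeff_weightedHomogeneousComponent,
    if_pos (by simp [Finsupp.weight_single]), Frm.rl, coeff_map]
  rfl

/-- relations on the frame cell are pushed to the cell with the loss `σ⁻¹ ^ i` -/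
theorem push_rel [Fintype κ] (T : Cell κ) (i₀ : Fin D) {σ : ℝ} (hσ : 0 < σ) (hσ1 : σ ≤ 1) {r : ℝ}
    {G : Pl κ} {e : Pl (FI D T.lev)} {i : ℕ}
    (he : IsWeightedHomogeneous (nfc T D hσ).lev e i)
    (hI : IsInt (C r * rename (tpI i₀ T.lev) G - (nfc T D hσ).TTh e)) :
    ∃ e' : Pl κ, IsWeightedHomogeneous T.lev e' i ∧ nrm e' ≤ nrm e * σ⁻¹ ^ i ∧
      IsInt (C r * G - bind₁ T.tth e') := by
  classical
  let n : FI D T.lev → ℤ := fun x => if x.2.1 = Finsupp.single i₀ (T.lev x.1) then 1 else 0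
  let μ : FI D T.lev → ℝ := fun x => (nat κ D σ hσ).cf x.1 x.2.1 (X i₀ ^ T.lev x.1)
  have h1 : ∀ x, bind₁ (fun x : FI D T.lev => (C (n x : ℝ) * X x.1 : Pl κ))
      ((nfc T D hσ).tth x) = C (μ x) * T.tth x.1 :=
    (nat κ D σ hσ).bind_tth T (X i₀) n fun c => by
      rw [sum_eq_single (⟨Finsupp.single i₀ (T.lev c), mem_mi.2 (by simp)⟩ :
        {α // α ∈ mi D (T.lev c)})]
      · simp [n, nat, X_pow_eq_monomial]
      · intro α _ hα
        have : α.1 ≠ Finsupp.single i₀ (T.lev c) := fun h => hα (Subtype.ext h)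
        simp [n, this]
      · simp
  have hs : 1 ≤ σ⁻¹ := one_le_inv₀ hσ |>.2 hσ1
  have h3 : ∀ x : FI D T.lev, IsWeightedHomogeneous T.lev (C (μ x) * X x.1 : Pl κ)
      (AddMonoidHom.id ℕ ((nfc T D hσ).lev x)) :=
    fun x => hom_C_mul (isWeightedHomogeneous_X ℝ T.lev x.1) _
  have h4 : ∀ x : FI D T.lev, nrm (C (μ x) * X x.1 : Pl κ) ≤ σ⁻¹ ^ (nfc T D hσ).lev x := by
    intro x
    rw [nrm_C_mul, nrm_X, mul_one, Sh.fc_lev]
    simp only [μ, Sh.cf_apply, X_pow_eq_monomial, coeff_monomial, nat]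
    split_ifs with h
    · rw [← h, Finsupp.degree_single, abs_of_pos (by positivity), one_div, inv_pow]
    · simp only [zero_div, abs_zero]; positivity
  refine ⟨_, hom_bind (AddMonoidHom.id ℕ) h3 he, nrm_bind_le_wt hs h4 (DegLe.of_hom he), ?_⟩
  have h2 := IsInt.bind (g := fun x : FI D T.lev => (C (n x : ℝ) * X x.1 : Pl κ))
    (fun x => (isInt_X _).int_mul _) hI
  have h5 : ((fun x : FI D T.lev => (C (n x : ℝ) * X x.1 : Pl κ)) ∘ tpI i₀ T.lev) = X := by
    funext c; simp [n, tpI]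
  rw [map_sub, map_mul, bind₁_C_right, bind₁_rename, Cell.TTh, bind₁_bind₁, h5, bind₁_X_left,
    AlgHom.id_apply] at h2
  rw [bind₁_bind₁]
  simp only [h1] at h2
  simpa only [map_mul, bind₁_C_right, bind₁_X_right] using h2

theorem orcStmt : OrcStmt := by
  intro D l s S hD
  choose Ds hS using smallMStmt l s
  obtain ⟨D', hD'⟩ : ∃ D', ∀ i ≤ S, Ds i ≤ D' :=
    ⟨(range (S + 1)).sup Ds, fun i hi => le_sup (f := Ds) (mem_range.2 (by omega))⟩
  obtain ⟨C, hC1, hC2, hC3⟩ : ∃ C : ℕ, 2 * (D' + 1) + 2 ≤ C ∧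
      D' * ((s + 1) ^ D + 1) + 1 + S ≤ C ∧ ∀ w y u : ℝ, 2 ≤ w → 0 ≤ y → y ≤ w → 0 ≤ u → u ≤ w →
        ((((s : ℝ) + 1) ^ D + 1) * y) ^ (D' + 1) + 2 * fl D s (s * u) ≤ w ^ C := by
    have : ∀ᶠ C : ℕ in Filter.atTop, ∀ w y u : ℝ, 2 ≤ w → 0 ≤ y → y ≤ w → 0 ≤ u → u ≤ w →
        ((((s : ℝ) + 1) ^ D + 1) * y) ^ (D' + 1) + 2 * fl D s (s * u) ≤ w ^ C := by
      unfold fl; qp
    exact ((Filter.eventually_ge_atTop _).and ((Filter.eventually_ge_atTop _).and this)).exists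
  refine ⟨C, fun κ _ T cl τ σ L u y b Z hmc hl hs hR hy hu hσu hσ1 hτ hZ hb1 hb2 hσL hL => ?_⟩
  intro i G q hi1 hiS hG hq1 hq2 hsm
  have hσ : 0 < σ := (Real.exp_pos _).trans_le hσu
  have hlog : 0 ≤ Real.log (Fintype.card κ + 2) :=
    Real.log_nonneg (by linarith [Nat.cast_nonneg (α := ℝ) (Fintype.card κ)])
  have hy2 : 2 ≤ y := by linarith
  have hp : (1 : ℝ) ≤ (s + 1) ^ D := one_le_pow₀ (by linarith [Nat.cast_nonneg (α := ℝ) s])
  set y' := (((s : ℝ) + 1) ^ D + 1) * y with hy'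
  have hyy : ((s : ℝ) + 1) ^ D + y ≤ y' := by nlinarith
  have hy'1 : 1 ≤ y' := by linarith
  have hpc := nfc_pc T (D := D) hs hσ (v := u) (by linarith)
    (by rw [inv_le_comm₀ hσ (Real.exp_pos _), ← Real.exp_neg]; exact hσu)
  have hq : y' ≤ y' ^ (D' + 1) := le_self_pow₀ hy'1 (by omega)
  have hRY := MA.derM_regM hR (hpc.derM hmc) hC1 (q := y' ^ (D' + 1)) (by linarith)
    ((hC3 (y + u) y u (by linarith) (by linarith) (by linarith) (by linarith)
      (by linarith)).trans hτ)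
  have hL1 : 1 ≤ L := le_trans (Real.one_le_exp (by positivity)) hL
  have hCy : D' * y' + y + S * y ≤ C * y := by
    have h1 : (D' : ℝ) * ((s + 1) ^ D + 1) + 1 + S ≤ C := by exact_mod_cast hC2
    nlinarith
  have hDy : Ds i * y' ≤ D' * y' :=
    mul_le_mul_of_nonneg_right (by exact_mod_cast hD' i hiS) (by linarith)
  have hSy : 0 ≤ S * y := by positivity
  let i₀ : Fin D := ⟨0, hD⟩
  have hG' : IsWeightedHomogeneous (nfc T D hσ).lev
      (MvPolynomial.C ((q * b ^ i : ℕ) : ℝ) * rename (tpI i₀ T.lev) G) i := by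
    refine hom_C_mul ?_ _
    rw [rename_eq_bind]
    exact hom_bind (AddMonoidHom.id ℕ) (fun c => isWeightedHomogeneous_X ℝ _ (tpI i₀ T.lev c)) hG
  obtain ⟨b', e, a1, a2, a3, a4, a5⟩ := hS i _ (nfc T D hσ) (cl ∘ Sigma.fst) _ _ y'
    (L ^ i / Real.exp y) (Z.map (frE D T.lev).symm.toEmbedding) (hpc.mc cl hmc)
    (fun x => hl x.1) (fun x => hs x.1) (DegLe.of_hom hG')
    (by
      have := Asm.log_card_le (n := Fintype.card κ) (n' := Fintype.card (FI D T.lev))
        (x := (s + 1) ^ D) (by linarith) (by exact_mod_cast card_FI_le T hs)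
      linarith)
    (by
      rw [if_neg (by omega)]
      exact pow_le_pow_right₀ hy'1 ((hD' i hiS).trans (Nat.le_succ _)))
    (Gain.regM_mono hRY ((hD' i hiS).trans (Nat.le_succ _)) (by omega)
      (by rw [if_neg (by omega)]; positivity))
    (by
      rw [le_div_iff₀ (Real.exp_pos _), ← Real.exp_add]
      exact (Real.exp_le_exp.2 (by linarith)).trans (hL.trans (le_self_pow₀ hL1 (by omega))))
    (by
      intro z hz
      obtain ⟨V, hV, rfl⟩ := mem_map.1 hz
      obtain ⟨n, hn⟩ := hsm ⟨V, hV⟩ (Finsupp.single i₀ i) (Finsupp.degree_single _ _)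
      refine ⟨n, ?_⟩
      rw [coeff_bind_tpd i₀ V b hG, ← mul_assoc] at hn
      rw [← mul_div_assoc, div_le_one (Real.exp_pos _), ev_mul, ev_C]
      push_cast
      exact hn)
    (by
      rw [sum_map, nfc_mu]
      refine le_trans (mul_le_mul_of_nonneg_right (Real.exp_le_exp.2 (by linarith))
        (Fm.fmu_pos T D hσ).le) (hZ.trans_eq (sum_congr rfl fun V _ => ?_))
      rw [nfc_wgt]; simp)
  rw [Cell.top, whc_of_hom hG', ← mul_assoc, ← map_mul, ← Nat.cast_mul] at a5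
  obtain ⟨e', c1, c2, c3⟩ := push_rel T i₀ hσ hσ1 a3 a5
  have hbi : ∀ {x : ℝ}, 0 ≤ x → x ≤ Real.exp y → x ^ i ≤ Real.exp (S * y) := fun h0 h =>
    (pow_le_pow_left₀ h0 h i).trans (by
      rw [← Real.exp_nat_mul]
      exact Real.exp_le_exp.2 (mul_le_mul_of_nonneg_right (by exact_mod_cast hiS) (by linarith)))
  have hfin : Real.exp (Ds i * y') * (Real.exp y * Real.exp (S * y)) ≤ Real.exp (C * y) := by
    rw [← Real.exp_add, ← Real.exp_add]
    exact Real.exp_le_exp.2 (by linarith)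
  refine ⟨b' * (q * b ^ i), e', Nat.mul_pos a1 (Nat.mul_pos hq1 (Nat.pow_pos hb1)),
    le_trans ?_ hfin, c1, c2.trans (le_trans ?_ hfin), c3⟩
  · push_cast
    have := hbi (Nat.cast_nonneg b) hb2
    gcongr
  · have h1 : (σ * L)⁻¹ ≤ Real.exp y := by
      rw [inv_le_comm₀ (by positivity) (Real.exp_pos _), ← Real.exp_neg]; exact hσL
    have h2 := hbi (by positivity) h1
    calc nrm e * σ⁻¹ ^ i = nrm e * (L ^ i / Real.exp y) * (Real.exp y * (σ * L)⁻¹ ^ i) := by
          rw [mul_inv, mul_pow, inv_pow L]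
          field_simp
      _ ≤ _ := by gcongr

end Crest.Agent.T49.Ltr
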