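import Crest.Agent.T49.RiDef_12
import Crest.Agent.T49.LrConv_84
import Crest.Agent.T49.GiConv_73
import Crest.Agent.T49.MxCell_53
import Crest.Agent.T49.LtrDef_33
import Crest.Agent.T49.NilCls_67

/-!
# Row 49 (helper84): symbols of weighted maps; `ConvStmt`; `LtStmt` from `LtRStmt`
-/

set_option autoImplicit false
set_option linter.unusedSectionVars false

noncomputable section

namespace Crest.Agent.T49.Ri

open Finset MvPolynomial
open Crest.Agent.T49.Tw Crest.Agent.T49.Nil Crest.Agent.T49.Nil.ND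
open Crest.Agent.T49.Bch (star)
open Crest.Agent.T49.Gf (wcf WF mem_wcf star_mem_wcf lie_mem_wcf subst_mem_wcf ratP_iff)
open Crest.Agent.T49.GI (GR GrOf IsG hp)
open Crest.Agent.T49.GI.LtN85 (tg grA hp_pos hp_neg mem_grA hp_mem_grS tg_apply)
open Crest.Agent.T49.GI.Cv73 (famH mem_famH)
open Crest.Agent.T49.Br (Cs Hm Uo NearR SmR RtR)
open Crest.Agent.T49.Lr

namespace Cv84

variable {κ σ : Type} [Fintype κ] {N g : ND κ} {lev : σ → ℕ}

theorem mem_wcf_F {P : N.PS σ} : P ∈ wcf lev N.F ↔ ∀ k, DegLe lev (P k) (N.wt k) :=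
  ⟨fun h k α hα => not_lt.1 fun hlt => mem_support_iff.1 hα (h α k hlt), fun h α k hk => by
    by_contra h0
    exact absurd (h k α (mem_support_iff.2 h0)) (not_le.2 hk)⟩

theorem symW_hm (h : GrOf N g) (P : N.PS σ) : symW lev N g P ∈ Hm lev g := fun k => by
  rw [h.1]; exact weightedHomogeneousComponent_isWeightedHomogeneous _ _

/-- the symbol as a linear map -/
def symL (lev : σ → ℕ) (N g : ND κ) : N.PS σ →ₗ[ℝ] g.PS σ where
  toFun := symW lev N g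
  map_add' P Q := by ext k : 1; simp [symW]
  map_smul' r P := by ext k : 1; simp [symW]

theorem symW_lie (h : GrOf N g) {P Q : N.PS σ} (hP : P ∈ wcf lev N.F) (hQ : Q ∈ wcf lev N.F) :
    symW lev N g ⁅P, Q⁆ = ⁅symW lev N g P, symW lev N g Q⁆ := by
  ext k : 1
  simp only [symW, lie_apply, map_sum]
  refine sum_congr rfl fun i _ => sum_congr rfl fun j _ => ?_
  rw [h.2]
  by_cases hc : N.c i j k = 0
  · simp [hc]
  have h1 := mem_wcf_F.1 hP i
  have h2 := mem_wcf_F.1 hQ j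
  rw [mul_assoc, ← map_intCast (C : ℝ →+* MvPolynomial σ ℝ), whc_C_mul']
  split_ifs with h3
  · rw [← h3, whc_mul h1 h2, mul_assoc, map_intCast]
  · rw [whc_eq_zero_of_lt (h1.mul h2) (lt_of_le_of_ne (N.c_wt i j k hc) h3)]
    simp

/-- the weighted maps as a Lie algebra -/
def wA (N : ND κ) (lev : σ → ℕ) : LieSubalgebra ℝ (N.PS σ) where
  toSubmodule := wcf lev N.F
  lie_mem' := lie_mem_wcf grSub_F.lie

/-- the symbol as a Lie homomorphism -/
def symH (lev : σ → ℕ) (h : GrOf N g) : wA N lev →ₗ⁅ℝ⁆ g.PS σ where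
  toLinearMap := (symL lev N g).comp (wA N lev).incl.toLinearMap
  map_lie' {P Q} := symW_lie h P.2 Q.2

theorem symW_star (h : GrOf N g) (S : ℕ) {P Q : N.PS σ} (hP : P ∈ wcf lev N.F)
    (hQ : Q ∈ wcf lev N.F) :
    symW lev N g (star S P Q) = star S (symW lev N g P) (symW lev N g Q) := by
  have h1 := Bch.map_star S (symH lev h) ⟨P, hP⟩ ⟨Q, hQ⟩
  have h2 := Bch.map_star S (wA N lev).incl ⟨P, hP⟩ ⟨Q, hQ⟩
  change symW lev N g ((wA N lev).incl _) = _ at h1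
  rw [h2] at h1
  exact h1

theorem symW_neg (P : N.PS σ) : symW lev N g (-P) = -symW lev N g P := map_neg (symL lev N g) P

theorem coeff_symW (P : N.PS σ) (k : κ) (α : σ →₀ ℕ) : coeff α (symW lev N g P k) =
    if Finsupp.weight lev α = N.wt k then coeff α (P k) else 0 := by
  classical
  exact coeff_weightedHomogeneousComponent _ _ _

theorem cv_symW (P : N.PS σ) (α : σ →₀ ℕ) :
    g.cv α (symW lev N g P) = tg N g (hp N (Finsupp.weight lev α) (N.cv α P)) := by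
  ext k
  rw [cv_apply, coeff_symW, tg_apply]
  split_ifs with h
  · rw [hp_pos _ h.symm, cv_apply]
  · rw [hp_neg _ (Ne.symm h)]

/-- maps with the same symbol agree up to lower order -/
theorem sub_mem_wpm {P Q : N.PS σ} (hP : P ∈ wcf lev N.F) (hQ : Q ∈ wcf lev N.F)
    (h : symW lev N g P = symW lev N g Q) : P - Q ∈ wpm N lev := fun α k hk => by
  rcases (Nat.lt_succ_iff.1 hk).lt_or_eq with h1 | h1
  · exact sub_mem hP hQ α k h1
  · have := congrArg (fun x : g.PS σ => coeff α (x k)) h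
    simp only [coeff_symW, if_pos h1.symm] at this
    rw [cv_apply, ND.sub_apply, coeff_sub, this, sub_self]

theorem symW_eq_of_sub {P Q : N.PS σ} (h : P - Q ∈ wpm N lev) :
    symW lev N g P = symW lev N g Q := by
  ext k α
  rw [coeff_symW, coeff_symW]
  split_ifs with h1
  · have := h α k (by omega)
    rwa [cv_apply, ND.sub_apply, coeff_sub, sub_eq_zero] at this
  · rfl

/-- a symbol as a map into `N` -/
def lf (N : ND κ) {g : ND κ} (x : g.PS σ) : N.PS σ := fun k => x k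

theorem lf_mem (h : GrOf N g) {x : g.PS σ} (hx : x ∈ Hm lev g) : lf N x ∈ wcf lev N.F :=
  mem_wcf_F.2 fun k => h.1 k ▸ DegLe.of_hom (hx k)

theorem symW_lf (h : GrOf N g) {x : g.PS σ} (hx : x ∈ Hm lev g) : symW lev N g (lf N x) = x :=
  funext fun k => whc_of_hom (h.1 k ▸ hx k)

theorem mem_wcf_famH {U : Submodule ℝ g.L} {P : N.PS σ} (hP : P ∈ wcf lev N.F)
    (hs : symW lev N g P ∈ Uo σ U) : P ∈ wcf lev (famH N g U) := fun α =>
  mem_famH.2 ⟨hP α, by rw [← cv_symW]; exact hs α⟩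

theorem symW_mem_grA (h : GrOf N g) {H : ℕ → Submodule ℝ N.L} (hH : N.GrSub H) {P : N.PS σ}
    (hP : P ∈ wcf lev H) : symW lev N g P ∈ Uo σ (grA h hH).toSubmodule := fun α => by
  rw [cv_symW]
  exact (mem_grA h hH).2 (hp_mem_grS hH (hP α))

theorem symW_subst {τ : Type} {lev' : τ → ℕ} {r : σ → Pl τ}
    (hr : ∀ c, IsWeightedHomogeneous lev' (r c) (lev c)) (P : N.PS σ) :
    symW lev' N g (N.subst r P) = g.subst r (symW lev N g P) :=
  funext fun k => whc_bind_hom hr (N.wt k) (P k)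

/-- the symbol of a substitution depends on the top parts only -/
theorem symW_subst_top {τ : Type} {lev' : τ → ℕ} {r : σ → Pl τ}
    (hr : ∀ c, DegLe lev' (r c) (lev c)) {P : N.PS σ} (hP : P ∈ wcf lev N.F) :
    symW lev' N g (N.subst r P) =
      g.subst (fun c => weightedHomogeneousComponent lev' (lev c) (r c)) (symW lev N g P) :=
  funext fun k => whc_bind_degLe hr (mem_wcf_F.1 hP k)

theorem ratP_symW {q : ℕ} {P : N.PS σ} (hP : N.RatP q P) : g.RatP q (symW lev N g P) := by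
  rw [ratP_iff] at hP ⊢
  intro k
  rw [symW, ← whc_C_mul']
  exact (hP k).whc _ _

/-- a factorisation of the symbol gives a factorisation of the map -/
theorem wf_of_nearR (h : GrOf N g) {S : ℕ} (hS : ∀ k, N.wt k ≤ S) (c : Cs σ) {m : ℝ}
    (𝔥 : LieSubalgebra ℝ g.L) {P : N.PS σ} (hP : P ∈ wcf c.lev N.F)
    (hn : NearR c g S m 𝔥.toSubmodule (symW c.lev N g P)) :
    ∃ q : ℕ, 1 ≤ q ∧ (q : ℝ) ≤ Real.exp m ∧
      WF N c.lev c.th S (Real.exp m) q (famH N g 𝔥.toSubmodule) P fun _ => True := by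
  obtain ⟨_, y, γ, ⟨e, he, hen, rfl⟩, hy, hyU, ⟨hγ, q, hq1, hq2, hq⟩, hx⟩ := hn
  have h1 := subst_mem_wcf (fun v => DegLe.of_hom (c.hom v)) grSub_F.anti (lf_mem h he)
  have h2 := star_mem_wcf S grSub_F (lf_mem h hy) (lf_mem h hγ)
  obtain ⟨y', hy', -, e1⟩ := mid_congr hS (GI.Cv73.grSub_famH h 𝔥) h1
    (mem_wcf_famH (lf_mem h hy) (by rwa [symW_lf h hy])) (lf_mem h hγ)
    (sub_mem_wpm (g := g) hP (star_mem_wcf S grSub_F h1 h2) (by
      rw [hx, symW_star h S h1 h2, symW_star h S (lf_mem h hy) (lf_mem h hγ), symW_subst c.hom,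
        symW_lf h he, symW_lf h hy, symW_lf h hγ]))
  refine ⟨q, hq1, hq2, lf N e, lf_mem h he, y', hy', lf N γ, lf_mem h hγ, fun α => ?_, hq, e1,
    trivial⟩
  rw [one_pow, mul_one, norm_le_iff (Real.exp_pos _).le]
  exact fun k => (abs_coeff_le_nrm (e k) α).trans (hen k)

/-- a factorisation of the map gives a factorisation of the symbol -/
theorem nearR_of_wf [Fintype σ] (h : GrOf N g) {S : ℕ} (hS : ∀ k, N.wt k ≤ S) (c : Cs σ)
    {m M : ℝ} {q : ℕ} {H : ℕ → Submodule ℝ N.L} (hH : N.GrSub H) {P : N.PS σ}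
    {p : N.PS σ → Prop} (hq1 : 1 ≤ q) (hq2 : (q : ℝ) ≤ Real.exp m)
    (hM : ((S : ℝ) + 1) ^ Fintype.card σ * M ≤ Real.exp m) (hP : WF N c.lev c.th S M q H P p) :
    NearR c g S m (grA h hH).toSubmodule (symW c.lev N g P) := by
  obtain ⟨ε, hε, x, hx, γ, hγ, h1, h2, rfl, -⟩ := hP
  have hxF := Gf.wcf_mono hH.le hx
  have hM0 : 0 ≤ M := le_trans (by simp) (h1 0)
  refine ⟨_, symW c.lev N g x, symW c.lev N g γ, ⟨symW c.lev N g ε, symW_hm h _, fun k => ?_, rfl⟩,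
    symW_hm h _, symW_mem_grA h hH hx, ⟨symW_hm h _, q, hq1, hq2, ratP_symW h2⟩, ?_⟩
  · refine (nrm_whc_le _ _ _).trans (le_trans ?_ hM)
    refine (nrm_le_card_mul subset_rfl (K := M) fun α _ => ?_).trans
      (mul_le_mul_of_nonneg_right ?_ hM0)
    · have := h1 α
      rw [one_pow, mul_one] at this
      exact (abs_apply_le (N.cv α ε) k).trans this
    · exact_mod_cast Win.card_support_le hS (Gf.wcf_le_poly c.pos hε) k
  · rw [symW_star h S (subst_mem_wcf (fun v => DegLe.of_hom (c.hom v)) grSub_F.anti hε)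
      (star_mem_wcf S grSub_F hxF hγ), symW_star h S hxF hγ, symW_subst c.hom]

theorem wf_step {S S' : ℕ} (hS : ∀ k, N.wt k ≤ S) (h : S ≤ S') {th : σ → Pl σ} {M : ℝ} {q : ℕ}
    {H : ℕ → Submodule ℝ N.L} {P : N.PS σ} {p : N.PS σ → Prop} (hP : WF N lev th S M q H P p) :
    WF N lev th S' M q H P p := by
  obtain ⟨ε, h3, x, h4, γ, h5, h6, h7, h8, h9⟩ := hP
  exact ⟨ε, h3, x, h4, γ, h5, h6, h7, by rw [star_step hS h, star_step hS h]; exact h8, h9⟩

/-- QUOT for weighted maps -/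
theorem isNilW_of_nfn {S s : ℕ} {m : ℝ} {F : N.L → ℂ} (hd : (Fintype.card κ : ℝ) ≤ m)
    (hN : N.Good S (Real.exp m)) (hF : N.NFn S s (Real.exp m) F) {P : N.PS σ}
    (hP : P ∈ wcf lev N.F) : IsNilW lev s m (sqW N F P) :=
  ⟨_, inferInstance, N.trc s, _, qpr (N.keep_le s) _ P,
    le_trans (by exact_mod_cast Fintype.card_subtype_le _) hd, hN.trc s,
    hF.trc hN.wt_le (Real.exp_pos _).le, fun α => qpr_mem_FA _ (hP α),
    funext fun n => (hF.trc_qpr hN.wt_le (N.evZ n P)).symm⟩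

variable {ι : Type} [Fintype ι]

/-- the weight hypothesis of `Lr.convF` from the masses of the covers -/
theorem tsum_wgt_exp (T : Cell ι) {l : ℕ} (hl : ∀ c, T.lev c ≤ l) {x η : ℝ} (hx : 1 ≤ x)
    (hη : η ≤ 1) (h : T.AllPC x η) :
    ∑' y, T.wgt y * Real.exp (∑ c, ev y (T.th c) ^ 2) ≤ 2 * 2 ^ Fintype.card ι * T.mu := by
  let T' := T.aff (fun _ => 1 / 2) (fun _ => by norm_num) fun _ => 0
  have h1 := h ι T' id (Cell.pc_aff _ _ T (u := 0) le_rfl (fun _ => by norm_num) hl (by linarith)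
    (by linarith))
  have h2 : T'.mu = 2 ^ Fintype.card ι * T.mu := by
    rw [Cell.aff_mu]; norm_num
  have h3 : 0 < T'.mu := T'.mu_pos
  have h4 : T'.M ≤ 2 * T'.mu := by
    have := (abs_le.1 h1).2
    rw [← div_le_iff₀ h3]; linarith
  have h5 : ∀ y, (Gl.scl T (1 / 2) (by norm_num)).wgt y = T'.wgt y := fun y => by
    simp only [Tri.wgt, T', Cell.aff_ev]
    simp [Tri.th, Gl.scl, mul_add, mul_assoc]
  refine (tsum_wgt_exp_le T).trans ?_
  rw [Tri.M, tsum_congr h5, mul_assoc, ← h2]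
  exact h4

end Cv84

open Cv84

theorem convStmt (hMs : MsStmt) : ConvStmt := by
  intro l S t
  obtain ⟨D, C0, hC0, hMs⟩ := hMs l
  obtain ⟨C1, hC1, hcv⟩ := convF (S := S + 1) (by omega)
  obtain ⟨C, hC, hb⟩ : ∃ C : ℕ, 1 ≤ C ∧ ∀ (m : ℝ) (d : ℕ) (K : ℝ), 2 ≤ m → (d : ℝ) ≤ m → 0 ≤ K →
      K ≤ Real.exp ((m ^ 2) ^ C1) → m ^ C0 ≤ m ^ C ∧ (m ^ 2) ^ C1 ≤ m ^ C ∧ m ≤ m ^ C ∧
        d * K ≤ Real.exp (m ^ C) := by
    have : ∀ᶠ C : ℕ in Filter.atTop, ∀ (m : ℝ) (d : ℕ) (K : ℝ), 2 ≤ m → (d : ℝ) ≤ m → 0 ≤ K →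
      K ≤ Real.exp ((m ^ 2) ^ C1) → m ^ C0 ≤ m ^ C ∧ (m ^ 2) ^ C1 ≤ m ^ C ∧ m ≤ m ^ C ∧
        d * K ≤ Real.exp (m ^ C) := by qp
    exact ((Filter.eventually_ge_atTop 1).and this).exists
  refine ⟨D, C, hC, fun ι _ T m hok κ _ N g η 𝔥 F P a hg hκ hN h𝔥 hη hF hP hn ha hcor => ?_⟩
  have hm := hok.two
  have hm2 : m ≤ m ^ 2 := by nlinarith
  have he := Real.exp_le_exp.2 hm2
  obtain ⟨b1, b2, b3, -⟩ := hb m 0 0 hm (by simp; linarith) le_rfl (Real.exp_pos _).le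
  obtain ⟨-, hpc, -⟩ := hMs ι T m (hok.mono le_rfl le_rfl b1 (by positivity))
  obtain ⟨q, hq1, hq2, hwf⟩ := wf_of_nearR hg hN.wt_le (Cs.ofCell T) 𝔥 hP hn
  have hH := GI.Cv73.grSub_famH hg 𝔥
  have hS' : ∀ k, N.wt k ≤ S + 1 := fun k => (hN.wt_le k).trans (Nat.le_succ S)
  obtain ⟨r, N', q', K, hr, hN', hq1', hq2', hK, hcv⟩ := hcv (m ^ 2) (hm.trans hm2) κ N
    (famH N g 𝔥.toSubmodule) q (hκ.trans hm2) ((hN.step_le (Nat.le_succ S)).mono he) hH
    (fun i => (GI.Cv73.ratS_famH hg (by linarith) h𝔥 i).mono he) hq1 (hq2.trans he)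
  have hwf' : WF N T.lev T.th (S + 1) (Real.exp (m ^ 2)) q (famH N g 𝔥.toSubmodule) P
      fun _ => True := by
    obtain ⟨ε, a1, x, a2, γ, a3, a4, a5⟩ := wf_step hN.wt_le (Nat.le_succ S)
      (fact_th hN.wt_le hH T hwf)
    exact ⟨ε, a1, x, a2, γ, a3, fun α => (a4 α).trans he, a5⟩
  obtain ⟨P', hP', F', hF', ξ, n, hξ, hc⟩ := hcv ι T.lev T.th t η F P _ T.wgt a T.mu T.lev_pos
    (hok.card.trans hm2) ((hF.step hN.wt_le hS').mono he) (GI.Cv73.fn_famH hF.supp hη) hwf'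
    T.mu_pos T.wgt_nonneg (summable_wgt_exp T)
    ((tsum_wgt_exp T hok.gm.1 (by linarith) (Real.exp_le_one_iff.2 (by linarith)) hpc).trans
      (mul_le_mul_of_nonneg_right (by
        have h1 : (2 : ℝ) ≤ Real.exp 1 := by linarith [Real.add_one_le_exp (1 : ℝ)]
        calc (2 : ℝ) * 2 ^ Fintype.card ι = 2 ^ (Fintype.card ι + 1) := by ring
          _ ≤ Real.exp 1 ^ (Fintype.card ι + 1) := by gcongr
          _ ≤ _ := by
            rw [← Real.exp_nat_mul]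
            exact Real.exp_le_exp.2 (by push_cast; nlinarith [hok.card])) T.mu_pos.le)) ha
    ((mul_le_mul_of_nonneg_right (Real.exp_le_exp.2 (by linarith)) T.mu_pos.le).trans hcor)
  obtain ⟨-, -, -, b4⟩ := hb m _ K hm hok.card (Nat.cast_nonneg _) hK
  have he' := Real.exp_le_exp.2 b2
  refine ⟨sqW N' F' P', fun z => Tor.e (chp T.th (m ^ 2) q' ξ n z), isNilW_of_nfn (by
      rw [Fintype.card_fin]
      exact (le_trans (by exact_mod_cast hr) hκ).trans b3) (hN'.mono he') (hF'.mono he') hP',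
    ⟨fun c => ξ c / (8 * m ^ 2), n, q', le_trans ?_ b4, hq1', hq2'.trans he', fun z => ?_⟩,
    (mul_le_mul_of_nonneg_right (Real.exp_le_exp.2 (by linarith)) T.mu_pos.le).trans hc⟩
  · refine (sum_le_card_nsmul _ _ (K : ℝ) fun c _ => ?_).trans (by simp)
    rw [abs_div, abs_of_pos (by positivity : 0 < 8 * m ^ 2)]
    exact (div_le_self (abs_nonneg _) (by nlinarith)).trans (by exact_mod_cast (hξ c).1)
  · change Tor.e _ = Tor.e _
    congr 1
    rw [chp, sum_div]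
    congr 1 <;> exact sum_congr rfl fun c _ => by ring

/-- cheap phases are cheap multipliers -/
theorem Cv84.cheap_of_chp {ι : Type} [Fintype ι] {T : Cell ι} {m : ℝ} {φ : (ι → ℤ) → ℂ}
    (h : Chp T m φ) : Ltr.Cheap T (Real.exp (m + 2)) φ := by
  obtain ⟨ξ, n, b, h1, h2, h3, h4⟩ := h
  have hb : (b : ℝ) ≠ 0 := by positivity
  refine ⟨fun z => by rw [h4]; exact (Tor.norm_e _).le, b, h2,
    h3.trans (Real.exp_le_exp.2 (by linarith)), fun z z' hz => ?_⟩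
  choose k hk using hz
  have e1 : ∑ c, ξ c * ev z (T.th c) + (∑ c, (n c : ℝ) * z c) / b =
      ∑ c, ξ c * ev z (T.th c) + (∑ c, (n c : ℝ) * z' c) / b + ((∑ c, n c * k c : ℤ) : ℝ) := by
    rw [add_assoc, add_right_inj, div_add' _ _ _ hb]
    congr 1
    push_cast
    rw [sum_mul, ← sum_add_distrib]
    refine sum_congr rfl fun c _ => ?_
    have : (z c : ℝ) - z' c = b * k c := by exact_mod_cast hk c
    linear_combination (n c : ℝ) * this
  rw [h4, h4, e1]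
  change ‖Tor.e _ - Tor.e _‖ ≤ _
  rw [Tor.e_add_int]
  refine (Tor.norm_e_sub_e_le' _ _).trans ?_
  rw [add_sub_add_right_eq_sub, ← sum_sub_distrib, Real.exp_add, mul_comm (Real.exp m), mul_assoc]
  refine mul_le_mul seven_le_exp_two67 ((abs_sum_le_sum_abs _ _).trans ?_) (abs_nonneg _)
    (Real.exp_pos _).le
  rw [mul_sum]
  refine sum_le_sum fun c _ => ?_
  rw [← mul_sub, abs_mul]
  exact mul_le_mul_of_nonneg_right ((single_le_sum (f := fun c => |ξ c|)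
    (fun _ _ => abs_nonneg _) (mem_univ c)).trans h1) (abs_nonneg _)

theorem ltStmt_of (h : Ltr.LtRStmt) : LtStmt := by
  intro l S s hs
  obtain ⟨C1, hC1, h⟩ := h S s l l hs
  obtain ⟨C, hC, hb⟩ : ∃ C : ℕ, 1 ≤ C ∧ ∀ (m : ℝ) (d : ℕ), 2 ≤ m → (d : ℝ) ≤ m →
      (m ^ 2) ^ C1 ≤ m ^ C ∧ ((S : ℝ) + 1) ^ d * Real.exp ((m ^ 2) ^ C1) ≤ Real.exp (m ^ C) := by
    have : ∀ᶠ C : ℕ in Filter.atTop, ∀ (m : ℝ) (d : ℕ), 2 ≤ m → (d : ℝ) ≤ m →
      (m ^ 2) ^ C1 ≤ m ^ C ∧ ((S : ℝ) + 1) ^ d * Real.exp ((m ^ 2) ^ C1) ≤ Real.exp (m ^ C) := by qp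
    exact ((Filter.eventually_ge_atTop 1).and this).exists
  refine ⟨C1, C, hC, fun ι _ T m hok κ _ N g η F P φ hg hκ hN hF hP hφ hcor => ?_⟩
  have hm := hok.two
  have hm2 : m + 2 ≤ m ^ 2 := by nlinarith
  have he : Real.exp m ≤ Real.exp (m ^ 2) := Real.exp_le_exp.2 (by linarith)
  obtain ⟨b1, b2⟩ := hb m _ hm hok.card
  have he' := Real.exp_le_exp.2 b1
  obtain ⟨hl, cl, τ, c1, c2, c3, c4⟩ := hok.gm
  obtain ⟨d1, b, d2, d3, d4⟩ := cheap_of_chp hφ
  have he2 := Real.exp_le_exp.2 hm2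
  obtain ⟨H, q, hH, hR, hη, hq1, hq2, hwf⟩ := h (m ^ 2) (by linarith) κ ι T cl τ N η F P φ c1 c2 hl
    (hok.card.trans (by linarith)) c4 (b1.trans c3) (hκ.trans (by linarith)) (hN.mono he)
    (hF.mono he) hP ⟨d1, b, d2, d3.trans he2, fun z z' hz => (d4 z z' hz).trans
      (mul_le_mul_of_nonneg_right he2 (by positivity))⟩
    ((mul_le_mul_of_nonneg_right (Real.exp_le_exp.2 (by linarith)) T.mu_pos.le).trans hcor)
  exact ⟨grA hg hH, GI.LtN85.gr_grA hg hH fun i => (hR i).mono he',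
    GI.LtN85.fn_grA hg hH hF.supp hη,
    nearR_of_wf hg hN.wt_le (Cs.ofCell T) hH hq1 (hq2.trans he') b2 hwf⟩

end Crest.Agent.T49.Ri
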