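import Crest.Agent.T49.LtrC_33
import Crest.Agent.T49.LtrO_33
import Crest.Agent.T49.LtrF_33
import Crest.Agent.T49.FmReb_17
import Crest.Agent.T49.LT_65
import Crest.Agent.T49.RiConv_84

/-!
# Row 49 (helper33): relative equidistribution, unconditional statements
-/

set_option autoImplicit false

namespace Crest.Agent.T49.Ltr

open Crest.Agent.T49.Fm

theorem rebStmt : RebStmt := fun D s =>
  ⟨2 ^ s * (s + 1) ^ D, fun _ _ T σ ρ t hs hσ hρ hρ1 ht => ⟨rebE T.lev t, fun V =>
    ⟨reb_pt_zero V t, by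
      have := fq_reb_le' T hs hσ (t := -t) (fun i => by simpa [rc] using ht i) hρ hρ1 (reb V t)
      rwa [reb_reb, add_neg_cancel, reb_zero] at this⟩⟩⟩

theorem fmomStmt : FmomStmt := fmom_of rebStmt

theorem ltRStmt : LtRStmt := ltR_of Nil.ltStmt Tw.allDerMStmt fmomStmt orcStmt

end Crest.Agent.T49.Ltr

namespace Crest.Agent.T49.Ri

theorem ltStmt : LtStmt := ltStmt_of Ltr.ltRStmt

end Crest.Agent.T49.Ri
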