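import Crest.Agent.T49.GiDef_40
import Crest.Agent.T49.BchND_16
import Crest.Agent.T49.WinAlg_56
import Crest.Agent.T49.Qp_85

/-!
# Row 49 (helper3): the level loop, algebra

Weighted homogeneous polynomial maps of a graded datum, rigidity of `small * x = x' * rational`,
rounding of forms.
-/

set_option autoImplicit false

noncomputable section

namespace Crest.Agent.T49.Lv

open Finset MvPolynomial Crest.Agent.T49.Nil Crest.Agent.T49.Nil.ND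
open Crest.Agent.T49.Bch (star star_assoc cb dn)

variable {ι : Type} [Fintype ι] {g : ND ι}

/-- weighted homogeneous polynomial maps -/
def WH (g : ND ι) {σ : Type} (w : σ → ℕ) : Submodule ℝ (g.PS σ) where
  carrier := {P | ∀ k, IsWeightedHomogeneous w (P k) (g.wt k)}
  add_mem' hP hQ k := (hP k).add (hQ k)
  zero_mem' k := isWeightedHomogeneous_zero ℝ w (g.wt k)
  smul_mem' r P hP k := by
    rw [ND.smul_apply, smul_eq_C_mul]; exact (hP k).C_mul r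

variable {σ τ : Type}

theorem mem_WH {w : σ → ℕ} {P : g.PS σ} :
    P ∈ WH g w ↔ ∀ k, IsWeightedHomogeneous w (P k) (g.wt k) := Iff.rfl

theorem lie_WH (hg : GI.Graded g) (w : σ → ℕ) :
    ∀ P ∈ WH g w, ∀ Q ∈ WH g w, ⁅P, Q⁆ ∈ WH g w := fun P hP Q hQ k => by
  rw [lie_apply]
  refine IsWeightedHomogeneous.sum _ _ _ fun i _ => IsWeightedHomogeneous.sum _ _ _ fun j _ => ?_
  by_cases hc : g.c i j k = 0
  · rw [hc, Int.cast_zero, zero_mul, zero_mul]; exact isWeightedHomogeneous_zero ℝ w _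
  · rw [← hg i j k hc, mul_assoc, ← map_intCast (C : ℝ →+* MvPolynomial σ ℝ)]
    exact ((hP i).mul (hQ j)).C_mul _

theorem star_WH (hg : GI.Graded g) (S : ℕ) {w : σ → ℕ} {P Q : g.PS σ} (hP : P ∈ WH g w)
    (hQ : Q ∈ WH g w) : star S P Q ∈ WH g w := St.star_mem S _ (lie_WH hg w) hP hQ

theorem degree_of_WH {P : g.PS σ} (hP : P ∈ WH g 1) {k : ι} {α : σ →₀ ℕ}
    (h : (P k).coeff α ≠ 0) : α.degree = g.wt k := by
  rw [Finsupp.degree_eq_weight_one]; exact hP k h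

theorem WH_le_poly {P : g.PS σ} (hP : P ∈ WH g 1) : P ∈ g.poly σ := fun α k hk => by
  by_contra h
  have := degree_of_WH hP (k := k) (α := α) h
  omega

/-- substituting forms of degree `lev c` into a weighted form -/
theorem aeval_hom {lev : τ → ℕ} {top : τ → MvPolynomial σ ℝ} {w : σ → ℕ}
    (h : ∀ c, IsWeightedHomogeneous w (top c) (lev c)) {p : MvPolynomial τ ℝ} {n : ℕ}
    (hp : IsWeightedHomogeneous lev p n) : IsWeightedHomogeneous w (aeval top p) n := by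
  rw [p.as_sum, map_sum]
  refine IsWeightedHomogeneous.sum _ _ _ fun α hα => ?_
  rw [aeval_monomial, ← hp (mem_support_iff.1 hα), Finsupp.weight_apply, Finsupp.prod, Finsupp.sum]
  exact (IsWeightedHomogeneous.prod _ _ _ fun c _ => (h c).pow (α c)).C_mul _

theorem subst_WH {lev : τ → ℕ} {top : τ → MvPolynomial σ ℝ} {w : σ → ℕ}
    (h : ∀ c, IsWeightedHomogeneous w (top c) (lev c)) {P : g.PS τ} (hP : P ∈ WH g lev) :
    g.subst top P ∈ WH g w := fun k => aeval_hom h (hP k)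

section cong

variable {A : Type} [CommRing A] [Algebra ℝ A]

theorem star_left_FA (S b : ℕ) {ρ : g.pts A} (hρ : ρ ∈ g.FA A b) (x : g.pts A) :
    star S ρ x - (ρ + x) ∈ g.FA A (b + 1) :=
  Bch.star_sub_mem S _ (fun _ hm => FA_anti (Nat.le_succ _) (lie_mem_FA_succ _ hm))
    (fun _ hm => FA_anti (Nat.le_succ _) (lie_mem_FA_succ _ hm))
    (by rw [← lie_skew]; exact neg_mem (lie_mem_FA_succ _ hρ))

theorem star_right_FA (S b : ℕ) {ρ : g.pts A} (hρ : ρ ∈ g.FA A b) (x : g.pts A) :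
    star S x ρ - (x + ρ) ∈ g.FA A (b + 1) :=
  Bch.star_sub_mem S _ (fun _ hm => FA_anti (Nat.le_succ _) (lie_mem_FA_succ _ hm))
    (fun _ hm => FA_anti (Nat.le_succ _) (lie_mem_FA_succ _ hm)) (lie_mem_FA_succ _ hρ)

theorem map_mem_FA {B : Type} [CommRing B] [Algebra ℝ B] (φ : A →ₐ[ℝ] B) {b : ℕ} {x : g.pts A}
    (hx : x ∈ g.FA A b) : g.map φ x ∈ g.FA B b := fun k hk => by
  rw [ND.map_apply, hx k hk, map_zero]

end cong

/-- **rigidity** -/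
theorem rigid (S a : ℕ) {x₁ x₂ ρ γ : g.L} {q : ℕ} (hq : 1 ≤ q) (hx : x₁ - x₂ ∈ g.F (a + 1))
    (h : star S ρ x₁ = star S x₂ γ) (hρ : (q : ℝ) * ‖ρ‖ < 1) (hγ : g.Den q γ) :
    ρ ∈ g.F (a + 1) ∧ ∀ k, g.wt k = a + 1 → ∃ n : ℤ, (q : ℝ) * (x₁ k - x₂ k + ρ k) = n := by
  have key : ∀ b, ρ ∈ g.F b → γ ∈ g.F b → (x₁ - x₂) + ρ - γ ∈ g.F (b + 1) := fun b h1 h2 => by
    have := sub_mem (star_right_FA S b h2 x₂) (star_left_FA S b h1 x₁)
    rw [h] at this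
    convert this using 1
    abel
  have hq0 : (0 : ℝ) < q := by exact_mod_cast hq
  have ind : ∀ b, b ≤ a + 1 → ρ ∈ g.F b ∧ γ ∈ g.F b := by
    intro b
    induction b with
    | zero => exact fun _ => ⟨mem_FA_zero _, mem_FA_zero _⟩
    | succ b ih =>
      intro hb
      obtain ⟨h1, h2⟩ := ih (by omega)
      have h3 : ∀ k, g.wt k < b + 1 → ρ k = γ k := fun k hk => by
        have h4 := key b h1 h2 k hk
        have h5 := hx k (by omega)
        rw [ND.sub_apply, ND.add_apply, h5] at h4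
        linarith
      have h6 : ∀ k, g.wt k < b + 1 → γ k = 0 := fun k hk => by
        obtain ⟨n, hn⟩ := den_iff.1 hγ k
        have h7 : |(n : ℝ)| < 1 := by
          rw [← hn, ← h3 k hk, abs_mul, abs_of_pos hq0]
          exact (mul_le_mul_of_nonneg_left (abs_apply_le ρ k) hq0.le).trans_lt hρ
        have h8 : n = 0 := Int.abs_lt_one_iff.1 (by exact_mod_cast h7)
        rw [h8, Int.cast_zero] at hn
        exact (mul_eq_zero.1 hn).resolve_left hq0.ne'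
      exact ⟨fun k hk => (h3 k hk).trans (h6 k hk), h6⟩
  obtain ⟨h1, h2⟩ := ind _ le_rfl
  refine ⟨h1, fun k hk => ?_⟩
  obtain ⟨n, hn⟩ := den_iff.1 hγ k
  have h4 := key _ h1 h2 k (by omega)
  simp only [ND.sub_apply, ND.add_apply] at h4
  exact ⟨n, by rw [← hn]; congr 1; linarith⟩

theorem bkA (S : ℕ) : ∃ C : ℕ, ∀ (r : ℝ) (d q : ℕ), 2 ≤ r → (d : ℝ) ≤ r → (q : ℝ) ≤ Real.exp r →
    ∀ δ : ℝ, 0 ≤ δ → δ ≤ Real.exp (-r ^ C) →
    ((dn S * (dn S * q ^ (S + 1)) ^ (S + 1) : ℕ) : ℝ) ≤ Real.exp (r ^ C) ∧ δ ≤ 1 ∧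
    ((dn S * (dn S * q ^ (S + 1)) ^ (S + 1) : ℕ) : ℝ) *
      (cb S * (cb S * ((d ^ 2 + 1) * Real.exp r) ^ (2 * S + 1) + (d ^ 2 + 1) * Real.exp r) ^ (2 * S)
        * (cb S * ((d ^ 2 + 1) * Real.exp r) ^ (2 * S) * 2)) * δ ≤ 1 / 2 ∧
    ((dn S * (dn S * q ^ (S + 1)) ^ (S + 1) : ℕ) : ℝ) *
      (2 * (cb S * ((d ^ 2 + 1) * Real.exp r) ^ (2 * S))) ≤ Real.exp (r ^ C) := by qp

/-- two representations of one point with left factors in one small cell -/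
theorem two_pts (S : ℕ) : ∃ C : ℕ, 1 ≤ C ∧ ∀ (r : ℝ), 2 ≤ r → ∀ (ι : Type) [Fintype ι] (g : ND ι),
    GI.Fd g S r → ∀ q : ℕ, 1 ≤ q → (q : ℝ) ≤ Real.exp r →
    ∃ q' : ℕ, 1 ≤ q' ∧ (q' : ℝ) ≤ Real.exp (r ^ C) ∧ ∀ (a : ℕ) (η : ℝ)
      (η₁ η₂ e₁ e₂ x₁ x₂ g₁ g₂ γ₁ γ₂ : g.L), η ≤ Real.exp (-r ^ C) → ‖η₁‖ ≤ η → ‖η₂‖ ≤ η →
      ‖e₁‖ ≤ Real.exp r → ‖e₂‖ ≤ Real.exp r → ‖e₁ - e₂‖ ≤ Real.exp (-r ^ C) →
      g.Den q g₁ → g.Den q g₂ → g.Den q γ₁ → g.Den q γ₂ → x₁ - x₂ ∈ g.F (a + 1) →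
      star S η₁ (star S (star S e₁ (star S x₁ g₁)) γ₁) =
        star S η₂ (star S (star S e₂ (star S x₂ g₂)) γ₂) →
      ∀ k, g.wt k = a + 1 → ∃ n : ℤ,
        |(q' : ℝ) * (x₁ k + e₁ k) - q' * (x₂ k + e₂ k) - n| ≤ Real.exp (r ^ C) * η := by
  obtain ⟨C, hC⟩ := bkA S
  refine ⟨C + 1, by omega, fun r hr ι _ g hg q hq hqr => ?_⟩
  have hm1 := Qp.exp_pw_mono hr (Nat.le_succ C)
  have hm2 := Qp.exp_neg_pw_mono hr (Nat.le_succ C)
  obtain ⟨b1, b2, b3, b4⟩ := hC r (Fintype.card ι) q hr hg.dim hqr _ (Real.exp_pos _).le hm2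
  set δ := Real.exp (-r ^ (C + 1)) with hδ
  set q' := dn S * (dn S * q ^ (S + 1)) ^ (S + 1) with hq'
  have hq1 : 1 ≤ q' := Nat.mul_pos (Bch.dn_pos S) (pow_pos (Nat.mul_pos (Bch.dn_pos S)
    (pow_pos hq _)) _)
  refine ⟨q', hq1, b1.trans hm1, ?_⟩
  intro a η η₁ η₂ e₁ e₂ x₁ x₂ g₁ g₂ γ₁ γ₂ hη h1 h2 he1 he2 he hg1 hg2 hγ1 hγ2 hx h k hk
  have := ND.nil hg.wt_le ℝ
  set d := Fintype.card ι
  set K : ℝ := (d ^ 2 + 1) * Real.exp r with hK
  have hE : 1 ≤ Real.exp r := Real.one_le_exp (by linarith)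
  have hd2 : (0 : ℝ) ≤ (d : ℝ) ^ 2 := by positivity
  have hK0 : Real.exp r ≤ K := by rw [hK]; nlinarith
  have hK1 : 1 ≤ K := hE.trans hK0
  have hKd : (d : ℝ) ^ 2 * Real.exp r ≤ K := by rw [hK]; nlinarith
  have hcb := Bch.two_le_cb S
  let G := gL g hg.c_le (Real.exp_pos r).le (le_refl d)
  have hη0 : 0 ≤ η := (norm_nonneg _).trans h1
  have hη1 : η ≤ K := hη.trans (b2.trans hK1)
  have hδ0 : 0 < δ := Real.exp_pos _
  set K' := cb S * K ^ (2 * S + 1) + K with hK'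
  have hKK : K ≤ K' := le_add_of_nonneg_left (by positivity)
  have hb : ∀ {u v : g.L}, ‖u‖ ≤ η → ‖v‖ ≤ Real.exp r → ‖star S u v‖ ≤ K' ∧
      ‖star S u v - v‖ ≤ cb S * K ^ (2 * S) * η := fun {u v} hu hv =>
    ⟨(G.star_le S hKd hK1 (hu.trans hη1) (hv.trans hK0)).trans (le_add_of_nonneg_right (by linarith)),
      G.star_sub_right_le S hKd hK1 (hu.trans hη1) hu (hv.trans hK0)⟩
  obtain ⟨n1, n2⟩ := hb h1 he1
  obtain ⟨n3, n4⟩ := hb h2 he2
  have n5 : ‖star S η₁ e₁ - star S η₂ e₂‖ ≤ cb S * K ^ (2 * S) * (2 * δ) :=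
    G.star_sub_star_le S hKd hK1 (h1.trans hη1) (h2.trans hη1) (he1.trans hK0) (he2.trans hK0)
      ((norm_sub_le η₁ η₂).trans (by linarith)) (he.trans (by linarith))
  set β₁ := star S η₁ e₁
  set β₂ := star S η₂ e₂
  have n6 : ‖star S (-β₂) β₁‖ ≤ cb S * K' ^ (2 * S) * (cb S * K ^ (2 * S) * (2 * δ)) :=
    G.neg_star_le S (hKd.trans hKK) (hK1.trans hKK) n3 n1 n5
  have e1 : star S (star S (-β₂) β₁) x₁ =
      star S x₂ (star S (star S g₂ γ₂) (-star S g₁ γ₁)) := by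
    have h' : star S β₁ (star S x₁ (star S g₁ γ₁)) = star S β₂ (star S x₂ (star S g₂ γ₂)) := by
      simpa only [β₁, β₂, star_assoc] using h
    rw [← star_assoc S x₂, ← Bch.star_eq_iff_right, star_assoc, star_assoc, eq_comm,
      ← Bch.star_eq_iff_left, h']
  have hden : g.Den q' (star S (star S g₂ γ₂) (-star S g₁ γ₁)) :=
    den_star S (den_star S hg2 hγ2) (Gon.IsDen.neg (den_star S hg1 hγ1))
  have hq0 : (0 : ℝ) ≤ q' := Nat.cast_nonneg _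
  obtain ⟨r1, r2⟩ := rigid S a hq1 hx e1
    ((mul_le_mul_of_nonneg_left n6 hq0).trans_lt (by
      refine lt_of_le_of_lt (le_of_eq ?_) (b3.trans_lt (by norm_num))
      ring)) hden
  obtain ⟨n, hn⟩ := r2 k hk
  refine ⟨n, ?_⟩
  have e2 : star S (-β₂) β₁ k = β₁ k - β₂ k := by
    have h3 := star_right_FA S _ r1 β₂ k (by omega)
    rw [← star_assoc, Bch.star_neg_self, Bch.zero_star] at h3
    simp only [ND.sub_apply, ND.add_apply] at h3
    linarith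
  have a1 := (abs_apply_le _ k).trans n2
  have a2 := (abs_apply_le _ k).trans n4
  rw [ND.sub_apply] at a1 a2
  rw [← hn, e2]
  calc _ = (q' : ℝ) * |(β₂ k - e₂ k) - (β₁ k - e₁ k)| := by
        rw [← abs_of_nonneg hq0, ← abs_mul, abs_of_nonneg hq0]; congr 1; ring
    _ ≤ q' * (2 * (cb S * K ^ (2 * S) * η)) :=
        mul_le_mul_of_nonneg_left ((abs_sub _ _).trans (by linarith)) hq0
    _ = q' * (2 * (cb S * K ^ (2 * S))) * η := by ring
    _ ≤ _ := mul_le_mul_of_nonneg_right (b4.trans hm1) hη0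

/-- rounding of a form -/
theorem exists_round {p : MvPolynomial σ ℝ} {a : ℕ} (hp : IsWeightedHomogeneous 1 p a) {V M : ℝ}
    (hV : 0 ≤ V) (h : ∀ α, ∃ n : ℤ, |p.coeff α - n| * V ^ a ≤ M) :
    ∃ I : MvPolynomial σ ℝ, IsWeightedHomogeneous 1 I a ∧ (∀ α, ∃ n : ℤ, I.coeff α = n) ∧
      ∀ α, |(p - I).coeff α| * V ^ a ≤ M := by
  classical
  have hc : ∀ α, (∑ β ∈ p.support, monomial β ((round (p.coeff β) : ℤ) : ℝ)).coeff α =
      ((round (p.coeff α) : ℤ) : ℝ) := fun α => by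
    simp only [coeff_sum, coeff_monomial, sum_ite_eq', mem_support_iff]
    split_ifs with h1
    · rfl
    · rw [not_not.1 h1]; simp
  refine ⟨∑ β ∈ p.support, monomial β ((round (p.coeff β) : ℤ) : ℝ), fun α hα => hp fun h0 => ?_,
    fun α => ⟨_, hc α⟩, fun α => ?_⟩
  · rw [hc, h0] at hα; simp at hα
  · obtain ⟨n, hn⟩ := h α
    rw [coeff_sub, hc]
    exact (mul_le_mul_of_nonneg_right (round_le _ n) (pow_nonneg hV a)).trans hn

end Crest.Agent.T49.Lv
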