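import Crest.Agent.T49.LvA_3

/-!
# Row 49 (helper3): the level loop

A family of frames `W` carries homogeneous polynomial maps `X W` into a graded group whose values
are, up to a tiny left factor and a rational right factor, a function of the point `pt W u`.
Given the abelian oracle `HP` (a form that is a function of the point is a weighted form in the top
data), `X W = smooth * (Λ ∘ top W) * rational` for one weighted homogeneous `Λ` and many `W`.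
-/

set_option autoImplicit false

noncomputable section

namespace Crest.Agent.T49.Lv

open Finset MvPolynomial Crest.Agent.T49.Nil Crest.Agent.T49.Nil.ND
open Crest.Agent.T49.Bch (star star_assoc)

/-- an abstract family of frames: an outer measure, top data, points -/
structure Fr (Ω σ τ Y : Type) where
  mu : (Ω → Prop) → ℝ
  lev : τ → ℕ
  top : Ω → τ → MvPolynomial σ ℝ
  pt : Ω → (σ → ℤ) → Y
  V : ℝ
  mono : ∀ P Q : Ω → Prop, (∀ W, P W → Q W) → mu P ≤ mu Q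
  add : ∀ P Q : Ω → Prop, mu (fun W => P W ∨ Q W) ≤ mu P + mu Q
  zero : mu (fun _ => False) ≤ 0
  hom : ∀ W c, IsWeightedHomogeneous 1 (top W c) (lev c)
  hpt : ∀ W W' u u', pt W u = pt W' u' → ∀ c,
    aeval (fun v => (u v : ℝ)) (top W c) = aeval (fun v => (u' v : ℝ)) (top W' c)
  V_pos : 0 < V

variable {Ω σ τ Y : Type} [Fintype σ]

/-- a dense family of frames with dense position sets -/
structure Fr.Dn (F : Fr Ω σ τ Y) (R : ℝ) (Z : Ω → Prop) (B : Ω → Finset (σ → ℤ)) : Prop where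
  mass : Real.exp (-R) ≤ F.mu Z
  box : ∀ W, Z W → ∀ u ∈ B W, ∀ v, |(u v : ℝ)| ≤ F.V
  card : ∀ W, Z W → Real.exp (-R) * F.V ^ Fintype.card σ ≤ #(B W)

/-- the abelian oracle in degree `a` -/
def Fr.HP (F : Fr Ω σ τ Y) (a : ℕ) (R R' : ℝ) : Prop :=
  ∀ (κ : Type) [Fintype κ] (f : Y → κ → ℝ) (T : Ω → κ → MvPolynomial σ ℝ) (Z : Ω → Prop)
    (B : Ω → Finset (σ → ℤ)), (Fintype.card κ : ℝ) ≤ R → F.Dn R Z B →
    (∀ W, Z W → ∀ k, IsWeightedHomogeneous 1 (T W k) a) →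
    (∀ W, Z W → ∀ u ∈ B W, ∀ k, ∃ n : ℤ,
      |aeval (fun v => (u v : ℝ)) (T W k) - f (F.pt W u) k - n| ≤ Real.exp (-R')) →
    ∃ (q : ℕ) (lam : κ → MvPolynomial τ ℝ) (Z' : Ω → Prop), 1 ≤ q ∧ (q : ℝ) ≤ Real.exp R' ∧
      (∀ k, IsWeightedHomogeneous F.lev (lam k) a) ∧ (∀ W, Z' W → Z W) ∧
      Real.exp (-R') ≤ F.mu Z' ∧ ∀ W, Z' W → ∀ k α, ∃ n : ℤ,
        |(C (q : ℝ) * T W k - aeval (F.top W) (lam k)).coeff α - (n : ℝ)| * F.V ^ a ≤ Real.exp R'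

theorem Fr.Dn.mono {F : Fr Ω σ τ Y} {R R' : ℝ} {Z : Ω → Prop} {B : Ω → Finset (σ → ℤ)}
    (h : F.Dn R Z B) (hR : R ≤ R') : F.Dn R' Z B :=
  have h1 := Real.exp_le_exp.2 (neg_le_neg hR)
  ⟨h1.trans h.mass, h.box, fun W hW =>
    (mul_le_mul_of_nonneg_right h1 (pow_pos F.V_pos _).le).trans (h.card W hW)⟩

omit [Fintype σ] in
theorem Fr.mu_le_sum (F : Fr Ω σ τ Y) {β : Type} (s : Finset β) (P : β → Ω → Prop) :
    F.mu (fun W => ∃ b ∈ s, P b W) ≤ ∑ b ∈ s, F.mu (P b) := by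
  classical
  induction s using Finset.induction_on with
  | empty => exact (F.mono _ _ fun W h => by simp at h).trans (by simpa using F.zero)
  | insert b s hb ih =>
    rw [sum_insert hb]
    exact (F.mono _ (fun W => P b W ∨ ∃ b ∈ s, P b W) fun W h => by simpa using h).trans
      ((F.add _ _).trans (by linarith))

/-- pigeonhole for a colouring of the pairs (frame, position) -/
theorem Fr.pig (F : Fr Ω σ τ Y) {β : Type} (s : Finset β) (col : Ω → (σ → ℤ) → β) {Z : Ω → Prop}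
    {B : Ω → Finset (σ → ℤ)} {R R' : ℝ} (h : F.Dn R Z B) (hc : ∀ W, Z W → ∀ u ∈ B W, col W u ∈ s)
    (hs : #s * Real.exp (-R') ≤ Real.exp (-R)) :
    ∃ (b : β) (Z' : Ω → Prop) (B' : Ω → Finset (σ → ℤ)), F.Dn R' Z' B' ∧
      ∀ W, Z' W → Z W ∧ ∀ u ∈ B' W, u ∈ B W ∧ col W u = b := by
  classical
  have hV := pow_pos F.V_pos (Fintype.card σ)
  have hne : s.Nonempty := by
    obtain ⟨W, hW⟩ : ∃ W, Z W := by
      by_contra h0
      have := (h.mass.trans (F.mono _ _ fun W hW => h0 ⟨W, hW⟩)).trans F.zero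
      exact absurd this (not_le.2 (Real.exp_pos _))
    have h1 : (0 : ℝ) < #(B W) := (mul_pos (Real.exp_pos _) hV).trans_le (h.card W hW)
    obtain ⟨u, hu⟩ := card_pos.1 (by exact_mod_cast h1 : 0 < #(B W))
    exact ⟨_, hc W hW u hu⟩
  have h1 : ∀ W, ∃ b ∈ s, Z W →
      Real.exp (-R') * F.V ^ Fintype.card σ ≤ #{u ∈ B W | col W u = b} := fun W => by
    by_cases hW : Z W
    · obtain ⟨b, hb, h2⟩ := exists_le_card_fiber_of_nsmul_le_card_of_maps_to (hc W hW) hne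
        (b := Real.exp (-R') * F.V ^ Fintype.card σ) (by
          rw [nsmul_eq_mul, ← mul_assoc]
          exact (mul_le_mul_of_nonneg_right hs hV.le).trans (h.card W hW))
      exact ⟨b, hb, fun _ => h2⟩
    · exact ⟨_, hne.choose_spec, fun h => absurd h hW⟩
  choose c hc1 hc2 using h1
  obtain ⟨b, -, hb⟩ := exists_le_of_sum_le hne (f := fun _ => Real.exp (-R'))
    (g := fun b => F.mu fun W => Z W ∧ c W = b) (by
      rw [sum_const, nsmul_eq_mul]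
      exact hs.trans (h.mass.trans ((F.mono _ _ fun W hW => ⟨c W, hc1 W, hW, rfl⟩).trans
        (F.mu_le_sum s fun b W => Z W ∧ c W = b))))
  refine ⟨b, fun W => Z W ∧ c W = b, fun W => {u ∈ B W | col W u = b},
    ⟨hb, fun W hW u hu => h.box W hW.1 u (mem_filter.1 hu).1, fun W hW => hW.2 ▸ hc2 W hW.1⟩,
    fun W hW => ⟨hW.1, fun u hu => mem_filter.1 hu⟩⟩

variable {ι : Type} [Fintype ι]

/-- the state of the loop after level `a` -/
def St (F : Fr Ω σ τ Y) (g : ND ι) (S a : ℕ) (r : ℝ) (X : Ω → g.PS σ) (Z : Ω → Prop) : Prop :=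
  ∃ Λ ∈ WH g F.lev, ∃ (q : ℕ) (Z' : Ω → Prop), 1 ≤ q ∧ (q : ℝ) ≤ Real.exp r ∧ (∀ W, Z' W → Z W) ∧
    Real.exp (-r) ≤ F.mu Z' ∧ ∀ W, Z' W → ∃ ε ∈ WH g 1, ∃ X' ∈ WH g 1, ∃ γ ∈ WH g 1,
      g.Sm F.V (Real.exp r) ε ∧ g.RatP q γ ∧ X W = star S ε (star S X' γ) ∧
      X' - g.subst (F.top W) Λ ∈ g.FA _ (a + 1)

/-- the values of `X` are a function of the point, up to tiny and rational factors -/
def Fn (F : Fr Ω σ τ Y) (g : ND ι) (S : ℕ) (η m : ℝ) (X : Ω → g.PS σ) (t : Y → g.L)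
    (Z : Ω → Prop) (B : Ω → Finset (σ → ℤ)) : Prop :=
  ∀ W, Z W → ∀ u ∈ B W, ∃ ε₀ γ₀ : g.L, ‖ε₀‖ ≤ η ∧ GI.Rt g m γ₀ ∧
    t (F.pt W u) = star S ε₀ (star S (g.evZ u (X W)) γ₀)

omit [Fintype σ] in
/-- the algebraic update -/
theorem update {g : ND ι} {S a d : ℕ} {r : ℝ} (hg : GI.Gd g S r) (hr : 0 ≤ r)
    (hd : Fintype.card ι ≤ d) {V M M' : ℝ} (hV : 0 ≤ V) (hM : 1 ≤ M) (hM' : 0 ≤ M') {q Q : ℕ}
    (hQ : 1 ≤ Q) {ε X γ P : g.PS σ} (hε : ε ∈ WH g 1) (hX : X ∈ WH g 1) (hγ : γ ∈ WH g 1)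
    (hP : P ∈ WH g 1) (h1 : g.Sm V M ε) (h2 : g.RatP q γ)
    (h3 : ∀ k, g.wt k < a + 1 → X k = P k)
    (h4 : ∀ k, g.wt k = a + 1 → ∀ α, ∃ n : ℤ,
      |(C (Q : ℝ) * (X k + ε k - P k)).coeff α - (n : ℝ)| * V ^ (a + 1) ≤ M') :
    ∃ ε' ∈ WH g 1, ∃ X' ∈ WH g 1, ∃ γ' ∈ WH g 1,
      g.Sm V (St.cS S * (St.kB S d (Real.exp r) * (M + M')) ^ (S + 1)) ε' ∧
      g.RatP (St.dS S * (q * Q) ^ (S + 1)) γ' ∧
      star S ε (star S X γ) = star S ε' (star S X' γ') ∧ X' - P ∈ g.FA _ (a + 1 + 1) := by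
  classical
  have := ND.nil hg.wt_le (MvPolynomial σ ℝ)
  have hQ0 : (0 : ℝ) < Q := by exact_mod_cast hQ
  have h5 : ∀ k, ∃ I : MvPolynomial σ ℝ, IsWeightedHomogeneous 1 I (g.wt k) ∧
      (∀ α, ∃ n : ℤ, I.coeff α = n) ∧ (g.wt k ≠ a + 1 → I = 0) ∧ (g.wt k = a + 1 → ∀ α,
        |(C (Q : ℝ) * (X k + ε k - P k) - I).coeff α| * V ^ (a + 1) ≤ M') := fun k => by
    by_cases hk : g.wt k = a + 1
    · obtain ⟨I, i1, i2, i3⟩ := exists_round
        (hk ▸ ((((hX k).add (hε k)).sub (hP k)).C_mul (Q : ℝ))) hV (h4 k hk)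
      exact ⟨I, hk ▸ i1, i2, fun h => absurd hk h, fun _ => i3⟩
    · exact ⟨0, isWeightedHomogeneous_zero ℝ _ _, fun _ => ⟨0, by simp⟩, fun _ => rfl,
        fun h => absurd h hk⟩
  choose I i1 i2 i3 i4 using h5
  let ρ : g.PS σ := fun k => C (Q : ℝ)⁻¹ * I k
  let e : g.PS σ := fun k => if g.wt k = a + 1 then X k - P k - ρ k else 0
  have hρ : ρ ∈ WH g 1 := fun k => (i1 k).C_mul _
  have he : e ∈ WH g 1 := fun k => by
    by_cases hk : g.wt k = a + 1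
    · simp only [e, if_pos hk]; exact ((hX k).sub (hP k)).sub (hρ k)
    · simp only [e, if_neg hk]; exact isWeightedHomogeneous_zero ℝ _ _
  have hρF : ρ ∈ g.FA _ (a + 1) := fun k hk => by simp only [ρ, i3 k hk.ne, mul_zero]
  have heF : e ∈ g.FA _ (a + 1) := fun k hk => if_neg hk.ne
  have hρR : g.RatP Q ρ := fun α => den_iff.2 fun k => by
    obtain ⟨n, hn⟩ := i2 k α
    exact ⟨n, by rw [cv_apply, coeff_C_mul, hn, mul_inv_cancel_left₀ hQ0.ne']⟩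
  have heS : g.Sm V (M + M') e := fun α => by
    have hp := pow_nonneg hV α.degree
    rcases hp.eq_or_lt with h0 | h0
    · rw [← h0, mul_zero]; linarith
    rw [← le_div_iff₀ h0]
    refine (norm_le_iff (div_nonneg (by linarith) hp)).2 fun k => ?_
    rw [le_div_iff₀ h0, cv_apply]
    by_cases h6 : (e k).coeff α = 0
    · rw [h6, abs_zero, zero_mul]; linarith
    have h7 := degree_of_WH he h6
    have hk : g.wt k = a + 1 := by
      by_contra hk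
      exact h6 (by simp only [e, if_neg hk, coeff_zero])
    have h8 := i4 k hk α
    have h9 := (mul_le_mul_of_nonneg_right (abs_apply_le (g.cv α ε) k) hp).trans (h1 α)
    rw [← hk, ← h7] at h8
    have e1 : (e k).coeff α = (Q : ℝ)⁻¹ * (C (Q : ℝ) * (X k + ε k - P k) - I k).coeff α
        - g.cv α ε k := by
      simp only [e, ρ, if_pos hk, coeff_sub, coeff_add, coeff_C_mul, cv_apply]
      field_simp
      ring
    have h10 : |(Q : ℝ)⁻¹| ≤ 1 := by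
      rw [abs_of_pos (inv_pos.2 hQ0)]; exact inv_le_one_of_one_le₀ (by exact_mod_cast hQ)
    rw [e1]
    refine (mul_le_mul_of_nonneg_right (abs_sub _ _) hp).trans ?_
    rw [add_mul, abs_mul, mul_assoc]
    have := mul_le_mul h10 h8 (by positivity) zero_le_one
    linarith
  refine ⟨star S ε e, star_WH hg.gr S hε he, star S (-e) (star S X (-ρ)),
    star_WH hg.gr S (neg_mem he) (star_WH hg.gr S hX (neg_mem hρ)), star S ρ γ,
    star_WH hg.gr S hρ hγ,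
    St.Sm_star hg.wt_le hg.c_le (Real.one_le_exp hr) hd hV (by linarith) (WH_le_poly hε)
      (WH_le_poly he) (h1.mono (by linarith)) heS,
    St.RatP_star S (hρR.of_dvd (Dvd.intro_left _ rfl)) (h2.of_dvd (Dvd.intro _ rfl)),
    by simp only [star_assoc, Bch.star_neg_star, Bch.neg_star_star], fun k hk => ?_⟩
  have h6 := star_left_FA S _ (neg_mem heF) (star S X (-ρ)) k hk
  have h7 := star_right_FA S _ (neg_mem hρF) X k hk
  simp only [ND.sub_apply, ND.add_apply, ND.neg_apply] at h6 h7 ⊢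
  by_cases hk' : g.wt k = a + 1
  · have : e k = X k - P k - ρ k := if_pos hk'
    linear_combination h6 + h7 - this
  · have h8 := heF k (by omega)
    have h9 := hρF k (by omega)
    linear_combination h6 + h7 - h8 - h9 + h3 k (by omega)

theorem bkB (S : ℕ) : ∃ C : ℕ, ∀ (r : ℝ) (D q q₀ : ℕ), 2 ≤ r → (D : ℝ) ≤ r →
    (q : ℝ) ≤ Real.exp r → (q₀ : ℝ) ≤ Real.exp r →
    ((q * q₀ : ℕ) : ℝ) ≤ Real.exp (r ^ C) ∧ ((S : ℝ) + 1) ^ D * Real.exp r ≤ Real.exp (r ^ C) ∧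
      r ≤ r ^ C := by qp

theorem bkC (c c' : ℕ) : ∃ C : ℕ, ∀ (r : ℝ) (d : ℕ), 2 ≤ r → (d : ℝ) ≤ r →
    Real.exp r * (2 * (Real.exp (r ^ c) * Real.exp ((r ^ c) ^ c') + 2) + 1) ^ d * Real.exp r
      ≤ Real.exp (r ^ C) ∧ r ≤ r ^ C := by qp

theorem bkD (S c c' c'' C₀ : ℕ) : ∃ C : ℕ, ∀ (r : ℝ) (d q q₁ q₂ : ℕ), 2 ≤ r → (d : ℝ) ≤ r →
    (q : ℝ) ≤ Real.exp r → (q₁ : ℝ) ≤ Real.exp ((r ^ c'') ^ C₀) →
    (q₂ : ℝ) ≤ Real.exp ((r ^ c) ^ c') →
    ((St.dS S * (q * (q₁ * q₂)) ^ (S + 1) : ℕ) : ℝ) ≤ Real.exp (r ^ C) ∧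
    St.cS S * (2 ^ S * ((d : ℝ) + 1) ^ 2 * Real.exp r *
      (Real.exp r + Real.exp ((r ^ c'') ^ C₀))) ^ (S + 1) ≤ Real.exp (r ^ C) ∧
    (r ^ c'') ^ C₀ ≤ r ^ C ∧ (r ^ c) ^ c' ≤ r ^ C ∧ r ^ c'' ≤ r ^ C ∧
    (r ^ c) ^ c' + (r ^ c'') ^ C₀ ≤ r ^ C := by qp

/-- one level -/
theorem step (S C₀ : ℕ) : ∃ C : ℕ, 1 ≤ C ∧ ∀ (r : ℝ), 2 ≤ r → ∀ (Ω σ τ Y ι : Type) [Fintype σ]
    [Fintype ι] (F : Fr Ω σ τ Y) (g : ND ι) (a : ℕ) (X : Ω → g.PS σ) (t : Y → g.L) (Z : Ω → Prop)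
    (B : Ω → Finset (σ → ℤ)), GI.Gd g S r → (Fintype.card σ : ℝ) ≤ r →
    (∀ R, r ≤ R → R ≤ r ^ C → F.HP (a + 1) R (R ^ C₀)) → F.Dn r Z B →
    Fn F g S (Real.exp (-r ^ C)) r X t Z B → St F g S a r X Z → St F g S (a + 1) (r ^ C) X Z := by
  obtain ⟨c, hc⟩ := bkB S
  obtain ⟨c', -, hc'⟩ := two_pts S
  obtain ⟨c'', hc''⟩ := bkC c c'
  obtain ⟨E, hE⟩ := bkD S c c' c'' C₀
  refine ⟨E + 1, by omega, fun r hr Ω σ τ Y ι _ _ F g a X t Z B hg hσ hHP hD hF hSt => ?_⟩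
  classical
  obtain ⟨Λ, hΛ, q, Z₁, hq, hqr, hZ₁, hmu, hst⟩ := hSt
  have hmono := Qp.pw_mono hr (Nat.le_succ E)
  choose! ε hε X' hX' γ hγ hSm hRat hfac hlev using hst
  choose! ε₀ γ₀ hε₀ hγ₀ ht using hF
  choose! q₀ hq₀ hq₀r hden using hγ₀
  set d := Fintype.card ι
  set ρ := r ^ c with hρ
  set δ := Real.exp (-ρ ^ c') with hδ
  have hδ0 : 0 < δ := Real.exp_pos _
  set N : ℕ := ⌈Real.exp ρ * Real.exp (ρ ^ c')⌉₊ + 1 with hN
  have hD₁ : F.Dn r Z₁ B := ⟨hmu, fun W hW => hD.box W (hZ₁ W hW), fun W hW => hD.card W (hZ₁ W hW)⟩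
  have hrρ : r ≤ ρ := (hc r 0 0 0 hr (by simp; linarith) (by simp; positivity)
    (by simp; positivity)).2.2
  have hev : ∀ W, Z₁ W → ∀ u ∈ B W, ‖g.evZ u (ε W)‖ ≤ Real.exp ρ := fun W hW u hu =>
    (Win.norm_evZ_le hg.wt_le (WH_le_poly (hε W hW)) (hSm W hW) (hD₁.box W hW u hu)).trans
      (hc r _ 0 0 hr hσ (by simp; positivity) (by simp; positivity)).2.1
  obtain ⟨b1, b2⟩ := hc'' r d hr hg.dim
  obtain ⟨⟨p, cell⟩, Z₂, B₂, hD₂, hcol⟩ := F.pig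
    (Icc 1 ⌊Real.exp r⌋₊ ×ˢ Fintype.piFinset fun _ : ι => Icc (-(N : ℤ)) N)
    (fun W u => (q₀ W u, fun k => ⌊g.evZ u (ε W) k / δ⌋)) (R' := r ^ c'') hD₁
    (fun W hW u hu => mem_product.2 ⟨mem_Icc.2 ⟨hq₀ W (hZ₁ W hW) u hu,
      Nat.le_floor (hq₀r W (hZ₁ W hW) u hu)⟩, Fintype.mem_piFinset.2 fun k => by
        have h1 : |g.evZ u (ε W) k / δ| ≤ Real.exp ρ * Real.exp (ρ ^ c') := by
          rw [abs_div, abs_of_pos hδ0, hδ, Real.exp_neg, div_inv_eq_mul]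
          exact mul_le_mul_of_nonneg_right ((abs_apply_le _ k).trans (hev W hW u hu))
            (Real.exp_pos _).le
        have h2 := Nat.le_ceil (Real.exp ρ * Real.exp (ρ ^ c'))
        have h3 := Int.floor_le (g.evZ u (ε W) k / δ)
        have h4 := Int.lt_floor_add_one (g.evZ u (ε W) k / δ)
        have h5 := abs_le.1 h1
        have h6 : (N : ℝ) = ⌈Real.exp ρ * Real.exp (ρ ^ c')⌉₊ + 1 := by rw [hN]; push_cast; rfl
        refine mem_Icc.2 ⟨?_, ?_⟩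
        · have : (-(N : ℝ)) ≤ ⌊g.evZ u (ε W) k / δ⌋ := by linarith
          exact_mod_cast this
        · have : (⌊g.evZ u (ε W) k / δ⌋ : ℝ) ≤ N := by linarith
          exact_mod_cast this⟩)
    (by
      rw [Real.exp_neg, Real.exp_neg, ← div_eq_mul_inv, div_le_iff₀ (Real.exp_pos _),
        le_inv_mul_iff₀ (Real.exp_pos _), mul_comm]
      refine le_trans (mul_le_mul_of_nonneg_right ?_ (Real.exp_pos _).le) b1
      rw [card_product, Fintype.card_piFinset, prod_const, card_univ, Nat.card_Icc, Int.card_Icc,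
        Nat.add_sub_cancel, show (N : ℤ) + 1 - -(N : ℤ) = ((2 * N + 1 : ℕ) : ℤ) by push_cast; ring,
        Int.toNat_natCast]
      push_cast
      have h2 := (Nat.ceil_lt_add_one (show 0 ≤ Real.exp ρ * Real.exp (ρ ^ c') by positivity)).le
      have h6 : (N : ℝ) = ⌈Real.exp ρ * Real.exp (ρ ^ c')⌉₊ + 1 := by rw [hN]; push_cast; rfl
      exact mul_le_mul (Nat.floor_le (Real.exp_pos _).le)
        (pow_le_pow_left₀ (by positivity) (by linarith) _) (by positivity) (Real.exp_pos _).le)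
  -- the common denominator
  obtain ⟨W₀, hW₀⟩ : ∃ W, Z₂ W := by
    by_contra h0
    have := (hD₂.mass.trans (F.mono _ _ fun W hW => h0 ⟨W, hW⟩)).trans F.zero
    exact absurd this (not_le.2 (Real.exp_pos _))
  have hp : 1 ≤ p ∧ (p : ℝ) ≤ Real.exp r := by
    have h1 : (0 : ℝ) < #(B₂ W₀) :=
      (mul_pos (Real.exp_pos _) (pow_pos F.V_pos _)).trans_le (hD₂.card W₀ hW₀)
    obtain ⟨u, hu⟩ := card_pos.1 (by exact_mod_cast h1 : 0 < #(B₂ W₀))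
    obtain ⟨h2, h3⟩ := (hcol W₀ hW₀).2 u hu
    have h4 : q₀ W₀ u = p := congrArg Prod.fst h3
    exact h4 ▸ ⟨hq₀ _ (hZ₁ _ (hcol W₀ hW₀).1) u h2, hq₀r _ (hZ₁ _ (hcol W₀ hW₀).1) u h2⟩
  have hexp := Real.exp_le_exp.2 hrρ
  obtain ⟨q₂, hq₂, hq₂r, htwo⟩ := hc' ρ (hr.trans hrρ) ι g
    ⟨hg.wt_le, hg.dim.trans hrρ, fun i j k => (hg.c_le i j k).trans hexp⟩ (q * p)
    (Nat.mul_pos hq hp.1) (hc r 0 q p hr (by simp; linarith) hqr hp.2).1
  obtain ⟨-, -, b3, b4, b5, b6⟩ := hE r d 0 0 0 hr hg.dim (by simp; positivity)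
    (by simp; positivity) (by simp; positivity)
  let T : Ω → ι → MvPolynomial σ ℝ := fun W k =>
    if g.wt k = a + 1 then C (q₂ : ℝ) * (X' W k + ε W k) else 0
  let f : Y → ι → ℝ := fun y k =>
    if h : ∃ x : Ω × (σ → ℤ), Z₂ x.1 ∧ x.2 ∈ B₂ x.1 ∧ F.pt x.1 x.2 = y then
      aeval (fun v => (h.choose.2 v : ℝ)) (T h.choose.1 k) else 0
  have hpair : ∀ W, Z₂ W → ∀ u ∈ B₂ W, ∀ W', Z₂ W' → ∀ u' ∈ B₂ W', F.pt W' u' = F.pt W u →
      ∀ k, ∃ n : ℤ, |aeval (fun v => (u v : ℝ)) (T W k) - aeval (fun v => (u' v : ℝ)) (T W' k) - n|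
        ≤ Real.exp (-(r ^ c'') ^ C₀) := by
    intro W hW u hu W' hW' u' hu' hy k
    by_cases hk : g.wt k = a + 1
    swap
    · exact ⟨0, by simp only [T, if_neg hk]; simp [Real.exp_nonneg]⟩
    obtain ⟨z1, z2⟩ := hcol W hW
    obtain ⟨z1', z2'⟩ := hcol W' hW'
    obtain ⟨v1, v2⟩ := z2 u hu
    obtain ⟨v1', v2'⟩ := z2' u' hu'
    have hdn : ∀ W, Z₁ W → ∀ u, g.Den (q * p) (g.evZ u (γ W)) := fun W hW u =>
      Gon.IsDen.of_dvd (den_iff.2 fun k => by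
        obtain ⟨n, hn⟩ := Win.evZ_inL hq (hRat W hW) u k
        have hq0 : (q : ℝ) ≠ 0 := by exact_mod_cast (by omega : q ≠ 0)
        exact ⟨n, by rw [hn, mul_inv_cancel_left₀ hq0]⟩) (Dvd.intro _ rfl)
    have hd0 : ∀ W, Z₁ W → ∀ u ∈ B W, q₀ W u = p → g.Den (q * p) (γ₀ W u) := fun W hW u hu h =>
      Gon.IsDen.of_dvd (hden W (hZ₁ W hW) u hu) (h ▸ Dvd.intro_left _ rfl)
    have hsub : g.evZ u (g.subst (F.top W) Λ) = g.evZ u' (g.subst (F.top W') Λ) := by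
      rw [ND.evZ, ND.evZ, ev_subst, ev_subst]
      congr 2
      exact funext fun c => (F.hpt _ _ _ _ hy c).symm
    obtain ⟨n, hn⟩ := htwo a (Real.exp (-r ^ (E + 1))) (ε₀ W u) (ε₀ W' u') (g.evZ u (ε W))
      (g.evZ u' (ε W')) (g.evZ u (X' W)) (g.evZ u' (X' W')) (g.evZ u (γ W)) (g.evZ u' (γ W'))
      (γ₀ W u) (γ₀ W' u') (Real.exp_le_exp.2 (neg_le_neg (b4.trans hmono)))
      (hε₀ W (hZ₁ W z1) u v1) (hε₀ W' (hZ₁ W' z1') u' v1') (hev W z1 u v1) (hev W' z1' u' v1')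
      ((norm_le_iff hδ0.le).2 fun k => by
        have h1 : ⌊g.evZ u (ε W) k / δ⌋ = ⌊g.evZ u' (ε W') k / δ⌋ :=
          congrFun ((congrArg Prod.snd v2).trans (congrArg Prod.snd v2').symm) k
        have h2 := (Int.abs_sub_lt_one_of_floor_eq_floor h1).le
        rwa [← sub_div, abs_div, abs_of_pos hδ0, div_le_one hδ0] at h2)
      (hdn W z1 u) (hdn W' z1' u') (hd0 W z1 u v1 (congrArg Prod.fst v2))
      (hd0 W' z1' u' v1' (congrArg Prod.fst v2'))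
      (by
        have h1 : g.evZ u (X' W - g.subst (F.top W) Λ) ∈ g.F (a + 1) := map_mem_FA _ (hlev W z1)
        have h2 : g.evZ u' (X' W' - g.subst (F.top W') Λ) ∈ g.F (a + 1) :=
          map_mem_FA _ (hlev W' z1')
        rw [map_sub] at h1 h2
        have := sub_mem h1 h2
        rwa [hsub, sub_sub_sub_cancel_right] at this)
      (by
        have h1 := ht W (hZ₁ W z1) u v1
        have h2 := ht W' (hZ₁ W' z1') u' v1'
        rw [hfac W z1, Bch.map_star, Bch.map_star] at h1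
        rw [hfac W' z1', Bch.map_star, Bch.map_star, hy] at h2
        exact h1.symm.trans h2) k hk
    refine ⟨n, le_trans (le_of_eq ?_) (hn.trans ?_)⟩
    · simp only [T, if_pos hk, map_mul, map_add, aeval_C]
      rfl
    · rw [← Real.exp_add, Real.exp_le_exp, add_neg_le_iff_le_add, neg_add_eq_sub,
        le_sub_iff_add_le]
      exact b6.trans hmono
  obtain ⟨q₁, lam, Z₃, hq₁, hq₁r, hlam, hZ₃, hmu₃, hco⟩ := hHP (r ^ c'') b2 (b5.trans hmono) ι f T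
    Z₂ B₂ (hg.dim.trans b2) hD₂
    (fun W hW k => by
      by_cases hk : g.wt k = a + 1
      · simp only [T, if_pos hk]
        exact hk ▸ ((hX' W (hcol W hW).1 k).add (hε W (hcol W hW).1 k)).C_mul _
      · simp only [T, if_neg hk]; exact isWeightedHomogeneous_zero ℝ _ _)
    (fun W hW u hu k => by
      have h : ∃ x : Ω × (σ → ℤ), Z₂ x.1 ∧ x.2 ∈ B₂ x.1 ∧ F.pt x.1 x.2 = F.pt W u :=
        ⟨(W, u), hW, hu, rfl⟩
      simp only [f, dif_pos h]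
      exact hpair W hW u hu _ h.choose_spec.1 _ h.choose_spec.2.1 h.choose_spec.2.2 k)
  obtain ⟨d1, d2, -⟩ := hE r d q q₁ q₂ hr hg.dim hqr hq₁r hq₂r
  let Λ' : g.PS τ := fun k => if g.wt k = a + 1 then C ((q₁ * q₂ : ℕ) : ℝ)⁻¹ * lam k else Λ k
  have hΛ' : Λ' ∈ WH g F.lev := fun k => by
    by_cases hk : g.wt k = a + 1
    · simp only [Λ', if_pos hk]; exact hk ▸ (hlam k).C_mul _
    · simp only [Λ', if_neg hk]; exact hΛ k
  have hQ : 1 ≤ q₁ * q₂ := Nat.mul_pos hq₁ hq₂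
  have hexp' := Real.exp_le_exp.2 hmono
  refine ⟨Λ', hΛ', St.dS S * (q * (q₁ * q₂)) ^ (S + 1), Z₃,
    Nat.mul_pos (St.one_le_dS S) (pow_pos (Nat.mul_pos hq hQ) _), d1.trans hexp',
    fun W hW => hZ₁ W (hcol W (hZ₃ W hW)).1,
    (Real.exp_le_exp.2 (neg_le_neg (b3.trans hmono))).trans hmu₃, fun W hW => ?_⟩
  have z1 := (hcol W (hZ₃ W hW)).1
  obtain ⟨ε', k1, X'', k2, γ', k3, k4, k5, k6, k7⟩ := update (a := a) hg (by linarith) (le_refl d)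
    F.V_pos.le (Real.one_le_exp (by linarith)) (Real.exp_pos ((r ^ c'') ^ C₀)).le hQ (hε W z1)
    (hX' W z1) (hγ W z1) (subst_WH (F.hom W) hΛ') (hSm W z1) (hRat W z1)
    (fun k hk => by
      have h1 := hlev W z1 k hk
      rw [ND.sub_apply, sub_eq_zero] at h1
      rw [h1]
      change aeval _ (Λ k) = aeval _ (Λ' k)
      simp only [Λ', if_neg hk.ne])
    (fun k hk α => by
      obtain ⟨n, hn⟩ := hco W hW k α
      refine ⟨n, le_trans (le_of_eq ?_) hn⟩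
      congr 4
      change _ * (_ + _ - aeval _ (Λ' k)) = _
      have hQ0 : ((q₁ * q₂ : ℕ) : ℝ) ≠ 0 := by exact_mod_cast (by omega : q₁ * q₂ ≠ 0)
      simp only [Λ', T, if_pos hk, map_mul, aeval_C, algebraMap_eq]
      rw [mul_sub, ← mul_assoc (C _) (C _) (aeval _ _), ← C_mul, mul_inv_cancel₀ hQ0, C_1, one_mul,
        Nat.cast_mul, C_mul, mul_assoc])
  exact ⟨ε', k1, X'', k2, γ', k3, k4.mono (d2.trans hexp'), k5, (hfac W z1).trans k6, k7⟩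

/-- **The level loop.** -/
theorem loop (S C₀ : ℕ) : ∃ C : ℕ, 1 ≤ C ∧ ∀ (m : ℝ), 2 ≤ m → ∀ (Ω σ τ Y ι : Type) [Fintype σ]
    [Fintype ι] (F : Fr Ω σ τ Y) (g : ND ι) (X : Ω → g.PS σ) (t : Y → g.L) (Z : Ω → Prop)
    (B : Ω → Finset (σ → ℤ)), GI.Gd g S m → (Fintype.card σ : ℝ) ≤ m →
    (∀ a, 1 ≤ a → a ≤ S → ∀ R, m ≤ R → R ≤ m ^ C → F.HP a R (R ^ C₀)) → F.Dn m Z B →
    (∀ W, Z W → X W ∈ WH g 1) → Fn F g S (Real.exp (-m ^ C)) m X t Z B →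
    ∃ Λ ∈ WH g F.lev, ∃ (q : ℕ) (Z' : Ω → Prop), 1 ≤ q ∧ (q : ℝ) ≤ Real.exp (m ^ C) ∧
      (∀ W, Z' W → Z W) ∧ Real.exp (-m ^ C) ≤ F.mu Z' ∧ ∀ W, Z' W → ∃ ε ∈ WH g 1, ∃ γ ∈ WH g 1,
        g.Sm F.V (Real.exp (m ^ C)) ε ∧ g.RatP q γ ∧
        X W = star S ε (star S (g.subst (F.top W) Λ) γ) := by
  obtain ⟨E, hE1, hE⟩ := step S C₀
  refine ⟨E ^ S, Nat.one_le_pow _ _ hE1, fun m hm Ω σ τ Y ι _ _ F g X t Z B hg hσ hHP hD hX hF => ?_⟩
  have hle : ∀ a, m ≤ m ^ E ^ a := fun a => by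
    simpa using Qp.pw_mono hm (Nat.one_le_pow a _ hE1)
  have ind : ∀ a, a ≤ S → St F g S a (m ^ E ^ a) X Z := by
    intro a
    induction a with
    | zero =>
      refine fun _ => ⟨0, zero_mem _, 1, Z, le_rfl, ?_, fun _ h => h, by simpa using hD.mass,
        fun W hW => ⟨0, zero_mem _, X W, hX W hW, 0, zero_mem _, St.Sm_zero (Real.exp_pos _).le,
          St.RatP_zero 1, by simp, mem_FA_one _⟩⟩
      rw [Nat.cast_one]; exact Real.one_le_exp (by positivity)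
    | succ a ih =>
      intro ha
      have h1 := hle a
      have h2 : (m ^ E ^ a) ^ E ≤ m ^ E ^ S := by
        rw [← pow_mul, ← pow_succ]; exact Qp.pw_mono hm (Nat.pow_le_pow_right hE1 ha)
      have h3 := Real.exp_le_exp.2 h1
      rw [pow_succ, pow_mul]
      refine hE _ (hm.trans h1) Ω σ τ Y ι F g a X t Z B
        ⟨⟨hg.wt_le, hg.dim.trans h1, fun i j k => (hg.c_le i j k).trans h3⟩, hg.gr⟩ (hσ.trans h1)
        (fun R r1 r2 => hHP _ (by omega) ha R (h1.trans r1) (r2.trans h2)) (hD.mono h1)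
        (fun W hW u hu => ?_) (ih (by omega))
      obtain ⟨ε₀, γ₀, k1, ⟨q, k2, k3, k4⟩, k5⟩ := hF W hW u hu
      exact ⟨ε₀, γ₀, k1.trans (Real.exp_le_exp.2 (neg_le_neg h2)), ⟨q, k2, k3.trans h3, k4⟩, k5⟩
  obtain ⟨Λ, hΛ, q, Z', k1, k2, k3, k4, k5⟩ := ind S le_rfl
  refine ⟨Λ, hΛ, q, Z', k1, k2, k3, k4, fun W hW => ?_⟩
  obtain ⟨ε, l1, X', -, γ, l3, l4, l5, l6, l7⟩ := k5 W hW
  exact ⟨ε, l1, γ, l3, l4, l5, by rw [l6, sub_eq_zero.1 (eq_zero_of_mem_FA hg.wt_le l7)]⟩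

end Crest.Agent.T49.Lv
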