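import Crest.Agent.T49.GauD_64

/-!
# Row 49 (helper64): triangular sums, one-dimensional Gaussians, grids of centres
-/

set_option autoImplicit false
set_option linter.unusedSectionVars false

noncomputable section

namespace Crest.Agent.T49.Mal

open Real Finset
open Crest.Agent.T49.Gau
open Crest.Agent.T49.Lat (cast cast_apply)

/-- `p k` depends only on the coordinates of lower rank -/
def Low {ι X Y : Type} (rk : ι → ℕ) (p : ι → (ι → X) → Y) : Prop :=
  ∀ k (x y : ι → X), (∀ j, rk j < rk k → x j = y j) → p k x = p k y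

/-- **triangular sums** -/
theorem tri_sum (X : Type) (n : ℕ) : ∀ (ι : Type) [Fintype ι] (rk : ι → ℕ)
    (g : ι → (ι → X) → X → ℝ) (lo hi : ι → ℝ), Fintype.card ι = n → Low rk g →
    (∀ k x m, 0 ≤ g k x m) → (∀ k x, Summable (g k x)) → (∀ k, 0 ≤ lo k) →
    (∀ k x, lo k ≤ ∑' m, g k x m) → (∀ k x, ∑' m, g k x m ≤ hi k) → Nonempty X →
    Summable (fun x : ι → X => ∏ k, g k x (x k)) ∧
      ∏ k, lo k ≤ ∑' x : ι → X, ∏ k, g k x (x k) ∧
      ∑' x : ι → X, ∏ k, g k x (x k) ≤ ∏ k, hi k := by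
  induction n with
  | zero =>
    intro ι _ rk g lo hi hn _ _ _ _ _ _ _
    have : IsEmpty ι := Fintype.card_eq_zero_iff.1 hn
    refine ⟨Summable.of_finite, ?_, ?_⟩ <;> simp
  | succ n ih =>
    intro ι _ rk g lo hi hn hg h0 hs hlo0 hlo hhi hX
    classical
    obtain ⟨x0⟩ := hX
    have : Nonempty ι := Fintype.card_pos_iff.1 (by omega)
    obtain ⟨k, -, hk⟩ := exists_max_image univ rk univ_nonempty
    let q : ({j // j ≠ k} → X) × X ≃ (ι → X) :=
      (Equiv.prodComm _ _).trans (Equiv.funSplitAt k X).symm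
    have q1 : ∀ y m, q (y, m) k = m := fun y m => by
      simp [q, Equiv.funSplitAt, Equiv.piSplitAt]
    have q2 : ∀ y m (j : {j // j ≠ k}), q (y, m) j.1 = y j := fun y m j => by
      simp [q, Equiv.funSplitAt, Equiv.piSplitAt, j.2]
    have q3 : ∀ y m j, g j (q (y, m)) = g j (q (y, x0)) := fun y m j =>
      hg j _ _ fun i hi => by
        have hik : i ≠ k := by
          rintro rfl
          exact absurd (hk j (mem_univ _)) (not_le.2 hi)
        exact (q2 y m ⟨i, hik⟩).trans (q2 y x0 ⟨i, hik⟩).symm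
    obtain ⟨i1, i2, i3⟩ := ih {j // j ≠ k} (fun j => rk j.1) (fun j y => g j.1 (q (y, x0)))
      (fun j => lo j.1) (fun j => hi j.1) (by simp [hn])
      (fun j y y' h => hg j.1 _ _ fun i hi => by
        by_cases hik : i = k
        · rw [hik, q1, q1]
        · exact (q2 y x0 ⟨i, hik⟩).trans ((h ⟨i, hik⟩ hi).trans (q2 y' x0 ⟨i, hik⟩).symm))
      (fun j y m => h0 _ _ _) (fun j y => hs _ _) (fun j => hlo0 _) (fun j y => hlo _ _)
      (fun j y => hhi _ _) ⟨x0⟩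
    set G : ({j // j ≠ k} → X) → ℝ := fun y => ∏ j : {j // j ≠ k}, g j.1 (q (y, x0)) (y j)
    have hG : ∀ y, 0 ≤ G y := fun y => prod_nonneg fun j _ => h0 _ _ _
    have hsplit : ∀ f : ι → ℝ, ∏ j, f j = (∏ j : {j // j ≠ k}, f j.1) * f k := fun f => by
      rw [← Fintype.prod_subtype_mul_prod_subtype (fun j => j ≠ k) f]
      congr 1
      have : Unique {j // ¬ j ≠ k} := ⟨⟨⟨k, by simp⟩⟩, fun j => Subtype.ext (not_not.1 j.2)⟩
      rw [Fintype.prod_unique]
      exact congrArg f (not_not.1 (default : {j // ¬ j ≠ k}).2)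
    have hf : ∀ y m, ∏ j, g j (q (y, m)) (q (y, m) j) = G y * g k (q (y, x0)) m := fun y m => by
      rw [hsplit, q1, q3 y m k]
      congr 1
      exact prod_congr rfl fun j _ => by rw [q2, q3 y m]
    have hin : ∀ y, ∑' m, G y * g k (q (y, x0)) m = G y * ∑' m, g k (q (y, x0)) m :=
      fun y => tsum_mul_left
    have hs2 : Summable fun y => ∑' m, G y * g k (q (y, x0)) m := by
      refine Summable.of_nonneg_of_le (fun y => tsum_nonneg fun m => mul_nonneg (hG y) (h0 _ _ _))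
        (fun y => ?_) (i1.mul_right (hi k))
      rw [hin]
      exact mul_le_mul_of_nonneg_left (hhi _ _) (hG y)
    have hs1 : Summable fun p : ({j // j ≠ k} → X) × X => G p.1 * g k (q (p.1, x0)) p.2 :=
      (summable_prod_of_nonneg fun p => mul_nonneg (hG _) (h0 _ _ _)).2
        ⟨fun y => (hs k (q (y, x0))).mul_left (G y), hs2⟩
    have he : (fun x : ι → X => ∏ j, g j x (x j)) ∘ q =
        fun p => G p.1 * g k (q (p.1, x0)) p.2 := funext fun p => hf p.1 p.2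
    have ht : ∑' x : ι → X, ∏ j, g j x (x j) = ∑' y, G y * ∑' m, g k (q (y, x0)) m := by
      rw [← q.tsum_eq, show (fun p => ∏ j, g j (q p) (q p j)) =
        (fun x : ι → X => ∏ j, g j x (x j)) ∘ q from rfl, he, hs1.tsum_prod]
      exact tsum_congr hin
    have hs3 : Summable fun y => G y * ∑' m, g k (q (y, x0)) m := hs2.congr hin
    have hhk : 0 ≤ hi k := (hlo0 k).trans ((hlo k fun _ => x0).trans (hhi k _))
    have hs4 : Summable ((fun x : ι → X => ∏ j, g j x (x j)) ∘ q) := by rw [he]; exact hs1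
    refine ⟨q.summable_iff.1 hs4, ?_, ?_⟩
    · rw [ht, hsplit]
      refine (mul_le_mul_of_nonneg_right i2 (hlo0 k)).trans ?_
      rw [← tsum_mul_right]
      exact Summable.tsum_le_tsum (fun y => mul_le_mul_of_nonneg_left (hlo _ _) (hG y))
        (i1.mul_right _) hs3
    · rw [ht, hsplit]
      refine le_trans ?_ (mul_le_mul_of_nonneg_right i3 hhk)
      rw [← tsum_mul_right]
      exact Summable.tsum_le_tsum (fun y => mul_le_mul_of_nonneg_left (hhi _ _) (hG y))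
        hs3 (i1.mul_right _)

/-! ### one-dimensional Gaussians -/

/-- `exp (-π x²)` -/
def g1 (x : ℝ) : ℝ := Real.exp (-π * x ^ 2)

theorem g1_pos (x : ℝ) : 0 < g1 x := Real.exp_pos _

theorem g1_le_one (x : ℝ) : g1 x ≤ 1 := by
  unfold g1
  rw [Real.exp_le_one_iff]
  nlinarith [Real.pi_pos, sq_nonneg x]

@[simp] theorem g1_neg (x : ℝ) : g1 (-x) = g1 x := by simp [g1]

theorem prod_g1 {ι : Type} [Fintype ι] (x : ι → ℝ) :
    ∏ k, g1 (x k) = Real.exp (-π * ∑ k, x k ^ 2) := by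
  unfold g1
  rw [← Real.exp_sum, mul_sum]

theorem rho_diag {ι : Type} [Fintype ι] (a v : ι → ℝ) :
    rho (diag a v) = ∏ k, g1 (a k * v k) := by
  rw [prod_g1, rho, norm_diag_sq]

theorem rho_unit (b t : ℝ) (x : Unit → ℤ) :
    rho (diag (fun _ : Unit => b) (cast x) + diag (fun _ : Unit => b) fun _ => t) =
      g1 (b * (x () + t)) := by
  rw [← map_add, rho_diag]; simp

theorem th_unit (b t : ℝ) :
    th (diag fun _ : Unit => b) (diag (fun _ : Unit => b) fun _ => t) =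
      ∑' m : ℤ, g1 (b * (m + t)) := by
  unfold th
  rw [← (Equiv.funUnique Unit ℤ).tsum_eq]
  exact tsum_congr fun x => rho_unit b t x

theorem summable_g1 {b : ℝ} (hb : b ≠ 0) (t : ℝ) : Summable fun m : ℤ => g1 (b * (m + t)) := by
  have h := summable_rho (diag_inj (a := fun _ : Unit => b) fun _ => hb)
    (diag (fun _ : Unit => b) fun _ => t)
  rw [← (Equiv.funUnique Unit ℤ).summable_iff]
  exact h.congr fun x => rho_unit b t x

theorem norm_diag_unit (b : ℝ) (v : Unit → ℝ) : ‖diag (fun _ : Unit => b) v‖ = |b| * |v ()| := by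
  rw [← abs_mul]
  refine (pow_left_inj₀ (norm_nonneg _) (abs_nonneg _) two_ne_zero).1 ?_
  rw [norm_diag_sq, sq_abs]; simp

theorem th_one_le : th (diag fun _ : Unit => (1 : ℝ)) 0 ≤ 2 := by
  have hA := diag_inj (a := fun _ : Unit => (1 : ℝ)) fun _ => one_ne_zero
  have h1 := th_zero_le_of_min hA (R := 1) zero_le_one fun x hx => by
    rw [norm_diag_unit, abs_one, one_mul, cast_apply]
    have : x () ≠ 0 := fun h => hx (funext fun _ => h)
    exact_mod_cast Int.one_le_abs this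
  have h2 : Real.exp (Fintype.card Unit / 2 - 3 / 2 * 1 ^ 2) ≤ 1 / 2 := by
    rw [show ((Fintype.card Unit : ℝ) / 2 - 3 / 2 * 1 ^ 2) = -1 by norm_num, Real.exp_neg, one_div]
    exact inv_anti₀ two_pos (by linarith [Real.add_one_le_exp (1 : ℝ)])
  nlinarith [th_pos hA 0]

theorem tsum_g1_le {b : ℝ} (hb : b ≠ 0) (t : ℝ) :
    ∑' m : ℤ, g1 (b * (m + t)) ≤ 2 * (1 + |b|⁻¹) := by
  have hA := diag_inj (a := fun _ : Unit => b) fun _ => hb
  have h1 := diag_inj (a := fun _ : Unit => (1 : ℝ)) fun _ => one_ne_zero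
  have hb0 : 0 < |b| := abs_pos.2 hb
  have hi : 0 < |b|⁻¹ := inv_pos.2 hb0
  rw [← th_unit]
  refine (th_le_th_zero hA _).trans ?_
  rcases le_total 1 |b| with h | h
  · refine (th_zero_mono h1 fun v => ?_).trans (th_one_le.trans (by linarith))
    rw [norm_diag_unit, norm_diag_unit, abs_one]
    exact mul_le_mul_of_nonneg_right h (abs_nonneg _)
  · have h2 := th_smul_le h1 hb0 h 0
    rw [th_zero_congr (A' := |b| • diag fun _ : Unit => (1 : ℝ)) fun v => by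
      rw [LinearMap.smul_apply, norm_smul, norm_diag_unit, norm_diag_unit, abs_one, one_mul,
        Real.norm_eq_abs, abs_abs]]
    refine h2.trans ?_
    simp only [Fintype.card_unit, pow_one]
    nlinarith [th_one_le]

theorem abs_tsum_g1_sub_le {b η : ℝ} (hb : b ≠ 0) (hη : 0 < η) (hη1 : η ≤ 1)
    (h : |b| * √(2 + Real.log η⁻¹) ≤ 1) (t : ℝ) :
    |∑' m : ℤ, g1 (b * (m + t)) - |b|⁻¹| ≤ |b|⁻¹ * η := by
  have hA := diag_inj (a := fun _ : Unit => b) fun _ => hb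
  have h1 := abs_th_sub_le hA fun _ => t
  have h2 : kap (diag fun _ : Unit => b) = |b|⁻¹ := by
    rw [kap_diag fun _ => hb]; simp
  have h3 : rat (diag fun _ : Unit => b) ≤ 1 + η := by
    refine rat_le_of_dense hA (τ := |b| / 2) hη hη1 (fun u => ⟨fun _ => round (u ()), ?_⟩) ?_
    · rw [norm_diag_unit]
      have := abs_sub_round (u ())
      simp only [Pi.sub_apply, cast_apply]
      nlinarith [abs_nonneg b]
    · rw [show (Fintype.card Unit : ℝ) + 1 = 2 by norm_num]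
      linarith
  rw [th_unit, h2] at h1
  exact h1.trans (mul_le_mul_of_nonneg_left (by linarith) (by positivity))

/-- the pairs (integer, grid point of `[0,1)`) -/
def gridEquiv (Q : ℕ) [NeZero Q] : ℤ × Fin Q ≃ ℤ := (Int.divModEquiv Q).symm

theorem gridEquiv_apply (Q : ℕ) [NeZero Q] (x : ℤ × Fin Q) :
    gridEquiv Q x = x.1 * Q + (x.2 : ℕ) := rfl

theorem g1_grid (Q : ℕ) [NeZero Q] (a t : ℝ) (x : ℤ × Fin Q) :
    g1 (a * (-x.1 + t - (x.2 : ℕ) / Q)) = g1 (a / Q * ((gridEquiv Q x : ℤ) + -(t * Q))) := by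
  have hQ : (Q : ℝ) ≠ 0 := by exact_mod_cast NeZero.ne Q
  rw [← g1_neg, gridEquiv_apply]
  congr 1
  push_cast
  field_simp
  ring

theorem summable_grid (Q : ℕ) [NeZero Q] {a : ℝ} (ha : a ≠ 0) (t : ℝ) :
    Summable fun x : ℤ × Fin Q => g1 (a * (x.1 + t - (x.2 : ℕ) / Q)) := by
  have hQ : (Q : ℝ) ≠ 0 := by exact_mod_cast NeZero.ne Q
  rw [← ((Equiv.neg ℤ).prodCongr (Equiv.refl (Fin Q))).summable_iff]
  refine ((gridEquiv Q).summable_iff.2 (summable_g1 (div_ne_zero ha hQ) (-(t * Q)))).congr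
    fun x => ?_
  rw [Function.comp_apply, ← g1_grid]
  simp

theorem tsum_grid (Q : ℕ) [NeZero Q] (a t : ℝ) :
    ∑' x : ℤ × Fin Q, g1 (a * (x.1 + t - (x.2 : ℕ) / Q)) =
      ∑' m : ℤ, g1 (a / Q * (m + -(t * Q))) := by
  rw [← ((Equiv.neg ℤ).prodCongr (Equiv.refl (Fin Q))).tsum_eq, ← (gridEquiv Q).tsum_eq]
  refine tsum_congr fun x => ?_
  rw [← g1_grid]
  simp

theorem abs_tsum_grid_sub_le (Q : ℕ) [NeZero Q] {a η : ℝ} (ha : a ≠ 0) (hη : 0 < η) (hη1 : η ≤ 1)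
    (h : |a| * √(2 + Real.log η⁻¹) ≤ Q) (t : ℝ) :
    |∑' x : ℤ × Fin Q, g1 (a * (x.1 + t - (x.2 : ℕ) / Q)) - (Q / |a|)| ≤ Q / |a| * η := by
  have hQ : (0 : ℝ) < Q := by exact_mod_cast Nat.pos_of_ne_zero (NeZero.ne Q)
  have h1 := abs_tsum_g1_sub_le (div_ne_zero ha hQ.ne') hη hη1 (by
    rw [abs_div, abs_of_pos hQ, div_mul_eq_mul_div, div_le_one hQ]; exact h) (-(t * Q))
  rwa [abs_div, abs_of_pos hQ, inv_div, ← tsum_grid] at h1

section Tri

variable {ι : Type} [Fintype ι] {rk : ι → ℕ} {p : ι → (ι → ℤ) → ℝ} {a : ι → ℝ}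

/-- the Gaussian of a triangular system -/
def gw (p : ι → (ι → ℤ) → ℝ) (a c : ι → ℝ) (u : ι → ℤ) : ℝ := ∏ k, g1 (a k * (u k + p k u - c k))

theorem gw_pos (p : ι → (ι → ℤ) → ℝ) (a c : ι → ℝ) (u : ι → ℤ) : 0 < gw p a c u :=
  prod_pos fun _ _ => g1_pos _

theorem gw_le_one (p : ι → (ι → ℤ) → ℝ) (a c : ι → ℝ) (u : ι → ℤ) : gw p a c u ≤ 1 :=
  prod_le_one (fun _ _ => (g1_pos _).le) fun _ _ => g1_le_one _

theorem gw_aux (hp : Low rk p) (ha : ∀ k, a k ≠ 0) (c : ι → ℝ) :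
    Summable (gw p a c) ∧ ∑' u, gw p a c u ≤ ∏ k, 2 * (1 + |a k|⁻¹) := by
  have h := tri_sum ℤ _ ι rk (fun k u m => g1 (a k * (m + (p k u - c k)))) (fun _ => 0)
    (fun k => 2 * (1 + |a k|⁻¹)) rfl (fun k x y h => by simp only [hp k x y h])
    (fun _ _ _ => (g1_pos _).le) (fun k _ => summable_g1 (ha k) _) (fun _ => le_rfl)
    (fun _ _ => tsum_nonneg fun _ => (g1_pos _).le) (fun k _ => tsum_g1_le (ha k) _) ⟨0⟩
  have e : gw p a c = fun u => ∏ k, g1 (a k * (u k + (p k u - c k))) := by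
    funext u; simp only [gw, add_sub_assoc]
  rw [e]
  exact ⟨h.1, h.2.2⟩

theorem summable_gw (hp : Low rk p) (ha : ∀ k, a k ≠ 0) (c : ι → ℝ) : Summable (gw p a c) :=
  (gw_aux hp ha c).1

/-- the normalised periodisation -/
def psi (p : ι → (ι → ℤ) → ℝ) (a c : ι → ℝ) : ℝ := (∏ k, |a k|) * ∑' u, gw p a c u

theorem psi_nonneg (p : ι → (ι → ℤ) → ℝ) (a c : ι → ℝ) : 0 ≤ psi p a c :=
  mul_nonneg (prod_nonneg fun _ _ => abs_nonneg _) (tsum_nonneg fun _ => (gw_pos _ _ _ _).le)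

theorem psi_pos (hp : Low rk p) (ha : ∀ k, a k ≠ 0) (c : ι → ℝ) : 0 < psi p a c :=
  mul_pos (prod_pos fun k _ => abs_pos.2 (ha k))
    ((summable_gw hp ha c).tsum_pos (fun _ => (gw_pos _ _ _ _).le) 0 (gw_pos _ _ _ _))

theorem psi_le (hp : Low rk p) (ha : ∀ k, a k ≠ 0) (c : ι → ℝ) :
    psi p a c ≤ ∏ k, 2 * (1 + |a k|) := by
  refine (mul_le_mul_of_nonneg_left (gw_aux hp ha c).2
    (prod_nonneg fun _ _ => abs_nonneg _)).trans (le_of_eq ?_)
  rw [← prod_mul_distrib]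
  refine prod_congr rfl fun k _ => ?_
  have := (abs_pos.2 (ha k)).ne'
  field_simp
  ring

theorem psi_le_exp (hp : Low rk p) (ha : ∀ k, a k ≠ 0) (c : ι → ℝ) :
    psi p a c ≤ Real.exp (∑ k, (1 + Real.log (1 + |a k|))) := by
  refine (psi_le hp ha c).trans ?_
  rw [Real.exp_sum]
  refine prod_le_prod (fun k _ => by positivity) fun k _ => ?_
  rw [Real.exp_add, Real.exp_log (by positivity)]
  exact mul_le_mul_of_nonneg_right (by linarith [Real.add_one_le_exp (1 : ℝ)]) (by positivity)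

/-- the grid of centres -/
def ctr (Q : ℕ) (j : ι → Fin Q) : ι → ℝ := fun k => ((j k : ℕ) : ℝ) / Q

theorem ctr_nonneg (Q : ℕ) (j : ι → Fin Q) (k : ι) : 0 ≤ ctr Q j k := by
  unfold ctr; positivity

theorem ctr_le_one (Q : ℕ) (j : ι → Fin Q) (k : ι) : ctr Q j k ≤ 1 := by
  unfold ctr
  exact div_le_one_of_le₀ (by exact_mod_cast (j k).2.le) (Nat.cast_nonneg _)

variable [DecidableEq ι]

theorem sum_gw_aux (hp : Low rk p) (ha : ∀ k, a k ≠ 0) (Q : ℕ) [NeZero Q] {η : ℝ} (hη : 0 < η)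
    (hη1 : η ≤ 1) (h : ∀ k, |a k| * √(2 + Real.log η⁻¹) ≤ Q) :
    ∏ k, (Q / |a k| * (1 - η)) ≤ ∑ j : ι → Fin Q, ∑' u, gw p a (ctr Q j) u ∧
      ∑ j : ι → Fin Q, ∑' u, gw p a (ctr Q j) u ≤ ∏ k, (Q / |a k| * (1 + η)) := by
  have hb := fun k t => abs_le.1 (abs_tsum_grid_sub_le Q (ha k) hη hη1 (h k) t)
  have h := tri_sum (ℤ × Fin Q) _ ι rk
    (fun k x m => g1 (a k * (m.1 + p k (fun i => (x i).1) - (m.2 : ℕ) / Q)))
    (fun k => Q / |a k| * (1 - η)) (fun k => Q / |a k| * (1 + η)) rfl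
    (fun k x y h => by simp only [hp k (fun i => (x i).1) (fun i => (y i).1)
      fun j hj => congrArg Prod.fst (h j hj)])
    (fun _ _ _ => (g1_pos _).le) (fun k _ => summable_grid Q (ha k) _)
    (fun k => mul_nonneg (by positivity) (by linarith))
    (fun k x => by linarith [(hb k (p k fun i => (x i).1)).1])
    (fun k x => by linarith [(hb k (p k fun i => (x i).1)).2]) ⟨(0, 0)⟩
  let q : (ι → Fin Q) × (ι → ℤ) ≃ (ι → ℤ × Fin Q) :=
    (Equiv.prodComm _ _).trans (Equiv.arrowProdEquivProdArrow ι (fun _ => ℤ) fun _ => Fin Q).symm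
  have h1 := q.summable_iff.2 h.1
  have h2 : ∑' x : ι → ℤ × Fin Q, ∏ k, g1 (a k * ((x k).1 + p k (fun i => (x i).1) -
      ((x k).2 : ℕ) / Q)) = ∑ j : ι → Fin Q, ∑' u, gw p a (ctr Q j) u := by
    rw [← q.tsum_eq]
    refine h1.tsum_prod.trans ?_
    rw [tsum_fintype]
    rfl
  rw [← h2]
  exact ⟨h.2.1, h.2.2⟩

/-- **partition of unity** -/
theorem sum_psi (hp : Low rk p) (ha : ∀ k, a k ≠ 0) (Q : ℕ) [NeZero Q] {η : ℝ} (hη : 0 < η)
    (hη1 : η ≤ 1) (h : ∀ k, |a k| * √(2 + Real.log η⁻¹) ≤ Q) :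
    (1 - η) ^ Fintype.card ι * Q ^ Fintype.card ι ≤ ∑ j : ι → Fin Q, psi p a (ctr Q j) ∧
      ∑ j : ι → Fin Q, psi p a (ctr Q j) ≤ (1 + η) ^ Fintype.card ι * Q ^ Fintype.card ι := by
  obtain ⟨h1, h2⟩ := sum_gw_aux hp ha Q hη hη1 h
  have e : ∀ x : ℝ, (∏ k, |a k|) * ∏ k, (Q / |a k| * x) =
      x ^ Fintype.card ι * Q ^ Fintype.card ι := fun x => by
    rw [← prod_mul_distrib, ← mul_pow, ← card_univ, ← prod_const]
    refine prod_congr rfl fun k _ => ?_
    have := (abs_pos.2 (ha k)).ne'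
    field_simp
  have h0 : 0 ≤ ∏ k, |a k| := prod_nonneg fun _ _ => abs_nonneg _
  unfold psi
  rw [← mul_sum, ← e, ← e]
  exact ⟨mul_le_mul_of_nonneg_left h1 h0, mul_le_mul_of_nonneg_left h2 h0⟩

theorem gw_le_of_far (p : ι → (ι → ℤ) → ℝ) (a c : ι → ℝ) (u : ι → ℤ) {R : ℝ} (hR : 0 ≤ R) {k : ι}
    (hk : R ≤ |a k * (u k + p k u - c k)|) :
    gw p a c u ≤ Real.exp (-2 * R ^ 2) * gw p (fun k => a k / 2) c u := by
  unfold gw
  rw [prod_g1, prod_g1, ← Real.exp_add]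
  refine Real.exp_le_exp.2 ?_
  have h1 : R ^ 2 ≤ ∑ k, (a k * (u k + p k u - c k)) ^ 2 :=
    ((pow_le_pow_left₀ hR hk 2).trans (sq_abs _).le).trans
      (single_le_sum (f := fun k => (a k * (u k + p k u - c k)) ^ 2)
        (fun _ _ => sq_nonneg _) (mem_univ k))
  have h2 : ∑ k, (a k / 2 * (u k + p k u - c k)) ^ 2 =
      (∑ k, (a k * (u k + p k u - c k)) ^ 2) / 4 := by
    rw [sum_div]
    exact sum_congr rfl fun k _ => by ring
  rw [h2]
  nlinarith [Real.pi_gt_three, sq_nonneg R]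

/-- **approximation**: a test that is small near the centres is small on average -/
theorem sum_test_le (hp : Low rk p) (ha : ∀ k, a k ≠ 0) (Q : ℕ) [NeZero Q] {η : ℝ} (hη : 0 < η)
    (hη1 : η ≤ 1) (h : ∀ k, |a k| * √(2 + Real.log η⁻¹) ≤ Q) {R ε : ℝ} (hR : 0 ≤ R) (hε : 0 ≤ ε)
    (f : (ι → Fin Q) → (ι → ℤ) → ℝ) (hf0 : ∀ j u, 0 ≤ f j u) (hf1 : ∀ j u, f j u ≤ 1)
    (hf : ∀ j u, (∀ k, |a k * (u k + p k u - ctr Q j k)| < R) → f j u ≤ ε) :
    ∑ j : ι → Fin Q, (∏ k, |a k|) * ∑' u, gw p a (ctr Q j) u * f j u ≤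
      (ε + 2 ^ Fintype.card ι * Real.exp (-2 * R ^ 2)) *
        ((1 + η) ^ Fintype.card ι * Q ^ Fintype.card ι) := by
  have ha' : ∀ k, a k / 2 ≠ 0 := fun k => div_ne_zero (ha k) two_ne_zero
  have h1 := (sum_psi hp ha Q hη hη1 h).2
  have h2 := (sum_psi hp ha' Q hη hη1 fun k => le_trans (mul_le_mul_of_nonneg_right
    (by rw [abs_div, abs_two]; linarith [abs_nonneg (a k)]) (Real.sqrt_nonneg _)) (h k)).2
  have h0 : 0 ≤ ∏ k, |a k| := prod_nonneg fun _ _ => abs_nonneg _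
  have e : ∏ k, |a k| = 2 ^ Fintype.card ι * ∏ k, |a k / 2| := by
    rw [← card_univ, ← prod_const, ← prod_mul_distrib]
    exact prod_congr rfl fun k _ => by rw [abs_div, abs_two]; ring
  have h3 : ∀ j, (∏ k, |a k|) * ∑' u, gw p a (ctr Q j) u * f j u ≤
      ε * psi p a (ctr Q j) + 2 ^ Fintype.card ι * Real.exp (-2 * R ^ 2) *
        psi p (fun k => a k / 2) (ctr Q j) := fun j => by
    have s1 := summable_gw hp ha (ctr Q j)
    have s2 := summable_gw hp ha' (ctr Q j)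
    have h4 : ∑' u, gw p a (ctr Q j) u * f j u ≤ ε * (∑' u, gw p a (ctr Q j) u) +
        Real.exp (-2 * R ^ 2) * ∑' u, gw p (fun k => a k / 2) (ctr Q j) u := by
      rw [← tsum_mul_left, ← tsum_mul_left, ← (s1.mul_left _).tsum_add (s2.mul_left _)]
      refine Summable.tsum_le_tsum (fun u => ?_) (Summable.of_nonneg_of_le
        (fun u => mul_nonneg (gw_pos _ _ _ _).le (hf0 j u))
        (fun u => mul_le_of_le_one_right (gw_pos _ _ _ _).le (hf1 j u)) s1)
        ((s1.mul_left _).add (s2.mul_left _))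
      have p1 := gw_pos p a (ctr Q j) u
      have p2 := mul_pos (Real.exp_pos (-2 * R ^ 2)) (gw_pos p (fun k => a k / 2) (ctr Q j) u)
      by_cases hu : ∀ k, |a k * (u k + p k u - ctr Q j k)| < R
      · nlinarith [hf j u hu]
      · push Not at hu
        obtain ⟨k, hk⟩ := hu
        nlinarith [gw_le_of_far p a (ctr Q j) u hR hk, hf1 j u, mul_nonneg hε p1.le]
    refine (mul_le_mul_of_nonneg_left h4 h0).trans (le_of_eq ?_)
    unfold psi
    rw [mul_add]
    nth_rw 2 [e]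
    ring
  refine (sum_le_sum fun j _ => h3 j).trans ?_
  rw [sum_add_distrib, ← mul_sum, ← mul_sum, add_mul]
  exact add_le_add (mul_le_mul_of_nonneg_left h1 hε) (mul_le_mul_of_nonneg_left h2 (by positivity))

end Tri

end Crest.Agent.T49.Mal
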