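import Crest.Agent.T49.MalA_64
import Crest.Agent.T49.TwTri_51
import Crest.Agent.T49.TwPoly_91
import Crest.Agent.T49.BchND_16
import Crest.Agent.T49.Qp_85

/-!
# Row 49 (helper64): extension of a cell by new atoms; nil-windows as atoms (END-a)
-/

set_option autoImplicit false
set_option linter.unusedSectionVars false

noncomputable section

namespace Crest.Agent.T49.Mal

open Finset MvPolynomial
open Crest.Agent.T49.Tw Crest.Agent.T49.Nil
open Crest.Agent.T49.Bch (star)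

/-- new atoms `k : ι` over the coordinates `σ` with levels `w`; the value of the atom `k` is
`u_k + P_k (z, u_{<k})` -/
structure Ext {σ : Type} (w : σ → ℕ) (ι : Type) where
  rk : ι → ℕ
  lev : ι → ℕ
  lev_pos : ∀ k, 0 < lev k
  P : ι → Pl (σ ⊕ ι)
  P_mem : ∀ k, P k ∈ supported ℝ {c | ∀ j, c = Sum.inr j → rk j < rk k}
  deg : ∀ k, DegLe (Sum.elim w lev) (P k) (lev k)

namespace Ext

variable {σ ι : Type} [Fintype ι]

/-- the lower-order terms over the point `z` -/
def p {w : σ → ℕ} (E : Ext w ι) (z : σ → ℤ) (k : ι) (u : ι → ℤ) : ℝ := ev (Sum.elim z u) (E.P k)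

theorem low {w : σ → ℕ} (E : Ext w ι) (z : σ → ℤ) : Low E.rk (E.p z) := fun k x y h =>
  ev_congr_of_supp (fun c hc => by
    rcases c with c | c
    · rfl
    · exact h c (hc c rfl)) (E.P_mem k)

/-- the window attached to widths `a` and a centre `c`, as a function on the old points -/
def ps {w : σ → ℕ} (E : Ext w ι) (a c : ι → ℝ) (z : σ → ℤ) : ℝ := psi (E.p z) a c

theorem ps_nonneg {w : σ → ℕ} (E : Ext w ι) (a c : ι → ℝ) (z : σ → ℤ) : 0 ≤ E.ps a c z :=
  psi_nonneg _ _ _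

theorem ps_pos {w : σ → ℕ} (E : Ext w ι) {a : ι → ℝ} (ha : ∀ k, a k ≠ 0) (c : ι → ℝ)
    (z : σ → ℤ) : 0 < E.ps a c z := psi_pos (E.low z) ha c

theorem ps_le {w : σ → ℕ} (E : Ext w ι) {a : ι → ℝ} (ha : ∀ k, a k ≠ 0) (c : ι → ℝ)
    (z : σ → ℤ) : E.ps a c z ≤ ∏ k, 2 * (1 + |a k|) := psi_le (E.low z) ha c

theorem sum_ps [DecidableEq ι] {w : σ → ℕ} (E : Ext w ι) {a : ι → ℝ} (ha : ∀ k, a k ≠ 0) (Q : ℕ)
    [NeZero Q] {η : ℝ} (hη : 0 < η) (hη1 : η ≤ 1)
    (h : ∀ k, |a k| * √(2 + Real.log η⁻¹) ≤ Q) (z : σ → ℤ) :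
    (1 - η) ^ Fintype.card ι * Q ^ Fintype.card ι ≤ ∑ j : ι → Fin Q, E.ps a (ctr Q j) z ∧
      ∑ j : ι → Fin Q, E.ps a (ctr Q j) z ≤ (1 + η) ^ Fintype.card ι * Q ^ Fintype.card ι :=
  sum_psi (E.low z) ha Q hη hη1 h

variable [Fintype σ] (T : Cell σ) (E : Ext T.lev ι) (a : ι → ℝ) (ha : ∀ k, a k ≠ 0) (c : ι → ℝ)

/-- the extended cell -/
def cell : Cell (σ ⊕ ι) where
  rk := Sum.elim T.rk fun k => univ.sup T.rk + 1 + E.rk k
  a := Sum.elim T.a a
  B := Sum.elim (fun s => rename Sum.inl (T.B s)) fun k => C (a k) * (E.P k - C (c k))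
  a_ne s := by
    rcases s with s | s
    exacts [T.a_ne s, ha s]
  B_mem s := by
    rcases s with s | s
    · show rename _ _ ∈ _
      rw [rename_eq_bind]
      refine bind_mem_supported (fun c' hc' => X_mem_supp ?_) (T.B_mem s)
      exact hc'
    · refine mul_mem (C_mem_supp _ _) (sub_mem (supported_mono ?_ (E.P_mem s)) (C_mem_supp _ _))
      rintro (j | j) hj
      · have := le_sup (f := T.rk) (mem_univ j)
        show T.rk j < univ.sup T.rk + 1 + E.rk s
        omega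
      · have := hj j rfl
        show univ.sup T.rk + 1 + E.rk j < univ.sup T.rk + 1 + E.rk s
        omega
  lev := Sum.elim T.lev E.lev
  lev_pos s := by
    rcases s with s | s
    exacts [T.lev_pos s, E.lev_pos s]
  deg s := by
    rcases s with s | s
    · exact DegLe.rename (fun _ => le_rfl) (T.deg s)
    · exact ((E.deg s).sub (degLe_C _ _)).C_mul _

@[simp] theorem cell_lev_inl (s : σ) : (cell T E a ha c).lev (Sum.inl s) = T.lev s := rfl
@[simp] theorem cell_lev_inr (k : ι) : (cell T E a ha c).lev (Sum.inr k) = E.lev k := rfl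
@[simp] theorem cell_a_inl (s : σ) : (cell T E a ha c).a (Sum.inl s) = T.a s := rfl
@[simp] theorem cell_a_inr (k : ι) : (cell T E a ha c).a (Sum.inr k) = a k := rfl

theorem cell_th_inl (s : σ) : (cell T E a ha c).th (Sum.inl s) = rename Sum.inl (T.th s) := by
  simp [Tri.th, cell]

theorem cell_th_inr (k : ι) :
    (cell T E a ha c).th (Sum.inr k) = C (a k) * (X (Sum.inr k) + E.P k - C (c k)) := by
  simp only [Tri.th, cell, Sum.elim_inr]
  ring

theorem cell_wgt (z : σ → ℤ) (u : ι → ℤ) :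
    (cell T E a ha c).wgt (Sum.elim z u) = T.wgt z * gw (E.p z) a c u := by
  rw [gw, prod_g1, Tri.wgt, Tri.wgt, ← Real.exp_add, ← mul_add, Fintype.sum_sum_type]
  congr 3
  · refine sum_congr rfl fun s _ => ?_
    rw [cell_th_inl, ev_rename]; rfl
  · refine sum_congr rfl fun k _ => ?_
    rw [cell_th_inr]; simp [p]

theorem cell_mu : (cell T E a ha c).mu = T.mu * ∏ k, |a k|⁻¹ := by
  rw [Tri.mu, Tri.mu, Fintype.prod_sum_type]; rfl

theorem cell_kap (l : ℕ) : (cell T E a ha c).kap l =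
    T.kap l + ∑ k ∈ univ.filter (fun k => E.lev k = l), (1 + Real.log (1 + |a k|)) := by
  simp only [Cell.kap, sum_filter, Fintype.sum_sum_type, add_assoc]
  rfl

theorem cell_tsum {f : (σ ⊕ ι → ℤ) → ℂ} {K : ℝ} (hf : ∀ x, ‖f x‖ ≤ K) :
    ∑' x, ((cell T E a ha c).wgt x : ℂ) * f x =
      ∑' z, (T.wgt z : ℂ) * ∑' u, (gw (E.p z) a c u : ℂ) * f (Sum.elim z u) := by
  let q := (Equiv.sumArrowEquivProdArrow σ ι ℤ).symm
  have hs := q.summable_iff.2 ((cell T E a ha c).summable_mul hf)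
  rw [← q.tsum_eq]
  refine hs.tsum_prod.trans (tsum_congr fun z => ?_)
  rw [← tsum_mul_left]
  refine tsum_congr fun u => ?_
  show (((cell T E a ha c).wgt (Sum.elim z u) : ℝ) : ℂ) * f (Sum.elim z u) = _
  rw [cell_wgt]; push_cast; ring

theorem cell_tsum_base {f : (σ → ℤ) → ℂ} {K : ℝ} (hf : ∀ z, ‖f z‖ ≤ K) :
    (∏ k, |a k| : ℝ) * ∑' x, ((cell T E a ha c).wgt x : ℂ) * f (x ∘ Sum.inl) =
      ∑' z, (T.wgt z : ℂ) * ((E.ps a c z : ℂ) * f z) := by
  rw [cell_tsum T E a ha c (f := fun x => f (x ∘ Sum.inl)) fun x => hf _, ← tsum_mul_left]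
  refine tsum_congr fun z => ?_
  simp only [Sum.elim_comp_inl]
  rw [tsum_mul_right, ps, psi, ← Complex.ofReal_tsum]
  push_cast; ring

/-- **the new cell is the old cell weighted with the window** -/
theorem cell_tsum_real {f : (σ → ℤ) → ℝ} {K : ℝ} (hf : ∀ z, |f z| ≤ K) :
    (∏ k, |a k|) * ∑' x, (cell T E a ha c).wgt x * f (x ∘ Sum.inl) =
      ∑' z, T.wgt z * (E.ps a c z * f z) := by
  have h := cell_tsum_base T E a ha c (f := fun z => (f z : ℂ)) (K := K) fun z => by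
    rw [Complex.norm_real, Real.norm_eq_abs]; exact hf z
  exact_mod_cast h

theorem cell_M : (∏ k, |a k|) * (cell T E a ha c).M = ∑' z, T.wgt z * E.ps a c z := by
  have h := cell_tsum_real T E a ha c (f := fun _ => 1) (K := 1) fun _ => by simp
  simp only [mul_one] at h
  exact h

theorem cell_M_div_mu :
    (cell T E a ha c).M / (cell T E a ha c).mu = (∑' z, T.wgt z * E.ps a c z) / T.mu := by
  have h0 : 0 < ∏ k, |a k| := prod_pos fun k _ => abs_pos.2 (ha k)
  have h1 := T.mu_pos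
  rw [← cell_M T E a ha c, cell_mu, prod_inv_distrib]
  field_simp

end Ext

/-! ### Malcev coordinates as atoms -/

section Malcev

variable {σ ι : Type} [Fintype ι]

/-- the point `g (z) * u` -/
def mth (N : ND ι) (S : ℕ) (g : N.PS σ) : N.PS (σ ⊕ ι) :=
  star S (N.map (rename Sum.inl) g) fun k => X (Sum.inr k)

theorem evZ_mth (N : ND ι) (S : ℕ) (g : N.PS σ) (z : σ → ℤ) (u : ι → ℤ) :
    N.evZ (Sum.elim z u) (mth N S g) = star S (N.evZ z g) (N.ofInt u) := by
  rw [mth, Bch.map_star]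
  congr 1
  · ext k
    show aeval _ (rename Sum.inl (g k)) = aeval _ (g k)
    rw [aeval_rename]; rfl
  · ext k
    show aeval _ (X (Sum.inr k)) = _
    rw [aeval_X]; rfl

theorem evZ_apply (N : ND ι) (P : N.PS σ) (z : σ → ℤ) (k : ι) : N.evZ z P k = ev z (P k) := by
  show aeval _ (P k) = eval _ (P k)
  rw [← coe_aeval_eq_eval]; rfl

/-- polynomial maps whose `k`-th coordinate lies in the subalgebra `A k` -/
def cSub (N : ND ι) {τ : Type} (A : ι → Subalgebra ℝ (Pl τ)) : Submodule ℝ (N.PS τ) where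
  carrier := {v | ∀ k, v k ∈ A k}
  add_mem' hx hy k := add_mem (hx k) (hy k)
  zero_mem' _ := zero_mem _
  smul_mem' r _ hx k := (A k).smul_mem (hx k) r

/-- polynomial maps whose `k`-th coordinate has weighted degree at most `wt k` -/
def dSub (N : ND ι) {τ : Type} (w : τ → ℕ) : Submodule ℝ (N.PS τ) where
  carrier := {v | ∀ k, DegLe w (v k) (N.wt k)}
  add_mem' hx hy k := (hx k).add (hy k)
  zero_mem' _ := degLe_zero _
  smul_mem' r _ hx k := (hx k).smul r

theorem lie_mem_dSub {N : ND ι} {τ : Type} {w : τ → ℕ} {x y : N.PS τ} (hx : x ∈ dSub N w)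
    (hy : y ∈ dSub N w) : ⁅x, y⁆ ∈ dSub N w := fun k => by
  rw [ND.lie_apply]
  refine degLe_sum fun i _ => degLe_sum fun j _ => ?_
  by_cases hc : N.c i j k = 0
  · simpa [hc] using degLe_zero _
  · rw [mul_assoc, ← map_intCast (C : ℝ →+* Pl τ)]
    exact (((hx i).mul (hy j)).mono (N.c_wt i j k hc)).C_mul _

theorem star_mem_dSub {N : ND ι} {τ : Type} {w : τ → ℕ} (S : ℕ) {x y : N.PS τ}
    (hx : x ∈ dSub N w) (hy : y ∈ dSub N w) : star S x y ∈ dSub N w := by
  have := Bch.star_sub_mem S (dSub N w) (x := x) (y := y) (fun _ hm => lie_mem_dSub hx hm)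
    (fun _ hm => lie_mem_dSub hy hm) (lie_mem_dSub hx hy)
  simpa using add_mem this (add_mem hx hy)

theorem mth_sub_mem (N : ND ι) (S : ℕ) (g : N.PS σ) (k : ι) :
    mth N S g k - X (Sum.inr k) ∈ supported ℝ {c | ∀ j, c = Sum.inr j → N.wt j < N.wt k} := by
  let A : ℕ → Subalgebra ℝ (Pl (σ ⊕ ι)) := fun n => supported ℝ {c | ∀ j, c = Sum.inr j → N.wt j < n}
  have hA : ∀ {n n'}, n ≤ n' → A n ≤ A n' := fun h =>
    supported_mono fun c hc j hj => (hc j hj).trans_le h
  have hl : ∀ x ∈ cSub N fun k => A (N.wt k + 1), ∀ y ∈ cSub N fun k => A (N.wt k + 1),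
      ⁅x, y⁆ ∈ cSub N fun k => A (N.wt k) := fun x hx y hy k => by
    rw [ND.lie_apply]
    refine sum_mem fun i _ => sum_mem fun j _ => ?_
    by_cases hc : N.c i j k = 0
    · simp [hc]
    · have h1 := N.c_wt i j k hc
      have h2 := N.wt_pos i
      have h3 := N.wt_pos j
      exact mul_mem (mul_mem (intCast_mem _ _) (hA (by omega) (hx i))) (hA (by omega) (hy j))
  have hle : ∀ m ∈ cSub N fun k => A (N.wt k), m ∈ cSub N fun k => A (N.wt k + 1) :=
    fun m hm k => hA (Nat.le_succ _) (hm k)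
  have hx0 : ∀ n k, rename Sum.inl (g k) ∈ A n := fun n k => by
    rw [rename_eq_bind]
    refine bind_mem_supported (s := Set.univ) (fun c _ => X_mem_supp fun j hj => ?_) ?_
    · cases hj
    · rw [supported_univ]; trivial
  have hx : N.map (rename Sum.inl) g ∈ cSub N fun k => A (N.wt k + 1) := fun k => hx0 _ k
  have hy : (fun k => X (Sum.inr k) : N.PS (σ ⊕ ι)) ∈ cSub N fun k => A (N.wt k + 1) :=
    fun k => X_mem_supp fun j hj => by cases hj; exact Nat.lt_succ_self _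
  have h := Bch.star_sub_mem S (cSub N fun k => A (N.wt k)) (fun m hm => hl _ hx _ (hle m hm))
    (fun m hm => hl _ hy _ (hle m hm)) (hl _ hx _ hy) k
  have h2 := add_mem h (hx0 (N.wt k) k)
  convert h2 using 1
  show mth N S g k - X (Sum.inr k) =
    mth N S g k - (rename Sum.inl (g k) + X (Sum.inr k)) + rename Sum.inl (g k)
  ring

/-- the atoms attached to a weighted polynomial map into a nilpotent group -/
def mal (N : ND ι) (S : ℕ) {w : σ → ℕ} (g : N.PS σ) (hg : g ∈ dSub N w) : Ext w ι where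
  rk := N.wt
  lev := N.wt
  lev_pos := N.wt_pos
  P k := mth N S g k - X (Sum.inr k)
  P_mem := mth_sub_mem N S g
  deg k := by
    have h1 : N.map (rename Sum.inl) g ∈ dSub N (Sum.elim w N.wt) := fun k =>
      DegLe.rename (fun _ => le_rfl) (hg k)
    have h2 : (fun k => X (Sum.inr k) : N.PS (σ ⊕ ι)) ∈ dSub N (Sum.elim w N.wt) := fun k =>
      degLe_X (w := Sum.elim w N.wt) (Sum.inr k)
    exact (star_mem_dSub S h1 h2 k).sub (h2 k)

theorem mal_val (N : ND ι) (S : ℕ) {w : σ → ℕ} (g : N.PS σ) (hg : g ∈ dSub N w) (z : σ → ℤ)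
    (u : ι → ℤ) (k : ι) :
    u k + (mal N S g hg).p z k u = star S (N.evZ z g) (N.ofInt u) k := by
  rw [← evZ_mth, evZ_apply, Ext.p]
  simp [mal]

/-- **approximation of a Lipschitz function by its values at the centres** -/
theorem mal_apx [DecidableEq ι] {N : ND ι} {S : ℕ} {B M K : ℝ} (hN : N.Good S B) (hB : 0 ≤ B)
    {F : N.L → ℂ} (hF : N.LipFn S M F) (hM : 0 ≤ M) (hK : (Fintype.card ι : ℝ) ^ 2 * B ≤ K)
    (hK2 : 2 ≤ K) {w : σ → ℕ} (g : N.PS σ) (hg : g ∈ dSub N w) {a : ι → ℝ} (ha : ∀ k, a k ≠ 0)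
    (Q : ℕ) [NeZero Q] {η : ℝ} (hη : 0 < η) (hη1 : η ≤ 1)
    (h : ∀ k, |a k| * √(2 + Real.log η⁻¹) ≤ Q) {R r : ℝ} (hR : 0 ≤ R) (hr0 : 0 ≤ r) (hr1 : r ≤ 1)
    (hr : ∀ k, R ≤ |a k| * r) (z : σ → ℤ) :
    ∑ j : ι → Fin Q, (mal N S g hg).ps a (ctr Q j) z * ‖F (N.evZ z g) - F (ctr Q j)‖ ≤
      (M * (Bch.cb S * K ^ (2 * S) * r) + 2 * (2 ^ Fintype.card ι * Real.exp (-2 * R ^ 2))) *
        ((1 + η) ^ Fintype.card ι * Q ^ Fintype.card ι) := by
  have := hN.nil ℝ
  have hc : 0 ≤ Bch.cb S * K ^ (2 * S) * r :=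
    mul_nonneg (mul_nonneg (by linarith [Bch.two_le_cb S]) (by positivity)) hr0
  have h1 := sum_test_le ((mal N S g hg).low z) ha Q hη hη1 h hR
    (ε := M * (Bch.cb S * K ^ (2 * S) * r) / 2) (by positivity)
    (fun j _ => ‖F (N.evZ z g) - F (ctr Q j)‖ / 2) (fun _ _ => by positivity)
    (fun j _ => by
      linarith [norm_sub_le (F (N.evZ z g)) (F (ctr Q j)), hF.bdd (N.evZ z g), hF.bdd (ctr Q j)])
    (fun j u hu => by
      refine div_le_div_of_nonneg_right ?_ zero_le_two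
      set x' := star S (N.evZ z g) (N.ofInt u)
      let y : N.L := ctr Q j
      have e1 : ‖x' - y‖ ≤ r := (ND.norm_le_iff hr0).2 fun k => by
        have h2 := hu k
        rw [mal_val, abs_mul] at h2
        exact (lt_of_mul_lt_mul_left (h2.trans_le (hr k)) (abs_nonneg _)).le
      have e2 : ‖y‖ ≤ 1 := (ND.norm_le_iff zero_le_one).2 fun k =>
        abs_le.2 ⟨by linarith [ctr_nonneg Q j k], ctr_le_one Q j k⟩
      have e3 : ‖x'‖ ≤ K := by
        have := norm_add_le (x' - y) y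
        rw [sub_add_cancel] at this
        linarith
      have e4 := hF.norm_sub_le hM hN.c_le hB le_rfl hK (by linarith) (x := y) (x' := x')
        (by linarith) e3 0
      rw [Bch.star_zero, Bch.star_zero, hF.per _ _ (ND.isInt_ofInt u)] at e4
      refine e4.trans (mul_le_mul_of_nonneg_left (mul_le_mul_of_nonneg_left e1 ?_) hM)
      exact mul_nonneg (by linarith [Bch.two_le_cb S]) (by positivity))
  have h2 : ∑ j : ι → Fin Q, (mal N S g hg).ps a (ctr Q j) z * ‖F (N.evZ z g) - F (ctr Q j)‖ =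
      2 * ∑ j : ι → Fin Q, (∏ k, |a k|) * ∑' u, gw ((mal N S g hg).p z) a (ctr Q j) u *
        (‖F (N.evZ z g) - F (ctr Q j)‖ / 2) := by
    rw [mul_sum]
    refine sum_congr rfl fun j _ => ?_
    rw [tsum_mul_right, Ext.ps, psi]; ring
  rw [h2]
  linarith

end Malcev

end Crest.Agent.T49.Mal
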