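import Crest.Agent.T49.MxAsmA_91

/-!
# Row 49 (helper91): mixed cells, assembly: `DAPCStmt`, `MassMStmt`, `DAPMStmt`, `AllDerMStmt`
-/

set_option autoImplicit false

open MvPolynomial

namespace Crest.Agent.T49.Tw

namespace MA

open Cell Asm

/-- `MassMStmt` with exponent `D` -/
def MassM (l s D : ℕ) : Prop := ∀ (ι : Type) [Fintype ι] (T : Cell ι) (cl : ι → ℕ)
  (τ : ℕ → ℝ), T.IsMC cl → (∀ c, cl c ≤ l) → (∀ c, T.lev c ≤ s) →
  Real.log (Fintype.card ι + 2) + 2 ≤ τ (l + 1) → T.RegM cl D l τ →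
  |T.M / T.mu - 1| ≤ Real.exp (-τ (l + 1))

/-- `DAPMStmt` with exponent `D` -/
def DapM (l s d D : ℕ) : Prop := ∀ (ι : Type) [Fintype ι] (T : Cell ι) (cl : ι → ℕ)
  (τ : ℕ → ℝ) (F : Pl ι) (y : ℝ), T.IsMC cl → (∀ c, cl c ≤ l) → (∀ c, T.lev c ≤ s) →
  DegLe T.lev F (d + 1) →
  Real.log (Fintype.card ι + 2) + 2 ≤ y → D * y ≤ τ (l + 1) → T.RegM cl D l τ →
  Real.exp (-y) * T.mu ≤ ‖T.S F‖ →
  ∃ (b : ℕ) (e : Pl ι), 1 ≤ b ∧ (b : ℝ) ≤ Real.exp (D * y) ∧
    IsWeightedHomogeneous T.lev e (d + 1) ∧ nrm e ≤ Real.exp (D * y) ∧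
    IsInt (C (b : ℝ) * T.top (d + 1) F - T.TTh e)

/-- all cells derived from a regular mixed cell have the ideal mass -/
theorem allDerM_of_mass {l s DM D : ℕ} (hM : MassM l s DM) (hD : 2 * DM + 2 ≤ D) {ι : Type}
    [Fintype ι] {T : Cell ι} {cl : ι → ℕ} {τ : ℕ → ℝ} (hl : ∀ c, cl c ≤ l)
    (hs : ∀ c, T.lev c ≤ s) (h : T.RegM cl D l τ) {x q : ℝ}
    (hq : x + Real.log (Fintype.card ι + 2) + 2 ≤ q) (hx : q + 2 * x ≤ τ (l + 1)) :
    T.AllDerM cl x (Real.exp (-q)) := by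
  intro ι' _ T' cl' hd
  have hx0 := derM_pos hd
  have h0 := log_card_nonneg (Fintype.card ι)
  have h1 := hM ι' T' cl' _ hd.mc (fun c => by obtain ⟨c', hc, -⟩ := hd.ex c; exact hc ▸ hl c')
    (fun c => by obtain ⟨c', -, hc⟩ := hd.ex c; exact hc ▸ hs c')
    (by simp only [if_neg (Nat.not_succ_le_self l)]; linarith [log_card_le hx0.le hd.card])
    (derM_regM h hd hD (by linarith) hx)
  simpa only [if_neg (Nat.not_succ_le_self l)] using h1

theorem massM_zero (s : ℕ) : MassM 0 s 0 := by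
  intro ι _ T cl τ hmc hl _ _ _
  have : IsEmpty ι := ⟨fun c => absurd (hl c) (by have := hmc.1 c; omega)⟩
  have h1 : T.M = 1 := by simp [Tri.M, Tri.wgt]
  have h2 : T.mu = 1 := by simp [Tri.mu]
  rw [h1, h2]
  simpa using (Real.exp_pos _).le

end MA

open Cell Asm MA in
/-- **DAP from the masses of the projective covers** -/
theorem dapC_of (hC : ChainMStmt) (hCe : CertMStmt) (hD : DAStmt) : DAPCStmt := by
  intro s d
  obtain ⟨D1, h1⟩ := hC s d
  obtain ⟨D2, h2⟩ := hCe (d + 1)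
  obtain ⟨D3, h3⟩ := hD d
  -- `y2 = A y`, `y' = B y`, loss `x = E y`
  obtain ⟨A, hA⟩ : ∃ A : ℕ, A = 2 * D1 + 2 := ⟨_, rfl⟩
  obtain ⟨B, hB⟩ : ∃ B : ℕ, B = (D3 + 1) * A := ⟨_, rfl⟩
  obtain ⟨E, hE⟩ : ∃ E : ℕ, E = (D1 + 1) * (D2 * B) + D1 := ⟨_, rfl⟩
  refine ⟨E + 1 + B + (d + 1).factorial + D1, ?_⟩
  intro ι _ T F y hl hF hy hAll0 hS
  have hL := log_card_nonneg (Fintype.card ι)
  have hy2 : 2 ≤ y := by linarith
  have hy0 : 0 ≤ y := by linarith
  have cD1 : (0 : ℝ) ≤ D1 := Nat.cast_nonneg _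
  have cD2 : (0 : ℝ) ≤ D2 := Nat.cast_nonneg _
  have cD3 : (0 : ℝ) ≤ D3 := Nat.cast_nonneg _
  have cB : (0 : ℝ) ≤ B := Nat.cast_nonneg _
  have cE : (0 : ℝ) ≤ E := Nat.cast_nonneg _
  have cf : (0 : ℝ) ≤ (d + 1).factorial := Nat.cast_nonneg _
  have hA' : (A : ℝ) = 2 * D1 + 2 := by rw [hA]; push_cast; ring
  have hB' : (B : ℝ) = (D3 + 1) * A := by rw [hB]; push_cast; ring
  have hE' : (E : ℝ) = (D1 + 1) * (D2 * B) + D1 := by rw [hE]; push_cast; ring
  push_cast at hAll0 ⊢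
  have p1 := mul_nonneg cD1 hy0
  have pB := mul_nonneg cB hy0
  have pE := mul_nonneg cE hy0
  have pf := mul_nonneg cf hy0
  have p2 : 0 ≤ D2 * (B * y) := mul_nonneg cD2 pB
  have p12 : 0 ≤ D1 * (D2 * (B * y)) := mul_nonneg cD1 p2
  have q1 : (D1 : ℝ) ≤ D1 * y := le_mul_of_one_le_right cD1 (by linarith)
  have hEy : E * y = D1 * (D2 * (B * y)) + D2 * (B * y) + D1 * y := by rw [hE']; ring
  have hAy : A * y = 2 * (D1 * y) + 2 * y := by rw [hA']; ring
  have hBy : B * y = D3 * (A * y) + A * y := by rw [hB']; ring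
  have p3 : 0 ≤ D3 * (A * y) := mul_nonneg cD3 (by linarith)
  have hAll : T.AllPC (E * y) (Real.exp (-(E * y + y))) :=
    allPC_mono hAll0 (by linarith) (Real.exp_le_exp.2 (by linarith))
  obtain ⟨κ, _, P, hP, G, π, hG, hder, hb, hback⟩ := h1 ι T F hl hF
  have hb1 := hb y hy2 (allPC_mono hAll (by linarith) (Real.exp_le_exp.2 (by linarith))) hS
  obtain ⟨hgood, hsb⟩ := h2 κ P hP (B * y) (by linarith)
    (allPC_mono (allPC_pc hAll hder (y := D2 * (B * y)) (by linarith) (by linarith)) le_rfl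
      (Real.exp_le_exp.2 (by linarith)))
  have hmu := mu_pos P.toTri
  have hsb1 : Real.exp (-(A * y)) ≤ ‖sb (d + 1) P G‖ := by
    have e1 : Real.exp (-(D1 * y)) ≤ ‖P.S G / P.mu‖ := by
      rw [norm_div, Complex.norm_real, Real.norm_of_nonneg hmu.le, le_div_iff₀ hmu]
      exact hb1
    have e2 := hsb G hG
    have e3 : ‖P.S G / P.mu‖ ≤ ‖P.S G / P.mu - sb (d + 1) P G‖ + ‖sb (d + 1) P G‖ := by
      simpa using norm_add_le (P.S G / P.mu - sb (d + 1) P G) (sb (d + 1) P G)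
    have e4 : Real.exp (-(B * y)) ≤ Real.exp (-(A * y)) := Real.exp_le_exp.2 (by linarith)
    have e5 : Real.exp (-(A * y)) * 2 ≤ Real.exp (-(D1 * y)) := by
      calc _ ≤ Real.exp (-(A * y)) * Real.exp 1 := by
            gcongr; linarith [Real.add_one_le_exp 1]
        _ = Real.exp (-(A * y) + 1) := (Real.exp_add _ _).symm
        _ ≤ _ := Real.exp_le_exp.2 (by linarith)
    linarith
  have hclean : P.Clean := fun c => mem_supported_iff.2 fun _ _ c' _ => hP c'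
  obtain ⟨b, hb1', hb2, hshort⟩ := h3 κ P G (A * y) _ _ hclean hG
    (by linarith [log_card_le cD1 hder.card]) (Real.exp_pos _)
    (Real.exp_le_exp.2 (by linarith)) (Real.exp_le_exp.2 (by linarith)) hgood hsb1
  obtain ⟨e, he1, he2, he3⟩ := hback b _ hshort
  refine ⟨b * (d + 1).factorial, e, Nat.mul_pos hb1' (Nat.factorial_pos _), ?_, he1, ?_, he3⟩
  · push_cast
    calc (b : ℝ) * (d + 1).factorial ≤ Real.exp (D3 * (A * y)) * Real.exp ((d + 1).factorial) := by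
          gcongr; linarith [Real.add_one_le_exp ((d + 1).factorial : ℝ)]
      _ = Real.exp (D3 * (A * y) + (d + 1).factorial) := (Real.exp_add _ _).symm
      _ ≤ _ := Real.exp_le_exp.2 (by
          have : ((d + 1).factorial : ℝ) ≤ (d + 1).factorial * y :=
            le_mul_of_one_le_right cf (by linarith)
          linarith)
  · refine he2.trans ?_
    rw [← Real.exp_add]
    exact Real.exp_le_exp.2 (by linarith)

namespace MA

open Cell Asm

theorem dapM_of_mass (hC : DAPCStmt) {l s DM : ℕ} (hM : MassM l s DM) (d : ℕ) :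
    ∃ D, ∀ D', D ≤ D' → DapM l s d D' := by
  obtain ⟨D1, h1⟩ := hC s d
  refine ⟨2 * DM + 2 + 3 * D1 + 1, fun D' hD' => ?_⟩
  intro ι _ T cl τ F y hmc hl hs hF hy hτ hR hS
  have hL := log_card_nonneg (Fintype.card ι)
  have hy0 : 0 ≤ y := by linarith
  have cD1 : (0 : ℝ) ≤ D1 := Nat.cast_nonneg _
  have cM : (0 : ℝ) ≤ DM := Nat.cast_nonneg _
  have hD'' : (2 * DM + 2 + 3 * D1 + 1 : ℝ) ≤ D' := by exact_mod_cast hD'
  have p0 := mul_le_mul_of_nonneg_right hD'' hy0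
  have p1 := mul_nonneg cD1 hy0
  have pM := mul_nonneg cM hy0
  have hAll : T.AllDerM cl (D1 * y) (Real.exp (-(D1 * y + y))) :=
    allDerM_of_mass hM (by omega) hl hs hR (by linarith) (by linarith)
  obtain ⟨b, e, hb1, hb2, he1, he2, he3⟩ := h1 ι T F y hs hF hy
    (allPC_mono (allPC_of_allDerM hmc hAll) le_rfl (Real.exp_le_exp.2 (by linarith))) hS
  exact ⟨b, e, hb1, hb2.trans (Real.exp_le_exp.2 (by linarith)), he1,
    he2.trans (Real.exp_le_exp.2 (by linarith)), he3⟩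

theorem dapM_unif (hC : DAPCStmt) {l s DM : ℕ} (hM : MassM l s DM) (n : ℕ) :
    ∃ D, ∀ D', D ≤ D' → ∀ d < n, DapM l s d D' := by
  induction n with
  | zero => exact ⟨0, fun _ _ d hd => absurd hd (by omega)⟩
  | succ n ih =>
    obtain ⟨D1, h1⟩ := ih
    obtain ⟨D2, h2⟩ := dapM_of_mass hC hM n
    refine ⟨D1 + D2, fun D' hD' d hd => ?_⟩
    rcases Nat.lt_succ_iff_lt_or_eq.1 hd with h | rfl
    · exact h1 D' (by omega) d h
    · exact h2 D' (by omega)

theorem massM_succ (hT : TopMStmt) {l s DM DP : ℕ} (hM : MassM l s DM)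
    (hP : ∀ d < s, DapM l s d DP) : MassM (l + 1) s (DM + DP + 3) := by
  classical
  intro ι _ T cl τ hmc hl hs hq hR
  have hL := log_card_nonneg (Fintype.card ι)
  have hL' := log_card_mono (frz_card fun c => cl c ≤ l)
  set q := τ (l + 1 + 1) with hqdef
  have hk := one_le_kapM T cl (l + 1)
  obtain ⟨hch, hreg⟩ := hR (l + 1) (by omega) le_rfl
  rw [← hqdef] at hch hreg
  set k := T.kapM cl (l + 1) with hkdef
  have cP : (0 : ℝ) ≤ DP := Nat.cast_nonneg _
  have hτ : (DP + 1) * (q + k + 2) ≤ τ (l + 1) := by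
    refine le_trans ?_ hch
    have h1 : (DP : ℝ) + 1 ≤ (q + k) ^ DP := by
      have h2 : (DP : ℝ) + 1 ≤ 2 ^ DP := by exact_mod_cast Nat.lt_two_pow_self (n := DP)
      exact h2.trans (pow_le_pow_left₀ (by norm_num) (by linarith) _)
    calc (DP + 1) * (q + k + 2) ≤ (q + k) ^ DP * (q + k) ^ 2 :=
          mul_le_mul h1 (by nlinarith) (by linarith) (pow_nonneg (by linarith) _)
      _ = (q + k) ^ (DP + 2) := (pow_add _ _ _).symm
      _ ≤ _ := pow_le_pow_right₀ (by linarith) (by omega)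
  have hτ1 : DP * (q + k + 2) ≤ τ (l + 1) := by linarith
  have hτ2 : q + k + 2 ≤ τ (l + 1) := by
    linarith [mul_nonneg cP (show 0 ≤ q + k + 2 by linarith)]
  have hlow := frz_regM hmc (regM_pred hR)
  have hmc' := frz_isMC hmc fun c => cl c ≤ l
  have hm := hM _ (T.frz fun c => cl c ≤ l) _ τ hmc' (fun c => c.2) (fun c => hs c.1)
    (by linarith) (regM_mono hlow (by omega) (by omega) (by linarith))
  have htop := hT ι T cl l (q + 2) (Real.exp (-(q + k + 2))) hmc hl (by linarith)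
    (Real.exp_pos _).le fun ξ hξ hξ0 hξ1 => by
      by_contra hbig
      push Not at hbig
      obtain ⟨c0, hc0, hmax⟩ := Finset.exists_max_image (Finset.univ.filter fun c => ξ c ≠ 0)
        T.lev (by
          obtain ⟨c, hc⟩ := Function.ne_iff.1 hξ0
          exact ⟨c, Finset.mem_filter.2 ⟨Finset.mem_univ _, hc⟩⟩)
      have hc0' : ξ c0 ≠ 0 := (Finset.mem_filter.1 hc0).2
      obtain ⟨d, hd⟩ : ∃ d, T.lev c0 = d + 1 := ⟨T.lev c0 - 1, by have := T.lev_pos c0; omega⟩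
      have hw : ∀ c, ξ c ≠ 0 → T.lev c ≤ d + 1 := fun c hc =>
        hd ▸ hmax c (Finset.mem_filter.2 ⟨Finset.mem_univ _, hc⟩)
      have hdeg : DegLe T.lev (∑ c, C (ξ c) * T.th c) (d + 1) :=
        degLe_sum _ fun c _ => by
          by_cases h : ξ c = 0
          · intro m hm; simp [h] at hm
          · exact degLe_C_mul _ fun m hm => (degLe_th T c m hm).trans (hw c h)
      obtain ⟨b, e, hb1, hb2, he1, he2, he3⟩ := hP d (by have := hs c0; omega) _
        (T.frz fun c => cl c ≤ l) _ τ _ (q + k + 2) hmc' (fun c => c.2) (fun c => hs c.1)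
        (degLe_dn _ hdeg) (by linarith) hτ1
        (regM_mono hlow (by omega) (by omega) (by linarith)) hbig.le
      have key := hreg (d + 1) (wpart T (d + 1) ξ) b (-rename Subtype.val e) (dualM_of_dualF hξ hw)
        (fun c hc => if_neg hc) ((sum_wpart_le T _ ξ).trans (hξ1.trans ?_)) hb1
        (hb2.trans (Real.exp_le_exp.2 hτ1)) ?_ (neg_mem ?_) ?_ (lift_relM hmc hξ hw b he3)
      · exact hc0' (by simpa [wpart, hd] using congrFun key c0)
      · refine mul_le_mul_of_nonneg_right ?_ (by linarith)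
        have h1 := Real.quadratic_le_exp_of_nonneg (show 0 ≤ q by linarith)
        nlinarith
      · exact (weightedHomogeneousSubmodule ℝ T.lev (d + 1)).neg_mem (hom_rename _ _ he1)
      · exact rename_mem_supported Subtype.val (s := Set.univ)
          (by exact fun c _ => Nat.lt_succ_of_le (n := cl c.1) c.2)
          (by rw [supported_univ]; trivial)
      · rw [nrm_neg, nrm_rename Subtype.val_injective]
        exact he2.trans (Real.exp_le_exp.2 hτ1)
  rw [← hkdef, ← Real.exp_add, show -(q + k + 2) + k = -(q + 2) by ring] at htop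
  have e1 : Real.exp (-τ (l + 1)) ≤ Real.exp (-(q + 2)) := Real.exp_le_exp.2 (by linarith)
  have e2 : Real.exp (-(q + 2)) ≤ 1 := Real.exp_le_one_iff.2 (by linarith)
  have e3 : Real.exp (-(q + 2)) * 4 ≤ Real.exp (-q) := by
    calc _ ≤ Real.exp (-(q + 2)) * Real.exp 2 := by
          gcongr; linarith [Real.quadratic_le_exp_of_nonneg (show (0 : ℝ) ≤ 2 by norm_num)]
      _ = _ := by rw [← Real.exp_add]; congr 1; ring
  have e4 := Real.exp_pos (-(q + 2))
  have e5 : (T.frz fun c => cl c ≤ l).M / (T.frz fun c => cl c ≤ l).mu ≤ 2 := by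
    linarith [(abs_le.1 hm).2]
  have e6 := mul_le_mul_of_nonneg_left e5 e4.le
  have e7 := abs_sub_le (T.M / T.mu)
    ((T.frz fun c => cl c ≤ l).M / (T.frz fun c => cl c ≤ l).mu) 1
  linarith

end MA

/-- **mass of a regular mixed cell** -/
theorem massM_of (hT : TopMStmt) (hC : DAPCStmt) : MassMStmt := by
  intro l s
  show ∃ D, MA.MassM l s D
  induction l with
  | zero => exact ⟨0, MA.massM_zero s⟩
  | succ l ih =>
    obtain ⟨DM, hM⟩ := ih
    obtain ⟨DP, hP⟩ := MA.dapM_unif hC hM s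
    exact ⟨_, MA.massM_succ hT hM (hP DP le_rfl)⟩

theorem dapM_of (hM : MassMStmt) (hC : DAPCStmt) : DAPMStmt := by
  intro l s d
  obtain ⟨DM, hM⟩ := hM l s
  obtain ⟨D, h⟩ := MA.dapM_of_mass hC (l := l) (s := s) (DM := DM) hM d
  exact ⟨D, h D le_rfl⟩

theorem allDerM_of (hM : MassMStmt) : AllDerMStmt := by
  intro l s
  obtain ⟨D, h⟩ := hM l s
  refine ⟨2 * D + 2, fun ι _ T cl τ x q hmc hl hs hR hq hx => ?_⟩
  have h1 := MA.allDerM_of_mass (l := l) (s := s) (DM := D) h le_rfl hl hs hR hq hx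
  exact ⟨h1, MA.allPC_of_allDerM hmc h1⟩

/-- **assembly of the mixed tower calculus** -/
theorem mixed_asm (hT : TopMStmt) (hC : ChainMStmt) (hCe : CertMStmt) (hD : DAStmt) :
    DAPCStmt ∧ MassMStmt ∧ DAPMStmt ∧ AllDerMStmt :=
  have h1 := dapC_of hC hCe hD
  have h2 := massM_of hT h1
  ⟨h1, h2, dapM_of h2 h1, allDerM_of h2⟩

end Crest.Agent.T49.Tw
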