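import Crest.Agent.T49.TwTag_4

/-!
# Row 49: mixed cells (class ≠ weight), definitions and statements (helper53)

A class function `cl : ι → ℕ` on a `Cell`; `lev` is only the weight.  With `cl = lev` one gets the
notions of `TwDef_52`.
-/

set_option autoImplicit false

open MvPolynomial

namespace Crest.Agent.T49.Tw

namespace Cell
variable {ι : Type} (T : Cell ι)

/-- `cl` is a class function: `B c` only contains variables of lower class, and variables of the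
same class as linear monomials -/
def IsMC (cl : ι → ℕ) : Prop :=
  (∀ c, 0 < cl c) ∧ ∀ c, ∀ m ∈ (T.B c).support, ∀ c' ∈ m.support,
    cl c' < cl c ∨ (cl c' = cl c ∧ m = Finsupp.single c' 1)

/-- complexity of class `j` -/
noncomputable def kapM [Fintype ι] (cl : ι → ℕ) (j : ℕ) : ℝ :=
  1 + ∑ c ∈ Finset.univ.filter (fun c => cl c = j), (1 + Real.log (1 + |T.a c|))

/-- `ξ` is a dual vector of the class-`j` lattice -/
def DualM [Fintype ι] (cl : ι → ℕ) (j : ℕ) (ξ : ι → ℝ) : Prop :=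
  (∀ c, cl c ≠ j → ξ c = 0) ∧
    ∀ c, cl c = j → ∃ n : ℤ, coeff (Finsupp.single c 1) (T.dotT ξ) = n

/-- `ξ` is a dual vector of the class-`j` lattice, for the full windows -/
def DualF [Fintype ι] (cl : ι → ℕ) (j : ℕ) (ξ : ι → ℝ) : Prop :=
  (∀ c, cl c ≠ j → ξ c = 0) ∧
    ∀ c, cl c = j → ∃ n : ℤ, coeff (Finsupp.single c 1) (∑ c', C (ξ c') * T.th c' : Pl ι) = (n : ℝ)

/-- no relation `b ξ·θ^top + e(θ^top_{class < j}) ∈ ℤ[z]`, `ξ ≠ 0` dual of one weight `w` -/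
def RegAtM [Fintype ι] (cl : ι → ℕ) (j : ℕ) (H Λ : ℝ) : Prop :=
  ∀ (w : ℕ) (ξ : ι → ℝ) (b : ℕ) (e : Pl ι), T.DualM cl j ξ → (∀ c, T.lev c ≠ w → ξ c = 0) →
    ∑ c, |ξ c| ≤ H → 1 ≤ b → (b : ℝ) ≤ Λ →
    IsWeightedHomogeneous T.lev e w → e ∈ supported ℝ {c | cl c < j} → nrm e ≤ Λ →
    IsInt (C (b : ℝ) * T.dotT ξ + T.TTh e) → ξ = 0

/-- regular along the chain of thresholds `τ` for the classes `1..l` -/
def RegM [Fintype ι] (cl : ι → ℕ) (D l : ℕ) (τ : ℕ → ℝ) : Prop :=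
  ∀ j, 1 ≤ j → j ≤ l → (τ (j + 1) + T.kapM cl j) ^ D ≤ τ j ∧
    T.RegAtM cl j (Real.exp (τ (j + 1)) * T.kapM cl j) (Real.exp (τ j))

/-- `(T', cl')` is derived from `(T, cl)` with loss `x` -/
structure DerM [Fintype ι] (cl : ι → ℕ) {ι' : Type} [Fintype ι'] (x : ℝ) (T' : Cell ι')
    (cl' : ι' → ℕ) : Prop where
  mc : T'.IsMC cl'
  ex : ∀ c', ∃ c, cl' c' = cl c ∧ T'.lev c' = T.lev c
  card : (Fintype.card ι' : ℝ) ≤ x * Fintype.card ι
  kap : ∀ j, T'.kapM cl' j ≤ x * T.kapM cl j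
  reg : ∀ j H Λ, T.RegAtM cl j H Λ → T'.RegAtM cl' j (H * Real.exp (-x)) (Λ * Real.exp (-x))

/-- all cells derived from `(T, cl)` with loss `x` have mass ratio `1 ± η` -/
def AllDerM [Fintype ι] (cl : ι → ℕ) (x η : ℝ) : Prop :=
  ∀ (ι' : Type) [Fintype ι'] (T' : Cell ι') (cl' : ι' → ℕ), T.DerM cl x T' cl' →
    |T'.M / T'.mu - 1| ≤ η

/-- `T'` is derived from `T` along the projection `π`, for every class function -/
structure PC [Fintype ι] {ι' : Type} [Fintype ι'] (x : ℝ) (T' : Cell ι') (π : ι' → ι) : Prop where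
  lev : ∀ c', T'.lev c' = T.lev (π c')
  card : (Fintype.card ι' : ℝ) ≤ x * Fintype.card ι
  kap : ∀ cl j, T'.kapM (cl ∘ π) j ≤ x * T.kapM cl j
  mc : ∀ cl, T.IsMC cl → T'.IsMC (cl ∘ π)
  reg : ∀ cl, T.IsMC cl → ∀ j H Λ, T.RegAtM cl j H Λ →
    T'.RegAtM (cl ∘ π) j (H * Real.exp (-x)) (Λ * Real.exp (-x))

/-- all projective covers of `T` with loss `x` have mass ratio `1 ± η` -/
def AllPC [Fintype ι] (x η : ℝ) : Prop :=
  ∀ (ι' : Type) [Fintype ι'] (T' : Cell ι') (π : ι' → ι), T.PC x T' π → |T'.M / T'.mu - 1| ≤ η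

/-- the fibre over the point `p` of the coordinates in `q`, with the new weights `wt` -/
noncomputable def fibW (q : ι → Prop) (p : {c // q c} → ℤ) (wt : ι → ℕ)
    (h0 : ∀ c, ¬ q c → 0 < wt c) (hq : ∀ c, q c → wt c = 0)
    (hd : ∀ c, ¬ q c → DegLe wt (T.B c) (wt c)) : Cell {c // ¬ q c} := by
  classical
  exact
  { rk := fun c => T.rk c.1
    a := fun c => T.a c.1
    B := fun c => bind₁ (fun c' => if h : q c' then C (p ⟨c', h⟩ : ℝ) else X ⟨c', h⟩) (T.B c.1)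
    a_ne := fun c => T.a_ne c.1
    B_mem := fun c => by
      refine bind_mem_supported (fun c' hc' => ?_) (T.B_mem c.1)
      split_ifs
      · exact C_mem_supp _ _
      · exact X_mem_supp hc'
    lev := fun c => wt c.1
    lev_pos := fun c => h0 c.1 c.2
    deg := fun c => by
      refine DegLe.bind (fun c' => ?_) (hd c.1 c.2)
      split_ifs with h
      · intro m hm
        have := support_monomial_subset (s := (0 : {c // ¬ q c} →₀ ℕ)) (a := (p ⟨c', h⟩ : ℝ)) hm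
        rw [Finset.mem_singleton.1 this, map_zero]
        exact Nat.zero_le _
      · intro m hm
        rw [support_X, Finset.mem_singleton] at hm
        simp [hm, Finsupp.weight_apply] }

end Cell

/-- (MASS, mixed) a regular mixed cell has the ideal mass -/
def MassMStmt : Prop := ∀ l s : ℕ, ∃ D : ℕ, ∀ (ι : Type) [Fintype ι] (T : Cell ι) (cl : ι → ℕ)
  (τ : ℕ → ℝ), T.IsMC cl → (∀ c, cl c ≤ l) → (∀ c, T.lev c ≤ s) →
  Real.log (Fintype.card ι + 2) + 2 ≤ τ (l + 1) → T.RegM cl D l τ →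
  |T.M / T.mu - 1| ≤ Real.exp (-τ (l + 1))

/-- (DAP from masses) bias implies relation as soon as all projective covers have the ideal mass -/
def DAPCStmt : Prop := ∀ s d : ℕ, ∃ D : ℕ, ∀ (ι : Type) [Fintype ι] (T : Cell ι)
  (F : Pl ι) (y : ℝ), (∀ c, T.lev c ≤ s) → DegLe T.lev F (d + 1) →
  Real.log (Fintype.card ι + 2) + 2 ≤ y → T.AllPC (D * y) (Real.exp (-(D * y))) →
  Real.exp (-y) * T.mu ≤ ‖T.S F‖ →
  ∃ (b : ℕ) (e : Pl ι), 1 ≤ b ∧ (b : ℝ) ≤ Real.exp (D * y) ∧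
    IsWeightedHomogeneous T.lev e (d + 1) ∧ nrm e ≤ Real.exp (D * y) ∧
    IsInt (C (b : ℝ) * T.top (d + 1) F - T.TTh e)

/-- (DAP, mixed) bias implies relation on a regular mixed cell -/
def DAPMStmt : Prop := ∀ l s d : ℕ, ∃ D : ℕ, ∀ (ι : Type) [Fintype ι] (T : Cell ι) (cl : ι → ℕ)
  (τ : ℕ → ℝ) (F : Pl ι) (y : ℝ), T.IsMC cl → (∀ c, cl c ≤ l) → (∀ c, T.lev c ≤ s) →
  DegLe T.lev F (d + 1) →
  Real.log (Fintype.card ι + 2) + 2 ≤ y → D * y ≤ τ (l + 1) → T.RegM cl D l τ →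
  Real.exp (-y) * T.mu ≤ ‖T.S F‖ →
  ∃ (b : ℕ) (e : Pl ι), 1 ≤ b ∧ (b : ℝ) ≤ Real.exp (D * y) ∧
    IsWeightedHomogeneous T.lev e (d + 1) ∧ nrm e ≤ Real.exp (D * y) ∧
    IsInt (C (b : ℝ) * T.top (d + 1) F - T.TTh e)

/-- (ALLDER, mixed) all cells derived from a regular mixed cell have the ideal mass -/
def AllDerMStmt : Prop := ∀ l s : ℕ, ∃ D : ℕ, ∀ (ι : Type) [Fintype ι] (T : Cell ι) (cl : ι → ℕ)
  (τ : ℕ → ℝ) (x q : ℝ), T.IsMC cl → (∀ c, cl c ≤ l) → (∀ c, T.lev c ≤ s) → T.RegM cl D l τ →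
  x + Real.log (Fintype.card ι + 2) + 2 ≤ q → q + 2 * x ≤ τ (l + 1) →
  T.AllDerM cl x (Real.exp (-q)) ∧ T.AllPC x (Real.exp (-q))

open Classical in
/-- (HERED) the fibres of a regular mixed cell over a closed set `q` of base coordinates, with new
weights for which the windows are homogeneous, are regular off a set of base points of tiny mass -/
def HeredStmt : Prop := ∀ l s D' : ℕ, ∃ D : ℕ, ∀ (ι : Type) [Fintype ι] (T : Cell ι) (cl : ι → ℕ)
  (τ τ' : ℕ → ℝ) (q : ι → Prop) (wt : ι → ℕ) (h0 : ∀ c, ¬ q c → 0 < wt c)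
  (hq : ∀ c, q c → wt c = 0) (hd : ∀ c, ¬ q c → DegLe wt (T.B c) (wt c)),
  T.IsMC cl → (∀ c, cl c ≤ l) → (∀ c, T.lev c ≤ s) → (∀ c, wt c ≤ s) → T.Clo q →
  (∀ c, ¬ q c → IsWeightedHomogeneous wt (T.B c) (wt c)) →
  T.RegM cl D l τ → (Fintype.card ι : ℝ) + 2 ≤ τ' (l + 1) →
  (∀ j, 1 ≤ j → j ≤ l + 1 → τ' j ^ D ≤ τ j) →
  (∀ j, 1 ≤ j → j ≤ l → (τ' (j + 1) + T.kapM cl j) ^ D' ≤ τ' j) →
  (∑' p : {c // q c} → ℤ, if (T.fibW q p wt h0 hq hd).RegM (fun c => cl c.1) D' l τ' then 0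
    else (T.toTri.frz q).wgt p) ≤ Real.exp (-τ' (l + 1)) * (T.toTri.frz q).mu

end Crest.Agent.T49.Tw
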