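import Crest.Agent.T49.MxCell_53
import Crest.Agent.T49.MxAsmA_91
import Crest.Agent.T49.TwDblA_80
import Crest.Agent.T49.TwPoly_91

/-!
# Row 49: heredity of regularity, measure lemmas (helper53)
-/

set_option autoImplicit false
set_option linter.unusedSectionVars false

open MvPolynomial

namespace Crest.Agent.T49.Tw

namespace Her

open Classical in
/-- indicator -/
noncomputable def ind (P : Prop) : ℝ := if P then 1 else 0

theorem ind_pos {P : Prop} (h : P) : ind P = 1 := if_pos h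

theorem ind_neg {P : Prop} (h : ¬ P) : ind P = 0 := if_neg h

theorem ind_nonneg (P : Prop) : 0 ≤ ind P := by unfold ind; split_ifs <;> norm_num

theorem ind_le_one (P : Prop) : ind P ≤ 1 := by unfold ind; split_ifs <;> norm_num

theorem abs_ind (P : Prop) : |ind P| ≤ 1 := by
  rw [abs_of_nonneg (ind_nonneg P)]; exact ind_le_one P

variable {ι : Type} [Fintype ι]

/-- mass of a set of points -/
noncomputable def ms (T : Tri ι) (E : (ι → ℤ) → Prop) : ℝ := ∑' z, T.wgt z * ind (E z)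

theorem ms_nonneg (T : Tri ι) (E : (ι → ℤ) → Prop) : 0 ≤ ms T E :=
  tsum_nonneg fun z => mul_nonneg (T.wgt_nonneg z) (ind_nonneg _)

theorem summable_ind (T : Tri ι) (E : (ι → ℤ) → Prop) : Summable fun z => T.wgt z * ind (E z) :=
  T.summable_mul_real fun _ => abs_ind _

theorem ms_union (T : Tri ι) {α : Type} (s : Finset α) {E0 : (ι → ℤ) → Prop}
    (E : α → (ι → ℤ) → Prop) (h : ∀ z, E0 z → ∃ a ∈ s, E a z) :
    ms T E0 ≤ ∑ a ∈ s, ms T (E a) := by
  unfold ms
  rw [← Summable.tsum_finsetSum fun a _ => summable_ind T (E a)]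
  refine (summable_ind T E0).tsum_le_tsum (fun z => ?_)
    (summable_sum fun a _ => summable_ind T (E a))
  rw [← Finset.mul_sum]
  refine mul_le_mul_of_nonneg_left ?_ (T.wgt_nonneg z)
  by_cases h0 : E0 z
  · obtain ⟨a, ha, hz⟩ := h z h0
    rw [ind_pos h0, ← ind_pos hz]
    exact Finset.single_le_sum (f := fun a => ind (E a z)) (fun _ _ => ind_nonneg _) ha
  · rw [ind_neg h0]
    exact Finset.sum_nonneg fun _ _ => ind_nonneg _

theorem ms_or (T : Tri ι) {E0 E1 E2 : (ι → ℤ) → Prop} (h : ∀ z, E0 z → E1 z ∨ E2 z) :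
    ms T E0 ≤ ms T E1 + ms T E2 := by
  have := ms_union T Finset.univ (fun b : Bool => if b then E1 else E2) (E0 := E0) fun z hz => by
    rcases h z hz with h | h
    exacts [⟨true, Finset.mem_univ _, h⟩, ⟨false, Finset.mem_univ _, h⟩]
  simpa using this

/-- crude marginal bound -/
theorem ms_marg (T : Tri ι) {p : ι → Prop} [Fintype {c // p c}] [Fintype {c // ¬ p c}]
    (hp : T.Closed p) (E : ({c // p c} → ℤ) → Prop) {β : ℝ}
    (h : ms (T.sub p) E ≤ β * (T.sub p).mu) :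
    ms T (fun z => E fun c => z c.1) ≤ (∏ c : {c // ¬ p c}, (1 + |T.a c.1|)) * β * T.mu := by
  have hK : ∏ c : {c // ¬ p c}, (1 + |T.a c.1|⁻¹) =
      (∏ c : {c // ¬ p c}, (1 + |T.a c.1|)) * ∏ c : {c // ¬ p c}, |T.a c.1|⁻¹ := by
    rw [← Finset.prod_mul_distrib]
    refine Finset.prod_congr rfl fun c _ => ?_
    have := abs_pos.2 (T.a_ne c.1)
    field_simp
    ring
  have hK0 : 0 ≤ ∏ c : {c // ¬ p c}, (1 + |T.a c.1|⁻¹) :=
    Finset.prod_nonneg fun _ _ => by positivity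
  unfold ms
  rw [hp.fubini_base_real (g := fun x => ind (E x)) fun _ => abs_ind _]
  calc _ ≤ ∑' x, (∏ c : {c // ¬ p c}, (1 + |T.a c.1|⁻¹)) * ((T.sub p).wgt x * ind (E x)) := by
        refine Summable.tsum_le_tsum (fun x => ?_) ((T.sub p).summable_mul_real
          (K := ∏ c : {c // ¬ p c}, (1 + |T.a c.1|⁻¹)) fun x => ?_)
          ((summable_ind _ E).mul_left _)
        · rw [mul_left_comm (∏ c : {c // ¬ p c}, (1 + |T.a c.1|⁻¹))]
          exact mul_le_mul_of_nonneg_left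
            (mul_le_mul_of_nonneg_right (T.fib_M_le x) (ind_nonneg _)) (Tri.wgt_nonneg _ x)
        · rw [abs_mul]
          exact (mul_le_mul (T.abs_fib_M_le x) (abs_ind _) (abs_nonneg _) hK0).trans_eq (mul_one _)
    _ ≤ (∏ c : {c // ¬ p c}, (1 + |T.a c.1|⁻¹)) * (β * (T.sub p).mu) := by
        rw [tsum_mul_left]
        exact mul_le_mul_of_nonneg_left h hK0
    _ = _ := by rw [hK, T.mu_split (p := p)]; ring

theorem norm_S_neg (T : Tri ι) (F : Pl ι) : ‖T.S (-F)‖ = ‖T.S F‖ := by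
  have : T.S (-F) = (starRingEnd ℂ) (T.S F) := by
    rw [Tri.S, Tri.S, Complex.conj_tsum]
    exact tsum_congr fun z => by rw [ev_neg, ee_neg, map_mul, Complex.conj_ofReal]
  rw [this, Complex.norm_conj]

/-- concentration near the integers forces a biased multiple -/
theorem fejer (T : Tri ι) (G : Pl ι) (E : (ι → ℤ) → Prop) (K : ℕ) {δ σ : ℝ}
    (hE : ∀ z, E z → ∃ n : ℤ, |ev z G - n| ≤ δ) (hK : K * δ ≤ 1 / 16) (hσ : 0 ≤ σ)
    (hS : ∀ k : ℕ, 1 ≤ k → k ≤ K → ‖T.S (C (k : ℝ) * G)‖ ≤ σ) :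
    (K : ℝ) ^ 2 / 4 * ms T E ≤ K * T.M + K ^ 2 * σ := by
  classical
  set Dk : (ι → ℤ) → ℂ := fun z => ∑ k ∈ Finset.range K, ee (k * ev z G) with hD
  have hb : ∀ z, ‖Dk z‖ ≤ K := fun z => (norm_sum_le _ _).trans (by simp)
  have h1 : ∀ z, (K : ℝ) ^ 2 / 4 * ind (E z) ≤ ‖Dk z‖ ^ 2 := by
    intro z
    by_cases hz : E z
    · obtain ⟨n, hn⟩ := hE z hz
      have hδ : 0 ≤ δ := (abs_nonneg _).trans hn
      have h2 : ‖Dk z - K‖ ≤ K / 2 := by
        have e : Dk z - K = ∑ k ∈ Finset.range K, (ee (k * (ev z G - n)) - 1) := by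
          rw [Finset.sum_sub_distrib, hD]
          simp only [Finset.sum_const, Finset.card_range, nsmul_eq_mul, mul_one]
          congr 1
          refine Finset.sum_congr rfl fun k _ => ?_
          rw [mul_sub, ← ee_sub_int (k * ev z G) (k * n)]
          push_cast
          rfl
        rw [e]
        refine (norm_sum_le _ _).trans ((Finset.sum_le_card_nsmul _ _ (1 / 2) fun k hk => ?_).trans ?_)
        · refine (norm_ee_sub_one_le _).trans ?_
          have h3 : (k : ℝ) ≤ K := by exact_mod_cast (Finset.mem_range.1 hk).le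
          have h4 : |(k : ℝ) * (ev z G - n)| ≤ 1 / 16 := by
            rw [abs_mul, Nat.abs_cast]
            exact (mul_le_mul h3 hn (abs_nonneg _) (Nat.cast_nonneg _)).trans hK
          nlinarith [Real.pi_lt_four, Real.pi_pos, abs_nonneg ((k : ℝ) * (ev z G - n))]
        · simp only [Finset.card_range, nsmul_eq_mul]; linarith
      have h3 : (K : ℝ) / 2 ≤ ‖Dk z‖ := by
        have := norm_sub_norm_le (K : ℂ) (Dk z)
        rw [norm_sub_rev, Complex.norm_natCast] at this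
        linarith
      rw [ind_pos hz]
      nlinarith [Nat.cast_nonneg (α := ℝ) K]
    · rw [ind_neg hz, mul_zero]; positivity
  have h2 : ∀ z, ((‖Dk z‖ ^ 2 : ℝ) : ℂ) = ∑ k ∈ Finset.range K, ∑ k' ∈ Finset.range K,
      ee (ev z (C ((k : ℝ) - k') * G)) := by
    intro z
    rw [← Complex.normSq_eq_norm_sq, ← Complex.mul_conj, hD]
    simp only [map_sum, Finset.sum_mul_sum]
    refine Finset.sum_congr rfl fun k _ => Finset.sum_congr rfl fun k' _ => ?_
    rw [← ee_sub, ev_mul, ev_C, sub_mul]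
  have h3 : ∑' z, T.wgt z * ‖Dk z‖ ^ 2 ≤ K * T.M + K ^ 2 * σ := by
    refine (le_abs_self _).trans ?_
    rw [← Real.norm_eq_abs, ← Complex.norm_real, T.ofReal_tsum_mul]
    simp only [h2, Finset.mul_sum]
    rw [Summable.tsum_finsetSum fun k _ => summable_sum fun k' _ => T.summable_S _]
    refine (norm_sum_le _ _).trans ((Finset.sum_le_card_nsmul _ _ (T.M + K * σ)
      fun k hk => ?_).trans (le_of_eq ?_))
    · rw [Summable.tsum_finsetSum fun k' _ => T.summable_S _]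
      refine (norm_sum_le _ _).trans ((Finset.sum_le_sum (g := fun k' =>
        (if k' = k then T.M else 0) + σ) fun k' hk' => ?_).trans ?_)
      · show ‖T.S (C ((k : ℝ) - k') * G)‖ ≤ _
        have hk1 := Finset.mem_range.1 hk
        have hk2 := Finset.mem_range.1 hk'
        rcases lt_trichotomy k' k with h | h | h
        · rw [if_neg h.ne, zero_add, ← Nat.cast_sub h.le]
          exact hS _ (by omega) (by omega)
        · rw [if_pos h]
          linarith [T.norm_S_le (C ((k : ℝ) - k') * G)]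
        · rw [if_neg h.ne', zero_add, ← norm_S_neg, ← neg_mul, ← map_neg, neg_sub,
            ← Nat.cast_sub h.le]
          exact hS _ (by omega) (by omega)
      · rw [Finset.sum_add_distrib, Finset.sum_ite_eq', if_pos hk]
        simp
    · simp only [Finset.card_range, nsmul_eq_mul]; ring
  refine le_trans ?_ h3
  rw [ms, ← tsum_mul_left]
  refine ((summable_ind T E).mul_left _).tsum_le_tsum (fun z => ?_)
    (T.summable_mul_real (K := (K : ℝ) ^ 2) fun z => ?_)
  · rw [mul_left_comm]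
    exact mul_le_mul_of_nonneg_left (h1 z) (T.wgt_nonneg z)
  · rw [abs_of_nonneg (sq_nonneg _)]
    exact pow_le_pow_left₀ (norm_nonneg _) (hb z) 2

/-- Gaussian tail -/
theorem tail (T : Cell ι) {R : ℝ} (hR : 0 ≤ R) :
    ms T.toTri (fun z => ¬ ∀ c, |ev z (T.th c)| ≤ R) ≤
      Real.exp (-(2 * R ^ 2)) * (T.aff (fun _ => 1 / 2) (fun _ => by norm_num) 0).M := by
  rw [ms, Tri.M, ← tsum_mul_left]
  refine (summable_ind _ _).tsum_le_tsum (fun z => ?_) ((Tri.summable_wgt _).mul_left _)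
  by_cases h : ∀ c, |ev z (T.th c)| ≤ R
  · rw [ind_neg (not_not.2 h), mul_zero]
    exact mul_nonneg (Real.exp_pos _).le (Tri.wgt_nonneg _ _)
  · rw [ind_pos h, mul_one, Tri.wgt, Tri.wgt, ← Real.exp_add, Real.exp_le_exp]
    push Not at h
    obtain ⟨c, hc⟩ := h
    have h1 : R ^ 2 ≤ ∑ c, ev z (T.th c) ^ 2 := by
      refine le_trans ?_ (Finset.single_le_sum (f := fun c => ev z (T.th c) ^ 2)
        (fun _ _ => sq_nonneg _) (Finset.mem_univ c))
      rw [← sq_abs (ev z _)]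
      exact pow_le_pow_left₀ hR hc.le 2
    have h2 : ∑ c, ev z ((T.aff (fun _ => 1 / 2) (fun _ => by norm_num) 0).th c) ^ 2 =
        (∑ c, ev z (T.th c) ^ 2) / 4 := by
      rw [Finset.sum_div]
      refine Finset.sum_congr rfl fun c _ => ?_
      rw [Cell.aff_ev]; simp only [Pi.zero_apply]; ring
    rw [h2]
    nlinarith [Real.pi_gt_three, sq_nonneg R]

theorem exp_ge {t : ℝ} (ht : 7 ≤ t) : 128 ≤ Real.exp t := by
  calc (128 : ℝ) = 2 ^ 7 := by norm_num
    _ ≤ Real.exp 1 ^ 7 := pow_le_pow_left₀ (by norm_num) (by linarith [Real.add_one_le_exp 1]) _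
    _ ≤ _ := by rw [← Real.exp_nat_mul, Real.exp_le_exp]; push_cast; linarith

/-- a dense set of base points over which `G` is nearly integral forces a biased multiple -/
theorem bias (Y : Cell ι) {q : ι → Prop} [DecidablePred q] {wt : ι → ℕ} (hc : Y.Clo q)
    (h0 : ∀ c, ¬ q c → 0 < wt c) (hq : ∀ c, q c → wt c = 0)
    (hh : ∀ c, ¬ q c → IsWeightedHomogeneous wt (Y.B c) (wt c)) {s : ℕ} (hs : ∀ c, Y.lev c ≤ s)
    {t : ℝ} (ht : 7 ≤ t) (hn : (Fintype.card ι : ℝ) + 3 ≤ t)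
    (hA : Y.AllPC (s + 4) (Real.exp (-(3 * t)))) (G : Pl ι) (E : ({c // q c} → ℤ) → Prop)
    (hE : ∀ z, E (fun c => z c.1) → (∀ c, |ev z (Y.th c)| ≤ t) →
      ∃ n : ℤ, |ev z G - n| ≤ Real.exp (-(3 * t)))
    (hm : Real.exp (-t) * (Y.toTri.frz q).mu ≤ ms (Y.toTri.frz q) E) :
    ∃ k : ℕ, 1 ≤ k ∧ (k : ℝ) ≤ Real.exp (2 * t) ∧
      Real.exp (-(2 * t)) * Y.mu ≤ ‖Y.S (C (k : ℝ) * G)‖ := by
  have hs0 : (0 : ℝ) ≤ s := Nat.cast_nonneg s
  have he := exp_ge ht
  set β := Real.exp (-t) with hβ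
  have hβ0 : 0 < β := Real.exp_pos _
  have hβe : β * Real.exp t = 1 := by rw [hβ, ← Real.exp_add]; simp
  have hβ1 : β ≤ 1 / 128 := by rw [le_div_iff₀ (by norm_num)]; nlinarith
  have e2 : Real.exp (-(2 * t)) = β ^ 2 := by rw [hβ, ← Real.exp_nat_mul]; congr 1; push_cast; ring
  have e3 : Real.exp (-(3 * t)) = β ^ 3 := by rw [hβ, ← Real.exp_nat_mul]; congr 1; push_cast; ring
  have e4 : Real.exp (2 * t) = Real.exp t ^ 2 := by
    rw [← Real.exp_nat_mul]; congr 1
  rw [e3] at hA hE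
  have hβ3 : β ^ 3 ≤ β ^ 2 / 128 := by nlinarith [pow_pos hβ0 2]
  have hβ2 : β ^ 2 ≤ β / 128 := by nlinarith
  have m0 := abs_le.1 (Cell.allPC_self hA (by linarith))
  have m1 := abs_le.1 (hA _ _ _ ((Cell.pc_frz Y hc).mono (by linarith)))
  have m2 := abs_le.1 (hA _ _ _ (Cell.pc_dbl Y h0 hq hh hs))
  have m3 := abs_le.1 (hA _ _ _ ((Cell.pc_aff (r := fun _ => 1 / 2) (fun _ => by norm_num) 0 Y
    le_rfl (fun _ => by norm_num [abs_of_pos]) hs (x := 1) (by simp) (by simp)).mono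
    (by linarith)))
  have hmu := Y.toTri.mu_pos
  have hmu1 := (Y.toTri.frz q).mu_pos
  have hF := fibStmt ι Y.toTri q hc (fun x => (ind (E x) : ℂ)) fun x => by
    rw [Complex.norm_real]; exact abs_ind _
  rw [← Y.toTri.ofReal_tsum_mul fun z => ind (E fun c => z c.1),
    ← (Y.toTri.frz q).ofReal_tsum_mul fun x => ind (E x), ← Complex.ofReal_div,
    ← Complex.ofReal_div, ← Complex.ofReal_sub, Complex.norm_real, Real.norm_eq_abs] at hF
  change |ms Y.toTri (fun z => E fun c => z c.1) / Y.mu -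
    ms (Y.toTri.frz q) E / (Y.toTri.frz q).mu| ^ 2 ≤ (Y.frz q).M / (Y.frz q).mu *
    ((Y.dbl q).M / (Y.dbl q).mu - 2 * (Y.M / Y.mu) + (Y.frz q).M / (Y.frz q).mu) at hF
  have hF1 : |ms Y.toTri (fun z => E fun c => z c.1) / Y.mu -
      ms (Y.toTri.frz q) E / (Y.toTri.frz q).mu| ≤ β / 4 := by
    refine le_of_sq_le_sq (hF.trans ?_) (by positivity)
    have h1 : 0 ≤ (Y.frz q).M / (Y.frz q).mu := by nlinarith
    calc _ ≤ (Y.frz q).M / (Y.frz q).mu * (4 * β ^ 3) :=
          mul_le_mul_of_nonneg_left (by linarith) h1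
      _ ≤ 2 * (4 * β ^ 3) := mul_le_mul_of_nonneg_right (by nlinarith) (by positivity)
      _ ≤ _ := by nlinarith
  have hF2 : 3 * β / 4 * Y.mu ≤ ms Y.toTri fun z => E fun c => z c.1 := by
    rw [← le_div_iff₀ hmu]
    rw [← le_div_iff₀ hmu1] at hm
    linarith [(abs_le.1 hF1).1]
  have hT : ms Y.toTri (fun z => ¬ ∀ c, |ev z (Y.th c)| ≤ t) ≤ β / 4 * Y.mu := by
    refine (tail Y (by linarith)).trans ?_
    have h1 : (Y.aff (fun _ => 1 / 2) (fun _ => by norm_num) 0).M ≤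
        2 * (2 ^ Fintype.card ι * Y.mu) := by
      have h2 := (Y.aff (fun _ => 1 / 2) (fun _ => by norm_num) 0).toTri.mu_pos
      have h3 : (Y.aff (fun _ => 1 / 2) (fun _ => by norm_num) 0).mu =
          2 ^ Fintype.card ι * Y.mu := by
        rw [Cell.aff_mu]; norm_num [abs_of_pos]
      rw [← h3, ← div_le_iff₀ h2]
      nlinarith
    have h2 : (2 : ℝ) ^ (Fintype.card ι + 3) ≤ Real.exp t := by
      calc _ ≤ Real.exp 1 ^ (Fintype.card ι + 3) :=
            pow_le_pow_left₀ (by norm_num) (by linarith [Real.add_one_le_exp 1]) _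
        _ ≤ _ := by rw [← Real.exp_nat_mul, Real.exp_le_exp]; push_cast; linarith
    have h3 : Real.exp (-(2 * t ^ 2)) ≤ β ^ 2 := by
      rw [← e2, Real.exp_le_exp]; nlinarith
    rw [pow_add] at h2
    have h4 : β * 2 ^ Fintype.card ι ≤ 1 / 8 := by nlinarith
    calc _ ≤ β ^ 2 * (2 * (2 ^ Fintype.card ι * Y.mu)) :=
          mul_le_mul h3 h1 (Tri.M_nonneg _) (by positivity)
      _ = 2 * (β * 2 ^ Fintype.card ι) * (β * Y.mu) := by ring
      _ ≤ 2 * (1 / 8) * (β * Y.mu) := by gcongr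
      _ = _ := by ring
  have hE1 : β / 2 * Y.mu ≤ ms Y.toTri fun z => E (fun c => z c.1) ∧ ∀ c, |ev z (Y.th c)| ≤ t := by
    have := ms_or Y.toTri (E0 := fun z => E fun c => z c.1)
      (E1 := fun z => E (fun c => z c.1) ∧ ∀ c, |ev z (Y.th c)| ≤ t)
      (E2 := fun z => ¬ ∀ c, |ev z (Y.th c)| ≤ t) fun z hz => by tauto
    linarith
  by_contra hcon
  push Not at hcon
  set K := ⌈32 * Real.exp t⌉₊ with hK
  have hK1 : 32 * Real.exp t ≤ K := Nat.le_ceil _
  have hK2 : (K : ℝ) ≤ Real.exp t ^ 2 := by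
    have := (Nat.ceil_lt_add_one (show 0 ≤ 32 * Real.exp t by positivity)).le
    nlinarith
  have hK0 : (0 : ℝ) < K := by nlinarith
  have hfe := fejer Y.toTri G (fun z => E (fun c => z c.1) ∧ ∀ c, |ev z (Y.th c)| ≤ t) K
    (σ := β ^ 2 * Y.mu) (fun z hz => hE z hz.1 hz.2)
    (by
      calc (K : ℝ) * β ^ 3 ≤ Real.exp t ^ 2 * β ^ 3 := by gcongr
        _ = (β * Real.exp t) ^ 2 * β := by ring
        _ ≤ _ := by rw [hβe]; linarith)
    (by positivity) fun k h1 h2 => by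
      rw [← e2]
      exact (hcon k h1 (by rw [e4]; exact le_trans (by exact_mod_cast h2) hK2)).le
  have hM : Y.M ≤ 2 * Y.mu := by rw [← div_le_iff₀ hmu]; nlinarith
  have h5 : (K : ℝ) ^ 2 / 4 * (β / 2 * Y.mu) ≤ K * (2 * Y.mu) + K ^ 2 * (β / 128 * Y.mu) := by
    refine le_trans (mul_le_mul_of_nonneg_left hE1 (by positivity)) (hfe.trans ?_)
    gcongr
  have h6 : 32 ≤ K * β := by nlinarith
  have h7 : 0 < K * Y.mu := mul_pos hK0 hmu
  nlinarith [mul_le_mul_of_nonneg_right h6 h7.le]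

omit [Fintype ι] in
/-- a homogeneous form is small at a small point -/
theorem eval_small {w : ι → ℕ} {e : Pl ι} {d : ℕ} (he : IsWeightedHomogeneous w e d) (hd : 0 < d)
    {s : Set ι} (hs : e ∈ supported ℝ s) {x : ι → ℝ} {ρ : ℝ} (h0 : 0 ≤ ρ) (h1 : ρ ≤ 1)
    (hx : ∀ c ∈ s, |x c| ≤ ρ ^ w c) : |eval x e| ≤ nrm e * ρ := by
  classical
  rw [eval_eq, nrm, Finset.sum_mul]
  refine (Finset.abs_sum_le_sum_abs _ _).trans (Finset.sum_le_sum fun m hm => ?_)
  rw [abs_mul]
  refine mul_le_mul_of_nonneg_left ?_ (abs_nonneg _)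
  have hw : Finsupp.weight w m = d := he (mem_support_iff.1 hm)
  calc _ ≤ ∏ i ∈ m.support, ρ ^ (m i • w i) := by
        rw [Finset.abs_prod]
        refine Finset.prod_le_prod (fun _ _ => abs_nonneg _) fun i hi => ?_
        rw [abs_pow, smul_eq_mul, mul_comm, pow_mul]
        exact pow_le_pow_left₀ (abs_nonneg _) (hx i (Asm.mem_supported_iff.1 hs m hm i hi)) _
    _ = ρ ^ d := by rw [Finset.prod_pow_eq_pow_sum, ← hw, Finsupp.weight_apply, Finsupp.sum]
    _ ≤ ρ := by simpa using pow_le_pow_of_le_one h0 h1 hd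

end Her

end Crest.Agent.T49.Tw
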