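import Crest.Agent.T49.MxHer_53
import Crest.Agent.T49.Mx_91

/-!
# Row 49: heredity, unconditional; transport of regularity along bijections (helper53)
-/

set_option autoImplicit false

open MvPolynomial

namespace Crest.Agent.T49.Tw

theorem heredStmt : HeredStmt := hered_of allDerMStmt dapCStmt

namespace Cell
variable {ι κ : Type} [Fintype ι] [Fintype κ] {T : Cell ι} {T' : Cell κ}

/-- matching top windows along a bijection give a diagonal cover -/
theorem dcov_equiv (e : ι ≃ κ) (h1 : ∀ c, T'.lev (e c) = T.lev c)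
    (h2 : ∀ c, T'.tth (e c) = rename e (T.tth c)) : T.DCov T' e.symm 1 := by
  classical
  refine dcov_of_diag (α := Unit) (fun c => by rw [← h1, e.apply_symm_apply]) (fun _ _ => 1)
    (fun _ _ => 1) (by simp) (fun _ c => ?_) fun ξ hξ => ?_
  · obtain ⟨c, rfl⟩ := e.surjective c
    simp only [Int.cast_one, C_1, one_mul]
    rw [← rename_eq_bind, h2, rename_rename, e.symm_apply_apply]
    simp
  · funext c
    have := hξ () (e.symm c)
    rw [Finset.sum_eq_single c (fun c' _ hc => by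
      rw [if_neg fun h => hc (e.symm.injective h).symm, mul_zero]) (by simp)] at this
    simpa using this

theorem regAtM_equiv (e : ι ≃ κ) (h1 : ∀ c, T'.lev (e c) = T.lev c)
    (h2 : ∀ c, T'.tth (e c) = rename e (T.tth c)) {cl : ι → ℕ} {cl' : κ → ℕ}
    (h3 : ∀ c, cl' (e c) = cl c) (hm : T'.IsMC cl') {j : ℕ} {H Λ : ℝ} (h : T.RegAtM cl j H Λ) :
    T'.RegAtM cl' j H Λ := by
  obtain rfl : cl' = cl ∘ e.symm := funext fun c => by
    rw [Function.comp_apply, ← h3, e.apply_symm_apply]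
  have := ((dcov_equiv e h1 h2).covM cl).regAtM hm le_rfl (l := Finset.univ.sup T'.lev)
    (fun c => Finset.le_sup (Finset.mem_univ c)) (x := 0) (by simp) h
  rwa [neg_zero, Real.exp_zero, mul_one, mul_one] at this

theorem kapM_equiv (e : ι ≃ κ) (h4 : ∀ c, |T'.a (e c)| = |T.a c|) {cl : ι → ℕ} {cl' : κ → ℕ}
    (h3 : ∀ c, cl' (e c) = cl c) (j : ℕ) : T'.kapM cl' j = T.kapM cl j := by
  rw [kapM_eq, kapM_eq, ← e.sum_comp]
  simp only [h3, h4]

/-- transport of regularity along a bijection of the coordinates (only the top windows matter) -/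
theorem regM_equiv (e : ι ≃ κ) (h1 : ∀ c, T'.lev (e c) = T.lev c)
    (h2 : ∀ c, T'.tth (e c) = rename e (T.tth c)) {cl : ι → ℕ} {cl' : κ → ℕ}
    (h3 : ∀ c, cl' (e c) = cl c) (h4 : ∀ c, |T'.a (e c)| = |T.a c|) (hm : T'.IsMC cl')
    {D l : ℕ} {τ : ℕ → ℝ} (h : T.RegM cl D l τ) : T'.RegM cl' D l τ := fun j k1 k2 => by
  rw [kapM_equiv e h4 h3]
  exact ⟨(h j k1 k2).1, regAtM_equiv e h1 h2 h3 hm (h j k1 k2).2⟩

end Cell

end Crest.Agent.T49.Tw
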