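import Crest.Agent.T49.MxHerA_53

/-!
# Row 49: heredity of regularity for mixed cells (helper53)
-/

set_option autoImplicit false
set_option linter.unusedSectionVars false

open MvPolynomial

namespace Crest.Agent.T49.Tw

open Cell

theorem Tri.sum_split' {ι M : Type} [Fintype ι] [AddCommMonoid M] {p : ι → Prop}
    [Fintype {c // p c}] [Fintype {c // ¬ p c}] (g : ι → M) :
    ∑ c, g c = ∑ c : {c // p c}, g c.1 + ∑ c : {c // ¬ p c}, g c.1 := by
  classical
  convert (Fintype.sum_subtype_add_sum_subtype p g).symm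

namespace Her

variable {ι : Type} [Fintype ι]

/-- `DAPCStmt` for all degrees `≤ s` with one exponent -/
def Dap (s D : ℕ) : Prop := ∀ d, d + 1 ≤ s → ∀ (ι : Type) [Fintype ι] (T : Cell ι)
  (F : Pl ι) (y : ℝ), (∀ c, T.lev c ≤ s) → DegLe T.lev F (d + 1) →
  Real.log (Fintype.card ι + 2) + 2 ≤ y → T.AllPC (D * y) (Real.exp (-(D * y))) →
  Real.exp (-y) * T.mu ≤ ‖T.S F‖ →
  ∃ (b : ℕ) (e : Pl ι), 1 ≤ b ∧ (b : ℝ) ≤ Real.exp (D * y) ∧
    IsWeightedHomogeneous T.lev e (d + 1) ∧ nrm e ≤ Real.exp (D * y) ∧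
    IsInt (C (b : ℝ) * T.top (d + 1) F - T.TTh e)

theorem exists_dap (hP : DAPCStmt) (s : ℕ) : ∃ D, Dap s D := by
  choose D hD using hP s
  refine ⟨∑ d ∈ Finset.range s, D d, fun d hd ι _ T F y h1 h2 h3 h4 h5 => ?_⟩
  have hy : 0 ≤ y := by
    linarith [Real.log_nonneg (show (1 : ℝ) ≤ Fintype.card ι + 2 by
      linarith [Nat.cast_nonneg (α := ℝ) (Fintype.card ι)])]
  have h6 : (D d : ℝ) * y ≤ (∑ d ∈ Finset.range s, D d : ℕ) * y :=
    mul_le_mul_of_nonneg_right (by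
      exact_mod_cast Finset.single_le_sum (f := D) (fun _ _ => Nat.zero_le _)
        (Finset.mem_range.2 (by omega))) hy
  obtain ⟨b, e, k1, k2, k3, k4, k5⟩ := hD d ι T F y h1 h2 h3
    (allPC_mono h4 h6 (Real.exp_le_exp.2 (by linarith))) h5
  exact ⟨b, e, k1, k2.trans (Real.exp_le_exp.2 h6), k3, k4.trans (Real.exp_le_exp.2 h6), k5⟩

/-- over `x`, `G` is nearly integral at the points with small fibre windows -/
def Sm {κ : Type} (L : Cell κ) (q : κ → Prop) (wt : κ → ℕ) (G : Pl κ) (ρ δ : ℝ)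
    (x : {c // q c} → ℤ) : Prop :=
  ∀ z : κ → ℤ, (fun c : {c // q c} => z c.1) = x → (∀ c, ¬ q c → |ev z (L.th c)| ≤ ρ ^ wt c) →
    ∃ n : ℤ, |ev z G - n| ≤ δ

/-- the constant of the core lemma -/
def c3 (s D : ℕ) : ℕ := (5 * s * (s + 1) + 1) * (2 * D + s + 4) + (5 * s * (s + 1) + 1) +
  (2 * D + s + 4)

/-- a dense set of base points with small `G` gives a relation -/
theorem rel {s D : ℕ} (hP : Dap s D) (L : Cell ι) {q : ι → Prop} [DecidablePred q] {wt : ι → ℕ}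
    (hc : L.Clo q) (h0 : ∀ c, ¬ q c → 0 < wt c) (hq : ∀ c, q c → wt c = 0)
    (hh : ∀ c, ¬ q c → IsWeightedHomogeneous wt (L.B c) (wt c)) (hs : ∀ c, L.lev c ≤ s)
    (hw : ∀ c, wt c ≤ s) {t : ℝ} (ht : 7 ≤ t) (hn : (Fintype.card ι : ℝ) + 3 ≤ t)
    (hA : L.AllPC (c3 s D * t ^ 2) (Real.exp (-(c3 s D * t ^ 2)))) {G : Pl ι} {d : ℕ}
    (hd : d + 1 ≤ s) (hG : DegLe L.lev G (d + 1))
    (hm : Real.exp (-t) * (L.toTri.frz q).mu ≤
      ms (L.toTri.frz q) (Sm L q wt G (Real.exp (-(4 * t))) (Real.exp (-(3 * t))))) :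
    ∃ (b : ℕ) (e : Pl ι), 1 ≤ b ∧ (b : ℝ) ≤ Real.exp ((2 * D + 2) * t) ∧
      IsWeightedHomogeneous L.lev e (d + 1) ∧ nrm e ≤ Real.exp (c3 s D * t) ∧
      IsInt (C (b : ℝ) * L.top (d + 1) G - L.TTh e) := by
  have hs0 : (0 : ℝ) ≤ s := Nat.cast_nonneg s
  have hD0 : (0 : ℝ) ≤ D := Nat.cast_nonneg D
  have ht0 : 0 ≤ t := by linarith
  set r : ι → ℝ := fun c => Real.exp (5 * t * wt c) with hr
  have hr0 : ∀ c, r c ≠ 0 := fun c => (Real.exp_pos _).ne'
  have hr1 : ∀ c, |r c| ≤ Real.exp (5 * s * t) := fun c => by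
    rw [abs_of_pos (Real.exp_pos _), Real.exp_le_exp]
    have : (wt c : ℝ) ≤ s := by exact_mod_cast hw c
    nlinarith
  obtain ⟨c1, hc1⟩ : ∃ c1 : ℝ, c1 = 5 * s * (s + 1) + 1 := ⟨_, rfl⟩
  obtain ⟨c2, hc2⟩ : ∃ c2 : ℝ, c2 = 2 * D + s + 4 := ⟨_, rfl⟩
  have hc3 : (c3 s D : ℝ) = c1 * c2 + c1 + c2 := by rw [c3, hc1, hc2]; push_cast; ring
  have h1 : 1 ≤ c1 := by rw [hc1]; nlinarith
  have h2 : 4 ≤ c2 := by rw [hc2]; linarith
  have ht2 : t ≤ t ^ 2 := by nlinarith
  have p1 : c1 * t ≤ c1 * t ^ 2 := mul_le_mul_of_nonneg_left ht2 (by linarith)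
  have p2 : c2 * t ≤ c2 * t ^ 2 := mul_le_mul_of_nonneg_left ht2 (by linarith)
  have p3 : 0 ≤ c1 * c2 * t ^ 2 := by positivity
  have p4 : 0 ≤ c1 * t := by positivity
  have p5 : 0 ≤ s * t := by positivity
  have p6 : 0 ≤ D * t := by positivity
  have p7 : c2 * t = 2 * (D * t) + s * t + 4 * t := by rw [hc2]; ring
  set Y := L.aff r hr0 0 with hY
  have hpc : L.PC (c1 * t) Y id := pc_aff hr0 0 L (u := 5 * s * t) (by positivity) hr1 hs
    (by rw [hc1]; nlinarith) (by rw [hc1]; nlinarith)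
  have hAY : Y.AllPC (c2 * t) (Real.exp (-(c2 * t))) :=
    allPC_mono (allPC_pc hA hpc (by rw [hc3]; nlinarith) (by rw [hc3]; nlinarith)) le_rfl
      (Real.exp_le_exp.2 (by rw [hc3]; nlinarith))
  have hfrz : Y.toTri.frz q = L.toTri.frz q := by
    unfold Tri.frz
    congr 1
    · funext c; simp [hY, aff_a, hr, hq c.1 c.2]
    · funext c
      show dn q (C (r c.1) * L.B c.1 + C ((0 : ι → ℝ) c.1)) = _
      simp [hr, hq c.1 c.2]
  obtain ⟨k, k1, k2, k3⟩ := bias Y (aff_clo L hr0 0 hc) h0 hq (fun c h => by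
      show IsWeightedHomogeneous wt (C (r c) * L.B c + C ((0 : ι → ℝ) c)) _
      have := (isWeightedHomogeneous_C wt (r c)).mul (hh c h)
      simpa using this) hs ht hn
    (allPC_mono hAY (by nlinarith) (Real.exp_le_exp.2 (by linarith))) G
    (Sm L q wt G (Real.exp (-(4 * t))) (Real.exp (-(3 * t))))
    (fun z hz hz' => hz z rfl fun c h => by
      have h3 := hz' c
      rw [hY, aff_ev, Pi.zero_apply, add_zero, abs_mul, abs_of_pos (Real.exp_pos _),
        ← le_div_iff₀' (Real.exp_pos _)] at h3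
      refine h3.trans ?_
      have h4 : (1 : ℝ) ≤ wt c := by exact_mod_cast h0 c h
      rw [div_le_iff₀ (Real.exp_pos _), ← Real.exp_nat_mul, ← Real.exp_add]
      exact le_trans (by nlinarith) (Real.add_one_le_exp _))
    (by rw [hfrz]; exact hm)
  have hlog : Real.log (Fintype.card ι + 2) ≤ Fintype.card ι + 1 := by
    linarith [Real.log_le_sub_one_of_pos (show (0 : ℝ) < Fintype.card ι + 2 by positivity)]
  obtain ⟨b, e, b1, b2, e1, e2, e3⟩ := hP d hd ι Y (C (k : ℝ) * G) (2 * t) hs (hG.C_mul _)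
    (by linarith) (allPC_mono hAY (by linarith) (Real.exp_le_exp.2 (by linarith))) k3
  refine ⟨b * k, bind₁ (fun c => C (r c) * X c) e, Nat.mul_pos b1 k1, ?_, ?_, ?_, ?_⟩
  · push_cast
    calc (b : ℝ) * k ≤ Real.exp (D * (2 * t)) * Real.exp (2 * t) := by gcongr
      _ = _ := by rw [← Real.exp_add]; congr 1; ring
  · refine hom_bind (AddMonoidHom.id ℕ) (fun c => ?_) e1
    have := (isWeightedHomogeneous_C L.lev (r c)).mul (isWeightedHomogeneous_X ℝ L.lev c)
    rw [zero_add] at this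
    exact this
  · have h3 := Ch4.nrm_bind_le (g := fun c => (C (r c) * X c : Pl ι))
      (Real.one_le_exp (show 0 ≤ 5 * s * t by positivity)) (fun c => by simpa using hr1 c)
      L.lev_pos (Ch4.hom_degLe e1)
    refine h3.trans ?_
    have h4 : ((d + 1 : ℕ) : ℝ) ≤ s := by exact_mod_cast hd
    calc _ ≤ Real.exp (D * (2 * t)) * Real.exp (5 * s * t) ^ (d + 1) := by gcongr
      _ ≤ _ := by
        rw [← Real.exp_nat_mul, ← Real.exp_add, Real.exp_le_exp, hc3]
        have h5 := mul_le_mul_of_nonneg_right h4 (show 0 ≤ 5 * s * t by positivity)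
        have h6 : c1 * t = s * (5 * s * t) + 5 * (s * t) + t := by rw [hc1]; ring
        have h7 : 0 ≤ c1 * c2 * t := by positivity
        nlinarith
  · rw [hY, aff_TTh, top, Ch4.top_C_mul, ← mul_assoc, ← C_mul, ← Nat.cast_mul] at e3
    exact e3

omit [Fintype ι] in
theorem coeff_fb {cl : ι → ℕ} {f : Pl ι} {j : ℕ} (hf : MCP cl f j) {q : ι → Prop}
    (p : {c // q c} → ℤ) (c : {c // ¬ q c}) (hc : cl c.1 = j) :
    coeff (Finsupp.single c 1) (fb q p f) = coeff (Finsupp.single c.1 1) f := by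
  classical
  have h1 : f - C (coeff (Finsupp.single c.1 1) f) * X c.1 ∈ supported ℝ {c' | c' ≠ c.1} := by
    refine Asm.mem_supported_iff.2 fun m hm c' hc' h => ?_
    subst h
    rw [mem_support_iff, coeff_sub, coeff_C_mul, coeff_X] at hm
    by_cases h2 : Finsupp.single c.1 1 = m
    · subst h2; simp at hm
    · rw [if_neg h2, mul_zero, sub_zero] at hm
      rcases hf m (mem_support_iff.2 hm) _ hc' with h | h
      · omega
      · exact h2 h.2.symm
  have h2 : fb q p (f - C (coeff (Finsupp.single c.1 1) f) * X c.1) ∈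
      supported ℝ {c' | c' ≠ c} := by
    refine bind_mem_supported (fun c' hc' => ?_) h1
    split_ifs
    · exact C_mem_supp _ _
    · exact X_mem_supp fun h => hc' (congrArg Subtype.val h)
  have h3 : coeff (Finsupp.single c 1)
      (fb q p (f - C (coeff (Finsupp.single c.1 1) f) * X c.1)) = 0 := by
    by_contra h
    exact Asm.mem_supported_iff.1 h2 _ (mem_support_iff.2 h) c (by simp) rfl
  rw [map_sub, map_mul, fb_X_neg, coeff_sub, algHom_C, algebraMap_eq, coeff_C_mul] at h3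
  simpa [sub_eq_zero] using h3

section fibre
variable {T : Cell ι} {q : ι → Prop} {wt : ι → ℕ} {h0 : ∀ c, ¬ q c → 0 < wt c}
  {hq : ∀ c, q c → wt c = 0} {hd : ∀ c, ¬ q c → DegLe wt (T.B c) (wt c)} {cl : ι → ℕ}

omit [Fintype ι] in
theorem fibW_th (p : {c // q c} → ℤ) (c : {c // ¬ q c}) :
    (T.fibW q p wt h0 hq hd).th c = fb q p (T.th c.1) := T.toTri.fib_th q p c

omit [Fintype ι] in
theorem fibW_tth (hh : ∀ c, ¬ q c → IsWeightedHomogeneous wt (T.B c) (wt c))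
    (p : {c // q c} → ℤ) (c : {c // ¬ q c}) :
    (T.fibW q p wt h0 hq hd).tth c = fb q p (T.th c.1) := by
  rw [tth, top, fibW_th]
  refine Ch4.top_of_hom (hom_bind (AddMonoidHom.id ℕ) (fun c' => ?_) (th_hom (hh c.1 c.2)))
  split_ifs with h
  · rw [AddMonoidHom.id_apply, hq c' h]; exact isWeightedHomogeneous_C _ _
  · exact isWeightedHomogeneous_X ℝ _ (⟨c', h⟩ : {c // ¬ q c})

/-- a relation on a fibre gives a dual vector that is small over the low part of the base point -/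
theorem bad_sm [Fintype {c // ¬ q c}] (hm : T.IsMC cl)
    (hh : ∀ c, ¬ q c → IsWeightedHomogeneous wt (T.B c) (wt c)) (p : {c // q c} → ℤ) {i : ℕ}
    {H Λ ρ : ℝ} (hρ0 : 0 ≤ ρ) (hρ : ρ ≤ 1)
    (h : ¬ (T.fibW q p wt h0 hq hd).RegAtM (fun c => cl c.1) (i + 1) H Λ) :
    ∃ (ξ : ι → ℝ) (b : ℕ), T.DualF cl (i + 1) ξ ∧ ξ ≠ 0 ∧ ∑ c, |ξ c| ≤ H ∧ 1 ≤ b ∧ (b : ℝ) ≤ Λ ∧
      Sm (T.frz fun c => cl c ≤ i) (fun c => q c.1) (fun c => wt c.1)
        (C (b : ℝ) * dn _ (∑ c, C (ξ c) * T.th c)) ρ (Λ * ρ) fun c => p ⟨c.1.1, c.2⟩ := by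
  classical
  unfold RegAtM at h
  push Not at h
  obtain ⟨w, ξ, b, e, k1, k2, k3, k4, k5, k6, k7, k8, k9, k10⟩ := h
  set ξ' : ι → ℝ := fun c => if h : q c then 0 else ξ ⟨c, h⟩ with hξ'
  have hv : ∀ c : {c // ¬ q c}, ξ' c.1 = ξ c := fun c => dif_neg c.2
  have hsum : ∀ {M : Type} [AddCommMonoid M] (φ : ℝ → ι → M), (∀ c, φ 0 c = 0) →
      ∑ c, φ (ξ' c) c = ∑ c : {c // ¬ q c}, φ (ξ c) c.1 := by
    intro M _ φ h1
    rw [Tri.sum_split' (p := q), Finset.sum_eq_zero fun c _ => by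
      rw [show ξ' c.1 = 0 from dif_pos c.2, h1], zero_add]
    simp only [hv]
  have hF : ∑ c, C (ξ' c) * T.th c = ∑ c : {c // ¬ q c}, C (ξ c) * T.th c.1 :=
    hsum (fun r c => C r * T.th c) (by simp)
  have hdot : (T.fibW q p wt h0 hq hd).dotT ξ = fb q p (∑ c, C (ξ' c) * T.th c) := by
    rw [hF, dotT, map_sum]
    exact Finset.sum_congr rfl fun c _ => by rw [fibW_tth hh, map_mul, algHom_C, algebraMap_eq]
  have hmc : MCP cl (∑ c, C (ξ' c) * T.th c) (i + 1) := by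
    rw [hF]
    refine MCP.sum _ fun c _ => ?_
    by_cases h : cl c.1 = i + 1
    · exact (h ▸ hm.th c.1).C_mul _
    · rw [k1.1 c h, C_0, zero_mul]; exact MCP.zero
  have hw0 : 0 < w := by
    obtain ⟨c, hc⟩ := Function.ne_iff.1 k10
    have : wt c.1 = w := by
      by_contra h; exact hc (k2 c h)
    exact this ▸ h0 c.1 c.2
  have hhom : IsWeightedHomogeneous wt (∑ c, C (ξ' c) * T.th c) w := by
    rw [hF]
    refine IsWeightedHomogeneous.sum _ _ _ fun c _ => ?_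
    by_cases h : wt c.1 = w
    · simpa [h] using (isWeightedHomogeneous_C wt (ξ c)).mul (th_hom (hh c.1 c.2))
    · rw [k2 c h, C_0, zero_mul]; exact isWeightedHomogeneous_zero _ _ _
  refine ⟨ξ', b, ⟨fun c hc => ?_, fun c hc => ?_⟩, fun h => k10 (funext fun c => ?_), ?_, k4, k5,
    fun z hz hz' => ?_⟩
  · by_cases h : q c
    · exact dif_pos h
    · exact (hv ⟨c, h⟩).trans (k1.1 ⟨c, h⟩ hc)
  · by_cases h : q c
    · refine ⟨0, ?_⟩
      rw [hhom.coeff_eq_zero _ (by rw [Finsupp.weight_single, hq c h]; simpa using hw0.ne),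
        Int.cast_zero]
    · obtain ⟨n, hn⟩ := k1.2 ⟨c, h⟩ hc
      exact ⟨n, by rw [← hn, hdot, coeff_fb hmc p ⟨c, h⟩ hc]⟩
  · rw [← hv, h]; rfl
  · rw [hsum (fun r _ => |r|) (by simp)]; exact k3
  · set u : {c // ¬ q c} → ℤ := fun c => if h : cl c.1 ≤ i then z ⟨c.1, h⟩ else 0 with hu
    have hz1 : ∀ c, cl c ≤ i ∨ ¬ q c →
        glue q p u c = glue (fun c => cl c ≤ i) z 0 c := by
      intro c hc
      by_cases h1 : cl c ≤ i
      · rw [glue_pos (p := fun c => cl c ≤ i) _ _ h1]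
        by_cases h2 : q c
        · rw [glue_pos _ _ h2]
          exact (congrFun hz ⟨⟨c, h1⟩, h2⟩).symm
        · rw [glue_neg _ _ h2]; exact dif_pos h1
      · rw [glue_neg (p := fun c => cl c ≤ i) _ _ h1, glue_neg _ _ (hc.resolve_left h1)]
        exact dif_neg h1
    obtain ⟨n, hn⟩ := k9.ev u
    have e1 : ev u ((T.fibW q p wt h0 hq hd).dotT ξ) =
        ev z (dn (fun c => cl c ≤ i) (∑ c, C (ξ' c) * T.th c)) := by
      rw [hdot, ev_fb, ev_dn_zero]
      refine ev_congr_supp (s := {c | cl c ≤ i ∨ ¬ q c})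
        (Asm.mem_supported_iff.2 fun m hm c hc => ?_) hz1
      rcases hmc m hm c hc with h | h
      · exact Or.inl (by omega)
      · refine Or.inr fun h' => ?_
        have := hhom (mem_support_iff.1 hm)
        rw [h.2, Finsupp.weight_single, hq c h'] at this
        simp at this
        omega
    have e2 : |ev u ((T.fibW q p wt h0 hq hd).TTh e)| ≤ Λ * ρ := by
      rw [TTh, ev_bind']
      refine (eval_small k6 hw0 k7 hρ0 hρ fun c hc => ?_).trans
        (mul_le_mul_of_nonneg_right k8 hρ0)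
      have hc' : cl c.1 ≤ i := Nat.lt_succ_iff.1 hc
      have := hz' ⟨c.1, hc'⟩ c.2
      rw [frz_th, ev_dn_zero] at this
      rw [fibW_tth hh, ev_fb, ev_congr_supp (s := {c | cl c ≤ i})
        (supported_mono (fun _ h => le_trans h hc') (hm.th c.1).supp)
        fun c hc => hz1 c (Or.inl hc)]
      exact this
    refine ⟨n, ?_⟩
    rw [ev_add, ev_mul, e1, ev_C] at hn
    rw [ev_mul, ev_C, ← hn, sub_add_cancel_left, abs_neg]
    exact e2

end fibre

/-- no dual vector of a regular class is small over a dense set of low base points -/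
theorem sm_rare {s D : ℕ} (hP : Dap s D) {T : Cell ι} {cl : ι → ℕ} (hm : T.IsMC cl)
    {q : ι → Prop} [DecidablePred q] {wt : ι → ℕ}
    (hc : T.Clo q) (h0 : ∀ c, ¬ q c → 0 < wt c) (hq : ∀ c, q c → wt c = 0)
    (hh : ∀ c, ¬ q c → IsWeightedHomogeneous wt (T.B c) (wt c)) (hs : ∀ c, T.lev c ≤ s)
    (hw : ∀ c, wt c ≤ s) {t : ℝ} (ht : 7 ≤ t) (hn : (Fintype.card ι : ℝ) + 3 ≤ t) {i : ℕ}
    (hA : (T.frz fun c => cl c ≤ i).AllPC (c3 s D * t ^ 2) (Real.exp (-(c3 s D * t ^ 2))))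
    {H Λ : ℝ} (hR : T.RegAtM cl (i + 1) H Λ) (hΛ : Real.exp (c3 s D * t) ≤ Λ)
    {ξ : ι → ℝ} {b : ℕ} (h1 : T.DualF cl (i + 1) ξ) (h2 : ξ ≠ 0) (h3 : ∑ c, |ξ c| ≤ H)
    (h4 : 1 ≤ b) (h5 : (b : ℝ) ≤ Real.exp t) :
    ms ((T.frz fun c => cl c ≤ i).toTri.frz fun c => q c.1)
      (Sm (T.frz fun c => cl c ≤ i) (fun c => q c.1) (fun c => wt c.1)
        (C (b : ℝ) * dn _ (∑ c, C (ξ c) * T.th c)) (Real.exp (-(4 * t))) (Real.exp (-(3 * t)))) ≤
      Real.exp (-t) * ((T.frz fun c => cl c ≤ i).toTri.frz fun c => q c.1).mu := by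
  classical
  by_contra hcon
  obtain ⟨c0, hc0, hmax⟩ := (Finset.univ.filter fun c => ξ c ≠ 0).exists_max_image T.lev (by
    obtain ⟨c, hc⟩ := Function.ne_iff.1 h2
    exact ⟨c, by simpa using hc⟩)
  have hc0' : ξ c0 ≠ 0 := by simpa using hc0
  have hv : ∀ c, ξ c ≠ 0 → T.lev c ≤ T.lev c0 := fun c hc => hmax c (by simpa using hc)
  obtain ⟨d, hd⟩ : ∃ d, T.lev c0 = d + 1 := ⟨T.lev c0 - 1, by have := T.lev_pos c0; omega⟩
  rw [hd] at hv
  have hdeg : DegLe T.lev (∑ c, C (ξ c) * T.th c) (d + 1) := by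
    refine degLe_sum fun c _ => ?_
    by_cases h : ξ c = 0
    · rw [h, C_0, zero_mul]; exact degLe_zero _
    · exact ((Asm.degLe_th T c).mono (hv c h)).C_mul _
  obtain ⟨b', e, b1, b2, e1, e2, e3⟩ := rel hP (T.frz fun c => cl c ≤ i) (q := fun c => q c.1)
    (wt := fun c => wt c.1)
    (fun c h => bind_mem_supported (fun c' hc' => by
      split_ifs
      · exact X_mem_supp hc'
      · exact zero_mem _) (hc c.1 h)) (fun c => h0 c.1) (fun c => hq c.1)
    (fun c h => hom_bind (AddMonoidHom.id ℕ) (fun c' => by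
      split_ifs with h'
      · exact isWeightedHomogeneous_X ℝ _ (⟨c', h'⟩ : {c // cl c ≤ i})
      · exact isWeightedHomogeneous_zero _ _ _) (hh c.1 h))
    (fun c => hs c.1) (fun c => hw c.1) ht (by linarith [MA.frz_card fun c => cl c ≤ i]) hA
    (hd ▸ hs c0) ((Asm.degLe_dn _ hdeg).C_mul _) (not_le.1 hcon).le
  rw [top, Ch4.top_C_mul, ← mul_assoc, ← C_mul, ← Nat.cast_mul] at e3
  have hz := hR (d + 1) _ (b' * b) (-rename Subtype.val e) (MA.dualM_of_dualF h1 hv)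
    (fun c hc => if_neg hc) ((MA.sum_wpart_le T _ ξ).trans h3) (Nat.mul_pos b1 h4) ?_
    ((weightedHomogeneousSubmodule ℝ T.lev (d + 1)).neg_mem (Asm.hom_rename _ _ e1))
    (neg_mem (Asm.rename_mem_supported Subtype.val (s := Set.univ)
      (by exact fun c _ => Nat.lt_succ_of_le (n := cl c.1) c.2) (by rw [supported_univ]; trivial)))
    (by rw [nrm_neg, Asm.nrm_rename Subtype.val_injective]; exact e2.trans hΛ)
    (MA.lift_relM hm h1 hv (b' * b) e3)
  · have := congrFun hz c0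
    rw [MA.wpart, if_pos hd] at this
    exact hc0' this
  · refine le_trans ?_ hΛ
    push_cast
    calc (b' : ℝ) * b ≤ Real.exp ((2 * D + 2) * t) * Real.exp t := by gcongr
      _ ≤ _ := by
        rw [← Real.exp_add, Real.exp_le_exp, c3]
        push_cast
        have : (0 : ℝ) ≤ s := Nat.cast_nonneg s
        have : (0 : ℝ) ≤ D := Nat.cast_nonneg D
        have h6 : (0 : ℝ) ≤ (5 * s * (s + 1) + 1) * (2 * D + s + 4) + (5 * s * (s + 1) + 1) + s := by
          positivity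
        nlinarith [mul_nonneg h6 (show 0 ≤ t by linarith)]

theorem prod_le_exp (T : Cell ι) {cl : ι → ℕ} {l i : ℕ} {u : ℝ} (hl : ∀ c, cl c ≤ l) (hu : 0 ≤ u)
    (h : ∀ j, i < j → j ≤ l → T.kapM cl j ≤ u) {κ : Type} [Fintype κ] (f : κ → ι)
    (hf : Function.Injective f) (hi : ∀ k, i < cl (f k)) :
    ∏ k, (1 + |T.a (f k)|) ≤ Real.exp (l * u) := by
  classical
  rw [← Finset.prod_congr rfl fun k _ => Real.exp_log (x := 1 + |T.a (f k)|) (by positivity),
    ← Real.exp_sum, Real.exp_le_exp]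
  set g : ℕ → ι → ℝ := fun j c => if cl c = j then 1 + Real.log (1 + |T.a c|) else 0 with hg
  have hg0 : ∀ j c, 0 ≤ g j c := fun j c => by
    simp only [hg]; split_ifs
    · linarith [one_le_term (T.a c)]
    · exact le_rfl
  calc _ ≤ ∑ k, ∑ j ∈ Finset.Ioc i l, g j (f k) := Finset.sum_le_sum fun k _ => by
        refine le_trans ?_ (Finset.single_le_sum (f := fun j => g j (f k)) (fun j _ => hg0 j _)
          (Finset.mem_Ioc.2 ⟨hi k, hl _⟩))
        simp [hg]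
    _ ≤ ∑ c, ∑ j ∈ Finset.Ioc i l, g j c := by
        rw [← Finset.sum_image (s := Finset.univ) (g := f)
          (f := fun c => ∑ j ∈ Finset.Ioc i l, g j c) fun _ _ _ _ h => hf h]
        exact Finset.sum_le_sum_of_subset_of_nonneg (Finset.subset_univ _)
          fun c _ _ => Finset.sum_nonneg fun j _ => hg0 j c
    _ ≤ (Finset.Ioc i l).card • u := by
        rw [Finset.sum_comm]
        refine Finset.sum_le_card_nsmul _ _ _ fun j hj => ?_
        have := h j (Finset.mem_Ioc.1 hj).1 (Finset.mem_Ioc.1 hj).2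
        rw [kapM_eq] at this
        simp only [hg]
        linarith
    _ ≤ _ := by
        rw [nsmul_eq_mul, Nat.card_Ioc]
        exact mul_le_mul_of_nonneg_right (by exact_mod_cast Nat.sub_le l i) hu

/-- pull-back of a rare set of low base points -/
theorem pull {T : Cell ι} {cl : ι → ℕ} (hm : T.IsMC cl) (q : ι → Prop) [DecidablePred q]
    {l i : ℕ} {u β : ℝ} (hl : ∀ c, cl c ≤ l) (hu : 0 ≤ u) (hβ : 0 ≤ β)
    (h : ∀ j, i < j → j ≤ l → T.kapM cl j ≤ u)
    (E : ({c : {c // cl c ≤ i} // q c.1} → ℤ) → Prop)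
    (hE : ms ((T.frz fun c => cl c ≤ i).toTri.frz fun c => q c.1) E ≤
      β * ((T.frz fun c => cl c ≤ i).toTri.frz fun c => q c.1).mu) :
    ms (T.toTri.frz q) (fun p => E fun c => p ⟨c.1.1, c.2⟩) ≤
      Real.exp (l * u) * β * (T.toTri.frz q).mu := by
  classical
  let e : {c : {c // cl c ≤ i} // q c.1} ≃ {c : {c // q c} // cl c.1 ≤ i} :=
    ⟨fun c => ⟨⟨c.1.1, c.2⟩, c.1.2⟩, fun c => ⟨⟨c.1.1, c.2⟩, c.1.2⟩, fun _ => rfl, fun _ => rfl⟩
  have hth : ∀ c, ((T.toTri.frz q).sub fun c => cl c.1 ≤ i).th (e c) =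
      rename e (((T.frz fun c => cl c ≤ i).toTri.frz fun c => q c.1).th c) := by
    intro c
    have h1 : ((T.frz fun c => cl c ≤ i).toTri.frz fun c => q c.1).th c =
        dn _ (dn _ (T.th c.1.1)) := by
      rw [← frz_th T (fun c => cl c ≤ i) c.1]
      exact frz_th (T.frz fun c => cl c ≤ i) (fun c => q c.1) c
    have h2 : ((T.toTri.frz q).sub fun c => cl c.1 ≤ i).th (e c) = dn _ (dn q (T.th c.1.1)) := by
      rw [Tri.sub_th]
      exact congrArg _ (frz_th T q (e c).1)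
    have h3 : (dn fun c : {c // q c} => cl c.1 ≤ i).comp (dn q) =
        (rename e).comp ((dn fun c : {c // cl c ≤ i} => q c.1).comp (dn fun c => cl c ≤ i)) := by
      refine MvPolynomial.algHom_ext fun c => ?_
      by_cases k1 : q c <;> by_cases k2 : cl c ≤ i <;> simp [dn, k1, k2, e]
    rw [h1, h2]
    exact AlgHom.congr_fun h3 _
  have h1 := ms_marg (T.toTri.frz q) (p := fun c => cl c.1 ≤ i) ((hm.frz q).clo i)
    (fun x => E (x ∘ e)) (β := β) (by
      rw [ms, Tri.tsum_eq_of_th_real _ _ e hth fun x => ind (E x),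
        Tri.mu_eq_of_a ((T.frz fun c => cl c ≤ i).toTri.frz fun c => q c.1) _ e fun _ => rfl]
      exact hE)
  refine h1.trans (mul_le_mul_of_nonneg_right (mul_le_mul_of_nonneg_right ?_ hβ)
    (Tri.mu_pos _).le)
  exact prod_le_exp T hl hu h (fun c : {c : {c // q c} // ¬ cl c.1 ≤ i} => c.1.1)
    (fun a b h => Subtype.ext (Subtype.ext h)) fun c => not_le.1 c.2

theorem one_le_tau {T : Cell ι} {cl : ι → ℕ} {l D' : ℕ} {τ' : ℕ → ℝ} (h1 : 1 ≤ τ' (l + 1))
    (h : ∀ j, 1 ≤ j → j ≤ l → (τ' (j + 1) + T.kapM cl j) ^ D' ≤ τ' j) :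
    ∀ j, 1 ≤ j → j ≤ l + 1 → 1 ≤ τ' j := by
  intro j hj hjl
  induction hjl using Nat.decreasingInduction with
  | self => exact h1
  | of_succ j hjl ih =>
    exact (one_le_pow₀ (by linarith [ih (by omega), one_le_kapM T cl j])).trans
      (h j hj (by omega))

theorem fibW_kapM_le (T : Cell ι) (cl : ι → ℕ) (q : ι → Prop) [Fintype {c // ¬ q c}]
    (p : {c // q c} → ℤ) (wt : ι → ℕ) (h0 : ∀ c, ¬ q c → 0 < wt c) (hq : ∀ c, q c → wt c = 0)
    (hd : ∀ c, ¬ q c → DegLe wt (T.B c) (wt c)) (j : ℕ) :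
    (T.fibW q p wt h0 hq hd).kapM (fun c => cl c.1) j ≤ T.kapM cl j := by
  have := kapM_le T (T.fibW q p wt h0 hq hd) Subtype.val (N := 1) (K := 1) le_rfl le_rfl
    (nat_card_fib_inj Subtype.val_injective) (fun c => by rw [one_mul]; rfl) cl j
  rw [Real.log_one, add_zero, Nat.cast_one, one_mul, one_mul] at this
  exact this

end Her

open Her

/-- **heredity** -/
theorem hered_of (hA : AllDerMStmt) (hP : DAPCStmt) : HeredStmt := by
  classical
  intro l s D'
  obtain ⟨DP, hDP⟩ := exists_dap hP s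
  choose DA hDA using fun i => hA i s
  refine ⟨∑ i ∈ Finset.range l, DA i + ((4 * c3 s DP + 2) * (l + 5) ^ 2 + 4), ?_⟩
  intro ι _ T cl τ τ' q wt h0 hq hd hm hl hs hw hc hh hR hn hτ hch
  set D := ∑ i ∈ Finset.range l, DA i + ((4 * c3 s DP + 2) * (l + 5) ^ 2 + 4) with hD
  have hD1 : 1 ≤ D := by omega
  have hn0 : (0 : ℝ) ≤ Fintype.card ι := Nat.cast_nonneg _
  have hl0 : (0 : ℝ) ≤ l := Nat.cast_nonneg _
  have h1 := one_le_tau (by linarith) hch
  have h2 : ∀ j, 1 ≤ j → j ≤ l + 1 → τ' j ≤ τ j := fun j k1 k2 =>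
    (le_self_pow₀ (h1 j k1 k2) (by omega)).trans (hτ j k1 k2)
  have h3 : 0 ≤ τ (l + 1) := by linarith [h2 (l + 1) (by omega) le_rfl]
  have h4 : ∀ j' j, 1 ≤ j → j ≤ j' → j' ≤ l + 1 → τ j' ≤ τ j := by
    intro j' j k1 k2 k3
    obtain ⟨i, rfl⟩ : ∃ i, j' = i + 1 := ⟨j' - 1, by omega⟩
    exact MA.regM_le (l := i) (fun j k4 k5 => hR j k4 (by omega)) hD1
      (by linarith [h1 _ (by omega) k3, h2 _ (by omega) k3]) j k1 k2
  -- one class
  have key : ∀ i ∈ Finset.range l, ms (T.toTri.frz q) (fun p =>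
      ¬ (T.fibW q p wt h0 hq hd).RegAtM (fun c => cl c.1) (i + 1)
        (Real.exp (τ' (i + 1 + 1)) * T.kapM cl (i + 1)) (Real.exp (τ' (i + 1)))) ≤
      Real.exp (-τ' (l + 1) - l) * (T.toTri.frz q).mu := by
    intro i hi
    have hi' : i + 1 ≤ l := Finset.mem_range.1 hi
    have hτ0 : 0 ≤ τ (i + 1) := h3.trans (h4 _ _ (by omega) (by omega) le_rfl)
    obtain ⟨u, hu0, hu⟩ : ∃ u : ℝ, 0 ≤ u ∧ u ^ D = τ (i + 1) :=
      ⟨τ (i + 1) ^ (D : ℝ)⁻¹, by positivity, Real.rpow_inv_natCast_pow hτ0 (by omega)⟩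
    have hle : ∀ a : ℝ, a ^ D ≤ τ (i + 1) → a ≤ u := fun a ha =>
      le_of_pow_le_pow_left₀ (n := D) (by omega) hu0 (hu ▸ ha)
    have u1 : ∀ j, i + 1 ≤ j → j ≤ l + 1 → τ' j ≤ u := fun j k1 k2 =>
      hle _ ((hτ j (by omega) k2).trans (h4 _ _ (by omega) k1 k2))
    have u2 : ∀ j, i < j → j ≤ l → T.kapM cl j ≤ u := fun j k1 k2 => by
      refine hle _ (le_trans ?_ ((hR j (by omega) k2).1.trans (h4 _ _ (by omega) k1 (by omega))))
      refine pow_le_pow_left₀ (by linarith [one_le_kapM T cl j]) ?_ _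
      linarith [h3.trans (h4 (l + 1) (j + 1) (by omega) (by omega) le_rfl)]
    have u3 := u1 (l + 1) (by omega) le_rfl
    have u4 := u1 (i + 1) le_rfl (by omega)
    have u5 := u1 (i + 1 + 1) (by omega) (by omega)
    have u6 := u2 (i + 1) (by omega) hi'
    have u7 : 2 ≤ u := by linarith
    have k1 := one_le_kapM T cl (i + 1)
    have k2 := h1 (i + 1 + 1) (by omega) (by omega)
    obtain ⟨t, ht⟩ : ∃ t : ℝ, t = (l + 5) * u ^ 2 := ⟨_, rfl⟩
    have hu2 : 2 * u ≤ u ^ 2 := by nlinarith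
    have hlu : 0 ≤ l * u ^ 2 := by positivity
    have ht1 : 5 * u ^ 2 ≤ t := by rw [ht]; nlinarith
    have ht7 : 7 ≤ t := by nlinarith
    have ht2 : t ≤ t ^ 2 := by nlinarith
    have hc0 : (0 : ℝ) ≤ c3 s DP := Nat.cast_nonneg _
    have hct : c3 s DP * t ≤ c3 s DP * t ^ 2 := mul_le_mul_of_nonneg_left ht2 hc0
    have hct0 : 0 ≤ c3 s DP * t := by positivity
    have hbig : (4 * c3 s DP + 2) * t ^ 2 ≤ τ (i + 1) := by
      rw [← hu]
      have e1 : (((4 * c3 s DP + 2) * (l + 5) ^ 2 : ℕ) : ℝ) ≤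
          u ^ ((4 * c3 s DP + 2) * (l + 5) ^ 2) := by
        refine le_trans ?_ (pow_le_pow_left₀ (by norm_num) u7 _)
        exact_mod_cast (Nat.lt_two_pow_self).le
      calc _ = (((4 * c3 s DP + 2) * (l + 5) ^ 2 : ℕ) : ℝ) * u ^ 4 := by rw [ht]; push_cast; ring
        _ ≤ u ^ ((4 * c3 s DP + 2) * (l + 5) ^ 2) * u ^ 4 := by gcongr
        _ ≤ _ := by rw [← pow_add]; exact pow_le_pow_right₀ (by linarith) (by omega)
    have hlog : Real.log (Fintype.card {c // cl c ≤ i} + 2) ≤ Fintype.card ι + 1 := by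
      linarith [Real.log_le_sub_one_of_pos
        (show (0 : ℝ) < Fintype.card {c // cl c ≤ i} + 2 by positivity),
        MA.frz_card fun c => cl c ≤ i]
    have hAL : (T.frz fun c => cl c ≤ i).AllPC (c3 s DP * t ^ 2)
        (Real.exp (-(c3 s DP * t ^ 2))) := by
      refine allPC_mono (hDA i _ (T.frz fun c => cl c ≤ i) _ τ (c3 s DP * t ^ 2)
        (c3 s DP * t ^ 2 + t) (hm.frz _) (fun c => c.2) (fun c => hs c.1)
        (MA.regM_mono (regM_low hm hR (by omega)) ?_ hD1 hτ0) (by linarith) (by linarith)).2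
        le_rfl (Real.exp_le_exp.2 (by linarith))
      exact (Finset.single_le_sum (f := DA) (fun _ _ => Nat.zero_le _) hi).trans
        (Nat.le_add_right _ _)
    have hH : 1 ≤ Real.exp (τ' (i + 1 + 1)) * T.kapM cl (i + 1) :=
      one_le_mul_of_one_le_of_one_le (Real.one_le_exp (by linarith)) k1
    obtain ⟨S, hS1, hS2⟩ := dual_count T cl (i + 1) hH
    have hS3 : (S.card : ℝ) ≤ Real.exp (4 * u ^ 2 - u) := by
      refine hS2.trans (Real.exp_le_exp.2 ?_)
      rw [Real.log_mul (Real.exp_pos _).ne' (by linarith), Real.log_exp]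
      have e1 := Real.log_le_sub_one_of_pos (show 0 < T.kapM cl (i + 1) by linarith)
      have e2 : (1 + (τ' (i + 1 + 1) + Real.log (T.kapM cl (i + 1)))) * T.kapM cl (i + 1) ≤
          (2 * u) * u := mul_le_mul (by linarith) u6 (by linarith) (by linarith)
      nlinarith
    set S' := S.filter fun ξ => T.DualF cl (i + 1) ξ ∧ ξ ≠ 0 ∧
      ∑ c, |ξ c| ≤ Real.exp (τ' (i + 1 + 1)) * T.kapM cl (i + 1) with hS'
    have hfl : ((⌊Real.exp u⌋₊ : ℕ) : ℝ) ≤ Real.exp u := Nat.floor_le (Real.exp_pos _).le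
    refine (ms_union _ (S' ×ˢ Finset.Icc 1 ⌊Real.exp u⌋₊) (fun a p =>
      Sm (T.frz fun c => cl c ≤ i) (fun c => q c.1) (fun c => wt c.1)
        (C (a.2 : ℝ) * dn _ (∑ c, C (a.1 c) * T.th c)) (Real.exp (-(4 * t)))
        (Real.exp (-(3 * t))) fun c => p ⟨c.1.1, c.2⟩) fun p hp => ?_).trans ?_
    · obtain ⟨ξ, b, a1, a2, a3, a4, a5, a6⟩ := bad_sm hm hh p (Real.exp_pos (-(4 * t))).le
        (Real.exp_le_one_iff.2 (by linarith)) hp
      refine ⟨(ξ, b), Finset.mem_product.2 ⟨Finset.mem_filter.2 ⟨hS1 ξ a1 a3, a1, a2, a3⟩,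
        Finset.mem_Icc.2 ⟨a4, Nat.le_floor (a5.trans (Real.exp_le_exp.2 u4))⟩⟩,
        fun z k3 k4 => ?_⟩
      obtain ⟨n, hn⟩ := a6 z k3 k4
      refine ⟨n, hn.trans ?_⟩
      rw [← Real.exp_add, Real.exp_le_exp]
      linarith
    · refine (Finset.sum_le_card_nsmul _ _
        (Real.exp (l * u) * Real.exp (-t) * (T.toTri.frz q).mu) fun a ha => ?_).trans ?_
      · obtain ⟨a1, a2⟩ := Finset.mem_product.1 ha
        obtain ⟨-, a3, a4, a5⟩ := Finset.mem_filter.1 a1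
        obtain ⟨a6, a7⟩ := Finset.mem_Icc.1 a2
        refine pull hm q hl hu0 (Real.exp_pos _).le u2 _ (sm_rare hDP hm hc h0 hq hh hs hw ht7
          (by linarith) hAL (hR (i + 1) (by omega) hi').2 (Real.exp_le_exp.2 (by nlinarith)) a3 a4
          (a5.trans ?_) a6 ?_)
        · exact mul_le_mul_of_nonneg_right
            (Real.exp_le_exp.2 (h2 _ (by omega) (by omega))) (by linarith)
        · exact le_trans (by exact_mod_cast a7) (hfl.trans (Real.exp_le_exp.2 (by linarith)))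
      · rw [nsmul_eq_mul, ← mul_assoc, Finset.card_product, Nat.card_Icc]
        refine mul_le_mul_of_nonneg_right ?_ (Tri.mu_pos _).le
        have e1 : (S'.card : ℝ) ≤ Real.exp (4 * u ^ 2 - u) :=
          le_trans (by exact_mod_cast Finset.card_filter_le _ _) hS3
        push_cast
        calc _ ≤ Real.exp (4 * u ^ 2 - u) * Real.exp u * (Real.exp (l * u) * Real.exp (-t)) := by
              gcongr
          _ ≤ _ := by
              rw [← Real.exp_add, ← Real.exp_add, ← Real.exp_add, Real.exp_le_exp, ht]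
              nlinarith [mul_nonneg hl0 (show 0 ≤ u ^ 2 - u - 1 by nlinarith)]
  have hfin := (ms_union (T.toTri.frz q) (Finset.range l) _ (E0 := fun p =>
    ¬ (T.fibW q p wt h0 hq hd).RegM (fun c => cl c.1) D' l τ') fun p hp => ?_).trans
    (Finset.sum_le_card_nsmul _ _ _ key)
  · refine le_trans (le_of_eq (tsum_congr fun p => ?_)) (hfin.trans ?_)
    · by_cases h : (T.fibW q p wt h0 hq hd).RegM (fun c => cl c.1) D' l τ'
      · rw [if_pos h, ind_neg (not_not.2 h), mul_zero]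
      · rw [if_neg h, ind_pos h, mul_one]
    · rw [nsmul_eq_mul, Finset.card_range, ← mul_assoc]
      refine mul_le_mul_of_nonneg_right ?_ (Tri.mu_pos _).le
      calc (l : ℝ) * Real.exp (-τ' (l + 1) - l) ≤ Real.exp l * Real.exp (-τ' (l + 1) - l) := by
            gcongr; linarith [Real.add_one_le_exp (l : ℝ)]
        _ = _ := by rw [← Real.exp_add]; congr 1; ring
  · by_contra hcon
    push Not at hcon
    refine hp fun j k1 k2 => ?_
    obtain ⟨i, rfl⟩ : ∃ i, j = i + 1 := ⟨j - 1, by omega⟩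
    have k3 := fibW_kapM_le T cl q p wt h0 hq hd (i + 1)
    have k4 := one_le_kapM (T.fibW q p wt h0 hq hd) (fun c => cl c.1) (i + 1)
    refine ⟨le_trans (pow_le_pow_left₀ (by linarith [h1 (i + 1 + 1) (by omega) (by omega)])
      (by linarith) _) (hch _ k1 k2), regAtM_anti (hcon i (Finset.mem_range.2 k2))
      (mul_le_mul_of_nonneg_left k3 (Real.exp_pos _).le) le_rfl⟩

end Crest.Agent.T49.Tw
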