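import Crest.Agent.T49.MxDefB_53
import Crest.Agent.T49.TwPoly_91
import Crest.Agent.T49.TwTri_51

/-!
# Row 49 (helper81): `NDCStmt`, no short real form in the top windows is an integer polynomial
-/

set_option autoImplicit false
set_option linter.unusedSectionVars false

open MvPolynomial

namespace Crest.Agent.T49.Tw

namespace N81

/-- one-variable Markov-type inequality with a constant depending only on the degree -/
theorem markov (k : ℕ) : ∃ K : ℝ, 0 ≤ K ∧ ∀ (p : Polynomial ℝ) (S t : ℝ), p.natDegree ≤ k →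
    (∀ u, 0 ≤ u → u ≤ 1 → |p.eval u| ≤ S) → 0 ≤ t → t ≤ 1 →
    |p.eval t - p.eval 0| ≤ K * t * S := by
  classical
  set v : ℕ → ℝ := fun i => (i : ℝ) / (k + 1) with hv
  set s := Finset.range (k + 1) with hs
  have hinj : Set.InjOn v s := fun a _ b _ h => by
    have h1 : (a : ℝ) = b := by
      have := (div_left_inj' (by positivity : (k : ℝ) + 1 ≠ 0)).1 h
      exact this
    exact_mod_cast h1
  have hb : ∀ i, ∃ K : ℝ, 0 ≤ K ∧ ∀ t, 0 ≤ t → t ≤ 1 →
      |(Lagrange.basis s v i).eval t - (Lagrange.basis s v i).eval 0| ≤ K * t := by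
    intro i
    obtain ⟨K, hK⟩ := isCompact_Icc.exists_bound_of_continuousOn
      (f := fun t : ℝ => (Lagrange.basis s v i).divX.eval t) (s := Set.Icc 0 1)
      (Polynomial.continuous _).continuousOn
    refine ⟨max K 0, le_max_right _ _, fun t h0 h1 => ?_⟩
    have h2 := congrArg (Polynomial.eval t) (Polynomial.X_mul_divX_add (Lagrange.basis s v i))
    rw [Polynomial.eval_add, Polynomial.eval_mul, Polynomial.eval_X, Polynomial.eval_C,
      Polynomial.coeff_zero_eq_eval_zero] at h2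
    rw [← h2, add_sub_cancel_right, abs_mul, abs_of_nonneg h0, mul_comm]
    exact mul_le_mul_of_nonneg_right ((hK t ⟨h0, h1⟩).trans (le_max_left _ _)) h0
  choose K hK0 hK using hb
  refine ⟨∑ i ∈ s, K i, Finset.sum_nonneg fun i _ => hK0 i, fun p S t hp hS h0 h1 => ?_⟩
  have hdeg : p.degree < s.card := by
    rw [hs, Finset.card_range]
    exact lt_of_le_of_lt (Polynomial.degree_le_of_natDegree_le hp)
      (by exact_mod_cast Nat.lt_succ_self k)
  have h2 := Lagrange.eq_interpolate hinj hdeg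
  rw [Lagrange.interpolate_apply] at h2
  have h3 : ∀ u, p.eval u = ∑ i ∈ s, p.eval (v i) * (Lagrange.basis s v i).eval u := fun u => by
    conv_lhs => rw [h2]
    simp [Polynomial.eval_finsetSum]
  rw [h3 t, h3 0, ← Finset.sum_sub_distrib, Finset.sum_mul, Finset.sum_mul]
  refine (Finset.abs_sum_le_sum_abs _ _).trans (Finset.sum_le_sum fun i hi => ?_)
  rw [← mul_sub, abs_mul, mul_comm]
  have hi1 : (i : ℝ) ≤ k + 1 := by
    have := (Finset.mem_range.1 hi).le
    exact_mod_cast this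
  refine mul_le_mul (hK i t h0 h1) (hS _ (by positivity) ?_) (abs_nonneg _)
    (mul_nonneg (hK0 i) h0)
  exact (div_le_one (by positivity)).2 hi1

/-- a homogeneous polynomial whose zeros are dense in the unit box vanishes -/
theorem eq_zero_of_dense (d : ℕ) : ∃ δ : ℝ, 0 < δ ∧ δ ≤ 1 ∧ ∀ (ι : Type) [Fintype ι] (w : ι → ℕ)
    (e : Pl ι), (∀ c, 0 < w c) → IsWeightedHomogeneous w e d →
    (∀ v : ι → ℝ, (∀ c, |v c| ≤ 1) → ∃ x : ι → ℝ, (∀ c, |x c - v c| ≤ δ) ∧ eval x e = 0) →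
    e = 0 := by
  obtain ⟨K, hK0, hK⟩ := markov d
  refine ⟨1 / (2 * (K * 2 ^ d + 1)), by positivity, ?_, fun ι _ w e hw he hz => ?_⟩
  · rw [div_le_one (by positivity)]
    have : 0 ≤ K * 2 ^ d := by positivity
    linarith
  set δ : ℝ := 1 / (2 * (K * 2 ^ d + 1)) with hδ
  have hδ0 : 0 < δ := by positivity
  have hδ1 : δ ≤ 1 := by
    rw [hδ, div_le_one (by positivity)]
    have : 0 ≤ K * 2 ^ d := by positivity
    linarith
  obtain ⟨x0, hx0, hmax⟩ := (isCompact_closedBall (0 : ι → ℝ) 1).exists_isMaxOn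
    ⟨0, Metric.mem_closedBall_self zero_le_one⟩
    (f := fun x => |eval x e|) (continuous_abs.comp (continuous_eval e)).continuousOn
  set S := |eval x0 e| with hS
  have hball : ∀ x : ι → ℝ, x ∈ Metric.closedBall (0 : ι → ℝ) 1 ↔ ∀ c, |x c| ≤ 1 := fun x => by
    rw [mem_closedBall_zero_iff, pi_norm_le_iff_of_nonneg zero_le_one]
    rfl
  have hbig : ∀ (t : ℝ) (x : ι → ℝ), 1 ≤ t → (∀ c, |x c| ≤ t) → |eval x e| ≤ t ^ d * S := by
    intro t x ht hx
    have ht0 : 0 < t := one_pos.trans_le ht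
    have h1 := eval_dilate t (fun c => x c / t ^ w c) he
    have h2 : (fun c => t ^ w c * (x c / t ^ w c)) = x := funext fun c => by field_simp
    rw [h2] at h1
    rw [h1, abs_mul, abs_of_pos (pow_pos ht0 _)]
    refine mul_le_mul_of_nonneg_left (hmax ((hball _).2 fun c => ?_)) (by positivity)
    rw [abs_div, abs_of_pos (pow_pos ht0 _), div_le_one (pow_pos ht0 _)]
    exact (hx c).trans (le_self_pow₀ ht (hw c).ne')
  have hS0 : S = 0 := by
    obtain ⟨x, hx, hx1⟩ := hz x0 ((hball _).1 hx0)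
    set p : Polynomial ℝ := aeval (fun c => Polynomial.C (x0 c) +
      Polynomial.C ((x c - x0 c) / δ) * Polynomial.X) e with hp
    have hev : ∀ u, p.eval u = eval (fun c => x0 c + (x c - x0 c) / δ * u) e := fun u => by
      rw [hp, ← Polynomial.coe_aeval_eq_eval, ← AlgHom.comp_apply, comp_aeval]
      simp [aeval_eq_eval]
    have hdeg : p.natDegree ≤ d := by
      have := aeval_natDegree_le (m := d) (n := 1) e
        (Finset.sup_le fun m hm => (DegLe.of_hom he).degree_le hw m hm)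
        (fun c => Polynomial.C (x0 c) + Polynomial.C ((x c - x0 c) / δ) * Polynomial.X)
        fun c => by compute_degree
      simpa using this
    have h1 := hK p (2 ^ d * S) δ hdeg (fun u h0 h1 => by
      rw [hev]
      refine hbig 2 _ one_le_two fun c => (abs_add_le _ _).trans ?_
      have a1 := (hball _).1 hx0 c
      have a2 : |(x c - x0 c) / δ * u| ≤ 1 := by
        rw [abs_mul, abs_div, abs_of_pos hδ0, abs_of_nonneg h0]
        exact mul_le_one₀ ((div_le_one hδ0).2 (hx c)) h0 h1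
      linarith) hδ0.le hδ1
    rw [hev, hev] at h1
    simp only [div_mul_cancel₀ _ hδ0.ne', add_sub_cancel, mul_zero, add_zero] at h1
    rw [hx1, zero_sub, abs_neg, ← hS] at h1
    have hS1 : 0 ≤ S := abs_nonneg _
    have h2 : K * δ * 2 ^ d ≤ 1 / 2 := by
      rw [hδ, show K * (1 / (2 * (K * 2 ^ d + 1))) * 2 ^ d = K * 2 ^ d / (2 * (K * 2 ^ d + 1)) by
        ring, div_le_div_iff₀ (by positivity) (by positivity)]
      linarith
    have h3 := mul_le_mul_of_nonneg_right h2 hS1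
    nlinarith
  refine MvPolynomial.funext fun x => ?_
  have := hbig (‖x‖ + 1) x (by linarith [norm_nonneg x]) fun c =>
    (norm_le_pi_norm x c).trans (by linarith)
  rw [hS0, mul_zero] at this
  simpa using this

end N81

namespace Cell
variable {ι : Type} (T : Cell ι)

/-- the narrow shifted top cell: windows `(θ^top_c - v_c) / ρ` -/
noncomputable def nar (ρ : ℝ) (hρ : 0 < ρ) (v : ι → ℝ) : Cell ι where
  rk := T.rk
  a c := ρ⁻¹ * T.a c
  B c := C ρ⁻¹ * (T.top (T.lev c) (T.B c) - C (v c))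
  a_ne c := mul_ne_zero (inv_ne_zero hρ.ne') (T.a_ne c)
  B_mem c := mul_mem (C_mem_supp _ _)
    (sub_mem (whc_mem_supported _ _ (T.B_mem c)) (C_mem_supp _ _))
  lev := T.lev
  lev_pos := T.lev_pos
  deg _ := ((DegLe.of_hom (T.top_hom _ _)).sub (degLe_C _ _)).C_mul _

variable {ρ : ℝ} (hρ : 0 < ρ) (v : ι → ℝ)

theorem nar_th (c : ι) : (T.nar ρ hρ v).th c = C ρ⁻¹ * (T.tth c - C (v c)) := by
  rw [tth_eq]
  simp only [Tri.th, nar, map_mul]
  ring

theorem nar_tth (c : ι) : (T.nar ρ hρ v).tth c = C ρ⁻¹ * T.tth c := by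
  show T.top (T.lev c) ((T.nar ρ hρ v).th c) = _
  rw [nar_th, top_C_mul, top_sub, top_C _ (T.lev_pos c), sub_zero, top_of_hom _ (T.tth_hom c)]

theorem nar_mu [Fintype ι] : (T.nar ρ hρ v).mu = ρ ^ Fintype.card ι * T.mu := by
  simp only [Tri.mu, nar, abs_mul, mul_inv, Finset.prod_mul_distrib, abs_inv, inv_inv,
    abs_of_pos hρ, Finset.prod_const, Finset.card_univ]

theorem nar_dotT [Fintype ι] (ξ : ι → ℝ) :
    (T.nar ρ hρ v).dotT ξ = T.dotT fun c => ρ⁻¹ * ξ c := by
  simp only [dotT, nar_tth, map_mul]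
  exact Finset.sum_congr rfl fun c _ => by ring

theorem nar_TTh (e : Pl ι) :
    (T.nar ρ hρ v).TTh e = T.TTh (bind₁ (fun c => C ρ⁻¹ * X c) e) := by
  rw [TTh, TTh, bind₁_bind₁]
  congr 2
  funext c
  rw [nar_tth]
  simp

theorem nar_pc [Fintype ι] {s : ℕ} (hs : ∀ c, T.lev c ≤ s) {u x : ℝ} (hu : 0 ≤ u)
    (h1 : ρ ≤ 1) (h2 : Real.exp (-u) ≤ ρ) (hx : (s + 1) * u + 1 ≤ x) :
    T.PC x (T.nar ρ hρ v) id := by
  have hs0 : (0 : ℝ) ≤ s * u := by positivity
  have hx1 : u + 1 ≤ x := by linarith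
  have hi1 : 1 ≤ ρ⁻¹ := (one_le_inv₀ hρ).2 h1
  have hi2 : ρ⁻¹ ≤ Real.exp u := by
    rw [Real.exp_neg] at h2
    exact (inv_le_comm₀ hρ (Real.exp_pos u)).2 h2
  refine ⟨fun _ => rfl, ?_, fun cl j => ?_, fun cl h => ⟨h.1, fun c m hm c' hc' => ?_⟩,
    fun cl _ j H Λ hR w ξ b e hξ hw hH hb hbΛ he he' hn hI => ?_⟩
  · exact le_mul_of_one_le_left (Nat.cast_nonneg _) (by linarith)
  · unfold kapM
    rw [mul_add, Finset.mul_sum]
    refine add_le_add (by linarith) (Finset.sum_le_sum fun c _ => ?_)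
    have a0 := abs_nonneg (T.a c)
    have a1 : 0 ≤ Real.log (1 + |T.a c|) := Real.log_nonneg (by linarith)
    have a2 : Real.log (1 + |(T.nar ρ hρ v).a c|) ≤ u + Real.log (1 + |T.a c|) := by
      rw [Real.log_le_iff_le_exp (by positivity), Real.exp_add, Real.exp_log (by positivity)]
      show 1 + |ρ⁻¹ * T.a c| ≤ _
      rw [abs_mul, abs_of_pos (inv_pos.2 hρ)]
      nlinarith
    nlinarith
  · classical
    refine h.2 c m ?_ c' hc'
    have hm0 : m ≠ 0 := by rintro rfl; simp at hc'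
    rw [mem_support_iff] at hm ⊢
    intro h0
    apply hm
    show coeff m (C ρ⁻¹ * (T.top (T.lev c) (T.B c) - C (v c))) = 0
    rw [coeff_C_mul, coeff_sub, coeff_C, if_neg hm0.symm, top, coeff_weightedHomogeneousComponent,
      h0]
    simp
  · by_contra h0
    obtain ⟨c0, hc0⟩ := Function.ne_iff.1 h0
    have hws : w ≤ s := by
      by_contra h
      exact hc0 (hw c0 (by have := hs c0; show T.lev c0 ≠ w; omega))
    have key : ∀ {A a b : ℝ}, 0 ≤ a → a ≤ A * Real.exp (-x) → 0 ≤ b → b ≤ Real.exp x →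
        a * b ≤ A := by
      intro A a b ha haA hb hbx
      calc a * b ≤ A * Real.exp (-x) * Real.exp x := mul_le_mul haA hbx hb (ha.trans haA)
        _ = A := by rw [mul_assoc, ← Real.exp_add]; simp
    have hi3 : ρ⁻¹ ≤ Real.exp x := hi2.trans (Real.exp_le_exp.2 (by linarith))
    have hi4 : ρ⁻¹ ^ w ≤ Real.exp x := by
      refine (pow_le_pow_left₀ (by positivity) hi2 w).trans ?_
      rw [← Real.exp_nat_mul]
      have : (w : ℝ) ≤ s := by exact_mod_cast hws
      exact Real.exp_le_exp.2 (by nlinarith)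
    have h3 := hR w (fun c => ρ⁻¹ * ξ c) b (bind₁ (fun c => C ρ⁻¹ * X c) e)
      ⟨fun c hc => by simp only [hξ.1 c hc, mul_zero], fun c hc => by
        rw [← T.nar_dotT hρ v]; exact hξ.2 c hc⟩
      (fun c hc => by rw [hw c hc, mul_zero])
      (by
        simp only [abs_mul, abs_of_pos (inv_pos.2 hρ), ← Finset.mul_sum]
        rw [mul_comm]
        exact key (Finset.sum_nonneg fun _ _ => abs_nonneg _) hH (by positivity) hi3)
      hb (by simpa using key (Nat.cast_nonneg b) hbΛ zero_le_one (hi1.trans hi3))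
      (hom_bind' (fun c => hom_C_mul (isWeightedHomogeneous_X ℝ T.lev c) _) he)
      (bind_mem_supported (fun c hc => mul_mem (C_mem_supp _ _) (X_mem_supp hc)) he')
      ((nrm_bind_le_of_pos T.lev_pos (K := ρ⁻¹)
        (fun c => by simp [abs_of_pos hρ]) hi1 (DegLe.of_hom he)).trans
        (key (nrm_nonneg _) hn (by positivity) hi4))
      (by rwa [← T.nar_dotT hρ v, ← T.nar_TTh hρ v])
    exact hc0 ((mul_eq_zero.1 (congrFun h3 c0)).resolve_left (inv_ne_zero hρ.ne'))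

/-- the top windows are dense when two narrow shifted cells have the ideal mass -/
theorem exists_near [Fintype ι] (h2 : 0 < 2 * ρ)
    (ha : |(T.nar ρ hρ v).M / (T.nar ρ hρ v).mu - 1| ≤ 1 / 2)
    (hb : |(T.nar (2 * ρ) h2 v).M / (T.nar (2 * ρ) h2 v).mu - 1| ≤ 1 / 2) :
    ∃ z : ι → ℤ, ∀ c, |ev z (T.tth c) - v c| ≤ (Fintype.card ι + 2) * ρ := by
  by_contra hcon
  push Not at hcon
  set n : ℝ := (Fintype.card ι : ℝ) with hn
  have hn0 : 0 ≤ n := Nat.cast_nonneg _
  have h1 : ∀ z, (T.nar ρ hρ v).wgt z ≤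
      Real.exp (-(2 * (n + 2))) * (T.nar (2 * ρ) h2 v).wgt z := by
    intro z
    obtain ⟨c0, hc0⟩ := hcon z
    simp only [Tri.wgt, nar_th, ev_mul, ev_C, ev_sub]
    rw [← Real.exp_add]
    refine Real.exp_le_exp.2 ?_
    have e1 : ∑ c, ((2 * ρ)⁻¹ * (ev z (T.tth c) - v c)) ^ 2 =
        1 / 4 * ∑ c, (ρ⁻¹ * (ev z (T.tth c) - v c)) ^ 2 := by
      rw [Finset.mul_sum]
      exact Finset.sum_congr rfl fun c _ => by rw [mul_inv]; ring
    have e2 : (n + 2) ^ 2 ≤ ∑ c, (ρ⁻¹ * (ev z (T.tth c) - v c)) ^ 2 := by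
      refine le_trans ?_ (Finset.single_le_sum
        (f := fun c => (ρ⁻¹ * (ev z (T.tth c) - v c)) ^ 2) (fun _ _ => sq_nonneg _)
        (Finset.mem_univ c0))
      rw [← sq_abs (_ * _), abs_mul, abs_of_pos (inv_pos.2 hρ)]
      refine pow_le_pow_left₀ (by linarith) ?_ 2
      rw [← div_eq_inv_mul, le_div_iff₀ hρ]
      exact hc0.le
    rw [e1]
    have e3 : n + 2 ≤ ∑ c, (ρ⁻¹ * (ev z (T.tth c) - v c)) ^ 2 := by nlinarith
    generalize ∑ c, (ρ⁻¹ * (ev z (T.tth c) - v c)) ^ 2 = Q at e3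
    have := Real.pi_gt_three
    nlinarith
  have h3 : (T.nar ρ hρ v).M ≤ Real.exp (-(2 * (n + 2))) * (T.nar (2 * ρ) h2 v).M := by
    rw [Tri.M, Tri.M, ← tsum_mul_left]
    exact (Tri.summable_wgt _).tsum_le_tsum h1 ((Tri.summable_wgt _).mul_left _)
  have m1 := (T.nar ρ hρ v).mu_pos
  have m2 := (T.nar (2 * ρ) h2 v).mu_pos
  have h4 : 1 / 2 * (T.nar ρ hρ v).mu ≤ (T.nar ρ hρ v).M := by
    rw [← le_div_iff₀ m1]; linarith [(abs_le.1 ha).1]
  have h5 : (T.nar (2 * ρ) h2 v).M ≤ 3 / 2 * (T.nar (2 * ρ) h2 v).mu := by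
    rw [← div_le_iff₀ m2]; linarith [(abs_le.1 hb).2]
  have h6 : (T.nar (2 * ρ) h2 v).mu = 2 ^ Fintype.card ι * (T.nar ρ hρ v).mu := by
    rw [nar_mu, nar_mu, mul_pow, mul_assoc]
  have h7 : (2 : ℝ) ^ Fintype.card ι ≤ Real.exp n := by
    rw [hn, ← mul_one (Fintype.card ι : ℝ), Real.exp_nat_mul]
    exact pow_le_pow_left₀ (by norm_num) (by linarith [Real.add_one_le_exp 1]) _
  have h8 : Real.exp (-(2 * (n + 2))) * Real.exp n ≤ 1 / 5 := by
    rw [← Real.exp_add]
    refine (Real.exp_le_exp.2 (by linarith : _ ≤ -(4 : ℝ))).trans ?_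
    rw [Real.exp_neg, one_div]
    exact inv_anti₀ (by norm_num) (by linarith [Real.add_one_le_exp 4])
  have h9 : (T.nar ρ hρ v).M ≤ 3 / 2 * (1 / 5) * (T.nar ρ hρ v).mu := by
    refine h3.trans ?_
    calc _ ≤ Real.exp (-(2 * (n + 2))) * (3 / 2 * (Real.exp n * (T.nar ρ hρ v).mu)) := by
          refine mul_le_mul_of_nonneg_left (h5.trans ?_) (Real.exp_pos _).le
          rw [h6]; gcongr
      _ = 3 / 2 * (Real.exp (-(2 * (n + 2))) * Real.exp n) * (T.nar ρ hρ v).mu := by ring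
      _ ≤ _ := by gcongr
  linarith

end Cell

/-- (ND from masses) -/
theorem ndcStmt : NDCStmt := by
  intro s d
  obtain ⟨δ, hδ0, hδ1, hδ⟩ := N81.eq_zero_of_dense (d + 1)
  obtain ⟨D0, hD0⟩ : ∃ D0 : ℕ, Real.exp (-D0) ≤ δ := by
    obtain ⟨D0, hD0⟩ := exists_nat_ge (-Real.log δ)
    exact ⟨D0, by rw [← Real.exp_log hδ0]; exact Real.exp_le_exp.2 (by linarith)⟩
  refine ⟨(s + 1) * (2 * s + D0 + 2) + 1, fun ι _ T e y hs hy hA he hn hI => ?_⟩
  have hn0 : (0 : ℝ) ≤ Fintype.card ι := Nat.cast_nonneg _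
  have hl : 0 ≤ Real.log (Fintype.card ι + 2) := Real.log_nonneg (by linarith)
  have hy2 : 2 ≤ y := by linarith
  have hs0 : (0 : ℝ) ≤ s := Nat.cast_nonneg _
  have hD : (0 : ℝ) ≤ D0 := Nat.cast_nonneg _
  set u : ℝ := (2 * s + D0 + 2) * y with hu
  have hu2 : 2 * y ≤ u := by rw [hu]; nlinarith
  set ρ := Real.exp (-u) with hρ
  have hρ0 : 0 < ρ := Real.exp_pos _
  have hhalf : ∀ t : ℝ, 1 ≤ t → Real.exp (-t) ≤ 1 / 2 := fun t ht => by
    rw [Real.exp_neg, one_div]
    exact inv_anti₀ (by norm_num) (by linarith [Real.add_one_le_exp t])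
  have hρ1 : ρ ≤ 1 / 2 := hhalf u (by linarith)
  have hx : (s + 1) * u + 1 ≤ (((s + 1) * (2 * s + D0 + 2) + 1 : ℕ) : ℝ) * y := by
    push_cast; rw [hu]; nlinarith
  have hη : Real.exp (-((((s + 1) * (2 * s + D0 + 2) + 1 : ℕ) : ℝ) * y)) ≤ 1 / 2 :=
    hhalf _ (le_trans (by nlinarith) hx)
  set lam := Real.exp (-(2 * y)) with hlam
  have hl0 : 0 < lam := Real.exp_pos _
  have hl1 : lam ≤ 1 / 2 := hhalf _ (by linarith)
  refine hδ ι T.lev e T.lev_pos he fun v hv => ?_
  obtain ⟨z, hz⟩ := T.exists_near hρ0 (fun c => lam ^ T.lev c * v c) (by positivity)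
    ((hA _ _ _ (T.nar_pc hρ0 _ hs (u := u) (by linarith) (by linarith) le_rfl hx)).trans hη)
    ((hA _ _ _ (T.nar_pc (by positivity) _ hs (u := u) (by linarith) (by linarith)
      (by linarith) hx)).trans hη)
  have hsmall : (Fintype.card ι + 2) * ρ ≤ δ * lam ^ s := by
    have a1 : (Fintype.card ι : ℝ) + 2 ≤ Real.exp y := by
      rw [← Real.log_le_iff_le_exp (by linarith)]; linarith
    calc _ ≤ Real.exp y * ρ := by gcongr
      _ ≤ Real.exp (-D0) * lam ^ s := by
          rw [hρ, hlam, ← Real.exp_nat_mul, ← Real.exp_add, ← Real.exp_add]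
          exact Real.exp_le_exp.2 (by rw [hu]; nlinarith)
      _ ≤ _ := by gcongr
  have hx1 : ∀ c, |ev z (T.tth c) / lam ^ T.lev c - v c| ≤ δ := fun c => by
    have a1 : 0 < lam ^ T.lev c := pow_pos hl0 _
    rw [show ev z (T.tth c) / lam ^ T.lev c - v c =
      (ev z (T.tth c) - lam ^ T.lev c * v c) / lam ^ T.lev c by field_simp, abs_div, abs_of_pos a1,
      div_le_iff₀ a1]
    refine (hz c).trans (hsmall.trans (mul_le_mul_of_nonneg_left ?_ hδ0.le))
    exact pow_le_pow_of_le_one hl0.le (by linarith) (hs c)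
  refine ⟨_, hx1, ?_⟩
  obtain ⟨k, hk⟩ := hI.ev z
  have h1 := eval_dilate lam (fun c => ev z (T.tth c) / lam ^ T.lev c) he
  have h2 : (fun c => lam ^ T.lev c * (ev z (T.tth c) / lam ^ T.lev c)) =
      fun c => ev z (T.tth c) := funext fun c => by field_simp
  rw [h2, ← ev_bind, ← Cell.TTh, hk] at h1
  have h3 : |eval (fun c => ev z (T.tth c) / lam ^ T.lev c) e| ≤ nrm e * 2 ^ (d + 1) := by
    refine abs_eval_le_of_pos T.lev_pos (fun c => ?_) one_le_two (DegLe.of_hom he)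
    have := abs_sub_abs_le_abs_sub (ev z (T.tth c) / lam ^ T.lev c) (v c)
    linarith [hx1 c, hv c]
  have h4 : |(k : ℝ)| < 1 := by
    rw [h1, abs_mul, abs_of_pos (pow_pos hl0 _)]
    calc _ ≤ lam ^ (d + 1) * (Real.exp y * 2 ^ (d + 1)) :=
          mul_le_mul_of_nonneg_left (h3.trans (by gcongr)) (by positivity)
      _ = (2 * lam) ^ d * (2 * (lam * Real.exp y)) := by ring
      _ ≤ 1 * (2 * (lam * Real.exp y)) := by
          gcongr; exact pow_le_one₀ (by positivity) (by linarith)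
      _ < 1 := by
          rw [hlam, ← Real.exp_add, show -(2 * y) + y = -y by ring, Real.exp_neg]
          have := inv_anti₀ (by norm_num : (0 : ℝ) < 3) (by linarith [Real.add_one_le_exp y] :
            3 ≤ Real.exp y)
          linarith
  have h5 : k = 0 := by
    rw [← Int.cast_abs] at h4
    have : |k| < 1 := by exact_mod_cast h4
    exact Int.abs_lt_one_iff.1 this
  rw [h5, Int.cast_zero] at h1
  exact (mul_eq_zero.1 h1.symm).resolve_left (pow_pos hl0 _).ne'

end Crest.Agent.T49.Tw
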