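import Crest.Agent.T49.MxCov_53
import Crest.Agent.T49.TwTri_51
import Crest.Agent.T49.TwPoly_91

/-! Row 49: weighted dilations of a cell, masses of classes and of integer hyperplanes. -/

set_option autoImplicit false

open MvPolynomial

namespace Crest.Agent.T49.Tw

namespace Cell
variable {ι : Type} (T : Cell ι)

/-- the substitution `z_c = r_c + g ^ lev c * z'_c` -/
noncomputable def wsub (g : ℕ) (r : ι → ℤ) (c : ι) : Pl ι :=
  C (r c : ℝ) + C ((g : ℝ) ^ T.lev c) * X c

/-- the same on points -/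
def wpt (g : ℕ) (r z : ι → ℤ) : ι → ℤ := fun c => r c + (g : ℤ) ^ T.lev c * z c

theorem degLe_wsub (g : ℕ) (r : ι → ℤ) (c : ι) : DegLe T.lev (T.wsub g r c) (T.lev c) :=
  (degLe_C _ _).add ((degLe_X c).C_mul _)

/-- weighted dilation: the class `z ≡ r mod g ^ lev` -/
noncomputable def wdil (g : ℕ) (hg : 0 < g) (r : ι → ℤ) : Cell ι where
  rk := T.rk
  a c := (g : ℝ) ^ T.lev c * T.a c
  B c := C (T.a c * r c) + bind₁ (T.wsub g r) (T.B c)
  a_ne c := mul_ne_zero (by positivity) (T.a_ne c)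
  B_mem c := add_mem (C_mem_supp _ _) (bind_mem_supported (fun c' hc' =>
    add_mem (C_mem_supp _ _) (mul_mem (C_mem_supp _ _) (X_mem_supp hc'))) (T.B_mem c))
  lev := T.lev
  lev_pos := T.lev_pos
  deg c := (degLe_C _ _).add (DegLe.bind (T.degLe_wsub g r) (T.deg c))

variable {g : ℕ} (hg : 0 < g) (r : ι → ℤ)

theorem wdil_th (c : ι) : (T.wdil g hg r).th c = bind₁ (T.wsub g r) (T.th c) := by
  simp only [Tri.th, wdil, map_add, map_mul, bind₁_C_right, bind₁_X_right, wsub]
  ring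

theorem ev_wdil_th (z : ι → ℤ) (c : ι) :
    ev z ((T.wdil g hg r).th c) = ev (T.wpt g r z) (T.th c) := by
  rw [wdil_th]
  exact ev_bind_of (fun c => by simp [wsub, wpt, ev]) _

theorem wdil_tth (c : ι) : (T.wdil g hg r).tth c = C ((g : ℝ) ^ T.lev c) * T.tth c := by
  show weightedHomogeneousComponent T.lev (T.lev c) _ = _
  rw [wdil_th, whc_bind_degLe (T.degLe_wsub g r) (T.th_degLe c), ← Ch4.bind_dil (Ch4.tth_hom T c)]
  congr 2
  funext c'
  rw [wsub, map_add, whc_eq_zero_of_lt (degLe_C _ 0) (T.lev_pos c'), zero_add]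
  exact whc_of_hom (hom_C_mul (isWeightedHomogeneous_X _ _ _) _)

include hg in
theorem wpt_inj : Function.Injective (T.wpt g r) := fun z z' h => funext fun c => by
  have h1 := congrFun h c
  have h2 : (g : ℤ) ^ T.lev c ≠ 0 := by positivity
  exact mul_left_cancel₀ h2 (add_left_cancel h1)

variable [Fintype ι]

theorem wdil_wgt (z : ι → ℤ) : (T.wdil g hg r).wgt z = T.wgt (T.wpt g r z) := by
  simp only [Tri.wgt, ev_wdil_th]

theorem wdil_mu : (T.wdil g hg r).mu = T.mu / ∏ c, (g : ℝ) ^ T.lev c := by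
  simp only [Tri.mu, wdil, abs_mul, mul_inv, Finset.prod_mul_distrib, abs_pow, Nat.abs_cast,
    Finset.prod_inv_distrib]
  ring

theorem wdil_dcov {s : ℕ} (hs : ∀ c, T.lev c ≤ s) : T.DCov (T.wdil g hg r) id ((g : ℝ) ^ s) := by
  classical
  intro ξ hξ
  have h1 : (1 : ℝ) ≤ g := by exact_mod_cast hg
  refine ⟨X, fun c' c => if c = c' then (g : ℝ) ^ T.lev c else 0,
    ⟨fun c => Ch4.isInt_X c, fun c => isWeightedHomogeneous_X _ _ _, fun c' c h => ?_,
      fun c' => ?_, fun c' => ?_⟩, fun c' c h => ?_, fun c' c h => ?_, ?_⟩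
  · by_cases hc : c = c'
    · rw [hc]; rfl
    · simp [hc] at h
  · simp only [apply_ite abs, abs_zero, Finset.sum_ite_eq', Finset.mem_univ, if_true, abs_pow,
      Nat.abs_cast]
    exact pow_le_pow_right₀ h1 (hs c')
  · rw [bind₁_X_left, AlgHom.id_apply, wdil_tth, Finset.sum_eq_single c'] <;> simp +contextual
  · by_contra hc; simp only [id] at hc; simp [hc] at h
  · by_contra hc
    rw [coeff_X', if_neg] at h
    · exact h rfl
    · intro h'; exact hc ((Finsupp.single_left_inj one_ne_zero).1 h').symm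
  · obtain ⟨c, hc⟩ := Function.ne_iff.1 hξ
    refine ⟨c, ?_⟩
    simp only [mul_ite, mul_zero, Finset.sum_ite_eq, Finset.mem_univ, if_true]
    exact mul_ne_zero hc (by positivity)

theorem wdil_pc {s : ℕ} (hs : ∀ c, T.lev c ≤ s) {x : ℝ}
    (hx : 1 + (s + 1) ^ 2 * Real.log g ≤ x) : T.PC x (T.wdil g hg r) id := by
  have h1 : (1 : ℝ) ≤ g := by exact_mod_cast hg
  have h2 := Real.log_nonneg h1
  have h3 : (0 : ℝ) ≤ s := by positivity
  refine (T.wdil_dcov hg r hs).pc' (one_le_pow₀ h1) hs ?_ (fun _ => rfl) (N := 1)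
    (K' := (g : ℝ) ^ s) le_rfl (one_le_pow₀ h1) (fun c => by simp) (fun c => ?_) ?_ fun cl hm => ?_
  · rw [← pow_mul, ← Real.exp_log (x := (g : ℝ) ^ _) (by positivity), Real.log_pow]
    refine Real.exp_le_exp.2 ?_
    push_cast; nlinarith
  · show |(g : ℝ) ^ T.lev c * T.a c| ≤ _
    rw [abs_mul, abs_pow, Nat.abs_cast]
    exact mul_le_mul_of_nonneg_right (pow_le_pow_right₀ h1 (hs c)) (abs_nonneg _)
  · rw [Real.log_pow]; push_cast; nlinarith [mul_nonneg h3 h2, mul_nonneg h3 (mul_nonneg h3 h2)]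
  · refine isMC_of hm.pos fun c => (MCP.C _).add (MCP.bind (fun c' => ?_) (hm.B c))
    exact (MCP.C _).add ((MCP.X c').C_mul _)

/-- the mass of a class -/
theorem wdil_M_le {s : ℕ} (hs : ∀ c, T.lev c ≤ s) {x η : ℝ} (h : T.AllPC x η)
    (hx : 1 + (s + 1) ^ 2 * Real.log g ≤ x) :
    (T.wdil g hg r).M ≤ (1 + η) * (T.mu / ∏ c, (g : ℝ) ^ T.lev c) := by
  have h1 := (abs_le.1 (h _ _ _ (T.wdil_pc hg r hs hx))).2
  rw [← T.wdil_mu hg r, ← div_le_iff₀ (T.wdil g hg r).mu_pos]
  linarith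

/-- covering a set of points by classes -/
theorem tsum_le_classes (R : Finset (ι → ℤ)) (P : (ι → ℤ) → Prop) [DecidablePred P]
    (h : ∀ z, P z → ∃ r ∈ R, ∃ z', T.wpt g r z' = z) :
    ∑' z, (if P z then T.wgt z else 0) ≤ ∑ r ∈ R, (T.wdil g hg r).M := by
  classical
  have hs : ∀ (Q : (ι → ℤ) → Prop) [DecidablePred Q], Summable fun z => if Q z then T.wgt z else 0 :=
    fun Q _ => Summable.of_nonneg_of_le (fun z => by split_ifs; exacts [T.wgt_nonneg z, le_rfl])
      (fun z => by split_ifs; exacts [le_rfl, T.wgt_nonneg z]) T.summable_wgt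
  have h1 : ∀ r, (T.wdil g hg r).M = ∑' z, if z ∈ Set.range (T.wpt g r) then T.wgt z else 0 := by
    intro r
    rw [← (T.wpt_inj hg r).tsum_eq (f := fun z => if z ∈ Set.range (T.wpt g r) then T.wgt z else 0)
      fun z hz => by by_contra h'; exact hz (if_neg h')]
    simp [Tri.M, wdil_wgt]
  simp only [h1]
  rw [← Summable.tsum_finsetSum fun r _ => hs _]
  refine (hs P).tsum_le_tsum (fun z => ?_) (summable_sum fun r _ => hs _)
  have h0 : ∀ r ∈ R, 0 ≤ if z ∈ Set.range (T.wpt g r) then T.wgt z else 0 := fun r _ => by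
    split_ifs; exacts [T.wgt_nonneg z, le_rfl]
  split_ifs with hz
  · obtain ⟨r, hr, hr'⟩ := h z hz
    exact le_trans (le_of_eq (if_pos hr').symm) (Finset.single_le_sum h0 hr)
  · exact Finset.sum_nonneg h0

/-- **Integer hyperplanes have small mass.** -/
theorem hyper_le {s : ℕ} (hs : ∀ c, T.lev c ≤ s) {x η : ℝ} (h : T.AllPC x η) {p : ℕ}
    (hp : p.Prime) (hx : 1 + (s + 1) ^ 2 * Real.log p ≤ x) {l : ι → ℤ} (hl : l ≠ 0)
    (hl1 : ∀ c, T.lev c ≠ 1 → l c = 0) (n : ℤ) :
    ∑' z : ι → ℤ, (if ∑ c, l c * z c = n then T.wgt z else 0) ≤ (1 + η) * T.mu / p := by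
  classical
  have hη : 0 ≤ 1 + η := by
    have h0 : (0 : ℝ) ≤ (s + 1) ^ 2 * Real.log p :=
      mul_nonneg (by positivity) (Real.log_natCast_nonneg p)
    linarith [(abs_nonneg _).trans (allPC_self h (by linarith))]
  have hp0 := hp.pos
  obtain ⟨l', hl', hgcd⟩ := Finset.extract_gcd l (s := Finset.univ)
    (by obtain ⟨c, _⟩ := Function.ne_iff.1 hl; exact ⟨c, Finset.mem_univ _⟩)
  set d := Finset.univ.gcd l with hd
  have hd0 : d ≠ 0 := fun h0 => hl (funext fun c => by rw [hl' c (Finset.mem_univ _), h0]; simp)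
  obtain ⟨c₀, hc₀⟩ : ∃ c₀, ¬ (p : ℤ) ∣ l' c₀ := by
    by_contra h'
    push Not at h'
    have := Finset.dvd_gcd (s := Finset.univ) fun c _ => h' c
    rw [hgcd] at this
    exact hp.one_lt.ne' (by exact_mod_cast Int.eq_one_of_dvd_one (by positivity) this)
  have hl'1 : ∀ c, T.lev c ≠ 1 → l' c = 0 := fun c hc =>
    (mul_eq_zero.1 ((hl' c (Finset.mem_univ _)).symm.trans (hl1 c hc))).resolve_left hd0
  have hc1 : T.lev c₀ = 1 := by by_contra h'; exact hc₀ (by rw [hl'1 c₀ h']; simp)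
  let S : ι → Finset ℤ := fun c => Finset.Ico 0 ((p : ℤ) ^ T.lev c)
  let R := (Fintype.piFinset S).filter fun r => (p : ℤ) ∣ ∑ c, l' c * r c - n / d
  have hR : R.card * p ≤ ∏ c, p ^ T.lev c := by
    have h1 : R.card ≤ (Fintype.piFinset (Function.update S c₀ {0})).card := by
      refine Finset.card_le_card_of_injOn (fun r => Function.update r c₀ 0) (fun r hr => ?_)
        fun r hr r' hr' e => ?_
      · refine Finset.mem_coe.2 (Fintype.mem_piFinset.2 fun c => ?_)
        by_cases hc : c = c₀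
        · subst hc; simp
        · simp only [Function.update_of_ne hc]
          exact Fintype.mem_piFinset.1 (Finset.mem_filter.1 hr).1 c
      · obtain ⟨a1, a2⟩ := Finset.mem_filter.1 hr
        obtain ⟨b1, b2⟩ := Finset.mem_filter.1 hr'
        have e1 : ∀ c, c ≠ c₀ → r c = r' c := fun c hc => by
          simpa [Function.update_of_ne hc] using congrFun e c
        have e2 : (p : ℤ) ∣ l' c₀ * (r c₀ - r' c₀) := by
          have := dvd_sub a2 b2
          rwa [sub_sub_sub_cancel_right, ← Finset.sum_sub_distrib, Finset.sum_eq_single c₀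
            (fun c _ hc => by rw [e1 c hc, sub_self]) (by simp), ← mul_sub] at this
        have e3 := ((Nat.prime_iff_prime_int.1 hp).dvd_or_dvd e2).resolve_left hc₀
        have a3 := Finset.mem_Ico.1 (Fintype.mem_piFinset.1 a1 c₀)
        have b3 := Finset.mem_Ico.1 (Fintype.mem_piFinset.1 b1 c₀)
        rw [hc1, pow_one] at a3 b3
        have e4 := Int.eq_zero_of_abs_lt_dvd e3 (abs_lt.2 ⟨by omega, by omega⟩)
        funext c
        by_cases hc : c = c₀
        · rw [hc]; omega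
        · exact e1 c hc
    refine (Nat.mul_le_mul_right _ h1).trans (le_of_eq ?_)
    rw [Fintype.card_piFinset, ← Finset.mul_prod_erase _ _ (Finset.mem_univ c₀),
      ← Finset.mul_prod_erase _ (fun c => p ^ T.lev c) (Finset.mem_univ c₀), hc1]
    simp only [Function.update_self, Finset.card_singleton, one_mul, pow_one]
    rw [mul_comm]
    congr 1
    refine Finset.prod_congr rfl fun c hc => ?_
    rw [Function.update_of_ne (Finset.ne_of_mem_erase hc)]
    simp only [S, Int.card_Ico, sub_zero]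
    rw [← Nat.cast_pow, Int.toNat_natCast]
  refine (T.tsum_le_classes hp0 R _ fun z hz => ?_).trans ?_
  · refine ⟨fun c => z c % (p : ℤ) ^ T.lev c, Finset.mem_filter.2 ⟨Fintype.mem_piFinset.2 fun c =>
      Finset.mem_Ico.2 ⟨Int.emod_nonneg _ (by positivity), Int.emod_lt_of_pos _ (by positivity)⟩,
      ?_⟩, fun c => z c / (p : ℤ) ^ T.lev c, funext fun c => Int.emod_add_mul_ediv _ _⟩
    have h1 : n / d = ∑ c, l' c * z c := by
      rw [← hz, Finset.sum_congr rfl fun c hc => by rw [hl' c hc, mul_assoc], ← Finset.mul_sum,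
        Int.mul_ediv_cancel_left _ hd0]
    rw [h1, ← Finset.sum_sub_distrib]
    refine Finset.dvd_sum fun c _ => ?_
    rw [← mul_sub]
    exact Dvd.dvd.mul_left ((dvd_pow_self _ (T.lev_pos c).ne').trans
      (Int.dvd_sub_self_of_emod_eq rfl)) _
  · refine (Finset.sum_le_card_nsmul _ _ _ fun r _ => T.wdil_M_le hp0 r hs h hx).trans ?_
    have h2 : (R.card : ℝ) * p ≤ ∏ c, (p : ℝ) ^ T.lev c := by exact_mod_cast hR
    have h3 : (0 : ℝ) < ∏ c, (p : ℝ) ^ T.lev c := by positivity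
    have h4 := mul_nonneg hη T.mu_pos.le
    rw [nsmul_eq_mul, le_div_iff₀ (by positivity), ← mul_div_assoc, ← mul_div_assoc,
      div_mul_eq_mul_div, div_le_iff₀ h3]
    nlinarith [mul_le_mul_of_nonneg_left h2 h4]

end Cell

end Crest.Agent.T49.Tw
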