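import Mathlib

/-!
# Row 49 (helper65): weighted Lie data, points over a commutative algebra, polynomial maps

* `ND ι`        : integer structure constants on `ι → ℝ` with weights;
* `N.pts A`     : the Lie algebra of points over a commutative `ℝ`-algebra `A`;
* `N.map φ`, `bc f A` : functoriality in `A` and in `N`;
* `N.F i`       : the filtration by weights; `cv α P` the coefficient vector of a polynomial map;
* `cf W`        : polynomial maps whose coefficient of `t^α` lies in `W |α|`.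
-/

set_option autoImplicit false

noncomputable section

namespace Crest.Agent.T49.Nil

open Finset

/-- weighted Lie data: `⁅e i, e j⁆ = ∑ k, c i j k • e k`, `e i` has weight `wt i`. -/
structure ND (ι : Type) [Fintype ι] where
  wt : ι → ℕ
  c : ι → ι → ι → ℤ
  wt_pos : ∀ i, 1 ≤ wt i
  c_wt : ∀ i j k, c i j k ≠ 0 → wt i + wt j ≤ wt k
  anti : ∀ i j k, c j i k = -c i j k
  jac : ∀ i j k m, ∑ l, c j k l * c i l m = ∑ l, c i j l * c l k m + ∑ l, c i k l * c j l m

variable {ι : Type} [Fintype ι]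

namespace ND

/-- points over `A` -/
@[implicit_reducible] def pts (_N : ND ι) (A : Type) : Type := ι → A

variable (N : ND ι) (A : Type) [CommRing A] [Algebra ℝ A]

instance : AddCommGroup (N.pts A) := inferInstanceAs (AddCommGroup (ι → A))
instance : Module ℝ (N.pts A) := inferInstanceAs (Module ℝ (ι → A))
instance : Bracket (N.pts A) (N.pts A) :=
  ⟨fun x y k => ∑ i, ∑ j, (N.c i j k : A) * x i * y j⟩

variable {N A}

omit [CommRing A] [Algebra ℝ A] in
@[ext] theorem pts_ext {x y : N.pts A} (h : ∀ k, x k = y k) : x = y := funext h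

omit [Algebra ℝ A] in
theorem lie_apply (x y : N.pts A) (k : ι) :
    ⁅x, y⁆ k = ∑ i, ∑ j, (N.c i j k : A) * x i * y j := rfl

omit [Algebra ℝ A] in
@[simp] theorem add_apply (x y : N.pts A) (k : ι) : (x + y) k = x k + y k := rfl
omit [Algebra ℝ A] in
@[simp] theorem sub_apply (x y : N.pts A) (k : ι) : (x - y) k = x k - y k := rfl
omit [Algebra ℝ A] in
@[simp] theorem neg_apply (x : N.pts A) (k : ι) : (-x) k = -x k := rfl
omit [Algebra ℝ A] in
@[simp] theorem zero_apply (k : ι) : (0 : N.pts A) k = 0 := rfl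
@[simp] theorem smul_apply (r : ℝ) (x : N.pts A) (k : ι) : (r • x) k = r • x k := rfl
/-- multiplication by a scalar of `A` -/
def asm (a : A) (x : N.pts A) : N.pts A := fun k => a * x k
omit [Algebra ℝ A] in
theorem asm_apply (a : A) (x : N.pts A) (k : ι) : asm a x k = a * x k := rfl
omit [Algebra ℝ A] in
theorem sum_apply {β : Type*} (s : Finset β) (f : β → N.pts A) (k : ι) :
    (∑ b ∈ s, f b) k = ∑ b ∈ s, f b k := Finset.sum_apply k s f

omit [Algebra ℝ A] in
theorem lie_skew' (x y : N.pts A) : ⁅y, x⁆ = -⁅x, y⁆ := by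
  ext k
  rw [neg_apply, lie_apply, lie_apply, sum_comm, ← sum_neg_distrib]
  refine sum_congr rfl fun i _ => ?_
  rw [← sum_neg_distrib]
  refine sum_congr rfl fun j _ => ?_
  rw [N.anti i j k]; push_cast; ring

omit [Algebra ℝ A] in
theorem lie_lie_apply (x y z : N.pts A) (m : ι) :
    ⁅x, ⁅y, z⁆⁆ m = ∑ i, ∑ j, ∑ k, ((∑ l, N.c j k l * N.c i l m : ℤ) : A) * x i * y j * z k := by
  simp only [lie_apply, mul_sum, Int.cast_sum, Int.cast_mul, sum_mul]
  refine sum_congr rfl fun i _ => ?_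
  rw [sum_comm]
  refine sum_congr rfl fun j _ => ?_
  rw [sum_comm]
  refine sum_congr rfl fun k _ => sum_congr rfl fun l _ => by ring

omit [Algebra ℝ A] in
theorem lie_lie_apply' (x y z : N.pts A) (m : ι) :
    ⁅⁅x, y⁆, z⁆ m = ∑ i, ∑ j, ∑ k, ((∑ l, N.c i j l * N.c l k m : ℤ) : A) * x i * y j * z k := by
  simp only [lie_apply, mul_sum, Int.cast_sum, Int.cast_mul, sum_mul]
  calc _ = ∑ l, ∑ i, ∑ j, ∑ k, (N.c l k m : A) * ((N.c i j l : A) * x i * y j) * z k := by
        refine sum_congr rfl fun l _ => ?_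
        rw [sum_comm]
        refine sum_congr rfl fun i _ => sum_comm
    _ = ∑ i, ∑ j, ∑ k, ∑ l, (N.c l k m : A) * ((N.c i j l : A) * x i * y j) * z k := by
        rw [sum_comm]
        refine sum_congr rfl fun i _ => ?_
        rw [sum_comm]
        refine sum_congr rfl fun j _ => sum_comm
    _ = _ := sum_congr rfl fun i _ => sum_congr rfl fun j _ => sum_congr rfl fun k _ =>
        sum_congr rfl fun l _ => by ring

instance : LieRing (N.pts A) where
  add_lie x y z := by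
    ext k; simp only [lie_apply, add_apply, mul_add, add_mul, sum_add_distrib]
  lie_add x y z := by
    ext k; simp only [lie_apply, add_apply, mul_add, sum_add_distrib]
  lie_self x := by
    have h : ⁅x, x⁆ + ⁅x, x⁆ = 0 := by
      nth_rw 1 [lie_skew' x x]; exact neg_add_cancel _
    have h2 : ⁅x, x⁆ = (2⁻¹ : ℝ) • (⁅x, x⁆ + ⁅x, x⁆) := by
      rw [← two_smul ℝ, smul_smul]; norm_num
    rw [h2, h, smul_zero]
  leibniz_lie x y z := by
    ext m
    rw [add_apply, lie_lie_apply, lie_lie_apply, lie_lie_apply', sum_comm (s := univ) (t := univ)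
      (f := fun j i => ∑ k, ((∑ l, N.c i k l * N.c j l m : ℤ) : A) * y j * x i * z k),
      ← sum_add_distrib]
    refine sum_congr rfl fun i _ => ?_
    rw [← sum_add_distrib]
    refine sum_congr rfl fun j _ => ?_
    rw [← sum_add_distrib]
    refine sum_congr rfl fun k _ => ?_
    rw [N.jac i j k m]; push_cast; ring

instance : LieAlgebra ℝ (N.pts A) where
  lie_smul r x y := by
    ext k; simp only [lie_apply, smul_apply, smul_sum, mul_smul_comm]

omit [Algebra ℝ A] in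
theorem lie_asm (a : A) (x y : N.pts A) : ⁅x, asm a y⁆ = asm a ⁅x, y⁆ := by
  ext k
  simp only [lie_apply, asm_apply, mul_sum]
  exact sum_congr rfl fun i _ => sum_congr rfl fun j _ => by ring

omit [Algebra ℝ A] in
theorem asm_lie (a : A) (x y : N.pts A) : ⁅asm a x, y⁆ = asm a ⁅x, y⁆ := by
  ext k
  simp only [lie_apply, asm_apply, mul_sum]
  exact sum_congr rfl fun i _ => sum_congr rfl fun j _ => by ring

/-- functoriality in the algebra -/
def map (N : ND ι) {A B : Type} [CommRing A] [Algebra ℝ A] [CommRing B] [Algebra ℝ B]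
    (φ : A →ₐ[ℝ] B) : N.pts A →ₗ⁅ℝ⁆ N.pts B where
  toFun x k := φ (x k)
  map_add' x y := funext fun k => map_add φ (x k) (y k)
  map_smul' r x := funext fun k => map_smul φ r (x k)
  map_lie' {x y} := funext fun k => by
    change φ (∑ i, ∑ j, (N.c i j k : A) * x i * y j) = ∑ i, ∑ j, (N.c i j k : B) * φ (x i) * φ (y j)
    simp

@[simp] theorem map_apply {B : Type} [CommRing B] [Algebra ℝ B] (φ : A →ₐ[ℝ] B) (x : N.pts A)
    (k : ι) : N.map φ x k = φ (x k) := rfl

theorem map_map {B C : Type} [CommRing B] [Algebra ℝ B] [CommRing C] [Algebra ℝ C]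
    (φ : A →ₐ[ℝ] B) (ψ : B →ₐ[ℝ] C) (x : N.pts A) :
    N.map ψ (N.map φ x) = N.map (ψ.comp φ) x := rfl

/-- the real Lie algebra -/
abbrev L (N : ND ι) : Type := N.pts ℝ

/-- constants -/
def cst (N : ND ι) (A : Type) [CommRing A] [Algebra ℝ A] : N.L →ₗ⁅ℝ⁆ N.pts A :=
  N.map (Algebra.ofId ℝ A)

@[simp] theorem cst_apply (x : N.L) (k : ι) : N.cst A x k = algebraMap ℝ A (x k) := rfl

@[simp] theorem map_cst {B : Type} [CommRing B] [Algebra ℝ B] (φ : A →ₐ[ℝ] B) (x : N.L) :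
    N.map φ (N.cst A x) = N.cst B x := by ext k; simp

@[simp] theorem cst_real (x : N.L) : N.cst ℝ x = x := rfl

/-- basis vectors -/
def e (N : ND ι) (i : ι) : N.L := by classical exact fun k => if k = i then 1 else 0

theorem e_apply [DecidableEq ι] (i k : ι) : N.e i k = if k = i then 1 else 0 := by
  unfold e; convert rfl

theorem eq_sum_e (x : N.pts A) : x = ∑ i, asm (x i) (N.cst A (N.e i)) := by
  classical
  ext k
  rw [sum_apply]
  simp only [asm_apply, e_apply, cst_apply, apply_ite, map_one, map_zero, mul_one, mul_zero]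
  rw [Finset.sum_ite_eq]; simp

theorem eq_sum_e' (x : N.L) : x = ∑ i, x i • N.e i := eq_sum_e x

theorem lie_e (i j k : ι) : ⁅N.e i, N.e j⁆ k = N.c i j k := by
  classical
  simp [lie_apply, e_apply]

/-- integer points -/
def IsInt (x : N.L) : Prop := ∀ k, ∃ z : ℤ, x k = z

/-- an integer vector as a point -/
def ofInt (N : ND ι) (z : ι → ℤ) : N.L := fun k => (z k : ℝ)

@[simp] theorem ofInt_apply (z : ι → ℤ) (k : ι) : N.ofInt z k = z k := rfl

theorem isInt_ofInt (z : ι → ℤ) : IsInt (N.ofInt z) := fun k => ⟨z k, rfl⟩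

/-- the weight filtration on points over `A` -/
def FA (N : ND ι) (A : Type) [CommRing A] [Algebra ℝ A] (i : ℕ) : Submodule ℝ (N.pts A) where
  carrier := {x | ∀ k, N.wt k < i → x k = 0}
  add_mem' hx hy k hk := by simp [hx k hk, hy k hk]
  zero_mem' _ _ := rfl
  smul_mem' r x hx k hk := by simp [hx k hk]

theorem mem_FA {i : ℕ} {x : N.pts A} : x ∈ N.FA A i ↔ ∀ k, N.wt k < i → x k = 0 := Iff.rfl

/-- the weight filtration -/
abbrev F (N : ND ι) (i : ℕ) : Submodule ℝ N.L := N.FA ℝ i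

theorem FA_anti {i j : ℕ} (h : i ≤ j) : N.FA A j ≤ N.FA A i :=
  fun _ hx k hk => hx k (hk.trans_le h)

theorem mem_FA_one (x : N.pts A) : x ∈ N.FA A 1 := fun k hk => absurd (N.wt_pos k) (by omega)

theorem mem_FA_zero (x : N.pts A) : x ∈ N.FA A 0 := fun k hk => absurd hk (by omega)

theorem lie_mem_FA {i j : ℕ} {x y : N.pts A} (hx : x ∈ N.FA A i) (hy : y ∈ N.FA A j) :
    ⁅x, y⁆ ∈ N.FA A (i + j) := by
  intro k hk
  rw [lie_apply]
  refine sum_eq_zero fun a _ => sum_eq_zero fun b _ => ?_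
  by_cases hc : N.c a b k = 0
  · simp [hc]
  have := N.c_wt a b k hc
  by_cases ha : N.wt a < i
  · simp [hx a ha]
  · simp [hy b (by omega)]

theorem lie_mem_FA_succ {j : ℕ} (x : N.pts A) {y : N.pts A} (hy : y ∈ N.FA A j) :
    ⁅x, y⁆ ∈ N.FA A (j + 1) := by
  rw [add_comm]; exact lie_mem_FA (mem_FA_one x) hy

theorem eq_zero_of_mem_FA {S : ℕ} (hS : ∀ k, N.wt k ≤ S) {x : N.pts A} (hx : x ∈ N.FA A (S + 1)) :
    x = 0 := pts_ext fun k => hx k (Nat.lt_succ_of_le (hS k))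

theorem e_mem_F (i : ι) : N.e i ∈ N.F (N.wt i) := by
  classical
  intro k hk
  rw [e_apply, if_neg]
  rintro rfl
  exact lt_irrefl _ hk

theorem lcs_le_FA (n : ℕ) {x : N.pts A}
    (hx : x ∈ LieModule.lowerCentralSeries ℝ (N.pts A) (N.pts A) n) : x ∈ N.FA A (n + 1) := by
  induction n generalizing x with
  | zero => exact mem_FA_one x
  | succ n ih =>
    rw [LieModule.lowerCentralSeries_succ, ← LieSubmodule.mem_toSubmodule,
      LieSubmodule.lieIdeal_oper_eq_linear_span] at hx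
    refine (Submodule.span_le.2 ?_ : _ ≤ N.FA A (n + 2)) hx
    rintro _ ⟨a, b, rfl⟩
    exact lie_mem_FA_succ a.1 (ih b.2)

theorem lcs_eq_bot {S : ℕ} (hS : ∀ k, N.wt k ≤ S) :
    LieModule.lowerCentralSeries ℝ (N.pts A) (N.pts A) S = ⊥ :=
  (LieSubmodule.eq_bot_iff _).2 fun _ hx => eq_zero_of_mem_FA hS (lcs_le_FA S hx)

end ND

open ND

section bc

variable {ι' : Type} [Fintype ι'] {N : ND ι} {N' : ND ι'}

/-- base change of a linear map -/
def bcl (f : N.L →ₗ[ℝ] N'.L) (A : Type) [CommRing A] [Algebra ℝ A] : N.pts A →ₗ[ℝ] N'.pts A where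
  toFun x k := ∑ i, f (N.e i) k • x i
  map_add' x y := funext fun k => by
    change ∑ i, f (N.e i) k • (x i + y i) = ∑ i, f (N.e i) k • x i + ∑ i, f (N.e i) k • y i
    simp [sum_add_distrib]
  map_smul' r x := funext fun k => by
    change ∑ i, f (N.e i) k • (r • x i) = r • ∑ i, f (N.e i) k • x i
    simp [smul_sum, smul_smul, mul_comm]

variable {A : Type} [CommRing A] [Algebra ℝ A]

theorem bcl_apply (f : N.L →ₗ[ℝ] N'.L) (x : N.pts A) (k : ι') :
    bcl f A x k = ∑ i, f (N.e i) k • x i := rfl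

theorem bcl_def (f : N.L →ₗ[ℝ] N'.L) (x : N.pts A) :
    bcl f A x = ∑ i, asm (x i) (N'.cst A (f (N.e i))) := by
  ext k
  rw [bcl_apply, ND.sum_apply]
  exact sum_congr rfl fun i _ => by rw [asm_apply, cst_apply, Algebra.smul_def, mul_comm]

theorem bcl_real (f : N.L →ₗ[ℝ] N'.L) (x : N.L) : bcl f ℝ x = f x := by
  conv_rhs => rw [eq_sum_e' x, map_sum]
  ext k
  rw [bcl_apply, ND.sum_apply]
  exact sum_congr rfl fun i _ => by simp [mul_comm]

theorem bcl_asm (f : N.L →ₗ[ℝ] N'.L) (a : A) (x : N.pts A) :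
    bcl f A (asm a x) = asm a (bcl f A x) := by
  ext k
  simp [bcl_apply, asm_apply, mul_sum]

theorem map_bcl {B : Type} [CommRing B] [Algebra ℝ B] (f : N.L →ₗ[ℝ] N'.L) (φ : A →ₐ[ℝ] B)
    (x : N.pts A) : N'.map φ (bcl f A x) = bcl f B (N.map φ x) := by
  ext k; simp [bcl_apply]

theorem bcl_cst (f : N.L →ₗ[ℝ] N'.L) (x : N.L) : bcl f A (N.cst A x) = N'.cst A (f x) := by
  rw [← bcl_real f x, cst, cst, map_bcl]

/-- base change of a Lie homomorphism -/
def bc (f : N.L →ₗ⁅ℝ⁆ N'.L) (A : Type) [CommRing A] [Algebra ℝ A] : N.pts A →ₗ⁅ℝ⁆ N'.pts A where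
  toLinearMap := bcl f.toLinearMap A
  map_lie' {x y} := by
    change bcl f.toLinearMap A ⁅x, y⁆ = ⁅bcl f.toLinearMap A x, bcl f.toLinearMap A y⁆
    conv_lhs => rw [eq_sum_e x, eq_sum_e y]
    rw [bcl_def _ x, bcl_def _ y]
    simp only [sum_lie, lie_sum, map_sum, lie_asm, asm_lie, bcl_asm, ← LieHom.map_lie,
      bcl_cst, LieHom.coe_toLinearMap]

theorem bc_eq (f : N.L →ₗ⁅ℝ⁆ N'.L) (x : N.pts A) : bc f A x = bcl f.toLinearMap A x := rfl

end bc

section ofFamily

variable {𝔤 : Type*} [LieRing 𝔤] [LieAlgebra ℝ 𝔤]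

/-- Lie data from a linearly independent family with integer structure constants. -/
def ofFamily (v : ι → 𝔤) (hv : LinearIndependent ℝ v) (wt : ι → ℕ) (c : ι → ι → ι → ℤ)
    (hbr : ∀ i j, ⁅v i, v j⁆ = ∑ k, (c i j k : ℝ) • v k) (hpos : ∀ i, 1 ≤ wt i)
    (hwt : ∀ i j k, c i j k ≠ 0 → wt i + wt j ≤ wt k) : ND ι where
  wt := wt
  c := c
  wt_pos := hpos
  c_wt := hwt
  anti i j k := by
    have h : ∑ k, (c j i k : ℝ) • v k = ∑ k, ((-c i j k : ℤ) : ℝ) • v k := by
      rw [← hbr, ← lie_skew, hbr]; simp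
    exact_mod_cast (Fintype.linearIndependent_iffₛ.1 hv _ _ h k)
  jac i j k m := by
    have h1 : ∀ a b d, ⁅v a, ⁅v b, v d⁆⁆ = ∑ m, ((∑ l, c b d l * c a l m : ℤ) : ℝ) • v m := by
      intro a b d
      simp only [hbr, lie_sum, lie_smul, smul_sum, smul_smul, Int.cast_sum, Int.cast_mul, sum_smul]
      exact sum_comm
    have h2 : ⁅⁅v i, v j⁆, v k⁆ = ∑ m, ((∑ l, c i j l * c l k m : ℤ) : ℝ) • v m := by
      simp only [hbr i j, sum_lie, smul_lie, hbr _ k, smul_sum, smul_smul, Int.cast_sum,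
        Int.cast_mul, sum_smul]
      exact sum_comm
    have h := leibniz_lie (v i) (v j) (v k)
    rw [h1, h1, h2, ← sum_add_distrib] at h
    simp only [← add_smul, ← Int.cast_add] at h
    exact_mod_cast (Fintype.linearIndependent_iffₛ.1 hv _ _ h m)

/-- the Lie homomorphism attached to a family with the structure constants of `N` -/
def ND.lift (N : ND ι) (v : ι → 𝔤) (hbr : ∀ i j, ⁅v i, v j⁆ = ∑ k, (N.c i j k : ℝ) • v k) :
    N.L →ₗ⁅ℝ⁆ 𝔤 where
  toFun x := ∑ i, x i • v i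
  map_add' x y := by simp [add_smul, sum_add_distrib]
  map_smul' r x := by simp [smul_sum, smul_smul]
  map_lie' {x y} := by
    simp only [lie_apply, sum_lie, lie_sum, lie_smul, smul_lie, hbr, smul_sum, smul_smul, sum_smul]
    calc _ = ∑ i, ∑ k, ∑ j, ((N.c i j k : ℝ) * x i * y j) • v k := sum_comm
      _ = ∑ i, ∑ j, ∑ k, ((N.c i j k : ℝ) * x i * y j) • v k :=
        sum_congr rfl fun i _ => sum_comm
      _ = ∑ j, ∑ i, ∑ k, ((N.c i j k : ℝ) * x i * y j) • v k := sum_comm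
      _ = _ := sum_congr rfl fun j _ => sum_congr rfl fun i _ => sum_congr rfl fun k _ => by
        congr 1; ring

theorem ND.lift_apply (N : ND ι) (v : ι → 𝔤)
    (hbr : ∀ i j, ⁅v i, v j⁆ = ∑ k, (N.c i j k : ℝ) • v k) (x : N.L) :
    N.lift v hbr x = ∑ i, x i • v i := rfl

end ofFamily

section poly

variable {N : ND ι} {σ : Type}

/-- polynomial maps in the variables `σ` -/
abbrev ND.PS (N : ND ι) (σ : Type) : Type := N.pts (MvPolynomial σ ℝ)

/-- the coefficient vector of `t ^ α` -/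
def ND.cv (N : ND ι) (α : σ →₀ ℕ) : N.PS σ →ₗ[ℝ] N.L where
  toFun P k := (P k).coeff α
  map_add' P Q := funext fun k => MvPolynomial.coeff_add α (P k) (Q k)
  map_smul' r P := funext fun k => MvPolynomial.coeff_smul α r (P k)

@[simp] theorem cv_apply (α : σ →₀ ℕ) (P : N.PS σ) (k : ι) : N.cv α P k = (P k).coeff α := rfl

theorem ps_ext {P Q : N.PS σ} (h : ∀ α, N.cv α P = N.cv α Q) : P = Q :=
  pts_ext fun k => MvPolynomial.ext _ _ fun α => congrFun (h α) k

theorem cv_lie [DecidableEq σ] (α : σ →₀ ℕ) (P Q : N.PS σ) :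
    N.cv α ⁅P, Q⁆ = ∑ p ∈ antidiagonal α, ⁅N.cv p.1 P, N.cv p.2 Q⁆ := by
  ext k
  rw [ND.sum_apply]
  simp only [cv_apply, lie_apply, MvPolynomial.coeff_sum]
  rw [sum_comm (s := antidiagonal α)]
  refine sum_congr rfl fun i _ => ?_
  rw [sum_comm (s := antidiagonal α)]
  refine sum_congr rfl fun j _ => ?_
  rw [mul_assoc, ← map_intCast (MvPolynomial.C : ℝ →+* MvPolynomial σ ℝ), MvPolynomial.coeff_C_mul,
    MvPolynomial.coeff_mul, mul_sum]
  exact sum_congr rfl fun p _ => by ring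

theorem cv_bcl {ι' : Type} [Fintype ι'] {N' : ND ι'} (f : N.L →ₗ[ℝ] N'.L) (α : σ →₀ ℕ)
    (P : N.PS σ) : N'.cv α (bcl f _ P) = f (N.cv α P) := by
  rw [← bcl_real]
  ext k
  simp [bcl_apply, MvPolynomial.coeff_sum]

/-- the monomial map `x t^α` -/
def ND.mono (N : ND ι) (α : σ →₀ ℕ) : N.L →ₗ[ℝ] N.PS σ where
  toFun x k := MvPolynomial.monomial α (x k)
  map_add' x y := funext fun k => map_add (MvPolynomial.monomial α) (x k) (y k)
  map_smul' r x := funext fun k => map_smul (MvPolynomial.monomial α) r (x k)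

theorem cv_mono [DecidableEq σ] (α β : σ →₀ ℕ) (x : N.L) :
    N.cv β (N.mono α x) = if α = β then x else 0 := by
  ext k
  change (MvPolynomial.monomial α (x k)).coeff β = _
  rw [MvPolynomial.coeff_monomial]
  split_ifs <;> rfl

theorem cst_eq_mono (x : N.L) : N.cst (MvPolynomial σ ℝ) x = N.mono 0 x := rfl

/-- polynomial maps whose coefficient of `t^α` lies in `W |α|` -/
def cf (σ : Type) (W : ℕ → Submodule ℝ N.L) : Submodule ℝ (N.PS σ) where
  carrier := {P | ∀ α : σ →₀ ℕ, N.cv α P ∈ W α.degree}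
  add_mem' hP hQ α := by rw [map_add]; exact add_mem (hP α) (hQ α)
  zero_mem' α := by rw [map_zero]; exact zero_mem _
  smul_mem' r P hP α := by rw [map_smul]; exact Submodule.smul_mem _ _ (hP α)

theorem mem_cf {W : ℕ → Submodule ℝ N.L} {P : N.PS σ} :
    P ∈ cf σ W ↔ ∀ α : σ →₀ ℕ, N.cv α P ∈ W α.degree := Iff.rfl

theorem cf_mono {W W' : ℕ → Submodule ℝ N.L} (h : ∀ i, W i ≤ W' i) : cf σ W ≤ cf σ W' :=
  fun _ hP α => h _ (hP α)

theorem lie_mem_cf {W W' W'' : ℕ → Submodule ℝ N.L}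
    (h : ∀ i j, ∀ x ∈ W i, ∀ y ∈ W' j, ⁅x, y⁆ ∈ W'' (i + j)) {P Q : N.PS σ}
    (hP : P ∈ cf σ W) (hQ : Q ∈ cf σ W') : ⁅P, Q⁆ ∈ cf σ W'' := by
  classical
  intro α
  rw [cv_lie]
  refine Submodule.sum_mem _ fun p hp => ?_
  rw [← mem_antidiagonal.1 hp, map_add]
  exact h _ _ _ (hP _) _ (hQ _)

theorem mono_mem_cf {W : ℕ → Submodule ℝ N.L} {α : σ →₀ ℕ} {x : N.L} (hx : x ∈ W α.degree) :
    N.mono α x ∈ cf σ W := by
  classical
  intro β
  rw [cv_mono]
  split_ifs with h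
  · exact h ▸ hx
  · exact zero_mem _

/-- the filtered polynomial maps (polynomial sequences) -/
abbrev ND.poly (N : ND ι) (σ : Type) : Submodule ℝ (N.PS σ) := cf σ N.F

theorem lie_mem_poly {P Q : N.PS σ} (hP : P ∈ N.poly σ) (hQ : Q ∈ N.poly σ) : ⁅P, Q⁆ ∈ N.poly σ :=
  lie_mem_cf (fun _ _ _ hx _ hy => lie_mem_FA hx hy) hP hQ

/-- evaluation -/
def ND.ev (N : ND ι) (x : σ → ℝ) : N.PS σ →ₗ⁅ℝ⁆ N.L := N.map (MvPolynomial.aeval x)

/-- evaluation at an integer point -/
def ND.evZ (N : ND ι) (n : σ → ℤ) : N.PS σ →ₗ⁅ℝ⁆ N.L := N.ev fun v => (n v : ℝ)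

/-- substitution of polynomials for the variables -/
def ND.subst (N : ND ι) {τ : Type} (f : σ → MvPolynomial τ ℝ) : N.PS σ →ₗ⁅ℝ⁆ N.PS τ :=
  N.map (MvPolynomial.aeval f)

/-- translation `t ↦ t + h` -/
def ND.tr (N : ND ι) (h : σ → ℝ) : N.PS σ →ₗ⁅ℝ⁆ N.PS σ :=
  N.subst fun v => MvPolynomial.X v + MvPolynomial.C (h v)

theorem ev_subst {τ : Type} (f : σ → MvPolynomial τ ℝ) (x : τ → ℝ) (P : N.PS σ) :
    N.ev x (N.subst f P) = N.ev (fun v => MvPolynomial.aeval x (f v)) P := by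
  rw [ND.ev, ND.subst, ND.map_map, ND.ev]
  congr 2
  ext v; simp

theorem ev_tr (h x : σ → ℝ) (P : N.PS σ) : N.ev x (N.tr h P) = N.ev (x + h) P := by
  rw [ND.tr, ev_subst]
  congr 2
  ext v; simp

@[simp] theorem ev_cst (x : σ → ℝ) (y : N.L) : N.ev x (N.cst _ y) = y := map_cst _ y

end poly

end Crest.Agent.T49.Nil
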