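import Crest.Agent.T49.WinSub_56
import Crest.Agent.T49.NilDer_73
import Crest.Agent.T49.GonGr_60

/-!
# Row 49 (helper73): the datum of a rational filtration (SUB) and the converse of `LT`
-/

set_option autoImplicit false

noncomputable section

namespace Crest.Agent.T49.Win

open Finset Nil Nil.ND
open Crest.Agent.T49.Bch (star)
open Crest.Agent.T49.Gon (lin cst bl)

variable {ι : Type} [Fintype ι] {N : ND ι}

/-- the bound in `exists_subD_fil` -/
def subB73 (S d : ℕ) (M H : ℝ) : ℝ := Bch.dn S * ((d : ℝ) + 1) ^ 2 * M * H ^ 2 * bl d H ^ 2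

theorem SubD.mono73 {ι' : Type} [Fintype ι'] {N' : ND ι'} {S : ℕ} {R R' : ℝ}
    {H : ℕ → Submodule ℝ N.L} {φ : N'.L →ₗ⁅ℝ⁆ N.L} {ψ : N.L →ₗ[ℝ] N'.L} {q : ℕ}
    (h : SubD S R H N' φ ψ q) (hR : R ≤ R') : SubD S R' H N' φ ψ q :=
  ⟨h.good.mono hR, h.int, fun x => (h.norm x).trans (mul_le_mul_of_nonneg_right hR (norm_nonneg _)),
    h.filt, h.surj, h.one_le, h.le.trans hR, h.left, h.int',
    fun x => (h.norm' x).trans (mul_le_mul_of_nonneg_right hR (norm_nonneg _))⟩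

/-- **SUB**: the datum attached to a filtration by rational subspaces -/
theorem exists_subD_fil {S d : ℕ} {M H : ℝ} (hc : ∀ i j k, |(N.c i j k : ℝ)| ≤ M) (hM : 1 ≤ M)
    (hH : 1 ≤ H) (hd : Fintype.card ι ≤ d) (V : ℕ → Submodule ℝ N.L)
    (hanti : ∀ i, 1 ≤ i → V (i + 1) ≤ V i)
    (hlie : ∀ a b, 1 ≤ a → 1 ≤ b → ∀ x ∈ V a, ∀ y ∈ V b, ⁅x, y⁆ ∈ V (a + b))
    (hbot : ∀ x ∈ V (S + 1), x = 0) (hrat : ∀ i, 1 ≤ i → N.RatS H (V i)) :
    ∃ (r : ℕ) (N' : ND (Fin r)) (φ : N'.L →ₗ⁅ℝ⁆ N.L) (ψ : N.L →ₗ[ℝ] N'.L) (q : ℕ),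
      r ≤ Fintype.card ι ∧ SubD S (subB73 S d M H) V N' φ ψ q := by
  classical
  obtain ⟨r, wt, Z, C, q, hr, hwt, hZ, hZV, hq1, hq, -, hCn, hCZ, hsur, hfil⟩ :=
    Gon.exists_adapted' (ι := ι) V S hH hd (fun i hi _ => hanti i hi) fun i hi _ => hrat i hi
  have hanti' : ∀ i j, 1 ≤ i → i ≤ j → V j ≤ V i := by
    intro i j hi hij
    induction j, hij using Nat.le_induction with
    | base => exact le_rfl
    | succ j hij ih => exact (hanti j (by omega)).trans ih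
  have hq0 : (q : ℝ) ≠ 0 := by positivity
  have hdn : 0 < Bch.dn S := Bch.dn_pos S
  have hdn1 : (1 : ℝ) ≤ Bch.dn S := by exact_mod_cast hdn
  have hbl := Gon.one_le_bl d hH
  have hd0 : (0 : ℝ) ≤ d := Nat.cast_nonneg d
  let z : Fin r → N.L := fun a => N.ofInt fun k => Z k a
  have hzV : ∀ a, z a ∈ V (wt a) := hZV
  have hzV1 : ∀ a, z a ∈ V 1 := fun a => hanti' 1 _ le_rfl (hwt a).1 (hzV a)
  have hzn : ∀ a, ‖z a‖ ≤ H := fun a => (norm_le_iff (by linarith)).2 fun k => hZ k a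
  let LZ : (Fin r → ℝ) →ₗ[ℝ] N.L := N.co.symm.toLinearMap ∘ₗ lin Z
  let LC : N.L →ₗ[ℝ] (Fin r → ℝ) := lin C ∘ₗ N.co.toLinearMap
  have hLZ : ∀ y, LZ y = ∑ a, y a • z a := fun y => Gon.lin_eq_sum Z y
  have hCZ' : ∀ y, LC (LZ y) = (q : ℝ) • y := hCZ
  have hsur' : ∀ x ∈ V 1, LZ (LC x) = (q : ℝ) • x := fun x hx =>
    (sub_eq_zero.1 (hbot _ (hsur x hx))).symm
  have hfil' : ∀ i, 1 ≤ i → i ≤ S + 1 → ∀ x ∈ V 1, x ∈ V i ↔ ∀ a, wt a < i → LC x a = 0 := hfil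
  have hLCint : ∀ x : N.L, IsInt x → ∀ a, ∃ n : ℤ, LC x a = n := fun x hx a => by
    choose n hn using hx
    refine ⟨C.mulVec n a, ?_⟩
    have : N.co x = cst n := funext hn
    change lin C (N.co x) a = _
    rw [this, Gon.lin_cst]; rfl
  have hw : ∀ a b, ⁅z a, z b⁆ ∈ V (wt a + wt b) := fun a b =>
    hlie _ _ (hwt a).1 (hwt b).1 _ (hzV a) _ (hzV b)
  have hw1 : ∀ a b, ⁅z a, z b⁆ ∈ V 1 := fun a b =>
    hanti' 1 _ le_rfl (by have := (hwt a).1; omega) (hw a b)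
  choose n hn using fun a b => hLCint ⁅z a, z b⁆ (lie_mem_intL _ (isInt_ofInt _) _ (isInt_ofInt _))
  set μ : ℝ := q * Bch.dn S with hμ
  have hμ0 : 0 < μ := by positivity
  let v : Fin r → N.L := fun a => μ • z a
  have hv : ∀ y : Fin r → ℝ, ∑ a, y a • v a = μ • LZ y := fun y => by
    rw [hLZ, smul_sum]
    exact sum_congr rfl fun a _ => smul_comm _ _ _
  have hli : LinearIndependent ℝ v := by
    rw [Fintype.linearIndependent_iff]
    intro y hy a
    have h1 := congrArg LC hy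
    rw [hv, map_smul, hCZ', map_zero, smul_smul, smul_eq_zero] at h1
    exact congrFun (h1.resolve_left (by positivity)) a
  have hbr : ∀ a b, ⁅v a, v b⁆ = ∑ k, ((Bch.dn S * n a b k : ℤ) : ℝ) • v k := fun a b => by
    rw [hv]
    have : (fun k => ((Bch.dn S * n a b k : ℤ) : ℝ)) = (Bch.dn S : ℝ) • LC ⁅z a, z b⁆ := by
      funext k; rw [Pi.smul_apply, hn]; simp
    rw [this, map_smul, hsur' _ (hw1 a b), lie_smul, smul_lie, smul_smul, smul_smul, smul_smul,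
      hμ]
    congr 1; ring
  have hwt' : ∀ a b k, (Bch.dn S * n a b k : ℤ) ≠ 0 → wt a + wt b ≤ wt k := fun a b k h => by
    by_contra hk
    have h1 := (hwt a).1
    have h2 := (hfil' (min (wt a + wt b) (S + 1)) (by omega) (min_le_right _ _) _ (hw1 a b)).1
      (hanti' _ _ (by omega) (min_le_left _ _) (hw a b)) k (by have := (hwt k).2; omega)
    rw [hn] at h2
    exact right_ne_zero_of_mul h (by exact_mod_cast h2)
  let N' : ND (Fin r) := ofFamily v hli wt _ hbr (fun a => (hwt a).1) hwt'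
  let φ : N'.L →ₗ⁅ℝ⁆ N.L := N'.lift v hbr
  have hφ : ∀ x, φ x = μ • LZ (N'.co x) := fun x => hv x
  let ψ : N.L →ₗ[ℝ] N'.L := N'.co.symm.toLinearMap ∘ₗ LC
  have hψφ : ∀ x, ψ (φ x) = ((q * Bch.dn S * q : ℕ) : ℝ) • x := fun x => by
    rw [hφ, map_smul]
    change μ • N'.co.symm (LC (LZ (N'.co x))) = _
    rw [hCZ', map_smul, smul_smul, hμ]; push_cast; rfl
  have hφ1 : ∀ x, φ x ∈ V 1 := fun x => by
    rw [hφ, hLZ]
    exact Submodule.smul_mem _ _ (Submodule.sum_mem _ fun a _ => Submodule.smul_mem _ _ (hzV1 a))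
  have hfilt : ∀ i, 1 ≤ i → i ≤ S + 1 → ∀ x, x ∈ N'.F i ↔ φ x ∈ V i := fun i h1 h2 x => by
    rw [hfil' i h1 h2 _ (hφ1 x)]
    refine forall_congr' fun a => imp_congr_right fun _ => ?_
    have : LC (φ x) a = ((q * Bch.dn S * q : ℕ) : ℝ) * x a := congrFun (hψφ x) a
    rw [this, mul_eq_zero, or_iff_right (by positivity)]
  have hB1 : (Bch.dn S : ℝ) * bl d H ^ 2 ≤ subB73 S d M H := by
    rw [subB73]
    refine mul_le_mul_of_nonneg_right ?_ (by positivity)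
    rw [mul_assoc, mul_assoc]
    refine le_mul_of_one_le_right (by positivity) (one_le_mul_of_one_le_of_one_le
      (one_le_pow₀ (by linarith)) (one_le_mul_of_one_le_of_one_le hM (one_le_pow₀ hH)))
  refine ⟨r, N', φ, ψ, q * Bch.dn S * q, hr, ⟨fun a => (hwt a).2, fun a b k => ?_,
    fun x y hx hy => Bch.star_mem_lattice S (intL N') (fun a ha b hb => ?_) hx hy⟩, fun x hx => ?_,
    fun x => ?_, fun i hi x => ?_, fun x hx => ?_, Nat.mul_pos (Nat.mul_pos hq1 hdn) hq1, ?_, hψφ,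
    fun y hy => hLCint y hy, fun y => ?_⟩
  · change |((Bch.dn S * n a b k : ℤ) : ℝ)| ≤ _
    have h1 : |(n a b k : ℝ)| ≤ bl d H * ((d : ℝ) ^ 2 * M * H * H) := by
      rw [← hn]
      refine (norm_le_pi_norm (LC ⁅z a, z b⁆) k).trans ((hCn _).trans
        (mul_le_mul_of_nonneg_left ((nrm_lie_le hc (by linarith) _ _).trans ?_) (by linarith)))
      have : (Fintype.card ι : ℝ) ≤ d := by exact_mod_cast hd
      gcongr
      · exact hzn a
      · exact hzn b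
    push_cast
    rw [abs_mul, Nat.abs_cast, subB73]
    calc _ ≤ (Bch.dn S : ℝ) * (bl d H * ((d : ℝ) ^ 2 * M * H * H)) := by gcongr
      _ = Bch.dn S * (d : ℝ) ^ 2 * M * H ^ 2 * (bl d H * 1) := by ring
      _ ≤ Bch.dn S * ((d : ℝ) + 1) ^ 2 * M * H ^ 2 * (bl d H * bl d H) := by gcongr; linarith
      _ = _ := by ring
  · choose a' ha' using ha
    choose b' hb' using hb
    refine ⟨N'.ofInt fun k => ∑ i, ∑ j, n i j k * a' i * b' j, isInt_ofInt _, pts_ext fun k => ?_⟩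
    rw [lie_apply, ND.smul_apply, ofInt_apply, smul_eq_mul]
    push_cast
    rw [mul_sum]
    refine sum_congr rfl fun i _ => ?_
    rw [mul_sum]
    refine sum_congr rfl fun j _ => ?_
    change ((Bch.dn S * n i j k : ℤ) : ℝ) * a i * b j = _
    rw [ha', hb']; push_cast; ring
  · choose x' hx' using hx
    intro k
    refine ⟨q * Bch.dn S * Z.mulVec x' k, ?_⟩
    have : N'.co x = cst x' := funext hx'
    rw [hφ, this]
    change μ * lin Z (cst x') k = _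
    rw [Gon.lin_cst, hμ]; simp
  · rw [hφ, norm_smul, Real.norm_of_nonneg hμ0.le]
    have h1 : ‖LZ (N'.co x)‖ ≤ d * H * ‖x‖ :=
      Gon.norm_lin_le Z (by linarith) hZ (by simpa using hr.trans hd) (N'.co x)
    calc _ ≤ bl d H * Bch.dn S * (d * H * ‖x‖) := by rw [hμ]; gcongr
      _ = Bch.dn S * ((d : ℝ) * 1) * 1 * (H * 1) * (bl d H * 1) * ‖x‖ := by ring
      _ ≤ Bch.dn S * (((d : ℝ) + 1) * (d + 1)) * M * (H * H) * (bl d H * bl d H) * ‖x‖ := by
        gcongr <;> linarith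
      _ = _ := by rw [subB73]; ring
  · by_cases h2 : i ≤ S + 1
    · exact hfilt i hi h2 x
    · constructor
      · intro hx
        rw [eq_zero_of_mem_FA (fun a => (hwt a).2) (FA_anti (by omega) hx), map_zero]
        exact zero_mem _
      · intro hx
        rw [eq_zero_of_mem_FA (N := N') (fun a => (hwt a).2) ((hfilt (S + 1) (by omega) le_rfl x).2
          (hanti' _ _ (by omega) (by omega) hx))]
        exact zero_mem _
  · refine ⟨N'.co.symm ((μ * q)⁻¹ • LC x), ?_⟩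
    rw [hφ, LinearEquiv.apply_symm_apply, map_smul, hsur' x hx, smul_smul, smul_smul]
    rw [show μ * (μ * q)⁻¹ * q = 1 by field_simp, one_smul]
  · refine le_trans ?_ hB1
    push_cast
    calc (q : ℝ) * Bch.dn S * q ≤ bl d H * Bch.dn S * bl d H := by gcongr
      _ = _ := by ring
  · refine (hCn _).trans (mul_le_mul_of_nonneg_right (le_trans ?_ hB1) (norm_nonneg _))
    nlinarith

/-- **SUB** for a graded subalgebra -/
theorem exists_subD_gr73 {S d : ℕ} {M R : ℝ} (hG : N.Good S M) (hM : 1 ≤ M) (hR : 1 ≤ R)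
    (hd : Fintype.card ι ≤ d) {H : ℕ → Submodule ℝ N.L} (hH : N.GrSub H)
    (hrat : ∀ i, N.RatS R (H i)) :
    ∃ (r : ℕ) (N' : ND (Fin r)) (φ : N'.L →ₗ⁅ℝ⁆ N.L) (ψ : N.L →ₗ[ℝ] N'.L) (q : ℕ),
      r ≤ Fintype.card ι ∧ SubD S (subB73 S d M R) H N' φ ψ q :=
  exists_subD_fil hG.c_le hM hR hd H (fun i _ => hH.anti (Nat.le_succ i))
    (fun a b _ _ => hH.lie a b) (fun _ hx => eq_zero_of_mem_FA hG.wt_le (hH.le _ hx))
    fun i _ => hrat i

theorem subB73_le_exp (S : ℕ) : ∃ C : ℕ, ∀ (m M H : ℝ) (d : ℕ), 2 ≤ m → (d : ℝ) ≤ m → 0 ≤ M →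
    M ≤ Real.exp m → 0 ≤ H → H ≤ Real.exp m → subB73 S d M H ≤ Real.exp (m ^ C) := by
  unfold subB73 Gon.bl
  qp

end Crest.Agent.T49.Win
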