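import Crest.Agent.T49.RngFib_63

/-! # Row 49 (helper74): NV, patterns generated in degree one -/

set_option autoImplicit false

noncomputable section

namespace Crest.Agent.T49.Nv

open Tw Rng Submodule
open scoped Pointwise

section Gen
variable {A B : Type} [CommRing A] [Algebra ℝ A] [CommRing B] [Algebra ℝ B] {γ γ' : Type}

/-- integer span of the generators -/
def Nz (g : γ → A) : Submodule ℤ A := span ℤ (Set.range g)

/-- real span of the generators -/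
def Nr (g : γ → A) : Submodule ℝ A := span ℝ (Set.range g)

omit [Algebra ℝ A] in
theorem pow_eq (k : Type) [CommRing k] [Algebra k A] (g : γ → A) (l : ℕ) :
    span k (Set.range g) ^ l = span k (Set.range fun u : Fin l → γ => ∏ i, g (u i)) := by
  rw [Submodule.span_pow]
  congr 1
  ext a
  have : (Set.range g) ^ l = ∏ _i : Fin l, Set.range g := by simp
  rw [this, Set.mem_fintype_prod]
  constructor
  · rintro ⟨f, hf, rfl⟩
    choose u hu using hf
    exact ⟨u, by simp [hu]⟩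
  · rintro ⟨u, rfl⟩
    exact ⟨fun i => g (u i), fun i => ⟨_, rfl⟩, rfl⟩

theorem span_pow (g : γ → A) (l : ℕ) :
    span ℝ ((Nz g ^ l : Submodule ℤ A) : Set A) = Nr g ^ l := by
  rw [Nz, Nr, pow_eq, pow_eq, span_span_of_tower]

omit [Algebra ℝ A] in
theorem mem_Nz (g : γ → A) (j : γ) : g j ∈ Nz g := subset_span ⟨j, rfl⟩

theorem mem_Nr (g : γ → A) (j : γ) : g j ∈ Nr g := subset_span ⟨j, rfl⟩

theorem Nz_le_Nr {g : γ → A} {l : ℕ} {y : A} (h : y ∈ Nz g ^ l) : y ∈ Nr g ^ l := by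
  rw [← span_pow]; exact subset_span h

omit [Algebra ℝ A] in
theorem prod_mem_pow {k : Type} [CommRing k] [Algebra k A] {N : Submodule k A} {l : ℕ}
    {v : Fin l → A} (h : ∀ i, v i ∈ N) : ∏ i, v i ∈ N ^ l := by
  induction l with
  | zero => simp [Submodule.one_le.1 le_rfl]
  | succ l ih =>
    rw [Fin.prod_univ_succ, pow_succ']
    exact mul_mem_mul (h 0) (ih fun i => h i.succ)

omit [Algebra ℝ A] in
/-- induction over a power of the integer span -/
theorem Nz_ind {g : γ → A} {P : ℕ → A → Prop} (h1 : P 0 1)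
    (hm : ∀ l j y, P l y → P (l + 1) (g j * y)) (h0 : ∀ l, P l 0)
    (ha : ∀ l x y, P l x → P l y → P l (x + y)) (hs : ∀ l (n : ℤ) y, P l y → P l (n • y))
    {l : ℕ} {y : A} (hy : y ∈ Nz g ^ l) : P l y := by
  rw [Nz, pow_eq] at hy
  induction hy using span_induction with
  | mem y hy =>
    obtain ⟨u, rfl⟩ := hy
    induction l with
    | zero => simpa using h1
    | succ l ih => simp only [Fin.prod_univ_succ]; exact hm _ _ _ (ih _)
  | zero => exact h0 l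
  | add x y _ _ hx hy => exact ha l x y hx hy
  | smul n y _ hy => exact hs l n y hy

/-- induction over a power of the real span -/
theorem Nr_ind {g : γ → A} {P : ℕ → A → Prop} (h1 : P 0 1)
    (hm : ∀ l j y, P l y → P (l + 1) (g j * y)) (h0 : ∀ l, P l 0)
    (ha : ∀ l x y, P l x → P l y → P l (x + y)) (hs : ∀ l (n : ℝ) y, P l y → P l (n • y))
    {l : ℕ} {y : A} (hy : y ∈ Nr g ^ l) : P l y := by
  rw [Nr, pow_eq] at hy
  induction hy using span_induction with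
  | mem y hy =>
    obtain ⟨u, rfl⟩ := hy
    induction l with
    | zero => simpa using h1
    | succ l ih => simp only [Fin.prod_univ_succ]; exact hm _ _ _ (ih _)
  | zero => exact h0 l
  | add x y _ _ hx hy => exact ha l x y hx hy
  | smul n y _ hy => exact hs l n y hy

omit [Algebra ℝ A] in
theorem mul_mem_succ {k : Type} [CommRing k] [Algebra k A] {N : Submodule k A} {l : ℕ} {x y : A}
    (hx : x ∈ N) (hy : y ∈ N ^ l) : x * y ∈ N ^ (l + 1) := by
  rw [pow_succ']; exact mul_mem_mul hx hy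

omit [Algebra ℝ A] in
theorem one_mem_pow_zero {k : Type} [CommRing k] [Algebra k A] (N : Submodule k A) :
    (1 : A) ∈ N ^ 0 := by simp [Submodule.one_le.1 le_rfl]

theorem map_Nz {g : γ → A} {N : Submodule ℤ B} (ψ : A →ₐ[ℝ] B) (h : ∀ j, ψ (g j) ∈ N) {l : ℕ}
    {y : A} (hy : y ∈ Nz g ^ l) : ψ y ∈ N ^ l := by
  refine Nz_ind (P := fun l y => ψ y ∈ N ^ l) (by simpa using one_mem_pow_zero N)
    (fun l j y hy => by rw [map_mul]; exact mul_mem_succ (h j) hy) (fun l => by simp)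
    (fun l x y hx hy => by rw [map_add]; exact add_mem hx hy)
    (fun l n y hy => by rw [map_zsmul]; exact smul_mem _ _ hy) hy

theorem eq_on_Nr {g : γ → A} (ψ ψ' : A →ₐ[ℝ] B) (h : ∀ j, ψ (g j) = ψ' (g j)) {l : ℕ}
    {y : A} (hy : y ∈ Nr g ^ l) : ψ y = ψ' y := by
  refine Nr_ind (P := fun _ y => ψ y = ψ' y) (by simp)
    (fun l j y hy => by rw [map_mul, map_mul, h, hy]) (fun l => by simp)
    (fun l x y hx hy => by rw [map_add, map_add, hx, hy])
    (fun l n y hy => by rw [map_smul, map_smul, hy]) hy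

/-- the image of a power -/
theorem map_pow_eq (g : γ → A) (ψ : A →ₐ[ℝ] B) (l : ℕ) {y : B} :
    y ∈ Nz (fun j => ψ (g j)) ^ l ↔ ∃ x ∈ Nz g ^ l, ψ x = y := by
  refine ⟨fun hy => ?_, fun ⟨x, hx, e⟩ => e ▸ map_Nz ψ (fun j => mem_Nz _ j) hx⟩
  refine Nz_ind (P := fun l y => ∃ x ∈ Nz g ^ l, ψ x = y) ⟨1, one_mem_pow_zero _, map_one _⟩
    (fun l j y ⟨x, hx, e⟩ => ⟨g j * x, mul_mem_succ (mem_Nz _ j) hx, by rw [map_mul, e]⟩)
    (fun l => ⟨0, zero_mem _, map_zero _⟩)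
    (fun l _ _ ⟨x, hx, e⟩ ⟨x', hx', e'⟩ => ⟨x + x', add_mem hx hx', by rw [map_add, e, e']⟩)
    (fun l n y ⟨x, hx, e⟩ => ⟨n • x, smul_mem _ _ hx, by rw [map_zsmul, e]⟩) hy

/-- division by the generator of the kernel of a slice map -/
theorem div_Nz {g : γ → A} (φ : A →ₐ[ℝ] A) {z : A} (hφ : ∀ j, φ (g j) ∈ Nz g)
    (hz : ∀ j, ∃ n : ℤ, g j = φ (g j) + n • z) {l : ℕ} {y : A} (hy : y ∈ Nz g ^ l) :
    y - φ y ∈ span ℤ {x | ∃ q, ∃ l', l = l' + 1 ∧ q ∈ Nz g ^ l' ∧ x = z * q} := by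
  refine Nz_ind (P := fun l y => y ∈ Nz g ^ l ∧
    y - φ y ∈ span ℤ {x | ∃ q, ∃ l', l = l' + 1 ∧ q ∈ Nz g ^ l' ∧ x = z * q})
    ⟨one_mem_pow_zero _, by simp⟩ (fun l j y ⟨h1, h2⟩ => ⟨mul_mem_succ (mem_Nz _ j) h1, ?_⟩)
    (fun l => ⟨zero_mem _, by simp⟩)
    (fun l x y hx hy => ⟨add_mem hx.1 hy.1, by
      rw [map_add, add_sub_add_comm]; exact add_mem hx.2 hy.2⟩)
    (fun l n y hy => ⟨smul_mem _ _ hy.1, by
      rw [map_zsmul, ← smul_sub]; exact smul_mem _ _ hy.2⟩) hy |>.2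
  obtain ⟨n, hn⟩ := hz j
  have e : g j * y - φ (g j * y) = n • (z * y) + φ (g j) * (y - φ y) := by
    rw [map_mul, zsmul_eq_mul] at *
    linear_combination y * hn
  rw [e]
  refine add_mem (smul_mem _ _ (subset_span ⟨y, l, rfl, h1, rfl⟩)) ?_
  clear e
  generalize y - φ y = w at h2
  induction h2 using span_induction with
  | mem w hw =>
    obtain ⟨q, l', rfl, hq, rfl⟩ := hw
    exact subset_span ⟨φ (g j) * q, l' + 1, rfl, mul_mem_succ (hφ j) hq, by ring⟩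
  | zero => simp
  | add x y _ _ hx hy => rw [mul_add]; exact add_mem hx hy
  | smul n y _ hy => rw [mul_smul_comm]; exact smul_mem _ _ hy

theorem isLat_of_int {E β : Type} [AddCommGroup E] [Module ℝ E] [Fintype β] {L : Submodule ℤ E}
    (φ : E →ₗ[ℝ] (β → ℝ)) (hm : ∀ y ∈ L, ∀ b, ∃ n : ℤ, φ y b = n)
    (hi : ∀ y ∈ L, φ y = 0 → y = 0) : IsLat L := by
  classical
  refine (isLat_span (Pi.basisFun ℝ β).linearIndependent).of_map φ (fun y hy => ?_) hi
  choose n hn using hm y hy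
  refine (mem_span_range_iff_exists_fun ℤ).2 ⟨n, ?_⟩
  funext b
  simp [Finset.sum_apply, Pi.single_apply, hn]

variable {F : Type} [NormedAddCommGroup F] [InnerProductSpace ℝ F] {s : ℕ}

/-- the pattern generated by `g` -/
def gRg (s : ℕ) (g : γ → A) (h1 : 1 ∈ Nr g) (hlat : ∀ l, IsLat (Nz g ^ l)) (Q : A →ₗ[ℝ] F)
    (hinj : ∀ l ≤ s, ∀ x ∈ Nr g ^ l, Q x = 0 → x = 0) : Rg s A F where
  L l := Nz g ^ l
  t0 := 1
  Q _ := Q
  lat := hlat
  one_mem := by rw [span_pow]; exact one_mem_pow_zero _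
  t0_mem := by rw [span_pow, pow_one]; exact h1
  mul_mem i j _ x hx y hy := by
    rw [span_pow] at hx hy ⊢
    rw [pow_add]; exact mul_mem_mul hx hy
  inj l hl x hx := hinj l hl x (by rwa [span_pow] at hx)

theorem E_eq {R : Rg s A F} {g : γ → A} (hL : ∀ l, R.L l = Nz g ^ l) (l : ℕ) :
    R.E l = Nr g ^ l := by rw [Rg.E, hL, span_pow]

/-- generators of a generated pattern -/
def gens {R : Rg s A F} {g : γ → A} (hL : ∀ l, R.L l = Nz g ^ l) (g' : γ' → A)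
    (hm : ∀ j, g' j ∈ Nz g) (hsp : Nr g ≤ Nr g') {K : ℝ}
    (hK : ∀ l, 1 ≤ l → l ≤ s → ∀ u : Fin l → γ', ‖R.Q l (∏ i, g' (u i))‖ ≤ K) :
    R.Gens γ' K where
  g := g'
  mem l _ _ u := by rw [hL]; exact prod_mem_pow fun i => hm _
  nrm := hK
  span l _ _ := by
    rw [E_eq hL, ← pow_eq]
    exact pow_le_pow_left' hsp l

end Gen

section Tr
variable {s : ℕ} {A B F F' : Type} [CommRing A] [Algebra ℝ A] [CommRing B] [Algebra ℝ B]
  [NormedAddCommGroup F] [InnerProductSpace ℝ F] [NormedAddCommGroup F'] [InnerProductSpace ℝ F']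
  {ι : Type} [Fintype ι] {T : Cell ι}

/-- a surjection without kernel -/
def iso (R : Rg s A F) (R' : Rg s B F') (χ : A →ₐ[ℝ] B) (hm : ∀ l, ∀ y ∈ R.L l, χ y ∈ R'.L l)
    (ho : ∀ l, ∀ y ∈ R'.L l, ∃ x ∈ R.L l, χ x = y) (ht : χ R.t0 = R'.t0)
    (hQ : ∀ l ≤ s, ∀ y ∈ R.E l, ‖R.Q l y‖ = ‖R'.Q l (χ y)‖) : Sur R R' ℝ where
  φ := χ
  maps := hm
  onto := ho
  map_t0 := ht
  Q1 _ := 0
  pyth l hl y hy := by simp [hQ l hl y hy]
  ker l _ y _ := ⟨0, zero_mem _, map_zero _, rfl⟩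

/-- transport of sums and ideal masses -/
theorem iso_sum (R : Rg s A F) (R' : Rg s B F') (χ : A →ₐ[ℝ] B)
    (hm : ∀ l, ∀ y ∈ R.L l, χ y ∈ R'.L l)
    (ho : ∀ l, ∀ y ∈ R'.L l, ∃ x ∈ R.L l, χ x = y) (ht : χ R.t0 = R'.t0)
    (hQ : ∀ l ≤ s, ∀ y ∈ R.E l, ‖R.Q l y‖ = ‖R'.Q l (χ y)‖) (hlev : ∀ c, T.lev c ≤ s) :
    R.mu0 T = R'.mu0 T ∧ ∀ {V : Type} [NormedAddCommGroup V] [NormedSpace ℝ V] (G : (ι → B) → V),
      ∑' w : R.Pt T, R.wt T (Off.zero ι A) w • G (fun c => χ (w c)) =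
        ∑' w : R'.Pt T, R'.wt T (Off.zero ι B) w • G (fun c => w c) := by
  constructor
  · refine Finset.prod_congr rfl fun c _ => ?_
    have h := vol0_iso (φ := χ.toLinearMap) (R.lat (T.lev c)) (R'.lat _) (hm _) (ho _)
      (R.inj _ (hlev c)) (hQ _ (hlev c))
    rw [Rg.vol, Rg.vol, h.1, Rg.rk, Rg.rk, Rg.E, Rg.E, h.2]
  intro V _ _ G
  set S := iso R R' χ hm ho ht hQ
  have hb : Function.Bijective (S.pt (T := T)) := ⟨fun w w' h => funext fun c => Subtype.ext (by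
    have h1 : χ (w c) = χ (w' c) := congrArg Subtype.val (congrFun h c)
    have h2 : (w c : A) - w' c ∈ R.E (T.lev c) := subset_span (sub_mem (w c).2 (w' c).2)
    refine sub_eq_zero.1 (R.inj _ (hlev c) _ h2 ?_)
    rw [← norm_eq_zero, hQ _ (hlev c) _ h2, map_sub, h1, sub_self, map_zero, norm_zero]), S.pt_surj⟩
  rw [← (Equiv.ofBijective _ hb).tsum_eq]
  refine tsum_congr fun w => ?_
  have h1 := S.wt_eq hlev R.offMem_zero w
  have h2 : (Off.zero ι A).map S.φ = Off.zero ι B := by simp [Off.map, Off.zero]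
  have h3 : S.w1 T (Off.zero ι A) w = 1 := by simp [Sur.w1, S, iso]
  rw [h1, h2, h3, mul_one]
  rfl

omit [Fintype ι] in
theorem map_zero_off (φ : A →ₐ[ℝ] B) : (Off.zero ι A).map φ = Off.zero ι B := by
  simp [Off.map, Off.zero]

omit [Fintype ι] in
theorem dv_zero (R : Rg s A F) (ht : R.t0 = 1) (w : R.Pt T) (c : ι) :
    R.dv T (Off.zero ι A) w c = MvPolynomial.aeval (fun c => (w c : A)) (T.th c) := by
  have h : R.up (Off.zero ι A) w = fun c => (w c : A) := funext fun c => zero_add _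
  rw [Rg.dv, Rg.th, ht, h, hev_one _ _ (Rng.degLe_th T c)]
  exact sub_zero _

end Tr

end Crest.Agent.T49.Nv
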