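import Crest.Agent.T49.NvDef_74
import Crest.Agent.T49.FmPC_17

/-! # Row 49 (helper74): NV, the cross rings -/

set_option autoImplicit false

noncomputable section

namespace Crest.Agent.T49.Nv

open Tw Rng Gl Finset MvPolynomial Function
open Crest.Agent.T49.Gf (dil coeff_dil)

variable {D : ℕ}

/-- families of polynomials indexed by the vertices -/
abbrev CA (D : ℕ) : Type := Finset (Fin D) → Pl (Fin D)

/-- the indicator of the second branch of the axis `j` -/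
def ind (j : Fin D) : CA D := fun S => if j ∈ S then 1 else 0

/-- the coordinate `X j - x` -/
def zj (j : Fin D) (x : ℤ) : CA D := fun _ => X j - C (x : ℝ)

/-- generators of the ring in which the axes in `I` are crosses with centre `m` -/
def gn (I : Finset (Fin D)) (m : Fin D → ℤ) : Option (Fin D ⊕ Fin D) → CA D
  | none => 1
  | some (Sum.inl j) => zj j 0
  | some (Sum.inr j) => if j ∈ I then ind j * zj j (m j) else 0

/-- first branch -/
def p0 (i : Fin D) : CA D →ₐ[ℝ] CA D := AlgHom.pi fun S => Pi.evalAlgHom ℝ _ (S.erase i)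

/-- second branch -/
def p1 (i : Fin D) : CA D →ₐ[ℝ] CA D := AlgHom.pi fun S => Pi.evalAlgHom ℝ _ (insert i S)

/-- slice -/
def sl (i : Fin D) (x : ℤ) : CA D →ₐ[ℝ] CA D :=
  AlgHom.pi fun S => (bind₁ (update X i (C (x : ℝ)))).comp (Pi.evalAlgHom ℝ _ S)

theorem p0_apply (i : Fin D) (Y : CA D) (S : Finset (Fin D)) : p0 i Y S = Y (S.erase i) := rfl
theorem p1_apply (i : Fin D) (Y : CA D) (S : Finset (Fin D)) : p1 i Y S = Y (insert i S) := rfl
theorem sl_apply (i : Fin D) (x : ℤ) (Y : CA D) (S : Finset (Fin D)) :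
    sl i x Y S = bind₁ (update X i (C (x : ℝ))) (Y S) := rfl

@[simp] theorem p0_zj (i j : Fin D) (x : ℤ) : p0 i (zj j x) = zj j x := rfl
@[simp] theorem p1_zj (i j : Fin D) (x : ℤ) : p1 i (zj j x) = zj j x := rfl
@[simp] theorem p0_ind (i : Fin D) : p0 i (ind i) = 0 := funext fun S => by simp [p0_apply, ind]
@[simp] theorem p1_ind (i : Fin D) : p1 i (ind i) = 1 := funext fun S => by simp [p1_apply, ind]
theorem p0_ind' {i j : Fin D} (h : j ≠ i) : p0 i (ind j) = ind j :=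
  funext fun S => by simp [p0_apply, ind, h]
theorem p1_ind' {i j : Fin D} (h : j ≠ i) : p1 i (ind j) = ind j :=
  funext fun S => by simp [p1_apply, ind, h]
@[simp] theorem sl_ind (i j : Fin D) (x : ℤ) : sl i x (ind j) = ind j :=
  funext fun S => by rw [sl_apply, ind]; split_ifs <;> simp
theorem sl_zj' {i j : Fin D} (h : j ≠ i) (x y : ℤ) : sl i x (zj j y) = zj j y :=
  funext fun S => by simp [sl_apply, zj, update_of_ne h]
theorem sl_zj (i : Fin D) (x y : ℤ) : sl i x (zj i y) = (x - y) • (1 : CA D) :=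
  funext fun S => by simp [sl_apply, zj]
theorem zj_eq (j : Fin D) (x : ℤ) : zj j x = zj j 0 - x • (1 : CA D) :=
  funext fun S => by simp [zj]
theorem ind_mul_self (j : Fin D) : ind j * ind j = ind j :=
  funext fun S => by simp only [Pi.mul_apply, ind]; split_ifs <;> simp

variable {I : Finset (Fin D)} {m : Fin D → ℤ} {i : Fin D}

theorem one_mem : (1 : CA D) ∈ Nz (gn I m) := mem_Nz (gn I m) none

theorem zj_mem (j : Fin D) (x : ℤ) : zj j x ∈ Nz (gn I m) := by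
  rw [zj_eq]
  exact sub_mem (mem_Nz (gn I m) (some (Sum.inl j))) (Submodule.smul_mem _ _ one_mem)

theorem ej_mem {j : Fin D} (h : j ∈ I) : ind j * zj j (m j) ∈ Nz (gn I m) := by
  simpa [gn, h] using mem_Nz (gn I m) (some (Sum.inr j))

theorem gn_update (hi : i ∉ I) (x : ℤ) : gn I (update m i x) = gn I m := by
  funext j
  rcases j with _ | j | j
  · rfl
  · rfl
  · by_cases h : j ∈ I
    · simp [gn, h, update_of_ne (ne_of_mem_of_not_mem h hi)]
    · simp [gn, h]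

theorem p0_gn (hi : i ∉ I) (j : Option (Fin D ⊕ Fin D)) : p0 i (gn I m j) = gn I m j := by
  rcases j with _ | j | j
  · rfl
  · rfl
  · by_cases h : j ∈ I
    · simp [gn, h, p0_ind' (ne_of_mem_of_not_mem h hi)]
    · simp [gn, h]

theorem p1_gn (hi : i ∉ I) (j : Option (Fin D ⊕ Fin D)) : p1 i (gn I m j) = gn I m j := by
  rcases j with _ | j | j
  · rfl
  · rfl
  · by_cases h : j ∈ I
    · simp [gn, h, p1_ind' (ne_of_mem_of_not_mem h hi)]
    · simp [gn, h]

theorem gn_ins (j : Option (Fin D ⊕ Fin D)) :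
    gn (insert i I) m j = gn I m j ∨ gn (insert i I) m j = ind i * zj i (m i) := by
  rcases j with _ | j | j
  · exact Or.inl rfl
  · exact Or.inl rfl
  · by_cases h : j = i
    · right; simp [gn, h]
    · left; simp [gn, h]

theorem gn_mono (j : Option (Fin D ⊕ Fin D)) : gn I m j ∈ Nz (gn (insert i I) m) := by
  rcases j with _ | j | j
  · exact one_mem
  · exact zj_mem j 0
  · by_cases h : j ∈ I
    · simpa [gn, h] using ej_mem (m := m) (mem_insert_of_mem (b := i) h)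
    · simp [gn, h]

theorem pow_mono {l : ℕ} {y : CA D} (h : y ∈ Nz (gn I m) ^ l) : y ∈ Nz (gn (insert i I) m) ^ l :=
  map_Nz (AlgHom.id ℝ _) gn_mono h

theorem sl_gn (hi : i ∉ I) (x : ℤ) (j : Option (Fin D ⊕ Fin D)) :
    sl i x (gn I m j) ∈ Nz (gn I m) ∧ ∃ n : ℤ, gn I m j = sl i x (gn I m j) + n • zj i x := by
  rcases j with _ | j | j
  · exact ⟨by simpa [gn] using one_mem, 0, by simp [gn]⟩
  · by_cases h : j = i
    · subst h
      simp only [gn, sl_zj]
      exact ⟨Submodule.smul_mem _ _ one_mem, 1, by rw [zj_eq j x]; simp⟩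
    · simp only [gn, sl_zj' h]
      exact ⟨zj_mem j 0, 0, by simp⟩
  · by_cases h : j ∈ I
    · simp only [gn, if_pos h, map_mul, sl_ind, sl_zj' (ne_of_mem_of_not_mem h hi)]
      exact ⟨ej_mem h, 0, by simp⟩
    · simp only [gn, if_neg h, map_zero]
      exact ⟨zero_mem _, 0, by simp⟩

theorem sl_mem (hi : i ∉ I) (x : ℤ) {l : ℕ} {y : CA D} (h : y ∈ Nz (gn I m) ^ l) :
    sl i x y ∈ Nz (gn I m) ^ l := map_Nz _ (fun j => (sl_gn hi x j).1) h

/-- the two branches of an element of the larger ring -/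
theorem branches (hi : i ∉ I) {l : ℕ} {y : CA D} (h : y ∈ Nz (gn (insert i I) m) ^ l) :
    p0 i y ∈ Nz (gn I m) ^ l ∧ p1 i y ∈ Nz (gn I m) ^ l ∧
      sl i (m i) (p0 i y) = sl i (m i) (p1 i y) := by
  refine ⟨map_Nz _ (fun j => ?_) h, map_Nz _ (fun j => ?_) h,
    eq_on_Nr ((sl i (m i)).comp (p0 i)) ((sl i (m i)).comp (p1 i)) (fun j => ?_) (Nz_le_Nr h)⟩ <;>
    rcases gn_ins (i := i) (I := I) (m := m) j with e | e <;> rw [e]
  · rw [p0_gn hi]; exact mem_Nz _ _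
  · simp
  · rw [p1_gn hi]; exact mem_Nz _ _
  · simpa using zj_mem i (m i)
  · simp [p0_gn hi, p1_gn hi]
  · simp [sl_zj]

/-- gluing -/
theorem glue (hi : i ∉ I) {l : ℕ} {v v' : CA D} (h : v ∈ Nz (gn I m) ^ l)
    (h' : v' ∈ Nz (gn I m) ^ l) (e : sl i (m i) v = sl i (m i) v') :
    ∃ y ∈ Nz (gn (insert i I) m) ^ l, p0 i y = v ∧ p1 i y = v' := by
  have f0 : ∀ {y}, y ∈ Nz (gn I m) ^ l → p0 i y = y := fun hy =>
    eq_on_Nr (p0 i) (AlgHom.id ℝ _) (p0_gn hi) (Nz_le_Nr hy)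
  have f1 : ∀ {y}, y ∈ Nz (gn I m) ^ l → p1 i y = y := fun hy =>
    eq_on_Nr (p1 i) (AlgHom.id ℝ _) (p1_gn hi) (Nz_le_Nr hy)
  refine ⟨v + ind i * (v' - v), add_mem (pow_mono h) ?_, by simp [f0 h], by simp [f1 h, f1 h']⟩
  have h1 := div_Nz (sl i (m i)) (fun j => (sl_gn hi _ j).1) (fun j => (sl_gn hi _ j).2)
    (sub_mem h' h)
  rw [map_sub, e, sub_self, sub_zero] at h1
  generalize v' - v = w at h1
  induction h1 using Submodule.span_induction with
  | mem w hw =>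
    obtain ⟨q, l', rfl, hq, rfl⟩ := hw
    rw [← mul_assoc]
    exact mul_mem_succ (ej_mem (mem_insert_self _ _)) (pow_mono hq)
  | zero => simp
  | add x y _ _ hx hy => rw [mul_add]; exact add_mem hx hy
  | smul n y _ hy => rw [mul_smul_comm]; exact Submodule.smul_mem _ _ hy

theorem gn_adm (j : Option (Fin D ⊕ Fin D)) (S : Finset (Fin D)) :
    IsInt (gn I m j S) ∧ (gn I m j S).totalDegree ≤ 1 := by
  have hz : ∀ (j : Fin D) (x : ℤ), IsInt (zj j x S) ∧ (zj j x S).totalDegree ≤ 1 := fun j x =>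
    ⟨(isInt_X j).sub (isInt_C_int x), (totalDegree_sub _ _).trans
      (max_le (totalDegree_X j).le (by rw [totalDegree_C]; exact zero_le_one))⟩
  rcases j with _ | j | j
  · exact ⟨isInt_one, by simp [gn]⟩
  · exact hz j 0
  · simp only [gn]
    split_ifs
    · simp only [Pi.mul_apply, ind]
      split_ifs
      · simpa using hz j (m j)
      · simpa using isInt_zero
    · simpa using isInt_zero

theorem deg_le {l : ℕ} {y : CA D} (h : y ∈ Nr (gn I m) ^ l) (S : Finset (Fin D)) :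
    (y S).totalDegree ≤ l :=
  Nr_ind (P := fun l y => (y S).totalDegree ≤ l) (by simp)
    (fun l j y hy => (totalDegree_mul _ _).trans (by have := (gn_adm (I := I) (m := m) j S).2; omega))
    (fun l => by simp) (fun l x y hx hy => (totalDegree_add _ _).trans (max_le hx hy))
    (fun l n y hy => (totalDegree_smul_le _ _).trans hy) h

theorem int_of {l : ℕ} {y : CA D} (h : y ∈ Nz (gn I m) ^ l) (S : Finset (Fin D)) : IsInt (y S) :=
  Nz_ind (P := fun _ y => IsInt (y S)) isInt_one (fun l j y hy => (gn_adm j S).1.mul hy)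
    (fun l => isInt_zero) (fun l x y hx hy => hx.add hy)
    (fun l n y hy => by simpa [zsmul_eq_mul] using hy.int_mul n) h

theorem eq_zero_of_coeff {l : ℕ} {p : Pl (Fin D)} (h : p.totalDegree ≤ l)
    (h0 : ∀ α ∈ mi D l, coeff α p = 0) : p = 0 :=
  MvPolynomial.ext _ _ fun α => by
    by_contra hα
    exact hα (h0 α (mem_mi.2 (Fm.degree_le_of_totalDegree h (mem_support_iff.2 hα))))

theorem lat (l : ℕ) : IsLat (Nz (gn I m) ^ l) :=
  isLat_of_int (β := Finset (Fin D) × {α // α ∈ mi D l})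
    (LinearMap.pi fun b => lcoeff ℝ b.2.1 ∘ₗ LinearMap.proj b.1) (fun _ hy b => int_of hy b.1 b.2.1)
    fun _ hy h0 => funext fun S => eq_zero_of_coeff (deg_le (Nz_le_Nr hy) S)
      fun α hα => congrFun h0 (S, ⟨α, hα⟩)

/-! ### norms -/

/-- squared Taylor norm of a polynomial -/
def n2 (σ : ℝ) (s : ℕ) (p : Pl (Fin D)) : ℝ := ∑ α ∈ mi D s, (coeff α p / σ ^ α.degree) ^ 2

/-- squared norm of a family -/
def sq2 (σ : ℝ) (s : ℕ) (Y : CA D) : ℝ := (2 ^ D : ℝ)⁻¹ * ∑ S, n2 σ s (Y S)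

theorem n2_nonneg (σ : ℝ) (s : ℕ) (p : Pl (Fin D)) : 0 ≤ n2 σ s p :=
  sum_nonneg fun _ _ => sq_nonneg _

theorem sq2_branches (σ : ℝ) (s : ℕ) (i : Fin D) (Y : CA D) :
    sq2 σ s (p0 i Y) + sq2 σ s (p1 i Y) = 2 * sq2 σ s Y := by
  let e : Finset (Fin D) ≃ Finset (Fin D) :=
    Function.Involutive.toPerm (fun S => if i ∈ S then S.erase i else insert i S) fun S => by
      by_cases h : i ∈ S <;> simp [h]
  have h1 : ∑ S, n2 σ s (Y (e S)) = ∑ S, n2 σ s (Y S) := e.sum_comp fun S => n2 σ s (Y S)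
  have h2 : ∑ S, n2 σ s (p0 i Y S) + ∑ S, n2 σ s (p1 i Y S) =
      ∑ S, n2 σ s (Y (e S)) + ∑ S, n2 σ s (Y S) := by
    rw [← sum_add_distrib, ← sum_add_distrib]
    refine sum_congr rfl fun S _ => ?_
    show n2 σ s (Y (S.erase i)) + n2 σ s (Y (insert i S)) =
      n2 σ s (Y (if i ∈ S then S.erase i else insert i S)) + _
    by_cases h : i ∈ S
    · rw [if_pos h, insert_eq_of_mem h]
    · rw [if_neg h, erase_eq_of_notMem h, add_comm]
  rw [sq2, sq2, sq2, ← mul_add, h2, h1]; ring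

theorem sq2_eq_zero {σ : ℝ} (hσ : 0 < σ) {s l : ℕ} (hl : l ≤ s) {y : CA D}
    (h : y ∈ Nr (gn I m) ^ l) (h0 : sq2 σ s y ≤ 0) : y = 0 := by
  have h1 : ∑ S, n2 σ s (y S) = 0 := le_antisymm
    (nonpos_of_mul_nonpos_right h0 (by positivity) |> fun h => h)
    (sum_nonneg fun _ _ => n2_nonneg _ _ _)
  funext S
  have h2 := (sum_eq_zero_iff_of_nonneg fun _ _ => n2_nonneg _ _ _).1 h1 S (mem_univ _)
  refine eq_zero_of_coeff ((deg_le h S).trans hl) fun α hα => ?_
  have h3 := (sum_eq_zero_iff_of_nonneg fun _ _ => sq_nonneg _).1 h2 α hα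
  simpa [hσ.ne'] using h3

/-- `ℓ¹` Taylor norm -/
def nv (σ : ℝ) (p : Pl (Fin D)) : ℝ := nrm (dil σ⁻¹ p)

theorem n2_le (σ : ℝ) (s : ℕ) (p : Pl (Fin D)) : n2 σ s p ≤ nv σ p ^ 2 := by
  have h1 : ∑ α ∈ mi D s, |coeff α (dil σ⁻¹ p)| ≤ nv σ p := by
    rw [nv, nrm_eq_sum (s := mi D s ∪ (dil σ⁻¹ p).support) subset_union_right]
    exact sum_le_sum_of_subset_of_nonneg subset_union_left fun _ _ _ => abs_nonneg _
  refine le_trans ?_ (pow_le_pow_left₀ (sum_nonneg fun _ _ => abs_nonneg _) h1 2)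
  refine le_trans (le_of_eq ?_) (sum_sq_le_sq_sum_of_nonneg fun _ _ => abs_nonneg _)
  refine sum_congr rfl fun α _ => ?_
  rw [sq_abs, coeff_dil, inv_pow, div_eq_mul_inv]

theorem sq2_le {σ B : ℝ} {s : ℕ} {Y : CA D} (h : ∀ S, nv σ (Y S) ≤ B) : sq2 σ s Y ≤ B ^ 2 := by
  rw [sq2, inv_mul_le_iff₀ (by positivity)]
  refine (sum_le_card_nsmul _ _ (B ^ 2) fun S _ => (n2_le σ s _).trans
    (pow_le_pow_left₀ (nrm_nonneg _) (h S) 2)).trans (le_of_eq ?_)
  simp

theorem nv_prod {σ B : ℝ} {α : Type} (U : Finset α) {v : α → CA D} (h : ∀ a ∈ U, ∀ S, nv σ (v a S) ≤ B)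
    (S : Finset (Fin D)) : nv σ ((∏ a ∈ U, v a) S) ≤ B ^ #U := by
  rw [Finset.prod_apply, nv, map_prod]
  refine (nrm_prod_le _ _).trans ?_
  rw [← prod_const]
  exact prod_le_prod (fun _ _ => nrm_nonneg _) fun a ha => h a ha S

theorem nv_one (σ : ℝ) : nv σ (1 : Pl (Fin D)) = 1 := by simp [nv]

theorem nv_zero (σ : ℝ) : nv σ (0 : Pl (Fin D)) = 0 := by simp [nv]

theorem nv_add (σ : ℝ) (p q : Pl (Fin D)) : nv σ (p + q) ≤ nv σ p + nv σ q := by
  rw [nv, map_add]; exact nrm_add_le _ _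

theorem nv_smul (σ r : ℝ) (p : Pl (Fin D)) : nv σ (r • p) = |r| * nv σ p := by
  rw [nv, map_smul, nrm_smul]; rfl

theorem nv_zj {σ : ℝ} (hσ : 0 < σ) (j : Fin D) (x : ℤ) (S : Finset (Fin D)) :
    nv σ (zj j x S) ≤ σ⁻¹ + |(x : ℝ)| := by
  rw [nv, zj, map_sub]
  refine (nrm_sub_le _ _).trans (le_of_eq ?_)
  rw [dil, bind₁_X_right, bind₁_C_right, nrm_C_mul, nrm_X, nrm_C, mul_one, abs_of_pos (inv_pos.2 hσ)]

theorem nv_ej {σ : ℝ} (hσ : 0 < σ) (j : Fin D) (x : ℤ) (S : Finset (Fin D)) :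
    nv σ ((ind j * zj j x) S) ≤ σ⁻¹ + |(x : ℝ)| := by
  simp only [Pi.mul_apply, ind]
  split_ifs
  · rw [one_mul]; exact nv_zj hσ j x S
  · rw [zero_mul, nv_zero]; positivity

/-- values are bounded by the Taylor norm -/
theorem ev_sq_le {σ : ℝ} (hσ : 0 < σ) {s : ℕ} {p : Pl (Fin D)} (hp : p.totalDegree ≤ s)
    {t : Fin D → ℤ} (ht : ∀ j, |(t j : ℝ)| * σ ≤ 1) : ev t p ^ 2 ≤ #(mi D s) * n2 σ s p := by
  have h1 : ev t p = ∑ α ∈ mi D s, coeff α p / σ ^ α.degree * ∏ j, ((t j : ℝ) * σ) ^ α j := by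
    rw [ev, eval_eq', sum_subset (s₂ := mi D s)
      (fun α hα => mem_mi.2 (Fm.degree_le_of_totalDegree hp hα))
      fun α _ hα => by rw [notMem_support_iff.1 hα, zero_mul]]
    refine sum_congr rfl fun α _ => ?_
    simp only [mul_pow, prod_mul_distrib, prod_pow_eq_pow_sum, ← Finsupp.degree_eq_sum]
    field_simp
  rw [h1]
  refine sq_sum_le_card_mul_sum_sq.trans (mul_le_mul_of_nonneg_left (sum_le_sum fun α _ => ?_)
    (Nat.cast_nonneg _))
  rw [mul_pow]
  refine mul_le_of_le_one_right (sq_nonneg _) ?_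
  rw [sq_le_one_iff_abs_le_one, abs_prod]
  refine prod_le_one (fun _ _ => abs_nonneg _) fun j _ => ?_
  rw [abs_pow, abs_mul, abs_of_pos hσ]
  exact pow_le_one₀ (by positivity) (ht j)

end Crest.Agent.T49.Nv
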