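import Crest.Agent.T49.NvB_74

/-! # Row 49 (helper74): NV, box averages, good triples, Cauchy-Schwarz along one axis -/

set_option autoImplicit false

noncomputable section

namespace Crest.Agent.T49.Nv

open Tw Rng Gl Finset MvPolynomial Function
open Crest.Agent.T49.Box (cj bx W IsW)
open scoped ComplexConjugate

section Box
variable {κ X : Type} [Fintype κ] [DecidableEq κ] {A : κ → Finset X} {p : κ → X → ℝ}

/-- the product over the vertices of a box -/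
def Gam (K : Finset κ) (F : (κ → X) → ℂ) (z : (κ → X) × (κ → X)) : ℂ :=
  ∏ S ∈ K.powerset, cj #S (F (S.piecewise z.2 z.1))

/-- pairs of positions -/
def PP (A : κ → Finset X) : Finset ((κ → X) × (κ → X)) := Fintype.piFinset A ×ˢ Fintype.piFinset A

/-- their weights -/
def qq (p : κ → X → ℝ) (z : (κ → X) × (κ → X)) : ℝ := (∏ j, p j (z.1 j)) * ∏ j, p j (z.2 j)

theorem bx_eq (K : Finset κ) (F : (κ → X) → ℂ) :
    bx A p K F = ∑ z ∈ PP A, (qq p z : ℂ) * Gam K F z := by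
  simp only [bx, W, PP, sum_product, mul_sum, qq, Gam, Complex.ofReal_mul, mul_assoc]

theorem qq_nonneg (hp : IsW A p) : ∀ z ∈ PP A, 0 ≤ qq p z := fun _ hz =>
  mul_nonneg (Box.wt_nonneg hp (mem_product.1 hz).1) (Box.wt_nonneg hp (mem_product.1 hz).2)

theorem qq_sum (hp : IsW A p) : ∑ z ∈ PP A, qq p z = 1 := by
  simp only [PP, sum_product, qq, ← mul_sum, Box.wt_sum hp, mul_one]

omit [Fintype κ] in
theorem Gam_mul (K : Finset κ) (F F' : (κ → X) → ℂ) (z : (κ → X) × (κ → X)) :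
    Gam K (fun x => F x * conj (F' x)) z = Gam K F z * conj (Gam K F' z) := by
  simp only [Gam, map_prod, ← prod_mul_distrib, Box.cj_mul, ← Box.cj_succ, Box.cj_succ']

omit [Fintype κ] in
theorem norm_Gam_le (K : Finset κ) {F : (κ → X) → ℂ} (h : ∀ x, ‖F x‖ ≤ 1)
    (z : (κ → X) × (κ → X)) : ‖Gam K F z‖ ≤ 1 := by
  rw [Gam, norm_prod]
  exact prod_le_one (fun _ _ => norm_nonneg _) fun _ _ => by rw [Box.norm_cj]; exact h _

theorem norm_avg_le {α : Type} {P : Finset α} {q : α → ℝ} (h0 : ∀ z ∈ P, 0 ≤ q z)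
    (h1 : ∑ z ∈ P, q z = 1) {g : α → ℂ} {B : ℝ} (hg : ∀ z ∈ P, ‖g z‖ ≤ B) :
    ‖∑ z ∈ P, (q z : ℂ) * g z‖ ≤ B := by
  refine (norm_sum_le _ _).trans ((sum_le_sum (g := fun z => q z * B) fun z hz => ?_).trans ?_)
  · rw [norm_mul, Complex.norm_real, Real.norm_of_nonneg (h0 z hz)]
    exact mul_le_mul_of_nonneg_left (hg z hz) (h0 z hz)
  · rw [← sum_mul, h1, one_mul]

theorem norm_bx_le (hp : IsW A p) (K : Finset κ) {F : (κ → X) → ℂ} (h : ∀ x, ‖F x‖ ≤ 1) :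
    ‖bx A p K F‖ ≤ 1 := by
  rw [bx_eq]; exact norm_avg_le (qq_nonneg hp) (qq_sum hp) fun z _ => norm_Gam_le K h z

theorem bx_res (hp : IsW A p) {K : Finset κ} {i : κ} (hi : i ∉ K) (H : (κ → X) → ℂ) :
    bx A p K H = ∑ a ∈ A i, (p i a : ℂ) * bx A p K fun x => H (update x i a) := by
  unfold bx
  rw [Box.W_update hp i, ← Box.W_sum]
  refine Box.W_congr fun x _ => sum_congr rfl fun a _ => ?_
  congr 2
  funext x'
  refine prod_congr rfl fun S hS => ?_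
  congr 2
  funext j
  have hiS : i ∉ S := fun h => hi (mem_powerset.1 hS h)
  by_cases h : j = i
  · subst h; simp [hiS]
  · by_cases h' : j ∈ S <;> simp [h, h']

/-- the box average, split along one direction -/
theorem bx_ins (hp : IsW A p) {K : Finset κ} {i : κ} (hi : i ∉ K) (F : (κ → X) → ℂ) :
    bx A p (insert i K) F = ∑ y ∈ A i, (p i y : ℂ) * ∑ z ∈ PP A, (qq p z : ℂ) *
      ((∑ a ∈ A i, (p i a : ℂ) * Gam K (fun x => F (update x i a)) z) *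
        conj (Gam K (fun x => F (update x i y)) z)) := by
  rw [Box.bx_insert hp hi]
  refine sum_congr rfl fun y _ => ?_
  rw [bx_res hp hi]
  simp only [update_idem, bx_eq, Gam_mul, mul_sum, sum_mul]
  rw [sum_comm]
  exact sum_congr rfl fun z _ => sum_congr rfl fun a _ => by ring

theorem bx_pair {K : Finset κ} {i : κ} (F F' : (κ → X) → ℂ) :
    ∑ z ∈ PP A, (qq p z : ℂ) * ((∑ a ∈ A i, (p i a : ℂ) * Gam K (fun x => F (update x i a)) z) *
      conj (∑ a ∈ A i, (p i a : ℂ) * Gam K (fun x => F' (update x i a)) z)) =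
    ∑ b ∈ A i ×ˢ A i, ((p i b.1 * p i b.2 : ℝ) : ℂ) *
      bx A p K fun x => F (update x i b.1) * conj (F' (update x i b.2)) := by
  simp only [bx_eq, Gam_mul, mul_sum, sum_mul, map_sum, map_mul, Complex.conj_ofReal, sum_product]
  rw [sum_comm, sum_congr rfl fun _ _ => sum_comm, sum_comm]
  refine sum_congr rfl fun a _ => sum_congr rfl fun b _ => sum_congr rfl fun z _ => ?_
  push_cast; ring

end Box

/-! ### good triples -/

/-- a centre and two positions in general position -/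
structure G3 (L G : ℕ) (x a a' : ℤ) : Prop where
  hx : x ∈ Ico (0 : ℤ) L
  ha : a ∈ Ico (0 : ℤ) L
  ha' : a' ∈ Ico (0 : ℤ) L
  gcd : Int.gcd (a - x) (a' - x) ≤ G
  far : (L : ℤ) ≤ G * |a - x|
  far' : (L : ℤ) ≤ G * |a' - x|

theorem card_dvd (L d : ℕ) (hd : 0 < d) (hdL : d ≤ L) (x : ℤ) :
    (#{a ∈ Ico (0 : ℤ) L | (d : ℤ) ∣ a - x} : ℝ) ≤ 2 * L / d := by
  have h : #{a ∈ Ico (0 : ℤ) L | (d : ℤ) ∣ a - x} ≤ #(Icc (0 : ℤ) (L / d : ℕ)) := by
    refine card_le_card_of_injOn (fun a => a / d) (fun a ha => ?_) fun a ha b hb e => ?_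
    · have h1 := mem_Ico.1 (mem_filter.1 (mem_coe.1 ha)).1
      refine mem_coe.2 (mem_Icc.2 ⟨Int.ediv_nonneg h1.1 (by omega), ?_⟩)
      push_cast
      exact Int.ediv_le_ediv (by omega) h1.2.le
    · have h1 : (d : ℤ) ∣ a - b := by
        simpa using dvd_sub (mem_filter.1 (mem_coe.1 ha)).2 (mem_filter.1 (mem_coe.1 hb)).2
      have h2 : a % d = b % d := (Int.emod_emod_of_dvd a (dvd_refl _)).symm.trans
        ((Int.emod_eq_emod_iff_emod_sub_eq_zero.2 (Int.emod_eq_zero_of_dvd h1)) ▸ by simp)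
      rw [← Int.mul_ediv_add_emod a d, ← Int.mul_ediv_add_emod b d, h2, show a / d = b / d from e]
  rw [Int.card_Icc, sub_zero, Int.toNat_natCast_add_one] at h
  have h2 : (#{a ∈ Ico (0 : ℤ) L | (d : ℤ) ∣ a - x} : ℝ) ≤ (L / d : ℕ) + 1 := by
    exact_mod_cast h
  have h3 : ((L / d : ℕ) : ℝ) ≤ L / d := Nat.cast_div_le
  have h4 : (1 : ℝ) ≤ L / d := (one_le_div (by exact_mod_cast hd)).2 (by exact_mod_cast hdL)
  rw [mul_div_assoc]; linarith

theorem card_near (L G : ℕ) (hG : 0 < G) (hGL : G ≤ L) (x : ℤ) :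
    (#{a ∈ Ico (0 : ℤ) L | ¬ (L : ℤ) ≤ G * |a - x|} : ℝ) ≤ 3 * L / G := by
  have h : #{a ∈ Ico (0 : ℤ) L | ¬ (L : ℤ) ≤ G * |a - x|} ≤
      #(Icc (x - (L / G : ℕ)) (x + (L / G : ℕ))) := by
    refine card_le_card fun a ha => ?_
    have h1 := not_le.1 (mem_filter.1 ha).2
    have h2 : |a - x| ≤ (L / G : ℕ) := by
      push_cast
      exact Int.le_ediv_of_mul_le (by omega) (by linarith)
    have := abs_le.1 h2
    exact mem_Icc.2 ⟨by omega, by omega⟩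
  rw [Int.card_Icc] at h
  have h2 : (#{a ∈ Ico (0 : ℤ) L | ¬ (L : ℤ) ≤ G * |a - x|} : ℝ) ≤ 2 * (L / G : ℕ) + 1 := by
    exact_mod_cast (by omega : #{a ∈ Ico (0 : ℤ) L | ¬ (L : ℤ) ≤ G * |a - x|} ≤ 2 * (L / G) + 1)
  have h3 : ((L / G : ℕ) : ℝ) ≤ L / G := Nat.cast_div_le
  have h4 : (1 : ℝ) ≤ L / G := (one_le_div (by exact_mod_cast hG)).2 (by exact_mod_cast hGL)
  rw [mul_div_assoc]; linarith

open Classical in
theorem card_bad {L G : ℕ} (hG : 0 < G) (hGL : G ≤ L) {x : ℤ} (hx : x ∈ Ico (0 : ℤ) L) :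
    (#{b ∈ Ico (0 : ℤ) L ×ˢ Ico (0 : ℤ) L | ¬ G3 L G x b.1 b.2} : ℝ) ≤ 10 * L ^ 2 / G := by
  set N := {a ∈ Ico (0 : ℤ) L | ¬ (L : ℤ) ≤ G * |a - x|} with hN
  set M := fun d : ℕ => {a ∈ Ico (0 : ℤ) L | (d : ℤ) ∣ a - x} with hM
  have h : {b ∈ Ico (0 : ℤ) L ×ˢ Ico (0 : ℤ) L | ¬ G3 L G x b.1 b.2} ⊆
      (N ×ˢ Ico (0 : ℤ) L ∪ Ico (0 : ℤ) L ×ˢ N) ∪ (Ioc G L).biUnion fun d => M d ×ˢ M d := by
    intro b hb
    obtain ⟨h1, h2⟩ := mem_filter.1 hb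
    obtain ⟨h3, h4⟩ := mem_product.1 h1
    by_cases f1 : (L : ℤ) ≤ G * |b.1 - x|
    · by_cases f2 : (L : ℤ) ≤ G * |b.2 - x|
      · have f3 : G < Int.gcd (b.1 - x) (b.2 - x) := not_le.1 fun f3 => h2 ⟨hx, h3, h4, f3, f1, f2⟩
        refine mem_union_right _ (mem_biUnion.2 ⟨_, mem_Ioc.2 ⟨f3, ?_⟩, mem_product.2
          ⟨mem_filter.2 ⟨h3, Int.gcd_dvd_left _ _⟩, mem_filter.2 ⟨h4, Int.gcd_dvd_right _ _⟩⟩⟩)
        have f4 : b.1 - x ≠ 0 := fun h => by rw [h] at f1; simp at f1; omega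
        have f5 := Int.le_abs_of_dvd f4 (Int.gcd_dvd_left (b.1 - x) (b.2 - x))
        have := mem_Ico.1 h3
        have := mem_Ico.1 hx
        have : |b.1 - x| ≤ L := abs_le.2 ⟨by omega, by omega⟩
        omega
      · exact mem_union_left _ (mem_union_right _ (mem_product.2 ⟨h3, mem_filter.2 ⟨h4, f2⟩⟩))
    · exact mem_union_left _ (mem_union_left _ (mem_product.2 ⟨mem_filter.2 ⟨h3, f1⟩, h4⟩))
  have h1 := (card_le_card h).trans ((card_union_le _ _).trans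
    (add_le_add (card_union_le _ _) card_biUnion_le))
  simp only [card_product, Int.card_Ico, sub_zero, Int.toNat_natCast] at h1
  have h2 : (#{b ∈ Ico (0 : ℤ) L ×ˢ Ico (0 : ℤ) L | ¬ G3 L G x b.1 b.2} : ℝ) ≤
      #N * L + L * #N + ∑ d ∈ Ioc G L, (#(M d) : ℝ) * #(M d) := by exact_mod_cast h1
  have h3 := card_near L G hG hGL x
  have h4 : ∑ d ∈ Ioc G L, (#(M d) : ℝ) * #(M d) ≤ ∑ d ∈ Ioc G L, 4 * (L : ℝ) ^ 2 * ((d : ℝ) ^ 2)⁻¹ := by
    refine sum_le_sum fun d hd => ?_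
    have := card_dvd L d (by have := (mem_Ioc.1 hd).1; omega) (mem_Ioc.1 hd).2 x
    exact (mul_le_mul this this (Nat.cast_nonneg _) ((Nat.cast_nonneg _).trans this)).trans
      (le_of_eq (by ring))
  rw [← mul_sum] at h4
  have h5 := sum_Ioc_inv_sq_le_sub (α := ℝ) hG.ne' hGL
  have h6 : (0 : ℝ) ≤ (L : ℝ)⁻¹ := by positivity
  have h7 := mul_le_mul_of_nonneg_left (h5.trans (sub_le_self _ h6))
    (show (0 : ℝ) ≤ 4 * (L : ℝ) ^ 2 by positivity)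
  have h8 := mul_le_mul_of_nonneg_right h3 (Nat.cast_nonneg (α := ℝ) L)
  have e1 : (10 : ℝ) * L ^ 2 / G = 2 * (3 * L / G * L) + 4 * L ^ 2 * (G : ℝ)⁻¹ := by ring
  rw [← hN] at h8
  linarith

theorem exists_good {L G : ℕ} (hG : 0 < G) (hGL : G ≤ L) {x : ℤ} (hx : x ∈ Ico (0 : ℤ) L)
    (H : ℤ × ℤ → ℝ) {B t : ℝ} (hB : 0 ≤ B) (ht : 0 < t) (hH : ∀ b, H b ≤ B) (hGt : 20 * B ≤ G * t)
    (h : 2 * t ≤ ∑ b ∈ Ico (0 : ℤ) L ×ˢ Ico (0 : ℤ) L,
      (#(Ico (0 : ℤ) L) : ℝ)⁻¹ * (#(Ico (0 : ℤ) L) : ℝ)⁻¹ * H b) :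
    ∃ a a', G3 L G x a a' ∧ t ≤ H (a, a') := by
  classical
  by_contra hc
  push Not at hc
  have hL : (0 : ℝ) < L := by exact_mod_cast hG.trans_le hGL
  have hG' : (0 : ℝ) < G := by exact_mod_cast hG
  have h1 : ∑ b ∈ Ico (0 : ℤ) L ×ˢ Ico (0 : ℤ) L, H b ≤ ∑ b ∈ Ico (0 : ℤ) L ×ˢ Ico (0 : ℤ) L,
      (t + if ¬ G3 L G x b.1 b.2 then B else 0) := sum_le_sum fun b _ => by
    split_ifs with hb
    · linarith [hc b.1 b.2 hb]
    · linarith [hH b]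
  rw [sum_add_distrib, ← sum_filter, sum_const, sum_const, nsmul_eq_mul, nsmul_eq_mul] at h1
  have h2 := mul_le_mul_of_nonneg_right (card_bad hG hGL hx) hB
  rw [← mul_sum] at h
  simp only [card_product, Int.card_Ico, sub_zero, Int.toNat_natCast, Nat.cast_mul] at h h1
  rw [← mul_inv, ← div_eq_inv_mul, le_div_iff₀ (by positivity)] at h
  have h3 : (10 : ℝ) * L ^ 2 / G * B ≤ L ^ 2 * t / 2 := by
    rw [div_mul_eq_mul_div, div_le_iff₀ hG']
    nlinarith [mul_le_mul_of_nonneg_left hGt (show (0 : ℝ) ≤ L ^ 2 by positivity)]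
  nlinarith [mul_pos (mul_pos hL hL) ht]

/-! ### sums over patterns -/

section Pat
variable {s : ℕ} {A F A0 F0 F1 : Type} [CommRing A] [Algebra ℝ A] [NormedAddCommGroup F]
  [InnerProductSpace ℝ F] [CommRing A0] [Algebra ℝ A0] [NormedAddCommGroup F0]
  [InnerProductSpace ℝ F0] [NormedAddCommGroup F1] [InnerProductSpace ℝ F1]
  {ι : Type} [Fintype ι] {T : Cell ι}

theorem tsum_avg (R : Rg s A F) (hlev : ∀ c, T.lev c ≤ s) {o : Off ι A} (ho : R.OffMem T o)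
    {α : Type} (P : Finset α) (c : α → ℂ) {g : α → R.Pt T → ℂ} (hg : ∀ z w, ‖g z w‖ ≤ 1) :
    ∑' w, R.wt T o w • ∑ z ∈ P, c z * g z w = ∑ z ∈ P, c z * ∑' w, R.wt T o w • g z w := by
  simp only [smul_sum, ← tsum_mul_left, mul_smul_comm]
  refine Summable.tsum_finsetSum fun z _ => R.summable_smul hlev ho (B := ‖c z‖) fun w => ?_
  rw [norm_mul]
  exact mul_le_of_le_one_right (norm_nonneg _) (hg z w)

theorem norm_tsum_le (R : Rg s A F) (hlev : ∀ c, T.lev c ≤ s) {o : Off ι A} (ho : R.OffMem T o)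
    {g : R.Pt T → ℂ} (hg : ∀ w, ‖g w‖ ≤ 1) : ‖∑' w, R.wt T o w • g w‖ ≤ R.M T o :=
  tsum_of_norm_bounded (R.summable_wt hlev ho).hasSum fun w => by
    rw [norm_smul, Real.norm_of_nonneg (R.wt_pos _ _).le]
    exact mul_le_of_le_one_right (R.wt_pos _ _).le (hg w)

theorem cs_avg {R : Rg s A F} {R0 : Rg s A0 F0} (S : Sur R R0 F1) (hlev : ∀ c, T.lev c ≤ s)
    {o : Off ι A} (ho : R.OffMem T o) {α : Type} {P : Finset α} {q : α → ℝ}
    (h0 : ∀ z ∈ P, 0 ≤ q z) (h1 : ∑ z ∈ P, q z = 1) {G : α → R.Pt T → ℂ} {h : α → R0.Pt T → ℂ}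
    (hG : ∀ z w, ‖G z w‖ ≤ 1) (hh : ∀ z w, ‖h z w‖ ≤ 1) :
    ‖∑' w, R.wt T o w • ∑ z ∈ P, (q z : ℂ) * (G z w * h z (S.pt w))‖ ^ 2 ≤
      R0.M T (o.map S.φ) * (∑' W, (S.fibRg S).wt T (o.pair o) W • ∑ z ∈ P, (q z : ℂ) *
        (G z ((S.fst S).pt W) * conj (G z ((S.snd S).pt W)))).re := by
  have b : ∀ {x y : ℂ}, ‖x‖ ≤ 1 → ‖y‖ ≤ 1 → ‖x * y‖ ≤ 1 := fun hx hy => by
    rw [norm_mul]; exact mul_le_one₀ hx (norm_nonneg _) hy
  rw [tsum_avg R hlev ho P _ fun z w => b (hG z w) (hh z _),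
    tsum_avg _ hlev (S.offMem_pair S ho ho rfl) P _ fun z w => b (hG z _) (by simpa using hG z _)]
  have h2 := Box.cs_wt P q h0 (fun _ => 1)
    (fun z => ∑' w, R.wt T o w • (G z w * h z (S.pt w))) (by simp)
  simp only [one_mul, h1] at h2
  refine h2.trans ?_
  rw [Complex.re_sum, mul_sum]
  refine sum_le_sum fun z hz => ?_
  rw [Complex.re_ofReal_mul, mul_left_comm]
  refine mul_le_mul_of_nonneg_left ((S.cs hlev ho (hG z) (hh z)).trans
    (mul_le_mul_of_nonneg_right ?_ ?_)) (h0 z hz)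
  · have s0 := R0.summable_wt hlev (S.offMem_map ho)
    have hle : ∀ w, R0.wt T (o.map S.φ) w * ‖h z w‖ ^ 2 ≤ R0.wt T (o.map S.φ) w := fun w =>
      mul_le_of_le_one_right (R0.wt_pos _ _).le (pow_le_one₀ (norm_nonneg _) (hh z w))
    exact (Summable.of_nonneg_of_le (fun w => mul_nonneg (R0.wt_pos _ _).le (sq_nonneg _)) hle
      s0).tsum_le_tsum hle s0
  · exact (S.hasSum_sq hlev ho (hG z)).nonneg fun w => mul_nonneg (R0.wt_pos _ _).le (sq_nonneg _)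

end Pat

end Crest.Agent.T49.Nv
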