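import Crest.Agent.T49.RiDef_12
import Crest.Agent.T49.HkA_67
import Crest.Agent.T49.MxCell_53
import Crest.Agent.T49.RngTB_63

/-!
# Row 49 (helper10): the cell of the Host-Kra cubes and its mass
-/

set_option autoImplicit false
set_option linter.unusedSectionVars false

noncomputable section

namespace Crest.Agent.T49.Ri.Zm10

open Finset MvPolynomial
open Crest.Agent.T49.Tw Crest.Agent.T49.Hk
open scoped Classical

variable {κ : Type} [Fintype κ] [DecidableEq κ]

/-- the sign function of a direction -/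
def sn (b : Bool) : ℤ := if b then 1 else -1

/-- Walsh functions -/
def wal (β ω : κ → Bool) : ℝ := ∏ i, if β i then (sn (ω i) : ℝ) else 1

theorem abs_wal (β ω : κ → Bool) : |wal β ω| = 1 := by
  rw [wal, abs_prod]
  refine prod_eq_one fun i _ => ?_
  cases β i <;> cases ω i <;> simp [sn]

theorem sum_bool_prod (f : κ → Bool → ℝ) :
    ∑ ω : κ → Bool, ∏ i, f i (ω i) = ∏ i, (f i true + f i false) := by
  have := Finset.prod_univ_sum (fun _ : κ => (univ : Finset Bool)) f
  rw [Fintype.piFinset_univ] at this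
  rw [← this]
  exact prod_congr rfl fun i _ => Fintype.sum_bool _

theorem wal_orth (β β' : κ → Bool) :
    ∑ ω, wal β ω * wal β' ω = if β = β' then (2 : ℝ) ^ Fintype.card κ else 0 := by
  simp only [wal, ← prod_mul_distrib]
  rw [sum_bool_prod fun i b => (if β i then (sn b : ℝ) else 1) * if β' i then (sn b : ℝ) else 1]
  split_ifs with h
  · subst h
    rw [← card_univ, ← prod_const]
    refine prod_congr rfl fun i _ => ?_
    cases β i <;> norm_num [sn]
  · obtain ⟨i, hi⟩ := Function.ne_iff.1 h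
    refine prod_eq_zero (mem_univ i) ?_
    revert hi
    cases β i <;> cases β' i <;> norm_num [sn]

theorem wal_orth' (ω ω' : κ → Bool) :
    ∑ β, wal β ω * wal β ω' = if ω = ω' then (2 : ℝ) ^ Fintype.card κ else 0 := by
  simp only [wal, ← prod_mul_distrib]
  rw [sum_bool_prod fun i b => (if b then (sn (ω i) : ℝ) else 1) * if b then (sn (ω' i) : ℝ) else 1]
  simp only [if_true, Bool.false_eq_true, if_false]
  split_ifs with h
  · subst h
    rw [← card_univ, ← prod_const]
    refine prod_congr rfl fun i _ => ?_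
    cases ω i <;> norm_num [sn]
  · obtain ⟨i, hi⟩ := Function.ne_iff.1 h
    refine prod_eq_zero (mem_univ i) ?_
    revert hi
    cases ω i <;> cases ω' i <;> norm_num [sn]

theorem parseval (F : (κ → Bool) → ℝ) :
    ∑ β, (∑ ω, wal β ω * F ω) ^ 2 = 2 ^ Fintype.card κ * ∑ ω, F ω ^ 2 := by
  have h : ∀ β, (∑ ω, wal β ω * F ω) ^ 2 = ∑ ω, ∑ ω', F ω * F ω' * (wal β ω * wal β ω') := by
    intro β
    rw [sq, sum_mul_sum]
    exact sum_congr rfl fun ω _ => sum_congr rfl fun ω' _ => by ring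
  simp only [h]
  rw [sum_comm, mul_sum]
  refine sum_congr rfl fun ω _ => ?_
  rw [sum_comm]
  simp only [← mul_sum, wal_orth', mul_ite, mul_zero, sum_ite_eq, mem_univ, if_true]
  ring

/-- the Walsh coefficients of the monomials -/
def lw (β γ : κ → Bool) : ℝ := ∑ ω, if γ ≤ ω then wal β ω else 0

theorem lw_eq (β γ : κ → Bool) : lw β γ =
    ∏ i, if γ i then (1 : ℝ) else if β i then 0 else 2 := by
  have h : ∀ ω : κ → Bool, (if γ ≤ ω then wal β ω else 0) =
      ∏ i, if γ i ≤ ω i then (if β i then (sn (ω i) : ℝ) else 1) else 0 := fun ω => by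
    split_ifs with h
    · exact prod_congr rfl fun i _ => (if_pos (h i)).symm
    · obtain ⟨i, hi⟩ := not_forall.1 (show ¬ ∀ i, γ i ≤ ω i from h)
      exact (prod_eq_zero (mem_univ i) (if_neg hi)).symm
  simp only [lw, h]
  rw [sum_bool_prod fun i b => if γ i ≤ b then (if β i then (sn b : ℝ) else 1) else 0]
  refine prod_congr rfl fun i _ => ?_
  cases γ i <;> cases β i <;> norm_num [sn]

theorem le_of_lw {β γ : κ → Bool} (h : lw β γ ≠ 0) : β ≤ γ := fun i => by
  rw [lw_eq] at h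
  have := prod_ne_zero_iff.1 h i (mem_univ i)
  revert this
  cases γ i <;> cases β i <;> simp

theorem lw_self (β : κ → Bool) : lw β β = 2 ^ Fintype.card κ / 2 ^ wt β := by
  rw [lw_eq, wt, ← prod_pow_eq_pow_sum, ← card_univ, ← prod_const, ← prod_div_distrib]
  refine prod_congr rfl fun i _ => ?_
  cases β i <;> norm_num

omit [DecidableEq κ] in
theorem wt_le_of_le {β γ : κ → Bool} (h : β ≤ γ) : wt β ≤ wt γ :=
  sum_le_sum fun i _ => by have := h i; revert this; cases β i <;> cases γ i <;> simp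

omit [DecidableEq κ] in
theorem wt_lt_of_le {β γ : κ → Bool} (h : β ≤ γ) (h' : γ ≠ β) : wt β < wt γ := by
  obtain ⟨j, hj⟩ := Function.ne_iff.1 h'
  refine sum_lt_sum (fun i _ => ?_) ⟨j, mem_univ _, ?_⟩
  · have := h i; revert this; cases β i <;> cases γ i <;> simp
  · have := h j; revert this hj; cases β j <;> cases γ j <;> simp

theorem sum_wal_zeta {M : Type*} [AddCommGroup M] [Module ℝ M] (β : κ → Bool)
    (u : (κ → Bool) → M) : ∑ ω, wal β ω • zeta κ M u ω = ∑ γ, lw β γ • u γ := by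
  simp only [zeta_apply, smul_sum, lw, sum_smul]
  rw [sum_comm]
  refine sum_congr rfl fun γ _ => sum_congr rfl fun ω _ => ?_
  split_ifs <;> simp

theorem wal_dF {d : ℕ} {F : (κ → Bool) → ℝ} (hF : F ∈ Cu (dF ℝ d) κ) {β : κ → Bool}
    (hβ : d < wt β) : ∑ ω, wal β ω * F ω = 0 := by
  obtain ⟨u, hu, rfl⟩ := hF
  refine (sum_wal_zeta β u).trans (sum_eq_zero fun γ _ => ?_)
  by_cases h : lw β γ = 0
  · rw [h, zero_smul]
  · rw [mem_dF.1 (hu γ) (hβ.trans_le (wt_le_of_le (le_of_lw h))), smul_zero]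

variable {ι : Type} (T : Cell ι) (κ)

/-- the coordinates of the cubes -/
abbrev KI : Type := {p : ι × (κ → Bool) // wt p.2 ≤ T.lev p.1}

variable {κ}

/-- the parameters as polynomials -/
def uX (c : ι) (β : κ → Bool) : Pl (KI κ T) := if h : wt β ≤ T.lev c then X ⟨(c, β), h⟩ else 0

/-- the vertices as polynomials -/
def vt (ω : κ → Bool) (c : ι) : Pl (KI κ T) := zeta κ _ (uX T c) ω

/-- the normalising constant -/
def nc (κ : Type) [Fintype κ] : ℝ := (√2 ^ Fintype.card κ)⁻¹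

omit [DecidableEq κ] in
theorem nc_pos : 0 < nc κ := by unfold nc; positivity

omit [DecidableEq κ] in
theorem nc_sq : nc κ ^ 2 * 2 ^ Fintype.card κ = 1 := by
  rw [nc, inv_pow, ← pow_mul, mul_comm _ 2, pow_mul, Real.sq_sqrt (by norm_num),
    inv_mul_cancel₀ (by positivity)]

omit [DecidableEq κ] in
theorem nc_mul : nc κ * 2 ^ Fintype.card κ = √2 ^ Fintype.card κ := by
  rw [nc, inv_mul_eq_iff_eq_mul₀ (by positivity), ← mul_pow, Real.mul_self_sqrt (by norm_num)]

omit [DecidableEq κ] in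
theorem nc_le : nc κ ≤ 1 :=
  inv_le_one_of_one_le₀ (one_le_pow₀ (Real.one_le_sqrt.2 (by norm_num)))

theorem uX_hom (c : ι) (β : κ → Bool) :
    IsWeightedHomogeneous (fun p : KI κ T => T.lev p.1.1) (uX T c β) (T.lev c) := by
  unfold uX
  split_ifs
  · exact isWeightedHomogeneous_X _ _ _
  · exact isWeightedHomogeneous_zero _ _ _

theorem vt_hom (ω : κ → Bool) (c : ι) :
    IsWeightedHomogeneous (fun p : KI κ T => T.lev p.1.1) (vt T ω c) (T.lev c) := by
  rw [vt, zeta_apply]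
  refine IsWeightedHomogeneous.sum _ _ _ fun β _ => ?_
  split_ifs
  · exact uX_hom T c β
  · exact isWeightedHomogeneous_zero _ _ _

theorem vt_supp (ω : κ → Bool) (c : ι) {S : Set (KI κ T)} (h : ∀ p : KI κ T, p.1.1 = c → p ∈ S) :
    vt T ω c ∈ supported ℝ S := by
  rw [vt, zeta_apply]
  refine sum_mem fun β _ => ?_
  unfold uX
  split_ifs
  · exact X_mem_supp (h _ rfl)
  · exact zero_mem _
  · exact zero_mem _

/-- **the cell of the cubes** -/
def kc (κ : Type) [Fintype κ] [DecidableEq κ] : Cell (KI κ T) where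
  rk p := T.rk p.1.1 * (Fintype.card κ + 1) + (Fintype.card κ - wt p.1.2)
  a p := nc κ * lw p.1.2 p.1.2 * T.a p.1.1
  B p := ∑ γ ∈ univ.erase p.1.2, C (nc κ * lw p.1.2 γ * T.a p.1.1) * uX T p.1.1 γ +
    ∑ ω, C (nc κ * wal p.1.2 ω) * bind₁ (vt T ω) (T.B p.1.1)
  a_ne p := mul_ne_zero (mul_ne_zero nc_pos.ne' (by rw [lw_self]; positivity)) (T.a_ne _)
  B_mem p := by
    refine add_mem (sum_mem fun γ hγ => ?_) (sum_mem fun ω _ => mul_mem (C_mem_supp _ _)
      (bind_mem_supported (fun c hc => vt_supp T ω c fun q hq => ?_) (T.B_mem _)))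
    · by_cases h : lw p.1.2 γ = 0
      · simp [h]
      · refine mul_mem (C_mem_supp _ _) ?_
        unfold uX
        split_ifs
        · refine X_mem_supp ?_
          have h1 := wt_lt_of_le (le_of_lw h) (mem_erase.1 hγ).1
          have h2 := wt_le γ
          simp only [Set.mem_ofPred_eq]
          omega
        · exact zero_mem _
    · have h1 : T.rk q.1.1 + 1 ≤ T.rk p.1.1 := by rw [hq]; exact hc
      have h2 := Nat.mul_le_mul_right (Fintype.card κ + 1) h1
      simp only [Set.mem_ofPred_eq]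
      rw [add_mul] at h2
      omega
  lev p := T.lev p.1.1
  lev_pos p := T.lev_pos _
  deg p := (degLe_sum fun γ _ => (DegLe.of_hom (uX_hom T _ γ)).C_mul _).add
    (degLe_sum fun ω _ => (DegLe.bind (fun c => DegLe.of_hom (vt_hom T ω c)) (T.deg _)).C_mul _)

theorem kc_th (p : KI κ T) :
    (kc T κ).th p = ∑ ω, C (nc κ * wal p.1.2 ω) * bind₁ (vt T ω) (T.th p.1.1) := by
  have h1 : (X p : Pl (KI κ T)) = uX T p.1.1 p.1.2 := by rw [uX, dif_pos p.2]
  have h2 := sum_wal_zeta p.1.2 (uX T p.1.1)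
  simp only [smul_eq_C_mul] at h2
  show C (nc κ * lw p.1.2 p.1.2 * T.a p.1.1) * X p + (_ + _) = _
  rw [h1, ← add_assoc, add_sum_erase univ (fun γ => C (nc κ * lw p.1.2 γ * T.a p.1.1) *
    uX T p.1.1 γ) (mem_univ _)]
  simp only [Tri.th, map_add, map_mul, bind₁_C_right, bind₁_X_right, mul_add, sum_add_distrib]
  congr 1
  calc _ = C (nc κ) * C (T.a p.1.1) * ∑ γ, C (lw p.1.2 γ) * uX T p.1.1 γ := by
        rw [mul_sum]; exact sum_congr rfl fun γ _ => by ring
    _ = _ := by
        rw [← h2, mul_sum]; exact sum_congr rfl fun ω _ => by rw [vt]; ring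

theorem kc_tth (p : KI κ T) :
    (kc T κ).tth p = ∑ ω, C (nc κ * wal p.1.2 ω) * bind₁ (vt T ω) (T.tth p.1.1) := by
  rw [Cell.tth, kc_th, Cell.top, map_sum]
  refine sum_congr rfl fun ω _ => ?_
  rw [whc_C_mul']
  exact congrArg _ (whc_bind_hom (vt_hom T ω) _ _)

theorem kc_isMC {cl : ι → ℕ} (h : T.IsMC cl) : (kc T κ).IsMC (cl ∘ fun p => p.1.1) := by
  refine Cell.isMC_of_th (fun p => h.pos _) fun p => ?_
  rw [kc_th]
  refine MCP.sum _ fun ω _ => MCP.C_mul _ (MCP.bind (fun c => ?_) (h.th _))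
  rw [vt, zeta_apply]
  refine MCP.sum _ fun β _ => ?_
  unfold uX
  split_ifs
  · exact MCP.X' rfl
  · exact MCP.zero
  · exact MCP.zero

/-- the parameters of a point -/
def parK : (KI κ T → ℤ) ≃ Par (lvl T.lev) κ where
  toFun p := ⟨fun β c => if h : wt β ≤ T.lev c then p ⟨(c, β), h⟩ else 0,
    fun β c hc => dif_neg (not_le.2 hc)⟩
  invFun u p := u.1 p.1.2 p.1.1
  left_inv p := funext fun q => dif_pos q.2
  right_inv u := Subtype.ext (funext fun β => funext fun c => by
    dsimp only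
    split_ifs with h
    · rfl
    · exact (u.2 β c (not_le.1 h)).symm)

/-- points of the cube cell are the cubes -/
def kE : (KI κ T → ℤ) ≃ Cu (lvl T.lev) κ := (parK T).trans (parE _ _)

theorem ev_vt (p : KI κ T → ℤ) (ω : κ → Bool) (c : ι) :
    ev p (vt T ω c) = ((kE T p).1 ω c : ℝ) := by
  show _ = ((zeta κ _ (parK T p).1 ω c : ℤ) : ℝ)
  rw [vt, zeta_apply, zeta_apply, ev_sum, Finset.sum_apply, Int.cast_sum]
  refine sum_congr rfl fun β _ => ?_
  split_ifs
  · show ev p (uX T c β) = ((if h : wt β ≤ T.lev c then p ⟨(c, β), h⟩ else 0 : ℤ) : ℝ)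
    unfold uX
    split_ifs <;> simp
  · simp

variable [Fintype ι]

theorem kc_wgt (p : KI κ T → ℤ) : (kc T κ).wgt p = ∏ ω, T.wgt ((kE T p).1 ω) := by
  simp only [Tri.wgt]
  rw [← Real.exp_sum, ← mul_sum, sum_comm]
  congr 2
  set F : ι → (κ → Bool) → ℝ := fun c ω => ev ((kE T p).1 ω) (T.th c) with hF
  have h1 : ∀ q : KI κ T, ev p ((kc T κ).th q) = nc κ * ∑ ω, wal q.1.2 ω * F q.1.1 ω := fun q => by
    rw [kc_th, ev_sum, mul_sum]
    exact sum_congr rfl fun ω _ => by
      rw [ev_mul, ev_C, ev_bind_of_eq (ev_vt T p ω), mul_assoc]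
  simp only [h1]
  rw [← sum_subtype (univ.filter fun q : ι × (κ → Bool) => wt q.2 ≤ T.lev q.1) (by simp)
    fun q => (nc κ * ∑ ω, wal q.2 ω * F q.1 ω) ^ 2, sum_filter, Fintype.sum_prod_type]
  refine sum_congr rfl fun c _ => ?_
  have h2 : F c ∈ Cu (dF ℝ (T.lev c)) κ := eval_mem_dF (kE T p).2 (Rng.degLe_th T c)
  calc _ = ∑ β, nc κ ^ 2 * (∑ ω, wal β ω * F c ω) ^ 2 := sum_congr rfl fun β _ => by
        split_ifs with h
        · ring
        · rw [wal_dF h2 (not_le.1 h)]; ring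
    _ = _ := by rw [← mul_sum, parseval, ← mul_assoc, nc_sq, one_mul]

theorem kc_M (s : ℕ) : (kc T (Fin s)).M = Zm (lvl T.lev) s T.wgt := by
  rw [Zm, ← (kE T).tsum_eq, Tri.M]
  exact tsum_congr fun p => kc_wgt T p

theorem kc_a (p : KI κ T) : |(kc T κ).a p| = √2 ^ Fintype.card κ / 2 ^ wt p.1.2 * |T.a p.1.1| := by
  show |nc κ * lw p.1.2 p.1.2 * T.a p.1.1| = _
  rw [lw_self, ← mul_div_assoc, nc_mul, abs_mul, abs_of_pos (by positivity)]

theorem kc_mu (s : ℕ) : (kc T (Fin s)).mu = muK T s := by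
  rw [Tri.mu, muK]
  simp only [kc_a, Fintype.card_fin]
  rw [← prod_subtype (univ.filter fun q : ι × (Fin s → Bool) => wt q.2 ≤ T.lev q.1) (by simp)
    fun q => (√2 ^ s / 2 ^ wt q.2 * |T.a q.1|)⁻¹, prod_filter, Fintype.prod_prod_type]

/-- the generators in degree one -/
def gen : Option κ → (κ → Bool) → ℤ := fun o ω => o.elim 1 fun i => sn (ω i)

theorem gen_mem (o : Option κ) : gen o ∈ Cu (dF ℤ 1) κ := by
  cases o with
  | none => exact const_mem_dF 1 (1 : ℤ)
  | some i =>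
    have h1 : wt (fun j => decide (j = i)) = 1 := by
      rw [wt, sum_eq_single i (fun j _ hj => by simp [hj]) (by simp)]; simp
    have h2 := sub_mem (single_mem_Cu (F := dF ℤ 1) (fun j => decide (j = i)) (a := (2 : ℤ))
      (mem_dF.2 fun h => by omega)) (const_mem_dF (κ := κ) 1 (1 : ℤ))
    convert h2 using 1
    funext ω
    have h3 : (fun j => decide (j = i)) ≤ ω ↔ ω i = true := by
      refine ⟨fun h => Bool.eq_true_of_true_le (by simpa using h i), fun h j => ?_⟩
      by_cases hj : j = i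
      · subst hj; simp [h]
      · simp [hj]
    simp only [gen, Option.elim, sn, Pi.sub_apply, h3]
    split_ifs <;> rfl

theorem exists_word (g : Option κ → (κ → Bool) → ℝ) (hg : g none = 1) (l : ℕ) :
    ∀ S : Finset κ, #S ≤ l → ∃ u : Fin l → Option κ, ∏ j, g (u j) = ∏ i ∈ S, g (some i) := by
  induction l with
  | zero => intro S hS; rw [card_eq_zero.1 (Nat.le_zero.1 hS)]; exact ⟨Fin.elim0, by simp⟩
  | succ l ih =>
    intro S hS
    rcases S.eq_empty_or_nonempty with rfl | ⟨i, hi⟩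
    · exact ⟨fun _ => none, by simp [hg]⟩
    · obtain ⟨u, hu⟩ := ih (S.erase i) (by rw [card_erase_of_mem hi]; omega)
      exact ⟨Fin.cons (some i) u, by
        rw [Fin.prod_univ_succ, Fin.cons_zero, ← mul_prod_erase S _ hi, ← hu]; rfl⟩

/-- the affine function with coefficients `n` -/
def aff (n : Option κ → ℕ) : (κ → Bool) → ℤ := ∑ o, (n o : ℤ) • gen o

theorem aff_pow_mem (n : Option κ → ℕ) (k : ℕ) : aff n ^ k ∈ Cu (dF ℤ k) κ := by
  have := pow_mem_dF (A := aff n) (sum_mem fun o _ => zsmul_mem (gen_mem o) (n o : ℤ)) k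
  rwa [mul_one] at this

theorem abs_aff (n : Option κ → ℕ) (ω : κ → Bool) : |(aff n ω : ℝ)| ≤ ∑ o, (n o : ℝ) := by
  rw [aff, Finset.sum_apply, Int.cast_sum]
  refine (abs_sum_le_sum_abs _ _).trans (sum_le_sum fun o _ => ?_)
  cases o with
  | none => simp [gen]
  | some i => cases h : ω i <;> simp [gen, sn, h]

theorem detect {l d : ℕ} (hd : d ≤ l) {Φ : (κ → Bool) → ℝ}
    (h : ∀ n : Option κ → ℕ, ∑ o, n o ≤ l → ∑ ω, Φ ω * (aff n ω : ℝ) ^ d = 0) {β : κ → Bool}
    (hβ : wt β ≤ d) : ∑ ω, Φ ω * wal β ω = 0 := by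
  set g : Option κ → (κ → Bool) → ℝ := fun o ω => (gen o ω : ℝ) with hg
  have hS : #(univ.filter fun i => β i = true) ≤ d := by
    refine le_trans (le_of_eq ?_) hβ
    rw [wt, card_filter]
    exact sum_congr rfl fun i _ => by cases β i <;> rfl
  obtain ⟨u, hu⟩ := exists_word g (by funext ω; simp [hg, gen]) d _ hS
  have h1 := Rng.prod_mem_span_pow g hd u
  have h2 : wal β = ∏ j, g (u j) := by
    rw [hu]; funext ω
    rw [wal, Finset.prod_apply, prod_filter]; rfl
  rw [h2]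
  generalize ∏ j, g (u j) = y at h1
  induction h1 using Submodule.span_induction with
  | mem y hy =>
    obtain ⟨a, ⟨n, hn, rfl⟩, rfl⟩ := hy
    refine Eq.trans (sum_congr rfl fun ω _ => ?_) (h n hn)
    simp [aff, hg, Finset.sum_apply]
  | zero => simp
  | add x y _ _ hx hy => simp [mul_add, sum_add_distrib, hx, hy]
  | smul r x _ hx =>
    simp only [Pi.smul_apply, smul_eq_mul, mul_left_comm _ r, ← mul_sum, hx, mul_zero]

theorem kc_dcov {l : ℕ} (hl : ∀ c, T.lev c ≤ l) :
    T.DCov (kc T κ) (fun p => p.1.1) (2 ^ Fintype.card κ * (l + 1) ^ l) := by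
  choose v hv hz using fun (n : Option κ → ℕ) (k : ℕ) => aff_pow_mem n k
  refine Cell.dcov_of_diag (α := {n : Option κ → ℕ // ∑ o, n o ≤ l}) (fun _ => rfl)
    (fun t p => v t.1 (T.lev p.1.1) p.1.2)
    (fun t p => ∑ ω, nc κ * wal p.1.2 ω * (aff t.1 ω : ℝ) ^ T.lev p.1.1) (fun t p => ?_)
    (fun t p => ?_) fun ξ hξ => ?_
  · refine (abs_sum_le_sum_abs _ _).trans ((sum_le_card_nsmul _ _ (((l : ℝ) + 1) ^ l)
      fun ω _ => ?_).trans (by simp))
    have h1 : |(aff t.1 ω : ℝ)| ≤ l + 1 := (abs_aff _ _).trans (by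
      have : ((∑ o, t.1 o : ℕ) : ℝ) ≤ l := by exact_mod_cast t.2
      push_cast at this
      linarith)
    rw [abs_mul, abs_mul, abs_wal, mul_one, abs_of_pos nc_pos, abs_pow]
    calc _ ≤ 1 * ((l : ℝ) + 1) ^ T.lev p.1.1 := by
          gcongr; exact nc_le
      _ ≤ _ := by rw [one_mul]; exact pow_le_pow_right₀ (by simp) (hl _)
  · rw [kc_tth, map_sum, map_sum, sum_mul]
    refine sum_congr rfl fun ω _ => ?_
    have h1 : ∀ c, bind₁ (fun q : KI κ T => (C (v t.1 (T.lev q.1.1) q.1.2 : ℝ) * X q.1.1 : Pl ι))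
        (vt T ω c) = C (aff t.1 ω : ℝ) ^ T.lev c * X c := fun c => by
      have h2 := congrFun (hz t.1 (T.lev c)) ω
      rw [zeta_apply, Pi.pow_apply] at h2
      rw [← map_pow, ← Int.cast_pow, ← h2, vt, zeta_apply, map_sum, Int.cast_sum, map_sum, sum_mul]
      refine sum_congr rfl fun β _ => ?_
      split_ifs
      · unfold uX
        split_ifs with h
        · simp
        · simp [mem_dF.1 (hv t.1 (T.lev c) β) (not_le.1 h)]
      · simp
    rw [map_mul, bind₁_C_right, bind₁_bind₁]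
    simp only [h1]
    rw [bind_dilate _ (T.tth_hom _)]
    simp [mul_assoc]
  · funext p
    set Φ : (κ → Bool) → ℝ := fun ω =>
      ∑ q : KI κ T, if p.1.1 = q.1.1 then ξ q * wal q.1.2 ω else 0 with hΦ
    have h1 := detect (hl p.1.1) (Φ := Φ) (fun n hn => ?_) p.2
    · simp only [hΦ, sum_mul] at h1
      rw [sum_comm, sum_eq_single p (fun q _ hq => ?_) (by simp)] at h1
      · simp only [if_true, mul_assoc, ← mul_sum, wal_orth] at h1
        simpa using h1
      · split_ifs with h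
        · simp only [mul_assoc, ← mul_sum, wal_orth]
          rw [if_neg fun h' => hq (Subtype.ext (Prod.ext h.symm h')), mul_zero]
        · simp
    · have h2 := hξ ⟨n, hn⟩ p.1.1
      refine (mul_eq_zero.1 (Eq.trans ?_ h2)).resolve_left (nc_pos (κ := κ)).ne'
      simp only [hΦ, sum_mul, mul_sum]
      rw [sum_comm]
      refine sum_congr rfl fun q _ => ?_
      split_ifs with h
      · rw [mul_sum, h]
        exact sum_congr rfl fun ω _ => by ring
      · simp

/-- the loss of the cube cell -/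
def kLoss (n l : ℕ) : ℝ := (2 ^ n * (l + 1) ^ l) ^ (l + 1) + 2 ^ n * (1 + 2 ^ n)

theorem kc_pc {l : ℕ} (hl : ∀ c, T.lev c ≤ l) :
    T.PC (kLoss (Fintype.card κ) l) (kc T κ) fun p => p.1.1 := by
  have h2 : (1 : ℝ) ≤ 2 ^ Fintype.card κ := one_le_pow₀ (by norm_num)
  have h3 : (1 : ℝ) ≤ ((l : ℝ) + 1) ^ l := one_le_pow₀ (by simp)
  refine (kc_dcov T hl).pc' (by nlinarith) hl ?_ (fun _ => rfl) (N := 2 ^ Fintype.card κ)
    (K' := 2 ^ Fintype.card κ) Nat.one_le_two_pow h2 (fun c => ?_) (fun p => ?_) ?_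
    fun cl h => kc_isMC T h
  · refine le_trans ?_ (Real.add_one_le_exp _)
    unfold kLoss
    nlinarith
  · have : Nat.card (κ → Bool) = 2 ^ Fintype.card κ := by simp
    rw [← this]
    exact Nat.card_le_card_of_injective (fun q => q.1.1.2) fun q q' h =>
      Subtype.ext (Subtype.ext (Prod.ext (q.2.trans q'.2.symm) h))
  · rw [kc_a]
    refine mul_le_mul_of_nonneg_right ((div_le_self (by positivity)
      (one_le_pow₀ (by norm_num))).trans ?_) (abs_nonneg _)
    exact pow_le_pow_left₀ (by positivity) (Real.sqrt_le_iff.2 ⟨by norm_num, by norm_num⟩) _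
  · have := Real.log_le_self (show (0 : ℝ) ≤ 2 ^ Fintype.card κ by positivity)
    have h4 : (0 : ℝ) ≤ (2 ^ Fintype.card κ * ((l : ℝ) + 1) ^ l) ^ (l + 1) := by positivity
    unfold kLoss
    push_cast
    nlinarith

end Zm10

open Zm10 in
theorem zmStmt (hMs : MsStmt) : ZmStmt := by
  intro l s
  obtain ⟨D, C, hC, h⟩ := hMs l
  obtain ⟨k, hk⟩ := pow_unbounded_of_one_lt (kLoss s l) (one_lt_two (α := ℝ))
  refine ⟨D, (k + 1) * C, Nat.mul_pos (by omega) hC, fun ι _ T m hT => ?_⟩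
  have hm := hT.two
  have h1 : m ≤ m ^ (k + 1) := le_self_pow₀ (by linarith) (by omega)
  have h2 : kLoss s l ≤ m ^ (k + 1) := hk.le.trans ((pow_le_pow_left₀ (by norm_num) hm k).trans
    (pow_le_pow_right₀ (by linarith) (by omega)))
  rw [pow_mul] at hT
  have h3 := (h ι T _ (hT.mono le_rfl h1 le_rfl (by positivity))).2.1 _ _ _
    ((kc_pc (κ := Fin s) T hT.gm.1).mono (by rwa [Fintype.card_fin]))
  rw [kc_M, kc_mu] at h3
  exact h3.trans (Real.exp_le_exp.2 (by linarith))

end Crest.Agent.T49.Ri
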