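import Crest.Agent.T49.NvDef_74
import Crest.Agent.T49.RiZm_10
import Crest.Agent.T49.HkB_67

/-! # Row 49 (helper31): NV CUBE, algebra of the cube ring and masses -/

set_option autoImplicit false
set_option linter.unusedSectionVars false

noncomputable section

namespace Crest.Agent.T49.Nv.C31

open Tw Rng Gl Finset Hk Submodule
open scoped Classical

variable {κ : Type} [Fintype κ] [DecidableEq κ]

theorem zeta_surj {G : Type} [AddCommGroup G] (A : (κ → Bool) → G) : ∃ u, zeta κ G u = A := by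
  let u : (κ → Bool) → G := WellFoundedLT.fix fun ω ih => A ω - ∑ β : {β // β < ω}, ih β.1 β.2
  refine ⟨u, funext fun ω => ?_⟩
  have h : u ω = A ω - ∑ β : {β // β < ω}, u β.1 := WellFoundedLT.fix_eq _ ω
  rw [zeta_eq_add, ← sum_filter, sum_subtype (p := fun β => β < ω) _ (by simp), h, sub_add_cancel]

theorem zeta_eq (u : (κ → Bool) → ℝ) : zeta κ ℝ u = ∑ β, u β • vb β := by
  funext ω
  rw [zeta_apply, Finset.sum_apply]
  exact sum_congr rfl fun β _ => by simp [vb]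

theorem cast_zeta {ι : Type} (u : (κ → Bool) → ι → ℤ) (c : ι) :
    (fun ω => ((zeta κ _ u ω c : ℤ) : ℝ)) = ∑ β, (u β c : ℝ) • vb β := by
  rw [← zeta_eq]
  funext ω
  exact map_zeta ((Int.castAddHom ℝ).comp (Pi.evalAddMonoidHom (fun _ => ℤ) c)) u ω

theorem vb_indep : LinearIndependent ℝ (vb (κ := κ)) :=
  Fintype.linearIndependent_iff.2 fun u hu => congrFun (zeta_injective (a₁ := u) (a₂ := 0)
    (by rw [zeta_eq, hu, map_zero]))

/-- the monomials are a basis of the cube ring -/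
def bs (κ : Type) [Fintype κ] [DecidableEq κ] : Module.Basis (κ → Bool) ℝ ((κ → Bool) → ℝ) :=
  Module.Basis.mk vb_indep fun y _ => by
    obtain ⟨u, rfl⟩ := zeta_surj y
    rw [zeta_eq]
    exact sum_mem fun β _ => smul_mem _ _ (subset_span ⟨β, rfl⟩)

theorem bs_apply (β : κ → Bool) : bs κ β = vb β := Module.Basis.mk_apply _ _ _

/-- functions of degree `≤ l` -/
def Pd (κ : Type) [Fintype κ] (l : ℕ) : Submodule ℝ ((κ → Bool) → ℝ) :=
  span ℝ (Set.range fun β : {β : κ → Bool // wt β ≤ l} => vb β.1)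

theorem vb_mem_Pd {l : ℕ} {β : κ → Bool} (h : wt β ≤ l) : vb β ∈ Pd κ l :=
  subset_span ⟨⟨β, h⟩, rfl⟩

theorem mem_Pd {l : ℕ} {x : (κ → Bool) → ℝ} (h : x ∈ Cu (dF ℝ l) κ) : x ∈ Pd κ l := by
  obtain ⟨u, hu, rfl⟩ := h
  rw [zeta_eq]
  refine sum_mem fun β _ => ?_
  by_cases h : wt β ≤ l
  · exact smul_mem _ _ (vb_mem_Pd h)
  · rw [mem_dF.1 (hu β) (not_le.1 h), zero_smul]; exact zero_mem _

theorem finrank_Pd (l : ℕ) :
    Module.finrank ℝ (Pd κ l) = #(univ.filter fun β : κ → Bool => wt β ≤ l) := by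
  rw [← Fintype.card_subtype]
  exact finrank_span_eq_card (vb_indep.comp _ Subtype.val_injective)

/-- the projection onto the functions of degree `≤ l` -/
def pj (κ : Type) [Fintype κ] [DecidableEq κ] (l : ℕ) :
    ((κ → Bool) → ℝ) →ₗ[ℝ] ((κ → Bool) → ℝ) :=
  (bs κ).constr ℝ fun β => if wt β ≤ l then vb β else 0

theorem pj_vb (l : ℕ) (β : κ → Bool) : pj κ l (vb β) = if wt β ≤ l then vb β else 0 := by
  rw [← bs_apply, pj, Module.Basis.constr_basis, bs_apply]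

theorem pj_mem (l : ℕ) (y : (κ → Bool) → ℝ) : pj κ l y ∈ Pd κ l := by
  rw [pj, Module.Basis.constr_apply_fintype]
  refine sum_mem fun β _ => smul_mem _ _ ?_
  split_ifs with h
  exacts [vb_mem_Pd h, zero_mem _]

theorem pj_of_mem {l : ℕ} {y : (κ → Bool) → ℝ} (h : y ∈ Pd κ l) : pj κ l y = y := by
  refine LinearMap.eqOn_span (f := pj κ l) (g := LinearMap.id) ?_ h
  rintro _ ⟨β, rfl⟩
  exact (pj_vb l β.1).trans (if_pos β.2)

theorem vb_top : vb (fun _ : κ => true) = Pi.single (fun _ => true) 1 := by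
  funext ω
  by_cases h : ω = fun _ => true
  · subst h; simp [vb]
  · rw [Pi.single_eq_of_ne h, vb, if_neg fun h' =>
      h (funext fun i => Bool.eq_true_of_true_le (h' i))]

theorem smul_vb_mem (g : ℝ) {l : ℕ} {β : κ → Bool} (h : wt β ≤ l) :
    g ^ l • vb β ∈ Nz (fun j => g • cg κ j) ^ l := by
  have hS : #(univ.filter fun i => β i = true) ≤ l := by
    refine le_trans (le_of_eq ?_) h
    rw [wt, card_filter]
    exact sum_congr rfl fun i _ => by cases β i <;> rfl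
  obtain ⟨u, hu⟩ := Ri.Zm10.exists_word (cg κ) rfl l _ hS
  have h1 : vb β = ∏ i ∈ univ.filter fun i => β i = true, cg κ (some i) := by
    funext ω
    rw [Finset.prod_apply, vb]
    split_ifs with h2
    · exact (prod_eq_one fun i hi => by
        have := h2 i
        rw [(mem_filter.1 hi).2] at this
        simp [cg, Bool.eq_true_of_true_le this]).symm
    · obtain ⟨i, hi⟩ := not_forall.1 (show ¬ ∀ i, β i ≤ ω i from h2)
      have h3 : β i = true ∧ ω i = false := by revert hi; cases β i <;> cases ω i <;> simp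
      exact (prod_eq_zero (i := i) (by simp [h3.1]) (by simp [cg, h3.2])).symm
  have h2 := prod_mem_pow (N := Nz fun j => g • cg κ j) (v := fun i => g • cg κ (u i))
    fun i => mem_Nz (fun j => g • cg κ j) (u i)
  rwa [Finset.prod_smul, prod_const, card_univ, Fintype.card_fin, hu, ← h1] at h2

theorem int_of_mem {l : ℕ} {y : (κ → Bool) → ℝ} (h : y ∈ Nz (cg κ) ^ l) :
    ∃ a ∈ Cu (dF ℤ l) κ, y = fun ω => (a ω : ℝ) := by
  refine Nz_ind (P := fun l y => ∃ a ∈ Cu (dF ℤ l) κ, y = fun ω => (a ω : ℝ))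
    ⟨_, const_mem_dF 0 (1 : ℤ), by funext ω; simp⟩ (fun l j y ⟨a, ha, e⟩ => ?_)
    (fun l => ⟨0, zero_mem _, by funext ω; simp⟩)
    (fun l x y ⟨a, ha, e⟩ ⟨b, hb, e'⟩ => ⟨a + b, add_mem ha hb, by funext ω; simp [e, e']⟩)
    (fun l n y ⟨a, ha, e⟩ => ⟨n • a, zsmul_mem ha n, by funext ω; simp [e]⟩) h
  have h1 : ∃ b ∈ Cu (dF ℤ 1) κ, cg κ j = fun ω => (b ω : ℝ) := by
    cases j with
    | none => exact ⟨_, const_mem_dF 1 (1 : ℤ), by funext ω; simp [cg]⟩
    | some i =>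
      have h1 : wt (fun j => decide (j = i)) = 1 := by
        rw [wt, sum_eq_single i (fun j _ hj => by simp [hj]) (by simp)]; simp
      refine ⟨_, single_mem_Cu (F := dF ℤ 1) (fun j => decide (j = i)) (a := (1 : ℤ))
        (mem_dF.2 fun h => by omega), funext fun ω => ?_⟩
      have h3 : (fun j => decide (j = i)) ≤ ω ↔ ω i = true := by
        refine ⟨fun h => Bool.eq_true_of_true_le (by simpa using h i), fun h j => ?_⟩
        by_cases hj : j = i
        · subst hj; simp [h]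
        · simp [hj]
      simp only [cg, Option.elim, h3]
      cases ω i <;> simp
  obtain ⟨b, hb, e'⟩ := h1
  exact ⟨b * a, add_comm 1 l ▸ mul_mem_dF hb ha, by funext ω; simp [e, e']⟩

theorem card_wt (k l : ℕ) (hk : Fintype.card κ = k) :
    #(univ.filter fun β : κ → Bool => wt β ≤ l) =
      #(univ.filter fun β : Fin k → Bool => wt β ≤ l) := by
  let e := Fintype.equivFinOfCardEq hk
  refine (card_equiv (e.arrowCongr (Equiv.refl Bool)).symm fun β => ?_).symm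
  simp only [mem_filter, mem_univ, true_and]
  rw [← wt_comp e β]
  rfl

theorem card_wt_le (l : ℕ) :
    #(univ.filter fun β : κ → Bool => wt β ≤ l) ≤ 2 ^ Fintype.card κ :=
  (card_le_univ _).trans (by simp)

section R

variable {s : ℕ} {F : Type} [NormedAddCommGroup F] [InnerProductSpace ℝ F]
  {R : Rg s ((κ → Bool) → ℝ) F} {g : ℕ}

theorem E_eq_Pd (hg : 1 ≤ g) (h1 : ∀ l, Nz (fun j => (g : ℝ) • cg κ j) ^ l ≤ R.L l)
    (h2 : ∀ l, R.L l ≤ Nz (cg κ) ^ l) (l : ℕ) : R.E l = Pd κ l := by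
  refine le_antisymm (span_le.2 fun y hy => ?_) (span_le.2 ?_)
  · obtain ⟨a, ha, rfl⟩ := int_of_mem (h2 l hy)
    exact mem_Pd (map_mem_Cu (Int.castAddHom ℝ)
      (fun i a ha => mem_dF.2 fun h => by simp [mem_dF.1 ha h]) ha)
  · rintro _ ⟨β, rfl⟩
    have h3 := smul_mem (R.E l) ((g : ℝ) ^ l)⁻¹ (subset_span (h1 l (smul_vb_mem g β.2)))
    rwa [inv_smul_smul₀ (by positivity)] at h3

/-- lower bound for the reciprocal covolume -/
theorem le_vol (hg : 1 ≤ g) (h1 : ∀ l, Nz (fun j => (g : ℝ) • cg κ j) ^ l ≤ R.L l)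
    (h2 : ∀ l, R.L l ≤ Nz (cg κ) ^ l) {l : ℕ} (hl : l ≤ s) {K : ℝ} (hK : 1 ≤ K)
    (hQ : ∀ β : κ → Bool, wt β ≤ l → ‖R.Q l (vb β)‖ ≤ K) :
    ((2 * 2 ^ Fintype.card κ + 1) ^ 2 ^ Fintype.card κ * ((g : ℝ) ^ s * K))⁻¹ ^ 2 ^ Fintype.card κ ≤
      R.vol l := by
  have hE := E_eq_Pd hg h1 h2 l
  have hg' : (1 : ℝ) ≤ g := by exact_mod_cast hg
  have hr : Module.finrank ℝ (R.E l) ≤ 2 ^ Fintype.card κ := by
    rw [hE, finrank_Pd]; exact card_wt_le l
  obtain ⟨n, b, -⟩ := exists_TB (R.lat l) (R.inj l hl) (K := (g : ℝ) ^ s * K)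
    (r := 2 ^ Fintype.card κ) (by positivity) (hE.le.trans (span_le.2 (by
      rintro _ ⟨β, rfl⟩
      have h3 := smul_mem (span ℝ {y | y ∈ R.L l ∧ ‖R.Q l y‖ ≤ (g : ℝ) ^ s * K}) ((g : ℝ) ^ l)⁻¹
        (subset_span ⟨h1 l (smul_vb_mem g β.2), by
          rw [map_smul, norm_smul, Real.norm_of_nonneg (by positivity)]
          exact mul_le_mul (pow_le_pow_right₀ hg' hl) (hQ _ β.2) (norm_nonneg _) (by positivity)⟩)
      rwa [inv_smul_smul₀ (by positivity)] at h3))) hr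
  have hn : n ≤ 2 ^ Fintype.card κ := by
    have := b.finrank_eq
    rw [Fintype.card_fin] at this
    exact this ▸ hr
  push_cast at b
  set K' : ℝ := (2 * 2 ^ Fintype.card κ + 1) ^ 2 ^ Fintype.card κ * ((g : ℝ) ^ s * K)
  have hK' : 1 ≤ K' := one_le_mul_of_one_le_of_one_le (one_le_pow₀ (by
    linarith [show (0 : ℝ) < 2 ^ Fintype.card κ by positivity]))
    (one_le_mul_of_one_le_of_one_le (one_le_pow₀ hg') hK)
  rw [Rg.vol, ← b.vol_eq_vol0, TB.vol]
  calc K'⁻¹ ^ 2 ^ Fintype.card κ ≤ K'⁻¹ ^ n :=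
        pow_le_pow_of_le_one (by positivity) (inv_le_one_of_one_le₀ hK') hn
    _ = ∏ _j : Fin n, K'⁻¹ := by simp
    _ ≤ _ := prod_le_prod (fun _ _ => by positivity) fun j _ =>
        inv_anti₀ (abs_pos.2 (b.ne j)) (b.le j)

variable {ι : Type} [Fintype ι] {T : Cell ι}

/-- the ideal mass of the pattern against the ideal mass of the cubes -/
theorem cmu_le (hg : 1 ≤ g) (h1 : ∀ l, Nz (fun j => (g : ℝ) • cg κ j) ^ l ≤ R.L l)
    (h2 : ∀ l, R.L l ≤ Nz (cg κ) ^ l) {k : ℕ} (hk : Fintype.card κ = k) {r v : ℝ} (hr : r ≠ 0)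
    (hr0 : 0 < r) (hr1 : r ≤ 1) (hv0 : 0 < v) (hv : ∀ c, v ≤ R.vol (T.lev c)) :
    (r ^ 2 ^ k * v) ^ Fintype.card ι * cmu (scl T r hr) k ≤ R.mu0 T := by
  rw [cmu, Rg.mu0, ← card_univ, ← prod_const, ← prod_mul_distrib]
  refine prod_le_prod (fun _ _ => by positivity) fun c _ => ?_
  have h3 : R.rk (T.lev c) = #(univ.filter fun β : Fin k → Bool => wt β ≤ T.lev c) := by
    rw [Rg.rk, E_eq_Pd hg h1 h2, finrank_Pd, card_wt k _ hk]
  have h4 := card_wt_le (κ := Fin k) (T.lev c)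
  rw [Fintype.card_fin] at h4
  rw [h3]
  show r ^ 2 ^ k * v * |r * T.a c|⁻¹ ^ #(univ.filter fun β : Fin k → Bool => wt β ≤ T.lev c) ≤ _
  generalize #(univ.filter fun β : Fin k → Bool => wt β ≤ T.lev c) = N at h4
  have h5 : r ^ 2 ^ k ≤ r ^ N := pow_le_pow_of_le_one hr0.le hr1 h4
  rw [abs_mul, abs_of_pos hr0, mul_inv, mul_pow]
  calc _ ≤ r ^ N * R.vol (T.lev c) * (r⁻¹ ^ N * |T.a c|⁻¹ ^ N) := by gcongr; exact hv c
    _ = (r * r⁻¹) ^ N * (|T.a c|⁻¹ ^ N * R.vol (T.lev c)) := by rw [mul_pow]; ring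
    _ = _ := by rw [mul_inv_cancel₀ hr, one_pow, one_mul]

end R

variable {ι : Type} [Fintype ι]

theorem muK_le (T : Cell ι) (k : ℕ) :
    Ri.muK T k ≤ ((2 : ℝ) ^ k) ^ (2 ^ k * Fintype.card ι) * cmu T k := by
  rw [Ri.muK, cmu, pow_mul, ← card_univ, ← prod_const, ← prod_mul_distrib]
  refine prod_le_prod (fun c _ => prod_nonneg fun β _ => by split_ifs <;> positivity) fun c _ => ?_
  have h2 : (1 : ℝ) ≤ 2 ^ k := one_le_pow₀ (by norm_num)
  have e : ((2 : ℝ) ^ k) ^ 2 ^ k = ∏ _β : Fin k → Bool, (2 : ℝ) ^ k := by simp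
  rw [e, ← prod_const, prod_filter, ← prod_mul_distrib]
  refine prod_le_prod (fun β _ => by split_ifs <;> positivity) fun β _ => ?_
  split_ifs
  · rw [mul_inv, inv_div]
    refine mul_le_mul_of_nonneg_right ((div_le_self (by positivity)
      (one_le_pow₀ (Real.one_le_sqrt.2 (by norm_num)))).trans ?_) (by positivity)
    exact pow_le_pow_right₀ (by norm_num) (by simpa using wt_le β)
  · linarith

theorem cmu_pos (T : Cell ι) (k : ℕ) : 0 < cmu T k :=
  prod_pos fun c _ => pow_pos (inv_pos.2 (abs_pos.2 (T.a_ne c))) _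

theorem Zm_le {T : Cell ι} {s k : ℕ} (hs : ∀ c, T.lev c ≤ s) {x : ℝ} (hA : T.AllPC x (1 / 2))
    (hx : Ri.Zm10.kLoss k s ≤ x) :
    Zm (lvl T.lev) k T.wgt ≤ 2 * ((2 : ℝ) ^ k) ^ (2 ^ k * Fintype.card ι) * cmu T k := by
  have h := hA _ _ _ ((Ri.Zm10.kc_pc (κ := Fin k) T hs).mono (by rwa [Fintype.card_fin]))
  have h1 := (Ri.Zm10.kc T (Fin k)).mu_pos
  have h2 : (Ri.Zm10.kc T (Fin k)).M / (Ri.Zm10.kc T (Fin k)).mu ≤ 2 := by
    linarith [(abs_le.1 h).2]
  rw [div_le_iff₀ h1, Ri.Zm10.kc_M, Ri.Zm10.kc_mu] at h2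
  linarith [muK_le T k]

end Crest.Agent.T49.Nv.C31
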