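import Crest.Agent.T49.NvC_74

/-! # Row 49 (helper74): NV, the induction over the axes -/

set_option autoImplicit false

noncomputable section

namespace Crest.Agent.T49.Nv

open Tw Rng Gl Finset MvPolynomial Function
open Crest.Agent.T49.Box (cj bx W IsW)
open scoped ComplexConjugate

variable {D : ℕ} {ι : Type}

/-- the standard window -/
def Qs (σ : ℝ) (s : ℕ) : CA D →ₗ[ℝ] EuclideanSpace ℝ (Finset (Fin D) × {α // α ∈ mi D s}) :=
  (WithLp.linearEquiv 2 ℝ _).symm.toLinearMap ∘ₗ LinearMap.pi fun b =>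
    ((√2 ^ D)⁻¹ / σ ^ b.2.1.degree) • (lcoeff ℝ b.2.1 ∘ₗ LinearMap.proj b.1)

theorem norm_Qs (σ : ℝ) (s : ℕ) (Y : CA D) : ‖Qs σ s Y‖ ^ 2 = sq2 σ s Y := by
  rw [EuclideanSpace.real_norm_sq_eq, Fintype.sum_prod_type, sq2, mul_sum]
  refine sum_congr rfl fun S _ => ?_
  rw [n2, mul_sum, ← sum_coe_sort (mi D s)]
  refine sum_congr rfl fun α _ => ?_
  show ((√2 ^ D)⁻¹ / σ ^ α.1.degree * coeff α.1 (Y S)) ^ 2 = _
  have : ((√2 ^ D : ℝ)⁻¹) ^ 2 = (2 ^ D)⁻¹ := by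
    rw [inv_pow, ← pow_mul, mul_comm, pow_mul, Real.sq_sqrt (by norm_num)]
  rw [← this]; ring

/-- the standard pattern -/
def base (s : ℕ) {σ : ℝ} (hσ : 0 < σ) (I : Finset (Fin D)) (m : Fin D → ℤ) :
    Rg s (CA D) (EuclideanSpace ℝ (Finset (Fin D) × {α // α ∈ mi D s})) :=
  gRg s (gn I m) (mem_Nr _ none) lat (Qs σ s) fun _ hl x hx h =>
    sq2_eq_zero hσ hl hx (by rw [← norm_Qs, h]; simp)

variable {s : ℕ} {σ : ℝ} {F : Type} [NormedAddCommGroup F] [InnerProductSpace ℝ F]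

/-- patterns on the cross ring with windows comparable to the standard one -/
structure Pat (σ : ℝ) (I : Finset (Fin D)) (m : Fin D → ℤ) (R : Rg s (CA D) F) : Prop where
  L : ∀ l, R.L l = Nz (gn I m) ^ l
  t0 : R.t0 = 1
  Q : ∀ l ≤ s, ∀ y ∈ R.E l, sq2 σ s y ≤ ‖R.Q l y‖ ^ 2 ∧ ‖R.Q l y‖ ^ 2 ≤ 2 ^ #I * sq2 σ s y

variable {I : Finset (Fin D)} {m : Fin D → ℤ} {i : Fin D} {R : Rg s (CA D) F}

theorem Pat.norm_le (h : Pat σ I m R) {l : ℕ} (hl : l ≤ s) {y : CA D} (hy : y ∈ R.E l) {B : ℝ}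
    (hB : ∀ S, nv σ (y S) ≤ B) : ‖R.Q l y‖ ≤ 2 ^ D * B := by
  have h0 : 0 ≤ B := (nrm_nonneg _).trans (hB ∅)
  refine (abs_le_of_sq_le_sq' (((h.Q l hl y hy).2.trans ?_)) (by positivity)).2
  rw [mul_pow]
  refine mul_le_mul ?_ (sq2_le hB) (mul_nonneg (by positivity)
    (sum_nonneg fun _ _ => n2_nonneg _ _ _)) (by positivity)
  rw [← pow_mul]
  exact pow_le_pow_right₀ one_le_two (by have := card_le_univ I; simp at this; omega)

/-- generators -/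
def Pat.gens (h : Pat σ I m R) {γ : Type} (g : γ → CA D) (hm : ∀ j, g j ∈ Nz (gn I m))
    (hsp : Nr (gn I m) ≤ Nr g) {B : ℝ} (hB : 1 ≤ B) (hn : ∀ j S, nv σ (g j S) ≤ B) :
    R.Gens γ (2 ^ D * B ^ s) :=
  Nv.gens h.L g hm hsp fun l _ hl u => h.norm_le hl
    (by rw [E_eq h.L]; exact Nz_le_Nr (prod_mem_pow fun _ => hm _)) fun S =>
      (nv_prod univ (fun _ _ => hn _) S).trans (pow_le_pow_right₀ hB (by simpa using hl))

theorem gn_nv (hσ : 0 < σ) {L B : ℝ} (hL : 1 ≤ L) (hB : σ⁻¹ + L ≤ B)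
    (hm : ∀ j ∈ I, |(m j : ℝ)| ≤ L) (j : Option (Fin D ⊕ Fin D)) (S : Finset (Fin D)) :
    nv σ (gn I m j S) ≤ B := by
  have := inv_pos.2 hσ
  rcases j with _ | j | j
  · exact (nv_one σ).le.trans (by linarith)
  · exact (nv_zj hσ j 0 S).trans (by simp; linarith)
  · simp only [gn]
    split_ifs with h
    · exact (nv_ej hσ j _ S).trans (by linarith [hm j h])
    · exact (nv_zero σ).le.trans (by linarith)

variable [Fintype ι] {T : Cell ι}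

/-- the standing assumptions -/
structure Env (T : Cell ι) (D s : ℕ) (σ : ℝ) (L : ℕ) (B η : ℝ) : Prop where
  lev : ∀ c, T.lev c ≤ s
  pos : 0 < σ
  L1 : 1 ≤ L
  hB : σ⁻¹ + L ≤ B
  pc : T.AllPC (loss s (2 * D + 1) (2 ^ D * (2 * L * B) ^ s)) η
  e0 : 0 < η
  e1 : η ≤ 1 / 2

variable {L : ℕ} {B η : ℝ}

theorem Env.one_le (e : Env T D s σ L B η) : 1 ≤ B ∧ B ≤ 2 * L * B := by
  have h1 : (1 : ℝ) ≤ L := by exact_mod_cast e.L1
  have h2 : 1 ≤ B := by linarith [e.hB, inv_pos.2 e.pos]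
  exact ⟨h2, by nlinarith⟩

theorem Env.good (e : Env T D s σ L B η) {A' F' : Type} [CommRing A'] [Algebra ℝ A']
    [NormedAddCommGroup F'] [InnerProductSpace ℝ F'] {R' : Rg s A' F'}
    (G : R'.Gens (Option (Fin D ⊕ Fin D)) (2 ^ D * (2 * L * B) ^ s)) : R'.Good T η := by
  have h : (1 : ℝ) ≤ 2 ^ D * (2 * L * B) ^ s :=
    one_le_mul_of_one_le_of_one_le (one_le_pow₀ one_le_two) (one_le_pow₀ (e.one_le.1.trans e.one_le.2))
  exact G.good e.lev h (n := 2 * D + 1) (by simp; omega) (by linarith) le_rfl (Or.inl e.pc)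

/-- the standard generators -/
def Pat.gens0 (h : Pat σ I m R) (e : Env T D s σ L B η) (hm : ∀ j ∈ I, |(m j : ℝ)| ≤ L) :
    R.Gens (Option (Fin D ⊕ Fin D)) (2 ^ D * (2 * L * B) ^ s) :=
  h.gens (gn I m) (mem_Nz _) le_rfl (e.one_le.1.trans e.one_le.2) fun j S =>
    (gn_nv e.pos (by exact_mod_cast e.L1) e.hB hm j S).trans e.one_le.2

/-- **Cauchy-Schwarz over the middle slice** -/
theorem Pat.axis (h : Pat σ I m R) (e : Env T D s σ L B η) (hm : ∀ j ∈ I, |(m j : ℝ)| ≤ L)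
    (hi : i ∉ I) :
    ∃ (F' : Type) (_ : NormedAddCommGroup F') (_ : InnerProductSpace ℝ F') (R' : Rg s (CA D) F'),
      Pat σ (insert i I) m R' ∧ ∀ {α : Type} {P : Finset α} {q : α → ℝ}
        {G g : α → (ι → CA D) → ℂ}, (∀ z ∈ P, 0 ≤ q z) → ∑ z ∈ P, q z = 1 →
        (∀ z w, ‖G z w‖ ≤ 1) → (∀ z w, ‖g z w‖ ≤ 1) →
        ‖∑' w : R.Pt T, R.wt T (Off.zero ι _) w • ∑ z ∈ P, (q z : ℂ) *
          (G z (fun c => w c) * g z fun c => sl i (m i) (w c))‖ ^ 2 * R'.mu0 T ≤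
        2 * R.mu0 T ^ 2 * (∑' w : R'.Pt T, R'.wt T (Off.zero ι _) w • ∑ z ∈ P, (q z : ℂ) *
          (G z (fun c => p0 i (w c)) * conj (G z fun c => p1 i (w c)))).re := by
  have hlat : ∀ l, IsLat (R.imL (sl i (m i)) l) := fun l => (R.lat l).mono fun y hy => by
    obtain ⟨x, hx, rfl⟩ := (R.mem_imL _).1 hy
    rw [h.L] at hx ⊢
    exact sl_mem hi _ hx
  set S := R.quotSur (sl i (m i)) hlat with hS
  set χ : CA D →ₐ[ℝ] CA D × CA D := (p0 i).prod (p1 i) with hχ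
  set R2 := base s e.pos (insert i I) m with hR2
  have hm' : ∀ l, ∀ y ∈ R2.L l, χ y ∈ (S.fibRg S).L l := fun l y hy => by
    have := branches hi hy
    rw [← h.L] at this
    exact this
  have ho : ∀ l, ∀ y ∈ (S.fibRg S).L l, ∃ x ∈ R2.L l, χ x = y := fun l y hy => by
    obtain ⟨h1, h2, h3⟩ := (S.mem_fibL S).1 hy
    rw [h.L] at h1 h2
    obtain ⟨x, hx, e0, e1⟩ := glue hi h1 h2 h3
    exact ⟨x, hx, Prod.ext e0 e1⟩
  have hQ : ∀ l ≤ s, ∀ y ∈ R2.E l, sq2 σ s y ≤ ‖(S.fibRg S).Q l (χ y)‖ ^ 2 ∧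
      ‖(S.fibRg S).Q l (χ y)‖ ^ 2 ≤ 2 ^ #(insert i I) * sq2 σ s y := fun l hl y hy => by
    obtain ⟨h1, h2, h3⟩ := (S.mem_fibRg_E S).1 (map_mem_span χ.toLinearMap (hm' l) hy)
    have k1 := S.pyth l hl _ h1
    have k2 := S.pyth l hl _ h2
    have k3 := h.Q l hl _ h1
    have k4 := h.Q l hl _ h2
    have k5 := sq2_branches σ s i y
    rw [← h3] at k2
    rw [S.norm_fibRg S, card_insert_of_notMem hi, pow_succ]
    change _ ≤ ‖R.Q l (p0 i y)‖ ^ 2 + ‖S.Q1 l (p1 i y)‖ ^ 2 ∧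
      ‖R.Q l (p0 i y)‖ ^ 2 + ‖S.Q1 l (p1 i y)‖ ^ 2 ≤ _
    change ‖R.Q l (p0 i y)‖ ^ 2 = ‖_‖ ^ 2 + ‖S.Q1 l (p0 i y)‖ ^ 2 at k1
    change ‖R.Q l (p1 i y)‖ ^ 2 = ‖_‖ ^ 2 + ‖S.Q1 l (p1 i y)‖ ^ 2 at k2
    change sq2 σ s (p0 i y) ≤ ‖R.Q l (p0 i y)‖ ^ 2 ∧ ‖R.Q l (p0 i y)‖ ^ 2 ≤ _ * sq2 σ s (p0 i y)
      at k3
    change sq2 σ s (p1 i y) ≤ ‖R.Q l (p1 i y)‖ ^ 2 ∧ ‖R.Q l (p1 i y)‖ ^ 2 ≤ _ * sq2 σ s (p1 i y)
      at k4
    have k6 := sq_nonneg ‖S.Q1 l (p0 i y)‖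
    have k7 := sq_nonneg ‖S.Q1 l (p1 i y)‖
    have k8 := (S.norm_le hl h2).2
    have k9 : ‖S.Q1 l (p1 i y)‖ ^ 2 ≤ ‖R.Q l (p1 i y)‖ ^ 2 := pow_le_pow_left₀ (norm_nonneg _) k8 2
    have k10 : (2 : ℝ) ^ (#I + 1) * sq2 σ s y =
        2 ^ #I * sq2 σ s (p0 i y) + 2 ^ #I * sq2 σ s (p1 i y) := by rw [← mul_add, k5]; ring
    exact ⟨by linarith [k3.1, k4.1], by linarith [k3.2, k4.2]⟩
  set R' := R2.setQ (fun l => (S.fibRg S).Q l ∘ₗ χ.toLinearMap) fun l hl x hx h0 =>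
    sq2_eq_zero e.pos hl (E_eq (R := R2) (fun _ => rfl) l ▸ hx) (by
      have := (hQ l hl x hx).1
      rw [show (S.fibRg S).Q l (χ x) = 0 from h0] at this
      simpa using this) with hR'
  obtain ⟨e1, e2⟩ := iso_sum (T := T) R' (S.fibRg S) χ hm' ho
    (Prod.ext h.t0.symm h.t0.symm) (fun _ _ _ _ => rfl) e.lev
  refine ⟨_, _, _, R', ⟨fun _ => rfl, rfl, hQ⟩, fun {α P q G g} h0 h1 hG hg => ?_⟩
  have k := cs_avg S e.lev R.offMem_zero h0 h1 (G := fun z w => G z fun c => w c)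
    (h := fun z w => g z fun c => w c) (fun z w => hG z _) fun z w => hg z _
  have k0 := (e.good (S.gens (h.gens0 e hm))).le e.lev (S.offMem_map R.offMem_zero)
  have k1 := e2 fun Y => ∑ z ∈ P, (q z : ℂ) * (G z (fun c => (Y c).1) * conj (G z fun c => (Y c).2))
  have k2 := S.fibRg_mu0 S (T := T) e.lev
  have k3 := S.mu0_eq (T := T) e.lev
  have p1 := S.mu1_pos (T := T) e.lev
  have p2 := (R.quot (sl i (m i)) hlat).mu0_pos (T := T) e.lev
  have p3 := (R.quot (sl i (m i)) hlat).M_pos e.lev (S.offMem_map R.offMem_zero)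
  refine le_trans (mul_le_mul_of_nonneg_right k (R'.mu0_pos e.lev).le) ?_
  have hX := nonneg_of_mul_nonneg_right ((sq_nonneg _).trans k) p3
  erw [k1]
  rw [e1, k2, k3, mul_right_comm]
  refine mul_le_mul_of_nonneg_right ?_ hX
  have := e.e1
  nlinarith [mul_le_mul_of_nonneg_right k0 (mul_pos (mul_pos p1 p1) p2).le,
    mul_pos (mul_pos p1 p1) (mul_pos p2 p2)]

/-- the function on the remaining positions -/
def FI (f : (ι → ℝ) → ℂ) (I : Finset (Fin D)) (a a' : Fin D → ℤ) (Y : ι → CA D)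
    (t : Fin D → ℤ) : ℂ :=
  ∏ S ∈ I.powerset, cj #S (f fun c => ev (S.piecewise a' (I.piecewise a t)) (Y c S))

variable {f : (ι → ℝ) → ℂ} {a a' : Fin D → ℤ}

omit [Fintype ι] in
theorem norm_FI_le (hf : ∀ x, ‖f x‖ ≤ 1) (I : Finset (Fin D)) (a a' : Fin D → ℤ) (Y : ι → CA D)
    (t : Fin D → ℤ) : ‖FI f I a a' Y t‖ ≤ 1 := by
  rw [FI, norm_prod]
  exact prod_le_one (fun _ _ => norm_nonneg _) fun _ _ => by rw [Box.norm_cj]; exact hf _

omit [Fintype ι] in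
theorem FI_sl (hi : i ∉ I) (x : ℤ) (Y : ι → CA D) (t : Fin D → ℤ) :
    FI f I a a' (fun c => sl i x (Y c)) t = FI f I a a' Y (update t i x) := by
  refine prod_congr rfl fun S hS => ?_
  have hiS : i ∉ S := fun h => hi (mem_powerset.1 hS h)
  congr 2
  funext c
  refine ev_bind_of_eq (fun j => ?_) _
  by_cases h : j = i
  · subst h; rw [update_self, ev_C]; simp [hi, hiS]
  · by_cases h1 : j ∈ S <;> by_cases h2 : j ∈ I <;> simp [h, h1, h2]

omit [Fintype ι] in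
theorem FI_ins (hi : i ∉ I) (x x' : ℤ) (Y : ι → CA D) (t : Fin D → ℤ) :
    FI f (insert i I) (update a i x) (update a' i x') Y t =
      FI f I a a' (fun c => p0 i (Y c)) (update t i x) *
        conj (FI f I a a' (fun c => p1 i (Y c)) (update t i x')) := by
  rw [FI, prod_powerset_insert hi, FI, FI, map_prod]
  congr 1 <;> refine prod_congr rfl fun S hS => ?_
  all_goals
    have hS' := mem_powerset.1 hS
    have hiS : i ∉ S := fun h => hi (hS' h)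
  · simp only [p0_apply, erase_eq_of_notMem hiS]
    congr 2
    funext c
    congr 1
    funext j
    by_cases h : j = i
    · subst h; simp [hi, hiS]
    · by_cases h1 : j ∈ S <;> by_cases h2 : j ∈ I <;> simp [h, h1, h2]
  · rw [card_insert_of_notMem hiS, Box.cj_succ']
    simp only [p1_apply]
    congr 3
    funext c
    congr 1
    funext j
    by_cases h : j = i
    · subst h; simp [hi, hiS]
    · by_cases h1 : j ∈ S <;> by_cases h2 : j ∈ I <;> simp [h, h1, h2]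

/-- the box average on `[0, L) ^ D` -/
abbrev bxC (L : ℕ) (K : Finset (Fin D)) (g : (Fin D → ℤ) → ℂ) : ℂ :=
  bx (fun _ : Fin D => Ico (0 : ℤ) L) (fun _ _ => (#(Ico (0 : ℤ) L) : ℝ)⁻¹) K g

theorem isW (hL : 1 ≤ L) :
    IsW (fun _ : Fin D => Ico (0 : ℤ) L) (fun _ _ => (#(Ico (0 : ℤ) L) : ℝ)⁻¹) :=
  Box.isW_unif (A := fun _ : Fin D => Ico (0 : ℤ) L) fun _ => ⟨0, by simp; omega⟩

/-- the state after the axes in `I`; the axes in `K` remain -/
def St (T : Cell ι) (s : ℕ) (σ : ℝ) (L G : ℕ) (f : (ι → ℝ) → ℂ) (I K : Finset (Fin D))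
    (δ : ℝ) : Prop :=
  ∃ (m a a' : Fin D → ℤ) (F : Type) (_ : NormedAddCommGroup F) (_ : InnerProductSpace ℝ F)
    (R : Rg s (CA D) F), (∀ j ∈ I, G3 L G (m j) (a j) (a' j)) ∧ Pat σ I m R ∧
    δ * R.mu0 T ≤ (∑' w : R.Pt T, R.wt T (Off.zero ι _) w • bxC L K (FI f I a a' fun c => w c)).re

theorem abs_le_of_mem {x : ℤ} (h : x ∈ Ico (0 : ℤ) L) : |(x : ℝ)| ≤ L := by
  have := mem_Ico.1 h
  exact_mod_cast (abs_le.2 ⟨by omega, by omega⟩ : |x| ≤ L)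

theorem exists_ge_avg {α : Type} {P : Finset α} {q : α → ℝ} (h0 : ∀ z ∈ P, 0 ≤ q z)
    (h1 : ∑ z ∈ P, q z = 1) (g : α → ℂ) : ∃ z ∈ P, ‖∑ z ∈ P, (q z : ℂ) * g z‖ ≤ ‖g z‖ := by
  obtain ⟨z, hz, h⟩ := P.exists_max_image (fun z => ‖g z‖)
    (nonempty_of_sum_ne_zero (by rw [h1]; exact one_ne_zero))
  exact ⟨z, hz, norm_avg_le h0 h1 h⟩

theorem St.step (e : Env T D s σ L B η) (hf : ∀ x, ‖f x‖ ≤ 1) {G : ℕ} (hGL : G ≤ L)
    {K : Finset (Fin D)} (hi : i ∉ I) (hK : i ∉ K) {δ : ℝ} (hδ : 0 < δ) (hG : 160 ≤ G * δ ^ 2)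
    (h : St T s σ L G f I (insert i K) δ) : St T s σ L G f (insert i I) K (δ ^ 2 / 4) := by
  obtain ⟨m, a, a', F, _, _, R, hg, hP, h⟩ := h
  have hp := isW (D := D) e.L1
  have hG0 : 0 < G := Nat.pos_of_ne_zero (by rintro rfl; norm_num at hG)
  have b : ∀ {x y : ℂ}, ‖x‖ ≤ 1 → ‖y‖ ≤ 1 → ‖x * conj y‖ ≤ 1 := fun hx hy => by
    rw [norm_mul, Complex.norm_conj]; exact mul_le_one₀ hx (norm_nonneg _) hy
  have b1 : ∀ Y y z, ‖Gam K (fun x => FI f I a a' Y (update x i y)) z‖ ≤ 1 := fun Y y z =>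
    norm_Gam_le K (fun _ => norm_FI_le hf _ _ _ _ _) z
  have b2 := fun Y z => norm_avg_le (hp.nn i) (hp.sum i) fun y _ => b1 Y y z
  simp only [bx_ins hp hK] at h
  rw [tsum_avg R e.lev R.offMem_zero _ _ fun y w =>
    norm_avg_le (qq_nonneg hp) (qq_sum hp) fun z _ => b (b2 _ z) (b1 _ y z)] at h
  obtain ⟨x, hx, h1⟩ := exists_ge_avg (hp.nn i) (hp.sum i) _
  replace h := h.trans ((Complex.re_le_norm _).trans h1)
  have hP' : Pat σ I (update m i x) R := ⟨by rw [gn_update hi]; exact hP.L, hP.t0, hP.Q⟩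
  have hm : ∀ j ∈ insert i I, |(update m i x j : ℝ)| ≤ L := fun j hj => by
    rcases mem_insert.1 hj with rfl | hj
    · rw [update_self]; exact abs_le_of_mem hx
    · rw [update_of_ne (ne_of_mem_of_not_mem hj hi)]; exact abs_le_of_mem (hg j hj).hx
  obtain ⟨F', _, _, R', hR', k⟩ := hP'.axis e (fun j hj => hm j (mem_insert_of_mem hj)) hi
  have k1 := k (G := fun z Y => ∑ y ∈ Ico (0 : ℤ) L, (((#(Ico (0 : ℤ) L) : ℝ)⁻¹ : ℝ) : ℂ) *
      Gam K (fun x => FI f I a a' Y (update x i y)) z)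
    (g := fun z Y => conj (Gam K (FI f I a a' Y) z)) (qq_nonneg hp) (qq_sum hp)
    (fun z Y => b2 Y z) fun z Y => by
      rw [Complex.norm_conj]; exact norm_Gam_le K (norm_FI_le hf _ _ _ _) z
  have e1 : ∀ Y : ι → CA D, FI f I a a' (fun c => sl i x (Y c)) =
      fun t => FI f I a a' Y (update t i x) := fun Y => funext (FI_sl hi x Y)
  simp only [update_self, e1, bx_pair, ← FI_ins hi] at k1
  have b3 : ∀ (y : ℤ × ℤ) (w : R'.Pt T),
      ‖bxC L K (FI f (insert i I) (update a i y.1) (update a' i y.2) fun c => w c)‖ ≤ 1 :=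
    fun y w => norm_bx_le hp K (norm_FI_le hf _ _ _ _)
  rw [tsum_avg R' e.lev R'.offMem_zero _ _ b3, Complex.re_sum] at k1
  simp only [Complex.re_ofReal_mul] at k1
  have p0 := R.mu0_pos (T := T) e.lev
  have p1 := R'.mu0_pos (T := T) e.lev
  have k2 := (e.good (hR'.gens0 e hm)).le e.lev R'.offMem_zero
  obtain ⟨y, y', hy, k3⟩ := exists_good hG0 hGL hx (fun y => (∑' w : R'.Pt T,
      R'.wt T (Off.zero ι _) w • bxC L K (FI f (insert i I) (update a i y.1) (update a' i y.2)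
        fun c => w c)).re) (B := 2 * R'.mu0 T) (t := δ ^ 2 / 4 * R'.mu0 T) (by positivity)
    (by positivity) (fun y => (Complex.re_le_norm _).trans
      ((norm_tsum_le R' e.lev R'.offMem_zero (b3 y)).trans (by nlinarith [e.e1])))
    (by nlinarith) (by
      have k4 := (mul_le_mul_of_nonneg_right (pow_le_pow_left₀ (by positivity) h 2) p1.le).trans k1
      refine le_of_mul_le_mul_left (le_trans (le_of_eq (by ring)) k4) (by positivity))
  refine ⟨_, update a i y, update a' i y', F', _, _, R', fun j hj => ?_, hR', k3⟩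
  rcases mem_insert.1 hj with rfl | hj
  · simpa using hy
  · simpa [update_of_ne (ne_of_mem_of_not_mem hj hi)] using hg j hj

theorem St.mono {G : ℕ} {K : Finset (Fin D)} {δ δ' : ℝ} (hlev : ∀ c, T.lev c ≤ s) (hδ : δ' ≤ δ)
    (h : St T s σ L G f I K δ) : St T s σ L G f I K δ' := by
  obtain ⟨m, a, a', F, _, _, R, hg, hP, h⟩ := h
  exact ⟨m, a, a', F, _, _, R, hg, hP,
    (mul_le_mul_of_nonneg_right hδ (R.mu0_pos hlev).le).trans h⟩

/-- all axes -/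
theorem St.all (e : Env T D s σ L B η) (hf : ∀ x, ‖f x‖ ≤ 1) {G : ℕ} (hGL : G ≤ L)
    (K : Finset (Fin D)) : ∀ (I : Finset (Fin D)) (δ : ℝ), Disjoint I K → 0 < δ → δ ≤ 1 →
      10 ≤ G * (δ / 4) ^ 2 ^ #K → St T s σ L G f I K δ →
      St T s σ L G f (I ∪ K) ∅ (4 * (δ / 4) ^ 2 ^ #K) := by
  induction K using Finset.induction_on with
  | empty => intro I δ _ _ _ _ h; simpa [mul_div_cancel₀] using h
  | insert i K hi ih =>
    intro I δ hd h0 h1 hG h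
    rw [disjoint_insert_right] at hd
    rw [card_insert_of_notMem hi, pow_succ' 2, pow_mul] at hG ⊢
    have e1 : (δ / 4) ^ 2 = δ ^ 2 / 4 / 4 := by ring
    have h2 : ((δ / 4) ^ 2) ^ 2 ^ #K ≤ (δ / 4) ^ 2 :=
      pow_le_of_le_one (by positivity) (by nlinarith) (by positivity)
    have h3 := mul_le_mul_of_nonneg_left h2 (Nat.cast_nonneg (α := ℝ) G)
    have := ih (insert i I) (δ ^ 2 / 4) (disjoint_insert_left.2 ⟨hi, hd.2⟩) (by positivity)
      (by nlinarith) (by rwa [← e1]) (h.step e hf hGL hd.1 hi h0 (by nlinarith))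
    rwa [← e1, insert_union, ← union_insert] at this

end Crest.Agent.T49.Nv
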