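import Crest.Agent.T49.RngFib_63

/-! # Row 49 (helper63): generators of images and fibre products, quotient patterns, scaling -/

set_option autoImplicit false

namespace Crest.Agent.T49.Rng
open Tw

section Quot
variable {A A0 F : Type} [AddCommGroup A] [Module ℝ A] [AddCommGroup A0] [Module ℝ A0]
  [NormedAddCommGroup F] [InnerProductSpace ℝ F]

theorem IsLat.finite {L : Submodule ℤ A} (h : IsLat L) :
    Module.Finite ℝ (Submodule.span ℝ (L : Set A)) := by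
  obtain ⟨n, v, -, -, hg⟩ := h.exists_basis
  have : Module.Finite ℝ (Submodule.span ℝ (Set.range v)) :=
    Module.Finite.span_of_finite ℝ (Set.finite_range v)
  refine Submodule.finiteDimensional_of_le (S₂ := Submodule.span ℝ (Set.range v)) fun y hy => ?_
  obtain ⟨x, rfl⟩ := mem_span_of_gen hg hy
  exact (Submodule.mem_span_range_iff_exists_fun ℝ).2 ⟨x, rfl⟩

theorem exists_quotQ (E : Submodule ℝ A) [Module.Finite ℝ E] (φ : A →ₗ[ℝ] A0) (Q : A →ₗ[ℝ] F) :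
    ∃ q : (A0 →ₗ[ℝ] F) × (A →ₗ[ℝ] F), (∀ y ∈ E, ‖Q y‖ ^ 2 = ‖q.1 (φ y)‖ ^ 2 + ‖q.2 y‖ ^ 2) ∧
      ∀ y ∈ E, ∃ k ∈ E, φ k = 0 ∧ q.2 k = q.2 y ∧ q.1 (φ y) = Q (y - k) := by
  set U : Submodule ℝ F := (E ⊓ LinearMap.ker φ).map Q with hU
  have : Module.Finite ℝ ↥(E ⊓ LinearMap.ker φ) := Submodule.finiteDimensional_of_le inf_le_left
  have : Module.Finite ℝ U := inferInstance
  obtain ⟨g, hg⟩ := (φ.domRestrict E).rangeRestrict.exists_rightInverse_of_surjective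
    (LinearMap.range_rangeRestrict _)
  obtain ⟨σ, hσ⟩ := LinearMap.exists_extend (E.subtype ∘ₗ g)
  have h1 : ∀ y ∈ E, σ (φ y) ∈ E ∧ φ (σ (φ y)) = φ y := fun y hy => by
    have h2 := LinearMap.congr_fun hσ ⟨φ y, ⟨y, hy⟩, rfl⟩
    have h3 := congrArg Subtype.val (LinearMap.congr_fun hg ⟨φ y, ⟨y, hy⟩, rfl⟩)
    have h4 : σ (φ y) = g ⟨φ y, ⟨y, hy⟩, rfl⟩ := h2
    rw [h4]
    exact ⟨Subtype.prop _, h3⟩
  have h2 : ∀ y ∈ E, Uᗮ.starProjection (Q (σ (φ y))) = Uᗮ.starProjection (Q y) := fun y hy => by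
    rw [← sub_eq_zero, ← map_sub, ← map_sub, Submodule.starProjection_orthogonal_val, sub_eq_zero,
      eq_comm, Submodule.starProjection_eq_self_iff]
    exact ⟨_, ⟨sub_mem (h1 y hy).1 hy, by simp [(h1 y hy).2]⟩, rfl⟩
  refine ⟨(Uᗮ.starProjection.toLinearMap ∘ₗ Q ∘ₗ σ, U.starProjection.toLinearMap ∘ₗ Q),
    fun y hy => ?_, fun y hy => ?_⟩
  · show _ = ‖Uᗮ.starProjection (Q (σ (φ y)))‖ ^ 2 + ‖U.starProjection (Q y)‖ ^ 2
    rw [h2 y hy, add_comm]
    exact Submodule.norm_sq_eq_add_norm_sq_starProjection _ U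
  · obtain ⟨k, hk, e⟩ : U.starProjection (Q y) ∈ U := Submodule.starProjection_apply_mem U _
    refine ⟨k, hk.1, hk.2, ?_, ?_⟩
    · show U.starProjection (Q k) = U.starProjection (Q y)
      rw [e, Submodule.starProjection_eq_self_iff]
      exact Submodule.starProjection_apply_mem U _
    · show Uᗮ.starProjection (Q (σ (φ y))) = _
      rw [h2 y hy, Submodule.starProjection_orthogonal_val, map_sub, e]

/-- scaling a window -/
def TB.smul {L : Submodule ℤ A} {Q : A →ₗ[ℝ] F} {K : ℝ} {β : Type} [Fintype β] (b : TB L Q K β)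
    {c : ℝ} (hc : c ≠ 0) : TB L (c • Q) (|c| * K) β where
  v := b.v
  co j := c • b.co j
  pos := b.pos
  mem := b.mem
  gen := b.gen
  nrm y hy := by
    simp only [LinearMap.smul_apply, norm_smul, mul_pow, b.nrm y hy, smul_eq_mul, Finset.mul_sum,
      Real.norm_eq_abs, sq_abs]
  tri i j h := b.tri i j (right_ne_zero_of_mul h)
  ne j := mul_ne_zero hc (b.ne j)
  le j := by
    rw [LinearMap.smul_apply, smul_eq_mul, abs_mul]
    exact mul_le_mul_of_nonneg_left (b.le j) (abs_nonneg _)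

theorem vol0_smul {L : Submodule ℤ A} (hL : IsLat L) {Q : A →ₗ[ℝ] F}
    (hQ : ∀ x ∈ Submodule.span ℝ (L : Set A), Q x = 0 → x = 0) {c : ℝ} (hc : c ≠ 0) :
    vol0 L (c • Q) = |c|⁻¹ ^ Module.finrank ℝ (Submodule.span ℝ (L : Set A)) * vol0 L Q := by
  obtain ⟨K, n, b, -⟩ := exists_TB0 hL hQ
  rw [← (b.smul hc).vol_eq_vol0, ← b.vol_eq_vol0, b.finrank_eq]
  simp [TB.vol, TB.smul, abs_mul, Finset.prod_mul_distrib, mul_comm]

end Quot

variable {s : ℕ} {A F A' F' A0 F0 F1 F1' : Type} [CommRing A] [Algebra ℝ A] [NormedAddCommGroup F]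
  [InnerProductSpace ℝ F] [CommRing A'] [Algebra ℝ A'] [NormedAddCommGroup F']
  [InnerProductSpace ℝ F'] [CommRing A0] [Algebra ℝ A0] [NormedAddCommGroup F0]
  [InnerProductSpace ℝ F0] [NormedAddCommGroup F1] [InnerProductSpace ℝ F1]
  [NormedAddCommGroup F1'] [InnerProductSpace ℝ F1']

namespace Rg
variable (R : Rg s A F) (φ : A →ₐ[ℝ] A0)

/-- image lattices -/
def imL (l : ℕ) : Submodule ℤ A0 := (R.L l).map (φ.toLinearMap.restrictScalars ℤ)

theorem mem_imL {l : ℕ} {y0 : A0} : y0 ∈ R.imL φ l ↔ ∃ y ∈ R.L l, φ y = y0 := Iff.rfl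

theorem mem_imE {l : ℕ} {y0 : A0} : y0 ∈ Submodule.span ℝ (R.imL φ l : Set A0) ↔
    ∃ y ∈ R.E l, φ y = y0 :=
  ⟨onto_span φ.toLinearMap fun _ h => h, by
    rintro ⟨y, hy, rfl⟩
    exact map_mem_span (L0 := R.imL φ l) φ.toLinearMap (fun y hy => ⟨y, hy, rfl⟩) hy⟩

/-- quotient window and its complement -/
noncomputable def quotQ (l : ℕ) : (A0 →ₗ[ℝ] F) × (A →ₗ[ℝ] F) :=
  have : Module.Finite ℝ (R.E l) := (R.lat l).finite
  (exists_quotQ (R.E l) φ.toLinearMap (R.Q l)).choose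

theorem quotQ_spec (l : ℕ) :
    (∀ y ∈ R.E l, ‖R.Q l y‖ ^ 2 = ‖(R.quotQ φ l).1 (φ y)‖ ^ 2 + ‖(R.quotQ φ l).2 y‖ ^ 2) ∧
      ∀ y ∈ R.E l, ∃ k ∈ R.E l, φ k = 0 ∧ (R.quotQ φ l).2 k = (R.quotQ φ l).2 y ∧
        (R.quotQ φ l).1 (φ y) = R.Q l (y - k) :=
  have : Module.Finite ℝ (R.E l) := (R.lat l).finite
  (exists_quotQ (R.E l) φ.toLinearMap (R.Q l)).choose_spec

/-- **image pattern** with the quotient windows -/
noncomputable def quot (h : ∀ l, IsLat (R.imL φ l)) : Rg s A0 F where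
  L := R.imL φ
  t0 := φ R.t0
  Q l := (R.quotQ φ l).1
  lat := h
  one_mem := (R.mem_imE φ).2 ⟨1, R.one_mem, map_one φ⟩
  t0_mem := (R.mem_imE φ).2 ⟨_, R.t0_mem, rfl⟩
  mul_mem i j hij x hx y hy := by
    obtain ⟨x', hx', rfl⟩ := (R.mem_imE φ).1 hx
    obtain ⟨y', hy', rfl⟩ := (R.mem_imE φ).1 hy
    exact (R.mem_imE φ).2 ⟨x' * y', R.mul_mem i j hij x' hx' y' hy', map_mul φ x' y'⟩
  inj l hl x hx h0 := by
    obtain ⟨x', hx', rfl⟩ := (R.mem_imE φ).1 hx
    obtain ⟨k, hk, h1, -, h2⟩ := (R.quotQ_spec φ l).2 x' hx'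
    rw [sub_eq_zero.1 (R.inj l hl _ (sub_mem hx' hk) (h2.symm.trans h0)), h1]

/-- the surjection onto the image pattern -/
noncomputable def quotSur (h : ∀ l, IsLat (R.imL φ l)) : Sur R (R.quot φ h) F where
  φ := φ
  maps _ y hy := ⟨y, hy, rfl⟩
  onto _ _ hy := hy
  map_t0 := rfl
  Q1 l := (R.quotQ φ l).2
  pyth l _ := (R.quotQ_spec φ l).1
  ker l _ y hy := let ⟨k, hk, h1, h2, _⟩ := (R.quotQ_spec φ l).2 y hy; ⟨k, hk, h1, h2⟩

theorem quot_L (h : ∀ l, IsLat (R.imL φ l)) (l : ℕ) : (R.quot φ h).L l = R.imL φ l := rfl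
theorem quot_t0 (h : ∀ l, IsLat (R.imL φ l)) : (R.quot φ h).t0 = φ R.t0 := rfl
theorem quotSur_φ (h : ∀ l, IsLat (R.imL φ l)) : (R.quotSur φ h).φ = φ := rfl

/-- scaled windows -/
def scl (c : ℝ) (hc : c ≠ 0) : Rg s A F :=
  R.setQ (fun l => c • R.Q l) fun l hl x hx h =>
    R.inj l hl x hx ((smul_eq_zero.1 h).resolve_left hc)

theorem scl_mu0 {ι : Type} [Fintype ι] {T : Cell ι} (hlev : ∀ c, T.lev c ≤ s) (c : ℝ)
    (hc : c ≠ 0) : (R.scl c hc).mu0 T = |c|⁻¹ ^ R.rank T * R.mu0 T := by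
  unfold mu0 rank
  rw [← Finset.prod_pow_eq_pow_sum, ← Finset.prod_mul_distrib]
  refine Finset.prod_congr rfl fun i _ => ?_
  have : (R.scl c hc).vol (T.lev i) = _ := vol0_smul (R.lat _) (R.inj _ (hlev i)) hc
  rw [this]
  show |T.a i|⁻¹ ^ R.rk (T.lev i) * (|c|⁻¹ ^ R.rk (T.lev i) * R.vol (T.lev i)) =
    |c|⁻¹ ^ R.rk (T.lev i) * _
  ring

variable {R}

namespace Gens
variable {γ δ : Type} {K K' : ℝ} (G : R.Gens γ K)

theorem rank_le [Fintype γ] {ι : Type} [Fintype ι] {T : Cell ι} (hlev : ∀ c, T.lev c ≤ s)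
    (G : R.Gens γ K) : R.rank T ≤ Fintype.card ι * (Fintype.card γ + 1) ^ s := by
  have := Finset.sum_le_card_nsmul Finset.univ _ _ fun c _ => G.rk_le' (T.lev_pos c) (hlev c)
  rw [Finset.card_univ, smul_eq_mul] at this
  exact this

/-- weaken the bound -/
def mono (h : K ≤ K') : R.Gens γ K' :=
  { G with nrm := fun l h1 h2 u => (G.nrm l h1 h2 u).trans h }

/-- other windows -/
def setQ (Q' : ℕ → A →ₗ[ℝ] F') (h : ∀ l ≤ s, ∀ x ∈ R.E l, Q' l x = 0 → x = 0)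
    (hn : ∀ l, 1 ≤ l → l ≤ s → ∀ u : Fin l → γ, ‖Q' l (∏ i, G.g (u i))‖ ≤ K') :
    (R.setQ Q' h).Gens γ K' := ⟨G.g, G.mem, hn, G.span⟩

/-- scaled windows -/
def scl (c : ℝ) (hc : c ≠ 0) : (R.scl c hc).Gens γ (|c| * K) :=
  G.setQ _ _ fun l h1 h2 u => by
    rw [LinearMap.smul_apply, norm_smul]
    exact mul_le_mul_of_nonneg_left (G.nrm l h1 h2 u) (abs_nonneg _)

/-- generator or zero -/
def og (x : Option γ) : A := x.elim 0 G.g

theorem prod_og {l : ℕ} (u : Fin l → Option γ) :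
    ∏ i, G.og (u i) = 0 ∨ ∃ v : Fin l → γ, ∀ i, u i = some (v i) := by
  by_cases h : ∃ i, u i = none
  · obtain ⟨i, hi⟩ := h
    exact Or.inl (Finset.prod_eq_zero (Finset.mem_univ i) (by rw [hi]; rfl))
  · push Not at h
    choose v hv using fun i => Option.ne_none_iff_exists'.1 (h i)
    exact Or.inr ⟨v, hv⟩

theorem og_mem {l : ℕ} (h1 : 1 ≤ l) (hl : l ≤ s) (u : Fin l → Option γ) :
    ∏ i, G.og (u i) ∈ R.L l ∧ ‖R.Q l (∏ i, G.og (u i))‖ ≤ |K| := by
  rcases G.prod_og u with h | ⟨v, hv⟩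
  · rw [h, map_zero, norm_zero]; exact ⟨zero_mem _, abs_nonneg _⟩
  · simp only [hv]
    exact ⟨G.mem l h1 hl v, (G.nrm l h1 hl v).trans (le_abs_self _)⟩

end Gens

end Rg

namespace Sur
variable {R : Rg s A F} {R' : Rg s A' F'} {R0 : Rg s A0 F0} (S : Sur R R0 F1) (S' : Sur R' R0 F1')
  {γ γ' δ : Type} {K K' : ℝ}

/-- the base window is the quotient window -/
theorem exists_min {l : ℕ} (hl : l ≤ s) {y : A} (hy : y ∈ R.E l) :
    ∃ y' ∈ R.E l, S.φ y' = S.φ y ∧ S.Q1 l y' = 0 ∧ ‖R.Q l y'‖ = ‖R0.Q l (S.φ y)‖ := by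
  obtain ⟨k, hk, h1, h2⟩ := S.ker l hl y hy
  have h3 : S.φ (y - k) = S.φ y := by rw [map_sub, h1, sub_zero]
  have h4 : S.Q1 l (y - k) = 0 := by rw [map_sub, h2, sub_self]
  refine ⟨y - k, sub_mem hy hk, h3, h4, ?_⟩
  have := S.pyth l hl _ (sub_mem hy hk)
  rw [h3, h4] at this
  exact (pow_left_inj₀ (norm_nonneg _) (norm_nonneg _) two_ne_zero).1 (by simpa using this)

/-- generators of the image -/
def gens (G : R.Gens γ K) : R0.Gens γ K where
  g j := S.φ (G.g j)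
  mem l h1 hl u := by rw [← map_prod]; exact S.maps l _ (G.mem l h1 hl u)
  nrm l h1 hl u := by
    rw [← map_prod]
    exact (S.norm_le hl (Submodule.subset_span (G.mem l h1 hl u))).1.trans (G.nrm l h1 hl u)
  span l h1 hl y0 hy := by
    obtain ⟨y, hy', rfl⟩ := S.onto_E hy
    refine (Submodule.span_le (p := (Submodule.span ℝ _).comap S.φ.toLinearMap)).2 ?_
      (G.span l h1 hl hy')
    rintro _ ⟨u, rfl⟩
    exact Submodule.subset_span ⟨u, (map_prod S.φ _ _).symm⟩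

/-- generators of a fibre product: pairs of generators (or zero) with the same image -/
def fibGens (G : R.Gens γ K) (G' : R'.Gens γ' K') {κ' : γ' → Prop} (hκ : S'.KGen G' κ')
    (π : δ → Option γ) (π' : δ → Option γ') (h : ∀ j, S.φ (G.og (π j)) = S'.φ (G'.og (π' j)))
    (h1 : ∀ i, ∃ j, π j = some i) (h2 : ∀ i, ∃ j, π' j = some i ∧ (κ' i → π j = none)) :
    (S.fibRg S').Gens δ (|K| + |K'|) where
  g j := (G.og (π j), G'.og (π' j))
  mem l hl1 hl u := by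
    refine ⟨?_, ?_, ?_⟩
    · rw [Prod.fst_prod]; exact (G.og_mem hl1 hl _).1
    · rw [Prod.snd_prod]; exact (G'.og_mem hl1 hl _).1
    · simp only [Prod.fst_prod, Prod.snd_prod, map_prod, h]
  nrm l hl1 hl u := by
    refine abs_le_of_sq_le_sq' ?_ (by positivity) |>.2
    rw [S.norm_fibRg S', Prod.fst_prod, Prod.snd_prod]
    have a1 := (G.og_mem hl1 hl fun i => π (u i)).2
    have a2 := (S'.norm_le hl (Submodule.subset_span
      (G'.og_mem hl1 hl fun i => π' (u i)).1)).2.trans (G'.og_mem hl1 hl fun i => π' (u i)).2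
    have a3 := pow_le_pow_left₀ (norm_nonneg _) a1 2
    have a4 := pow_le_pow_left₀ (norm_nonneg _) a2 2
    nlinarith [mul_nonneg (abs_nonneg K) (abs_nonneg K')]
  span l hl1 hl y hy := by
    choose p hp using h1
    choose p' hp' hp'' using h2
    have hy' := (S.mem_fibRg_E S').1 hy
    set U := Submodule.span ℝ (Set.range fun u : Fin l → δ =>
      ∏ i, ((G.og (π (u i)), G'.og (π' (u i))) : A × A')) with hU
    have hUE : U ≤ (S.fibRg S').E l := Submodule.span_le.2 (by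
      rintro _ ⟨u, rfl⟩
      refine (S.mem_fibRg_E S').2 ⟨?_, ?_, ?_⟩
      · rw [Prod.fst_prod]; exact Submodule.subset_span (G.og_mem hl1 hl _).1
      · rw [Prod.snd_prod]; exact Submodule.subset_span (G'.og_mem hl1 hl _).1
      · simp only [Prod.fst_prod, Prod.snd_prod, map_prod, h])
    obtain ⟨x, hx, e⟩ : y.1 ∈ U.map (LinearMap.fst ℝ A A') := by
      refine Submodule.span_le.2 ?_ (G.span l hl1 hl hy'.1)
      rintro _ ⟨u, rfl⟩
      refine ⟨_, Submodule.subset_span ⟨fun i => p (u i), rfl⟩, ?_⟩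
      simp only [LinearMap.fst_apply, Prod.fst_prod, hp]
      rfl
    have e' : x.1 = y.1 := e
    have hx' := (S.mem_fibRg_E S').1 (hUE hx)
    have k1 := hκ.2 l hl1 hl _ (sub_mem hy'.2.1 hx'.2.1) (by
      rw [map_sub, ← hy'.2.2, ← hx'.2.2, e', sub_self])
    have k2 : ((0, y.2 - x.2) : A × A') ∈ U := by
      refine (Submodule.span_le (p := U.comap (LinearMap.inr ℝ A A'))).2 ?_ k1
      rintro _ ⟨u, ⟨i, hi⟩, rfl⟩
      refine Submodule.subset_span ⟨fun i => p' (u i), Prod.ext ?_ ?_⟩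
      · simp only [Prod.fst_prod]
        exact Finset.prod_eq_zero (Finset.mem_univ i) (by rw [hp'' _ hi]; rfl)
      · simp only [Prod.snd_prod, hp']
        rfl
    convert add_mem hx k2 using 1
    ext <;> simp [e']

open Classical in
/-- generators of the fibre square -/
noncomputable def sqGens (G : R.Gens γ K) {κ : γ → Prop} (hκ : S.KGen G κ) :
    (S.fibRg S).Gens (γ ⊕ γ) (|K| + |K|) :=
  S.fibGens S G G hκ (Sum.elim some fun j => if κ j then none else some j) (Sum.elim some some)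
    (by
      rintro (j | j)
      · rfl
      · simp only [Sum.elim_inr]
        split_ifs with h
        · exact (map_zero _).trans (hκ.1 j h).symm
        · rfl)
    (fun i => ⟨Sum.inl i, rfl⟩) fun i => ⟨Sum.inr i, rfl, fun h => if_pos h⟩

/-- **all three patterns of a surjection with kernel generated in degree one are good** -/
theorem good3 [Fintype γ] (G : R.Gens γ K) {κ : γ → Prop} (hκ : S.KGen G κ) {ι : Type}
    [Fintype ι] {T : Cell ι} (hlev : ∀ c, T.lev c ≤ s) (hK : 1 ≤ K) {x η : ℝ}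
    (hx : loss s (Fintype.card γ) K ≤ x) (hA : T.AllPC x η ∨ T.AllDer x η) :
    R.Good T η ∧ R0.Good T η ∧ (S.fibRg S).Good T η := by
  refine ⟨G.good hlev hK (by omega) (by linarith) hx hA,
    (S.gens G).good hlev hK (by omega) (by linarith) hx hA,
    (S.sqGens G hκ).good hlev ?_ (by rw [Fintype.card_sum]; omega) ?_ hx hA⟩ <;>
  rw [abs_of_nonneg (by linarith)] <;> linarith

end Sur

end Crest.Agent.T49.Rng
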