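import Crest.Agent.T49.NvA_74
import Crest.Agent.T49.RngGen_63
import Crest.Agent.T49.GlDef_99

/-! # Row 49 (helper74): NV, the statement of the last step (patterns on the cube ring) -/

set_option autoImplicit false

noncomputable section

namespace Crest.Agent.T49.Nv

open Tw Rng Gl Finset
open Crest.Agent.T49.Box (cz)

/-- generators `1, ω_j` of the cube ring -/
def cg (κ : Type) : Option κ → (κ → Bool) → ℝ := fun o ω => o.elim 1 fun j => (ω j).toNat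

open Classical in
/-- the monomial `∏_{j ∈ β} ω_j` -/
def vb {κ : Type} (β : κ → Bool) : (κ → Bool) → ℝ := fun ω => if β ≤ ω then 1 else 0

/-- (CUBE) a biased pattern on the cube ring gives a large Gowers norm -/
def CubeStmt : Prop :=
  ∀ s k : ℕ, ∃ C : ℕ, 1 ≤ C ∧ ∀ (κ : Type) [Fintype κ] [DecidableEq κ] (ι : Type) [Fintype ι]
    (T : Cell ι) (F : Type) [NormedAddCommGroup F] [InnerProductSpace ℝ F]
    (R : Rg s ((κ → Bool) → ℝ) F) (u r : ℝ) (hr : r ≠ 0) (g : ℕ) (f : (ι → ℤ) → ℂ),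
    Fintype.card κ = k → 2 ≤ u → (Fintype.card ι : ℝ) ≤ u → (∀ c, T.lev c ≤ s) →
    T.AllPC (u ^ C) (1 / 2) → R.Good T (1 / 2) → Real.exp (-u) ≤ r → r ≤ 1 → 1 ≤ g →
    (g : ℝ) ≤ Real.exp u → R.t0 = 1 →
    (∀ l, Nz (fun j => (g : ℝ) • cg κ j) ^ l ≤ R.L l) → (∀ l, R.L l ≤ Nz (cg κ) ^ l) →
    (∀ l ≤ s, ∀ x ∈ R.E l, r ^ 2 * ∑ ω, x ω ^ 2 ≤ ‖R.Q l x‖ ^ 2) →
    (∀ l ≤ s, ∀ β : κ → Bool, Hk.wt β ≤ l → ‖R.Q l (vb β)‖ ≤ Real.exp u) →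
    (∀ z, ‖f z‖ ≤ 1) →
    Real.exp (-u) * R.mu0 T ≤ ‖∑' w : R.Pt T, R.wt T (Off.zero ι _) w •
      ∏ ω, cz (Hk.sg ω) (f fun c => ⌊(w c : (κ → Bool) → ℝ) ω⌋)‖ →
    ∃ ψ, Cheap T (u ^ C) ψ ∧
      Real.exp (-u ^ C) * cmu (scl T r hr) k ≤ UT (scl T r hr) k fun z => f z * ψ z

end Crest.Agent.T49.Nv
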