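import Crest.Agent.T49.NvD_74

/-! # Row 49 (helper74): NV, the first pattern and the push-forward to the cube ring -/

set_option autoImplicit false

noncomputable section

namespace Crest.Agent.T49.Nv

open Tw Rng Gl Finset MvPolynomial Function
open Crest.Agent.T49.Box (cj cz bx W IsW)
open scoped ComplexConjugate

variable {D : ℕ} {ι : Type}

/-! ### the first pattern -/

/-- constant families -/
def cst : Pl (Fin D) →ₐ[ℝ] CA D := AlgHom.pi fun _ => AlgHom.id ℝ _

theorem cst_mem {l : ℕ} {p : MvPolynomial (Fin D) ℤ} (h : p.totalDegree ≤ l) (m : Fin D → ℤ) :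
    cst (map (Int.castRingHom ℝ) p) ∈ Nz (gn ∅ m) ^ l := by
  refine map_Nz (g := Fm.gen ℝ D) cst (fun j => ?_) ?_
  · rcases j with _ | j
    · exact one_mem
    · convert zj_mem (I := ∅) (m := m) j 0 using 1
      funext S; simp [cst, zj, Fm.gen]
  rw [p.as_sum, map_sum]
  refine Submodule.sum_mem _ fun α hα => ?_
  obtain ⟨u, hu⟩ := Fm.exists_prod_gen l α (Fm.degree_le_of_totalDegree h hα)
  have : map (Int.castRingHom ℝ) (monomial α (coeff α p)) = coeff α p • monomial α (1 : ℝ) := by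
    simp [map_monomial, smul_monomial]
  rw [this, ← hu]
  exact Submodule.smul_mem _ _ (prod_mem_pow fun i => mem_Nz _ _)

theorem exists_cst {l : ℕ} {m : Fin D → ℤ} {y : CA D} (h : y ∈ Nz (gn ∅ m) ^ l) :
    ∃ p : MvPolynomial (Fin D) ℤ, p.totalDegree ≤ l ∧ cst (map (Int.castRingHom ℝ) p) = y := by
  obtain ⟨p, hp⟩ := isInt_iff.1 (int_of h ∅)
  refine ⟨p, ?_, ?_⟩
  · have := deg_le (Nz_le_Nr h) ∅
    rwa [← hp, totalDegree, support_map_of_injective _ Int.cast_injective] at this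
  · rw [hp]
    refine eq_on_Nr (cst.comp (Pi.evalAlgHom ℝ _ ∅)) (AlgHom.id ℝ _) (fun j => ?_) (Nz_le_Nr h)
    rcases j with _ | j | j
    · rfl
    · rfl
    · simp [gn]

theorem ev_map (t : Fin D → ℤ) (p : MvPolynomial (Fin D) ℤ) :
    ev t (map (Int.castRingHom ℝ) p) = (eval t p : ℤ) := by
  rw [ev, eval_map]
  exact (eval₂_comp (Int.castRingHom ℝ) t p).symm

variable [Fintype ι] {T : Cell ι} {s L : ℕ} {σ B η : ℝ}

/-- the point of a frame -/
def fpt (hσ : 0 < σ) (V : Frm D T.lev) : (base s hσ (∅ : Finset (Fin D)) 0).Pt T :=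
  fun c => ⟨cst (V.rl c), cst_mem (V.deg c) 0⟩

omit [Fintype ι] in
theorem fpt_bij (hσ : 0 < σ) : Bijective (fpt (D := D) (T := T) (s := s) hσ) := by
  constructor
  · intro V V' h
    refine Fm.Frm.ext' (funext fun c => map_injective (Int.castRingHom ℝ) Int.cast_injective ?_)
    have h1 : cst (V.rl c) = cst (V'.rl c) := congrArg Subtype.val (congrFun h c)
    exact congrFun h1 ∅
  · intro w
    have h1 : ∀ c, (w c : CA D) ∈ Nz (gn ∅ 0) ^ T.lev c := fun c => (w c).2
    choose p hp using fun c => exists_cst (h1 c)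
    exact ⟨⟨p, fun c => (hp c).1⟩, funext fun c => Subtype.ext (hp c).2⟩

theorem fpt_wt (hσ : 0 < σ) (hlev : ∀ c, T.lev c ≤ s) (V : Frm D T.lev) :
    (base s hσ ∅ 0).wt T (Off.zero ι _) (fpt hσ V) = fw T σ V := by
  rw [Rg.wt, fw, fq]
  refine congrArg (fun x => Real.exp (-Real.pi * x)) (sum_congr rfl fun c _ => ?_)
  have h1 : (base s hσ ∅ 0).dv T (Off.zero ι _) (fpt hσ V) c = cst (bind₁ V.rl (T.th c)) := by
    rw [dv_zero _ rfl]
    exact (comp_aeval_apply (f := V.rl) cst (T.th c)).symm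
  rw [h1]
  refine (norm_Qs σ s _).trans ?_
  have h2 : n2 σ s (bind₁ V.rl (T.th c)) = q2 σ (bind₁ V.rl (T.th c)) :=
    (sum_subset ((Fm.support_bind_th T V c).trans (Fm.mi_mono (hlev c))) fun α _ hα => by
      rw [notMem_support_iff.1 hα]; simp).symm
  have h3 : ∀ S, cst (bind₁ V.rl (T.th c)) S = bind₁ V.rl (T.th c) := fun _ => rfl
  simp [sq2, h2, h3]

omit [Fintype ι] in
theorem fpt_FI (hσ : 0 < σ) (f : (ι → ℤ) → ℂ) (V : Frm D T.lev) :
    FI (fun x => f fun c => ⌊x c⌋) ∅ 0 0 (fun c => (fpt (s := s) hσ V c : CA D)) =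
      fun t => f (V.pt t) := funext fun t => by
  simp only [FI, powerset_empty, prod_singleton, card_empty, Box.cj_zero, piecewise_empty]
  exact congrArg f (funext fun c =>
    (congrArg Int.floor (ev_map t (V.W c))).trans (Int.floor_intCast _))

theorem St.start (e : Env T D s σ L B η) (hM : ∑' V : Frm D T.lev, fw T σ V ≤ 2 * fmu T D σ)
    {f : (ι → ℤ) → ℂ} (hf : ∀ z, ‖f z‖ ≤ 1) (G : ℕ) {K : Finset (Fin D)} (hK : K.Nonempty)
    {Z : Finset (Frm D T.lev)} {δ : ℝ} (hδ : 0 ≤ δ)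
    (h : δ * fmu T D σ ≤ ∑ V ∈ Z, fw T σ V * bxL L K fun t => f (V.pt t)) :
    St T s σ L G (fun x => f fun c => ⌊x c⌋) ∅ K (δ / 4) := by
  have hP : Pat σ ∅ 0 (base s e.pos (∅ : Finset (Fin D)) 0) :=
    ⟨fun _ => rfl, rfl, fun l _ y _ => by
      have : ‖(base s e.pos (∅ : Finset (Fin D)) 0).Q l y‖ ^ 2 = sq2 σ s y := norm_Qs σ s y
      simp [this]⟩
  have hp := isW (D := D) e.L1
  refine ⟨0, 0, 0, _, _, _, _, by simp, hP, ?_⟩
  have h1 := (e.good (hP.gens0 e (by simp))).ge e.lev (Rg.offMem_zero _)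
  rw [Rg.M, ← (Equiv.ofBijective _ (fpt_bij e.pos)).tsum_eq] at h1
  rw [← (Equiv.ofBijective _ (fpt_bij e.pos)).tsum_eq]
  simp only [Equiv.ofBijective_apply, fpt_wt e.pos e.lev, fpt_FI] at h1 ⊢
  have h3 : ∀ V : Frm D T.lev, ‖bxC L K fun t => f (V.pt t)‖ ≤ 1 := fun V =>
    norm_bx_le hp K fun _ => hf _
  have h4 : Summable fun V : Frm D T.lev => fw T σ V • bxC L K fun t => f (V.pt t) :=
    Summable.of_norm_bounded (Fm.summable_fw T e.pos) fun V => by
      rw [norm_smul, Real.norm_of_nonneg (Fm.fw_pos _ _ _).le]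
      exact mul_le_of_le_one_right (Fm.fw_pos _ _ _).le (h3 V)
  rw [Complex.re_tsum h4]
  simp only [Complex.smul_re, smul_eq_mul]
  refine le_trans ?_ (h.trans (Summable.sum_le_tsum Z
    (fun V _ => mul_nonneg (Fm.fw_pos _ _ _).le (Box.bx_re_nonneg hp hK _))
    (Fm.summable_fw_mul T e.pos fun V => (Complex.abs_re_le_norm _).trans (h3 V))))
  have h5 := (base s e.pos (∅ : Finset (Fin D)) 0).mu0_pos (T := T) e.lev
  generalize (base s e.pos (∅ : Finset (Fin D)) 0).mu0 T = μ at h1 h5 ⊢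
  have h6 : μ ≤ 4 * fmu T D σ := by nlinarith [e.e1]
  nlinarith

/-! ### evaluation at the vertices -/

variable {K : Finset (Fin D)}

/-- the set of a vertex -/
def So (K : Finset (Fin D)) (ω : K → Bool) : Finset (Fin D) :=
  (univ.filter fun j : K => ω j = false).map (Embedding.subtype _)

theorem mem_So {ω : K → Bool} {j : K} : j.1 ∈ So K ω ↔ ω j = false := by
  simp [So]

theorem So_subset (ω : K → Bool) : So K ω ⊆ K := fun j hj => by
  obtain ⟨j, -, rfl⟩ := mem_map.1 hj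
  exact j.2

theorem So_inj : Injective (So K) := fun ω ω' h => funext fun j => by
  have := mem_So (ω := ω) (j := j)
  rw [h, mem_So] at this
  revert this
  cases ω j <;> cases ω' j <;> simp

theorem prod_So (φ : Finset (Fin D) → ℂ) :
    ∏ S ∈ K.powerset, cj #S (φ S) = ∏ ω : K → Bool, cz (Hk.sg ω) (φ (So K ω)) := by
  symm
  refine prod_bij (fun ω _ => So K ω) (fun ω _ => mem_powerset.2 (So_subset ω))
    (fun _ _ _ _ h => So_inj h) (fun S hS => ⟨fun j => decide (j.1 ∉ S), mem_univ _, ?_⟩)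
    fun ω _ => ?_
  · ext j
    by_cases hj : j ∈ K
    · simpa using mem_So (ω := fun j : K => decide (j.1 ∉ S)) (j := ⟨j, hj⟩)
    · exact ⟨fun h => absurd (So_subset _ h) hj, fun h => absurd (mem_powerset.1 hS h) hj⟩
  · have : Hk.sg ω = (-1) ^ #(So K ω) := by
      rw [So, card_map, Hk.sg, ← prod_const, prod_filter]
      exact prod_congr rfl fun j _ => by cases ω j <;> simp [Box.sb]
    rw [this, cj]
    split_ifs with h
    · rw [h.neg_one_pow, Box.cz_one]
    · rw [(Nat.not_even_iff_odd.1 h).neg_one_pow, Box.cz_neg_one]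

/-- evaluation at the vertices of the box -/
def evK (K : Finset (Fin D)) (b a' : Fin D → ℤ) : CA D →ₐ[ℝ] ((K → Bool) → ℝ) :=
  AlgHom.pi fun ω => (aeval fun j => ((So K ω).piecewise a' b j : ℝ)).comp
    (Pi.evalAlgHom ℝ _ (So K ω))

theorem evK_apply (b a' : Fin D → ℤ) (Y : CA D) (ω : K → Bool) :
    evK K b a' Y ω = ev ((So K ω).piecewise a' b) (Y (So K ω)) := rfl

/-- the indicator of `ω j = false` -/
def nb (j : K) : (K → Bool) → ℝ := 1 - cg K (some j)

theorem nb_apply (j : K) (ω : K → Bool) : nb j ω = if ω j = false then 1 else 0 := by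
  simp only [nb, cg, Pi.sub_apply, Pi.one_apply, Option.elim]
  cases ω j <;> simp

variable {b a' m : Fin D → ℤ}

theorem evK_zj (j : K) (x : ℤ) :
    evK K b a' (zj j x) = (b j - x) • (1 : (K → Bool) → ℝ) + (a' j - b j) • nb j := by
  funext ω
  simp only [evK_apply, zj, ev_sub, ev_X, ev_C, Pi.add_apply, Pi.smul_apply, nb_apply, piecewise,
    mem_So]
  split_ifs <;> simp

theorem evK_zj' {j : Fin D} (hj : j ∉ K) (x : ℤ) :
    evK K b a' (zj j x) = (b j - x) • (1 : (K → Bool) → ℝ) := by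
  funext ω
  have : j ∉ So K ω := fun h => hj (So_subset _ h)
  simp only [evK_apply, zj, ev_sub, ev_X, ev_C, Pi.smul_apply, piecewise, if_neg this]
  simp

theorem evK_ej (j : K) (x : ℤ) : evK K b a' (ind j * zj j x) = (a' j - x) • nb j := by
  funext ω
  simp only [evK_apply, zj, ind, Pi.mul_apply, ev_mul, ev_sub, ev_X, ev_C, Pi.smul_apply,
    nb_apply, piecewise, mem_So]
  split_ifs <;> simp

/-- generators adapted to the kernel -/
def kg (K : Finset (Fin D)) (m b a' : Fin D → ℤ) : Option (Fin D ⊕ Fin D) → CA D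
  | none => 1
  | some (Sum.inl j) => if j ∈ K then
      (a' j - m j) • zj j (b j) + (b j - a' j) • (ind j * zj j (m j)) else zj j (b j)
  | some (Sum.inr j) => gn K m (some (Sum.inr j))

/-- the marked generators -/
def mk (o : Option (Fin D ⊕ Fin D)) : Prop := ∃ j, o = some (Sum.inl j)

theorem kg_mem (o : Option (Fin D ⊕ Fin D)) : kg K m b a' o ∈ Nz (gn K m) := by
  rcases o with _ | j | j
  · exact one_mem
  · simp only [kg]
    split_ifs with h
    · exact add_mem (zsmul_mem (zj_mem _ _) _) (zsmul_mem (ej_mem h) _)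
    · exact zj_mem _ _
  · exact mem_Nz (gn K m) (some (Sum.inr j))

theorem kg_ker {o : Option (Fin D ⊕ Fin D)} (h : mk o) : evK K b a' (kg K m b a' o) = 0 := by
  obtain ⟨j, rfl⟩ := h
  simp only [kg]
  split_ifs with h
  · have h1 := evK_zj (b := b) (a' := a') ⟨j, h⟩ (b j)
    have h2 := evK_ej (b := b) (a' := a') ⟨j, h⟩ (m j)
    simp only [map_add, map_zsmul, h1, h2]
    simp only [zsmul_eq_mul]
    push_cast
    ring
  · simp [evK_zj' h]

theorem kg_span (hy : ∀ j ∈ K, a' j - m j ≠ 0) : Nr (gn K m) ≤ Nr (kg K m b a') := by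
  refine Submodule.span_le.2 ?_
  rintro _ ⟨o, rfl⟩
  rcases o with _ | j | j
  · exact mem_Nr (kg K m b a') none
  · have h1 : zj j (b j) ∈ Nr (kg K m b a') := by
      have h2 := mem_Nr (kg K m b a') (some (Sum.inl j))
      have h3 := mem_Nr (kg K m b a') (some (Sum.inr j))
      simp only [kg, gn] at h2 h3
      split_ifs at h2 h3 with h
      · have h4 := sub_mem h2 (zsmul_mem h3 (b j - a' j))
        rw [add_sub_cancel_right, ← Int.cast_smul_eq_zsmul ℝ] at h4
        exact (Submodule.smul_mem_iff _ (Int.cast_ne_zero.2 (hy j h))).1 h4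
      · exact h2
    have := add_mem h1 (zsmul_mem (mem_Nr (kg K m b a') none) (b j))
    rwa [zj_eq j (b j), kg, sub_add_cancel] at this
  · exact mem_Nr (kg K m b a') (some (Sum.inr j))

/-- the multilinear monomials -/
def eb (m : Fin D → ℤ) (β : Finset K) : CA D := ∏ j ∈ β, ind j.1 * zj j.1 (m j)

theorem prod_mem_pow' {A α : Type} [CommRing A] [Algebra ℝ A] {N : Submodule ℝ A} (h1 : 1 ∈ N)
    {β : Finset α} {v : α → A} (h : ∀ j ∈ β, v j ∈ N) {l : ℕ} (hl : #β ≤ l) :
    ∏ j ∈ β, v j ∈ N ^ l := by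
  classical
  refine pow_le_pow_right' (Submodule.one_le.2 h1) hl ?_
  clear hl
  induction β using Finset.induction_on with
  | empty => simpa using one_mem_pow_zero N
  | insert j β hj ih =>
    rw [prod_insert hj, card_insert_of_notMem hj]
    exact mul_mem_succ (h j (mem_insert_self _ _)) (ih fun i hi => h i (mem_insert_of_mem hi))

theorem kg_mul (j : K) : kg K m b a' (some (Sum.inl j)) * (ind j.1 * zj j.1 (m j)) =
    (b j - m j) • ((ind j.1 * zj j.1 (m j)) * (ind j.1 * zj j.1 (m j)) -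
      (a' j - m j) • (ind j.1 * zj j.1 (m j))) := by
  simp only [kg, if_pos j.2, zj_eq j.1 (b j), zj_eq j.1 (m j), zsmul_eq_mul]
  push_cast
  linear_combination (-((a' j : CA D) - m j) * (zj j.1 0 - m j) ^ 2) * ind_mul_self j.1

theorem kgen (hx0 : ∀ j ∈ K, b j - m j ≠ 0) (hy : ∀ j ∈ K, a' j - m j ≠ 0) {l : ℕ} {y : CA D}
    (h : y ∈ Nr (kg K m b a') ^ l) (h0 : evK K b a' y = 0) : y ∈ Submodule.span ℝ
      {x | ∃ u : Fin l → Option (Fin D ⊕ Fin D), (∃ i, mk (u i)) ∧ x = ∏ i, kg K m b a' (u i)} := by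
  classical
  set J : ℕ → Submodule ℝ (CA D) := fun l => Submodule.span ℝ
    {x | ∃ u : Fin l → Option (Fin D ⊕ Fin D), (∃ i, mk (u i)) ∧ x = ∏ i, kg K m b a' (u i)}
  set Bl : ℕ → Submodule ℝ (CA D) := fun l => Submodule.span ℝ
    {x | ∃ β : Finset K, #β ≤ l ∧ x = eb m β}
  have he : ∀ {β : Finset K} {l}, #β ≤ l → eb m β ∈ Nr (kg K m b a') ^ l := fun h =>
    prod_mem_pow' (mem_Nr (kg K m b a') none) (fun j _ => by
      simpa [kg, gn] using mem_Nr (kg K m b a') (some (Sum.inr j.1))) h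
  have j1 : ∀ l o, ∀ x ∈ J l, kg K m b a' o * x ∈ J (l + 1) := fun l o x hx =>
    (Submodule.span_le (p := (J (l + 1)).comap (LinearMap.mulLeft ℝ (kg K m b a' o)))).2 (by
      rintro _ ⟨u, ⟨i, hi⟩, rfl⟩
      exact Submodule.subset_span ⟨Fin.cons o u, ⟨i.succ, hi⟩, by simp [Fin.prod_univ_succ]⟩) hx
  have j2 : ∀ l o, mk o → ∀ x ∈ Nr (kg K m b a') ^ l, kg K m b a' o * x ∈ J (l + 1) := by
    intro l o ho x hx
    rw [Nr, pow_eq] at hx
    exact (Submodule.span_le (p := (J (l + 1)).comap (LinearMap.mulLeft ℝ (kg K m b a' o)))).2 (by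
      rintro _ ⟨u, rfl⟩
      exact Submodule.subset_span ⟨Fin.cons o u, ⟨0, ho⟩, by simp [Fin.prod_univ_succ]⟩) hx
  have j3 : ∀ l o, ∀ x ∈ Bl l, kg K m b a' o * x ∈ J (l + 1) ⊔ Bl (l + 1) := fun l o x hx =>
    (Submodule.span_le (p := (J (l + 1) ⊔ Bl (l + 1)).comap
      (LinearMap.mulLeft ℝ (kg K m b a' o)))).2 (by
      rintro _ ⟨β, hβ, rfl⟩
      have k1 : eb m β ∈ Bl (l + 1) := Submodule.subset_span ⟨β, by omega, rfl⟩
      show kg K m b a' o * eb m β ∈ J (l + 1) ⊔ Bl (l + 1)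
      rcases o with _ | j | j
      · exact Submodule.mem_sup_right (by simpa [kg] using k1)
      · exact Submodule.mem_sup_left (j2 l _ ⟨j, rfl⟩ _ (he hβ))
      simp only [kg, gn]
      split_ifs with hj
      swap
      · simp
      by_cases hjβ : (⟨j, hj⟩ : K) ∈ β
      · have k2 := j2 l _ ⟨j, rfl⟩ _ (he hβ)
        rw [eb, ← mul_prod_erase _ _ hjβ] at k1 k2 ⊢
        rw [← mul_assoc, kg_mul ⟨j, hj⟩, smul_mul_assoc, ← Int.cast_smul_eq_zsmul ℝ,
          Submodule.smul_mem_iff _ (Int.cast_ne_zero.2 (hx0 j hj)), sub_mul, smul_mul_assoc] at k2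
        have := add_mem (Submodule.mem_sup_left (T := Bl (l + 1)) k2)
          (Submodule.mem_sup_right (zsmul_mem k1 (a' j - m j)))
        rwa [sub_add_cancel, mul_assoc] at this
      · refine Submodule.mem_sup_right (Submodule.subset_span ⟨insert ⟨j, hj⟩ β, ?_, ?_⟩)
        · rw [card_insert_of_notMem hjβ]; omega
        · rw [eb, eb, prod_insert hjβ]) hx
  have key : y ∈ J l ⊔ Bl l :=
    Nr_ind (P := fun l y => y ∈ J l ⊔ Bl l)
      (Submodule.mem_sup_right (Submodule.subset_span ⟨∅, le_rfl, by simp [eb]⟩))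
      (fun l o y hy => by
        obtain ⟨u, hu, v, hv, rfl⟩ := Submodule.mem_sup.1 hy
        rw [mul_add]
        exact add_mem (Submodule.mem_sup_left (j1 l o u hu)) (j3 l o v hv))
      (fun _ => zero_mem _) (fun _ _ _ => add_mem) (fun _ n _ h => Submodule.smul_mem _ n h) h
  obtain ⟨u, hu, v, hv, rfl⟩ := Submodule.mem_sup.1 key
  have hu0 : evK K b a' u = 0 :=
    (Submodule.span_le (p := LinearMap.ker (evK K b a').toLinearMap)).2 (by
      rintro _ ⟨u, ⟨i, hi⟩, rfl⟩
      show evK K b a' _ = 0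
      rw [map_prod]
      exact prod_eq_zero (mem_univ i) (kg_ker hi)) hu
  rw [map_add, hu0, zero_add] at h0
  obtain ⟨c, rfl⟩ := (Submodule.mem_span_range_iff_exists_fun ℝ).1
    (Submodule.span_mono (t := Set.range (eb (K := K) m))
      (by rintro _ ⟨β, _, rfl⟩; exact ⟨β, rfl⟩) hv)
  have hc : ∀ S : Finset K, ∑ β ∈ S.powerset, c β * ∏ j ∈ β, ((a' j - m j : ℤ) : ℝ) = 0 := by
    intro S
    have := congrFun h0 fun j => decide (j ∉ S)
    rw [map_sum, Finset.sum_apply] at this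
    refine Eq.trans ?_ this
    refine (sum_congr rfl fun β hβ => ?_).trans (sum_subset (subset_univ _) fun β _ hβ => ?_)
    · rw [map_smul, eb, map_prod, Pi.smul_apply, Finset.prod_apply, smul_eq_mul]
      refine congrArg _ (prod_congr rfl fun j hj => ?_)
      simp [evK_ej, nb_apply, mem_powerset.1 hβ hj]
    · obtain ⟨j, hj, hjS⟩ := not_subset.1 fun h => hβ (mem_powerset.2 h)
      rw [map_smul, eb, map_prod, Pi.smul_apply, Finset.prod_apply,
        prod_eq_zero hj (by simp [evK_ej, nb_apply, hjS]), smul_zero]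
  have hc0 : ∀ S : Finset K, c S = 0 := fun S => by
    induction S using Finset.strongInduction with
    | H S ih =>
      have := hc S
      rw [sum_eq_single S (fun β hβ hne => by
        rw [ih β (ssubset_of_subset_of_ne (mem_powerset.1 hβ) hne), zero_mul]) (by simp)] at this
      exact (mul_eq_zero.1 this).resolve_right
        (prod_ne_zero_iff.2 fun j _ => Int.cast_ne_zero.2 (hy j j.2))
  simpa [hc0] using hu

end Crest.Agent.T49.Nv
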