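import Mathlib

/-!
# Row 49 (helper35): invariant means on finitely generated abelian groups, BLR

* `IsMean m`, `exists_mean` : a translation invariant mean on the bounded functions;
* `blr` : a map which is additive on `19/20` of the pairs agrees, in the majority sense, with a
  homomorphism.
-/

set_option autoImplicit false

namespace Crest.Agent.T49.Pbp

open Filter Topology Finset

/-- bounded real functions -/
def Bd {H : Type*} (f : H → ℝ) : Prop := ∃ C : ℝ, ∀ y, |f y| ≤ C

section Bd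

variable {H : Type*} {f g : H → ℝ}

theorem Bd.const (c : ℝ) : Bd (fun _ : H => c) := ⟨|c|, fun _ => le_rfl⟩

theorem Bd.add (hf : Bd f) (hg : Bd g) : Bd (fun y => f y + g y) := by
  obtain ⟨C, hC⟩ := hf
  obtain ⟨D, hD⟩ := hg
  exact ⟨C + D, fun y => (abs_add_le _ _).trans (add_le_add (hC y) (hD y))⟩

theorem Bd.smul (c : ℝ) (hf : Bd f) : Bd (fun y => c * f y) := by
  obtain ⟨C, hC⟩ := hf
  exact ⟨|c| * C, fun y => by rw [abs_mul]; exact mul_le_mul_of_nonneg_left (hC y) (abs_nonneg _)⟩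

theorem Bd.comp {K : Type*} (hf : Bd f) (u : K → H) : Bd (fun y => f (u y)) := by
  obtain ⟨C, hC⟩ := hf
  exact ⟨C, fun y => hC _⟩

theorem Bd.sum {I : Type*} (s : Finset I) {F : I → H → ℝ} (hF : ∀ i ∈ s, Bd (F i)) :
    Bd (fun y => ∑ i ∈ s, F i y) := by
  classical
  induction s using Finset.induction_on with
  | empty => simpa using Bd.const (H := H) 0
  | insert i s hi ih =>
    simp only [sum_insert hi]
    exact (hF i (mem_insert_self _ _)).add (ih fun j hj => hF j (mem_insert_of_mem hj))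

theorem Bd.of_mem {a b : ℝ} (h : ∀ y, a ≤ f y ∧ f y ≤ b) : Bd f :=
  ⟨max |a| |b|, fun y => abs_le_max_abs_abs (h y).1 (h y).2⟩

open scoped Classical in
/-- the indicator of a proposition -/
noncomputable def ind (P : Prop) : ℝ := if P then 1 else 0

theorem ind_nonneg (P : Prop) : 0 ≤ ind P := by unfold ind; split_ifs <;> norm_num

theorem ind_le_one (P : Prop) : ind P ≤ 1 := by unfold ind; split_ifs <;> norm_num

theorem ind_pos {P : Prop} (h : P) : ind P = 1 := by unfold ind; rw [if_pos h]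

theorem ind_neg {P : Prop} (h : ¬ P) : ind P = 0 := by unfold ind; rw [if_neg h]

theorem Bd.ind (P : H → Prop) : Bd (fun y => ind (P y)) :=
  Bd.of_mem fun _ => ⟨ind_nonneg _, ind_le_one _⟩

end Bd

/-- a mean on the bounded functions -/
structure IsMean {H : Type*} (m : (H → ℝ) → ℝ) : Prop where
  add : ∀ f g, Bd f → Bd g → m (fun y => f y + g y) = m f + m g
  smul : ∀ (c : ℝ) f, Bd f → m (fun y => c * f y) = c * m f
  mono : ∀ f g, Bd f → Bd g → (∀ y, f y ≤ g y) → m f ≤ m g
  const : ∀ c : ℝ, m (fun _ => c) = c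

namespace IsMean

variable {H : Type*} {m : (H → ℝ) → ℝ} (hm : IsMean m)
include hm

theorem le_of_le {f : H → ℝ} (hf : Bd f) {c : ℝ} (h : ∀ y, f y ≤ c) : m f ≤ c :=
  (hm.mono _ _ hf (Bd.const c) h).trans_eq (hm.const c)

theorem ge_of_ge {f : H → ℝ} (hf : Bd f) {c : ℝ} (h : ∀ y, c ≤ f y) : c ≤ m f :=
  (hm.const c).symm.trans_le (hm.mono _ _ (Bd.const c) hf h)

theorem exists_lt {f : H → ℝ} (hf : Bd f) {c : ℝ} (h : m f < c) : ∃ y, f y < c := by
  by_contra hc
  push Not at hc
  exact absurd (hm.ge_of_ge hf hc) (not_le.2 h)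

theorem sum {I : Type*} (s : Finset I) {F : I → H → ℝ} (hF : ∀ i ∈ s, Bd (F i)) :
    m (fun y => ∑ i ∈ s, F i y) = ∑ i ∈ s, m (F i) := by
  classical
  induction s using Finset.induction_on with
  | empty => simpa using hm.const 0
  | insert i s hi ih =>
    simp only [sum_insert hi]
    rw [hm.add _ _ (hF i (mem_insert_self _ _))
      (Bd.sum s fun j hj => hF j (mem_insert_of_mem hj)),
      ih fun j hj => hF j (mem_insert_of_mem hj)]

theorem ind_mem (P : H → Prop) : 0 ≤ m (fun y => ind (P y)) ∧ m (fun y => ind (P y)) ≤ 1 :=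
  ⟨hm.ge_of_ge (Bd.ind P) fun _ => ind_nonneg _, hm.le_of_le (Bd.ind P) fun _ => ind_le_one _⟩

theorem bd_ind {K : Type*} (P : K → H → Prop) : Bd (fun x => m (fun y => ind (P x y))) :=
  Bd.of_mem fun x => hm.ind_mem (P x)

end IsMean

/-! ### existence -/

/-- the limit along the hyperfilter -/
noncomputable def ul (a : ℕ → ℝ) : ℝ := limUnder (hyperfilter ℕ : Filter ℕ) a

theorem tendsto_ul {a : ℕ → ℝ} (ha : Bd a) :
    Tendsto a (hyperfilter ℕ : Filter ℕ) (𝓝 (ul a)) := by
  obtain ⟨C, hC⟩ := ha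
  obtain ⟨l, -, hl⟩ := (isCompact_Icc (a := -C) (b := C)).ultrafilter_le_nhds
    ((hyperfilter ℕ).map a) (by
      rw [Ultrafilter.coe_map, le_principal_iff, Filter.mem_map]
      exact Eventually.of_forall fun n => abs_le.1 (hC n))
  exact tendsto_nhds_limUnder ⟨l, hl⟩

theorem isMean_ul : IsMean ul where
  add _ _ hf hg := tendsto_nhds_unique (tendsto_ul (hf.add hg)) ((tendsto_ul hf).add (tendsto_ul hg))
  smul c _ hf := tendsto_nhds_unique (tendsto_ul (hf.smul c)) ((tendsto_ul hf).const_mul c)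
  mono _ _ hf hg h := le_of_tendsto_of_tendsto' (tendsto_ul hf) (tendsto_ul hg) h
  const c := tendsto_nhds_unique (tendsto_ul (Bd.const c)) tendsto_const_nhds

/-- Cesàro averages -/
noncomputable def ces (a : ℕ → ℝ) (n : ℕ) : ℝ := (∑ j ∈ range (n + 1), a j) / ((n : ℝ) + 1)

theorem ces_le {a b : ℕ → ℝ} (h : ∀ j, a j ≤ b j) (n : ℕ) : ces a n ≤ ces b n :=
  div_le_div_of_nonneg_right (sum_le_sum fun j _ => h j) (by positivity)

theorem ces_const (c : ℝ) (n : ℕ) : ces (fun _ => c) n = c := by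
  unfold ces
  rw [sum_const, card_range, nsmul_eq_mul]
  push_cast
  field_simp

theorem Bd.ces {a : ℕ → ℝ} (ha : Bd a) : Bd (ces a) := by
  obtain ⟨C, hC⟩ := ha
  exact Bd.of_mem (a := -C) (b := C) fun n =>
    ⟨(ces_const _ n).symm.trans_le (ces_le (fun j => (abs_le.1 (hC j)).1) n),
      (ces_le (fun j => (abs_le.1 (hC j)).2) n).trans_eq (ces_const _ n)⟩

/-- a Banach limit -/
noncomputable def bl (a : ℕ → ℝ) : ℝ := ul (ces a)

theorem isMean_bl : IsMean bl where
  add f g hf hg := by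
    unfold bl
    rw [← isMean_ul.add _ _ hf.ces hg.ces]
    congr 1
    funext n
    unfold ces
    rw [sum_add_distrib, add_div]
  smul c f hf := by
    unfold bl
    rw [← isMean_ul.smul _ _ hf.ces]
    congr 1
    funext n
    unfold ces
    rw [← mul_sum, mul_div_assoc]
  mono f g hf hg h := isMean_ul.mono _ _ hf.ces hg.ces (ces_le h)
  const c := by
    unfold bl
    rw [show ces (fun _ => c) = fun _ => c from funext (ces_const c)]
    exact isMean_ul.const c

theorem bl_succ {a : ℕ → ℝ} (ha : Bd a) : bl (fun j => a (j + 1)) = bl a := by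
  have h1 := tendsto_ul (ha.comp fun j => j + 1).ces
  have h2 := tendsto_ul ha.ces
  obtain ⟨C, hC⟩ := ha
  have h3 : Tendsto (fun n => ces (fun j => a (j + 1)) n - ces a n) atTop (𝓝 0) := by
    have h4 : Tendsto (fun n : ℕ => 2 * C / ((n : ℝ) + 1)) atTop (𝓝 0) :=
      tendsto_const_nhds.div_atTop (tendsto_atTop_add_const_right _ _ tendsto_natCast_atTop_atTop)
    refine squeeze_zero_norm (fun n => ?_) h4
    unfold ces
    rw [← sub_div, sum_range_succ, sum_range_succ' a, Real.norm_eq_abs, abs_div,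
      abs_of_pos (by positivity : (0 : ℝ) < (n : ℝ) + 1)]
    refine div_le_div_of_nonneg_right ?_ (by positivity)
    have e : ∑ x ∈ range n, a (x + 1) + a (n + 1) - (∑ k ∈ range n, a (k + 1) + a 0) =
        a (n + 1) - a 0 := by ring
    rw [e]
    have := hC (n + 1)
    have := hC 0
    have := abs_sub (a (n + 1)) (a 0)
    linarith
  have h5 := h3.mono_left Nat.hyperfilter_le_atTop
  have h6 := tendsto_nhds_unique (h1.sub h2) h5
  unfold bl
  linarith

/-- **invariant means** on finitely generated abelian groups -/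
theorem exists_mean (H : Type*) [AddCommGroup H] [hH : AddGroup.FG H] :
    ∃ m : (H → ℝ) → ℝ, IsMean m ∧ ∀ f t, Bd f → m (fun y => f (t + y)) = m f := by
  classical
  have key : ∀ S : Finset H, ∃ m : (H → ℝ) → ℝ, IsMean m ∧
      ∀ t ∈ S, ∀ f, Bd f → m (fun y => f (t + y)) = m f := by
    intro S
    induction S using Finset.induction_on with
    | empty =>
      exact ⟨fun f => f 0, ⟨fun _ _ _ _ => rfl, fun _ _ _ => rfl, fun _ _ _ _ h => h 0,
        fun _ => rfl⟩, by simp⟩
    | insert x S hx ih =>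
      obtain ⟨m, hm, hS⟩ := ih
      have hb : ∀ f : H → ℝ, Bd f → Bd fun j : ℕ => m (fun y => f (j • x + y)) := by
        rintro f hf
        obtain ⟨C, hC⟩ := id hf
        exact Bd.of_mem (a := -C) (b := C) fun j =>
          ⟨hm.ge_of_ge (hf.comp _) fun y => (abs_le.1 (hC _)).1,
            hm.le_of_le (hf.comp _) fun y => (abs_le.1 (hC _)).2⟩
      refine ⟨fun f => bl fun j => m (fun y => f (j • x + y)), ⟨?_, ?_, ?_, ?_⟩, ?_⟩
      · intro f g hf hg
        rw [← isMean_bl.add _ _ (hb f hf) (hb g hg)]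
        exact congrArg bl (funext fun j => hm.add _ _ (hf.comp _) (hg.comp _))
      · intro c f hf
        rw [← isMean_bl.smul _ _ (hb f hf)]
        exact congrArg bl (funext fun j => hm.smul _ _ (hf.comp _))
      · intro f g hf hg h
        exact isMean_bl.mono _ _ (hb f hf) (hb g hg) fun j =>
          hm.mono _ _ (hf.comp _) (hg.comp _) fun y => h _
      · intro c
        simp only [hm.const]
        exact isMean_bl.const c
      · intro t ht f hf
        beta_reduce
        rcases mem_insert.1 ht with rfl | ht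
        · rw [← bl_succ (hb f hf)]
          refine congrArg bl (funext fun j => congrArg m (funext fun y => ?_))
          rw [succ_nsmul, ← add_assoc, add_comm t]
        · refine congrArg bl (funext fun j => ?_)
          rw [← hS t ht (fun y => f (j • x + y)) (hf.comp _)]
          refine congrArg m (funext fun y => ?_)
          rw [add_left_comm]
  obtain ⟨S, hS⟩ := hH.out
  obtain ⟨m, hm, h⟩ := key S
  refine ⟨m, hm, fun f t => ?_⟩
  have ht : t ∈ AddSubgroup.closure (S : Set H) := hS ▸ AddSubgroup.mem_top t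
  induction ht using AddSubgroup.closure_induction generalizing f with
  | mem t ht => exact h t ht f
  | zero => intro _; simp
  | add s t _ _ hs ht =>
    intro hf
    rw [← hs f hf, ← ht (fun y => f (s + y)) (hf.comp _)]
    simp only [add_assoc]
  | neg t _ ht =>
    intro hf
    rw [← ht (fun y => f (-t + y)) (hf.comp _)]
    simp

/-- **BLR** for an invariant mean -/
theorem blr {H A : Type*} [AddCommGroup H] [AddCommGroup A] {m : (H → ℝ) → ℝ} (hm : IsMean m)
    (hinv : ∀ f t, Bd f → m (fun y => f (t + y)) = m f) (ρ : H → A)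
    (hρ : m (fun y => m (fun z => ind (ρ (y + z) - ρ y - ρ z ≠ 0))) < 1 / 20) :
    ∃ h : H →+ A, ∀ x, m (fun z => ind (ρ (x + z) - ρ z ≠ h x)) < 1 / 10 := by
  set φ : H → ℝ := fun y => m (fun z => ind (ρ (y + z) - ρ y - ρ z ≠ 0)) with hφ
  have hφb : Bd φ := hm.bd_ind _
  have hc : ∀ x, ∃ c : A, m (fun z => ind (ρ (x + z) - ρ z ≠ c)) < 1 / 10 := by
    intro x
    have h1 : m (fun y => φ (x + y) + φ y) < 1 / 10 := by
      rw [hm.add _ _ (hφb.comp _) hφb, hinv φ x hφb]
      linarith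
    obtain ⟨y, hy⟩ := hm.exists_lt ((hφb.comp _).add hφb) h1
    refine ⟨ρ (x + y) - ρ y, lt_of_le_of_lt ?_ hy⟩
    have h2 : φ y = m (fun z => ind (ρ (y + (x + z)) - ρ y - ρ (x + z) ≠ 0)) :=
      (hinv (fun z => ind (ρ (y + z) - ρ y - ρ z ≠ 0)) x (Bd.ind _)).symm
    rw [h2, hφ]
    dsimp only
    rw [← hm.add _ _ (Bd.ind _) (Bd.ind _)]
    refine hm.mono _ _ (Bd.ind _) ((Bd.ind _).add (Bd.ind _)) fun z => ?_
    by_cases e1 : ρ (x + y + z) - ρ (x + y) - ρ z = 0
    · by_cases e2 : ρ (y + (x + z)) - ρ y - ρ (x + z) = 0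
      · rw [ind_neg (P := ρ (x + z) - ρ z ≠ ρ (x + y) - ρ y)]
        · exact add_nonneg (ind_nonneg _) (ind_nonneg _)
        · rw [not_not]
          rw [show y + (x + z) = x + y + z by abel] at e2
          have : ρ (x + z) - ρ z - (ρ (x + y) - ρ y) =
              (ρ (x + y + z) - ρ (x + y) - ρ z) - (ρ (x + y + z) - ρ y - ρ (x + z)) := by abel
          rw [e1, e2, sub_zero] at this
          exact sub_eq_zero.1 this
      · rw [ind_pos e2]
        linarith [ind_le_one (ρ (x + z) - ρ z ≠ ρ (x + y) - ρ y),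
          ind_nonneg (ρ (x + y + z) - ρ (x + y) - ρ z ≠ 0)]
    · rw [ind_pos e1]
      linarith [ind_le_one (ρ (x + z) - ρ z ≠ ρ (x + y) - ρ y),
        ind_nonneg (ρ (y + (x + z)) - ρ y - ρ (x + z) ≠ 0)]
  choose c hc using hc
  refine ⟨AddMonoidHom.mk' c fun x x' => ?_, hc⟩
  have h3 := hc x
  rw [← hinv (fun z => ind (ρ (x + z) - ρ z ≠ c x)) x' (Bd.ind _)] at h3
  have h4 : m (fun z => ind (ρ (x + x' + z) - ρ z ≠ c (x + x')) +
      (ind (ρ (x' + z) - ρ z ≠ c x') + ind (ρ (x + (x' + z)) - ρ (x' + z) ≠ c x))) < 1 := by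
    rw [hm.add _ _ (Bd.ind _) ((Bd.ind _).add (Bd.ind _)), hm.add _ _ (Bd.ind _) (Bd.ind _)]
    linarith [hc (x + x'), hc x']
  obtain ⟨z, hz⟩ := hm.exists_lt ((Bd.ind _).add ((Bd.ind _).add (Bd.ind _))) h4
  have a1 := ind_nonneg (ρ (x + x' + z) - ρ z ≠ c (x + x'))
  have a2 := ind_nonneg (ρ (x' + z) - ρ z ≠ c x')
  have a3 := ind_nonneg (ρ (x + (x' + z)) - ρ (x' + z) ≠ c x)
  have b1 : ρ (x + x' + z) - ρ z = c (x + x') := by
    by_contra h; rw [ind_pos h] at hz; linarith
  have b2 : ρ (x' + z) - ρ z = c x' := by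
    by_contra h; rw [ind_pos h] at hz; linarith
  have b3 : ρ (x + (x' + z)) - ρ (x' + z) = c x := by
    by_contra h; rw [ind_pos h] at hz; linarith
  rw [← b1, ← b2, ← b3, add_assoc]
  abel

end Crest.Agent.T49.Pbp
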