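import Crest.Agent.T49.PbpA_35

/-!
# Row 49 (helper35): the torsion lemma ("prime by prime")

`pbp` : a map from a finitely generated free abelian group to a divisible group all of whose
additive defects have order at most `Q` differs from a homomorphism by elements of order at most
`b Q ^ 2`, `b ≤ exp (30 log ^ 2 Q)` fixed.
-/

set_option autoImplicit false

namespace Crest.Agent.T49.Pbp

open Finset

/-- `a` is killed by some `0 < q ≤ Q` -/
def Tor {A : Type*} [AddCommGroup A] (Q : ℕ) (a : A) : Prop := ∃ q : ℕ, 0 < q ∧ q ≤ Q ∧ q • a = 0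

namespace Tor

variable {A : Type*} [AddCommGroup A] {Q Q' : ℕ} {a b : A}

theorem zero (hQ : 1 ≤ Q) : Tor Q (0 : A) := ⟨1, one_pos, hQ, smul_zero _⟩

theorem mono (h : Tor Q a) (hQ : Q ≤ Q') : Tor Q' a := by
  obtain ⟨q, h0, h1, h2⟩ := h
  exact ⟨q, h0, h1.trans hQ, h2⟩

theorem one_le (h : Tor Q a) : 1 ≤ Q := by
  obtain ⟨q, h0, h1, -⟩ := h
  omega

theorem neg (h : Tor Q a) : Tor Q (-a) := by
  obtain ⟨q, h0, h1, h2⟩ := h
  exact ⟨q, h0, h1, by rw [smul_neg, h2, neg_zero]⟩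

theorem add (h : Tor Q a) (h' : Tor Q' b) : Tor (Q * Q') (a + b) := by
  obtain ⟨q, h0, h1, h2⟩ := h
  obtain ⟨q', h0', h1', h2'⟩ := h'
  refine ⟨q * q', Nat.mul_pos h0 h0', Nat.mul_le_mul h1 h1', ?_⟩
  rw [smul_add, mul_smul q q' b, h2', mul_comm, mul_smul, h2, smul_zero, smul_zero, add_zero]

theorem sub (h : Tor Q a) (h' : Tor Q' b) : Tor (Q * Q') (a - b) := by
  rw [sub_eq_add_neg]; exact h.add h'.neg

theorem zsmul (h : Tor Q a) (n : ℤ) : Tor Q (n • a) := by
  obtain ⟨q, h0, h1, h2⟩ := h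
  exact ⟨q, h0, h1, by rw [smul_comm, h2, smul_zero]⟩

theorem nsmul (h : Tor Q a) (n : ℕ) : Tor Q (n • a) := by
  obtain ⟨q, h0, h1, h2⟩ := h
  exact ⟨q, h0, h1, by rw [smul_comm, h2, smul_zero]⟩

theorem map {B : Type*} [AddCommGroup B] (f : A →+ B) (h : Tor Q a) : Tor Q (f a) := by
  obtain ⟨q, h0, h1, h2⟩ := h
  exact ⟨q, h0, h1, by rw [← map_nsmul, h2, map_zero]⟩

theorem sum {I : Type*} (s : Finset I) {f : I → A} (h : ∀ i ∈ s, Tor Q (f i)) :
    Tor (Q ^ s.card) (∑ i ∈ s, f i) := by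
  classical
  induction s using Finset.induction_on with
  | empty => simpa using zero le_rfl
  | insert i s hi ih =>
    rw [sum_insert hi, card_insert_of_notMem hi, pow_succ']
    exact (h i (mem_insert_self _ _)).add (ih fun j hj => h j (mem_insert_of_mem hj))

theorem of_nsmul {n : ℕ} (hn : 0 < n) (h : Tor Q (n • a)) : Tor (Q * n) a := by
  obtain ⟨q, h0, h1, h2⟩ := h
  exact ⟨q * n, Nat.mul_pos h0 hn, Nat.mul_le_mul_right _ h1, by rw [mul_smul, h2]⟩

end Tor

/-- the largest power of `p` below `Q` -/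
def pw (Q p : ℕ) : ℕ := p ^ Nat.log p Q

/-- the least common multiple of `1, …, Q` -/
def lc (Q : ℕ) : ℕ := ∏ p ∈ Nat.primesBelow (Q + 1), pw Q p

theorem pw_le {Q : ℕ} (hQ : 1 ≤ Q) (p : ℕ) : pw Q p ≤ Q := Nat.pow_log_le_self p (by omega)

theorem pw_pos {Q p : ℕ} (hp : p ∈ Nat.primesBelow (Q + 1)) : 0 < pw Q p :=
  pow_pos (Nat.prime_of_mem_primesBelow hp).pos _

theorem lc_pos (Q : ℕ) : 0 < lc Q := prod_pos fun _ hp => pw_pos hp

theorem dvd_lc {Q q : ℕ} (h0 : 0 < q) (h1 : q ≤ Q) : q ∣ lc Q := by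
  refine (Nat.dvd_iff_prime_pow_dvd_dvd _ _).2 fun p k hp hk => ?_
  rcases Nat.eq_zero_or_pos k with rfl | hk0
  · simp
  have h2 : p ^ k ≤ Q := (Nat.le_of_dvd h0 hk).trans h1
  have h3 : p ≤ Q := (Nat.le_self_pow hk0.ne' p).trans h2
  have h4 : p ∈ Nat.primesBelow (Q + 1) := Nat.mem_primesBelow.2 ⟨by omega, hp⟩
  exact (pow_dvd_pow p (Nat.le_log_of_pow_le hp.one_lt h2)).trans (dvd_prod_of_mem (pw Q) h4)

theorem pw_coprime {Q p p' : ℕ} (hp : p ∈ Nat.primesBelow (Q + 1))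
    (hp' : p' ∈ Nat.primesBelow (Q + 1)) (h : p ≠ p') : (pw Q p).Coprime (pw Q p') :=
  Nat.Coprime.pow _ _ ((Nat.coprime_primes (Nat.prime_of_mem_primesBelow hp)
    (Nat.prime_of_mem_primesBelow hp')).2 h)

/-- the idempotents -/
theorem exists_idem (Q : ℕ) : ∃ e : ℕ → ℤ,
    (lc Q : ℤ) ∣ (∑ p ∈ Nat.primesBelow (Q + 1), e p) - 1 ∧
      ∀ p ∈ Nat.primesBelow (Q + 1), (lc Q : ℤ) ∣ pw Q p * e p := by
  rcases (Nat.primesBelow (Q + 1)).eq_empty_or_nonempty with h | h
  · refine ⟨0, ?_, by simp⟩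
    unfold lc
    rw [h]
    simp
  obtain ⟨μ, hμ⟩ := (exists_sum_eq_one_iff_pairwise_coprime (s := fun p => (pw Q p : ℤ)) h).2
    fun p p' hne => Nat.isCoprime_iff_coprime.2
      (pw_coprime p.2 p'.2 fun e => hne (Subtype.ext e))
  refine ⟨fun p => μ p * ∏ j ∈ Nat.primesBelow (Q + 1) \ {p}, (pw Q j : ℤ), ?_, fun p hp => ?_⟩
  · rw [hμ, sub_self]; exact dvd_zero _
  · refine Dvd.intro_left (μ p) ?_
    unfold lc
    push_cast
    rw [prod_eq_mul_prod_sdiff_singleton_of_mem hp]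
    ring

theorem zsmul_eq_zero_of_dvd {A : Type*} [AddCommGroup A] {M : ℕ} {a : A} (h : M • a = 0)
    {n : ℤ} (hn : (M : ℤ) ∣ n) : n • a = 0 := by
  obtain ⟨k, rfl⟩ := hn
  rw [mul_comm, mul_smul, natCast_zsmul, h, smul_zero]

/-- the orders of the `p`-parts multiply to at most `Q` -/
theorem sum_log_le {A : Type*} [AddCommGroup A] {Q : ℕ} {e : ℕ → ℤ}
    (he : ∀ p ∈ Nat.primesBelow (Q + 1), (lc Q : ℤ) ∣ pw Q p * e p) {a : A} (ha : Tor Q a) :
    (∀ p ∈ Nat.primesBelow (Q + 1), 0 < addOrderOf (e p • a)) ∧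
      ∑ p ∈ Nat.primesBelow (Q + 1), Real.log (addOrderOf (e p • a)) ≤ Real.log Q := by
  obtain ⟨q, h0, h1, h2⟩ := ha
  have hM : lc Q • a = 0 := by
    obtain ⟨k, hk⟩ := dvd_lc h0 h1
    rw [hk, mul_comm, mul_smul, h2, smul_zero]
  have hq : ∀ p, addOrderOf (e p • a) ∣ q := fun p =>
    addOrderOf_dvd_of_nsmul_eq_zero (by rw [smul_comm, h2, smul_zero])
  have hpos : ∀ p, 0 < addOrderOf (e p • a) := fun p => Nat.pos_of_dvd_of_pos (hq p) h0
  have hp : ∀ p ∈ Nat.primesBelow (Q + 1), addOrderOf (e p • a) ∣ pw Q p := fun p hp =>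
    addOrderOf_dvd_of_nsmul_eq_zero (by
      rw [← natCast_zsmul, ← mul_smul]; exact zsmul_eq_zero_of_dvd hM (he p hp))
  refine ⟨fun p _ => hpos p, ?_⟩
  have h3 : ∏ p ∈ Nat.primesBelow (Q + 1), addOrderOf (e p • a) ∣ q :=
    Finset.prod_dvd_of_isRelPrime (fun p hp' p' hp'' hne => Nat.coprime_iff_isRelPrime.1
      (Nat.Coprime.coprime_dvd_left (hp p hp') (Nat.Coprime.coprime_dvd_right (hp p' hp'')
        (pw_coprime hp' hp'' hne)))) fun p _ => hq p
  rw [← Real.log_prod fun p _ => by exact_mod_cast (hpos p).ne']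
  refine Real.log_le_log (prod_pos fun p _ => by exact_mod_cast hpos p) ?_
  exact_mod_cast (Nat.le_of_dvd h0 h3).trans h1

theorem log_nonneg_ord {A : Type*} [AddCommGroup A] (a : A) : 0 ≤ Real.log (addOrderOf a) :=
  Real.log_natCast_nonneg _

theorem ind_le_log {A : Type*} [AddCommGroup A] {a : A} (h : 0 < addOrderOf a) :
    ind (a ≠ 0) ≤ 3 / 2 * Real.log (addOrderOf a) := by
  by_cases h0 : a = 0
  · rw [ind_neg (not_not.2 h0)]
    have := log_nonneg_ord a
    positivity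
  · rw [ind_pos h0]
    have h1 : addOrderOf a ≠ 1 := fun h1 => h0 (AddMonoid.addOrderOf_eq_one_iff.1 h1)
    have h2 : (2 : ℝ) ≤ addOrderOf a := by exact_mod_cast (by omega : 2 ≤ addOrderOf a)
    have h3 := Real.log_le_log (by norm_num) h2
    have := Real.log_two_gt_d9
    linarith

/-- the torsion lemma for maps with values in the `lc Q`-torsion -/
theorem pbp_tors {H A : Type*} [AddCommGroup H] [AddGroup.FG H] [AddCommGroup A] {Q : ℕ}
    (r : H → A) (hδ : ∀ x y, Tor Q (r (x + y) - r x - r y)) (hM : ∀ x, lc Q • r x = 0) :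
    ∃ (h : H →+ A) (b : ℕ), 0 < b ∧ (b : ℝ) ≤ Real.exp (30 * Real.log Q ^ 2) ∧
      ∀ x, Tor (Q ^ 2) (b • (r x - h x)) := by
  classical
  obtain ⟨m, hm, hinv⟩ := exists_mean H
  obtain ⟨e, he1, he⟩ := exists_idem Q
  have hQ : 1 ≤ Q := (hδ 0 0).one_le
  have hQ' : (1 : ℝ) ≤ Q := by exact_mod_cast hQ
  have hlog : 0 ≤ Real.log Q := Real.log_nonneg hQ'
  set I := Nat.primesBelow (Q + 1) with hI
  set ρ : ℕ → H → A := fun p x => e p • r x with hρ
  have hδρ : ∀ p x y, ρ p (x + y) - ρ p x - ρ p y = e p • (r (x + y) - r x - r y) := by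
    intro p x y
    simp only [hρ, smul_sub]
  set f : ℕ → ℝ := fun p => m fun y => m fun z => ind (ρ p (y + z) - ρ p y - ρ p z ≠ 0) with hf
  have hf0 : ∀ p, 0 ≤ f p := fun p =>
    hm.ge_of_ge (hm.bd_ind _) fun y => (hm.ind_mem _).1
  have hfs : ∑ p ∈ I, f p ≤ 3 / 2 * Real.log Q := by
    rw [← hm.sum I fun p _ => hm.bd_ind _]
    refine hm.le_of_le (Bd.sum _ fun p _ => hm.bd_ind _) fun y => ?_
    rw [← hm.sum I fun p _ => Bd.ind _]
    refine hm.le_of_le (Bd.sum _ fun p _ => Bd.ind _) fun z => ?_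
    obtain ⟨h1, h2⟩ := sum_log_le he (hδ y z)
    refine le_trans (sum_le_sum fun p hp => ?_) ((mul_sum _ _ _).symm.trans_le
      (mul_le_mul_of_nonneg_left h2 (by norm_num)))
    rw [hδρ]
    exact ind_le_log (h1 p hp)
  set Bad := I.filter fun p => 1 / 20 ≤ f p with hBad
  set Good := I.filter fun p => ¬ 1 / 20 ≤ f p with hGood
  have hcard : (Bad.card : ℝ) ≤ 30 * Real.log Q := by
    have h1 : (Bad.card : ℝ) * (1 / 20) ≤ ∑ p ∈ Bad, f p := by
      rw [← nsmul_eq_mul]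
      exact card_nsmul_le_sum _ _ _ fun p hp => (mem_filter.1 hp).2
    have h2 : ∑ p ∈ Bad, f p ≤ ∑ p ∈ I, f p :=
      sum_le_sum_of_subset_of_nonneg (filter_subset _ _) fun p _ _ => hf0 p
    linarith
  have hex : ∀ p, ∃ h : H →+ A, ¬ 1 / 20 ≤ f p →
      ∀ x, m (fun z => ind (ρ p (x + z) - ρ p z ≠ h x)) < 1 / 10 := by
    intro p
    by_cases hp : 1 / 20 ≤ f p
    · exact ⟨0, fun h => absurd hp h⟩
    · obtain ⟨h, hh⟩ := blr hm hinv (ρ p) (not_le.1 hp)
      exact ⟨h, fun _ => hh⟩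
  choose h hh using hex
  refine ⟨∑ p ∈ Good, h p, ∏ p ∈ Bad, pw Q p,
    prod_pos fun p hp => pw_pos (mem_filter.1 hp).1, ?_, fun x => ?_⟩
  · have h1 : ∏ p ∈ Bad, pw Q p ≤ Q ^ Bad.card := prod_le_pow_card _ _ _ fun p _ => pw_le hQ p
    calc ((∏ p ∈ Bad, pw Q p : ℕ) : ℝ) ≤ (Q : ℝ) ^ Bad.card := by exact_mod_cast h1
      _ = Real.exp (Bad.card * Real.log Q) := by
        rw [Real.exp_nat_mul, Real.exp_log (by linarith)]
      _ ≤ _ := Real.exp_le_exp.2 (by nlinarith)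
  · set t : ℕ → A := fun p => ρ p x - h p x with ht
    have hteq : ∀ p z, ρ p (x + z) - ρ p z = h p x → t p = -(e p • (r (x + z) - r x - r z)) := by
      intro p z hz
      rw [← hδρ, ht]
      dsimp only
      rw [← hz]
      abel
    have htpos : ∀ p ∈ Good, 0 < addOrderOf (t p) := by
      intro p hp
      obtain ⟨hpI, hp⟩ := mem_filter.1 hp
      obtain ⟨z, hz⟩ := hm.exists_lt (Bd.ind _) (hh p hp x)
      have h1 : ρ p (x + z) - ρ p z = h p x := by
        by_contra hc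
        rw [ind_pos hc] at hz
        linarith
      rw [hteq p z h1, addOrderOf_neg]
      exact (sum_log_le he (hδ x z)).1 p hpI
    have hsum : ∑ p ∈ Good, Real.log (addOrderOf (t p)) ≤ 2 * Real.log Q := by
      have h1 : ∀ z, ∑ p ∈ Good, Real.log (addOrderOf (t p)) ≤ Real.log Q +
          ∑ p ∈ Good, Real.log (addOrderOf (t p)) * ind (ρ p (x + z) - ρ p z ≠ h p x) := by
        intro z
        have h2 := (sum_log_le he (hδ x z)).2
        have h3 : ∑ p ∈ Good, Real.log (addOrderOf (e p • (r (x + z) - r x - r z))) ≤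
            ∑ p ∈ I, Real.log (addOrderOf (e p • (r (x + z) - r x - r z))) :=
          sum_le_sum_of_subset_of_nonneg (filter_subset _ _) fun p _ _ => log_nonneg_ord _
        refine le_trans ?_ (add_le_add_left (h3.trans h2) _)
        rw [← sum_add_distrib]
        refine sum_le_sum fun p _ => ?_
        by_cases hz : ρ p (x + z) - ρ p z = h p x
        · rw [ind_neg (not_not.2 hz), hteq p z hz, addOrderOf_neg]
          simp
        · rw [ind_pos hz]
          linarith [log_nonneg_ord (e p • (r (x + z) - r x - r z))]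
      have hb : ∀ p ∈ Good, Bd fun z =>
          Real.log (addOrderOf (t p)) * ind (ρ p (x + z) - ρ p z ≠ h p x) :=
        fun p _ => (Bd.ind _).smul _
      have h4 := hm.ge_of_ge ((Bd.const (Real.log Q)).add (Bd.sum Good hb)) h1
      rw [hm.add _ _ (Bd.const _) (Bd.sum Good hb), hm.const, hm.sum Good hb] at h4
      have h5 : ∑ p ∈ Good, m (fun z =>
          Real.log (addOrderOf (t p)) * ind (ρ p (x + z) - ρ p z ≠ h p x)) ≤
          ∑ p ∈ Good, 1 / 10 * Real.log (addOrderOf (t p)) := by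
        refine sum_le_sum fun p hp => ?_
        rw [hm.smul _ _ (Bd.ind _), mul_comm]
        exact mul_le_mul_of_nonneg_right (hh p (mem_filter.1 hp).2 x).le (log_nonneg_ord _)
      rw [← mul_sum] at h5
      linarith
    have hqpos : 0 < ∏ p ∈ Good, addOrderOf (t p) := prod_pos htpos
    refine ⟨∏ p ∈ Good, addOrderOf (t p), hqpos, ?_, ?_⟩
    · have h1 : Real.log ((∏ p ∈ Good, addOrderOf (t p) : ℕ) : ℝ) ≤ Real.log ((Q ^ 2 : ℕ) : ℝ) := by
        push_cast
        rw [Real.log_prod fun p hp => by exact_mod_cast (htpos p hp).ne', Real.log_pow]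
        exact_mod_cast hsum
      have h2 := (Real.log_le_log_iff (by exact_mod_cast hqpos) (by positivity)).1 h1
      exact_mod_cast h2
    · have h1 : r x = ∑ p ∈ I, ρ p x := by
        have := zsmul_eq_zero_of_dvd (hM x) he1
        rw [sub_smul, one_smul, sub_eq_zero, Finset.sum_smul] at this
        exact this.symm
      have h2 : r x - (∑ p ∈ Good, h p) x = ∑ p ∈ Bad, ρ p x + ∑ p ∈ Good, t p := by
        rw [h1, ← sum_filter_add_sum_filter_not I fun p => 1 / 20 ≤ f p, AddMonoidHom.finsetSum_apply,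
          ht, sum_sub_distrib]
        abel
      rw [h2, smul_add, smul_add]
      have h3 : (∏ p ∈ Bad, pw Q p) • ∑ p ∈ Bad, ρ p x = 0 := by
        rw [smul_sum]
        refine sum_eq_zero fun p hp => ?_
        obtain ⟨k, hk⟩ := dvd_prod_of_mem (pw Q) hp
        rw [hk, mul_comm, mul_smul, hρ]
        dsimp only
        rw [← natCast_zsmul (e p • r x), ← mul_smul,
          zsmul_eq_zero_of_dvd (hM x) (he p (mem_filter.1 hp).1), smul_zero]
      have h4 : (∏ p ∈ Good, addOrderOf (t p)) • ∑ p ∈ Good, t p = 0 := by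
        rw [smul_sum]
        refine sum_eq_zero fun p hp => ?_
        exact addOrderOf_dvd_iff_nsmul_eq_zero.1 (dvd_prod_of_mem (fun p => addOrderOf (t p)) hp)
      rw [h3, smul_zero, zero_add, smul_comm, h4, smul_zero]

/-- **the torsion lemma** -/
theorem pbp {H A : Type*} [AddCommGroup H] [Module.Free ℤ H] [Module.Finite ℤ H] [AddCommGroup A]
    (hA : ∀ n : ℕ, 0 < n → ∀ a : A, ∃ a' : A, n • a' = a) {Q : ℕ}
    (r : H → A) (hδ : ∀ x y, Tor Q (r (x + y) - r x - r y)) :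
    ∃ (h : H →+ A) (b : ℕ), 0 < b ∧ (b : ℝ) ≤ Real.exp (30 * Real.log Q ^ 2) ∧
      ∀ x, Tor (Q ^ 2) (b • (r x - h x)) := by
  have hFG : AddGroup.FG H := Module.Finite.iff_addGroup_fg.1 inferInstance
  have hM : ∀ x y, lc Q • r (x + y) = lc Q • r x + lc Q • r y := by
    intro x y
    obtain ⟨q, h0, h1, h2⟩ := hδ x y
    obtain ⟨k, hk⟩ := dvd_lc h0 h1
    have : lc Q • (r (x + y) - r x - r y) = 0 := by
      rw [hk, mul_comm, mul_smul, h2, smul_zero]
    rw [smul_sub, smul_sub, sub_sub, sub_eq_zero] at this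
    exact this
  let g : H →+ A := AddMonoidHom.mk' (fun x => lc Q • r x) hM
  let B := Module.Free.chooseBasis ℤ H
  choose a ha using fun i => hA (lc Q) (lc_pos Q) (g (B i))
  let h0 : H →ₗ[ℤ] A := B.constr ℤ a
  have hh0 : ∀ x, lc Q • h0 x = g x := by
    have : (lc Q : ℤ) • h0 = g.toIntLinearMap := B.ext fun i => by
      simp only [h0, LinearMap.smul_apply, Module.Basis.constr_basis, natCast_zsmul, ha]
      rfl
    intro x
    have h1 := LinearMap.congr_fun this x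
    rw [LinearMap.smul_apply, natCast_zsmul] at h1
    exact h1
  obtain ⟨h, b, hb0, hb, hx⟩ := pbp_tors (Q := Q) (fun x => r x - h0 x) (fun x y => by
    have : r (x + y) - h0 (x + y) - (r x - h0 x) - (r y - h0 y) = r (x + y) - r x - r y := by
      rw [map_add]; abel
    rw [this]; exact hδ x y) (fun x => by rw [smul_sub, hh0]; exact sub_self _)
  refine ⟨h0.toAddMonoidHom + h, b, hb0, hb, fun x => ?_⟩
  have := hx x
  rw [sub_sub] at this
  exact this

end Crest.Agent.T49.Pbp
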