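import Crest.Agent.T49.Weyl3_14
import Crest.Agent.T49.Qp_85

/-!
# Row 49 (helper7): the list lemma (greedy covering) and comparison of polynomial labels
-/

set_option autoImplicit false

noncomputable section

namespace Crest.Agent.T49.Pl7

open Finset

section cover

variable {X A : Type*} [DecidableEq X]

/-- greedy covering: at most `1/δ` members of the family cover every member up to `δ #B` -/
theorem exists_cover (B : Finset X) (p : A → Prop) (S : A → Finset X) (hS : ∀ a, p a → S a ⊆ B)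
    {δ : ℝ} (hδ : 0 < δ) : ∃ J : Finset A, (∀ j ∈ J, p j) ∧ δ * #J ≤ 1 ∧
      ∀ a, p a → (#(S a \ J.biUnion S) : ℝ) ≤ δ * #B := by
  classical
  rcases B.eq_empty_or_nonempty with rfl | hB
  · refine ⟨∅, by simp, by simp, fun a ha => ?_⟩
    rw [subset_empty.1 (hS a ha)]; simp
  have hB' : (0 : ℝ) < #B := by exact_mod_cast hB.card_pos
  let P : ℕ → Prop := fun n => ∃ J : Finset A, #J = n ∧ (∀ j ∈ J, p j) ∧
    δ * #B * #J ≤ #(J.biUnion S)
  have hle : ∀ J : Finset A, (∀ j ∈ J, p j) → δ * #B * #J ≤ #(J.biUnion S) → δ * #J ≤ 1 := by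
    intro J h1 h2
    have h3 : (#(J.biUnion S) : ℝ) ≤ #B := by
      exact_mod_cast card_le_card (biUnion_subset.2 fun j hj => hS j (h1 j hj))
    refine le_of_mul_le_mul_left (a := (#B : ℝ)) ?_ hB'
    linarith
  have hbd : ∀ n, P n → n ≤ ⌊δ⁻¹⌋₊ := by
    rintro _ ⟨J, rfl, h1, h2⟩
    refine Nat.le_floor ?_
    rw [← one_div, le_div_iff₀ hδ, mul_comm]
    exact hle J h1 h2
  obtain ⟨J, hJ, h1, h2⟩ := Nat.findGreatest_spec (P := P) (Nat.zero_le ⌊δ⁻¹⌋₊)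
    ⟨∅, rfl, by simp, by simp⟩
  refine ⟨J, h1, hle J h1 h2, fun a ha => le_of_not_gt fun hc => ?_⟩
  have haJ : a ∉ J := fun h => by
    rw [sdiff_eq_empty_iff_subset.2 (subset_biUnion_of_mem S h), card_empty, Nat.cast_zero] at hc
    exact absurd hc (not_lt.2 (by positivity))
  have hP : P (#J + 1) := by
    refine ⟨insert a J, card_insert_of_notMem haJ, fun j hj => ?_, ?_⟩
    · rcases mem_insert.1 hj with rfl | hj
      exacts [ha, h1 j hj]
    · rw [biUnion_insert, card_insert_of_notMem haJ, ← card_sdiff_add_card]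
      push_cast
      linarith
  have := Nat.le_findGreatest (hbd _ hP) hP
  omega

/-- a subset of a covered set meets one member of the list in a dense set -/
theorem exists_mem_inter (J : Finset A) (S : A → Finset X) (U V : Finset X) (hUV : U ⊆ V)
    {x y : ℝ} (h : (#(V \ J.biUnion S) : ℝ) ≤ x) (hU : x + y ≤ #U) (hy : 0 < y) :
    ∃ j ∈ J, y ≤ #J * #(U ∩ S j) := by
  classical
  have h1 : (#U : ℝ) ≤ #(V \ J.biUnion S) + ∑ j ∈ J, (#(U ∩ S j) : ℝ) := by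
    have h2 : U ⊆ (V \ J.biUnion S) ∪ J.biUnion fun j => U ∩ S j := fun u hu => by
      by_cases h3 : u ∈ J.biUnion S
      · obtain ⟨j, hj, h4⟩ := mem_biUnion.1 h3
        exact mem_union_right _ (mem_biUnion.2 ⟨j, hj, mem_inter.2 ⟨hu, h4⟩⟩)
      · exact mem_union_left _ (mem_sdiff.2 ⟨hUV hu, h3⟩)
    exact_mod_cast (card_le_card h2).trans ((card_union_le _ _).trans
      (Nat.add_le_add_left card_biUnion_le _))
  have hJ : J.Nonempty := by
    rw [nonempty_iff_ne_empty]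
    rintro rfl
    rw [sum_empty] at h1
    linarith
  refine exists_le_of_sum_le hJ ?_
  rw [sum_const, nsmul_eq_mul, ← mul_sum]
  exact mul_le_mul_of_nonneg_left (by linarith) (Nat.cast_nonneg _)

/-- the list as a sequence of fixed length `r ≥ 1/δ` (so that indices can be pigeonholed) -/
theorem exists_list [Nonempty A] (B : Finset X) (p : A → Prop) (S : A → Finset X)
    (hS : ∀ a, p a → S a ⊆ B) {δ : ℝ} (hδ : 0 < δ) {r : ℕ} (hr : 1 ≤ δ * r) :
    ∃ l : Fin r → A, ∀ a, p a → ∀ U ⊆ S a, ∀ y : ℝ, 0 < y → δ * #B + y ≤ #U →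
      ∃ j, p (l j) ∧ y ≤ r * #(U ∩ S (l j)) := by
  classical
  obtain ⟨J, h1, h2, h3⟩ := exists_cover B p S hS hδ
  have hJr : #J ≤ r := by
    have : (#J : ℝ) ≤ r := le_of_mul_le_mul_left (h2.trans hr) hδ
    exact_mod_cast this
  let l : Fin r → A := fun j =>
    if h : j.1 < #J then (J.equivFin.symm ⟨j.1, h⟩).1 else Classical.arbitrary A
  refine ⟨l, fun a ha U hU y hy hc => ?_⟩
  obtain ⟨j, hj, h4⟩ := exists_mem_inter J S U (S a) hU (h3 a ha) hc hy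
  have hl : l ⟨J.equivFin ⟨j, hj⟩, (J.equivFin ⟨j, hj⟩).2.trans_le hJr⟩ = j := by
    simp [l]
  refine ⟨⟨J.equivFin ⟨j, hj⟩, (J.equivFin ⟨j, hj⟩).2.trans_le hJr⟩, ?_, ?_⟩
  · rw [hl]; exact h1 j hj
  · rw [hl]
    exact h4.trans (mul_le_mul_of_nonneg_right (by exact_mod_cast hJr) (Nat.cast_nonneg _))

end cover

/-- **(W3) for vectors of polynomials**, exponential form, sides `V v`; the number of variables and
of components may grow with `y` -/
theorem small_vec (s : ℕ) : ∃ C : ℕ, ∀ y : ℝ, 2 ≤ y → ∀ (σ κ : Type) [Fintype σ] [Fintype κ]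
    (P : κ → MvPolynomial σ ℝ) (U : Finset (σ → ℤ)) (V : σ → ℝ) (ε : ℝ),
    (Fintype.card σ : ℝ) ≤ y → (Fintype.card κ : ℝ) ≤ y → (∀ k, (P k).totalDegree ≤ s) →
    (∀ v, Real.exp (y ^ C) ≤ V v) → 0 ≤ ε → ε ≤ Real.exp (-y ^ C) →
    (∀ n ∈ U, ∀ v, |(n v : ℝ)| ≤ V v) → Real.exp (-y) * ∏ v, V v ≤ #U →
    (∀ n ∈ U, ∀ k, ∃ r : ℤ, |MvPolynomial.eval (fun v => (n v : ℝ)) (P k) - r| ≤ ε) →
    ∃ q : ℕ, 1 ≤ q ∧ (q : ℝ) ≤ Real.exp (y ^ C) ∧ ∀ k α, ∃ r : ℤ,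
      |(q : ℝ) * (P k).coeff α - r| * ∏ v, V v ^ α v ≤ Real.exp (y ^ C) * ε := by
  obtain ⟨C0, h0⟩ := Weyl.exists_small.{0} s
  obtain ⟨C, hC⟩ : ∃ C : ℕ, ∀ (y : ℝ) (d n : ℕ), 2 ≤ y → (d : ℝ) ≤ y → (n : ℝ) ≤ y →
      Real.exp y ^ (d + 2) ^ C0 ≤ Real.exp (y ^ C) ∧
      (Real.exp y ^ (d + 2) ^ C0) ^ n ≤ Real.exp (y ^ C) ∧
      (Real.exp y ^ (d + 2) ^ C0) ^ n * Real.exp y ^ (d + 2) ^ C0 ≤ Real.exp (y ^ C) := by qp
  refine ⟨C, fun y hy σ κ _ _ P U V ε hσ hκ hP hV hε hε' hU hd hr => ?_⟩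
  classical
  obtain ⟨a1, a2, a3⟩ := hC y _ _ hy hσ hκ
  have h2 : 2 ≤ Real.exp y := by linarith [Real.add_one_le_exp y]
  set Q := Real.exp y ^ (Fintype.card σ + 2) ^ C0 with hQ
  have hQ1 : 1 ≤ Q := one_le_pow₀ (by linarith)
  have hεQ : ε * Q ≤ 1 := by
    refine (mul_le_mul hε' a1 (by linarith) (Real.exp_pos _).le).trans ?_
    rw [← Real.exp_add]; simp
  have hd' : ∏ v, V v ≤ Real.exp y * #U := by
    rwa [Real.exp_neg, inv_mul_le_iff₀ (Real.exp_pos _)] at hd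
  choose q hq1 hq2 hq3 using fun k => h0 σ (P k) (hP k) U V (Real.exp y) ε h2 hε
    (fun v => a1.trans (hV v)) hεQ hU hd' fun n hn => hr n hn k
  have hprod : ∀ T : Finset κ, ((∏ k ∈ T, q k : ℕ) : ℝ) ≤ Q ^ Fintype.card κ := fun T => by
    rw [Nat.cast_prod]
    refine (prod_le_prod (fun _ _ => Nat.cast_nonneg _) fun k _ => hq2 k).trans ?_
    rw [prod_const]
    exact pow_le_pow_right₀ hQ1 (card_le_univ T)
  refine ⟨∏ k, q k, one_le_prod' fun k _ => hq1 k, (hprod _).trans a2, fun k α => ?_⟩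
  obtain ⟨r, hr'⟩ := hq3 k α
  have hpos : 0 < ∏ v, V v ^ α v :=
    prod_pos fun v _ => pow_pos ((Real.exp_pos _).trans_le (hV v)) _
  refine ⟨((∏ k' ∈ univ.erase k, q k' : ℕ) : ℤ) * r, ?_⟩
  rw [← mul_prod_erase univ q (mem_univ k), Int.cast_mul, Int.cast_natCast, Nat.cast_mul,
    mul_comm (q k : ℝ), mul_assoc, ← mul_sub, abs_mul, Nat.abs_cast, mul_assoc]
  have h3 : |(q k : ℝ) * (P k).coeff α - r| * ∏ v, V v ^ α v ≤ Q * ε :=
    (le_div_iff₀ hpos).1 hr'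
  calc _ ≤ Q ^ Fintype.card κ * (Q * ε) := mul_le_mul (hprod _) h3 (by positivity) (by positivity)
    _ ≤ _ := by rw [← mul_assoc]; exact mul_le_mul_of_nonneg_right a3 hε

end Crest.Agent.T49.Pl7
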