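import Crest.Agent.T49.PgF_92
import Crest.Agent.T49.PgList_7

/-!
# Row 49 (helper92): steps (E), (F), (G) of route D*: translates, line lemma, Euler
-/

set_option autoImplicit false

open Finset

namespace Crest.Agent.T49.PgF

/-- Markov for counting sums -/
theorem markov1 {I : Type} (T : Finset I) (K : I → ℝ) {B c : ℝ} (hB : 0 < B)
    (hK : ∀ i ∈ T, K i ≤ B) (hc : 0 ≤ c) (h : 2 * c * B * #T ≤ ∑ i ∈ T, K i) :
    c * #T ≤ #{i ∈ T | c * B ≤ K i} := by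
  classical
  have h1 : ∑ i ∈ T, K i ≤ ∑ i ∈ T, ((if c * B ≤ K i then B else 0) + c * B) :=
    sum_le_sum fun i hi => by
      split_ifs with h'
      · linarith [hK i hi, mul_nonneg hc hB.le]
      · linarith [not_le.1 h']
  rw [sum_add_distrib, ← sum_filter, sum_const, sum_const, nsmul_eq_mul, nsmul_eq_mul] at h1
  have : c * #T * B ≤ #{i ∈ T | c * B ≤ K i} * B := by nlinarith
  exact le_of_mul_le_mul_right this hB

variable {Ω τ : Type} [Fintype τ] [DecidableEq τ]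

/-- the box of positions -/
noncomputable def bx (V : τ → ℕ) : Finset (τ → ℤ) := Fintype.piFinset fun v => Ico (0 : ℤ) (V v)

theorem mem_bx {V : τ → ℕ} {t : τ → ℤ} : t ∈ bx V ↔ ∀ v, 0 ≤ t v ∧ t v < V v := by
  simp [bx]

theorem card_bx (V : τ → ℕ) : (#(bx V) : ℝ) = ∏ v, (V v : ℝ) := by
  simp [bx]

/-- **translates**: a dense family with dense position sets has many translates inside itself -/
theorem translates (e : τ) (sh : ℤ → Ω → Ω) (h0 : ∀ W, sh 0 W = W)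
    (hadd : ∀ a b W, sh a (sh b W) = sh (a + b) W) (Cl Big : Finset Ω) (V : τ → ℕ)
    (hV : ∀ v, 0 < V v) (S : Ω → Finset (τ → ℤ)) (hS : ∀ W ∈ Cl, S W ⊆ bx V) {δ K : ℝ}
    (hδ0 : 0 < δ) (hδ : ∀ W ∈ Cl, δ * ∏ v, (V v : ℝ) ≤ #(S W))
    (hBig : ∀ W ∈ Cl, ∀ w : ℤ, 0 ≤ w → w < V e → sh w W ∈ Big) (hK0 : 0 < K)
    (hK : (#Big : ℝ) ≤ K * #Cl) :
    ∃ Cl' ⊆ Cl, δ ^ 2 / (6 * K) * #Cl ≤ #Cl' ∧ ∀ W ∈ Cl', ∃ A : Finset ℤ,
      (∀ w ∈ A, |(w : ℝ)| ≤ V e) ∧ δ ^ 2 / (6 * K) * V e ≤ #A ∧ ∀ w ∈ A, sh w W ∈ Cl ∧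
        δ ^ 2 / (12 * K) * ∏ v, (V v : ℝ) ≤ #{t ∈ S (sh w W) | t + Pi.single e w ∈ S W} := by
  classical
  set P : ℝ := ∏ v, (V v : ℝ) with hP
  have hP0 : 0 < P := prod_pos fun v _ => by exact_mod_cast hV v
  have hN0 : (0 : ℝ) < V e := by exact_mod_cast hV e
  rcases Cl.eq_empty_or_nonempty with rfl | hne
  · exact ⟨∅, Subset.refl _, by simp, by simp⟩
  have hC0 : (0 : ℝ) < #Cl := by exact_mod_cast hne.card_pos
  let X : Finset (Ω × (τ → ℤ)) := (Cl ×ˢ bx V).filter fun x => x.2 ∈ S x.1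
  have mX : ∀ x, x ∈ X ↔ x.1 ∈ Cl ∧ x.2 ∈ S x.1 := fun x => by
    simp only [X, mem_filter, mem_product]
    exact ⟨fun h => ⟨h.1.1, h.2⟩, fun h => ⟨⟨h.1, hS _ h.1 h.2⟩, h.2⟩⟩
  have cX : δ * P * #Cl ≤ #X := by
    have : #X = ∑ W ∈ Cl, #(S W) := by
      rw [card_eq_sum_card_fiberwise (f := Prod.fst) (t := Cl) fun x hx => ((mX x).1 hx).1]
      refine sum_congr rfl fun W hW => ?_
      refine card_bij (fun x _ => x.2) ?_ ?_ ?_
      · intro x hx
        obtain ⟨h1, h2⟩ := mem_filter.1 hx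
        exact h2 ▸ ((mX x).1 h1).2
      · intro x hx y hy hxy
        exact Prod.ext ((mem_filter.1 hx).2.trans (mem_filter.1 hy).2.symm) hxy
      · intro t ht
        exact ⟨(W, t), mem_filter.2 ⟨(mX _).2 ⟨hW, ht⟩, rfl⟩, rfl⟩
    rw [this, Nat.cast_sum, mul_comm, ← nsmul_eq_mul]
    exact card_nsmul_le_sum _ _ _ hδ
  let φ : Ω × (τ → ℤ) → Ω × (τ → ℤ) := fun x => (sh (x.2 e) x.1, Function.update x.2 e 0)
  let Y : Finset (Ω × (τ → ℤ)) := Big ×ˢ bx (Function.update V e 1)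
  have hφ : ∀ x ∈ X, φ x ∈ Y := by
    intro x hx
    obtain ⟨h1, h2⟩ := (mX x).1 hx
    have h3 := mem_bx.1 (hS _ h1 h2)
    refine mem_product.2 ⟨hBig _ h1 _ (h3 e).1 (h3 e).2, mem_bx.2 fun v => ?_⟩
    by_cases hv : v = e
    · subst hv; simp [φ]
    · simpa [φ, hv] using h3 v
  have cY : (#Y : ℝ) * V e ≤ K * #Cl * P := by
    have e1 : (∏ v, (Function.update V e 1 v : ℝ)) * V e = P := by
      rw [hP, ← mul_prod_erase univ _ (mem_univ e), ← mul_prod_erase univ _ (mem_univ e)]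
      rw [prod_congr rfl (g := fun v => (V v : ℝ)) fun v hv => by
        rw [Function.update_of_ne (ne_of_mem_erase hv)]]
      simp [mul_comm]
    rw [card_product, Nat.cast_mul, card_bx, mul_assoc, e1]
    exact mul_le_mul_of_nonneg_right hK hP0.le
  let I : Finset ℤ := Icc (-(V e : ℤ)) (V e)
  let g : Ω → ℤ → ℝ := fun W w =>
    if sh w W ∈ Cl then #{t ∈ S (sh w W) | t + Pi.single e w ∈ S W} else 0
  have hgP : ∀ W w, g W w ≤ P := by
    intro W w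
    simp only [g]
    split_ifs with h
    · rw [hP, ← card_bx]
      exact_mod_cast card_le_card ((filter_subset _ _).trans (hS _ h))
    · exact hP0.le
  have cI : (#I : ℝ) = 2 * V e + 1 := by
    have : #I = 2 * V e + 1 := by
      simp only [I, Int.card_Icc]
      omega
    rw [this]; push_cast; ring
  -- Cauchy-Schwarz
  have cs : (#X : ℝ) ^ 2 ≤ #Y * ∑ W ∈ Cl, ∑ w ∈ I, g W w := by
    have e1 : (#X : ℝ) = ∑ y ∈ Y, (#{x ∈ X | φ x = y} : ℝ) := by
      rw [card_eq_sum_card_fiberwise hφ]; push_cast; rfl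
    rw [e1]
    refine sq_sum_le_card_mul_sum_sq.trans (mul_le_mul_of_nonneg_left ?_ (Nat.cast_nonneg _))
    let Q : Finset ((Ω × (τ → ℤ)) × (Ω × (τ → ℤ))) := (X ×ˢ X).filter fun p => φ p.1 = φ p.2
    have e2 : ∑ y ∈ Y, (#{x ∈ X | φ x = y} : ℝ) ^ 2 = #Q := by
      rw [card_eq_sum_card_fiberwise (f := fun p => φ p.1) (s := Q) (t := Y) fun p hp =>
        hφ _ (mem_product.1 (mem_filter.1 hp).1).1]
      push_cast
      refine sum_congr rfl fun y _ => ?_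
      rw [sq, ← Nat.cast_mul, ← card_product]
      congr 2
      ext p
      simp only [Q, mem_product, mem_filter]
      constructor
      · rintro ⟨⟨a, b⟩, c, d⟩
        exact ⟨⟨⟨a, c⟩, b.trans d.symm⟩, b⟩
      · rintro ⟨⟨⟨a, c⟩, b⟩, d⟩
        exact ⟨⟨a, d⟩, c, b.symm.trans d⟩
    rw [e2, ← sum_product']
    have hm : ∀ p ∈ Q, (p.1.1, p.1.2 e - p.2.2 e) ∈ Cl ×ˢ I := by
      intro p hp
      obtain ⟨h1, h2⟩ := mem_product.1 (mem_filter.1 hp).1
      have a1 := mem_bx.1 (hS _ ((mX _).1 h1).1 ((mX _).1 h1).2) e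
      have a2 := mem_bx.1 (hS _ ((mX _).1 h2).1 ((mX _).1 h2).2) e
      exact mem_product.2 ⟨((mX _).1 h1).1, mem_Icc.2 ⟨by omega, by omega⟩⟩
    rw [card_eq_sum_card_fiberwise hm]
    push_cast
    refine sum_le_sum fun z _ => ?_
    have key : ∀ p ∈ Q, (p.1.1, p.1.2 e - p.2.2 e) = z →
        p.2.1 = sh z.2 z.1 ∧ p.1.2 = p.2.2 + Pi.single e z.2 := by
      rintro p hp rfl
      have h3 := (mem_filter.1 hp).2
      simp only [φ, Prod.mk.injEq] at h3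
      constructor
      · have := congrArg (sh (-p.2.2 e)) h3.1
        rw [hadd, hadd, neg_add_cancel, h0] at this
        rw [← this, sub_eq_neg_add]
      · funext v
        by_cases hv : v = e
        · subst hv; simp
        · simpa [hv] using congrFun h3.2 v
    simp only [g]
    split_ifs with h
    · refine Nat.cast_le.2 (card_le_card_of_injOn (fun p => p.2.2) ?_ ?_)
      · intro p hp
        obtain ⟨h1, h2⟩ := mem_filter.1 (mem_coe.1 hp)
        obtain ⟨k1, k2⟩ := key p h1 h2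
        obtain ⟨a1, a2⟩ := mem_product.1 (mem_filter.1 h1).1
        refine mem_coe.2 (mem_filter.2 ⟨k1 ▸ ((mX _).1 a2).2, ?_⟩)
        rw [← k2, ← congrArg Prod.fst h2]
        exact ((mX _).1 a1).2
      · intro p hp p' hp' hpp
        obtain ⟨h1, h2⟩ := mem_filter.1 (mem_coe.1 hp)
        obtain ⟨h1', h2'⟩ := mem_filter.1 (mem_coe.1 hp')
        obtain ⟨k1, k2⟩ := key p h1 h2
        obtain ⟨k1', k2'⟩ := key p' h1' h2'
        simp only at hpp
        refine Prod.ext (Prod.ext ?_ ?_) (Prod.ext ?_ hpp)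
        · exact (congrArg Prod.fst h2).trans (congrArg Prod.fst h2').symm
        · rw [k2, k2', hpp]
        · rw [k1, k1']
    · refine le_of_eq (Nat.cast_eq_zero.2 (card_eq_zero.2 (filter_eq_empty_iff.2 fun p hp h2 => ?_)))
      obtain ⟨a1, a2⟩ := mem_product.1 (mem_filter.1 hp).1
      exact h ((key p hp h2).1 ▸ ((mX _).1 a2).1)
  have hN1 : (1 : ℝ) ≤ V e := by exact_mod_cast hV e
  set c : ℝ := δ ^ 2 / (6 * K) with hc
  have hc0 : 0 < c := by positivity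
  have low : 2 * c * (#I * P) * #Cl ≤ ∑ W ∈ Cl, ∑ w ∈ I, g W w := by
    set G := ∑ W ∈ Cl, ∑ w ∈ I, g W w
    have a1 : (δ * P * #Cl) ^ 2 ≤ #Y * G := (pow_le_pow_left₀ (by positivity) cX 2).trans cs
    have hG : 0 ≤ G := sum_nonneg fun W _ => sum_nonneg fun w _ => by
      simp only [g]; split_ifs <;> positivity
    have a2 : (δ * P * #Cl) ^ 2 * V e ≤ K * #Cl * P * G := by nlinarith
    have a3 : δ ^ 2 / K * V e * P * #Cl ≤ G := by
      refine le_of_mul_le_mul_left ?_ (show 0 < K * #Cl * P by positivity)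
      refine le_trans (le_of_eq ?_) a2
      field_simp
    refine le_trans ?_ a3
    rw [cI, hc]
    have : 2 * (δ ^ 2 / (6 * K)) * ((2 * V e + 1) * P) * #Cl =
        δ ^ 2 / K * ((2 * V e + 1) / 3) * P * #Cl := by
      field_simp; ring
    rw [this]
    gcongr
    linarith
  have hI0 : (0 : ℝ) < #I := by rw [cI]; positivity
  refine ⟨_, filter_subset _ _, markov1 Cl (fun W => ∑ w ∈ I, g W w) (B := #I * P)
    (by positivity) (fun W _ => ?_) hc0.le low, fun W hW => ?_⟩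
  · rw [← nsmul_eq_mul]
    exact sum_le_card_nsmul _ _ _ fun w _ => hgP W w
  · have h1 := (mem_filter.1 hW).2
    have h2 := markov1 I (g W) (c := c / 2) hP0 (fun w _ => hgP W w) (by positivity)
      (by linarith)
    refine ⟨_, fun w hw => ?_, le_trans ?_ h2, fun w hw => ?_⟩
    · have := mem_Icc.1 (mem_filter.1 hw).1
      rw [← Int.cast_abs]
      exact_mod_cast abs_le.2 this
    · rw [cI]
      nlinarith
    · have h3 := (mem_filter.1 hw).2
      have h4 : c / 2 = δ ^ 2 / (12 * K) := by rw [hc]; field_simp; ring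
      simp only [g] at h3
      split_ifs at h3 with h
      · exact ⟨h, h4 ▸ h3⟩
      · exact absurd h3 (not_le.2 (by positivity))

open MvPolynomial Tw Gon

section shift
omit [Fintype τ]

/-- translation along the axis `e` -/
noncomputable def shf (e : τ) (w : ℝ) : MvPolynomial τ ℝ →ₐ[ℝ] MvPolynomial τ ℝ :=
  bind₁ fun v => X v + C ((Pi.single e w : τ → ℝ) v)

/-- restriction to the axis `e` -/
noncomputable def axs (e : τ) : MvPolynomial τ ℝ →ₐ[ℝ] Polynomial ℝ :=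
  aeval fun v => if v = e then Polynomial.X else 0

theorem coeff_axs (e : τ) (p : MvPolynomial τ ℝ) (j : ℕ) :
    (axs e p).coeff j = coeff (Finsupp.single e j) p := by
  induction p using MvPolynomial.induction_on generalizing j with
  | C a =>
    rw [axs, aeval_C, Polynomial.algebraMap_apply, Polynomial.coeff_C, coeff_C]
    by_cases h : j = 0
    · simp [h]
    · rw [if_neg h, if_neg]
      intro h'
      exact h (Finsupp.single_eq_zero.1 h'.symm)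
  | add p q hp hq => simp [hp, hq]
  | mul_X p v hp =>
    rw [map_mul, coeff_mul_X']
    have : axs e (X v) = if v = e then Polynomial.X else 0 := by simp [axs]
    rw [this]
    by_cases hv : v = e
    · subst hv
      rw [if_pos rfl]
      cases j with
      | zero => simp
      | succ j =>
        rw [Polynomial.coeff_mul_X, hp, if_pos (by simp)]
        congr 1
        ext v'
        by_cases h : v' = v
        · subst h; simp
        · simp [h]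
    · rw [if_neg hv, if_neg (by simp [hv])]
      simp

theorem axs_shf (e : τ) (w : ℝ) (p : MvPolynomial τ ℝ) :
    axs e (shf e w p) = Polynomial.taylor w (axs e p) := by
  have : (axs e).comp (shf e w) = (Polynomial.taylorAlgHom w).comp (axs e) := by
    ext v : 1
    by_cases hv : v = e
    · subst hv; simp [axs, shf]
    · simp [axs, shf, hv]
  exact DFunLike.congr_fun this p

/-- Euler: the subleading coefficient of a translate along the axis -/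
theorem coeff_shf (e : τ) (w : ℝ) {p : MvPolynomial τ ℝ} {i : ℕ} (hp : p.totalDegree ≤ i + 1) :
    coeff (Finsupp.single e i) (shf e w p) =
      coeff (Finsupp.single e i) p + w * (i + 1) * coeff (Finsupp.single e (i + 1)) p := by
  rw [← coeff_axs, axs_shf, Polynomial.taylor_coeff]
  have h1 : (Polynomial.hasseDeriv i (axs e p)).natDegree < 2 := by
    refine Nat.lt_succ_of_le (Polynomial.natDegree_le_iff_coeff_eq_zero.2 fun j hj => ?_)
    rw [Polynomial.hasseDeriv_coeff, coeff_axs, coeff_eq_zero_of_totalDegree_lt, mul_zero]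
    refine lt_of_le_of_lt hp ?_
    rw [Finsupp.support_single _ (by omega), sum_singleton, Finsupp.single_eq_same]
    omega
  rw [Polynomial.eval_eq_sum_range' h1]
  simp only [sum_range_succ, range_zero, sum_empty, Polynomial.hasseDeriv_coeff, coeff_axs]
  rw [add_comm 1 i, Nat.choose_succ_self_right]
  simp
  ring

theorem eval_shf (e : τ) (w : ℤ) (t : τ → ℤ) (p : MvPolynomial τ ℝ) :
    eval (fun v => (t v : ℝ)) (shf e w p) =
      eval (fun v => (((t + Pi.single e w : τ → ℤ) v : ℤ) : ℝ)) p := by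
  rw [shf]
  have := eval₂Hom_bind₁ (RingHom.id ℝ) (fun v => (t v : ℝ))
    (fun v => X v + C ((Pi.single e (w : ℝ) : τ → ℝ) v)) p
  refine this.trans ?_
  change eval _ p = _
  congr 2
  funext v
  by_cases hv : v = e
  · subst hv; simp
  · simp [hv]

theorem totalDegree_shf (e : τ) (w : ℝ) {p : MvPolynomial τ ℝ} {i : ℕ} (hp : p.totalDegree ≤ i) :
    (shf e w p).totalDegree ≤ i := by
  rw [p.as_sum, map_sum]
  refine (totalDegree_finsetSum _ _).trans (Finset.sup_le fun m hm => ?_)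
  rw [shf, bind₁_monomial]
  refine (totalDegree_mul _ _).trans ?_
  rw [totalDegree_C, zero_add]
  refine (totalDegree_finsetProd _ _).trans (le_trans ?_ ((le_totalDegree hm).trans hp))
  refine sum_le_sum fun v _ => (totalDegree_pow _ _).trans ?_
  refine (Nat.mul_le_mul_left _ ((totalDegree_add _ _).trans
    (by rw [totalDegree_X, totalDegree_C]; exact le_rfl : _ ≤ 1))).trans (by simp)

end shift

/-- the oracle SMALL (with gain) on all dense subfamilies -/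
def Orc {σ : Type} (m : Mass Ω) (lev : σ → ℕ) (z : Ω → σ → ℤ) (Z : Set Ω) (i : ℕ) (Y Y' : ℝ) :
    Prop :=
  ∀ Z' ⊆ Z, Real.exp (-Y) * m.μ Z ≤ m.μ Z' → ∀ η : ℝ, 0 < η → η ≤ Real.exp (-Y') →
    Sml lev z Z' i η (Real.exp Y' * η) (Real.exp Y')

theorem Orc.sub {σ : Type} {m : Mass Ω} {lev : σ → ℕ} {z : Ω → σ → ℤ} {Z Z1 : Set Ω} {i : ℕ}
    {Y Y' Y1 Y1' x : ℝ} (h : Orc m lev z Z i Y Y') (hZ : Z1 ⊆ Z) (h0 : 0 ≤ m.μ Z)
    (hx : Real.exp (-x) * m.μ Z ≤ m.μ Z1) (hY : Y1 + x ≤ Y) (hY' : Y' ≤ Y1') :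
    Orc m lev z Z1 i Y1 Y1' := by
  intro Z' h1 h2 η e0 e1
  have a1 : Real.exp Y' ≤ Real.exp Y1' := Real.exp_le_exp.2 hY'
  refine (h Z' (h1.trans hZ) (le_trans ?_ h2) η e0
    (e1.trans (Real.exp_le_exp.2 (by linarith)))).mono le_rfl
    (mul_le_mul_of_nonneg_right a1 e0.le) a1
  refine le_trans ?_ (mul_le_mul_of_nonneg_left hx (Real.exp_pos _).le)
  rw [← mul_assoc, ← Real.exp_add]
  exact mul_le_mul_of_nonneg_right (Real.exp_le_exp.2 (by linarith)) h0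

/-- **(F)**, exponential form -/
theorem fg (C0 : ℕ) : ∃ C : ℕ, ∀ y : ℝ, 2 ≤ y → ∀ (ρ κ σ Ω : Type) [Fintype ρ] [Fintype κ]
    (lev : σ → ℕ) (z : Ω → σ → ℤ) (m : Mass Ω) (Z : Set Ω) (β : ρ → Pl σ) (b : ρ → κ → Pl σ)
    (s : Ω → κ → ℝ) (i : ℕ) (N ε : ℝ), (Fintype.card ρ : ℝ) ≤ y →
    (∀ a, IsWeightedHomogeneous lev (β a) 1) → (∀ a c, IsWeightedHomogeneous lev (b a c) i) →
    (∀ ω ∈ Z, Line (fun a => ev (z ω) (β a)) (fun a c => ev (z ω) (b a c)) (s ω) N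
      (Real.exp (-y)) ε) → Real.exp (y ^ C) ≤ N → 0 < ε → ε ≤ Real.exp (-y ^ C) →
    (∀ Y, y ≤ Y → Y ≤ y ^ C → Orc m lev z Z i Y (Y ^ C0) ∧ Orc m lev z Z 1 Y (Y ^ C0)) →
    0 < m.μ Z → ∃ Z' ⊆ Z, Real.exp (-y ^ C) * m.μ Z ≤ m.μ Z' ∧ ∃ (q : ℕ) (l : κ → Pl σ),
      1 ≤ q ∧ (q : ℝ) ≤ Real.exp (y ^ C) ∧ (∀ c, IsWeightedHomogeneous lev (l c) (i + 1)) ∧
      ∀ ω ∈ Z', ∀ c, ∃ n : ℤ,
        |q * (s ω c - ev (z ω) (l c)) - n| ≤ Real.exp (y ^ C) * (ε / N) := by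
  obtain ⟨C1, hC1⟩ : ∃ C : ℕ, ∀ (y δ : ℝ) (d : ℕ), 2 ≤ y → (d : ℝ) ≤ y → Real.exp (-y) ≤ δ →
      y ≤ y ^ C ∧ (2 * (400 / δ) + 1) ^ (d * d) * (8 / δ) ≤ Real.exp (y ^ C) ∧
      8 / δ * bl d (400 / δ) ≤ Real.exp (y ^ C) ∧ 400 / δ ≤ Real.exp (y ^ C) ∧
      bl d (400 / δ) * (1 + d * (400 / δ)) * (400 / δ) ≤ Real.exp (y ^ C) ∧
      8 / δ * (bl d (400 / δ) * (1 + d * (400 / δ)) * (8 / δ)) ≤ Real.exp (y ^ C) ∧
      8 / δ * bl d (400 / δ) * (d * (400 / δ) + 1) * (8 / δ) ≤ Real.exp (y ^ C) := by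
    unfold Gon.bl; qp
  obtain ⟨C2, hC2⟩ : ∃ C : ℕ, ∀ y : ℝ, 2 ≤ y → y ^ C1 ≤ y ^ C ∧
      4 * Real.exp ((y ^ C1) ^ C0) * Real.exp (y ^ C1) ≤ Real.exp (y ^ C) ∧
      2 * Real.exp y ≤ Real.exp (y ^ C) := by qp
  refine ⟨C2, fun y hy ρ κ σ Ω _ _ lev z m Z β b s i N ε hρ hβ hb hl hN e0 e1 hO hZ => ?_⟩
  obtain ⟨a1, a2, a3, a4, a5, a6, a7⟩ := hC1 y _ _ hy hρ le_rfl
  obtain ⟨b1, b2, b3⟩ := hC2 y hy
  obtain ⟨O1, O2⟩ := hO _ a1 b1
  set δ := Real.exp (-y) with hδ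
  set E := Real.exp (y ^ C1) with hE
  set U := Real.exp ((y ^ C1) ^ C0) with hU
  set F := Real.exp (y ^ C2) with hF
  have hδ0 : 0 < δ := Real.exp_pos _
  have hE0 : 0 < E := Real.exp_pos _
  have hU1 : 1 ≤ U := Real.one_le_exp (by positivity)
  have hF0 : 0 < F := Real.exp_pos _
  have hEF : E ≤ F := Real.exp_le_exp.2 b1
  have hN0 : 0 < N := hF0.trans_le hN
  have hbl : 1 ≤ bl (Fintype.card ρ) (400 / δ) := one_le_bl _ (by
    rw [le_div_iff₀ hδ0]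
    linarith [Real.exp_le_one_iff.2 (by linarith : -y ≤ 0)])
  have eF : ε * F ≤ 1 := by
    rwa [Real.exp_neg, ← hF, ← one_div, le_div_iff₀ hF0] at e1
  have c1 : U * (E * ε) ≤ 1 / 4 := by nlinarith
  have c2 : U * (E / N) ≤ 1 / 4 := by
    rw [← mul_div_assoc, div_le_iff₀ hN0]
    linarith
  have small : ∀ x : ℝ, U * x ≤ 1 / 4 → x ≤ Real.exp (-(y ^ C1) ^ C0) := by
    intro x hx
    rw [Real.exp_neg, ← hU, ← one_div, le_div_iff₀ (by linarith)]
    linarith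
  have d1 : 400 / δ * ε ≤ E * ε := mul_le_mul_of_nonneg_right a4 e0.le
  have d2 : 8 / δ * (bl (Fintype.card ρ) (400 / δ) * (1 + Fintype.card ρ * (400 / δ)) *
      (8 / (δ * N))) ≤ E / N := by
    refine le_trans (le_of_eq ?_) (div_le_div_of_nonneg_right a6 hN0.le)
    field_simp
  obtain ⟨Z', z1, z2, q, l, q1, q2, q3, q4⟩ := fg_core (U := U) (η' := 1 / 4) m hβ hb hl hδ0
    (Real.exp_le_one_iff.2 (by linarith)) (by
      rw [hδ, Real.exp_neg, le_inv_mul_iff₀ (Real.exp_pos _)]; linarith) e0 rfl rfl rfl rfl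
    (fun Z' h1 h2 => by
      have h3 : Real.exp (-y ^ C1) * m.μ Z ≤ m.μ Z' := by
        rw [Real.exp_neg, inv_mul_le_iff₀ hE0]
        refine h2.trans (mul_le_mul_of_nonneg_right a2 ?_)
        by_contra h
        have := mul_nonpos_of_nonneg_of_nonpos (show 0 ≤ (2 * (400 / δ) + 1) ^
          (Fintype.card ρ * Fintype.card ρ) * (8 / δ) by positivity) (not_le.1 h).le
        linarith
      exact ⟨(O1 Z' h1 h3 (E * ε) (by positivity) (small _ c1)).mono d1 c1 le_rfl,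
        (O2 Z' h1 h3 (E / N) (by positivity) (small _ c2)).mono d2 c2 le_rfl⟩)
    (by
      rw [← mul_assoc]
      have := mul_le_mul_of_nonneg_right a5 e0.le
      nlinarith [mul_pos hE0 e0])
    (by nlinarith) (by nlinarith) hZ
  refine ⟨Z', z1, ?_, q, l, q1, q2.trans (a3.trans hEF), q3, fun ω hω c => ?_⟩
  · rw [Real.exp_neg, inv_mul_le_iff₀ hF0]
    refine z2.trans (mul_le_mul_of_nonneg_right (a2.trans hEF) ?_)
    by_contra h
    have := mul_nonpos_of_nonneg_of_nonpos (show 0 ≤ (2 * (400 / δ) + 1) ^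
      (Fintype.card ρ * Fintype.card ρ) * (8 / δ) by positivity) (not_le.1 h).le
    linarith
  · obtain ⟨n, hn⟩ := q4 ω hω c
    refine ⟨n, hn.trans (le_trans (le_of_eq ?_)
      (mul_le_mul_of_nonneg_right (a7.trans hEF) (div_pos e0 hN0).le))⟩
    field_simp

open Classical in
/-- the part of a finite set inside a set -/
noncomputable def flt (Cl : Finset Ω) (A : Set Ω) : Finset Ω := Cl.filter fun ω => ω ∈ A

theorem mem_flt {Cl : Finset Ω} {A : Set Ω} {ω : Ω} : ω ∈ flt Cl A ↔ ω ∈ Cl ∧ ω ∈ A := by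
  simp [flt]

/-- counting mass on a finite family -/
noncomputable def cntM (Cl : Finset Ω) : Mass Ω where
  μ A := #(flt Cl A)
  empty := by simp [flt]
  mono h := Nat.cast_le.2 (card_le_card fun ω hω =>
    mem_flt.2 ⟨(mem_flt.1 hω).1, h (mem_flt.1 hω).2⟩)
  union A B := by
    classical
    rw [← Nat.cast_add, Nat.cast_le]
    refine le_trans (card_le_card fun ω hω => ?_) (card_union_le _ _)
    obtain ⟨h1, h2⟩ := mem_flt.1 hω
    exact mem_union.2 (h2.imp (fun h => mem_flt.2 ⟨h1, h⟩) fun h => mem_flt.2 ⟨h1, h⟩)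

theorem cntM_coe {Cl Z : Finset Ω} (h : Z ⊆ Cl) : (cntM Cl).μ Z = #Z := by
  simp only [cntM]
  congr 2
  ext ω
  simp only [mem_flt, mem_coe]
  exact ⟨fun h => h.2, fun h' => ⟨h h', h'⟩⟩

/-- the oracle SMALL on the dense subfamilies of a finite family -/
def OrcF {σ : Type} (lev : σ → ℕ) (z : Ω → σ → ℤ) (Cl : Finset Ω) (i : ℕ) (Y Y' : ℝ) : Prop :=
  ∀ Z' ⊆ Cl, Real.exp (-Y) * #Cl ≤ #Z' → ∀ η : ℝ, 0 < η → η ≤ Real.exp (-Y') →
    Sml lev z (Z' : Set Ω) i η (Real.exp Y' * η) (Real.exp Y')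

theorem OrcF.orc {σ : Type} {lev : σ → ℕ} {z : Ω → σ → ℤ} {Cl : Finset Ω} {i : ℕ} {Y Y' : ℝ}
    (h : OrcF lev z Cl i Y Y') : Orc (cntM Cl) lev z Cl i Y Y' := by
  intro Z' h1 h2 η e0 e1
  rw [cntM_coe (Subset.refl _)] at h2
  have : ((flt Cl Z' : Finset Ω) : Set Ω) = Z' := by
    ext ω
    simp only [mem_coe, mem_flt]
    exact ⟨fun h => h.2, fun h => ⟨h1 h, h⟩⟩
  rw [← this]
  exact h _ (fun ω hω => (mem_flt.1 hω).1) h2 η e0 e1

theorem orcF_zero {σ : Type} {lev : σ → ℕ} (hl : ∀ c, 0 < lev c) (z : Ω → σ → ℤ) {Cl : Finset Ω}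
    (hC : Cl.Nonempty) (Y : ℝ) {Y' : ℝ} (h : 0 ≤ Y') : OrcF lev z Cl 0 Y Y' := by
  intro Z' _ h2 η e0 _
  have h3 : (0 : ℝ) < #Cl := by exact_mod_cast hC.card_pos
  have h4 : (0 : ℝ) < #Z' := lt_of_lt_of_le (by positivity) h2
  have h5 : Z'.Nonempty := card_pos.1 (by exact_mod_cast h4)
  have h6 := Real.one_le_exp h
  exact (sml_zero hl z h5.to_set η).mono le_rfl (by nlinarith) h6

omit [DecidableEq τ] in
theorem prod_pow_single (V : τ → ℝ) (e : τ) (i : ℕ) :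
    ∏ v, V v ^ (Finsupp.single e i) v = V e ^ i := by
  rw [Fintype.prod_eq_single e fun v hv => by simp [hv]]
  simp

set_option maxHeartbeats 800000 in
/-- **(E)+(F)+(G)**.  `Cl` is a finite family with translations `sh w` along the axis `e`, labels
`T W` of degree `≤ i + 1` that describe `f` on dense position sets, and the subleading
coefficients of the labels of two translates differ by a bracket expression in the direction
`z W`.  Then the leading coefficient is a weighted form in `z W` on a dense subfamily. -/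
theorem efg (i C0 : ℕ) : ∃ C : ℕ, ∀ y : ℝ, 2 ≤ y →
    ∀ (Ω τ X ρ κ σ : Type) [Fintype τ] [DecidableEq τ] [Fintype ρ] [Fintype κ] (e : τ)
    (sh : ℤ → Ω → Ω) (pt : Ω → (τ → ℤ) → X) (f : X → κ → ℝ) (T : Ω → κ → Pl τ)
    (Cl Big : Finset Ω) (V : τ → ℕ) (S : Ω → Finset (τ → ℤ)) (lev : σ → ℕ) (z : Ω → σ → ℤ)
    (β : ρ → Pl σ) (b : ρ → κ → Pl σ) (l0 : κ → Pl σ) (q0 : ℕ) (ε ε1 : ℝ),
    (Fintype.card τ : ℝ) ≤ y → (Fintype.card ρ : ℝ) ≤ y → (Fintype.card κ : ℝ) ≤ y →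
    (∀ W, sh 0 W = W) → (∀ a b W, sh a (sh b W) = sh (a + b) W) →
    (∀ w W t, pt (sh w W) t = pt W (t + Pi.single e w)) →
    Cl.Nonempty → (∀ W ∈ Cl, ∀ w : ℤ, 0 ≤ w → w < V e → sh w W ∈ Big) →
    (#Big : ℝ) ≤ Real.exp y * #Cl → (∀ v, Real.exp (y ^ C) ≤ V v) →
    (∀ W ∈ Cl, S W ⊆ bx V ∧ Real.exp (-y) * ∏ v, (V v : ℝ) ≤ #(S W)) →
    (∀ W ∈ Cl, ∀ c, (T W c).totalDegree ≤ i + 1) →
    (∀ W ∈ Cl, ∀ t ∈ S W, ∀ c, ∃ n : ℤ,
      |f (pt W t) c - eval (fun v => (t v : ℝ)) (T W c) - n| ≤ ε) →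
    0 ≤ ε → ε ≤ Real.exp (-y ^ C) → ε ≤ ε1 * (V e : ℝ) ^ i → 0 < ε1 → ε1 ≤ Real.exp (-y ^ C) →
    (∀ a, IsWeightedHomogeneous lev (β a) 1) → (∀ a c, IsWeightedHomogeneous lev (b a c) i) →
    (∀ c, IsWeightedHomogeneous lev (l0 c) (i + 1)) → 1 ≤ q0 → (q0 : ℝ) ≤ Real.exp y →
    (∀ W ∈ Cl, ∀ w : ℤ, |(w : ℝ)| ≤ V e → sh w W ∈ Cl → ∃ k : ρ → ℤ,
      (∀ a, |ev (z W) (β a) * w - k a| ≤ 1) ∧ ∀ c, ∃ n : ℤ,
        |q0 * (coeff (Finsupp.single e i) (T (sh w W) c) - coeff (Finsupp.single e i) (T W c)) -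
          w * ev (z W) (l0 c) - ∑ a, k a * ev (z W) (b a c) - n| ≤ ε1) →
    (∀ Y, y ≤ Y → Y ≤ y ^ C → OrcF lev z Cl i Y (Y ^ C0) ∧ OrcF lev z Cl 1 Y (Y ^ C0)) →
    ∃ Z ⊆ Cl, Real.exp (-y ^ C) * #Cl ≤ #Z ∧ ∃ (q : ℕ) (l : κ → Pl σ), 1 ≤ q ∧
      (q : ℝ) ≤ Real.exp (y ^ C) ∧ (∀ c, IsWeightedHomogeneous lev (l c) (i + 1)) ∧
      ∀ W ∈ Z, ∀ c, ∃ n : ℤ, |q * coeff (Finsupp.single e (i + 1)) (T W c) - ev (z W) (l c) - n| ≤
        Real.exp (y ^ C) * (ε1 / V e) := by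
  obtain ⟨C1, hC1⟩ : ∃ C : ℕ, ∀ y : ℝ, 2 ≤ y → y ≤ y ^ C ∧
      Real.exp (-y ^ C) ≤ Real.exp (-y) ^ 2 / (12 * Real.exp y) := by qp
  obtain ⟨C2, hC2⟩ := Pl7.small_vec (i + 1)
  obtain ⟨C3, hC3⟩ : ∃ C : ℕ, ∀ y : ℝ, 2 ≤ y → y ≤ y ^ C ∧ Real.exp (-y ^ C) ≤
      Real.exp (-y) ^ 2 / (6 * Real.exp y) / Real.exp ((y ^ C1) ^ C2) ∧
      (2 * Real.exp y + 1) * Real.exp ((y ^ C1) ^ C2) ≤ Real.exp (y ^ C) := by qp
  obtain ⟨C4, hC4⟩ := fg (2 * C0)
  obtain ⟨C5, hC5⟩ : ∃ C : ℕ, ∀ y : ℝ, 2 ≤ y → (y ^ C1) ^ C2 + 1 ≤ y ^ C ∧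
      (y ^ C3) ^ C4 + y ^ C3 ≤ y ^ C ∧ Real.exp ((y ^ C3) ^ C4) *
        (Real.exp y * Real.exp ((y ^ C1) ^ C2) * (i + 1)) ≤ Real.exp (y ^ C) := by qp
  refine ⟨C5, fun y hy Ω τ X ρ κ σ _ _ _ _ e sh pt f T Cl Big V S lev z β b l0 q0 ε ε1 hτ hρ hκ
    h0 hadd hpt hne hBig hK hV hS hT hf e0 e1 e2 e3 e4 hβ hb hl0 q1 q2 hcl hO => ?_⟩
  classical
  obtain ⟨a1, a2⟩ := hC1 y hy
  obtain ⟨b1, b2, b3⟩ := hC3 y hy
  obtain ⟨c1, c2, c3⟩ := hC5 y hy
  have hV0 : ∀ v, (0 : ℝ) < V v := fun v => (Real.exp_pos _).trans_le (hV v)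
  obtain ⟨Cl', s1, s2, s3⟩ := translates e sh h0 hadd Cl Big V (fun v => by exact_mod_cast hV0 v) S
    (fun W hW => (hS W hW).1) (Real.exp_pos (-y)) (fun W hW => (hS W hW).2) hBig
    (Real.exp_pos y) hK
  set Q := Real.exp ((y ^ C1) ^ C2) with hQ
  set c := Real.exp (-y) ^ 2 / (6 * Real.exp y) with hc
  have hQ1 : 1 ≤ Q := Real.one_le_exp (by positivity)
  have hc0 : 0 < c := by positivity
  have hC0 : (0 : ℝ) < #Cl := by exact_mod_cast hne.card_pos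
  have p3 : 0 < y ^ C3 := by positivity
  have p4 : 0 < (y ^ C3) ^ C4 := by positivity
  -- comparison of labels
  have cmp : ∀ W ∈ Cl, ∀ w : ℤ, sh w W ∈ Cl → Real.exp (-y) ^ 2 / (12 * Real.exp y) *
      ∏ v, (V v : ℝ) ≤ #{t ∈ S (sh w W) | t + Pi.single e w ∈ S W} →
      ∃ q ∈ Icc 1 ⌊Q⌋₊, ∀ k, ∃ r : ℤ, |(q : ℝ) * (coeff (Finsupp.single e i) (T (sh w W) k) -
        coeff (Finsupp.single e i) (T W k) -
        w * (i + 1) * coeff (Finsupp.single e (i + 1)) (T W k)) - r| ≤ Q * (2 * ε1) := by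
    intro W hW w hw hd
    obtain ⟨q, g1, g2, g3⟩ := hC2 (y ^ C1) (hy.trans a1) τ κ
      (fun k => T (sh w W) k - shf e w (T W k)) _ (fun v => (V v : ℝ)) (2 * ε) (hτ.trans a1)
      (hκ.trans a1) (fun k => (totalDegree_sub _ _).trans
        (max_le (hT _ hw k) (totalDegree_shf e w (hT W hW k))))
      (fun v => (Real.exp_le_exp.2 (by linarith)).trans (hV v)) (by linarith) (by
        have : Real.exp (-y ^ C5) * 2 ≤ Real.exp (-(y ^ C1) ^ C2) := by
          refine (mul_le_mul_of_nonneg_left (show (2 : ℝ) ≤ Real.exp 1 by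
            linarith [Real.add_one_le_exp 1]) (Real.exp_pos _).le).trans ?_
          rw [← Real.exp_add]
          exact Real.exp_le_exp.2 (by linarith)
        linarith)
      (fun t ht v => by
        have := mem_bx.1 ((hS _ hw).1 (mem_filter.1 ht).1) v
        rw [← Int.cast_abs]
        exact_mod_cast abs_le.2 ⟨by omega, this.2.le⟩)
      ((mul_le_mul_of_nonneg_right a2 (prod_nonneg fun v _ => (hV0 v).le)).trans hd)
      (fun t ht k => by
        obtain ⟨n, hn⟩ := hf _ hw t (mem_filter.1 ht).1 k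
        obtain ⟨n', hn'⟩ := hf _ hW _ (mem_filter.1 ht).2 k
        rw [hpt] at hn
        refine ⟨n' - n, ?_⟩
        rw [map_sub, eval_shf]
        have := abs_le.1 hn
        have := abs_le.1 hn'
        push_cast at *
        exact abs_le.2 ⟨by linarith, by linarith⟩)
    refine ⟨q, mem_Icc.2 ⟨g1, Nat.le_floor g2⟩, fun k => ?_⟩
    obtain ⟨r, hr⟩ := g3 k (Finsupp.single e i)
    rw [prod_pow_single, coeff_sub, coeff_shf e w (hT W hW k), ← sub_sub] at hr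
    refine ⟨r, le_of_mul_le_mul_right (hr.trans ?_) (pow_pos (hV0 e) i)⟩
    nlinarith
  have hQc : (#(Icc 1 ⌊Q⌋₊) : ℝ) ≤ Q := by
    rw [Nat.card_Icc, add_tsub_cancel_right]
    exact Nat.floor_le (by linarith)
  let s : ℕ → Ω → κ → ℝ := fun q W k =>
    q0 * q * (i + 1) * coeff (Finsupp.single e (i + 1)) (T W k) - q * ev (z W) (l0 k)
  let ε2 := Real.exp (y ^ C3) * ε1
  let p : ℕ → Ω → Prop := fun q W => Line (fun a => ev (z W) (β a))
    (fun a k => ev (z W) (C (q : ℝ) * b a k)) (s q W) (V e) (Real.exp (-y ^ C3)) ε2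
  have lin1 : ∀ W ∈ (Cl' : Set Ω), ∃ q ∈ Icc 1 ⌊Q⌋₊, p q W := by
    intro W hW
    obtain ⟨A, t1, t2, t3⟩ := s3 W hW
    have hA : (0 : ℝ) < (cntM A).μ A := by
      rw [cntM_coe (Subset.refl _)]
      exact (mul_pos hc0 (hV0 e)).trans_le t2
    obtain ⟨q, hq, hμ⟩ := (cntM A).pigeon (Icc 1 ⌊Q⌋₊) (fun q w => ∀ k, ∃ r : ℤ,
      |(q : ℝ) * (coeff (Finsupp.single e i) (T (sh w W) k) - coeff (Finsupp.single e i) (T W k) -
        w * (i + 1) * coeff (Finsupp.single e (i + 1)) (T W k)) - r| ≤ Q * (2 * ε1)) A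
      (fun w hw => cmp W (s1 hW) w (t3 w hw).1 (t3 w hw).2) hA hQc
    rw [cntM_coe (Subset.refl _)] at hμ
    simp only [cntM] at hμ
    have hqQ : (q : ℝ) ≤ Q := (Nat.cast_le.2 (mem_Icc.1 hq).2).trans (Nat.floor_le (by linarith))
    refine ⟨q, hq, _, 0, 0, fun w hw => t1 w (mem_flt.1 hw).1, le_trans ?_
      ((div_le_iff₀' (by linarith)).2 hμ), fun w hw => ?_⟩
    · refine le_trans (mul_le_mul_of_nonneg_right b2 (hV0 e).le) ?_
      rw [div_mul_eq_mul_div]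
      exact div_le_div_of_nonneg_right t2 (by linarith)
    · obtain ⟨hw1, -, hw2⟩ := mem_flt.1 hw
      obtain ⟨k, k1, k2⟩ := hcl W (s1 hW) w (t1 w hw1) (t3 w hw1).1
      refine ⟨k, fun a => by simpa using k1 a, fun c' => ?_⟩
      obtain ⟨n, hn⟩ := k2 c'
      obtain ⟨r, hr⟩ := hw2 c'
      refine ⟨q * n - q0 * r, ?_⟩
      have : w * s q W c' - (0 : κ → ℝ) c' - ∑ a, k a * ev (z W) (C (q : ℝ) * b a c') -
          ((q * n - q0 * r : ℤ) : ℝ) =
          q * (q0 * (coeff (Finsupp.single e i) (T (sh w W) c') -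
            coeff (Finsupp.single e i) (T W c')) - w * ev (z W) (l0 c') -
            ∑ a, k a * ev (z W) (b a c') - n) -
          q0 * ((q : ℝ) * (coeff (Finsupp.single e i) (T (sh w W) c') -
            coeff (Finsupp.single e i) (T W c') -
            w * (i + 1) * coeff (Finsupp.single e (i + 1)) (T W c')) - r) := by
        have : ∑ a, k a * ev (z W) (C (q : ℝ) * b a c') = q * ∑ a, k a * ev (z W) (b a c') := by
          rw [mul_sum]
          exact sum_congr rfl fun a _ => by rw [ev_mul, ev_C]; ring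
        rw [this]
        simp only [s, Pi.zero_apply]
        push_cast
        ring
      rw [this]
      refine (abs_sub _ _).trans ?_
      rw [abs_mul, abs_mul, Nat.abs_cast, Nat.abs_cast]
      have u1 := mul_le_mul hqQ hn (abs_nonneg _) (by linarith)
      have u2 := mul_le_mul q2 hr (abs_nonneg _) (Real.exp_pos _).le
      have u3 := mul_le_mul_of_nonneg_right b3 e3.le
      simp only [ε2]
      linarith
  have hCl' : (cntM Cl).μ Cl' = #Cl' := cntM_coe s1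
  have hCl : (cntM Cl).μ Cl = #Cl := cntM_coe (Subset.refl _)
  obtain ⟨q, hq, hμ⟩ := (cntM Cl).pigeon (Icc 1 ⌊Q⌋₊) p Cl' lin1
    (by rw [hCl']; exact (mul_pos hc0 hC0).trans_le s2) hQc
  have hqQ : (q : ℝ) ≤ Q := (Nat.cast_le.2 (mem_Icc.1 hq).2).trans (Nat.floor_le (by linarith))
  set Z1 : Set Ω := {ω | ω ∈ (Cl' : Set Ω) ∧ p q ω} with hZ1
  have hZ1μ : Real.exp (-y ^ C3) * (cntM Cl).μ Cl ≤ (cntM Cl).μ Z1 := by
    rw [hCl]
    refine le_trans (mul_le_mul_of_nonneg_right b2 hC0.le) ?_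
    rw [div_mul_eq_mul_div, div_le_iff₀' (by linarith)]
    exact s2.trans (hCl' ▸ hμ)
  have hZ1s : Z1 ⊆ Cl := fun ω hω => s1 hω.1
  obtain ⟨Z', z1, z2, q', l, r1, r2, r3, r4⟩ := hC4 (y ^ C3) (hy.trans b1) ρ κ σ Ω lev z (cntM Cl)
    Z1 β (fun a k => C (q : ℝ) * b a k) (s q) i (V e) ε2 (hρ.trans b1) hβ
    (fun a k => hom_C_mul (hb a k) _) (fun ω hω => hω.2)
    ((Real.exp_le_exp.2 (by linarith)).trans (hV e)) (by positivity) (by
      refine (mul_le_mul_of_nonneg_left e4 (Real.exp_pos _).le).trans ?_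
      rw [← Real.exp_add]
      exact Real.exp_le_exp.2 (by linarith))
    (fun Y h1 h2 => by
      obtain ⟨O1, O2⟩ := hO (Y + y ^ C3) (by linarith) (by linarith)
      have h3 : (Y + y ^ C3) ^ C0 ≤ Y ^ (2 * C0) := by
        rw [pow_mul]
        exact pow_le_pow_left₀ (by linarith) (by nlinarith) _
      exact ⟨O1.orc.sub hZ1s (by rw [hCl]; positivity) hZ1μ le_rfl h3,
        O2.orc.sub hZ1s (by rw [hCl]; positivity) hZ1μ le_rfl h3⟩)
    (lt_of_lt_of_le (by rw [hCl]; positivity) hZ1μ)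
  refine ⟨flt Cl Z', fun ω hω => (mem_flt.1 hω).1, ?_, q' * (q0 * q * (i + 1)),
    fun k => C (q' : ℝ) * (C (q : ℝ) * l0 k + l k), ?_, ?_,
    fun k => hom_C_mul ((hom_C_mul (hl0 k) _).add (r3 k)) _, fun W hW k => ?_⟩
  · refine le_trans ?_ (le_trans (mul_le_mul_of_nonneg_left hZ1μ (Real.exp_pos _).le) z2)
    rw [hCl, ← mul_assoc, ← Real.exp_add]
    exact mul_le_mul_of_nonneg_right (Real.exp_le_exp.2 (by linarith)) hC0.le
  · exact Nat.mul_pos r1 (Nat.mul_pos (Nat.mul_pos q1 (mem_Icc.1 hq).1) (Nat.succ_pos i))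
  · push_cast
    refine le_trans ?_ c3
    gcongr
  · obtain ⟨n, hn⟩ := r4 W (mem_flt.1 hW).2 k
    refine ⟨n, le_trans (le_of_eq ?_) (hn.trans ?_)⟩
    · simp only [s, ev_mul, ev_add, ev_C]
      push_cast
      congr 1
      ring
    · simp only [ε2]
      rw [mul_div_assoc, ← mul_assoc, ← Real.exp_add]
      exact mul_le_mul_of_nonneg_right (Real.exp_le_exp.2 c2) (div_pos e3 (hV0 e)).le

end Crest.Agent.T49.PgF
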