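import Crest.Agent.T49.GonLine_60
import Crest.Agent.T49.GonSub_60
import Crest.Agent.T49.TwPoly_91
import Crest.Agent.T49.Qp_85

/-!
# Row 49 (helper92): step (F) of route D*, killing the Bohr coordinates along a line

If `w ↦ w s - c - ∑ k_a(w) B_a` is close to an integer vector on a dense set of `w`, with
`k(w)` close to `β w + γ`, then the slope `s` is determined by `β` and `B` (line lemma).
-/

set_option autoImplicit false

open Finset

namespace Crest.Agent.T49.PgF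

open Gon

variable {ρ κ : Type} [Fintype ρ] [Fintype κ]

/-- `x ↦ x B` -/
def vm (B : ρ → κ → ℝ) : (ρ → ℝ) →ₗ[ℝ] (κ → ℝ) where
  toFun x c := ∑ a, x a * B a c
  map_add' x y := by ext c; simp [add_mul, sum_add_distrib]
  map_smul' t x := by ext c; simp [mul_sum, mul_assoc]

omit [Fintype κ] in
theorem vm_apply (B : ρ → κ → ℝ) (x : ρ → ℝ) (c : κ) : vm B x c = ∑ a, x a * B a c := rfl

/-- the bracket relation on a dense part of a line -/
def Line (β : ρ → ℝ) (B : ρ → κ → ℝ) (s : κ → ℝ) (N δ ε : ℝ) : Prop :=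
  ∃ (S : Finset ℤ) (γ : ρ → ℝ) (c0 : κ → ℝ), (∀ w ∈ S, |(w : ℝ)| ≤ N) ∧ δ * N ≤ #S ∧
    ∀ w ∈ S, ∃ k : ρ → ℤ, (∀ a, |β a * w + γ a - k a| ≤ 1) ∧
      ∀ c, ∃ n : ℤ, |w * s c - c0 c - ∑ a, k a * B a c - n| ≤ ε

/-- short relations -/
def Gen (B : ρ → κ → ℝ) (R ε : ℝ) : Set ((ρ → ℝ) × (κ → ℝ)) :=
  {p | ∃ (k : ρ → ℤ) (n : κ → ℤ), p = (cst k, cst n) ∧ ‖cst k‖ ≤ R ∧
    ‖vm B (cst k) + cst n‖ ≤ R * ε}

/-- integer points -/
def lam (ρ κ : Type) [Fintype ρ] [Fintype κ] : AddSubgroup (ℝ × (ρ → ℝ) × (κ → ℝ)) where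
  carrier := {x | ∃ (w : ℤ) (k : ρ → ℤ) (n : κ → ℤ), x = ((w : ℝ), cst k, cst n)}
  add_mem' := by
    rintro _ _ ⟨w, k, n, rfl⟩ ⟨w', k', n', rfl⟩
    exact ⟨w + w', k + k', n + n', by simp [cst_add]⟩
  zero_mem' := ⟨0, 0, 0, by simp [Prod.ext_iff]⟩
  neg_mem' := by
    rintro _ ⟨w, k, n, rfl⟩
    exact ⟨-w, -k, -n, by simp [cst_neg]⟩

theorem slope {β : ρ → ℝ} {B : ρ → κ → ℝ} {s : κ → ℝ} {N δ ε : ℝ} (h : Line β B s N δ ε)
    (hδ : 0 < δ) (hδ1 : δ ≤ 1) (h2 : 2 ≤ δ * N) (hε : 0 < ε) :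
    ∃ (g : ℕ) (k1 : ρ → ℤ) (n1 : κ → ℤ) (η1 : ρ → ℝ) (η2 : κ → ℝ), 1 ≤ g ∧ (g : ℝ) ≤ 8 / δ ∧
      ‖η1‖ ≤ 8 / (δ * N) ∧ ‖η2‖ ≤ 8 * ε / (δ * N) ∧
      (β - η1 - (g : ℝ)⁻¹ • cst k1, s - η2 - vm B (β - η1) - (g : ℝ)⁻¹ • cst n1) ∈
        Submodule.span ℝ (Gen B (400 / δ) ε) := by
  classical
  obtain ⟨S, γ, c0, hSN, hcard, hS⟩ := h
  have hN : 0 < N := by
    by_contra hN
    push Not at hN
    nlinarith
  choose! k hk hn using hS
  choose! n hn using hn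
  have hne : S.Nonempty := by
    rw [← card_pos]
    have : (0 : ℝ) < #S := by linarith
    exact_mod_cast this
  obtain ⟨w0, hw0⟩ := hne
  let L1 : (ℝ × (ρ → ℝ) × (κ → ℝ)) →ₗ[ℝ] (ρ → ℝ) :=
    (LinearMap.fst ℝ _ _).smulRight β - (LinearMap.fst ℝ _ _).comp (LinearMap.snd ℝ _ _)
  let L2 : (ℝ × (ρ → ℝ) × (κ → ℝ)) →ₗ[ℝ] (κ → ℝ) :=
    (LinearMap.fst ℝ _ _).smulRight s -
      (vm B).comp ((LinearMap.fst ℝ _ _).comp (LinearMap.snd ℝ _ _)) -
      (LinearMap.snd ℝ _ _).comp (LinearMap.snd ℝ _ _)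
  have hL1 : ∀ x, L1 x = x.1 • β - x.2.1 := fun x => rfl
  have hL2 : ∀ x, L2 x = x.1 • s - vm B x.2.1 - x.2.2 := fun x => rfl
  let ν : (ℝ × (ρ → ℝ) × (κ → ℝ)) → ℝ := fun x =>
    max (|x.1| / (2 * N)) (max (‖L1 x‖ / 2) (‖L2 x‖ / (2 * ε)))
  have hν1 : ∀ x t, ν x ≤ t ↔ |x.1| ≤ 2 * N * t ∧ ‖L1 x‖ ≤ 2 * t ∧ ‖L2 x‖ ≤ 2 * ε * t := by
    intro x t
    simp only [ν, max_le_iff]
    rw [div_le_iff₀ (by positivity), div_le_iff₀ (by positivity), div_le_iff₀ (by positivity)]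
    constructor <;> rintro ⟨a, b, c⟩ <;> exact ⟨by linarith, by linarith, by linarith⟩
  let pt : ℤ → ℝ × (ρ → ℝ) × (κ → ℝ) := fun w =>
    (((w - w0 : ℤ) : ℝ), cst (k w - k w0), cst (n w - n w0))
  have hinj : Function.Injective pt := by
    intro a b hab
    have := congrArg Prod.fst hab
    simp only [pt, Int.cast_inj] at this
    omega
  obtain ⟨s0, hs0, s1, hs1, g, hν0, -, hw, hg, hg1, hg2, hmem⟩ :=
    line_slopes (lam ρ κ) ν (by simp [ν]) (fun x _ y _ => by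
        obtain ⟨a1, a2, a3⟩ := (hν1 x _).1 le_rfl
        obtain ⟨b1, b2, b3⟩ := (hν1 y _).1 le_rfl
        refine (hν1 _ _).2 ⟨?_, ?_, ?_⟩
        · have := abs_add_le x.1 y.1
          simp only [Prod.fst_add]
          linarith
        · rw [map_add]
          have := norm_add_le (L1 x) (L1 y)
          linarith
        · rw [map_add]
          have := norm_add_le (L2 x) (L2 y)
          linarith)
      (fun x _ => by simp [ν]) (LinearMap.fst ℝ _ _)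
      (by rintro _ ⟨w, k, n, rfl⟩; exact ⟨w, rfl⟩) (2 * N) (δ / 2) (by positivity)
      (by linarith) (by linarith) (fun x _ => ((hν1 x _).1 le_rfl).1) (S.image pt)
      (by
        intro x hx
        obtain ⟨w, hw, rfl⟩ := mem_image.1 hx
        refine ⟨⟨_, _, _, rfl⟩, (hν1 _ _).2 ⟨?_, ?_, ?_⟩⟩
        · have h1 := hSN w hw
          have h2 := hSN w0 hw0
          have := abs_sub (w : ℝ) w0
          simp only [pt, Int.cast_sub]
          linarith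
        · rw [hL1, pi_norm_le_iff_of_nonneg (by norm_num)]
          intro a
          have h1 := abs_le.1 (hk w hw a)
          have h2 := abs_le.1 (hk w0 hw0 a)
          simp only [pt, Pi.sub_apply, Pi.smul_apply, cst_apply, Int.cast_sub, smul_eq_mul,
            Real.norm_eq_abs]
          rw [abs_le]
          constructor <;> nlinarith [h1.1, h1.2, h2.1, h2.2]
        · rw [hL2, pi_norm_le_iff_of_nonneg (by positivity)]
          intro c
          have h1 := abs_le.1 (hn w hw c)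
          have h2 := abs_le.1 (hn w0 hw0 c)
          simp only [pt, Pi.sub_apply, Pi.smul_apply, cst_apply, Int.cast_sub, smul_eq_mul,
            Real.norm_eq_abs, vm_apply, sub_mul, sum_sub_distrib]
          rw [abs_le]
          constructor <;> linarith [h1.1, h1.2, h2.1, h2.2])
      (by
        intro x hx y hy hxy
        obtain ⟨w, -, rfl⟩ := mem_image.1 (mem_coe.1 hx)
        obtain ⟨w', -, rfl⟩ := mem_image.1 (mem_coe.1 hy)
        have : w = w' := by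
          simp only [pt, LinearMap.fst_apply, Int.cast_inj] at hxy
          omega
        rw [this])
      (by rw [card_image_of_injective _ hinj]; linarith)
  obtain ⟨w1, k1, n1, rfl⟩ := hs1
  obtain ⟨-, b2, b3⟩ := (hν1 _ _).1 hν0
  simp only [LinearMap.fst_apply] at hw hmem
  have hδN : 0 < δ * N := by linarith
  have hw' : δ * N / 2 ≤ s0.1 := by linarith
  have hw0' : 0 < s0.1 := by linarith
  have hinv : s0.1⁻¹ ≤ 2 / (δ * N) := by
    rw [inv_eq_one_div, div_le_div_iff₀ hw0' hδN]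
    linarith
  refine ⟨g, k1, n1, s0.1⁻¹ • L1 s0, s0.1⁻¹ • L2 s0, hg1, by
    refine hg2.trans (le_of_eq ?_); field_simp; norm_num, ?_, ?_, ?_⟩
  · rw [norm_smul, Real.norm_eq_abs, abs_of_pos (inv_pos.2 hw0')]
    calc _ ≤ 2 / (δ * N) * (2 * 2) := mul_le_mul hinv b2 (norm_nonneg _) (by positivity)
      _ = _ := by ring
  · rw [norm_smul, Real.norm_eq_abs, abs_of_pos (inv_pos.2 hw0')]
    calc _ ≤ 2 / (δ * N) * (2 * ε * 2) := mul_le_mul hinv b3 (norm_nonneg _) (by positivity)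
      _ = _ := by ring
  · have e1 : β - s0.1⁻¹ • L1 s0 = s0.1⁻¹ • s0.2.1 := by
      rw [hL1, smul_sub, smul_smul, inv_mul_cancel₀ hw0'.ne', one_smul]
      abel
    have e2 : s - s0.1⁻¹ • L2 s0 - vm B (s0.1⁻¹ • s0.2.1) = s0.1⁻¹ • s0.2.2 := by
      rw [hL2, smul_sub, smul_sub, smul_smul, inv_mul_cancel₀ hw0'.ne', one_smul, map_smul]
      abel
    rw [e1, e2]
    have hmap : Submodule.map (LinearMap.snd ℝ ℝ ((ρ → ℝ) × (κ → ℝ)))
        (shortKer (lam ρ κ) ν (LinearMap.fst ℝ _ _) (100 / (δ / 2))) ≤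
        Submodule.span ℝ (Gen B (400 / δ) ε) := by
      rw [shortKer, Submodule.map_span]
      refine Submodule.span_mono ?_
      rintro _ ⟨x, ⟨⟨w, k, n, rfl⟩, hx0, hx⟩, rfl⟩
      obtain ⟨-, c2, c3⟩ := (hν1 _ _).1 hx
      simp only [LinearMap.fst_apply] at hx0
      rw [hL1] at c2
      rw [hL2] at c3
      simp only [hx0, zero_smul, zero_sub, norm_neg] at c2 c3
      refine ⟨k, n, rfl, c2.trans (le_of_eq (by field_simp; norm_num)), ?_⟩
      rw [← norm_neg, neg_add']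
      exact c3.trans (le_of_eq (by field_simp; norm_num))
    exact hmap ⟨_, hmem, rfl⟩

/-- a generator matrix for the short relations -/
theorem exists_cols (B : ρ → κ → ℝ) {R ε : ℝ} (hR : 0 ≤ R) (hε : 0 ≤ ε) :
    ∃ (A : Matrix ρ ρ ℤ) (Nn : Matrix κ ρ ℤ), (∀ i a, |(A i a : ℝ)| ≤ R) ∧
      (∀ a c, |∑ i, (A i a : ℝ) * B i c + Nn c a| ≤ R * ε) ∧
      ∀ p ∈ Gen B R ε, p.1 ∈ LinearMap.range (lin A) := by
  classical
  obtain ⟨b, hb, hspan, hli⟩ := exists_linearIndependent ℝ (Prod.fst '' Gen B R ε)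
  have hfin : b.Finite := hli.setFinite
  have := hfin.fintype
  have hcard : Fintype.card b ≤ Fintype.card ρ := by
    have := hli.fintype_card_le_finrank
    simpa using this
  obtain ⟨e⟩ := Function.Embedding.nonempty_of_card_le hcard
  have hex : ∀ v : b, ∃ p : (ρ → ℤ) × (κ → ℤ), cst p.1 = v.1 ∧ ‖cst p.1‖ ≤ R ∧
      ‖vm B (cst p.1) + cst p.2‖ ≤ R * ε := by
    intro v
    obtain ⟨_, ⟨k, n, rfl, h1, h2⟩, h3⟩ := hb v.2
    exact ⟨(k, n), h3, h1, h2⟩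
  choose p hp using hex
  let col : ρ → (ρ → ℤ) × (κ → ℤ) := fun a => if h : ∃ v, e v = a then p h.choose else 0
  have hcol : ∀ a, ‖cst (col a).1‖ ≤ R ∧ ‖vm B (cst (col a).1) + cst (col a).2‖ ≤ R * ε := by
    intro a
    simp only [col]
    split_ifs with h
    · exact (hp _).2
    · simp [hR, mul_nonneg hR hε]
  refine ⟨Matrix.of fun i a => (col a).1 i, Matrix.of fun c a => (col a).2 c, fun i a => ?_,
    fun a c => ?_, ?_⟩
  · exact (norm_le_pi_norm (cst (col a).1) i).trans (hcol a).1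
  · exact (norm_le_pi_norm (vm B (cst (col a).1) + cst (col a).2) c).trans (hcol a).2
  · intro q hq
    have h1 : q.1 ∈ Submodule.span ℝ b := by
      rw [hspan]
      exact Submodule.subset_span ⟨q, hq, rfl⟩
    refine Submodule.span_le.2 ?_ h1
    intro v hv
    refine ⟨Pi.single (e ⟨v, hv⟩) 1, ?_⟩
    rw [lin_single]
    have h : ∃ v', e v' = e ⟨v, hv⟩ := ⟨_, rfl⟩
    have h2 : h.choose = ⟨v, hv⟩ := e.injective h.choose_spec
    have h3 : col (e ⟨v, hv⟩) = p ⟨v, hv⟩ := by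
      simp only [col]
      rw [dif_pos h, h2]
    simp only [Matrix.of_apply, h3]
    exact (hp ⟨v, hv⟩).1

/-- the span of the short relations is a graph over the range of the generator matrix -/
theorem span_gen {B : ρ → κ → ℝ} {R ε H : ℝ} (hR : 0 ≤ R) (hε : 0 ≤ ε) {A : Matrix ρ ρ ℤ}
    {Nn : Matrix κ ρ ℤ} (hA : ∀ a c, |∑ i, (A i a : ℝ) * B i c + Nn c a| ≤ R * ε)
    (hG : ∀ p ∈ Gen B R ε, p.1 ∈ LinearMap.range (lin A)) {q : ℕ} {M : Matrix ρ ρ ℤ}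
    (hq1 : 1 ≤ q) (hq : (q : ℝ) ≤ H) (hM : ∀ y, ‖lin M y‖ ≤ H * ‖y‖)
    (hs : ∀ b ∈ LinearMap.range (lin A), lin A ((q : ℝ)⁻¹ • lin M b) = b)
    (hsm : H * (1 + Fintype.card ρ * R) * (R * ε) < 1) :
    ∀ p ∈ Submodule.span ℝ (Gen B R ε),
      p.1 ∈ LinearMap.range (lin A) ∧ (q : ℝ) • p.2 = lin Nn (lin M p.1) := by
  have hq0 : (0 : ℝ) < q := by exact_mod_cast hq1
  have hH : 0 ≤ H := hq0.le.trans hq
  intro p hp
  induction hp using Submodule.span_induction with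
  | mem p hp =>
    refine ⟨hG p hp, ?_⟩
    have h0 := hs _ (hG p hp)
    obtain ⟨k, n, rfl, h1, h2⟩ := hp
    simp only at h0 ⊢
    rw [map_smul, inv_smul_eq_iff₀ hq0.ne'] at h0
    have hz : cst ((q : ℤ) • n - Nn.mulVec (M.mulVec k)) =
        (q : ℝ) • cst n - lin Nn (lin M (cst k)) := by
      rw [cst_sub, cst_smul, lin_cst, lin_cst]
      simp
    have hlt : ‖cst ((q : ℤ) • n - Nn.mulVec (M.mulVec k))‖ < 1 := by
      refine lt_of_le_of_lt ?_ hsm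
      rw [hz, pi_norm_le_iff_of_nonneg (by positivity)]
      intro c
      have e1 : ((q : ℝ) • cst n - lin Nn (lin M (cst k))) c =
          q * (vm B (cst k) + cst n) c -
            ∑ a, lin M (cst k) a * (∑ i, (A i a : ℝ) * B i c + Nn c a) := by
        have e2 : ∑ a, lin M (cst k) a * ∑ i, (A i a : ℝ) * B i c = q * vm B (cst k) c := by
          have e3 : q * vm B (cst k) c = vm B (lin A (lin M (cst k))) c := by
            rw [h0, map_smul]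
            rfl
          rw [e3, vm_apply]
          simp only [mul_sum]
          rw [sum_comm]
          refine sum_congr rfl fun i _ => ?_
          rw [lin_apply A, sum_mul]
          exact sum_congr rfl fun a _ => by ring
        simp only [mul_add, sum_add_distrib, e2, Pi.sub_apply, Pi.smul_apply, Pi.add_apply,
          smul_eq_mul, lin_apply Nn]
        have : ∑ a, (Nn c a : ℝ) * lin M (cst k) a = ∑ a, lin M (cst k) a * (Nn c a : ℝ) :=
          sum_congr rfl fun a _ => mul_comm _ _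
        rw [this]
        ring
      rw [e1, Real.norm_eq_abs]
      have a1 : |(q : ℝ) * (vm B (cst k) + cst n) c| ≤ H * (R * ε) := by
        rw [abs_mul, abs_of_pos hq0]
        exact mul_le_mul hq ((norm_le_pi_norm (vm B (cst k) + cst n) c).trans h2)
          (abs_nonneg _) hH
      have a2 : |∑ a, lin M (cst k) a * (∑ i, (A i a : ℝ) * B i c + Nn c a)| ≤
          Fintype.card ρ * (H * R * (R * ε)) := by
        refine (abs_sum_le_sum_abs _ _).trans ?_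
        rw [← card_univ, ← nsmul_eq_mul]
        refine sum_le_card_nsmul _ _ _ fun a _ => ?_
        rw [abs_mul]
        refine mul_le_mul ?_ (hA a c) (abs_nonneg _) (by positivity)
        exact ((norm_le_pi_norm (lin M (cst k)) a).trans (hM _)).trans
          (mul_le_mul_of_nonneg_left h1 hH)
      calc _ ≤ _ := abs_sub _ _
        _ ≤ H * (R * ε) + Fintype.card ρ * (H * R * (R * ε)) := add_le_add a1 a2
        _ = _ := by ring
    have := cst_eq_zero_of_norm_lt hlt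
    rw [this, cst_zero] at hz
    exact sub_eq_zero.1 hz.symm
  | zero => simp
  | add x y _ _ hx hy =>
    exact ⟨add_mem hx.1 hy.1, by simp only [Prod.snd_add, Prod.fst_add, smul_add, map_add,
      hx.2, hy.2]⟩
  | smul t x _ hx =>
    exact ⟨Submodule.smul_mem _ _ hx.1, by
      simp only [Prod.smul_snd, Prod.smul_fst, map_smul, ← hx.2]; exact smul_comm _ _ _⟩

/-! ### families -/

/-- a monotone subadditive mass on families -/
structure Mass (Ω : Type) where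
  μ : Set Ω → ℝ
  empty : μ ∅ ≤ 0
  mono : ∀ {A B : Set Ω}, A ⊆ B → μ A ≤ μ B
  union : ∀ A B : Set Ω, μ (A ∪ B) ≤ μ A + μ B

theorem Mass.le_sum {Ω J : Type} (m : Mass Ω) (T : Finset J) (p : J → Ω → Prop) (Z : Set Ω)
    (h : ∀ ω ∈ Z, ∃ j ∈ T, p j ω) : m.μ Z ≤ ∑ j ∈ T, m.μ {ω | ω ∈ Z ∧ p j ω} := by
  classical
  have key : ∀ T : Finset J, m.μ {ω | ω ∈ Z ∧ ∃ j ∈ T, p j ω} ≤
      ∑ j ∈ T, m.μ {ω | ω ∈ Z ∧ p j ω} := by
    intro T
    induction T using Finset.induction_on with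
    | empty => simpa using m.empty
    | insert j T hj ih =>
      rw [sum_insert hj]
      refine le_trans (m.mono ?_) ((m.union _ _).trans (add_le_add le_rfl ih))
      rintro ω ⟨h1, j', hj', h2⟩
      rcases mem_insert.1 hj' with rfl | hj'
      · exact Or.inl ⟨h1, h2⟩
      · exact Or.inr ⟨h1, j', hj', h2⟩
  have : Z ⊆ {ω | ω ∈ Z ∧ ∃ j ∈ T, p j ω} := fun ω hω => ⟨hω, h ω hω⟩
  exact (m.mono this).trans (key T)

/-- pigeonhole -/
theorem Mass.pigeon {Ω J : Type} (m : Mass Ω) (T : Finset J) (p : J → Ω → Prop) (Z : Set Ω)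
    (h : ∀ ω ∈ Z, ∃ j ∈ T, p j ω) (hZ : 0 < m.μ Z) {K : ℝ} (hK : (#T : ℝ) ≤ K) :
    ∃ j ∈ T, m.μ Z ≤ K * m.μ {ω | ω ∈ Z ∧ p j ω} := by
  have h1 := m.le_sum T p Z h
  have hne : T.Nonempty := by
    rcases T.eq_empty_or_nonempty with rfl | h
    · simp at h1; linarith
    · exact h
  obtain ⟨j, hj, hmax⟩ := T.exists_max_image (fun j => m.μ {ω | ω ∈ Z ∧ p j ω}) hne
  have h2 : m.μ Z ≤ #T * m.μ {ω | ω ∈ Z ∧ p j ω} := by
    rw [← nsmul_eq_mul]
    exact h1.trans (sum_le_card_nsmul _ _ _ hmax)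
  have h3 : 0 ≤ m.μ {ω | ω ∈ Z ∧ p j ω} := by
    by_contra h3
    push Not at h3
    have : (0 : ℝ) ≤ #T := Nat.cast_nonneg _
    nlinarith
  exact ⟨j, hj, h2.trans (mul_le_mul_of_nonneg_right hK h3)⟩

open MvPolynomial Tw

variable {σ Ω : Type}

/-- the oracle SMALL: a form that is close to integers on the family is, up to a multiplier,
an integer form plus a form that is small on the family -/
def Sml (lev : σ → ℕ) (z : Ω → σ → ℤ) (Z : Set Ω) (i : ℕ) (η η' U : ℝ) : Prop :=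
  ∀ G : Pl σ, IsWeightedHomogeneous lev G i → (∀ ω ∈ Z, ∃ n : ℤ, |ev (z ω) G - n| ≤ η) →
    ∃ (b : ℕ) (E : Pl σ), 1 ≤ b ∧ (b : ℝ) ≤ U ∧ IsWeightedHomogeneous lev E i ∧
      IsInt (C (b : ℝ) * G - E) ∧ ∀ ω ∈ Z, |ev (z ω) E| ≤ η'

theorem Sml.mono {lev : σ → ℕ} {z : Ω → σ → ℤ} {Z : Set Ω} {i : ℕ} {η η' U η1 η1' U1 : ℝ}
    (h : Sml lev z Z i η η' U) (h1 : η1 ≤ η) (h2 : η' ≤ η1') (h3 : U ≤ U1) :
    Sml lev z Z i η1 η1' U1 := by
  intro G hG hZ
  obtain ⟨b, E, a1, a2, a3, a4, a5⟩ := h G hG fun ω hω =>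
    (hZ ω hω).imp fun n hn => hn.trans h1
  exact ⟨b, E, a1, a2.trans h3, a3, a4, fun ω hω => (a5 ω hω).trans h2⟩

/-- in weight zero the oracle is trivial -/
theorem sml_zero {lev : σ → ℕ} (hl : ∀ c, 0 < lev c) (z : Ω → σ → ℤ) {Z : Set Ω}
    (hZ : Z.Nonempty) (η : ℝ) : Sml lev z Z 0 η η 1 := by
  intro G hG h
  obtain ⟨ω0, hω0⟩ := hZ
  obtain ⟨n, hn⟩ := h ω0 hω0
  have hC : G = C (coeff 0 G) := DegLe.eq_C hl (DegLe.of_hom hG)
  rw [hC, ev_C] at hn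
  refine ⟨1, C (coeff 0 G - n), le_rfl, by simp, isWeightedHomogeneous_C _ _, ?_, fun ω _ => ?_⟩
  · rw [hC]
    simpa using isInt_C_int (ι := σ) n
  · rw [ev_C]
    exact hn

/-- exact consequences of the oracle -/
theorem Sml.exact {lev : σ → ℕ} {z : Ω → σ → ℤ} {Z : Set Ω} {i : ℕ} {η η' U : ℝ}
    (h : Sml lev z Z i η η' U) (hsm : U * η + η' < 1) {G : Pl σ}
    (hG : IsWeightedHomogeneous lev G i) (hZ : ∀ ω ∈ Z, ∃ n : ℤ, |ev (z ω) G - n| ≤ η) :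
    ∃ E : Pl σ, IsWeightedHomogeneous lev E i ∧
      ∀ ω ∈ Z, ∀ n : ℤ, |ev (z ω) G - n| ≤ η → ev (z ω) E = ev (z ω) G - n := by
  obtain ⟨b, E, a1, a2, a3, a4, a5⟩ := h G hG hZ
  have hb : (0 : ℝ) < b := by exact_mod_cast a1
  refine ⟨C (b : ℝ)⁻¹ * E, hom_C_mul a3 _, fun ω hω n hn => ?_⟩
  obtain ⟨n', hn'⟩ := a4.ev (z ω)
  simp only [ev_sub, ev_mul, ev_C] at hn' ⊢
  have h1 : ((n' - b * n : ℤ) : ℝ) = b * (ev (z ω) G - n) - ev (z ω) E := by
    push_cast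
    linarith
  have h2 : |((n' - b * n : ℤ) : ℝ)| < 1 := by
    rw [h1]
    refine lt_of_le_of_lt ((abs_sub _ _).trans ?_) hsm
    rw [abs_mul, abs_of_pos hb]
    exact add_le_add (mul_le_mul a2 hn (abs_nonneg _) (hb.le.trans a2)) (a5 ω hω)
  have h3 : n' - b * n = 0 := by
    rw [← Int.cast_abs] at h2
    have : |n' - b * n| < 1 := by exact_mod_cast h2
    exact Int.abs_lt_one_iff.1 this
  rw [h3] at h1
  field_simp
  push_cast at h1
  linarith

set_option maxHeartbeats 800000 in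
/-- **(F)** with explicit constants -/
theorem fg_core {lev : σ → ℕ} {z : Ω → σ → ℤ} (m : Mass Ω) {Z : Set Ω} {β : ρ → Pl σ}
    {b : ρ → κ → Pl σ} {s : Ω → κ → ℝ} {i : ℕ} {N δ ε U η' R H cnt η1 : ℝ}
    (hβ : ∀ a, IsWeightedHomogeneous lev (β a) 1)
    (hb : ∀ a c, IsWeightedHomogeneous lev (b a c) i)
    (hline : ∀ ω ∈ Z, Line (fun a => ev (z ω) (β a)) (fun a c => ev (z ω) (b a c)) (s ω) N δ ε)
    (hδ : 0 < δ) (hδ1 : δ ≤ 1) (h2 : 2 ≤ δ * N) (hε : 0 < ε) (hR : R = 400 / δ)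
    (hH : H = bl (Fintype.card ρ) R)
    (hcnt : cnt = (2 * R + 1) ^ (Fintype.card ρ * Fintype.card ρ) * (8 / δ))
    (hη1 : η1 = 8 / δ * (H * (1 + Fintype.card ρ * R) * (8 / (δ * N))))
    (hO : ∀ Z' ⊆ Z, m.μ Z ≤ cnt * m.μ Z' →
      Sml lev z Z' i (R * ε) η' U ∧ Sml lev z Z' 1 η1 η' U)
    (hs1 : H * (1 + Fintype.card ρ * R) * (R * ε) < 1) (hs2 : U * (R * ε) + η' < 1)
    (hs3 : U * η1 + η' < 1) (hZ : 0 < m.μ Z) :
    ∃ Z' ⊆ Z, m.μ Z ≤ cnt * m.μ Z' ∧ ∃ (q : ℕ) (l : κ → Pl σ), 1 ≤ q ∧ (q : ℝ) ≤ 8 / δ * H ∧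
      (∀ c, IsWeightedHomogeneous lev (l c) (i + 1)) ∧ ∀ ω ∈ Z', ∀ c, ∃ n : ℤ,
        |q * (s ω c - ev (z ω) (l c)) - n| ≤
          8 / δ * H * (Fintype.card ρ * R + 1) * (8 * ε / (δ * N)) := by
  classical
  have hR1 : 1 ≤ R := by
    rw [hR, le_div_iff₀ hδ]
    linarith
  have hR0 : 0 ≤ R := by linarith
  have hH1 : 1 ≤ H := hH ▸ one_le_bl _ hR1
  have hδN : 0 < δ * N := by linarith
  let B : Ω → ρ → κ → ℝ := fun ω a c => ev (z ω) (b a c)
  let bt : Ω → ρ → ℝ := fun ω a => ev (z ω) (β a)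
  let p : Matrix ρ ρ ℤ × ℕ → Ω → Prop := fun j ω => ∃ Nn : Matrix κ ρ ℤ,
    (∀ a c, |∑ i, (j.1 i a : ℝ) * B ω i c + Nn c a| ≤ R * ε) ∧
    (∀ p ∈ Gen (B ω) R ε, p.1 ∈ LinearMap.range (lin j.1)) ∧
    ∃ (k1 : ρ → ℤ) (n1 : κ → ℤ) (η1 : ρ → ℝ) (η2 : κ → ℝ),
      ‖η1‖ ≤ 8 / (δ * N) ∧ ‖η2‖ ≤ 8 * ε / (δ * N) ∧
      (bt ω - η1 - (j.2 : ℝ)⁻¹ • cst k1,
        s ω - η2 - vm (B ω) (bt ω - η1) - (j.2 : ℝ)⁻¹ • cst n1) ∈
        Submodule.span ℝ (Gen (B ω) R ε)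
  let T1 : Finset (Matrix ρ ρ ℤ) :=
    Fintype.piFinset fun _ => Fintype.piFinset fun _ => Icc (-⌊R⌋) ⌊R⌋
  obtain ⟨⟨A, g⟩, hj, hμ⟩ := m.pigeon (T1 ×ˢ Icc 1 ⌊8 / δ⌋₊) p Z (K := cnt) (fun ω hω => by
      obtain ⟨g, k1, n1, η1, η2, g1, g2, a1, a2, a3⟩ := slope (hline ω hω) hδ hδ1 h2 hε
      obtain ⟨A, Nn, c1, c2, c3⟩ := exists_cols (B ω) hR0 hε.le
      refine ⟨(A, g), mem_product.2 ⟨?_, mem_Icc.2 ⟨g1, Nat.le_floor g2⟩⟩, Nn, c2, c3, k1, n1,
        η1, η2, a1, a2, hR ▸ a3⟩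
      refine Fintype.mem_piFinset.2 fun i => Fintype.mem_piFinset.2 fun a => ?_
      have := abs_le.1 (c1 i a)
      refine mem_Icc.2 ⟨?_, Int.le_floor.2 this.2⟩
      rw [neg_le]
      exact Int.le_floor.2 (by push_cast; linarith [this.1])) hZ (by
      have h0 : 0 ≤ ⌊R⌋ := Int.floor_nonneg.2 hR0
      have e1 : (((⌊R⌋ + 1 - -⌊R⌋).toNat : ℕ) : ℝ) ≤ 2 * R + 1 := by
        have : (((⌊R⌋ + 1 - -⌊R⌋).toNat : ℕ) : ℤ) = ⌊R⌋ + 1 - -⌊R⌋ :=
          Int.toNat_of_nonneg (by omega)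
        have h3 : (((⌊R⌋ + 1 - -⌊R⌋).toNat : ℕ) : ℝ) = ((⌊R⌋ + 1 - -⌊R⌋ : ℤ) : ℝ) := by
          exact_mod_cast this
        rw [h3]
        push_cast
        linarith [Int.floor_le R]
      have e2 : #T1 = (⌊R⌋ + 1 - -⌊R⌋).toNat ^ (Fintype.card ρ * Fintype.card ρ) := by
        refine (Fintype.card_piFinset (fun _ : ρ => Fintype.piFinset fun _ : ρ =>
          Icc (-⌊R⌋) ⌊R⌋)).trans ?_
        simp only [Fintype.card_piFinset, prod_const, card_univ, Int.card_Icc, ← pow_mul]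
      rw [card_product, hcnt, e2]
      simp only [Nat.card_Icc, add_tsub_cancel_right, Nat.cast_mul, Nat.cast_pow]
      exact mul_le_mul (pow_le_pow_left₀ (Nat.cast_nonneg _) e1 _)
        (Nat.floor_le (by positivity)) (Nat.cast_nonneg _) (by positivity))
  obtain ⟨hA, hg⟩ := mem_product.1 hj
  obtain ⟨g1, g2⟩ := mem_Icc.1 hg
  simp only at g1 g2 hA
  have g0 : (0 : ℝ) < g := by exact_mod_cast g1
  have g3 : (g : ℝ) ≤ 8 / δ := (Nat.cast_le.2 g2).trans (Nat.floor_le (by positivity))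
  have hA' : ∀ i a, |(A i a : ℝ)| ≤ R := by
    intro i a
    obtain ⟨a1, a2⟩ := mem_Icc.1 (Fintype.mem_piFinset.1 (Fintype.mem_piFinset.1 hA i) a)
    have b1 : ((-⌊R⌋ : ℤ) : ℝ) ≤ A i a := by exact_mod_cast a1
    have b2 : (A i a : ℝ) ≤ (⌊R⌋ : ℤ) := by exact_mod_cast a2
    push_cast at b1
    exact abs_le.2 ⟨by linarith [Int.floor_le R], by linarith [Int.floor_le R]⟩
  obtain ⟨q, M, q1, q2, -, hM, hsol⟩ := exists_solver A hR1 hA' (d := Fintype.card ρ)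
    (Or.inl le_rfl)
  rw [← hH] at q2 hM
  have q0 : (0 : ℝ) < q := by exact_mod_cast q1
  set Z' : Set Ω := {ω | ω ∈ Z ∧ p (A, g) ω} with hZ'
  obtain ⟨O1, O2⟩ := hO Z' (fun ω hω => hω.1) hμ
  -- the projector
  let P : (ρ → ℝ) →ₗ[ℝ] (ρ → ℝ) := (q : ℝ) • LinearMap.id - (lin A).comp (lin M)
  have hP : ∀ x, P x = (q : ℝ) • x - lin A (lin M x) := fun x => rfl
  have hPn : ∀ x, ‖P x‖ ≤ H * (1 + Fintype.card ρ * R) * ‖x‖ := by
    intro x
    rw [hP]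
    have a1 : ‖(q : ℝ) • x‖ ≤ H * ‖x‖ := by
      rw [norm_smul, Real.norm_eq_abs, abs_of_pos q0]
      exact mul_le_mul_of_nonneg_right q2 (norm_nonneg _)
    have a2 : ‖lin A (lin M x)‖ ≤ Fintype.card ρ * R * (H * ‖x‖) :=
      (norm_lin_le A hR0 hA' le_rfl _).trans (mul_le_mul_of_nonneg_left (hM x) (by positivity))
    calc _ ≤ _ := norm_sub_le _ _
      _ ≤ H * ‖x‖ + Fintype.card ρ * R * (H * ‖x‖) := add_le_add a1 a2
      _ = _ := by ring
  have hP0 : ∀ x ∈ LinearMap.range (lin A), P x = 0 := by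
    intro x hx
    have := hsol x hx
    rw [map_smul, inv_smul_eq_iff₀ q0.ne'] at this
    rw [hP, this, sub_self]
  let Pz : (ρ → ℤ) → ρ → ℤ := fun k => (q : ℤ) • k - A.mulVec (M.mulVec k)
  have hPz : ∀ k, P (cst k) = cst (Pz k) := by
    intro k
    rw [hP, cst_sub, cst_smul, lin_cst, lin_cst]
    simp
  -- polynomials
  let Mβ : ρ → Pl σ := fun a => ∑ a', C (M a a' : ℝ) * β a'
  have hMβ : ∀ a, IsWeightedHomogeneous lev (Mβ a) 1 := fun a =>
    IsWeightedHomogeneous.sum _ _ _ fun a' _ => hom_C_mul (hβ a') _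
  have evMβ : ∀ ω a, ev (z ω) (Mβ a) = lin M (bt ω) a := by
    intro ω a
    simp only [Mβ, ev_sum, ev_mul, ev_C, lin_apply, bt]
  let Gβ : ρ → Pl σ := fun a => C (g : ℝ) * (C (q : ℝ) * β a - ∑ a', C (A a a' : ℝ) * Mβ a')
  have hGβ : ∀ a, IsWeightedHomogeneous lev (Gβ a) 1 := fun a =>
    hom_C_mul (hom_sub (hom_C_mul (hβ a) _)
      (IsWeightedHomogeneous.sum _ _ _ fun a' _ => hom_C_mul (hMβ a') _)) _
  have evGβ : ∀ ω a, ev (z ω) (Gβ a) = g * P (bt ω) a := by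
    intro ω a
    simp only [Gβ, ev_sum, ev_mul, ev_C, ev_sub, evMβ, hP, Pi.sub_apply, Pi.smul_apply,
      smul_eq_mul, lin_apply A, bt]
  let Gb : ρ → κ → Pl σ := fun a c => ∑ i, C (A i a : ℝ) * b i c
  have hGb : ∀ a c, IsWeightedHomogeneous lev (Gb a c) i := fun a c =>
    IsWeightedHomogeneous.sum _ _ _ fun a' _ => hom_C_mul (hb a' c) _
  have evGb : ∀ ω a c, ev (z ω) (Gb a c) = ∑ i, (A i a : ℝ) * B ω i c := by
    intro ω a c
    simp only [Gb, ev_sum, ev_mul, ev_C, B]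
  -- level one relation on a member
  have hlev1 : ∀ (ω : Ω) (k1 : ρ → ℤ) (e1 : ρ → ℝ), ‖e1‖ ≤ 8 / (δ * N) →
      bt ω - e1 - (g : ℝ)⁻¹ • cst k1 ∈ LinearMap.range (lin A) →
      ∀ a, |ev (z ω) (Gβ a) - Pz k1 a| ≤ η1 := by
    intro ω k1 e1 he hx a
    have h0 := hP0 _ hx
    rw [map_sub, map_sub, map_smul, hPz] at h0
    have h1 := congrFun h0 a
    simp only [Pi.sub_apply, Pi.smul_apply, smul_eq_mul, cst_apply, Pi.zero_apply] at h1
    have h3 : ev (z ω) (Gβ a) - Pz k1 a = g * P e1 a := by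
      rw [evGβ]
      field_simp at h1
      linarith
    rw [h3, abs_mul, abs_of_pos g0, hη1]
    refine mul_le_mul g3 (((norm_le_pi_norm (P e1) a).trans (hPn _)).trans ?_) (abs_nonneg _)
      (by positivity)
    exact mul_le_mul_of_nonneg_left he (by positivity)
  have hE : ∀ a c, ∃ E : Pl σ, IsWeightedHomogeneous lev E i ∧ ∀ ω ∈ Z', ∀ n : ℤ,
      |ev (z ω) (Gb a c) - n| ≤ R * ε → ev (z ω) E = ev (z ω) (Gb a c) - n := fun a c =>
    O1.exact hs2 (hGb a c) fun ω hω => by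
      obtain ⟨Nn, c2, -⟩ := hω.2
      exact ⟨-Nn c a, by rw [evGb]; simpa using c2 a c⟩
  have hE' : ∀ a, ∃ E : Pl σ, IsWeightedHomogeneous lev E 1 ∧ ∀ ω ∈ Z', ∀ n : ℤ,
      |ev (z ω) (Gβ a) - n| ≤ η1 → ev (z ω) E = ev (z ω) (Gβ a) - n := fun a =>
    O2.exact hs3 (hGβ a) fun ω hω => by
      obtain ⟨Nn, c2, c3, k1, n1, e1, e2, a1, a2, a3⟩ := hω.2
      exact ⟨_, hlev1 ω k1 e1 a1 (span_gen hR0 hε.le c2 c3 q1 q2 hM hsol hs1 _ a3).1 a⟩
  choose E hE1 hE2 using hE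
  choose E' hE1' hE2' using hE'
  refine ⟨Z', fun ω hω => hω.1, hμ, g * q, fun c =>
    C ((g * q : ℝ)⁻¹) * ∑ a, (Gβ a - E' a) * b a c + C (q : ℝ)⁻¹ * ∑ a, Mβ a * E a c,
    Nat.mul_pos g1 q1, ?_, fun c => ?_, fun ω hω c => ?_⟩
  · push_cast
    exact mul_le_mul g3 q2 q0.le (by positivity)
  · rw [add_comm i 1]
    exact (hom_C_mul (IsWeightedHomogeneous.sum _ _ _ fun a _ =>
      (hom_sub (hGβ a) (hE1' a)).mul (hb a c)) _).add
      (hom_C_mul (IsWeightedHomogeneous.sum _ _ _ fun a _ => (hMβ a).mul (hE1 a c)) _)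
  · obtain ⟨Nn, c2, c3, k1, n1, e1, e2, a1, a2, a3⟩ := hω.2
    obtain ⟨x1, x2⟩ := span_gen hR0 hε.le c2 c3 q1 q2 hM hsol hs1 _ a3
    simp only at x1 x2 c2
    have f1 : ∀ a, ev (z ω) (Gβ a) - ev (z ω) (E' a) = Pz k1 a := by
      intro a
      rw [hE2' a ω hω _ (hlev1 ω k1 e1 a1 x1 a)]
      ring
    let dl : ρ → ℝ := fun a => ∑ i, (A i a : ℝ) * B ω i c + Nn c a
    have f2 : ∀ a, ev (z ω) (E a c) = dl a := by
      intro a
      rw [hE2 a c ω hω (-Nn c a) (by rw [evGb]; simpa using c2 a c), evGb]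
      simp [dl]
    have f3 : ∀ y : ρ → ℝ, ∑ a, y a * dl a = vm (B ω) (lin A y) c + lin Nn y c := by
      intro y
      simp only [dl, mul_add, sum_add_distrib, vm_apply, lin_apply, mul_sum, sum_mul]
      rw [sum_comm]
      congr 1
      · exact sum_congr rfl fun _ _ => sum_congr rfl fun _ _ => by ring
      · exact sum_congr rfl fun _ _ => mul_comm _ _
    have f4 : ∑ a, (Pz k1 a : ℝ) * B ω a c =
        q * vm (B ω) (cst k1) c - vm (B ω) (lin A (lin M (cst k1))) c := by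
      have : ∑ a, (Pz k1 a : ℝ) * B ω a c = vm (B ω) (cst (Pz k1)) c := rfl
      rw [this, ← hPz, hP, map_sub, map_smul]
      rfl
    have f5 := congrFun x2 c
    have f6 := hsol _ x1
    rw [map_smul, inv_smul_eq_iff₀ q0.ne'] at f6
    have f7 := congrFun (congrArg (vm (B ω)) f6) c
    simp only [map_sub, map_smul, Pi.sub_apply, Pi.smul_apply, smul_eq_mul, cst_apply] at f5 f7
    have f8 : lin Nn (lin M (cst k1)) c = ((Nn.mulVec (M.mulVec k1)) c : ℤ) := by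
      rw [lin_cst, lin_cst, cst_apply]
    refine ⟨q * n1 c - (Nn.mulVec (M.mulVec k1)) c, ?_⟩
    have f9 : ((g * q : ℕ) : ℝ) * (s ω c - ev (z ω)
        (C ((g * q : ℝ)⁻¹) * ∑ a, (Gβ a - E' a) * b a c + C (q : ℝ)⁻¹ * ∑ a, Mβ a * E a c)) -
        ((q * n1 c - (Nn.mulVec (M.mulVec k1)) c : ℤ) : ℝ) =
        g * (q * e2 c - ∑ a, lin M e1 a * dl a) := by
      simp only [ev_add, ev_mul, ev_C, ev_sum, ev_sub, f1, f2, evMβ]
      rw [show ∑ a, (Pz k1 a : ℝ) * ev (z ω) (b a c) = _ from f4, f3, f3]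
      push_cast
      rw [← f8]
      field_simp
      field_simp at f5 f7
      linarith
    rw [f9, abs_mul, abs_of_pos g0]
    have t1 : |(q : ℝ) * e2 c| ≤ H * (8 * ε / (δ * N)) := by
      rw [abs_mul, abs_of_pos q0]
      exact mul_le_mul q2 ((norm_le_pi_norm e2 c).trans a2) (abs_nonneg _) (by positivity)
    have t2 : |∑ a, lin M e1 a * dl a| ≤ Fintype.card ρ * (H * (8 / (δ * N)) * (R * ε)) := by
      refine (abs_sum_le_sum_abs _ _).trans ?_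
      rw [← card_univ, ← nsmul_eq_mul]
      refine sum_le_card_nsmul _ _ _ fun a _ => ?_
      rw [abs_mul]
      refine mul_le_mul ?_ (c2 a c) (abs_nonneg _) (by positivity)
      exact ((norm_le_pi_norm (lin M e1) a).trans (hM _)).trans
        (mul_le_mul_of_nonneg_left a1 (by positivity))
    calc _ ≤ 8 / δ * (H * (8 * ε / (δ * N)) +
          Fintype.card ρ * (H * (8 / (δ * N)) * (R * ε))) :=
          mul_le_mul g3 ((abs_sub _ _).trans (add_le_add t1 t2)) (abs_nonneg _) (by positivity)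
      _ = _ := by ring

end Crest.Agent.T49.PgF
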