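import Crest.Agent.T49.TwDef_52
import Crest.Agent.T49.SampPE_57

/-!
# Row 49 (helper63): patterns = graded rings over a `Tw.Cell`; definitions

A pattern `R : Rg s A F` is a family of lattices `R.L l` (`l ≤ s`) in a commutative real algebra `A`
whose real spans multiply like a grading, an element `t0` (homogenising variable: `1` for points,
frames, cubes; `0` for directions) and Euclidean windows `R.Q l`.  `R.Pt T` are the `A`-points of
the cell `T`, weighted by `exp (-π ∑ ‖Q (θ_c (r + w) - cen_c)‖²)`.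
-/

set_option autoImplicit false

open MvPolynomial

namespace Crest.Agent.T49.Rng
open Tw

/-- lattice in a real vector space: finitely generated, `ℤ`-independent families are
`ℝ`-independent -/
def IsLat {A : Type} [AddCommGroup A] [Module ℝ A] (L : Submodule ℤ A) : Prop :=
  L.FG ∧ ∀ (n : ℕ) (v : Fin n → A), (∀ i, v i ∈ L) → LinearIndependent ℤ v →
    LinearIndependent ℝ v

/-- homogenised evaluation `∑_d t0^(l-d) f_d(w)` of a polynomial of weighted degree `≤ l` -/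
noncomputable def hev {ι B : Type} [CommRing B] [Algebra ℝ B] (lev : ι → ℕ) (t0 : B) (w : ι → B)
    (l : ℕ) (f : Pl ι) : B :=
  ∑ d ∈ Finset.range (l + 1), t0 ^ (l - d) * aeval w (weightedHomogeneousComponent lev d f)

/-- pattern ring -/
structure Rg (s : ℕ) (A F : Type) [CommRing A] [Algebra ℝ A] [NormedAddCommGroup F]
    [InnerProductSpace ℝ F] where
  L : ℕ → Submodule ℤ A
  t0 : A
  Q : ℕ → A →ₗ[ℝ] F
  lat : ∀ l, IsLat (L l)
  one_mem : (1 : A) ∈ Submodule.span ℝ (L 0 : Set A)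
  t0_mem : t0 ∈ Submodule.span ℝ (L 1 : Set A)
  mul_mem : ∀ i j, i + j ≤ s → ∀ x ∈ Submodule.span ℝ (L i : Set A),
    ∀ y ∈ Submodule.span ℝ (L j : Set A), x * y ∈ Submodule.span ℝ (L (i + j) : Set A)
  inj : ∀ l ≤ s, ∀ x ∈ Submodule.span ℝ (L l : Set A), Q l x = 0 → x = 0

/-- offsets: lattice shift `r` and window centre `cen` -/
structure Off (ι A : Type) where
  r : ι → A
  cen : ι → A

/-- no offset -/
def Off.zero (ι A : Type) [Zero A] : Off ι A := ⟨fun _ => 0, fun _ => 0⟩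

/-- image of an offset -/
def Off.map {ι A B : Type} (φ : A → B) (o : Off ι A) : Off ι B :=
  ⟨fun c => φ (o.r c), fun c => φ (o.cen c)⟩

/-- pair of offsets -/
def Off.pair {ι A B : Type} (o : Off ι A) (o' : Off ι B) : Off ι (A × B) :=
  ⟨fun c => (o.r c, o'.r c), fun c => (o.cen c, o'.cen c)⟩

/-- the loss of a pattern with `n` generators of size `K` (also covers its fibre squares) -/
noncomputable def loss (s n : ℕ) (K : ℝ) : ℝ :=
  (((3 * n + 2 : ℕ) : ℝ) ^ s + s + Real.log (2 * K) + 2) ^ 6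

namespace Rg
variable {s : ℕ} {A F : Type} [CommRing A] [Algebra ℝ A] [NormedAddCommGroup F]
  [InnerProductSpace ℝ F] (R : Rg s A F) {ι : Type}

/-- real span of the level-`l` lattice -/
def E (l : ℕ) : Submodule ℝ A := Submodule.span ℝ (R.L l : Set A)

/-- admissible offsets -/
def OffMem (T : Cell ι) (o : Off ι A) : Prop :=
  ∀ c, o.r c ∈ R.E (T.lev c) ∧ o.cen c ∈ R.E (T.lev c)

/-- `A`-points of the cell -/
abbrev Pt (T : Cell ι) : Type := (c : ι) → R.L (T.lev c)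

/-- the underlying (shifted) ring elements of a point -/
def up {T : Cell ι} (o : Off ι A) (w : R.Pt T) : ι → A := fun c => o.r c + (w c : A)

/-- `θ_c` evaluated in the ring -/
noncomputable def th (T : Cell ι) (w : ι → A) (c : ι) : A := hev T.lev R.t0 w (T.lev c) (T.th c)

/-- centred window coordinate of a point -/
noncomputable def dv (T : Cell ι) (o : Off ι A) (w : R.Pt T) (c : ι) : A :=
  R.th T (R.up o w) c - o.cen c

/-- Gaussian weight -/
noncomputable def wt [Fintype ι] (T : Cell ι) (o : Off ι A) (w : R.Pt T) : ℝ :=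
  Real.exp (-Real.pi * ∑ c, ‖R.Q (T.lev c) (R.dv T o w c)‖ ^ 2)

/-- total mass -/
noncomputable def M [Fintype ι] (T : Cell ι) (o : Off ι A) : ℝ := ∑' w : R.Pt T, R.wt T o w

/-- expectation (values in `ℝ` or `ℂ`) -/
noncomputable def Ex [Fintype ι] {V : Type} [NormedAddCommGroup V] [NormedSpace ℝ V]
    (T : Cell ι) (o : Off ι A) (f : R.Pt T → V) : V :=
  (R.M T o)⁻¹ • ∑' w : R.Pt T, R.wt T o w • f w

/-- total rank -/
noncomputable def rank [Fintype ι] (T : Cell ι) : ℕ :=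
  ∑ c, Module.finrank ℝ (R.E (T.lev c))

/-- generators in degree one, all products of size at most `K` -/
structure Gens (γ : Type) (K : ℝ) where
  g : γ → A
  mem : ∀ l, 1 ≤ l → l ≤ s → ∀ u : Fin l → γ, ∏ i, g (u i) ∈ R.L l
  nrm : ∀ l, 1 ≤ l → l ≤ s → ∀ u : Fin l → γ, ‖R.Q l (∏ i, g (u i))‖ ≤ K
  span : ∀ l, 1 ≤ l → l ≤ s →
    R.E l ≤ Submodule.span ℝ (Set.range fun u : Fin l → γ => ∏ i, g (u i))

/-- same ring and lattices, other windows -/
def setQ {F' : Type} [NormedAddCommGroup F'] [InnerProductSpace ℝ F'] (Q' : ℕ → A →ₗ[ℝ] F')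
    (h : ∀ l ≤ s, ∀ x ∈ R.E l, Q' l x = 0 → x = 0) : Rg s A F' where
  L := R.L
  t0 := R.t0
  Q := Q'
  lat := R.lat
  one_mem := R.one_mem
  t0_mem := R.t0_mem
  mul_mem := R.mul_mem
  inj := h

end Rg

/-- surjection of patterns; `Q` splits orthogonally as `Q0 ∘ φ ⊕ Q1` -/
structure Sur {s : ℕ} {A F A0 F0 : Type} [CommRing A] [Algebra ℝ A] [NormedAddCommGroup F]
    [InnerProductSpace ℝ F] [CommRing A0] [Algebra ℝ A0] [NormedAddCommGroup F0]
    [InnerProductSpace ℝ F0] (R : Rg s A F) (R0 : Rg s A0 F0) (F1 : Type)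
    [NormedAddCommGroup F1] [InnerProductSpace ℝ F1] where
  φ : A →ₐ[ℝ] A0
  maps : ∀ l, ∀ y ∈ R.L l, φ y ∈ R0.L l
  onto : ∀ l, ∀ y0 ∈ R0.L l, ∃ y ∈ R.L l, φ y = y0
  map_t0 : φ R.t0 = R0.t0
  Q1 : ℕ → A →ₗ[ℝ] F1
  pyth : ∀ l ≤ s, ∀ y ∈ R.E l, ‖R.Q l y‖ ^ 2 = ‖R0.Q l (φ y)‖ ^ 2 + ‖Q1 l y‖ ^ 2
  ker : ∀ l ≤ s, ∀ y ∈ R.E l, ∃ k ∈ R.E l, φ k = 0 ∧ Q1 l k = Q1 l y

namespace Sur
variable {s : ℕ} {A F A0 F0 F1 : Type} [CommRing A] [Algebra ℝ A] [NormedAddCommGroup F]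
  [InnerProductSpace ℝ F] [CommRing A0] [Algebra ℝ A0] [NormedAddCommGroup F0]
  [InnerProductSpace ℝ F0] [NormedAddCommGroup F1] [InnerProductSpace ℝ F1]
  {R : Rg s A F} {R0 : Rg s A0 F0} (S : Sur R R0 F1) {ι : Type}

/-- image of a point -/
def pt {T : Cell ι} (w : R.Pt T) : R0.Pt T := fun c => ⟨S.φ (w c), S.maps _ _ (w c).2⟩

/-- fibre weight: `wt w = wt0 (pt w) * w1 w` -/
noncomputable def w1 [Fintype ι] (T : Cell ι) (o : Off ι A) (w : R.Pt T) : ℝ :=
  Real.exp (-Real.pi * ∑ c, ‖S.Q1 (T.lev c) (R.dv T o w c)‖ ^ 2)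

/-- unnormalised fibre sum -/
noncomputable def fib [Fintype ι] {V : Type} [NormedAddCommGroup V] [NormedSpace ℝ V]
    (T : Cell ι) (o : Off ι A) (f : R.Pt T → V) (p : R0.Pt T) : V :=
  ∑' w : (S.pt (T := T)) ⁻¹' {p}, S.w1 T o w.1 • f w.1

/-- fibre mass -/
noncomputable def Z [Fintype ι] (T : Cell ι) (o : Off ι A) (p : R0.Pt T) : ℝ :=
  S.fib T o (fun _ => (1 : ℝ)) p

/-- conditional expectation given the image point -/
noncomputable def cond [Fintype ι] {V : Type} [NormedAddCommGroup V] [NormedSpace ℝ V]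
    (T : Cell ι) (o : Off ι A) (f : R.Pt T → V) (p : R0.Pt T) : V :=
  (S.Z T o p)⁻¹ • S.fib T o f p

/-- the kernel is generated in degree one by the generators marked by `κ` -/
def KGen {γ : Type} {K : ℝ} (G : R.Gens γ K) (κ : γ → Prop) : Prop :=
  (∀ j, κ j → S.φ (G.g j) = 0) ∧ ∀ l, 1 ≤ l → l ≤ s → ∀ y ∈ R.E l, S.φ y = 0 →
    y ∈ Submodule.span ℝ {x | ∃ u : Fin l → γ, (∃ i, κ (u i)) ∧ x = ∏ i, G.g (u i)}

end Sur

end Crest.Agent.T49.Rng
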