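import Crest.Agent.T49.RiDef_12
import Crest.Agent.T49.AhG_60
import Crest.Agent.T49.Lv_3
import Crest.Agent.T49.RngDef_63

/-!
# Row 49 (helper30): route D*, definitions and exact statements (finite counting form)

Frames are integer polynomial maps `W : ι → Pl σ`; `Fr T V R W` says that the coefficient of `t^m`
in `θ_c ∘ W` is at most `R / V^m`.  `fmu T V` is the ideal number of frames.
-/

set_option autoImplicit false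

noncomputable section

namespace Crest.Agent.T49.Pg

open Finset MvPolynomial Crest.Agent.T49.Tw
open Crest.Agent.T49.Ri (Gm InB mkT)
open Crest.Agent.T49.Br (rs up q3 IsQ)
open scoped Classical

/-! ### frames -/

/-- polynomial maps into the coordinates `ι` -/
abbrev FR (ι σ : Type) : Type := ι → Pl σ

/-- within `ε` of an integer -/
def NZ (ε x : ℝ) : Prop := ∃ n : ℤ, |x - n| ≤ ε

section basic
variable {ι σ σ' κ : Type}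

/-- substitution in a frame -/
def sb (φ : σ → Pl σ') (W : FR ι σ) : FR ι σ' := fun c => bind₁ φ (W c)

/-- the point of a frame at an integer position -/
def pt (W : FR ι σ) (t : σ → ℤ) (c : ι) : ℤ := ⌊ev t (W c)⌋

/-- top data of a frame -/
def top (T : Cell ι) (W : FR ι σ) : FR ι σ := fun c => homogeneousComponent (T.lev c) (W c)

/-- subtop data of the difference of two frames -/
def sbt (T : Cell ι) (W W' : FR ι σ) : FR ι σ :=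
  fun c => homogeneousComponent (T.lev c - 1) (W' c - W c)

/-- the level-one difference of two frames with the same top -/
def hv (T : Cell ι) (W W' : FR ι σ) (c : T.L1) : ℤ := ⌊coeff 0 (W' c.1 - W c.1)⌋

/-- top data of a pair -/
def td (T : Cell ι) (W W' : FR ι σ) : Br.V ι T.U2 Unit → Pl σ :=
  Sum.elim (top T W) fun p => sbt T W W' p.2.1

/-- a tuple of frames as a frame of the multi-point cell -/
def mf (T : Cell ι) {k : ℕ} (G : Fin (k + 1) → FR ι σ) : FR (T.MI (Fin k)) σ :=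
  Sum.elim (G 0) fun p => G p.1.succ p.2.1 - G 0 p.2.1

/-- the level-one differences of a tuple -/
def hk (T : Cell ι) {k : ℕ} (G : Fin (k + 1) → FR ι σ) (j : Fin k) : T.L1 → ℤ :=
  hv T (G 0) (G j.succ)

/-- the slice `s = a` of a plane -/
def sl (a : ℝ) : Option σ → Pl σ := fun o => o.elim (C a) X

/-- sides of a plane -/
def ov (w : ℝ) (V : σ → ℝ) : Option σ → ℝ := fun o => o.elim w V

/-- the line `τ ↦ a + τ u` -/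
def ln (a u : σ → ℤ) : σ → Pl Unit := fun v => C (a v : ℝ) + C (u v : ℝ) * X ()

/-- the coefficients of degree `i` in the kept variables are within `η` of integers -/
def CN (p : σ → Prop) (i : ℕ) (η : ℝ) (F : Pl σ) : Prop :=
  ∀ m : σ →₀ ℕ, m.degree = i → (∀ v ∈ m.support, p v) → NZ η (coeff m F)

/-- the gain in degree `0` -/
def wz (i : ℕ) (ε : ℝ) : ℝ := if i = 0 then ε else 1

/-- the direction cell at scale `r`: windows `r ^ lev c * θ_c^top` -/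
def dirC (T : Cell ι) (r : ℝ) (hr : 0 < r) : Cell ι where
  rk := T.rk
  a c := r ^ T.lev c * T.a c
  B c := C (r ^ T.lev c) * T.top (T.lev c) (T.B c)
  a_ne c := mul_ne_zero (pow_pos hr _).ne' (T.a_ne c)
  B_mem c := mul_mem (C_mem_supp _ _) (by
    refine mem_supported.2 fun v hv => mem_supported.1 (T.B_mem c) ?_
    obtain ⟨m, hm, hv⟩ := (mem_vars_iff_mem_support _).1 hv
    refine (mem_vars_iff_mem_support _).2 ⟨m, ?_, hv⟩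
    rw [mem_support_iff] at hm ⊢
    rw [Cell.top, coeff_weightedHomogeneousComponent] at hm
    exact fun h => hm (by rw [h, ite_self]))
  lev := T.lev
  lev_pos := T.lev_pos
  deg c m hm := by
    rw [mem_support_iff, coeff_C_mul] at hm
    exact (weightedHomogeneousComponent_isWeightedHomogeneous _ _ (right_ne_zero_of_mul hm)).le

variable [Fintype σ]

/-- `V ^ m` -/
def vp (V : σ → ℝ) (m : σ →₀ ℕ) : ℝ := ∏ v, V v ^ m v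

/-- coefficient bounds -/
def Bd (V : σ → ℝ) (R : ℝ) (p : Pl σ) : Prop := ∀ m, |coeff m p| * vp V m ≤ R

/-- frames of sides `V` in the box of radius `R` -/
structure Fr (T : Cell ι) (V : σ → ℝ) (R : ℝ) (W : FR ι σ) : Prop where
  int : ∀ c, IsInt (W c)
  deg : ∀ c, (W c).totalDegree ≤ T.lev c
  bd : ∀ c, Bd V R (bind₁ W (T.th c))

/-- monomials of degree `≤ l` -/
def mons (σ : Type) [Fintype σ] (l : ℕ) : Finset (σ →₀ ℕ) :=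
  (Finsupp.finite_of_degree_le (σ := σ) l).toFinset

theorem mem_mons {l : ℕ} {m : σ →₀ ℕ} : m ∈ mons σ l ↔ m.degree ≤ l := by simp [mons]

/-- tuples of frames with the same top data -/
def Tup (T : Cell ι) (V : σ → ℝ) (R : ℝ) {k : ℕ} (G : Fin (k + 1) → FR ι σ) : Prop :=
  ∀ j, Fr T V R (G j) ∧ top T (G j) = top T (G 0)

/-- the label `Lb` approximates `f ∘ W` on `S` -/
structure LabAt (V ε : ℝ) (i : ℕ) (f : (ι → ℤ) → κ → ℝ) (W : FR ι σ) (Lb : κ → Pl σ)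
    (S : Finset (σ → ℤ)) : Prop where
  deg : ∀ k, (Lb k).totalDegree ≤ i
  box : ∀ t ∈ S, ∀ v, |(t v : ℝ)| ≤ V
  app : ∀ t ∈ S, ∀ k, NZ ε (ev t (Lb k) - f (pt W t) k)

variable [Fintype ι]

/-- ideal number of frames -/
def fmu (T : Cell ι) (V : σ → ℝ) : ℝ := ∏ c, ∏ m ∈ mons σ (T.lev c), (|T.a c| * vp V m)⁻¹

/-- ideal number of frames with given top data -/
def gmu (T : Cell ι) (V : σ → ℝ) : ℝ := ∏ c, ∏ m ∈ mons σ (T.lev c - 1), (|T.a c| * vp V m)⁻¹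

/-- ideal number of `(k+1)`-tuples with the same top data -/
def kmu (T : Cell ι) (V : σ → ℝ) (k : ℕ) : ℝ := fmu T V * gmu T V ^ k

/-- standing hypotheses: `y` is the current loss, `x` bounds the logarithms of the sides -/
structure Std (l C : ℕ) (T : Cell ι) (V : σ → ℝ) (y x : ℝ) : Prop where
  two : 2 ≤ y
  ci : (Fintype.card ι : ℝ) ≤ y
  cs : (Fintype.card σ : ℝ) ≤ y
  yx : y ^ C ≤ x
  one : ∀ v, 1 ≤ V v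
  vx : ∀ v, V v ≤ Real.exp x
  gm : Gm T l C (x ^ C)

/-- a dense family of frames -/
structure Dn (T : Cell ι) (V : σ → ℝ) (y : ℝ) (𝓕 : Finset (FR ι σ)) : Prop where
  fr : ∀ W ∈ 𝓕, Fr T V y W
  dense : Real.exp (-y) * fmu T V ≤ #𝓕

/-- dense families have dense images -/
def Img {ι' : Type} [Fintype ι'] [Fintype σ'] (T : Cell ι) (V : σ → ℝ) (y : ℝ) (T' : Cell ι')
    (V' : σ' → ℝ) (y' : ℝ) (Φ : FR ι σ → FR ι' σ') : Prop :=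
  ∀ 𝓕, Dn T V y 𝓕 → Dn T' V' y' (𝓕.image Φ)

/-- standing hypotheses for labelled families -/
structure Sit (l C : ℕ) (T : Cell ι) (σ κ : Type) [Fintype σ] [Fintype κ] (V y x ε : ℝ) :
    Prop where
  std : Std l C T (fun _ : σ => V) y x
  ck : (Fintype.card κ : ℝ) ≤ y
  big : Real.exp (y ^ C) ≤ V
  vx : V ≤ Real.exp x
  pos : 0 < ε
  small : ε ≤ Real.exp (-y ^ C)

/-- hypothesis of PGI -/
structure Lab (T : Cell ι) (V y ε : ℝ) (i : ℕ) (f : (ι → ℤ) → κ → ℝ) (𝓕 : Finset (FR ι σ))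
    (Lb : FR ι σ → κ → Pl σ) (S : FR ι σ → Finset (σ → ℤ)) : Prop where
  dn : Dn T (fun _ => V) y 𝓕
  lab : ∀ W ∈ 𝓕, LabAt V ε i f W (Lb W) (S W)
  card : ∀ W ∈ 𝓕, Real.exp (-y) * V ^ Fintype.card σ ≤ #(S W)

/-- conclusion of PGI -/
def Out (T : Cell ι) (V y ε : ℝ) (p : σ → Prop) (i : ℕ) (𝓕 : Finset (FR ι σ))
    (Lb : FR ι σ → κ → Pl σ) : Prop :=
  ∃ (q : ℕ) (lam : κ → Pl ι) (𝓕' : Finset (FR ι σ)), 1 ≤ q ∧ (q : ℝ) ≤ Real.exp y ∧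
    (∀ k, IsWeightedHomogeneous T.lev (lam k) i) ∧ 𝓕' ⊆ 𝓕 ∧
    Real.exp (-y) * fmu T (fun _ : σ => V) ≤ #𝓕' ∧ ∀ W ∈ 𝓕', ∀ k,
      CN p i (Real.exp y * wz i ε / V ^ i) (C (q : ℝ) * Lb W k - bind₁ (top T W) (lam k))

/-- state after step (A): a dense graph of pairs with the same top data -/
structure GR (T : Cell ι) (V y ε : ℝ) (i : ℕ) (f : (ι → ℤ) → κ → ℝ)
    (Γ : Finset (FR ι σ × FR ι σ)) (Lb : FR ι σ → κ → Pl σ) (S : FR ι σ → Finset (σ → ℤ))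
    (q : ℕ) : Prop where
  fr : ∀ g ∈ Γ, Fr T (fun _ => V) y g.1 ∧ Fr T (fun _ => V) y g.2 ∧ top T g.2 = top T g.1
  dense : Real.exp (-y) * kmu T (fun _ : σ => V) 1 ≤ #Γ
  lab : ∀ g ∈ Γ, LabAt V ε i f g.1 (Lb g.1) (S g.1) ∧ LabAt V ε i f g.2 (Lb g.2) (S g.2)
  inter : ∀ g ∈ Γ, Real.exp (-y) * V ^ Fintype.card σ ≤ #(S g.1 ∩ S g.2)
  q_pos : 1 ≤ q
  q_le : (q : ℝ) ≤ Real.exp y
  cn : ∀ g ∈ Γ, ∀ k, CN (fun _ => True) i (Real.exp y * ε / V ^ i)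
    (C (q : ℝ) * (Lb g.2 k - Lb g.1 k))

/-- state after the induction hypothesis on the pair cells -/
structure St1 (T : Cell ι) (V y ε : ℝ) (p : σ → Prop) (j : ℕ) (Γ : Finset (FR ι σ × FR ι σ))
    (Lb : FR ι σ → κ → Pl σ) (H : Finset (T.L1 → ℤ)) (q : ℕ)
    (lam : (T.L1 → ℤ) → κ → Pl (Br.V ι T.U2 Unit)) : Prop where
  fr : ∀ g ∈ Γ, Fr T (fun _ => V) y g.1 ∧ Fr T (fun _ => V) y g.2 ∧ top T g.2 = top T g.1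
  mem : ∀ g ∈ Γ, hv T g.1 g.2 ∈ H
  inB : ∀ h ∈ H, InB T y h
  dense : Real.exp (-y) * T.mu1 ≤ #H
  pop : ∀ h ∈ H, Real.exp (-y) * kmu T (fun _ : σ => V) 1 ≤ T.mu1 * #{g ∈ Γ | hv T g.1 g.2 = h}
  q_pos : 1 ≤ q
  q_le : (q : ℝ) ≤ Real.exp y
  hom : ∀ h k, IsWeightedHomogeneous ((mkT T).lev Unit) (lam h k) j
  cn : ∀ g ∈ Γ, ∀ k, CN p j (Real.exp y * wz j ε / V ^ j)
    (C (q : ℝ) * (Lb g.2 k - Lb g.1 k) - bind₁ (td T g.1 g.2) (lam (hv T g.1 g.2) k))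

/-- state after step (B): many additive quadruples with a relation -/
structure StB (T : Cell ι) (y ε : ℝ) (j : ℕ) (H : Finset (T.L1 → ℤ))
    (lam : (T.L1 → ℤ) → κ → Pl (Br.V ι T.U2 Unit)) (Q : Finset (Fin 4 → T.L1 → ℤ)) (b : ℕ) :
    Prop where
  quad : ∀ q ∈ Q, IsQ H q
  dense : Real.exp (-y) * T.mu1 ^ 3 ≤ #Q
  b_pos : 1 ≤ b
  b_le : (b : ℝ) ≤ Real.exp y
  rel : ∀ q ∈ Q, ∀ k, ∃ e, IsWeightedHomogeneous ((mkT T).lev (Fin 3)) e j ∧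
    nrm e ≤ Real.exp y * wz j ε ∧
    IsInt (C (b : ℝ) * ∑ i, C (GI.sg4 i : ℝ) * aeval (rs ι T.U2 i) (lam (q i) k) -
      aeval ((mkT T).cs (q3 q)).th e)

/-- state after steps (C), (D), on the level-one vectors -/
structure StD (T : Cell ι) (y ε : ℝ) (j : ℕ) (H' : Finset (T.L1 → ℤ))
    (lam : (T.L1 → ℤ) → κ → Pl (Br.V ι T.U2 Unit)) (D r : ℕ) (β : Fin r → T.L1 → ℝ)
    (γ : κ → Pl ι) (a : T.L1 → κ → Pl ι) (b : Fin r → κ → Pl ι) (ℓ : T.U2 → κ → Pl ι) : Prop where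
  dense : Real.exp (-y) * T.mu1 ≤ #H'
  D_pos : 1 ≤ D
  D_le : (D : ℝ) ≤ Real.exp y
  r_le : (r : ℝ) ≤ y
  hγ : ∀ k, IsWeightedHomogeneous T.lev (γ k) j
  ha : ∀ c k, IsWeightedHomogeneous T.lev (a c k) j
  hb : ∀ c k, IsWeightedHomogeneous T.lev (b c k) j
  hℓ : ∀ c k m, coeff m (ℓ c k) ≠ 0 → Finsupp.weight T.lev m + T.lev c.1 = j + 1
  rel : ∀ h ∈ H', ∀ k, ∃ e, IsWeightedHomogeneous ((mkT T).lev Unit) e j ∧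
    nrm e ≤ Real.exp y * wz j ε ∧
    IsInt (C (D : ℝ) * lam h k - (aeval (up ι T.U2 Unit) (AH.brl β a b γ h k) +
      ∑ c, X (Sum.inr ((), c)) * aeval (up ι T.U2 Unit) (ℓ c k)) -
      aeval ((mkT T).cs fun _ : Unit => h).th e)

/-- state after steps (C), (D), on the frames -/
structure St2 (T : Cell ι) (V y ε : ℝ) (p : σ → Prop) (j : ℕ) (Γ : Finset (FR ι σ × FR ι σ))
    (Lb : FR ι σ → κ → Pl σ) (q r : ℕ) (β : Fin r → T.L1 → ℝ) (γ : κ → Pl ι)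
    (A : ι → κ → Pl ι) (b : Fin r → κ → Pl ι) : Prop where
  dense : Real.exp (-y) * kmu T (fun _ : σ => V) 1 ≤ #Γ
  q_pos : 1 ≤ q
  q_le : (q : ℝ) ≤ Real.exp y
  r_le : (r : ℝ) ≤ y
  hγ : ∀ k, IsWeightedHomogeneous T.lev (γ k) j
  hb : ∀ c k, IsWeightedHomogeneous T.lev (b c k) j
  hA : ∀ c k m, coeff m (A c k) ≠ 0 → Finsupp.weight T.lev m + T.lev c = j + 1
  cn : ∀ g ∈ Γ, ∀ k, CN p j (Real.exp y * wz j ε / V ^ j)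
    (C (q : ℝ) * (Lb g.2 k - Lb g.1 k) - (bind₁ (top T g.1) (γ k) +
      ∑ c, bind₁ (top T g.1) (A c k) * sbt T g.1 g.2 c +
      ∑ a, C (⌊∑ c, β a c * hv T g.1 g.2 c⌋ : ℝ) * bind₁ (top T g.1) (b a k)))

/-- the frame structure of the level loop over a finite set of frames -/
def lvF (T : Cell ι) (L V : ℝ) (hL : 0 < L) (hV : 0 < V) (𝓑 : Finset (FR ι σ)) :
    Lv.Fr (FR ι σ) σ ι (ι → ℝ) where
  mu P := #{W ∈ 𝓑 | P W} / fmu T fun _ : σ => L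
  lev := T.lev
  top := top T
  pt W u c := aeval (fun v => (u v : ℝ)) (top T W c)
  V := V
  mono P Q h := div_le_div_of_nonneg_right
    (Nat.cast_le.2 (card_le_card fun W hW => by
      rw [mem_filter] at hW ⊢; exact ⟨hW.1, h W hW.2⟩))
    (prod_nonneg fun c _ => prod_nonneg fun m _ => inv_nonneg.2
      (mul_nonneg (abs_nonneg _) (prod_nonneg fun v _ => pow_nonneg hL.le _)))
  add P Q := by
    rw [← add_div]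
    refine div_le_div_of_nonneg_right ?_
      (prod_nonneg fun c _ => prod_nonneg fun m _ => inv_nonneg.2
        (mul_nonneg (abs_nonneg _) (prod_nonneg fun v _ => pow_nonneg hL.le _)))
    have h : ({W ∈ 𝓑 | P W ∨ Q W} : Finset _) ⊆ {W ∈ 𝓑 | P W} ∪ {W ∈ 𝓑 | Q W} := fun W hW => by
      simp only [mem_filter, mem_union] at hW ⊢
      tauto
    have h2 := (card_le_card h).trans (card_union_le _ _)
    convert (Nat.cast_le (α := ℝ)).2 h2 using 1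
    · congr!
    · push_cast; congr!
  zero := by simp
  hom W c := homogeneousComponent_isHomogeneous _ _
  hpt W W' u u' h c := congrFun h c
  V_pos := hV

end basic

/-- subspace patterns: `J`-tuples of polynomials whose coefficient vectors lie in `U l m` -/
structure SP (J σ : Type) (s : ℕ) where
  U : ℕ → (σ →₀ ℕ) → Submodule ℝ (J → ℝ)
  t0 : Pl σ
  bot : ∀ l m, l < m.degree → U l m = ⊥
  one : (1 : J → ℝ) ∈ U 0 0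
  t0_mem : ∀ m, (fun _ => coeff m t0) ∈ U 1 m
  mul : ∀ l l' m m', l + l' ≤ s → ∀ u ∈ U l m, ∀ u' ∈ U l' m', u * u' ∈ U (l + l') (m + m')
  gen : ∀ l, 1 ≤ l → l ≤ s → ∀ m, U l m ≤ Submodule.span ℝ
    {u | ∃ (μ : Fin l → σ →₀ ℕ) (g : Fin l → J → ℤ), ∑ i, μ i = m ∧
      (∀ i, (fun j => (g i j : ℝ)) ∈ U 1 (μ i)) ∧ (∀ i j, |g i j| ≤ 1) ∧
      u = fun j => ∏ i, (g i j : ℝ)}

/-! ### measure leaves -/

/-- (SP) upper count for subspace patterns -/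
def SpStmt : Prop := ∀ l k : ℕ, ∃ C₁ : ℕ, 1 ≤ C₁ ∧ ∀ (ι σ J : Type) [Fintype ι] [Fintype σ]
  [Fintype J] (T : Cell ι) (V : σ → ℝ) (y x : ℝ) (P : SP J σ l) (𝓖 : Finset (J → FR ι σ)),
  Fintype.card J ≤ k → Std l C₁ T V y x →
  (∀ G ∈ 𝓖, (∀ j c, IsInt (G j c)) ∧ (∀ c m, (fun j => coeff m (G j c)) ∈ P.U (T.lev c) m) ∧
    ∀ j c, Bd V y (Rng.hev T.lev P.t0 (G j) (T.lev c) (T.th c))) →
  (#𝓖 : ℝ) ≤ Real.exp (y ^ C₁) * ∏ c, ∏ m ∈ mons σ (T.lev c),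
    (|T.a c| * vp V m)⁻¹ ^ Module.finrank ℝ (P.U (T.lev c) m)

/-- (UP) tuples with the same top data; (TUP) their level-one differences and directions -/
def TupStmt : Prop := ∀ l k : ℕ, ∃ C₁ : ℕ, 1 ≤ C₁ ∧ ∀ (ι σ : Type) [Fintype ι] [Fintype σ]
  (T : Cell ι) (V : σ → ℝ) (y x : ℝ) (𝓖 : Finset (Fin (k + 1) → FR ι σ)), Std l C₁ T V y x →
  (∀ G ∈ 𝓖, Tup T V y G) →
  (#𝓖 : ℝ) ≤ Real.exp (y ^ C₁) * kmu T V k ∧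
  (#𝓖 : ℝ) ^ 2 * T.mu1 ^ k ≤ Real.exp (y ^ C₁) * kmu T V k ^ 2 * #(𝓖.image (hk T)) ∧
  ∀ (v : σ) (hV : 0 < V v) (h₀ : Fin k → T.L1 → ℤ),
    (#𝓖 : ℝ) ^ 2 * (T.mu1 ^ k * (dirC (T.mp h₀) (V v) hV).mu) ≤ Real.exp (y ^ C₁) * kmu T V k ^ 2 *
      #(𝓖.image fun G => (hk T G, pt (top (T.mp h₀) (mf T G)) (Pi.single v 1)))

/-- (DIR) directions of a dense family are dense in the direction cell -/
def DirStmt : Prop := ∀ l : ℕ, ∃ C₁ : ℕ, 1 ≤ C₁ ∧ ∀ (ι σ : Type) [Fintype ι] [Fintype σ]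
  (T : Cell ι) (V : σ → ℝ) (y x : ℝ) (𝓕 : Finset (FR ι σ)) (v : σ) (hV : 0 < V v),
  Std l C₁ T V y x → (∀ W ∈ 𝓕, Fr T V y W) →
  (#𝓕 : ℝ) ^ 2 * (dirC T (V v) hV).mu ≤ Real.exp (y ^ C₁) * fmu T V ^ 2 *
    #(𝓕.image fun W => pt (top T W) (Pi.single v 1))

/-- (KILL) killing variables -/
def KillStmt : Prop := ∀ l k : ℕ, ∃ C₁ : ℕ, 1 ≤ C₁ ∧ ∀ (ι σ σ' : Type) [Fintype ι] [Fintype σ]
  [Fintype σ'] (T : Cell ι) (V : σ → ℝ) (y x : ℝ) (j : σ' → σ) (φ : σ → Pl σ'),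
  Function.Injective j → (∀ v, φ (j v) = X v) → (∀ v, v ∉ Set.range j → φ v = 0) →
  Std l C₁ T V y x → Img T V y T (V ∘ j) (y ^ C₁) (sb φ) ∧
    ∀ 𝓖 : Finset (Fin (k + 1) → FR ι σ), (∀ G ∈ 𝓖, ∀ i, Fr T V y (G i) ∧ sb φ (G i) = sb φ (G 0)) →
      (#𝓖 : ℝ) * fmu T (V ∘ j) ^ k ≤ Real.exp (y ^ C₁) * fmu T V ^ (k + 1)

/-- (QUAD) the second slices of two planes with the same first slice form a natural pair -/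
def QuadStmt : Prop := ∀ l : ℕ, ∃ C₁ : ℕ, 1 ≤ C₁ ∧ ∀ (ι σ : Type) [Fintype ι] [Fintype σ]
  (T : Cell ι) (V : σ → ℝ) (y x : ℝ) (𝓐 : Finset (FR ι (Option σ) × FR ι (Option σ))),
  Std l C₁ T V y x →
  (∀ g ∈ 𝓐, Fr T (ov 1 V) y g.1 ∧ Fr T (ov 1 V) y g.2 ∧ sb (sl 0) g.1 = sb (sl 0) g.2) →
  (#𝓐 : ℝ) ^ 2 * (fmu T V ^ 2 * kmu T V 1) ≤ Real.exp (y ^ C₁) * fmu T (ov 1 V) ^ 4 *
    #(𝓐.image fun g => (sb (sl 1) g.1, sb (sl 1) g.2))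

/-- (DOM) two variables are replaced by a generic direction -/
def DomStmt : Prop := ∀ l : ℕ, ∃ C₁ : ℕ, 1 ≤ C₁ ∧ ∀ (ι σ σ' : Type) [Fintype ι] [Fintype σ]
  [Fintype σ'] (T : Cell ι) (V : σ → ℝ) (V' : σ' → ℝ) (y x : ℝ) (j : σ' → σ) (τ : σ') (w : σ)
  (p r : ℤ) (φ : σ → Pl σ'), Function.Injective j → (∀ v, v ∈ Set.range j ↔ v ≠ w) →
  φ (j τ) = C (p : ℝ) * X τ → φ w = C (r : ℝ) * X τ → (∀ v, v ≠ τ → φ (j v) = X v) →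
  V w = V (j τ) → (∀ v, v ≠ τ → V' v = V (j v)) → 1 ≤ V' τ →
  V' τ * max |(p : ℝ)| |(r : ℝ)| ≤ V w → V w ≤ Real.exp y * (V' τ * max |(p : ℝ)| |(r : ℝ)|) →
  (Int.gcd p r : ℝ) ≤ Real.exp y → Std l C₁ T V y x → Img T V y T V' (y ^ C₁) (sb φ)

/-- (AFF) injective affine substitutions, changes of sides, renamings (no regularity) -/
def AffStmt : Prop := ∀ l : ℕ, ∃ C₁ : ℕ, 1 ≤ C₁ ∧ ∀ (ι σ σ' : Type) [Fintype ι] [Fintype σ]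
  [Fintype σ'] (T : Cell ι) (V : σ → ℝ) (V' : σ' → ℝ) (y : ℝ) (φ : σ → Pl σ'), 2 ≤ y →
  (Fintype.card ι : ℝ) ≤ y → (Fintype.card σ : ℝ) ≤ y → (Fintype.card σ' : ℝ) ≤ y →
  (∀ c, T.lev c ≤ l) → (∀ v, 0 < V v) → (∀ v, 0 < V' v) → (∀ v, IsInt (φ v)) →
  (∀ v, (φ v).totalDegree ≤ 1) → (∀ v, Bd V' (y * V v) (φ v)) →
  (∀ (d : ℕ) (R : ℝ) (F : Pl σ), d ≤ l → F.totalDegree ≤ d → Bd V R F →
    Bd V' (y ^ C₁ * R) (bind₁ φ F)) ∧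
  (∀ W, Fr T V y W → Fr T V' (y ^ C₁) (sb φ W)) ∧
  ∀ e : σ ≃ σ', (∀ v, V v ≤ Real.exp y * V' (e v)) →
    fmu T V' ≤ Real.exp (y ^ C₁) * fmu T V ∧ kmu T V' 1 ≤ Real.exp (y ^ C₁) * kmu T V 1 ∧
    (Function.Injective (bind₁ φ : Pl σ → Pl σ') → Img T V y T V' (y ^ C₁) (sb φ))

/-- (AFD) affine frames of the direction cell -/
def AfdStmt : Prop := ∀ l : ℕ, ∃ C₁ : ℕ, 1 ≤ C₁ ∧ ∀ (ι σ σ' : Type) [Fintype ι] [Fintype σ]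
  [Fintype σ'] (T : Cell ι) (L V y x : ℝ) (hr : 0 < L / V) (j : σ' → σ) (v₁ v₂ : σ) (p r : ℤ)
  (φ : σ → Pl σ'), Function.Injective j → v₁ ≠ v₂ → (∀ v, v ∈ Set.range j ↔ v ≠ v₁ ∧ v ≠ v₂) →
  φ v₁ = C (p : ℝ) → φ v₂ = C (r : ℝ) → (∀ v, φ (j v) = X v) → 1 ≤ V → V ≤ L →
  max |(p : ℝ)| |(r : ℝ)| ≤ V → V ≤ Real.exp y * max |(p : ℝ)| |(r : ℝ)| →
  (Int.gcd p r : ℝ) ≤ Real.exp y → Std l C₁ T (fun _ : σ => L) y x →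
  Img T (fun _ : σ => L) y (dirC T (L / V) hr) (fun _ : σ' => V) (y ^ C₁) fun W => sb φ (top T W)

/-- (PLANE) planes through two of the variables; `σ'` may omit further variables, which are
frozen at `a`; `g P` and `g` are the steps -/
def PlStmt : Prop := ∀ l : ℕ, ∃ C₁ : ℕ, 1 ≤ C₁ ∧ ∀ (ι σ σ' : Type) [Fintype ι] [Fintype σ]
  [Fintype σ'] (T : Cell ι) (V y x : ℝ) (j : σ' → σ) (v₁ v₂ : σ) (a : σ → ℤ) (g P : ℤ)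
  (φ : σ → Pl (Option σ')), Function.Injective j → v₁ ≠ v₂ → v₁ ∉ Set.range j → v₂ ∉ Set.range j →
  φ v₁ = C (a v₁ : ℝ) + C (g * P : ℝ) * X none → φ v₂ = C (a v₂ : ℝ) + C (g : ℝ) * X none →
  (∀ v, φ (j v) = X (some v)) → (∀ v, v ∉ Set.range j → v ≠ v₁ → v ≠ v₂ → φ v = C (a v : ℝ)) →
  (∀ v, |(a v : ℝ)| ≤ V) → g ≠ 0 → |(g : ℝ)| ≤ Real.exp y → 1 ≤ P → |(g : ℝ)| * P ≤ V →
  V ≤ Real.exp y * P → Std l C₁ T (fun _ : σ => V) y x →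
  Img T (fun _ : σ => V) y T (ov 1 fun _ : σ' => V) (y ^ C₁) (sb φ)

/-- (PLANE-T) planes spanned by a generic direction `u` and a step in two further variables -/
def PlTStmt : Prop := ∀ l : ℕ, ∃ C₁ : ℕ, 1 ≤ C₁ ∧ ∀ (ι σ : Type) [Fintype ι] [Fintype σ]
  (T : Cell ι) (L L₁ V y x : ℝ) (v : Fin 4 → σ) (a u w : σ → ℤ) (g P : ℤ),
  Function.Injective v → w (v 2) = g * P → w (v 3) = g → (∀ t, t ≠ v 2 → t ≠ v 3 → w t = 0) →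
  (∀ t, |(a t : ℝ)| ≤ L) → (∀ t, |(u t : ℝ)| ≤ V) → 1 ≤ L₁ → V * L₁ ≤ L →
  L ≤ Real.exp y * (V * L₁) → V ≤ Real.exp y * max |(u (v 0) : ℝ)| |(u (v 1) : ℝ)| →
  (Int.gcd (u (v 0)) (u (v 1)) : ℝ) ≤ Real.exp y → g ≠ 0 → |(g : ℝ)| ≤ Real.exp y → 1 ≤ P →
  |(g : ℝ)| * P ≤ L → L ≤ Real.exp y * P → Std l C₁ T (fun _ : σ => L) y x →
  Img T (fun _ : σ => L) y T (ov 1 fun _ : Unit => L₁) (y ^ C₁)
    (sb fun t => C (a t : ℝ) + C (u t : ℝ) * X (some ()) + C (w t : ℝ) * X none)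

/-- direction cells are regular; (SMALL) in counting form -/
def SmStmt : Prop :=
  (∀ (ι : Type) (T : Cell ι) (r : ℝ) (hr : 0 < r) (c : ι),
    (dirC T r hr).th c = C (r ^ T.lev c) * T.tth c ∧
      (dirC T r hr).tth c = C (r ^ T.lev c) * T.tth c) ∧
  (∀ l C' : ℕ, ∃ C₁ : ℕ, 1 ≤ C₁ ∧ ∀ (ι : Type) [Fintype ι] (T : Cell ι) (x r : ℝ) (hr : 0 < r),
    2 ≤ x → (Fintype.card ι : ℝ) ≤ x → Gm T l C₁ (x ^ C₁) → 1 ≤ r → r ≤ Real.exp x →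
    Gm (dirC T r hr) l C' (x ^ C')) ∧
  ∀ l d : ℕ, ∃ C₁ : ℕ, 1 ≤ C₁ ∧ ∀ (ι κ : Type) [Fintype ι] [Fintype κ] (T : Cell ι)
    (y x r ε : ℝ) (hr : 0 < r) (G : κ → Pl ι) (E : Finset (ι → ℤ)), 2 ≤ y →
    (Fintype.card ι : ℝ) ≤ y → (Fintype.card κ : ℝ) ≤ y → y ^ C₁ ≤ x → Gm T l C₁ (x ^ C₁) → 1 ≤ r →
    r ≤ Real.exp x → 0 < ε → ε ≤ Real.exp (-y ^ C₁) →
    (∀ k, IsWeightedHomogeneous T.lev (G k) d) →
    (∀ z ∈ E, ∀ c, |ev z (T.tth c)| * r ^ T.lev c ≤ y) →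
    Real.exp (-y) * (dirC T r hr).mu ≤ #E → (∀ z ∈ E, ∀ k, NZ ε (ev z (G k))) →
    ∃ b : ℕ, 1 ≤ b ∧ (b : ℝ) ≤ Real.exp (y ^ C₁) ∧ ∀ k, ∃ e, IsWeightedHomogeneous T.lev e d ∧
      nrm e ≤ Real.exp (y ^ C₁) * ε * r ^ d ∧ IsInt (C (b : ℝ) * G k - T.TTh e)

/-- (MF) algebra of frames, of top data and of tuples (no regularity) -/
def MfStmt : Prop := ∀ l k : ℕ, ∃ C₁ : ℕ, 1 ≤ C₁ ∧ ∀ (ι σ : Type) [Fintype ι] [Fintype σ]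
  (T : Cell ι) (V : σ → ℝ) (y : ℝ), 2 ≤ y → (Fintype.card ι : ℝ) ≤ y → (Fintype.card σ : ℝ) ≤ y →
  (∀ c, T.lev c ≤ l) → (∀ v, 0 < V v) →
  (∀ W : FR ι σ, (∀ c, (W c).totalDegree ≤ T.lev c) → ∀ c,
    bind₁ (top T W) (T.tth c) = homogeneousComponent (T.lev c) (bind₁ W (T.th c))) ∧
  (∀ (τ : Type) (w : τ → ℕ) (Θ : τ → Pl σ) (e : Pl τ) (d : ℕ), d ≤ l → (∀ c, 0 < w c) →
    (∀ c, Bd V y (Θ c)) → (∀ c, (Θ c).totalDegree ≤ w c) → IsWeightedHomogeneous w e d →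
    Bd V (y ^ C₁ * nrm e) (bind₁ Θ e)) ∧
  (∀ h : Fin k → T.L1 → ℤ, fmu (T.mp h) V * T.mu1 ^ k ≤ Real.exp (y ^ C₁) * kmu T V k ∧
    kmu T V k ≤ Real.exp (y ^ C₁) * (fmu (T.mp h) V * T.mu1 ^ k)) ∧
  (∀ G G' : Fin (k + 1) → FR ι σ, Tup T V y G → Tup T V y G' → hk T G = hk T G' →
    mf T G = mf T G' → G = G') ∧
  ∀ G : Fin (k + 1) → FR ι σ, Tup T V y G → Fr (T.mp (hk T G)) V (y ^ C₁) (mf T G) ∧
    (∀ j, InB T (2 * y) (hk T G j)) ∧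
    (∀ j (c : T.L1), G j.succ c.1 - G 0 c.1 = C (hk T G j c : ℝ)) ∧
    (∀ i t, T.pt (hk T G) i (pt (mf T G) t) = pt (G i) t) ∧
    ∀ j (c : T.U2), bind₁ (top (T.mp (hk T G)) (mf T G)) (T.tn (hk T G) (Sum.inr (j, c))) =
      homogeneousComponent (T.lev c.1 - 1)
        (bind₁ (G j.succ) (T.th c.1) - bind₁ (G 0) (T.th c.1))

/-! ### combinatorial leaves -/

/-- (PULL) representatives and popular fibres; (REF) one left vertex per class -/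
def PullStmt : Prop :=
  (∀ (I B X : Type) [Nonempty I] (𝓘 : Finset I) (π : I → B) (S : I → Finset X) (B₀ : Finset X)
    (δ M : ℝ), 0 < δ → δ ≤ 1 → (#(𝓘.image π) : ℝ) ≤ M →
    (∀ ω ∈ 𝓘, S ω ⊆ B₀ ∧ δ * #B₀ ≤ #(S ω)) →
    ∃ 𝓘' ⊆ 𝓘, ∃ ρ : B → I, δ ^ 2 / 4 * #𝓘 ≤ #𝓘' ∧ ∀ ω ∈ 𝓘', ρ (π ω) ∈ 𝓘 ∧ π (ρ (π ω)) = π ω ∧
      δ ^ 2 / 2 * #B₀ ≤ #(S ω ∩ S (ρ (π ω))) ∧ δ ^ 2 / 4 * #𝓘 ≤ M * #{ω' ∈ 𝓘' | π ω' = π ω}) ∧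
  ∀ (A B : Type) [Nonempty A] (𝓑 : Finset A) (tp : A → B) (Γ : Finset (A × A)),
    (∀ g ∈ Γ, g.1 ∈ 𝓑 ∧ g.2 ∈ 𝓑 ∧ tp g.2 = tp g.1) →
    ∃ (ρ : B → A) (𝓡 : Finset A), (∀ a ∈ 𝓡, (ρ (tp a), a) ∈ Γ) ∧
      #Γ ^ 2 ≤ #𝓡 * #{G ∈ Fintype.piFinset fun _ : Fin 3 => 𝓑 | ∀ j, tp (G j) = tp (G 0)}

/-- (ARR) arrays of two planes over a common slice -/
def ArrStmt : Prop := ∀ l : ℕ, ∃ C₁ : ℕ, 1 ≤ C₁ ∧ ∀ (ι σ X : Type) [Fintype ι] [Fintype σ]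
  (T : Cell ι) (V : σ → ℝ) (y x : ℝ) (𝓟 : Finset (FR ι (Option σ))) (B₀ : Finset X)
  (S₀ S₁ : FR ι (Option σ) → Finset X), Std l C₁ T V y x → Dn T (ov 1 V) y 𝓟 → B₀.Nonempty →
  (∀ P ∈ 𝓟, S₀ P ⊆ B₀ ∧ S₁ P ⊆ B₀ ∧ Real.exp (-y) * #B₀ ≤ #(S₀ P) ∧
    Real.exp (-y) * #B₀ ≤ #(S₁ P)) →
  ∃ 𝓐 ⊆ 𝓟 ×ˢ 𝓟, Real.exp (-y ^ C₁) * kmu T V 1 ≤
      #(𝓐.image fun g => (sb (sl 1) g.1, sb (sl 1) g.2)) ∧
    ∀ g ∈ 𝓐, sb (sl 0) g.1 = sb (sl 0) g.2 ∧ Real.exp (-y ^ C₁) * #B₀ ≤ #(S₀ g.1 ∩ S₀ g.2) ∧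
      Real.exp (-y ^ C₁) * #B₀ ≤ #(S₁ g.1 ∩ S₁ g.2)

/-- (TREF) one reference per top datum -/
def TrefStmt : Prop := ∀ l C₀ : ℕ, ∃ C₁ : ℕ, 1 ≤ C₁ ∧ ∀ (ι σ I : Type) [Fintype ι] [Fintype σ]
  (T : Cell ι) (V : σ → ℝ) (y x N : ℝ) (𝓘 : Finset I) (pl : I → FR ι (Option σ))
  (E : FR ι σ → FR ι σ → Prop), Std l C₁ T V y x → 0 < N → Real.exp (-y) * N ≤ #𝓘 →
  (∀ ω ∈ 𝓘, Fr T (ov 1 V) y (pl ω) ∧ E (sb (sl 0) (pl ω)) (sb (sl 1) (pl ω))) →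
  (∀ y', y ≤ y' → y' ≤ y ^ C₁ → ∀ 𝓘' ⊆ 𝓘, Real.exp (-y') * N ≤ #𝓘' →
    Real.exp (-y' ^ C₀) * fmu T (ov 1 V) ≤ #(𝓘'.image pl)) →
  ∃ (ρ : FR ι σ → FR ι σ), ∃ 𝓘' ⊆ 𝓘, Real.exp (-y ^ C₁) * N ≤ #𝓘' ∧ ∀ ω ∈ 𝓘', ∃ A,
    E A (sb (sl 1) (pl ω)) ∧ E A (ρ (top T (sb (sl 1) (pl ω))))

/-- (TOPREF) the reference of a line depends on its top data only -/
def TopRefStmt : Prop := ∀ l : ℕ, ∃ C₁ : ℕ, 1 ≤ C₁ ∧ ∀ (ι σ : Type) [Fintype ι] [Fintype σ]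
  (T : Cell ι) (L L₁ V y x : ℝ) (𝓘 : Finset (FR ι σ × (σ → ℤ) × (σ → ℤ)))
  (R : FR ι Unit → FR ι σ → (σ → ℤ) → Prop), 4 ≤ Fintype.card σ →
  Std l C₁ T (fun _ : σ => L) y x → Real.exp (y ^ C₁) ≤ V → 1 ≤ L₁ → V * L₁ ≤ L →
  L ≤ Real.exp y * (V * L₁) →
  (∀ ω ∈ 𝓘, Fr T (fun _ => L) y ω.1 ∧ (∀ v, |(ω.2.1 v : ℝ)| ≤ L) ∧ (∀ v, |(ω.2.2 v : ℝ)| ≤ V) ∧
    R (sb (ln ω.2.1 ω.2.2) ω.1) ω.1 ω.2.2) →
  Real.exp (-y) * (fmu T (fun _ : σ => L) * (L * V) ^ Fintype.card σ) ≤ #𝓘 →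
  ∃ (ρ : (ι → ℝ) → FR ι Unit) (𝓙 : Finset (FR ι σ × (σ → ℤ))),
    Real.exp (-y ^ C₁) * (fmu T (fun _ : σ => L) * V ^ Fintype.card σ) ≤ #𝓙 ∧
    ∀ g ∈ 𝓙, (∃ a, (g.1, a, g.2) ∈ 𝓘) ∧ ∃ ℓ A, R ℓ g.1 g.2 ∧ (∃ W u, R A W u ∧ R ℓ W u) ∧
      ∃ W u, R A W u ∧ R (ρ fun c => aeval (fun v => (g.2 v : ℝ)) (top T g.1 c)) W u

/-- **PGI** in degree `i` -/
def PGI (l i : ℕ) : Prop := ∃ C₁ : ℕ, 1 ≤ C₁ ∧ ∀ (ι σ κ : Type) [Fintype ι] [Fintype σ] [Fintype κ]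
  (T : Cell ι) (p : σ → Prop) (V y x ε : ℝ) (f : (ι → ℤ) → κ → ℝ) (𝓕 : Finset (FR ι σ))
  (Lb : FR ι σ → κ → Pl σ) (S : FR ι σ → Finset (σ → ℤ)), Sit l C₁ T σ κ V y x ε → (∃ v, p v) →
  2 * (i + 1) ≤ #{v | ¬ p v} → Lab T V y ε i f 𝓕 Lb S → Out T V (y ^ C₁) ε p i 𝓕 Lb

/-- (BASE) -/
def BaseStmt : Prop := ∀ l, PGI l 0

/-- (A) arrays: from frames to a graph on slices, with pull-back -/
def StepAStmt : Prop := ∀ l i : ℕ, ∃ C₁ : ℕ, 1 ≤ C₁ ∧ ∀ (ι σ σ' κ : Type) [Fintype ι] [Fintype σ]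
  [Fintype σ'] [Fintype κ] (T : Cell ι) (V y x ε : ℝ) (f : (ι → ℤ) → κ → ℝ)
  (𝓕 : Finset (FR ι σ)) (Lb : FR ι σ → κ → Pl σ) (S : FR ι σ → Finset (σ → ℤ)) (j : σ' → σ)
  (v₁ v₂ : σ), Function.Injective j → v₁ ≠ v₂ → (∀ v, v ∈ Set.range j ↔ v ≠ v₁ ∧ v ≠ v₂) →
  Sit l C₁ T σ κ V y x ε → Lab T V y ε i f 𝓕 Lb S →
  ∃ (φ : σ → Pl σ') (Γ : Finset (FR ι σ' × FR ι σ')) (Lb' : FR ι σ' → κ → Pl σ')
    (S' : FR ι σ' → Finset (σ' → ℤ)) (q : ℕ), (∀ v, φ (j v) = X v) ∧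
    (∃ a b : ℝ, φ v₁ = C a ∧ φ v₂ = C b) ∧ GR T V (y ^ C₁) ε i f Γ Lb' S' q ∧
    ∀ 𝓡 ⊆ Γ.image Prod.snd, ∃ 𝓕' ⊆ 𝓕,
      Real.exp (-y ^ C₁) * (#𝓡 * fmu T fun _ : σ => V) ≤ #𝓕' * fmu T (fun _ : σ' => V) ∧
      ∀ W ∈ 𝓕', sb φ W ∈ 𝓡 ∧ ∀ k, CN (fun _ => True) i (Real.exp (y ^ C₁) * ε / V ^ i)
        (C (q : ℝ) * (Lb' (sb φ W) k - bind₁ φ (Lb W k)))

/-- (A2) the induction hypothesis on the pair cells -/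
def StepA2Stmt : Prop := ∀ l j : ℕ, PGI l j → ∃ C₁ : ℕ, 1 ≤ C₁ ∧ ∀ (ι σ κ : Type) [Fintype ι]
  [Fintype σ] [Fintype κ] (T : Cell ι) (p : σ → Prop) (V y x ε : ℝ) (f : (ι → ℤ) → κ → ℝ)
  (Γ : Finset (FR ι σ × FR ι σ)) (Lb : FR ι σ → κ → Pl σ) (S : FR ι σ → Finset (σ → ℤ)) (q : ℕ),
  Sit l C₁ T σ κ V y x ε → (∃ v, p v) → 2 * (j + 1) ≤ #{v | ¬ p v} →
  GR T V y ε (j + 1) f Γ Lb S q →
  ∃ Γ' ⊆ Γ, ∃ H q' lam, St1 T V (y ^ C₁) ε p j Γ' Lb H q' lam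

/-- (B) four-cycles -/
def StepBStmt : Prop := ∀ l j : ℕ, ∃ C₁ : ℕ, 1 ≤ C₁ ∧ ∀ (ι σ κ : Type) [Fintype ι]
  [Fintype σ] [Fintype κ] (T : Cell ι) (p : σ → Prop) (V y x ε : ℝ)
  (Γ : Finset (FR ι σ × FR ι σ)) (Lb : FR ι σ → κ → Pl σ) (H : Finset (T.L1 → ℤ)) (q : ℕ)
  (lam : (T.L1 → ℤ) → κ → Pl (Br.V ι T.U2 Unit)), Sit l C₁ T σ κ V y x ε → (∃ v, p v) →
  St1 T V y ε p j Γ Lb H q lam → ∃ Q b, StB T (y ^ C₁) ε j H lam Q b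

/-- (C) gauge and (D) approximate homomorphisms -/
def StepCDStmt : Prop := ∀ l j : ℕ, ∃ C₁ : ℕ, 1 ≤ C₁ ∧ ∀ (ι κ : Type) [Fintype ι] [Fintype κ]
  (T : Cell ι) (y x ε : ℝ) (H : Finset (T.L1 → ℤ))
  (lam : (T.L1 → ℤ) → κ → Pl (Br.V ι T.U2 Unit)) (Q : Finset (Fin 4 → T.L1 → ℤ)) (b : ℕ),
  2 ≤ y → (Fintype.card ι : ℝ) ≤ y → (Fintype.card κ : ℝ) ≤ y → y ^ C₁ ≤ x → Gm T l C₁ (x ^ C₁) →
  0 < ε → ε ≤ Real.exp (-y ^ C₁) → (∀ h ∈ H, InB T y h) →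
  (∀ h k, IsWeightedHomogeneous ((mkT T).lev Unit) (lam h k) j) → StB T y ε j H lam Q b →
  ∃ H' ⊆ H, ∃ D r β γ a b' ℓ, StD T (y ^ C₁) ε j H' lam D r β γ a b' ℓ

/-- (TR) back to the frames -/
def StepTrStmt : Prop := ∀ l j : ℕ, ∃ C₁ : ℕ, 1 ≤ C₁ ∧ ∀ (ι σ κ : Type) [Fintype ι]
  [Fintype σ] [Fintype κ] (T : Cell ι) (p : σ → Prop) (V y x ε : ℝ)
  (Γ : Finset (FR ι σ × FR ι σ)) (Lb : FR ι σ → κ → Pl σ) (H H' : Finset (T.L1 → ℤ)) (q : ℕ)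
  (lam : (T.L1 → ℤ) → κ → Pl (Br.V ι T.U2 Unit)) (D r : ℕ) (β : Fin r → T.L1 → ℝ) γ a b ℓ,
  Sit l C₁ T σ κ V y x ε → St1 T V y ε p j Γ Lb H q lam → H' ⊆ H →
  StD T y ε j H' lam D r β γ a b ℓ →
  ∃ Γ' ⊆ Γ, ∃ q' A, St2 T V (y ^ C₁) ε p j Γ' Lb q' r β γ A b

/-- (E) translates, (F) line lemma, (G) Euler -/
def StepEStmt : Prop := ∀ l j : ℕ, ∃ C₁ : ℕ, 1 ≤ C₁ ∧ ∀ (ι σ κ : Type) [Fintype ι]
  [Fintype σ] [Fintype κ] (T : Cell ι) (p : σ → Prop) (V y x ε : ℝ) (f : (ι → ℤ) → κ → ℝ)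
  (Γ Γ' : Finset (FR ι σ × FR ι σ)) (Lb : FR ι σ → κ → Pl σ) (S : FR ι σ → Finset (σ → ℤ))
  (q q' r : ℕ) (β : Fin r → T.L1 → ℝ) γ A b, Sit l C₁ T σ κ V y x ε → (∃ v, p v) →
  GR T V y ε (j + 1) f Γ Lb S q → Γ' ⊆ Γ → St2 T V y ε p j Γ' Lb q' r β γ A b →
  Out T V (y ^ C₁) ε p (j + 1) (Γ.image Prod.snd) Lb

/-- (HP) the oracle of the level loop -/
def HpStmt : Prop := ∀ l D a : ℕ, 1 ≤ a → 3 * a + 5 ≤ D → ∃ C₁ : ℕ, 1 ≤ C₁ ∧ ∀ (ι σ : Type)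
  [Fintype ι] [Fintype σ] (T : Cell ι) (L V y x : ℝ) (hL : 0 < L) (hV : 0 < V)
  (𝓑 : Finset (FR ι σ)), Fintype.card σ = D → Std l C₁ T (fun _ : σ => L) y x →
  Real.exp (y ^ C₁) ≤ V → V ≤ L → (∀ W ∈ 𝓑, Fr T (fun _ => L) y W) →
  (lvF T L V hL hV 𝓑).HP a y (y ^ C₁)

/-! ### monotonicity -/

section mono
variable {ι σ κ : Type} [Fintype ι] [Fintype σ] {T : Cell ι}

theorem NZ.mono {ε ε' x : ℝ} (h : NZ ε x) (hε : ε ≤ ε') : NZ ε' x := h.imp fun _ hn => hn.trans hε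

omit [Fintype σ] in
theorem CN.mono {p p' : σ → Prop} {i : ℕ} {η η' : ℝ} {F : Pl σ} (h : CN p i η F) (hη : η ≤ η')
    (hp : ∀ v, p' v → p v) : CN p' i η' F :=
  fun m h1 h2 => (h m h1 fun v hv => hp v (h2 v hv)).mono hη

theorem Bd.mono {V : σ → ℝ} {R R' : ℝ} {F : Pl σ} (h : Bd V R F) (hR : R ≤ R') : Bd V R' F :=
  fun m => (h m).trans hR

omit [Fintype ι] in
theorem Fr.mono {V : σ → ℝ} {R R' : ℝ} {W : FR ι σ} (h : Fr T V R W) (hR : R ≤ R') :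
    Fr T V R' W := ⟨h.int, h.deg, fun c => (h.bd c).mono hR⟩

theorem vp_pos {V : σ → ℝ} (hV : ∀ v, 0 < V v) (m : σ →₀ ℕ) : 0 < vp V m :=
  prod_pos fun v _ => pow_pos (hV v) _

theorem vp_const (V : ℝ) (m : σ →₀ ℕ) : vp (fun _ : σ => V) m = V ^ m.degree := by
  rw [vp, prod_pow_eq_pow_sum, Finsupp.degree_eq_sum]

theorem fmu_pos (T : Cell ι) {V : σ → ℝ} (hV : ∀ v, 0 < V v) : 0 < fmu T V :=
  prod_pos fun c _ => prod_pos fun m _ => inv_pos.2 (mul_pos (abs_pos.2 (T.a_ne c)) (vp_pos hV m))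

theorem gmu_pos (T : Cell ι) {V : σ → ℝ} (hV : ∀ v, 0 < V v) : 0 < gmu T V :=
  prod_pos fun c _ => prod_pos fun m _ => inv_pos.2 (mul_pos (abs_pos.2 (T.a_ne c)) (vp_pos hV m))

theorem kmu_pos (T : Cell ι) {V : σ → ℝ} (hV : ∀ v, 0 < V v) (k : ℕ) : 0 < kmu T V k :=
  mul_pos (fmu_pos T hV) (pow_pos (gmu_pos T hV) _)

theorem mu1_pos (T : Cell ι) : 0 < T.mu1 := prod_pos fun _ _ => inv_pos.2 (abs_pos.2 (T.a_ne _))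

theorem Std.pos {l C₁ : ℕ} {V : σ → ℝ} {y x : ℝ} (h : Std l C₁ T V y x) (v : σ) : 0 < V v :=
  one_pos.trans_le (h.one v)

theorem Std.lev {l C₁ : ℕ} {V : σ → ℝ} {y x : ℝ} (h : Std l C₁ T V y x) (c : ι) : T.lev c ≤ l :=
  h.gm.1 c

theorem Std.one_le {l C₁ : ℕ} {V : σ → ℝ} {y x : ℝ} (h : Std l C₁ T V y x) : 1 ≤ x :=
  (one_le_pow₀ (by linarith [h.two])).trans h.yx

/-- pass to a larger loss, a smaller exponent and other sides -/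
theorem Std.to {σ' : Type} [Fintype σ'] {l C₁ C₂ : ℕ} {V : σ → ℝ} {V' : σ' → ℝ} {y y' x : ℝ}
    (h : Std l C₁ T V y x) (hC : C₂ ≤ C₁) (hy : y ≤ y') (hy' : y' ^ C₂ ≤ y ^ C₁)
    (hσ : (Fintype.card σ' : ℝ) ≤ y') (h1 : ∀ v, 1 ≤ V' v) (h2 : ∀ v, V' v ≤ Real.exp x) :
    Std l C₂ T V' y' x :=
  ⟨h.two.trans hy, h.ci.trans hy, hσ, hy'.trans h.yx, h1, h2,
    h.gm.mono hC (pow_le_pow_right₀ h.one_le hC) (pow_nonneg (by linarith [h.one_le]) _)⟩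

theorem Std.mono {l C₁ C₂ : ℕ} {V : σ → ℝ} {y y' x : ℝ} (h : Std l C₁ T V y x) (hC : C₂ ≤ C₁)
    (hy : y ≤ y') (hy' : y' ^ C₂ ≤ y ^ C₁) : Std l C₂ T V y' x :=
  h.to hC hy hy' (h.cs.trans hy) h.one h.vx

theorem Sit.to {σ' κ' : Type} [Fintype κ] [Fintype σ'] [Fintype κ'] {l C₁ C₂ : ℕ}
    {V y y' x ε : ℝ} (h : Sit l C₁ T σ κ V y x ε) (hC : C₂ ≤ C₁) (hy : y ≤ y')
    (hy' : y' ^ C₂ ≤ y ^ C₁) (hσ : (Fintype.card σ' : ℝ) ≤ y')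
    (hκ : (Fintype.card κ' : ℝ) ≤ y') : Sit l C₂ T σ' κ' V y' x ε :=
  ⟨h.std.to hC hy hy' hσ
      (fun _ => (Real.one_le_exp (pow_nonneg (by linarith [h.std.two]) _)).trans h.big)
      fun _ => h.vx, hκ, (Real.exp_le_exp.2 hy').trans h.big, h.vx, h.pos,
    h.small.trans (Real.exp_le_exp.2 (neg_le_neg hy'))⟩

theorem Sit.mono [Fintype κ] {l C₁ C₂ : ℕ} {V y y' x ε : ℝ} (h : Sit l C₁ T σ κ V y x ε)
    (hC : C₂ ≤ C₁) (hy : y ≤ y') (hy' : y' ^ C₂ ≤ y ^ C₁) : Sit l C₂ T σ κ V y' x ε :=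
  h.to hC hy hy' (h.std.cs.trans hy) (h.ck.trans hy)

theorem Dn.mono {V : σ → ℝ} {y y' : ℝ} {𝓕 : Finset (FR ι σ)} (h : Dn T V y 𝓕) (hy : y ≤ y')
    (hV : ∀ v, 0 < V v) : Dn T V y' 𝓕 :=
  ⟨fun W hW => (h.fr W hW).mono hy, (mul_le_mul_of_nonneg_right
    (Real.exp_le_exp.2 (neg_le_neg hy)) (fmu_pos T hV).le).trans h.dense⟩

theorem Img.comp {ι' ι'' σ' σ'' : Type} [Fintype ι'] [Fintype ι''] [Fintype σ'] [Fintype σ'']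
    {T' : Cell ι'} {T'' : Cell ι''} {V : σ → ℝ} {V' : σ' → ℝ} {V'' : σ'' → ℝ} {y y' y'' : ℝ}
    {Φ : FR ι σ → FR ι' σ'} {Ψ : FR ι' σ' → FR ι'' σ''} (h : Img T V y T' V' y' Φ)
    (h' : Img T' V' y' T'' V'' y'' Ψ) : Img T V y T'' V'' y'' (Ψ ∘ Φ) := fun 𝓕 h𝓕 => by
  have := h' _ (h 𝓕 h𝓕)
  rwa [image_image] at this

end mono

end Crest.Agent.T49.Pg
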