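import Crest.Agent.T49.RegA_2

/-!
# Row 49 (helper2): regularisation, part B: re-ranking, shear, demotion
-/

set_option autoImplicit false

open MvPolynomial

noncomputable section

namespace Crest.Agent.T49.Rg

open Tw

variable {ι : Type}

theorem exists_rank [Fintype ι] {α : Type} [LinearOrder α] (key : ι → α) :
    ∃ rk : ι → ℕ, ∀ c c', key c < key c' → rk c < rk c' := by
  classical
  refine ⟨fun c => (Finset.univ.filter fun c' => key c' < key c).card, fun c c' h => ?_⟩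
  refine Finset.card_lt_card ⟨fun x hx => ?_, fun hx => ?_⟩
  · simp only [Finset.mem_filter, Finset.mem_univ, true_and] at hx ⊢
    exact hx.trans h
  · have := hx (show c ∈ _ by simpa using h)
    simp at this

theorem IsMC_le {T : Cell ι} {cl : ι → ℕ} (h : T.IsMC cl) (c : ι) :
    T.B c ∈ supported ℝ {c' | cl c' ≤ cl c} :=
  mem_supported_iff.2 fun m hm c' hc' => (h.2 c m hm c' hc').elim le_of_lt fun h1 => h1.1.le

/-- re-ranking -/
theorem exists_st [Fintype ι] {o s : ℕ} {T : Cell ι} {cl : ι → ℕ} (h : T.IsMC cl)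
    (h1 : ∀ c, cl c ≤ o ∨ cl c = o + T.lev c) (h2 : ∀ c, T.lev c ≤ s) :
    ∃ T' : Cell ι, St o s T' cl ∧ T'.a = T.a ∧ T'.th = T.th ∧ T'.lev = T.lev := by
  classical
  obtain ⟨rk, hrk⟩ := exists_rank (α := ℕ ×ₗ ℕ ×ₗ ℕ) fun c =>
    toLex (cl c, toLex (T.rk c, (Fintype.equivFin ι c : ℕ)))
  refine ⟨⟨⟨rk, T.a, T.B, T.a_ne, fun c => ?_⟩, T.lev, T.lev_pos, T.deg⟩,
    ⟨h1, h2, fun c hc => supported_mono (fun c' (hc' : cl c' ≤ cl c) => hc'.trans hc)
      (IsMC_le h c), fun c c' hc => ?_, fun c c' _ hc => hrk c c' ?_⟩, rfl, rfl, rfl⟩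
  · refine mem_supported_iff.2 fun m hm c' hc' => hrk c' c ?_
    have h3 : cl c' ≤ cl c := mem_supported_iff.1 (IsMC_le h c) m hm c' hc'
    have h4 : T.rk c' < T.rk c := mem_supported_iff.1 (T.B_mem c) m hm c' hc'
    simp only [Prod.Lex.toLex_lt_toLex]
    omega
  · by_contra hne
    have h3 : (Fintype.equivFin ι c : ℕ) ≠ Fintype.equivFin ι c' := fun h4 =>
      hne ((Fintype.equivFin ι).injective (Fin.ext h4))
    have h5 := mt (hrk c c') (by change rk c = rk c' at hc; omega)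
    have h6 := mt (hrk c' c) (by change rk c = rk c' at hc; omega)
    simp only [Prod.Lex.toLex_lt_toLex] at h5 h6
    omega
  · simp only [Prod.Lex.toLex_lt_toLex]
    omega

/-- a new cell with the same ranks, leading coefficients and levels -/
def wB (T : Cell ι) (B' : ι → Pl ι) (h1 : ∀ c, B' c ∈ supported ℝ {c' | T.rk c' < T.rk c})
    (h2 : ∀ c, DegLe T.lev (B' c) (T.lev c)) : Cell ι :=
  ⟨⟨T.rk, T.a, B', T.a_ne, h1⟩, T.lev, T.lev_pos, h2⟩

theorem wB_th (T : Cell ι) (B' : ι → Pl ι) (h1 : ∀ c, B' c ∈ supported ℝ {c' | T.rk c' < T.rk c})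
    (h2 : ∀ c, DegLe T.lev (B' c) (T.lev c)) (c : ι) :
    (wB T B' h1 h2).th c = C (T.a c) * X c + B' c := rfl

theorem St.low_rk {o s : ℕ} {T : Cell ι} {cl : ι → ℕ} (h : St o s T cl) {c₀ : ι} (hc : o < cl c₀)
    {f : Pl ι} (hf : f ∈ supported ℝ {c | cl c ≤ cl c₀ - 1}) :
    f ∈ supported ℝ {c | T.rk c < T.rk c₀} :=
  supported_mono (fun c (h1 : cl c ≤ cl c₀ - 1) => h.mono c c₀ hc (by omega)) hf

theorem wgt_eq_of [Fintype ι] {T T' : Tri ι} {φ : ι → Pl ι} (int : ∀ c, IsInt (φ c))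
    (h : ∀ c, T'.th c = bind₁ φ (T.th c)) (z : ι → ℤ) : T'.wgt z = T.wgt (pt φ z) := by
  simp only [Tri.wgt, h, ev_pt int]

/-- the unimodular shear `z_{c₀} = z'_{c₀} - J (z'_{low})` -/
theorem exists_shear [Fintype ι] {o s : ℕ} {T : Cell ι} {cl : ι → ℕ} (h : St o s T cl) {c₀ : ι}
    (hc : o < cl c₀) {J : Pl ι} (hJ : IsInt J) (hJ1 : J ∈ supported ℝ {c | cl c ≤ cl c₀ - 1})
    (hJ2 : DegLe T.lev J (T.lev c₀)) (Y : ℝ) :
    ∃ (T' : Cell ι) (φ : ι → Pl ι), Mor o T cl T' cl φ id 1 0 Y ∧ St o s T' cl ∧ T'.rk = T.rk ∧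
      T'.a = T.a ∧ T'.lev = T.lev ∧ T'.B c₀ = T.B c₀ - C (T.a c₀) * J ∧
      (∀ c, cl c ≤ cl c₀ - 1 → T'.th c = T.th c) ∧
      ∀ g, Sg T'.toTri (fun z => g (pt φ z)) = Sg T.toTri g := by
  classical
  set φ : ι → Pl ι := fun c => if c = c₀ then X c₀ - J else X c with hφ
  set ψ : ι → Pl ι := fun c => if c = c₀ then X c₀ + J else X c with hψ
  have hlow : ∀ c ∈ {c | cl c ≤ cl c₀ - 1}, c ≠ c₀ := by
    rintro c (h1 : cl c ≤ cl c₀ - 1) rfl
    omega
  have hφJ : ∀ {f}, f ∈ supported ℝ {c | cl c ≤ cl c₀ - 1} → bind₁ φ f = f := fun hf =>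
    bind_eq_self (fun c hc => if_neg (hlow c hc)) hf
  have hψJ : bind₁ ψ J = J := bind_eq_self (fun c hc => if_neg (hlow c hc)) hJ1
  have hint : ∀ c, IsInt (φ c) := fun c => by
    simp only [hφ]; split_ifs
    exacts [(isInt_X _).sub hJ, isInt_X _]
  have hint' : ∀ c, IsInt (ψ c) := fun c => by
    simp only [hψ]; split_ifs
    exacts [(isInt_X _).add hJ, isInt_X _]
  have hdeg : ∀ c, DegLe T.lev (φ c) (T.lev c) := fun c => by
    simp only [hφ]; split_ifs with h1
    · subst h1; exact (degLe_X _).sub hJ2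
    · exact degLe_X _
  have hbij : Function.Bijective (pt φ) := pt_bij hint hint'
    (fun c => by
      by_cases h1 : c = c₀
      · subst h1; simp [hψ, hφJ hJ1]; simp [hφ]
      · simp [hψ, hφ, h1])
    (fun c => by
      by_cases h1 : c = c₀
      · subst h1; simp [hφ, hψJ]; simp [hψ]
      · simp [hψ, hφ, h1])
  have hB0 : bind₁ φ (T.B c₀) = T.B c₀ :=
    bind_eq_self (fun c (hc : T.rk c < T.rk c₀) => if_neg (by rintro rfl; omega)) (T.B_mem c₀)
  set B' : ι → Pl ι := fun c => if c = c₀ then T.B c₀ - C (T.a c₀) * J else bind₁ φ (T.B c)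
    with hB'
  have h1 : ∀ c, B' c ∈ supported ℝ {c' | T.rk c' < T.rk c} := fun c => by
    simp only [hB']; split_ifs with h1
    · subst h1
      exact sub_mem (T.B_mem _) (mul_mem (C_mem_supp _ _) (h.low_rk hc hJ1))
    · refine bind_mem_supported (fun c' (hc' : T.rk c' < T.rk c) => ?_) (T.B_mem c)
      simp only [hφ]; split_ifs with h2
      · subst h2
        exact sub_mem (X_mem_supp hc') (supported_mono
          (fun x (hx : T.rk x < T.rk c') => hx.trans hc') (h.low_rk hc hJ1))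
      · exact X_mem_supp hc'
  have h2 : ∀ c, DegLe T.lev (B' c) (T.lev c) := fun c => by
    simp only [hB']; split_ifs with h1
    · subst h1; exact (T.deg _).sub (hJ2.C_mul _)
    · exact DegLe.bind hdeg (T.deg c)
  have hth : ∀ c, (wB T B' h1 h2).th c = bind₁ φ (T.th c) := fun c => by
    rw [wB_th, Tri.th, map_add, map_mul, bind₁_C_right, bind₁_X_right]
    by_cases h3 : c = c₀
    · subst h3
      rw [hB0]; simp only [hB', hφ, if_true]; ring
    · simp only [hB', hφ, if_neg h3]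
  have hlo : ∀ c, cl c ≤ cl c₀ - 1 → (wB T B' h1 h2).th c = T.th c := fun c hc' =>
    (hth c).trans (hφJ (h.th_mem (by omega) hc'))
  refine ⟨wB T B' h1 h2, φ, Mor.of_iso Y hint hdeg
    (fun c hc' => ⟨rfl, if_neg (hlow c (show cl c ≤ _ by omega)), hth c, rfl⟩)
    (fun z z' _ => Dj_congr hint (fun c _ => hth c) z z'),
    h.of_eq rfl rfl (closed_of_th fun c hc' => ?_), rfl, rfl, rfl, if_pos rfl, hlo,
    Sg_of_bij hbij (wgt_eq_of hint hth)⟩
  rw [hlo c (by omega)]
  exact h.clo.th_mem hc'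

/-- adding a polynomial in the low windows to the window `c₀` -/
theorem exists_rep [Fintype ι] {o s : ℕ} {T : Cell ι} {cl : ι → ℕ} (h : St o s T cl) {c₀ : ι}
    (hc : o < cl c₀) {e : Pl ι} (he : e ∈ supported ℝ {c | cl c ≤ cl c₀ - 1})
    (he2 : DegLe T.lev e (T.lev c₀)) (Y : ℝ) :
    ∃ T' : Cell ι, Mor o T cl T' cl X id 1 0 Y ∧ St o s T' cl ∧ T'.rk = T.rk ∧
      T'.a = T.a ∧ T'.lev = T.lev ∧ T'.B c₀ = T.B c₀ + T.Th e ∧
      (∀ c, c ≠ c₀ → T'.th c = T.th c) ∧ T'.th c₀ = T.th c₀ + T.Th e := by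
  classical
  have hE := h.Th_mem (by omega) he
  set B' : ι → Pl ι := fun c => if c = c₀ then T.B c₀ + T.Th e else T.B c with hB'
  have h1 : ∀ c, B' c ∈ supported ℝ {c' | T.rk c' < T.rk c} := fun c => by
    simp only [hB']; split_ifs with h1
    · subst h1; exact add_mem (T.B_mem _) (h.low_rk hc hE)
    · exact T.B_mem c
  have h2 : ∀ c, DegLe T.lev (B' c) (T.lev c) := fun c => by
    simp only [hB']; split_ifs with h1
    · subst h1; exact (T.deg _).add (T.Th_degLe he2)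
    · exact T.deg c
  have hne : ∀ c, c ≠ c₀ → (wB T B' h1 h2).th c = T.th c := fun c h3 => by
    rw [wB_th, Tri.th]; simp only [hB', if_neg h3]
  have h0 : (wB T B' h1 h2).th c₀ = T.th c₀ + T.Th e := by
    rw [wB_th, Tri.th]; simp only [hB', if_true]; ring
  have hold : ∀ c, cl c ≤ o → c ≠ c₀ := by rintro c h3 rfl; omega
  refine ⟨wB T B' h1 h2, Mor.of_iso Y isInt_X degLe_X
    (fun c hc' => ⟨rfl, rfl, by rw [hne c (hold c hc'), bind_X_eq], rfl⟩) fun z z' hz => ?_,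
    h.of_eq rfl rfl (closed_of_th fun c hc' => ?_), rfl, rfl, rfl, if_pos rfl, hne, h0⟩
  · rw [pt_X, pt_X]
    refine Finset.sum_congr rfl fun c hc' => ?_
    by_cases h3 : c = c₀
    · subst h3
      have h4 : cl c = o + 1 := (Finset.mem_filter.1 hc').2
      rw [h0, ev_add, ev_add, ev_congr_of_supp (z := z) (z' := z')
        (fun x (hx : cl x ≤ cl c - 1) => hz x (by omega)) hE]
      ring
    · rw [hne c h3]
  · rw [hne c (hold c hc')]
    exact h.clo.th_mem hc'

/-- sum of the levels of the new atoms -/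
def pot [Fintype ι] (T : Cell ι) (cl : ι → ℕ) (o : ℕ) : ℕ := ∑ c, if o < cl c then T.lev c else 0

theorem eq_of_Dj_eq_zero [Fintype ι] {o s : ℕ} {T : Cell ι} {cl : ι → ℕ} (h : St o s T cl)
    {z z' : ι → ℤ} (hz : ∀ c, cl c ≤ o → z c = z' c) (h0 : Dj T.toTri cl (o + 1) z z' = 0) (c : ι) :
    cl c ≤ o + 1 → z c = z' c := by
  refine T.rk_induction (P := fun c => cl c ≤ o + 1 → z c = z' c) (fun c ih hc => ?_) c
  by_cases h1 : cl c ≤ o
  · exact hz c h1
  have h2 := (Finset.sum_eq_zero_iff_of_nonneg fun _ _ => sq_nonneg _).1 h0 c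
    (Finset.mem_filter.2 ⟨Finset.mem_univ _, by omega⟩)
  have h3 : ev z (T.B c) = ev z' (T.B c) :=
    ev_congr_of_supp (s := {c' | T.rk c' < T.rk c ∧ cl c' ≤ o + 1}) (fun x hx => ih x hx.1 hx.2)
      (mem_supported_iff.2 fun m hm x hx => ⟨mem_supported_iff.1 (T.B_mem c) m hm x hx,
        mem_supported_iff.1 (h.closed (Nat.le_succ o) c hc) m hm x hx⟩)
  rw [sq_eq_zero_iff, T.ev_th, T.ev_th, h3] at h2
  have h4 : T.a c * ((z c : ℝ) - z' c) = 0 := by linarith
  exact_mod_cast sub_eq_zero.1 ((mul_eq_zero.1 h4).resolve_left (T.a_ne c))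

theorem degLe_wt {w w' : ι → ℕ} (h : ∀ c, w' c ≤ w c) {f : Pl ι} {d : ℕ} (hf : DegLe w f d) :
    DegLe w' f d := by
  simpa using DegLe.rename (φ := id) (w' := w') h hf

open Classical in
/-- the outcome of a demotion -/
def Dem [Fintype ι] (o s : ℕ) (T : Cell ι) (cl : ι → ℕ) (c₀ : ι) (Y κ : ℝ) (h : (ι → ℤ) → ℝ) :
    Prop :=
  ∃ (ι' : Type) (_ : Fintype ι') (T' : Cell ι') (cl' : ι' → ℕ) (φ : ι → Pl ι') (v : ι' → ι),
    Mor o T cl T' cl' φ v 1 0 Y ∧ St o s T' cl' ∧ pot T' cl' o < pot T cl o ∧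
    (∀ (F : ℝ → ℝ) (j : ℕ), o < j →
      ∑ c ∈ Finset.univ.filter (fun c => cl' c = j), F (T'.a c) =
        ∑ c ∈ (Finset.univ.filter fun c => cl c = j).erase c₀, F (T.a c) +
          if j + 1 = cl c₀ then F (T.a c₀) else 0) ∧
    kt T'.toTri ≤ kt T.toTri ∧
    κ / (1 + |T.a c₀|) * T'.mu ≤ Sg T'.toTri fun z => h (pt φ z)

theorem dem_relevel [Fintype ι] {o s : ℕ} {T : Cell ι} {cl : ι → ℕ} (h : St o s T cl) {c₀ : ι}
    (hc : o + 1 < cl c₀) (hmin : ∀ c, cl c = cl c₀ → T.rk c₀ ≤ T.rk c)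
    (hB : T.B c₀ ∈ supported ℝ {c | cl c ≤ cl c₀ - 1}) (hd : DegLe T.lev (T.B c₀) (T.lev c₀ - 1))
    {Y κ : ℝ} (hY : cl c₀ = o + 2 → Real.exp (-Y) ≤ T.a c₀ ^ 2) {g : (ι → ℤ) → ℝ} (hκ : 0 < κ)
    (hg : κ * T.mu ≤ Sg T.toTri g) : Dem o s T cl c₀ Y κ g := by
  classical
  have hl := h.lev_eq (c := c₀) (by omega)
  set lev' : ι → ℕ := fun c => if c = c₀ then T.lev c₀ - 1 else T.lev c with hlev'
  set cl' : ι → ℕ := fun c => if c = c₀ then cl c₀ - 1 else cl c with hcl'
  have hle : ∀ c, lev' c ≤ T.lev c := fun c => by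
    simp only [hlev']; split_ifs with h1
    · subst h1; omega
    · exact le_rfl
  let T' : Cell ι := ⟨T.toTri, lev', fun c => by
      simp only [hlev']; split_ifs
      · omega
      · exact T.lev_pos c, fun c => by
      refine degLe_wt hle ?_
      simp only [hlev']; split_ifs with h1
      · subst h1; exact hd
      · exact T.deg c⟩
  have hiff : ∀ c, cl' c ≤ o ↔ cl c ≤ o := fun c => by
    simp only [hcl']; split_ifs with h1
    · subst h1; omega
    · rfl
  have hsum : ∀ (F : ι → ℝ) (j : ℕ), o < j →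
      ∑ c ∈ Finset.univ.filter (fun c => cl' c = j), F c =
        ∑ c ∈ (Finset.univ.filter fun c => cl c = j).erase c₀, F c +
          if j + 1 = cl c₀ then F c₀ else 0 := by
    intro F j hj
    have h1 : (Finset.univ.filter fun c => cl' c = j).erase c₀ =
        (Finset.univ.filter fun c => cl c = j).erase c₀ := by
      ext c
      by_cases h2 : c = c₀ <;> simp [hcl', h2]
    rw [← h1]
    split_ifs with h2
    · rw [Finset.sum_erase_add]
      simp only [Finset.mem_filter, Finset.mem_univ, true_and, hcl', if_true]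
      omega
    · rw [add_zero, Finset.erase_eq_of_notMem]
      simp only [Finset.mem_filter, Finset.mem_univ, true_and, hcl', if_true]
      omega
  refine ⟨ι, inferInstance, T', cl', X, id, Mor.of_same isInt_X
    (fun c => (degLe_X c).mono (hle c)) Function.injective_id (fun c _ => ⟨c, rfl⟩) hiff
    (fun c hc' => ?_) fun z z' hz => ?_, ⟨fun c => ?_, fun c => (hle c).trans (h.lev_le c), ?_,
      h.inj, fun c c' h1 h2 => ?_⟩, ?_, fun F j hj => hsum _ j hj, le_rfl, ?_⟩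
  · have h1 : c ≠ c₀ := by
      rintro rfl
      have := (hiff c).1 hc'
      omega
    exact ⟨if_neg h1, if_neg h1, rfl, (bind_X_eq _).symm, rfl⟩
  · rw [pt_X, pt_X]
    have h1 := hsum (fun c => (ev z (T.th c) - ev z' (T.th c)) ^ 2) (o + 1) (by omega)
    rw [Finset.erase_eq_of_notMem (by simp; omega)] at h1
    change Dj T.toTri cl' (o + 1) z z' = Dj T.toTri cl (o + 1) z z' + _ at h1
    change (_ → Dj T.toTri cl' (o + 1) z z' = 0 ∨ _ ≤ Dj T.toTri cl' (o + 1) z z') ∧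
      _ ≤ Dj T.toTri cl' (o + 1) z z'
    rw [h1]
    refine ⟨fun h0 => ?_, le_add_of_nonneg_right (by split_ifs <;> positivity)⟩
    rw [h0, zero_add]
    split_ifs with h2
    · have h3 : ev z (T.B c₀) = ev z' (T.B c₀) := ev_congr_of_supp
        (fun x (hx : cl x ≤ cl c₀ - 1) => eq_of_Dj_eq_zero h
          (fun c hc => hz c ((hiff c).2 hc)) h0 x (by omega)) hB
      rw [T.ev_th, T.ev_th, h3]
      by_cases h4 : z c₀ = z' c₀
      · exact Or.inl (by simp [h4])
      · refine Or.inr ((hY (by omega)).trans ?_)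
        have h5 : (1 : ℝ) ≤ ((z c₀ : ℝ) - z' c₀) ^ 2 := by
          exact_mod_cast (one_le_sq_iff_one_le_abs _).2 (Int.one_le_abs (sub_ne_zero.2 h4))
        nlinarith [sq_nonneg (T.a c₀)]
    · exact Or.inl rfl
  · change cl' c ≤ o ∨ cl' c = o + lev' c
    simp only [hcl', hlev']; split_ifs with h1
    · omega
    · exact h.cls c
  · change T.Closed _
    rw [funext fun c => propext (hiff c)]
    exact h.clo
  · change T.rk c < T.rk c'
    simp only [hcl'] at h1 h2
    split_ifs at h1 h2 with h3 h4 h4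
    · omega
    · subst h3; exact h.mono _ _ (by omega) (by omega)
    · subst h4
      rcases (show cl c < cl c' ∨ cl c' = cl c by omega) with h5 | h5
      · exact h.mono _ _ h1 h5
      · exact lt_of_le_of_ne (hmin c' h5) fun h6 => h3 (h.inj h6).symm
    · exact h.mono _ _ h1 h2
  · refine Finset.sum_lt_sum (fun c _ => ?_) ⟨c₀, Finset.mem_univ _, ?_⟩
    · have := hiff c
      have := hle c
      change (if o < cl' c then lev' c else 0) ≤ _
      split_ifs <;> omega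
    · change (if o < cl' c₀ then lev' c₀ else 0) < _
      simp only [hcl', hlev', if_true]
      split_ifs <;> omega
  · simp only [pt_X]
    refine le_trans (mul_le_mul_of_nonneg_right ?_ T.mu_pos.le) hg
    exact div_le_self hκ.le (le_add_of_nonneg_right (abs_nonneg _))

theorem dem_slice [Fintype ι] {o s : ℕ} {T : Cell ι} {cl : ι → ℕ} (h : St o s T cl) {c₀ : ι}
    (hc : cl c₀ = o + 1) (hd : DegLe T.lev (T.B c₀) 0) (Y : ℝ) {κ K : ℝ} {g : (ι → ℤ) → ℝ}
    (hK : ∀ z, |g z| ≤ K) (hκ : 0 < κ) (hg : κ * T.mu ≤ Sg T.toTri g) :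
    Dem o s T cl c₀ Y κ g := by
  classical
  have hB := hd.eq_C T.lev_pos
  have hp : T.Closed fun c => c = c₀ := by
    rintro c rfl
    rw [hB]; exact C_mem_supp _ _
  have ha := abs_pos.2 (T.a_ne c₀)
  -- choice of the slice
  obtain ⟨x, hx⟩ : ∃ x : {c // c = c₀} → ℤ, κ / (1 + |T.a c₀|) * (T.fib _ x).mu ≤
      Sg (T.fib _ x) fun u => g (glue _ x u) := by
    by_contra hcon
    push Not at hcon
    set ν : ℝ := ∏ c : {c // ¬ c = c₀}, |T.a c.1|⁻¹ with hν
    have hν0 : 0 < ν := (T.fib (fun c => c = c₀) 0).mu_pos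
    have h1 : T.mu = |T.a c₀|⁻¹ * ν := by
      rw [T.mu_split (p := fun c => c = c₀), Tri.mu, Fintype.prod_unique]; rfl
    have h2 : (T.sub fun c => c = c₀).M ≤ 1 + |T.a c₀|⁻¹ := by
      have := (T.sub fun c => c = c₀).M_le
      rwa [Fintype.prod_unique] at this
    have hbd : ∀ x, |Sg (T.fib (fun c => c = c₀) x) fun u => g (glue _ x u)| ≤
        K * ∏ c : {c // ¬ c = c₀}, (1 + |T.a c.1|⁻¹) := fun x =>
      ((T.fib _ x).abs_tsum_mul_le fun u => hK _).trans
        (mul_le_mul_of_nonneg_left (T.fib_M_le x) ((abs_nonneg _).trans (hK 0)))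
    have h3 : Sg T.toTri g < (T.sub fun c => c = c₀).M * (κ / (1 + |T.a c₀|) * ν) := by
      rw [Sg, hp.fubini_real hK, Tri.M, ← tsum_mul_right]
      exact Summable.tsum_lt_tsum (i := 0)
        (fun x => mul_le_mul_of_nonneg_left (hcon x).le (Tri.wgt_nonneg _ _))
        (mul_lt_mul_of_pos_left (hcon 0) (Tri.wgt_pos _ _))
        ((T.sub _).summable_mul_real hbd) ((T.sub _).summable_wgt.mul_right _)
    have h4 : (1 + |T.a c₀|⁻¹) * (κ / (1 + |T.a c₀|) * ν) = κ * T.mu := by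
      rw [h1]; field_simp; ring
    have h5 := mul_le_mul_of_nonneg_right h2
      (show 0 ≤ κ / (1 + |T.a c₀|) * ν by positivity)
    linarith
  set φ : ι → Pl {c // ¬ c = c₀} := fun c => fb (fun c => c = c₀) x (X c) with hφ
  have hφ1 : ∀ c : {c // ¬ c = c₀}, φ c.1 = X c := fb_X_neg x
  have hφ0 : φ c₀ = C (x ⟨c₀, rfl⟩ : ℝ) := fb_X_pos x ⟨c₀, rfl⟩
  have hfb : ∀ f, bind₁ φ f = fb (fun c => c = c₀) x f := fun f =>
    AlgHom.congr_fun (MvPolynomial.algHom_ext fun c => by simp [hφ] :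
      (bind₁ φ : Pl ι →ₐ[ℝ] _) = fb (fun c => c = c₀) x) f
  have hint : ∀ c, IsInt (φ c) := fun c => by
    by_cases h1 : c = c₀
    · subst h1; rw [hφ0]; exact isInt_C_int _
    · rw [hφ1 ⟨c, h1⟩]; exact isInt_X _
  have hdeg : ∀ c, DegLe (fun c : {c // ¬ c = c₀} => T.lev c.1) (φ c) (T.lev c) := fun c => by
    by_cases h1 : c = c₀
    · subst h1; rw [hφ0]; exact degLe_C _ _
    · rw [hφ1 ⟨c, h1⟩]; exact degLe_X _
  have hpt : ∀ u, pt φ u = glue (fun c => c = c₀) x u := fun u => funext fun c => by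
    have := pt_cast (hint c) u
    rw [hφ, ev_fb, ev_X] at this
    exact_mod_cast this
  let T' : Cell {c // ¬ c = c₀} := ⟨T.fib _ x, fun c => T.lev c.1, fun c => T.lev_pos c.1,
    fun c => by
      change DegLe _ (fb (fun c => c = c₀) x (T.B c.1)) _
      rw [← hfb]; exact DegLe.bind hdeg (T.deg c.1)⟩
  have hth : ∀ c, T'.th c = bind₁ φ (T.th c.1) := fun c => (T.fib_th _ x c).trans (hfb _).symm
  have hsum : ∀ (F : ι → ℝ) (j : ℕ),
      ∑ c ∈ Finset.univ.filter (fun c : {c // ¬ c = c₀} => cl c.1 = j), F c.1 =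
        ∑ c ∈ (Finset.univ.filter fun c => cl c = j).erase c₀, F c := fun F j =>
    Finset.sum_bij (fun c _ => c.1) (fun c hc => by simpa [c.2] using hc)
      (fun _ _ _ _ h => Subtype.ext h)
      (fun c hc => ⟨⟨c, (Finset.mem_erase.1 hc).1⟩, by simpa using (Finset.mem_erase.1 hc).2, rfl⟩)
      fun _ _ => rfl
  refine ⟨_, inferInstance, T', fun c => cl c.1, φ, Subtype.val, Mor.of_same hint hdeg
    Subtype.val_injective (fun c hc' => ⟨⟨c, by rintro rfl; omega⟩, rfl⟩) (fun _ => Iff.rfl)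
    (fun c _ => ⟨rfl, rfl, hφ1 c, hth c, rfl⟩) fun z z' _ => ?_,
    ⟨fun c => h.cls c.1, fun c => h.lev_le c.1, closed_of_th fun c hc' => ?_,
      h.inj.comp Subtype.val_injective, fun c c' => h.mono c.1 c'.1⟩, ?_, fun F j hj => ?_, ?_, ?_⟩
  · have h1 : Dj T'.toTri (fun c => cl c.1) (o + 1) z z' =
        Dj T.toTri cl (o + 1) (pt φ z) (pt φ z') := by
      rw [Dj, Dj]
      simp only [hth, ev_pt hint]
      rw [hsum (fun c => (ev (pt φ z) (T.th c) - ev (pt φ z') (T.th c)) ^ 2), Finset.sum_erase]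
      rw [T.ev_th, T.ev_th, hB, pt_cast (hint c₀), pt_cast (hint c₀), hφ0]
      simp only [ev_C]
      ring
    exact ⟨fun h0 => Or.inl (h1.trans h0), h1.ge⟩
  · rw [hth]
    refine bind_mem_supported (fun c' (h1 : cl c' ≤ o) => ?_) (h.clo.th_mem hc')
    rw [hφ1 ⟨c', by rintro rfl; omega⟩]
    exact X_mem_supp h1
  · rw [pot, pot, ← Fintype.sum_subtype_add_sum_subtype (fun c => c = c₀)
      (fun c => if o < cl c then T.lev c else 0)]
    refine Nat.lt_add_of_pos_left (Finset.sum_pos' (fun _ _ => Nat.zero_le _)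
      ⟨⟨c₀, rfl⟩, @Finset.mem_univ _ (_) _, ?_⟩)
    change 0 < if o < cl c₀ then T.lev c₀ else 0
    rw [if_pos (by omega)]
    exact T.lev_pos c₀
  · rw [if_neg (by omega), add_zero]
    exact hsum (fun c => F (T.a c)) j
  · rw [kt, kt, Tri.sum_split (p := fun c => c = c₀)]
    exact le_add_of_nonneg_left (Finset.sum_nonneg fun c _ =>
      Real.log_nonneg (le_add_of_nonneg_right (abs_nonneg _)))
  · simpa only [hpt] using hx

end Crest.Agent.T49.Rg
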