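import Crest.Agent.T49.RegB_2

/-!
# Row 49 (helper4): the one-step demotion statement of the regularisation
-/

set_option autoImplicit false

open MvPolynomial

noncomputable section

namespace Crest.Agent.T49.Rg

open Tw

/-- (DEM) a violation of regularity on a zoom gives a piece with smaller potential -/
def DemStmt : Prop := ∀ s : ℕ, 1 ≤ s → ∃ A : ℕ, ∀ (o : ℕ) (ι : Type) [Fintype ι] (T : Cell ι)
  (cl : ι → ℕ) (τ : ℕ → ℝ) (lam X y n : ℝ) (h : (ι → ℤ) → ℝ) (j : ℕ) (d : ℕ+) (u' : ℝ)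
  (r : ι → ℤ) (t : ι → ℝ),
  St o s T cl → (Fintype.card ι : ℝ) + 2 ≤ n → 3 ≤ lam → 0 ≤ X → 0 ≤ τ (o + s + 1) →
  (∀ i, o < i → i ≤ o + s → τ (i + 1) ≤ τ i ∧ T.kapM cl i ≤ τ i) →
  X + kt T.toTri + A * n * (τ (o + 1) + y + lam) ≤ Real.exp lam → (∀ z, |h z| ≤ 2) →
  Real.exp (-X) * T.mu ≤ Sg T.toTri h →
  o < j → j ≤ o + s → ((d : ℕ) : ℝ) ≤ Real.exp y → 0 ≤ u' → u' ≤ y →
  ¬ (zo T cl o d u' r t).RegAtM cl j (Real.exp (τ (j + 1) + lam)) (Real.exp (τ j)) →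
  ∃ (ι' : Type) (_ : Fintype ι') (T' : Cell ι') (cl' : ι' → ℕ) (φ : ι → Pl ι') (v : ι' → ι)
    (G : ℕ+) (u : ℝ), Mor o T cl T' cl' φ v G u (2 * (τ (o + 2) + lam)) ∧ St o s T' cl' ∧
    pot T' cl' o < pot T cl o ∧
    ((G : ℕ) : ℝ) ≤ Real.exp (A * (τ (o + 1) + y + lam)) ∧ u ≤ A * (τ (o + 1) + y + lam) ∧
    (∀ i, o < i → i ≤ o + s → T'.kapM cl' i ≤ T.kapM cl i + A * n * (τ (i + 1) + lam)) ∧
    lm T'.toTri cl' (o + 1) ≤ lm T.toTri cl (o + 1) + A * n * (τ (o + 2) + lam) ∧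
    kt T'.toTri ≤ kt T.toTri + A * n * (τ (o + 1) + y + lam) ∧
    Real.exp (-(X + A * (τ (o + 1) + lam))) * T'.mu ≤
      Sg T'.toTri fun z => h (pt φ z) + 2 * Real.exp (-(2 * lam))

end Crest.Agent.T49.Rg
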