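import Crest.Agent.T49.TwDef_52
import Crest.Agent.T49.GauD_64

/-! Row 49 (helper71): Poisson summation over the top level of a cell (`TopStmt`). -/

set_option autoImplicit false

noncomputable section

open MvPolynomial Finset
open scoped InnerProductSpace

namespace Crest.Agent.T49.Tw.Top71

open Crest.Agent.T49.Lat (cast cast_apply)

variable {ι : Type}

open Classical in
/-- glue low and top coordinates -/
def gl {R : Type} (p : ι → Prop) (x : {c // p c} → R) (u : {c // ¬ p c} → R) : ι → R :=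
  fun c => if h : p c then x ⟨c, h⟩ else u ⟨c, h⟩

lemma gl_pos {R : Type} {p : ι → Prop} (x : {c // p c} → R) (u : {c // ¬ p c} → R)
    (c : {c // p c}) : gl p x u c.1 = x c := by simp [gl, c.2]

lemma gl_neg {R : Type} {p : ι → Prop} (x : {c // p c} → R) (u : {c // ¬ p c} → R)
    (c : {c // ¬ p c}) : gl p x u c.1 = u c := by simp [gl, c.2]

/-- gluing as an equivalence -/
def glE (R : Type) (p : ι → Prop) : ({c // p c} → R) × ({c // ¬ p c} → R) ≃ (ι → R) where
  toFun q := gl p q.1 q.2
  invFun z := (fun c => z c.1, fun c => z c.1)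
  left_inv q := Prod.ext (_root_.funext (gl_pos q.1 q.2)) (_root_.funext (gl_neg q.1 q.2))
  right_inv z := _root_.funext fun c => by by_cases h : p c <;> simp [gl, h]

lemma tsum_gl (p : ι → Prop) {g : (ι → ℤ) → ℝ} (hg : Summable g) :
    ∑' z, g z = ∑' x, ∑' u, g (gl p x u) := by
  rw [← (glE ℤ p).tsum_eq]
  exact ((glE ℤ p).summable_iff.2 hg).tsum_prod

lemma fub {X K : Type} {w : X → ℝ} {r : K → ℝ} (hw : Summable w) (hr : Summable r)
    (w0 : ∀ x, 0 ≤ w x) (r0 : ∀ k, 0 ≤ r k) (φ : X → K → ℂ) (hφ : ∀ x k, ‖φ x k‖ = 1) :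
    ∑' x, (w x : ℂ) * ∑' k, (r k : ℂ) * φ x k = ∑' k, (r k : ℂ) * ∑' x, (w x : ℂ) * φ x k := by
  have s4 : Summable (Function.uncurry fun x k => (w x : ℂ) * ((r k : ℂ) * φ x k)) := by
    refine Summable.of_norm_bounded (hw.mul_of_nonneg hr w0 r0) fun q => le_of_eq ?_
    rw [Function.uncurry, norm_mul, norm_mul, hφ, mul_one, Complex.norm_real, Complex.norm_real,
      Real.norm_of_nonneg (w0 _), Real.norm_of_nonneg (r0 _)]
  simp only [← tsum_mul_left]
  rw [← s4.tsum_comm]
  exact tsum_congr fun k => tsum_congr fun x => mul_left_comm _ _ _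

lemma eval_dn (p : ι → Prop) (x : {c // p c} → ℝ) (f : Pl ι) :
    eval x (dn p f) = eval (gl p x 0) f := by
  classical
  rw [dn, ← eval₂Hom_id_eq_eval', eval₂Hom_bind₁]
  · congr 2
    funext c
    by_cases h : p c <;> simp [gl, h]
  where eval₂Hom_id_eq_eval' : eval₂Hom (RingHom.id ℝ) x = eval x := rfl

/-- a polynomial whose monomials contain a top variable only as `X c` is affine in the top
variables -/
lemma eval_gl [Fintype ι] (p : ι → Prop) [DecidablePred p] (x : {c // p c} → ℝ)
    (u : {c // ¬ p c} → ℝ) (f : Pl ι)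
    (hf : ∀ m ∈ f.support, ∀ c ∈ m.support, ¬ p c → m = Finsupp.single c 1) :
    eval (gl p x u) f =
      eval (gl p x 0) f + ∑ c : {c // ¬ p c}, coeff (Finsupp.single c.1 1) f * u c := by
  classical
  have key : ∀ m ∈ f.support, eval (gl p x u) (monomial m (coeff m f)) =
      eval (gl p x 0) (monomial m (coeff m f)) +
        ∑ c : {c // ¬ p c}, if m = Finsupp.single c.1 1 then coeff m f * u c else 0 := by
    intro m hm
    by_cases h : ∀ c ∈ m.support, p c
    · rw [sum_eq_zero fun c _ => if_neg fun e => c.2 (h c.1 (by simp [e])), add_zero,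
        eval_monomial, eval_monomial]
      congr 1
      exact Finsupp.prod_congr fun c hc => by simp [gl, h c hc]
    · push Not at h
      obtain ⟨c, hc, hp⟩ := h
      have e := hf m hm c hc hp
      rw [sum_eq_single ⟨c, hp⟩ (fun c' _ hne => if_neg fun e' => hne (Subtype.ext
        (Finsupp.single_left_injective one_ne_zero (e'.symm.trans e)))) (by simp), if_pos e]
      conv_lhs => rw [e]
      conv_rhs => rw [e]
      simp [eval_monomial, gl, hp]
  conv_lhs => rw [f.as_sum]
  conv_rhs => enter [1]; rw [f.as_sum]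
  rw [map_sum, map_sum, sum_congr rfl key, sum_add_distrib, sum_comm]
  congr 1
  refine sum_congr rfl fun c _ => ?_
  rw [sum_ite_eq']
  split_ifs with h
  · rfl
  · rw [notMem_support_iff.1 h, zero_mul]

lemma weight_single (w : ι → ℕ) (c : ι) : Finsupp.weight w (Finsupp.single c 1) = w c := by
  simp [Finsupp.weight_apply]

lemma eq_single_of_weight {w : ι → ℕ} (hw : ∀ c, 0 < w c) {m : ι →₀ ℕ} {c : ι}
    (hc : c ∈ m.support) (h : Finsupp.weight w m ≤ w c) : m = Finsupp.single c 1 := by
  obtain ⟨m', rfl⟩ : ∃ m', m = Finsupp.single c 1 + m' :=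
    ⟨m - Finsupp.single c 1, (add_tsub_cancel_of_le (Finsupp.single_le_iff.2
      (Nat.one_le_iff_ne_zero.2 (Finsupp.mem_support_iff.1 hc)))).symm⟩
  rw [map_add, weight_single] at h
  rcases eq_or_ne m' 0 with rfl | hne
  · simp
  · obtain ⟨c', hc'⟩ := Finsupp.support_nonempty_iff.2 hne
    have := weight_pos_le w m' hc'
    have := hw c'
    omega

lemma degLe_th (T : Cell ι) (c : ι) : DegLe T.lev (T.th c) (T.lev c) := by
  classical
  intro m hm
  rcases mem_union.1 (support_add hm) with h | h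
  · rw [C_mul_X_eq_monomial] at h
    rw [mem_singleton.1 (support_monomial_subset h), weight_single]
  · exact T.deg c m h

lemma coeff_th (T : Tri ι) (c c' : ι) (h : ¬ T.rk c' < T.rk c) [Decidable (c = c')] :
    coeff (Finsupp.single c' 1) (T.th c) = if c = c' then T.a c else 0 := by
  classical
  have h1 : coeff (Finsupp.single c' 1) (T.B c) = 0 := by
    by_contra hne
    have hv : c' ∈ (T.B c).vars := (mem_vars_iff_mem_support _).2 ⟨_, mem_support_iff.2 hne, by simp⟩
    exact h (mem_supported.1 (T.B_mem c) hv)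
  rw [Tri.th, coeff_add, h1, add_zero, coeff_C_mul, coeff_X]
  by_cases e : c = c'
  · simp [e]
  · rw [if_neg e, if_neg fun e' => e (Finsupp.single_left_injective one_ne_zero e'), mul_zero]

/-- the linear map of a square array -/
def mA {κ : Type} [Fintype κ] (L : κ → κ → ℝ) : (κ → ℝ) →ₗ[ℝ] EuclideanSpace ℝ κ where
  toFun v := WithLp.toLp 2 fun c => ∑ c', L c c' * v c'
  map_add' v w := by ext i; simp [mul_add, sum_add_distrib]
  map_smul' s v := by ext i; simp [mul_sum, mul_left_comm]

/-- what is needed about triangular lattices -/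
def TriLat : Prop := ∀ (κ : Type) [Fintype κ] (rk : κ → ℕ) (a : κ → ℝ) (L : κ → κ → ℝ),
  (∀ c, a c ≠ 0) → (∀ c, L c c = a c) → (∀ c c', c ≠ c' → ¬ rk c' < rk c → L c c' = 0) →
  Function.Injective (mA L) ∧ Function.Surjective (mA L) ∧ Gau.kap (mA L) = ∏ c, |a c|⁻¹ ∧
    Gau.rat (mA L) ≤ ∏ c, (1 + |a c|)

theorem top_of (H1 : ∀ (κ : Type) [Fintype κ] (T : Tri κ), Summable T.wgt) (H2 : TriLat) :
    TopStmt := by
  classical
  intro ι _ T l y σ hlev hy hσ hb
  set p : ι → Prop := fun c => T.lev c ≤ l with hp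
  have hl : ∀ c : {c // ¬ p c}, T.lev c.1 = l + 1 := fun c => by
    have h1 := hlev c.1
    have h2 : ¬ T.lev c.1 ≤ l := c.2
    omega
  set L : {c // ¬ p c} → {c // ¬ p c} → ℝ :=
    fun c c' => coeff (Finsupp.single c'.1 1) (T.th c.1) with hL
  obtain ⟨hinj, hsurj, hkap, hrat⟩ := H2 _ (fun c => T.rk c.1) (fun c => T.a c.1) L
    (fun c => T.a_ne _) (fun c => by simp [hL, coeff_th T.toTri c.1 c.1 (lt_irrefl _)])
    fun c c' hne h => by
      simp only [hL]; rw [coeff_th T.toTri c.1 c'.1 h, if_neg fun e => hne (Subtype.ext e)]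
  set A := mA L with hA
  obtain ⟨B, hB⟩ := Gau.exists_dual hinj
  have haff : ∀ (c : ι) (x : {c // p c} → ℤ) (u : {c // ¬ p c} → ℤ), ev (gl p x u) (T.th c) =
      ev x (dn p (T.th c)) + ∑ c' : {c // ¬ p c}, coeff (Finsupp.single c'.1 1) (T.th c) * u c' := by
    intro c x u
    have e : (fun c => ((gl p x u c : ℤ) : ℝ)) = gl p (fun c => (x c : ℝ)) fun c => (u c : ℝ) := by
      funext c; by_cases h : p c <;> simp [gl, h]
    rw [ev, ev, e, eval_dn, eval_gl]
    intro m hm c' hc' hp'
    exact eq_single_of_weight T.lev_pos hc'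
      ((degLe_th T c m hm).trans ((hlev c).trans (hl ⟨c', hp'⟩).ge))
  have hlow : ∀ c : {c // p c}, dn p (T.th c.1) = (T.low l).th c := fun c => by
    simp only [Tri.th, map_add, map_mul, dn, bind₁_X_right, algHom_C, algebraMap_eq]
    rw [dif_pos c.2]
    rfl
  set β : ({c // p c} → ℤ) → EuclideanSpace ℝ {c // ¬ p c} :=
    fun x => WithLp.toLp 2 fun c => ev x (dn p (T.th c.1)) with hβ
  have hw : ∀ (x : {c // p c} → ℤ) (u : {c // ¬ p c} → ℤ),
      T.wgt (gl p x u) = (T.low l).wgt x * Gau.rho (A (cast u) + β x) := by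
    intro x u
    rw [Tri.wgt, Tri.wgt, Gau.rho, ← Real.exp_add, ← mul_add, EuclideanSpace.real_norm_sq_eq,
      ← Fintype.sum_subtype_add_sum_subtype p]
    congr 3
    · refine sum_congr rfl fun c _ => ?_
      rw [haff, hlow, sum_eq_zero fun c' _ => ?_, add_zero]
      rw [notMem_support_iff.1 fun hm => ?_, zero_mul]
      have h1 := degLe_th T c.1 _ hm
      rw [weight_single, hl c'] at h1
      have h2 : T.lev c.1 ≤ l := c.2
      omega
    · refine sum_congr rfl fun c _ => ?_
      rw [haff, add_comm]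
      rfl
  set ξ : ({c // ¬ p c} → ℤ) → ι → ℝ := fun k => gl p 0 fun c => B (cast k) c with hξ
  have hsum : ∀ (k : {c // ¬ p c} → ℤ) {M : Type} [AddCommMonoid M] (φ : ℝ → ι → M),
      (∀ c, φ 0 c = 0) → ∑ c, φ (ξ k c) c = ∑ c : {c // ¬ p c}, φ (B (cast k) c) c.1 := by
    intro k M _ φ h0
    rw [← Fintype.sum_subtype_add_sum_subtype p, sum_eq_zero fun c _ => ?_, zero_add]
    · exact sum_congr rfl fun c _ => by simp only [hξ, gl_neg]
    · simp only [hξ, gl_pos, Pi.zero_apply, h0]
  set S : ({c // ¬ p c} → ℤ) → ℂ := fun k => (T.low l).S (dn p (∑ c, C (ξ k c) * T.th c)) with hS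
  have hth : ∀ x, (Gau.th A (β x) : ℂ) = Gau.kap A * ∑' k : {c // ¬ p c} → ℤ,
      (Gau.rho (B (cast k)) : ℂ) * ee (ev x (dn p (∑ c, C (ξ k c) * T.th c))) := fun x => by
    obtain ⟨v, hv⟩ := hsurj (β x)
    rw [← hv, hB.th_eq, Gau.thc]
    congr 1
    refine tsum_congr fun k => ?_
    rw [add_zero, dotProduct_comm, ← hB.pair, hv]
    congr 2
    rw [hsum k (fun r c => C r * T.th c) (by simp), PiLp.inner_apply, map_sum, ev, map_sum]
    refine sum_congr rfl fun c _ => ?_
    simp [hβ, ev, mul_comm]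
  have s1 := H1 _ (T.low l).toTri
  have s2 : Summable fun k : {c // ¬ p c} → ℤ => Gau.rho (B (cast k)) := by
    simpa using Gau.summable_rho hB.inj' 0
  have w0 : ∀ x, 0 < (T.low l).wgt x := fun x => Real.exp_pos _
  have hee : ∀ r, ‖ee r‖ = 1 := Gau.norm_e
  have hM : (T.M : ℂ) = Gau.kap A * ∑' k, (Gau.rho (B (cast k)) : ℂ) * S k := by
    have e1 : T.M = ∑' x, (T.low l).wgt x * Gau.th A (β x) := by
      rw [Tri.M, tsum_gl p (H1 _ T.toTri)]
      refine tsum_congr fun x => ?_
      rw [Gau.th, ← tsum_mul_left]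
      exact tsum_congr fun u => hw x u
    rw [e1, Complex.ofReal_tsum]
    simp only [Complex.ofReal_mul, hth, mul_left_comm _ (Gau.kap A : ℂ)]
    rw [tsum_mul_left, fub s1 s2 (fun x => (w0 x).le) (fun k => (Gau.rho_pos _).le) _
      fun _ _ => hee _]
    rfl
  have hmu : T.mu = (T.low l).mu * Gau.kap A := by
    rw [hkap, Tri.mu, ← Fintype.prod_subtype_mul_prod_subtype p]
    rfl
  have hmu0 : 0 < (T.low l).mu := prod_pos fun c _ => inv_pos.2 (abs_pos.2 (Tri.a_ne _ c))
  have hk0 := Gau.kap_pos hinj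
  have hSle : ∀ k, ‖S k‖ ≤ (T.low l).M := fun k =>
    tsum_of_norm_bounded s1.hasSum fun x => by
      rw [norm_mul, hee, mul_one, Complex.norm_real, Real.norm_of_nonneg (w0 x).le]
  have hM0 : 0 ≤ (T.low l).M := tsum_nonneg fun x => (w0 x).le
  have hS0 : S 0 = (T.low l).M := by
    have : ∑ c, C (ξ 0 c) * T.th c = 0 := by
      rw [hsum 0 (fun r c => C r * T.th c) (by simp)]
      simp
    simp only [hS]
    rw [this]
    simp [Tri.S, Tri.M, ev, ee, Complex.ofReal_tsum]
  -- complexity
  set κ := T.kap (l + 1) with hκ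
  have hκ1 : κ = 1 + ∑ c : {c // ¬ p c}, (1 + Real.log (1 + |T.a c.1|)) := by
    rw [hκ, Cell.kap]
    congr 1
    refine sum_subtype _ (fun c => ?_) fun c => 1 + Real.log (1 + |T.a c|)
    simp only [mem_filter, mem_univ, true_and, hp]
    have := hlev c
    omega
  have hlog : 0 ≤ ∑ c : {c // ¬ p c}, Real.log (1 + |T.a c.1|) :=
    sum_nonneg fun c _ => Real.log_nonneg (by linarith [abs_nonneg (T.a c.1)])
  rw [sum_add_distrib, sum_const, card_univ, nsmul_eq_mul, mul_one] at hκ1
  set n : ℝ := (Fintype.card {c // ¬ p c} : ℝ) with hn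
  have hn0 : 0 ≤ n := Nat.cast_nonneg _
  have hth0 : Gau.th B 0 ≤ Real.exp κ := by
    rw [← hB.rat_eq]
    refine hrat.trans ?_
    rw [← prod_congr rfl fun c _ => Real.exp_log (x := 1 + |T.a c.1|) (by positivity),
      ← Real.exp_sum]
    exact Real.exp_le_exp.2 (by linarith)
  set R := y * √κ with hR
  have hR0 : 0 ≤ R := by positivity
  set f : ({c // ¬ p c} → ℤ) → ℝ := fun k => if ‖B (cast k)‖ < R then 0 else 1 with hf
  have htail : ∑' k, Gau.rho (B (cast k)) * f k ≤ Real.exp (-y) := by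
    have h1 := Gau.tail_le hB.inj' 0 hR0 (f := f) (fun k => by simp only [hf]; split_ifs <;> simp)
      fun k hk => by rw [add_zero] at hk; simp [hf, hk]
    simp only [add_zero] at h1
    refine h1.trans ((mul_le_mul_of_nonneg_left hth0 (Real.exp_pos _).le).trans ?_)
    rw [← Real.exp_add, Real.exp_le_exp, hR, mul_pow, Real.sq_sqrt (by linarith)]
    have h2 : (1 : ℝ) ≤ κ := by linarith
    have h3 : 4 ≤ y ^ 2 := by nlinarith
    nlinarith [mul_nonneg (sub_nonneg.2 h2) (sub_nonneg.2 h3)]
  have hterm : ∀ k, k ≠ 0 → ‖S k‖ ≤ σ * (T.low l).mu + (T.low l).M * f k := by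
    intro k hk
    by_cases h : ‖B (cast k)‖ < R
    · simp only [hf, h, if_true, mul_zero, add_zero]
      refine hb (ξ k) ⟨fun c hc => ?_, fun c hc => ⟨k ⟨c, by simp [hp, hc]⟩, ?_⟩⟩ ?_ ?_
      · have h1 := hlev c
        exact gl_pos 0 _ ⟨c, show T.lev c ≤ l by omega⟩
      · have h1 := hB.pair (cast k) (Pi.single ⟨c, by simp [hp, hc]⟩ 1)
        rw [dotProduct_single, mul_one, cast_apply] at h1
        rw [← h1, Cell.dotT, hsum k (fun r c => C r * T.tth c) (by simp), coeff_sum,
          PiLp.inner_apply]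
        refine sum_congr rfl fun c' _ => ?_
        rw [coeff_C_mul, Cell.tth, Cell.top, coeff_weightedHomogeneousComponent,
          if_pos (by rw [weight_single, hc, hl c'])]
        simp [hA, mA, hL, Pi.single_apply, mul_comm]
      · intro h0
        refine hk (_root_.funext fun c => ?_)
        have h1 : B (cast k) = B 0 := by
          rw [map_zero]
          ext c'
          simpa [hξ, gl_neg] using congrFun h0 c'.1
        simpa using congrFun (hB.inj' h1) c
      · rw [hsum k (fun r _ => |r|) (by simp)]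
        have h1 : (∑ c : {c // ¬ p c}, |B (cast k) c|) ^ 2 ≤ n * ‖B (cast k)‖ ^ 2 := by
          refine sq_sum_le_card_mul_sum_sq.trans (le_of_eq ?_)
          rw [EuclideanSpace.real_norm_sq_eq, card_univ]
          simp only [sq_abs, hn]
        refine le_of_sq_le_sq (h1.trans ?_) (mul_nonneg (by linarith) (by linarith))
        calc n * ‖B (cast k)‖ ^ 2 ≤ κ * R ^ 2 :=
              mul_le_mul (by linarith) (pow_le_pow_left₀ (norm_nonneg _) h.le 2) (sq_nonneg _)
                (by linarith)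
          _ = _ := by rw [hR, mul_pow, Real.sq_sqrt (by linarith)]; ring
    · simp only [hf, h, if_false, mul_one]
      linarith [hSle k, mul_nonneg hσ hmu0.le]
  have s5 : Summable fun k => (Gau.rho (B (cast k)) : ℂ) * S k := by
    simpa using Gau.summable_rho_mul hB.inj' 0 hSle
  have s6 : Summable fun k => Gau.rho (B (cast k)) * f k := by
    simpa using Gau.summable_rho_mul_real hB.inj' 0 (f := f) (M := 1)
      fun k => by simp only [hf]; split_ifs <;> simp
  have hmain : ‖∑' k, (Gau.rho (B (cast k)) : ℂ) * S k - (T.low l).M‖ ≤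
      σ * (T.low l).mu * Real.exp κ + (T.low l).M * Real.exp (-y) := by
    rw [s5.tsum_eq_add_tsum_ite 0, hS0, Gau.cast_zero, map_zero, Gau.rho_zero, Complex.ofReal_one,
      one_mul, add_sub_cancel_left]
    refine (tsum_of_norm_bounded ((s2.hasSum.mul_left (σ * (T.low l).mu)).add
      (s6.hasSum.mul_left (T.low l).M)) fun k => ?_).trans ?_
    · have h0 := (Gau.rho_pos (B (cast k))).le
      split_ifs with h
      · rw [norm_zero]
        have : 0 ≤ f k := by simp only [hf]; split_ifs <;> simp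
        positivity
      · rw [norm_mul, Complex.norm_real, Real.norm_of_nonneg h0]
        linarith [mul_le_mul_of_nonneg_left (hterm k h) h0]
    · refine add_le_add (mul_le_mul_of_nonneg_left ?_ (by positivity))
        (mul_le_mul_of_nonneg_left htail hM0)
      simpa [Gau.th] using hth0
  have e : ((T.M / T.mu - (T.low l).M / (T.low l).mu : ℝ) : ℂ) =
      (∑' k, (Gau.rho (B (cast k)) : ℂ) * S k - (T.low l).M) / (T.low l).mu := by
    have h1 : ((T.low l).mu : ℂ) ≠ 0 := by exact_mod_cast hmu0.ne'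
    have h2 : (Gau.kap A : ℂ) ≠ 0 := by exact_mod_cast hk0.ne'
    push_cast
    rw [hM, hmu]
    push_cast
    field_simp
  rw [← Real.norm_eq_abs, ← Complex.norm_real, e, norm_div, Complex.norm_real,
    Real.norm_of_nonneg hmu0.le, div_le_iff₀ hmu0]
  refine hmain.trans (le_of_eq ?_)
  field_simp

end Crest.Agent.T49.Tw.Top71
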