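import Crest.Agent.T49.RegDef_2
import Crest.Agent.T49.TwTop_71

/-!
# Row 49 (helper4): Givens rotations and Bezout, `GivStmt`
-/

set_option autoImplicit false
set_option linter.unusedSectionVars false

open MvPolynomial

noncomputable section

namespace Crest.Agent.T49.Rg

open Tw

namespace G4
variable {ι : Type}

theorem ev_pt {φ : ι → Pl ι} (h : ∀ c, IsInt (φ c)) (z : ι → ℤ) (c : ι) :
    ev z (φ c) = pt φ z c := by
  obtain ⟨n, hn⟩ := (h c).ev z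
  rw [pt, hn, Int.floor_intCast]

theorem ev_bind_pt {φ : ι → Pl ι} (h : ∀ c, IsInt (φ c)) (z : ι → ℤ) (f : Pl ι) :
    ev z (bind₁ φ f) = ev (pt φ z) f := ev_bind_of_eq (ev_pt h z) f

theorem pt_X (z : ι → ℤ) : pt (X : ι → Pl ι) z = z := by
  funext c; simp [pt]

theorem pt_comp {φ ψ : ι → Pl ι} (h : ∀ c, IsInt (ψ c)) (z : ι → ℤ) :
    pt (fun c => bind₁ ψ (φ c)) z = pt φ (pt ψ z) := by
  funext c
  rw [pt, ev_bind_pt h]
  rfl

theorem sum_two {s : Finset ι} {c0 c1 : ι} (h0 : c0 ∈ s) (h1 : c1 ∈ s) (h : c0 ≠ c1)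
    {f g : ι → ℝ} (hfg : ∀ c, c ≠ c0 → c ≠ c1 → f c = g c) (h2 : f c0 + f c1 = g c0 + g c1) :
    ∑ c ∈ s, f c = ∑ c ∈ s, g c := by
  classical
  have h1' : c1 ∈ s.erase c0 := Finset.mem_erase.2 ⟨h.symm, h1⟩
  rw [← Finset.add_sum_erase s f h0, ← Finset.add_sum_erase s g h0,
    ← Finset.add_sum_erase _ f h1', ← Finset.add_sum_erase _ g h1', ← add_assoc, ← add_assoc, h2]
  congr 1
  exact Finset.sum_congr rfl fun c hc =>
    hfg c (Finset.mem_erase.1 (Finset.mem_erase.1 hc).2).1 (Finset.mem_erase.1 hc).1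

variable [Fintype ι] {T T' T'' : Cell ι} {cl : ι → ℕ} {j : ℕ}

section
variable {φ ψ : ι → Pl ι}

theorem rot_refl (T : Cell ι) (cl : ι → ℕ) (j : ℕ) : Rot T T cl j X where
  rk := rfl
  lev := rfl
  int := isInt_X
  deg := degLe_X
  bij := by
    rw [show pt (X : ι → Pl ι) = id from funext pt_X]
    exact Function.bijective_id
  φ_eq _ _ := rfl
  th_eq c _ := by simp
  a_eq _ _ := rfl
  wgt z := by rw [pt_X]
  dist z z' := by rw [pt_X, pt_X]
  lm := rfl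

theorem rot_trans (h : Rot T T' cl j φ) (h' : Rot T' T'' cl j ψ) :
    Rot T T'' cl j fun c => bind₁ ψ (φ c) where
  rk := h'.rk.trans h.rk
  lev := h'.lev.trans h.lev
  int c := IsInt.bind h'.int (h.int c)
  deg c := DegLe.bind (fun c => by have := h'.deg c; rwa [h.lev] at this) (h.deg c)
  bij := by
    rw [show pt (fun c => bind₁ ψ (φ c)) = pt φ ∘ pt ψ from funext (pt_comp h'.int)]
    exact h.bij.comp h'.bij
  φ_eq c hc := by rw [h.φ_eq c hc, bind₁_X_right, h'.φ_eq c hc]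
  th_eq c hc := by rw [h'.th_eq c hc, h.th_eq c hc, bind₁_bind₁]
  a_eq c hc := (h'.a_eq c hc).trans (h.a_eq c hc)
  wgt z := by rw [h'.wgt, h.wgt, pt_comp h'.int]
  dist z z' := by rw [h'.dist, h.dist, pt_comp h'.int, pt_comp h'.int]
  lm := h'.lm.trans h.lm

theorem rot_st {o s : ℕ} (h : Rot T T' cl j φ) (hS : St o s T cl) (hj : o < j) :
    St o s T' cl where
  cls := by rw [h.lev]; exact hS.cls
  lev_le := by rw [h.lev]; exact hS.lev_le
  clo c hc := by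
    have hc' : cl c ≤ o := hc
    have e : T'.B c = bind₁ φ (T.th c) - C (T'.a c) * X c := by
      rw [← h.th_eq c (by omega), Tri.th]; ring
    rw [e]
    refine sub_mem (bind_mem_supported (s := {c | cl c ≤ o}) (fun c' hc' => ?_)
      (hS.clo.th_mem hc)) (mul_mem (C_mem_supp _ _) (X_mem_supp hc))
    have : cl c' ≤ o := hc'
    rw [h.φ_eq c' (by omega)]
    exact X_mem_supp hc'
  inj := by rw [h.rk]; exact hS.inj
  mono := by rw [h.rk]; exact hS.mono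

end

/-- data of one rotation -/
structure Dat (T : Cell ι) where
  c0 : ι
  c1 : ι
  β : ℝ
  B0 : Pl ι
  x0 : ℝ
  x1 : ℝ
  ρ : ℝ
  g : ℝ
  p : ℤ
  q : ℤ
  u : ℤ
  v : ℤ
  lt : T.rk c1 < T.rk c0
  gap : ∀ c, c ≠ c0 → c ≠ c1 → T.rk c < T.rk c1 ∨ T.rk c0 < T.rk c
  lev : T.lev c1 = T.lev c0
  hB : T.B c0 = C β * X c1 + B0
  hB0 : B0 ∈ supported ℝ {c | T.rk c < T.rk c1}
  ρ_ne : ρ ≠ 0
  g_ne : g ≠ 0
  hρ : ρ ^ 2 = x0 ^ 2 + x1 ^ 2
  hp : x0 * T.a c0 = g * p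
  hq : x1 * T.a c1 + x0 * β = g * q
  bez : u * p + v * q = 1

namespace Dat
variable (D : Dat T)

theorem ne : D.c0 ≠ D.c1 := fun h => by have := D.lt; rw [h] at this; omega

open Classical in
/-- the unimodular substitution -/
def φ (c : ι) : Pl ι :=
  if c = D.c0 then C (D.q : ℝ) * X D.c0 + C (D.u : ℝ) * X D.c1
  else if c = D.c1 then C ((-D.p : ℤ) : ℝ) * X D.c0 + C (D.v : ℝ) * X D.c1 else X c

theorem φ0 : D.φ D.c0 = C (D.q : ℝ) * X D.c0 + C (D.u : ℝ) * X D.c1 := if_pos rfl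

theorem φ1 : D.φ D.c1 = C ((-D.p : ℤ) : ℝ) * X D.c0 + C (D.v : ℝ) * X D.c1 := by
  rw [φ, if_neg D.ne.symm, if_pos rfl]

theorem φ2 {c : ι} (h0 : c ≠ D.c0) (h1 : c ≠ D.c1) : D.φ c = X c := by
  rw [φ, if_neg h0, if_neg h1]

theorem cases {P : ι → Prop} (h0 : P D.c0) (h1 : P D.c1)
    (h2 : ∀ c, c ≠ D.c0 → c ≠ D.c1 → P c) (c : ι) : P c := by
  by_cases a0 : c = D.c0
  · rwa [a0]
  by_cases a1 : c = D.c1
  · rwa [a1]
  exact h2 c a0 a1

theorem φ_int : ∀ c, IsInt (D.φ c) :=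
  D.cases (D.φ0 ▸ ((isInt_X _).int_mul _).add ((isInt_X _).int_mul _))
    (D.φ1 ▸ ((isInt_X _).int_mul _).add ((isInt_X _).int_mul _))
    fun c h0 h1 => D.φ2 h0 h1 ▸ isInt_X c

theorem φ_hom : ∀ c, IsWeightedHomogeneous T.lev (D.φ c) (T.lev c) := by
  have a0 := isWeightedHomogeneous_X ℝ T.lev D.c0
  have a1 := isWeightedHomogeneous_X ℝ T.lev D.c1
  refine D.cases ?_ ?_ fun c h0 h1 => D.φ2 h0 h1 ▸ isWeightedHomogeneous_X ℝ T.lev c
  · rw [D.φ0]; rw [D.lev] at a1; exact (hom_C_mul a0 _).add (hom_C_mul a1 _)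
  · rw [D.φ1]; rw [← D.lev] at a0; exact (hom_C_mul a0 _).add (hom_C_mul a1 _)

theorem bind_low {f : Pl ι} (hf : f ∈ supported ℝ {c | T.rk c < T.rk D.c1}) :
    bind₁ D.φ f = f := by
  rw [bind_congr_supp (g' := X) (fun c hc => ?_) hf, bind₁_X_left]
  · rfl
  have h : T.rk c < T.rk D.c1 := hc
  have := D.lt
  exact D.φ2 (fun h' => by rw [h'] at h; omega) fun h' => by rw [h'] at h; omega

theorem bind_mem {c : ι} (h0 : c ≠ D.c0) (h1 : c ≠ D.c1) :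
    bind₁ D.φ (T.B c) ∈ supported ℝ {c' | T.rk c' < T.rk c} := by
  rcases D.gap c h0 h1 with h | h
  · rw [D.bind_low (supported_mono (fun c' hc' => lt_trans hc' h) (T.B_mem c))]
    exact T.B_mem c
  · have a0 : (X D.c0 : Pl ι) ∈ supported ℝ {c' | T.rk c' < T.rk c} := X_mem_supp h
    have a1 : (X D.c1 : Pl ι) ∈ supported ℝ {c' | T.rk c' < T.rk c} := X_mem_supp (D.lt.trans h)
    refine bind_mem_supported ?_ (T.B_mem c)
    refine D.cases (fun _ => ?_) (fun _ => ?_) fun c' h0 h1 hc' => ?_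
    · rw [D.φ0]; exact add_mem (mul_mem (C_mem_supp _ _) a0) (mul_mem (C_mem_supp _ _) a1)
    · rw [D.φ1]; exact add_mem (mul_mem (C_mem_supp _ _) a0) (mul_mem (C_mem_supp _ _) a1)
    · rw [D.φ2 h0 h1]; exact X_mem_supp hc'

theorem B0_deg : DegLe T.lev D.B0 (T.lev D.c0) := by
  have e : D.B0 = T.B D.c0 - C D.β * X D.c1 := by rw [D.hB]; ring
  rw [e]
  exact (T.deg _).sub (((degLe_X _).mono D.lev.le).C_mul _)

open Classical in
/-- new diagonal -/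
def a (c : ι) : ℝ :=
  if c = D.c0 then T.a D.c0 * T.a D.c1 * D.ρ / D.g else if c = D.c1 then D.g / D.ρ else T.a c

theorem a0 : D.a D.c0 = T.a D.c0 * T.a D.c1 * D.ρ / D.g := if_pos rfl

theorem a1 : D.a D.c1 = D.g / D.ρ := by rw [a, if_neg D.ne.symm, if_pos rfl]

theorem a2 {c : ι} (h0 : c ≠ D.c0) (h1 : c ≠ D.c1) : D.a c = T.a c := by
  rw [a, if_neg h0, if_neg h1]

open Classical in
/-- new lower parts -/
def B (c : ι) : Pl ι :=
  if c = D.c0 then C D.ρ⁻¹ * (C (D.x1 * T.a D.c0 * D.u + (D.x1 * D.β - D.x0 * T.a D.c1) * D.v) *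
    X D.c1 + C D.x1 * D.B0 - C D.x0 * T.B D.c1)
  else if c = D.c1 then C D.ρ⁻¹ * (C D.x0 * D.B0 + C D.x1 * T.B D.c1) else bind₁ D.φ (T.B c)

theorem B0' : D.B D.c0 = C D.ρ⁻¹ * (C (D.x1 * T.a D.c0 * D.u + (D.x1 * D.β - D.x0 * T.a D.c1) *
    D.v) * X D.c1 + C D.x1 * D.B0 - C D.x0 * T.B D.c1) := if_pos rfl

theorem B1' : D.B D.c1 = C D.ρ⁻¹ * (C D.x0 * D.B0 + C D.x1 * T.B D.c1) := by
  rw [B, if_neg D.ne.symm, if_pos rfl]

theorem B2' {c : ι} (h0 : c ≠ D.c0) (h1 : c ≠ D.c1) : D.B c = bind₁ D.φ (T.B c) := by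
  rw [B, if_neg h0, if_neg h1]

/-- the rotated cell -/
def cell : Cell ι where
  rk := T.rk
  a := D.a
  B := D.B
  a_ne := D.cases (D.a0 ▸ div_ne_zero (mul_ne_zero (mul_ne_zero (T.a_ne _) (T.a_ne _)) D.ρ_ne)
    D.g_ne) (D.a1 ▸ div_ne_zero D.g_ne D.ρ_ne) fun c h0 h1 => D.a2 h0 h1 ▸ T.a_ne c
  B_mem := by
    have m : supported ℝ {c | T.rk c < T.rk D.c1} ≤ supported ℝ {c | T.rk c < T.rk D.c0} :=
      supported_mono fun c hc => lt_trans hc D.lt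
    refine D.cases ?_ ?_ fun c h0 h1 => D.B2' h0 h1 ▸ D.bind_mem h0 h1
    · rw [D.B0']
      exact mul_mem (C_mem_supp _ _) (sub_mem (add_mem (mul_mem (C_mem_supp _ _)
        (X_mem_supp D.lt)) (mul_mem (C_mem_supp _ _) (m D.hB0)))
        (mul_mem (C_mem_supp _ _) (m (T.B_mem _))))
    · rw [D.B1']
      exact mul_mem (C_mem_supp _ _) (add_mem (mul_mem (C_mem_supp _ _) D.hB0)
        (mul_mem (C_mem_supp _ _) (T.B_mem _)))
  lev := T.lev
  lev_pos := T.lev_pos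
  deg := by
    refine D.cases ?_ ?_ fun c h0 h1 => ?_
    · rw [D.B0']
      exact (((((degLe_X _).mono D.lev.le).C_mul _).add (D.B0_deg.C_mul _)).sub
        (((T.deg _).mono D.lev.le).C_mul _)).C_mul _
    · rw [D.B1']
      exact (((D.B0_deg.mono D.lev.ge).C_mul _).add ((T.deg _).C_mul _)).C_mul _
    · rw [D.B2' h0 h1]
      exact DegLe.bind (fun c => DegLe.of_hom (D.φ_hom c)) (T.deg c)

theorem bez' : (D.u : ℝ) * D.p + D.v * D.q = 1 := by exact_mod_cast D.bez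

theorem th0 : D.cell.th D.c0 =
    C D.ρ⁻¹ * (C D.x1 * bind₁ D.φ (T.th D.c0) - C D.x0 * bind₁ D.φ (T.th D.c1)) := by
  have e : D.a D.c0 = D.ρ⁻¹ * (D.x1 * T.a D.c0 * D.q +
      (D.x1 * D.β - D.x0 * T.a D.c1) * ((-D.p : ℤ) : ℝ)) := by
    have h1 := D.ρ_ne
    have h2 := D.g_ne
    rw [D.a0]
    field_simp
    push_cast
    have h3 : D.g * (D.x1 * T.a D.c0 * D.q) = D.x1 * T.a D.c0 * (D.x1 * T.a D.c1 + D.x0 * D.β) := by
      rw [D.hq]; ring
    have h4 : D.g * ((D.x1 * D.β - D.x0 * T.a D.c1) * D.p) =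
        (D.x1 * D.β - D.x0 * T.a D.c1) * (D.x0 * T.a D.c0) := by rw [D.hp]; ring
    rw [D.hρ]
    linarith
  show C (D.a D.c0) * X D.c0 + D.B D.c0 = _
  rw [e, D.B0', Tri.th, Tri.th, D.hB]
  simp only [map_add, map_mul, map_sub, bind₁_C_right, bind₁_X_right, D.φ0, D.φ1,
    D.bind_low D.hB0, D.bind_low (T.B_mem _)]
  ring

theorem th1 : D.cell.th D.c1 =
    C D.ρ⁻¹ * (C D.x0 * bind₁ D.φ (T.th D.c0) + C D.x1 * bind₁ D.φ (T.th D.c1)) := by
  have e : D.a D.c1 = D.ρ⁻¹ * (D.x0 * T.a D.c0 * D.u + (D.x1 * T.a D.c1 + D.x0 * D.β) * D.v) := by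
    rw [D.a1, D.hp, D.hq, div_eq_inv_mul]
    congr 1
    linear_combination (-D.g) * D.bez'
  have e0 : (C D.x0 * C (T.a D.c0) * C (D.q : ℝ) +
      (C D.x1 * C (T.a D.c1) + C D.x0 * C D.β) * C ((-D.p : ℤ) : ℝ) : Pl ι) = 0 := by
    simp only [← C_mul, ← C_add]
    rw [D.hp, D.hq, ← C_0]
    congr 1
    push_cast; ring
  show C (D.a D.c1) * X D.c1 + D.B D.c1 = _
  rw [e, D.B1', Tri.th, Tri.th, D.hB]
  simp only [map_add, map_mul, bind₁_C_right, bind₁_X_right, D.φ0, D.φ1,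
    D.bind_low D.hB0, D.bind_low (T.B_mem _)]
  linear_combination (-(C D.ρ⁻¹ * X D.c0) : Pl ι) * e0

theorem th2 {c : ι} (h0 : c ≠ D.c0) (h1 : c ≠ D.c1) : D.cell.th c = bind₁ D.φ (T.th c) := by
  show C (D.a c) * X c + D.B c = _
  rw [D.a2 h0 h1, D.B2' h0 h1, Tri.th, map_add, map_mul, bind₁_C_right, bind₁_X_right,
    D.φ2 h0 h1]

theorem sq_rot (y0 y1 : ℝ) : (D.ρ⁻¹ * (D.x1 * y0 - D.x0 * y1)) ^ 2 +
    (D.ρ⁻¹ * (D.x0 * y0 + D.x1 * y1)) ^ 2 = y0 ^ 2 + y1 ^ 2 := by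
  have h := D.ρ_ne
  field_simp
  rw [D.hρ]; ring

theorem ev0 (z : ι → ℤ) : ev z (D.cell.th D.c0) =
    D.ρ⁻¹ * (D.x1 * ev (pt D.φ z) (T.th D.c0) - D.x0 * ev (pt D.φ z) (T.th D.c1)) := by
  rw [D.th0, ← ev_bind_pt D.φ_int, ← ev_bind_pt D.φ_int]
  simp

theorem ev1 (z : ι → ℤ) : ev z (D.cell.th D.c1) =
    D.ρ⁻¹ * (D.x0 * ev (pt D.φ z) (T.th D.c0) + D.x1 * ev (pt D.φ z) (T.th D.c1)) := by
  rw [D.th1, ← ev_bind_pt D.φ_int, ← ev_bind_pt D.φ_int]
  simp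

theorem ev2 (z : ι → ℤ) {c : ι} (h0 : c ≠ D.c0) (h1 : c ≠ D.c1) :
    ev z (D.cell.th c) = ev (pt D.φ z) (T.th c) := by
  rw [D.th2 h0 h1, ev_bind_pt D.φ_int]

theorem pt0 (z : ι → ℤ) : pt D.φ z D.c0 = D.q * z D.c0 + D.u * z D.c1 := by
  have := ev_pt D.φ_int z D.c0
  rw [D.φ0] at this
  simp only [ev_add, ev_mul, ev_C, ev_X] at this
  exact_mod_cast this.symm

theorem pt1 (z : ι → ℤ) : pt D.φ z D.c1 = -D.p * z D.c0 + D.v * z D.c1 := by
  have := ev_pt D.φ_int z D.c1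
  rw [D.φ1] at this
  simp only [ev_add, ev_mul, ev_C, ev_X] at this
  exact_mod_cast this.symm

theorem pt2 (z : ι → ℤ) {c : ι} (h0 : c ≠ D.c0) (h1 : c ≠ D.c1) : pt D.φ z c = z c := by
  have := ev_pt D.φ_int z c
  rw [D.φ2 h0 h1] at this
  simp only [ev_X] at this
  exact_mod_cast this.symm

theorem bij : Function.Bijective (pt D.φ) := by
  classical
  have hb := D.bez
  constructor
  · intro z z' h
    have h0 := congrFun h D.c0
    have h1 := congrFun h D.c1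
    rw [D.pt0, D.pt0] at h0
    rw [D.pt1, D.pt1] at h1
    funext c
    refine D.cases (P := fun c => z c = z' c) ?_ ?_ (fun c a0 a1 => ?_) c
    · linear_combination D.v * h0 - D.u * h1 - (z D.c0 - z' D.c0) * hb
    · linear_combination D.p * h0 + D.q * h1 - (z D.c1 - z' D.c1) * hb
    · have := congrFun h c
      rwa [D.pt2 _ a0 a1, D.pt2 _ a0 a1] at this
  · intro y
    refine ⟨fun c => if c = D.c0 then D.v * y D.c0 - D.u * y D.c1 else
      if c = D.c1 then D.p * y D.c0 + D.q * y D.c1 else y c, funext (D.cases ?_ ?_ ?_)⟩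
    · rw [D.pt0, if_pos rfl, if_neg D.ne.symm, if_pos rfl]
      linear_combination (y D.c0) * hb
    · rw [D.pt1, if_pos rfl, if_neg D.ne.symm, if_pos rfl]
      linear_combination (y D.c1) * hb
    · intro c a0 a1
      rw [D.pt2 _ a0 a1, if_neg a0, if_neg a1]

theorem a_mul : D.a D.c0 * D.a D.c1 = T.a D.c0 * T.a D.c1 := by
  have h1 := D.ρ_ne
  have h2 := D.g_ne
  rw [D.a0, D.a1]
  field_simp

theorem rot (h0 : cl D.c0 = j) (h1 : cl D.c1 = j) : Rot T D.cell cl j D.φ := by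
  have n0 : ∀ c, cl c ≠ j → c ≠ D.c0 := fun c hc h => hc (h ▸ h0)
  have n1 : ∀ c, cl c ≠ j → c ≠ D.c1 := fun c hc h => hc (h ▸ h1)
  have m0 : D.c0 ∈ Finset.univ.filter fun c => cl c = j := by simpa using h0
  have m1 : D.c1 ∈ Finset.univ.filter fun c => cl c = j := by simpa using h1
  exact
  { rk := rfl
    lev := rfl
    int := D.φ_int
    deg := fun c => DegLe.of_hom (D.φ_hom c)
    bij := D.bij
    φ_eq := fun c hc => D.φ2 (n0 c hc) (n1 c hc)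
    th_eq := fun c hc => D.th2 (n0 c hc) (n1 c hc)
    a_eq := fun c hc => D.a2 (n0 c hc) (n1 c hc)
    wgt := fun z => by
      rw [Tri.wgt, Tri.wgt, sum_two (Finset.mem_univ _) (Finset.mem_univ _) D.ne
        (g := fun c => ev (pt D.φ z) (T.th c) ^ 2) (fun c a0 a1 => by rw [D.ev2 z a0 a1])
        (by rw [D.ev0, D.ev1]; exact D.sq_rot _ _)]
    dist := fun z z' => sum_two m0 m1 D.ne (fun c a0 a1 => by rw [D.ev2 z a0 a1, D.ev2 z' a0 a1])
      (by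
        rw [D.ev0, D.ev1, D.ev0, D.ev1]
        refine Eq.trans ?_ (D.sq_rot _ _)
        ring)
    lm := sum_two m0 m1 D.ne
      (fun c a0 a1 => by rw [show D.cell.a c = T.a c from D.a2 a0 a1])
      (by
        rw [← Real.log_mul (abs_ne_zero.2 (D.cell.a_ne _)) (abs_ne_zero.2 (D.cell.a_ne _)),
          ← Real.log_mul (abs_ne_zero.2 (T.a_ne _)) (abs_ne_zero.2 (T.a_ne _)), ← abs_mul,
          ← abs_mul, ← D.a_mul]
        rfl) }

theorem tth1 : D.cell.tth D.c1 =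
    C D.ρ⁻¹ * (C D.x0 * bind₁ D.φ (T.tth D.c0) + C D.x1 * bind₁ D.φ (T.tth D.c1)) := by
  show weightedHomogeneousComponent T.lev (T.lev D.c1) _ = _
  rw [D.th1, whc_C_mul', map_add, whc_C_mul', whc_C_mul', whc_bind_hom D.φ_hom,
    whc_bind_hom D.φ_hom, Cell.tth, Cell.tth, ← D.lev]
  rfl

theorem tth2 {c : ι} (h0 : c ≠ D.c0) (h1 : c ≠ D.c1) : D.cell.tth c = bind₁ D.φ (T.tth c) := by
  show weightedHomogeneousComponent T.lev (T.lev c) _ = _
  rw [D.th2 h0 h1, whc_bind_hom D.φ_hom]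
  rfl

open Classical in
/-- the rotated vector -/
def ξ' (ξ : ι → ℝ) (c : ι) : ℝ := if c = D.c0 then 0 else if c = D.c1 then D.ρ else ξ c

theorem ξ0 (ξ : ι → ℝ) : D.ξ' ξ D.c0 = 0 := if_pos rfl

theorem ξ1 (ξ : ι → ℝ) : D.ξ' ξ D.c1 = D.ρ := by rw [ξ', if_neg D.ne.symm, if_pos rfl]

theorem ξ2 (ξ : ι → ℝ) {c : ι} (h0 : c ≠ D.c0) (h1 : c ≠ D.c1) : D.ξ' ξ c = ξ c := by
  rw [ξ', if_neg h0, if_neg h1]

theorem dotT {ξ : ι → ℝ} (h0 : ξ D.c0 = D.x0) (h1 : ξ D.c1 = D.x1) :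
    D.cell.dotT (D.ξ' ξ) = bind₁ D.φ (T.dotT ξ) := by
  classical
  have h1' : D.c1 ∈ Finset.univ.erase D.c0 := Finset.mem_erase.2 ⟨D.ne.symm, Finset.mem_univ _⟩
  rw [Cell.dotT, Cell.dotT, map_sum, ← Finset.add_sum_erase _ _ (Finset.mem_univ D.c0),
    ← Finset.add_sum_erase _ _ (Finset.mem_univ D.c0), ← Finset.add_sum_erase _ _ h1',
    ← Finset.add_sum_erase _ _ h1', ← add_assoc, ← add_assoc]
  congr 1
  · rw [D.ξ0, D.ξ1, D.tth1, C_0, zero_mul, zero_add, ← mul_assoc, ← C_mul,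
      mul_inv_cancel₀ D.ρ_ne, C_1, one_mul, map_mul, map_mul, bind₁_C_right, bind₁_C_right, h0, h1]
  · refine Finset.sum_congr rfl fun c hc => ?_
    have a1 := (Finset.mem_erase.1 hc).1
    have a0 := (Finset.mem_erase.1 (Finset.mem_erase.1 hc).2).1
    rw [D.ξ2 ξ a0 a1, D.tth2 a0 a1, map_mul, bind₁_C_right]

theorem rel (h0 : cl D.c0 = j) (h1 : cl D.c1 = j) {ξ : ι → ℝ} (e0 : ξ D.c0 = D.x0)
    (e1 : ξ D.c1 = D.x1) {b : ℕ} {e : Pl ι} (h : Rel T cl j ξ b e) :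
    Rel D.cell cl j (D.ξ' ξ) b e := by
  have n0 : ∀ c, cl c ≠ j → c ≠ D.c0 := fun c hc h => hc (h ▸ h0)
  have n1 : ∀ c, cl c ≠ j → c ≠ D.c1 := fun c hc h => hc (h ▸ h1)
  refine ⟨fun c hc => by rw [D.ξ2 ξ (n0 c hc) (n1 c hc), h.supp c hc], ?_, h.low, ?_⟩
  · obtain ⟨L, hL, hL'⟩ := h.dual
    refine ⟨_, IsInt.bind D.φ_int hL, ?_⟩
    rw [D.dotT e0 e1, ← map_sub]
    refine bind_mem_supported (fun c hc => ?_) hL'
    have : cl c < j := hc
    rw [D.φ2 (n0 c this.ne) (n1 c this.ne)]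
    exact X_mem_supp hc
  · have e2 : D.cell.TTh e = bind₁ D.φ (T.TTh e) := by
      rw [Cell.TTh, Cell.TTh, bind₁_bind₁]
      refine bind_congr_supp (fun c hc => ?_) h.low
      have : cl c < j := hc
      exact D.tth2 (n0 c this.ne) (n1 c this.ne)
    have := IsInt.bind D.φ_int h.int
    rwa [map_add, map_mul, bind₁_C_right, ← D.dotT e0 e1, ← e2] at this

end Dat

theorem coeff_low {s : Set ι} {f : Pl ι} (hf : f ∈ supported ℝ s) {c : ι} (hc : c ∉ s) :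
    coeff (Finsupp.single c 1) f = 0 := by
  by_contra h
  exact hc (mem_supported_iff.1 hf _ (mem_support_iff.2 h) c (by simp))

theorem coeff_tth (T : Cell ι) {c c' : ι} (h : T.lev c' = T.lev c) :
    coeff (Finsupp.single c' 1) (T.tth c) = coeff (Finsupp.single c' 1) (T.th c) := by
  classical
  rw [Cell.tth, Cell.top, coeff_weightedHomogeneousComponent, if_pos]
  rw [Finsupp.weight_single, one_smul, h]

theorem exists_dat {o s : ℕ} (hS : St o s T cl) (hj : o < j) {ξ : ι → ℝ} {b : ℕ} {e : Pl ι}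
    (hR : Rel T cl j ξ b e) {c0 c1 : ι} (hξ : ξ c0 ≠ 0) (hmax : ∀ c, ξ c ≠ 0 → T.rk c ≤ T.rk c0)
    (h1 : cl c1 = j) (hlt : T.rk c1 < T.rk c0)
    (hmax1 : ∀ c, cl c = j → T.rk c < T.rk c0 → T.rk c ≤ T.rk c1) :
    ∃ D : Dat T, D.c0 = c0 ∧ D.c1 = c1 ∧ D.x0 = ξ c0 ∧ D.x1 = ξ c1 ∧ |D.g / D.ρ| ≤ |T.a c0| := by
  classical
  have h0 : cl c0 = j := by
    by_contra h; exact hξ (hR.supp c0 h)
  have hne : c0 ≠ c1 := fun h => by rw [h] at hlt; omega
  have hlev : ∀ c, cl c = j → T.lev c = T.lev c0 := fun c hc => by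
    have := hS.cls c
    have := hS.cls c0
    omega
  have gap : ∀ c, c ≠ c0 → c ≠ c1 → T.rk c < T.rk c1 ∨ T.rk c0 < T.rk c := by
    intro c a0 a1
    have b0 : T.rk c ≠ T.rk c0 := fun h => a0 (hS.inj h)
    have b1 : T.rk c ≠ T.rk c1 := fun h => a1 (hS.inj h)
    rcases lt_trichotomy (cl c) j with h | h | h
    · exact Or.inl (hS.mono c c1 (by omega) (by omega))
    · have := hmax1 c h
      omega
    · exact Or.inr (hS.mono c0 c (by omega) (by omega))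
  set β := coeff (Finsupp.single c1 1) (T.B c0) with hβ
  have hB0 : T.B c0 - C β * X c1 ∈ supported ℝ {c | T.rk c < T.rk c1} := by
    refine mem_supported_iff.2 fun m hm c hc => ?_
    have hm1 : m ≠ Finsupp.single c1 1 := by
      rintro rfl
      rw [mem_support_iff, coeff_sub, coeff_C_mul, coeff_X, if_pos rfl, mul_one, hβ,
        sub_self] at hm
      exact hm rfl
    have hm2 : m ∈ (T.B c0).support := by
      rw [mem_support_iff, coeff_sub, coeff_C_mul, coeff_X, if_neg (Ne.symm hm1), mul_zero,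
        sub_zero] at hm
      exact mem_support_iff.2 hm
    have h2 : T.rk c < T.rk c0 := mem_supported_iff.1 (T.B_mem c0) m hm2 c hc
    have h3 : c ≠ c1 := by
      rintro rfl
      exact hm1 (Top71.eq_single_of_weight T.lev_pos hc
        ((T.deg c0 m hm2).trans (hlev c h1).ge))
    rcases gap c (fun h => by rw [h] at h2; omega) h3 with h | h
    · exact h
    · omega
  obtain ⟨L, hL, hL'⟩ := hR.dual
  have key : ∀ c, cl c = j → ∃ n : ℤ,
      ∑ c', ξ c' * coeff (Finsupp.single c 1) (T.th c') = n := by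
    intro c hc
    obtain ⟨n, hn⟩ := hL (Finsupp.single c 1)
    have := coeff_low hL' (c := c) (by simp [hc])
    rw [coeff_sub, hn, sub_eq_zero, Cell.dotT, coeff_sum] at this
    refine ⟨n, this ▸ Finset.sum_congr rfl fun c' _ => ?_⟩
    rw [coeff_C_mul]
    by_cases h : cl c' = j
    · rw [coeff_tth T ((hlev c hc).trans (hlev c' h).symm)]
    · rw [hR.supp c' h, zero_mul, zero_mul]
  have low : ∀ c c', ξ c' ≠ 0 → c' ≠ c0 → c' ≠ c → T.rk c1 ≤ T.rk c →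
      coeff (Finsupp.single c 1) (T.th c') = 0 := by
    intro c c' a1 a2 a3 a4
    refine coeff_low (T.th_mem c') fun h => ?_
    have h' : T.rk c ≤ T.rk c' := h
    have b1 := hmax c' a1
    have b2 : T.rk c' ≠ T.rk c0 := fun h => a2 (hS.inj h)
    have b3 : T.rk c' ≠ T.rk c := fun h => a3 (hS.inj h)
    have b4 := hmax1 c' (by by_contra h; exact a1 (hR.supp c' h)) (by omega)
    omega
  have dg : ∀ c, coeff (Finsupp.single c 1) (T.th c) = T.a c := fun c => by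
    rw [Tri.th, coeff_add, coeff_C_mul, coeff_X, if_pos rfl, mul_one,
      coeff_low (T.B_mem c) (by simp), add_zero]
  obtain ⟨p, hp⟩ := key c0 h0
  obtain ⟨q, hq⟩ := key c1 h1
  rw [Finset.sum_eq_single c0 (fun c _ hc => by
    by_cases h : ξ c = 0
    · rw [h, zero_mul]
    · rw [low c0 c h hc hc hlt.le, mul_zero]) (by simp), dg] at hp
  rw [← Finset.add_sum_erase _ _ (Finset.mem_univ c1), Finset.sum_eq_single c0 (fun c hc hc' => by
    by_cases h : ξ c = 0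
    · rw [h, zero_mul]
    · rw [low c1 c h hc' (Finset.mem_erase.1 hc).1 le_rfl, mul_zero])
    (fun h => absurd (Finset.mem_erase.2 ⟨hne, Finset.mem_univ _⟩) h), dg, Tri.th, coeff_add,
    coeff_C_mul, coeff_X, if_neg (fun h => hne ((Finsupp.single_left_inj one_ne_zero).1 h)),
    mul_zero, zero_add, ← hβ] at hq
  have hp0 : p ≠ 0 := by
    rintro rfl
    exact mul_ne_zero hξ (T.a_ne c0) (by simpa using hp)
  have hg : 0 < Int.gcd p q := Int.gcd_pos_of_ne_zero_left q hp0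
  obtain ⟨p', hp'⟩ := Int.gcd_dvd_left p q
  obtain ⟨q', hq'⟩ := Int.gcd_dvd_right p q
  have hbez := Int.gcd_eq_gcd_ab p q
  set g : ℤ := (Int.gcd p q : ℤ) with hgd
  have hg' : 0 < g := Int.natCast_pos.2 hg
  have hρ0 : 0 < ξ c0 ^ 2 + ξ c1 ^ 2 := by positivity
  have hρ : 0 < √(ξ c0 ^ 2 + ξ c1 ^ 2) := Real.sqrt_pos.2 hρ0
  refine ⟨⟨c0, c1, β, T.B c0 - C β * X c1, ξ c0, ξ c1, √(ξ c0 ^ 2 + ξ c1 ^ 2), g, p', q',
    Int.gcdA p q, Int.gcdB p q, hlt, gap, hlev c1 h1, by ring, hB0, hρ.ne', by positivity,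
    Real.sq_sqrt hρ0.le, by rw [hp]; exact_mod_cast hp', by rw [hq]; exact_mod_cast hq', ?_⟩,
    rfl, rfl, rfl, rfl, ?_⟩
  · refine mul_left_cancel₀ hg'.ne' ?_
    linear_combination (-1 : ℤ) * hbez - Int.gcdA p q * hp' - Int.gcdB p q * hq'
  · show |(g : ℝ) / √(ξ c0 ^ 2 + ξ c1 ^ 2)| ≤ _
    have hgR : (0 : ℝ) < g := by exact_mod_cast hg'
    rw [abs_of_pos (div_pos hgR hρ), div_le_iff₀ hρ]
    have a1 : g ≤ |p| := Int.le_of_dvd (abs_pos.2 hp0) ((dvd_abs _ _).2 ⟨p', hp'⟩)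
    have a2 : (g : ℝ) ≤ |(p : ℝ)| := by exact_mod_cast a1
    have a3 : |ξ c0| ≤ √(ξ c0 ^ 2 + ξ c1 ^ 2) := Real.abs_le_sqrt (by nlinarith [sq_nonneg (ξ c1)])
    rw [← hp, abs_mul, mul_comm] at a2
    exact a2.trans (mul_le_mul_of_nonneg_left a3 (abs_nonneg _))

open Classical in
/-- the potential -/
def pot (T : Cell ι) (cl : ι → ℕ) (j : ℕ) (c₀ : ι) : ℝ :=
  ∑ c ∈ (Finset.univ.filter fun c => cl c = j).erase c₀, Real.log (1 + |T.a c|) +
    Real.log |T.a c₀|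

theorem pot_step (D : Dat T) (h0 : cl D.c0 = j) (h1 : cl D.c1 = j)
    (ha : |D.g / D.ρ| ≤ |T.a D.c0|) : pot D.cell cl j D.c1 ≤ pot T cl j D.c0 := by
  classical
  have m0 : D.c0 ∈ (Finset.univ.filter fun c => cl c = j).erase D.c1 :=
    Finset.mem_erase.2 ⟨D.ne, by simpa using h0⟩
  have m1 : D.c1 ∈ (Finset.univ.filter fun c => cl c = j).erase D.c0 :=
    Finset.mem_erase.2 ⟨D.ne.symm, by simpa using h1⟩
  rw [pot, pot, ← Finset.add_sum_erase _ _ m0, ← Finset.add_sum_erase _ _ m1,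
    Finset.erase_right_comm (a := D.c1)]
  have e : ∑ c ∈ ((Finset.univ.filter fun c => cl c = j).erase D.c0).erase D.c1,
      Real.log (1 + |D.cell.a c|) =
      ∑ c ∈ ((Finset.univ.filter fun c => cl c = j).erase D.c0).erase D.c1,
      Real.log (1 + |T.a c|) := Finset.sum_congr rfl fun c hc => by
    rw [show D.cell.a c = T.a c from
      D.a2 (Finset.mem_erase.1 (Finset.mem_erase.1 hc).2).1 (Finset.mem_erase.1 hc).1]
  rw [e]
  have p0 := abs_pos.2 (T.a_ne D.c0)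
  have p1 := abs_pos.2 (D.cell.a_ne D.c1)
  have key : Real.log (1 + |D.cell.a D.c0|) + Real.log |D.cell.a D.c1| ≤
      Real.log (1 + |T.a D.c1|) + Real.log |T.a D.c0| := by
    rw [← Real.log_mul (by positivity) p1.ne', ← Real.log_mul (by positivity) p0.ne']
    refine Real.log_le_log (by positivity) ?_
    have h2 : |D.cell.a D.c0| * |D.cell.a D.c1| = |T.a D.c0| * |T.a D.c1| := by
      rw [← abs_mul, ← abs_mul, ← D.a_mul]; rfl
    have h3 : |D.cell.a D.c1| ≤ |T.a D.c0| := by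
      rw [show D.cell.a D.c1 = _ from D.a1]; exact ha
    nlinarith
  linarith

open Classical in
theorem main {o s : ℕ} (hj : o < j) {b : ℕ} {e : Pl ι} (n : ℕ) : ∀ (T : Cell ι) (ξ : ι → ℝ)
    (c0 : ι), T.rk c0 = n → St o s T cl → Rel T cl j ξ b e → ξ c0 ≠ 0 →
    (∀ c, ξ c ≠ 0 → T.rk c ≤ T.rk c0) →
    ∃ (T' : Cell ι) (φ : ι → Pl ι) (c₀ : ι) (ρ : ℝ), Rot T T' cl j φ ∧ cl c₀ = j ∧
      (∀ c, cl c = j → T.rk c₀ ≤ T.rk c) ∧ ρ ≠ 0 ∧ ρ ^ 2 = ∑ c, ξ c ^ 2 ∧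
      Rel T' cl j (Pi.single c₀ ρ) b e ∧ |T'.a c₀| ≤ |T.a c0| ∧
      pot T' cl j c₀ ≤ pot T cl j c0 := by
  induction n using Nat.strong_induction_on with
  | _ n ih =>
  intro T ξ c0 hn hS hR hξ hmax
  have h0 : cl c0 = j := by
    by_contra h; exact hξ (hR.supp c0 h)
  by_cases hex : ∃ c, cl c = j ∧ T.rk c < T.rk c0
  · obtain ⟨c1, hc1, hmax1⟩ := Finset.exists_max_image
      (Finset.univ.filter fun c => cl c = j ∧ T.rk c < T.rk c0) T.rk
      (by obtain ⟨c, hc⟩ := hex; exact ⟨c, by simpa using hc⟩)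
    obtain ⟨h1, hlt⟩ := (Finset.mem_filter.1 hc1).2
    have hmax1' : ∀ c, cl c = j → T.rk c < T.rk c0 → T.rk c ≤ T.rk c1 := fun c a b =>
      hmax1 c (Finset.mem_filter.2 ⟨Finset.mem_univ _, a, b⟩)
    obtain ⟨D, rfl, rfl, e0, e1, ha⟩ := exists_dat hS hj hR hξ hmax h1 hlt hmax1'
    have hrot := D.rot h0 h1
    obtain ⟨T', φ, c₀, ρ, r1, r2, r3, r4, r5, r6, r7, r8⟩ := ih _ (hn ▸ hlt) D.cell (D.ξ' ξ) D.c1
      rfl (rot_st hrot hS hj) (D.rel h0 h1 e0.symm e1.symm hR) (by rw [D.ξ1]; exact D.ρ_ne)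
      (D.cases (fun h => absurd (D.ξ0 ξ) h) (fun _ => le_rfl) fun c a0 a1 h => by
        rw [D.ξ2 ξ a0 a1] at h
        have b1 := hmax c h
        have b2 : T.rk c ≠ T.rk D.c0 := fun h => a0 (hS.inj h)
        exact hmax1' c (by by_contra h'; exact h (hR.supp c h')) (by omega))
    refine ⟨T', _, c₀, ρ, rot_trans hrot r1, r2, r3, r4, r5.trans ?_, r6, r7.trans ?_,
      r8.trans (pot_step D h0 h1 ha)⟩
    · exact sum_two (Finset.mem_univ _) (Finset.mem_univ _) D.ne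
        (fun c a0 a1 => by rw [D.ξ2 ξ a0 a1]) (by rw [D.ξ0, D.ξ1, D.hρ, e0, e1]; ring)
    · rw [show D.cell.a D.c1 = _ from D.a1]; exact ha
  · push Not at hex
    have hz : ∀ c, c ≠ c0 → ξ c = 0 := fun c hc => by
      by_contra h
      exact hc (hS.inj (le_antisymm (hmax c h)
        (hex c (by by_contra h'; exact h (hR.supp c h')))))
    have e1 : ξ = Pi.single c0 (ξ c0) := by
      funext c
      by_cases hc : c = c0
      · rw [hc, Pi.single_eq_same]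
      · rw [hz c hc, Pi.single_eq_of_ne hc]
    refine ⟨T, X, c0, ξ c0, rot_refl T cl j, h0, hex, hξ, ?_, e1 ▸ hR, le_rfl, le_rfl⟩
    rw [Finset.sum_eq_single c0 (fun c _ hc => by rw [hz c hc]; ring) (by simp)]

end G4

theorem givStmt : GivStmt := by
  classical
  intro ι _ o s j T cl ξ b e hS hj hξ hR
  obtain ⟨c0, hc0, hmax⟩ := Finset.exists_max_image (Finset.univ.filter fun c => ξ c ≠ 0) T.rk
    (by obtain ⟨c, hc⟩ := Function.ne_iff.1 hξ; exact ⟨c, by simpa using hc⟩)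
  have h0 : ξ c0 ≠ 0 := (Finset.mem_filter.1 hc0).2
  have h1 : cl c0 = j := by
    by_contra h; exact h0 (hR.supp c0 h)
  obtain ⟨T', φ, c₀, ρ, r1, r2, r3, r4, r5, r6, r7, r8⟩ := G4.main hj _ T ξ c0 rfl hS hR h0
    fun c hc => hmax c (by simpa using hc)
  refine ⟨T', φ, c₀, ρ, r1, r2, r3, r4, r5, r6, ⟨c0, h1, r7⟩, le_trans r8 ?_⟩
  rw [G4.pot, ← Finset.add_sum_erase _ _ (show c0 ∈ Finset.univ.filter fun c => cl c = j by
    simpa using h1), add_comm]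
  exact add_le_add (Real.log_le_log (abs_pos.2 (T.a_ne _)) (by linarith)) le_rfl

end Crest.Agent.T49.Rg
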