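import Crest.Agent.T49.RegDef_2

/-!
# Row 49 (helper56): `RepStmt`, a tiny perturbation of one window
-/

set_option autoImplicit false

open MvPolynomial

noncomputable section

namespace Crest.Agent.T49.Rg

open Tw Real Finset

namespace Rep56

variable {ι : Type} [Fintype ι]

/-- the windows `θ / 2` -/
def wid (T : Tri ι) : Tri ι where
  rk := T.rk
  a c := 2⁻¹ * T.a c
  B c := C 2⁻¹ * T.B c
  a_ne c := mul_ne_zero (by norm_num) (T.a_ne c)
  B_mem c := mul_mem (C_mem_supp _ _) (T.B_mem c)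

theorem wid_wgt (T : Tri ι) (z : ι → ℤ) :
    (wid T).wgt z = exp (-π * ((∑ c, ev z (T.th c) ^ 2) / 4)) := by
  rw [Tri.wgt, sum_div]
  congr 2
  refine sum_congr rfl fun c _ => ?_
  simp only [Tri.th, wid, ev_add, ev_mul, ev_C, ev_X]
  ring

theorem wid_M_le (T : Tri ι) : (wid T).M ≤ exp (kt T + Fintype.card ι) * T.mu := by
  refine (wid T).M_le.trans ?_
  rw [kt, ← card_univ, card_eq_sum_ones, Nat.cast_sum, ← sum_add_distrib, exp_sum, Tri.mu,
    ← prod_mul_distrib]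
  refine prod_le_prod (fun _ _ => by positivity) fun c _ => ?_
  have h := abs_pos.2 (T.a_ne c)
  change 1 + |2⁻¹ * T.a c|⁻¹ ≤ _
  rw [exp_add, exp_log (by positivity), abs_mul, le_mul_inv_iff₀ h, Nat.cast_one,
    abs_of_pos (by norm_num : (0 : ℝ) < 2⁻¹)]
  have h2 : (1 + (2⁻¹ * |T.a c|)⁻¹) * |T.a c| = |T.a c| + 2 := by field_simp
  rw [h2]
  nlinarith [add_one_le_exp 1]

theorem tail (T : Tri ι) (z : ι → ℤ) {R : ℝ} (hR : 20 ≤ R) {c : ι} (h : R - 1 ≤ |ev z (T.th c)|) :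
    T.wgt z ≤ exp (-(R + 3)) * (wid T).wgt z := by
  rw [wid_wgt, ← exp_add, Tri.wgt, exp_le_exp]
  have h1 : ev z (T.th c) ^ 2 ≤ ∑ c, ev z (T.th c) ^ 2 :=
    single_le_sum (f := fun c => ev z (T.th c) ^ 2) (fun _ _ => sq_nonneg _) (mem_univ c)
  have h2 : (R - 1) ^ 2 ≤ ev z (T.th c) ^ 2 := by
    rw [← sq_abs (ev z _)]; exact pow_le_pow_left₀ (by linarith) h 2
  have h3 : R + 3 ≤ ∑ c, ev z (T.th c) ^ 2 := by nlinarith
  nlinarith [pi_gt_three]

theorem ptw {T T' : Tri ι} {c₀ : ι} {e : Pl ι} {s : ℕ} {lam : ℝ}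
    (h1 : ∀ c, c ≠ c₀ → T'.th c = T.th c) (h2 : T'.th c₀ = T.th c₀ + T.Th e)
    (h3 : e ∈ supported ℝ {c | c ≠ c₀}) (h4 : ∀ m ∈ e.support, m.degree ≤ s)
    (h5 : nrm e ≤ exp (-((s + 5) * lam))) (h6 : 3 ≤ lam) (z : ι → ℤ) :
    |T.wgt z - T'.wgt z| ≤ exp (-(2 * lam)) * T'.wgt z +
      exp (-(exp lam + 3)) * ((wid T).wgt z + (wid T').wgt z) := by
  classical
  have hR : 20 ≤ exp lam := by
    have := exp_one_gt_d9
    calc (20 : ℝ) ≤ 2.7182818283 ^ 3 := by norm_num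
      _ ≤ exp 1 ^ 3 := by gcongr
      _ ≤ _ := by rw [← exp_nat_mul]; exact exp_le_exp.2 (by simpa using h6)
  have two : ∀ c c', exp lam - 1 ≤ |ev z (T.th c)| → exp lam - 1 ≤ |ev z (T'.th c')| →
      |T.wgt z - T'.wgt z| ≤ exp (-(2 * lam)) * T'.wgt z +
        exp (-(exp lam + 3)) * ((wid T).wgt z + (wid T').wgt z) := fun c c' a b => by
    have := tail T z hR a
    have := tail T' z hR b
    have := T.wgt_pos z
    have := mul_pos (exp_pos (-(2 * lam))) (T'.wgt_pos z)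
    have := T'.wgt_pos z
    rw [abs_le]; constructor <;> linarith
  by_cases hA : ∀ c, c ≠ c₀ → |ev z (T.th c)| ≤ exp lam
  swap
  · push Not at hA
    obtain ⟨c, hc, hc'⟩ := hA
    exact two c c (by linarith) (by rw [h1 c hc]; linarith)
  have hd : |ev z (T'.th c₀) - ev z (T.th c₀)| ≤ exp (-(5 * lam)) := by
    rw [h2, ev_add, add_sub_cancel_left, Tri.ev_Th, eval_congr_supp
      (x' := fun c => if c = c₀ then 0 else ev z (T.th c)) (fun c hc => (if_neg hc).symm) h3]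
    refine (abs_eval_le (K := exp lam) (fun c => ?_) (by linarith) h4).trans ?_
    · split_ifs with h
      · simp; linarith
      · exact hA c h
    · refine (mul_le_mul_of_nonneg_right h5 (by positivity)).trans (le_of_eq ?_)
      rw [← exp_nat_mul, ← exp_add]; congr 1; ring
  have hd1 : exp (-(5 * lam)) ≤ 1 := exp_le_one_iff.2 (by linarith)
  rcases le_total |ev z (T'.th c₀)| (exp lam) with hB | hB
  swap
  · refine two c₀ c₀ ?_ (by linarith)
    linarith [abs_sub_abs_le_abs_sub (ev z (T'.th c₀)) (ev z (T.th c₀))]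
  set u := -π * (ev z (T.th c₀) ^ 2 - ev z (T'.th c₀) ^ 2) with hu
  have hw : T.wgt z = T'.wgt z * exp u := by
    have : ∑ c ∈ univ.erase c₀, ev z (T'.th c) ^ 2 = ∑ c ∈ univ.erase c₀, ev z (T.th c) ^ 2 :=
      sum_congr rfl fun c hc => by rw [h1 c (ne_of_mem_erase hc)]
    rw [Tri.wgt, Tri.wgt, ← exp_add, ← add_sum_erase _ _ (mem_univ c₀),
      ← add_sum_erase _ (fun c => ev z (T'.th c) ^ 2) (mem_univ c₀), this]
    congr 1; rw [hu]; ring
  have e5 : exp (-(5 * lam)) * exp lam ^ 3 = exp (-(2 * lam)) := by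
    rw [← exp_nat_mul, ← exp_add]; congr 1; push_cast; ring
  have hu1 : 2 * |u| ≤ exp (-(2 * lam)) := by
    rw [hu, abs_mul, abs_neg, abs_of_pos pi_pos, sq_sub_sq, abs_mul, abs_sub_comm, ← e5]
    have h7 : |ev z (T.th c₀) + ev z (T'.th c₀)| ≤ 3 * exp lam := by
      have := abs_add_le (ev z (T.th c₀)) (ev z (T'.th c₀))
      linarith [abs_sub_abs_le_abs_sub (ev z (T.th c₀)) (ev z (T'.th c₀)),
        abs_sub_comm (ev z (T.th c₀)) (ev z (T'.th c₀))]
    calc _ ≤ 2 * (4 * (3 * exp lam * exp (-(5 * lam)))) := by gcongr; exact pi_le_four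
      _ = exp (-(5 * lam)) * (exp lam * 24) := by ring
      _ ≤ _ := by
        rw [pow_succ']
        gcongr
        nlinarith
  have he1 : exp (-(2 * lam)) ≤ 1 := exp_le_one_iff.2 (by linarith)
  have h8 := abs_exp_sub_one_le (x := u) (by linarith [abs_nonneg u])
  rw [hw, ← mul_sub_one, abs_mul, abs_of_pos (T'.wgt_pos z), mul_comm]
  have := (wid T).wgt_pos z
  have := (wid T').wgt_pos z
  exact (mul_le_mul_of_nonneg_right (h8.trans hu1) (T'.wgt_nonneg z)).trans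
    (le_add_of_nonneg_right (by positivity))

end Rep56

open Rep56 in
theorem repStmt : RepStmt := by
  intro ι _ T T' c₀ e s lam X h h0 h1 h2 h3 h4 h5 h6 h7 h8 h9 h10
  have hmu : T'.mu = T.mu := by rw [Tri.mu, h0, Tri.mu]
  have hkt : kt T' = kt T := by rw [kt, h0, kt]
  have he := exp_pos (-(2 * lam))
  have s1 := T.summable_mul_real h9
  have s2 := T'.summable_mul_real (f := fun z => h z + 2 * exp (-(2 * lam)))
    (K := 2 + 2 * exp (-(2 * lam))) fun z => (abs_add_le _ _).trans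
      (add_le_add (h9 z) (abs_of_pos (by positivity)).le)
  have s3 := ((wid T).summable_wgt.add (wid T').summable_wgt).mul_left (2 * exp (-(exp lam + 3)))
  have key := s1.tsum_le_tsum (fun z => by
    have k1 := ptw h1 h2 h3 h4 h5 h6 z
    have k2 : (T.wgt z - T'.wgt z) * h z ≤ |T.wgt z - T'.wgt z| * 2 :=
      (le_abs_self _).trans (by rw [abs_mul]; exact mul_le_mul_of_nonneg_left (h9 z) (abs_nonneg _))
    linarith) (s2.add s3)
  rw [s2.tsum_add s3, tsum_mul_left, (wid T).summable_wgt.tsum_add (wid T').summable_wgt] at key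
  have m1 := wid_M_le T
  have m2 := wid_M_le T'
  rw [hmu, hkt] at m2
  have hp := T.mu_pos
  have m3 : exp (-(exp lam + 3)) * exp (kt T + Fintype.card ι) ≤ exp (-X) * 8⁻¹ := by
    have h3 : exp (-3) ≤ 8⁻¹ := by
      rw [exp_neg]
      refine inv_anti₀ (by norm_num) ?_
      calc (8 : ℝ) = (1 + 1) ^ 3 := by norm_num
        _ ≤ exp 1 ^ 3 := by gcongr; exact add_one_le_exp 1
        _ = _ := by rw [← exp_nat_mul]; norm_num
    calc _ ≤ exp (-X) * exp (-3) := by rw [← exp_add, ← exp_add]; exact exp_le_exp.2 (by linarith)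
      _ ≤ _ := by gcongr
  have m4 : exp (-(X + 1)) ≤ exp (-X) * 2⁻¹ := by
    rw [neg_add, exp_add, exp_neg 1]
    gcongr
    linarith [add_one_le_exp 1]
  have m5 : 2 * exp (-(exp lam + 3)) * ((wid T).M + (wid T').M) ≤ exp (-X) * 2⁻¹ * T.mu := by
    calc _ ≤ 2 * exp (-(exp lam + 3)) * (exp (kt T + Fintype.card ι) * T.mu
          + exp (kt T + Fintype.card ι) * T.mu) := by gcongr
      _ = 4 * (exp (-(exp lam + 3)) * exp (kt T + Fintype.card ι)) * T.mu := by ring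
      _ ≤ 4 * (exp (-X) * 8⁻¹) * T.mu := by gcongr
      _ = _ := by ring
  rw [hmu]
  have m6 := mul_le_mul_of_nonneg_right m4 hp.le
  unfold Sg at h10 ⊢
  unfold Tri.M at m5
  linarith

end Crest.Agent.T49.Rg
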