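import Crest.Agent.T49.RegDemDef_4
import Crest.Agent.T49.RegGiv_4
import Crest.Agent.T49.RegRep_56

/-!
# Row 49 (helper4): the one-step demotion theorem
-/

set_option autoImplicit false
set_option linter.unusedSectionVars false

open MvPolynomial

noncomputable section

namespace Crest.Agent.T49.Rg

open Tw

namespace D4
variable {ι : Type}

theorem ne_zero_of_hom {w : ι → ℕ} {f : Pl ι} {k : ℕ} (hf : IsWeightedHomogeneous w f k)
    (hk : 0 < k) {m : ι →₀ ℕ} (hm : m ∈ f.support) : m ≠ 0 := by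
  rintro rfl
  have := hf (mem_support_iff.1 hm)
  rw [map_zero] at this
  omega

theorem nrm_shrink {w : ι → ℕ} {f : Pl ι} {k : ℕ} (hf : IsWeightedHomogeneous w f k)
    (hk : 0 < k) {δ : ℝ} (h0 : 0 ≤ δ) (h1 : δ ≤ 1) :
    nrm (bind₁ (fun c => (C δ * X c : Pl ι)) f) ≤ δ * nrm f := by
  classical
  refine (nrm_bind_le_sum _ _).trans ?_
  rw [nrm, Finset.mul_sum]
  refine Finset.sum_le_sum fun m hm => ?_
  rw [mul_comm δ]
  refine mul_le_mul_of_nonneg_left ?_ (abs_nonneg _)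
  obtain ⟨c, hc⟩ := Finsupp.support_nonempty_iff.2 (ne_zero_of_hom hf hk hm)
  have e : ∀ c, nrm (C δ * X c : Pl ι) = δ := fun c => by simp [abs_of_nonneg h0]
  simp only [e]
  rw [← Finset.mul_prod_erase _ _ hc]
  refine (mul_le_of_le_one_right (pow_nonneg h0 _)
    (Finset.prod_le_one (fun _ _ => pow_nonneg h0 _) fun _ _ => pow_le_one₀ h0 h1)).trans ?_
  exact pow_le_of_le_one h0 h1 (Finsupp.mem_support_iff.1 hc)

theorem dil_int {w : ι → ℕ} {f : Pl ι} {k : ℕ} (hf : IsWeightedHomogeneous w f k) (hk : 0 < k)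
    (hI : IsInt f) {S : Set ι} (hS : f ∈ supported ℝ S) (d : ℕ) :
    ∃ J : Pl ι, IsInt J ∧ J ∈ supported ℝ S ∧ IsWeightedHomogeneous w J k ∧
      bind₁ (fun c => (C (d : ℝ) * X c : Pl ι)) f = C (d : ℝ) * J := by
  classical
  refine ⟨∑ m ∈ f.support, monomial m ((d : ℝ) ^ (Finsupp.weight (fun _ => 1) m - 1) * coeff m f),
    isInt_sum fun m _ => ?_, sum_mem fun m hm => ?_,
    IsWeightedHomogeneous.sum _ _ _ fun m hm => ?_, ?_⟩
  · obtain ⟨n, hn⟩ := hI m
    have := isInt_monomial m ((d : ℤ) ^ (Finsupp.weight (fun _ => 1) m - 1) * n)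
    rwa [Int.cast_mul, Int.cast_pow, Int.cast_natCast, ← hn] at this
  · refine mem_supported_iff.2 fun m' hm' c hc => ?_
    rw [Finset.mem_singleton.1 (support_monomial_subset hm')] at hc
    exact mem_supported_iff.1 hS m hm c hc
  · exact isWeightedHomogeneous_monomial _ _ _ (hf (mem_support_iff.1 hm))
  · conv_lhs => rw [f.as_sum, map_sum]
    rw [Finset.mul_sum]
    refine Finset.sum_congr rfl fun m hm => ?_
    have h1 := bind_dilate (w := fun _ : ι => 1) (g := (X : ι → Pl ι)) (C (d : ℝ))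
      (isWeightedHomogeneous_monomial (fun _ : ι => 1) m (coeff m f) rfl)
    simp only [pow_one, bind₁_X_left, AlgHom.id_apply] at h1
    obtain ⟨c, hc⟩ := Finsupp.support_nonempty_iff.2 (ne_zero_of_hom hf hk hm)
    have h2 : 1 ≤ Finsupp.weight (fun _ : ι => 1) m := weight_pos_le (fun _ => 1) m hc
    rw [h1, ← C_pow, C_mul_monomial, C_mul_monomial, ← mul_assoc, ← pow_succ',
      Nat.sub_add_cancel h2]

variable [Fintype ι] {o s j : ℕ} {T : Cell ι} {cl : ι → ℕ}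

theorem rel_of_viol (hS : St o s T cl) (hj : o < j) {H Λ : ℝ} (h : ¬ T.RegAtM cl j H Λ) :
    ∃ (ξ : ι → ℝ) (b : ℕ) (e : Pl ι), ξ ≠ 0 ∧ Rel T cl j ξ b e ∧ ∑ c, |ξ c| ≤ H ∧ 1 ≤ b ∧
      (b : ℝ) ≤ Λ ∧ IsWeightedHomogeneous T.lev e (j - o) ∧ nrm e ≤ Λ := by
  classical
  unfold Cell.RegAtM at h
  push Not at h
  obtain ⟨w, ξ, b, e, h1, h2, h3, h4, h5, h6, h7, h8, h9, h0⟩ := h
  have hl : ∀ c, cl c = j → T.lev c = j - o := fun c hc => by
    have := hS.lev_eq (c := c) (by omega)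
    omega
  have hw : w = j - o := by
    obtain ⟨c, hc⟩ := Function.ne_iff.1 h0
    rw [← hl c (by by_contra h; exact hc (h1.1 c h))]
    by_contra h
    exact hc (h2 c (Ne.symm h))
  subst hw
  refine ⟨ξ, b, e, h0, ⟨h1.1, ?_, h7, h9⟩, h3, h4, h5, h6, h8⟩
  choose! n hn using h1.2
  refine ⟨∑ c ∈ Finset.univ.filter (fun c => cl c = j), monomial (Finsupp.single c 1) (n c : ℝ),
    isInt_sum fun c _ => isInt_monomial _ _, mem_supported_iff.2 fun m hm c hc => ?_⟩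
  have hsupp : T.dotT ξ ∈ supported ℝ {c | cl c ≤ j} := by
    refine sum_mem fun c _ => ?_
    by_cases h : cl c = j
    · exact mul_mem (C_mem_supp _ _) (hS.tth_mem hj.le h.le)
    · rw [h1.1 c h, C_0, zero_mul]; exact zero_mem _
  have hhom : IsWeightedHomogeneous T.lev (T.dotT ξ) (j - o) := by
    refine IsWeightedHomogeneous.sum _ _ _ fun c _ => ?_
    by_cases h : cl c = j
    · exact hl c h ▸ hom_C_mul (T.tth_hom c) _
    · rw [h1.1 c h, C_0, zero_mul]; exact isWeightedHomogeneous_zero _ _ _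
  rw [mem_support_iff, coeff_sub, coeff_sum] at hm
  by_cases hex : ∃ c', cl c' = j ∧ m = Finsupp.single c' 1
  · obtain ⟨c', hc', rfl⟩ := hex
    refine absurd ?_ hm
    rw [Finset.sum_eq_single c' (fun c'' _ h => by
      rw [coeff_monomial, if_neg fun h' => h ((Finsupp.single_left_inj one_ne_zero).1 h')])
      (fun h => absurd (by simpa using hc') h), coeff_monomial, if_pos rfl, hn c' hc', sub_self]
  · push Not at hex
    rw [Finset.sum_eq_zero (fun c' hc' => by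
      rw [coeff_monomial, if_neg (Ne.symm (hex c' (Finset.mem_filter.1 hc').2))]), sub_zero] at hm
    have h1 : cl c ≤ j := mem_supported_iff.1 hsupp m (mem_support_iff.2 hm) c hc
    refine lt_of_le_of_ne h1 fun h2 => hex c h2 ?_
    exact Top71.eq_single_of_weight T.lev_pos hc ((hhom hm).trans (hl c h2).symm).le

theorem low_of_min (hS : St o s T cl) {c₀ : ι} (hc : o < cl c₀)
    (hmin : ∀ c, cl c = cl c₀ → T.rk c₀ ≤ T.rk c) :
    T.B c₀ ∈ supported ℝ {c | cl c ≤ cl c₀ - 1} := by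
  refine supported_mono (fun c (h : T.rk c < T.rk c₀) => ?_) (T.B_mem c₀)
  show cl c ≤ cl c₀ - 1
  rcases lt_trichotomy (cl c) (cl c₀) with h1 | h1 | h1
  · omega
  · have := hmin c h1; omega
  · have := hS.mono c₀ c (by omega) h1; omega

open Classical in
theorem dotT_single (T : Cell ι) (c₀ : ι) (ρ : ℝ) :
    T.dotT (Pi.single c₀ ρ) = C ρ * T.tth c₀ := by
  rw [Cell.dotT, Finset.sum_eq_single c₀ (fun c _ hc => by
    rw [Pi.single_eq_of_ne hc, C_0, zero_mul]) (by simp), Pi.single_eq_same]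

open Classical in
theorem post (hS : St o s T cl) {c₀ : ι} (hc : o < cl c₀)
    (hmin : ∀ c, cl c = cl c₀ → T.rk c₀ ≤ T.rk c) {ρ : ℝ} (hρ : ρ ≠ 0) {b : ℕ} (hb : 1 ≤ b)
    {e : Pl ι} (hR : Rel T cl (cl c₀) (Pi.single c₀ ρ) b e)
    (he : IsWeightedHomogeneous T.lev e (T.lev c₀)) :
    ∃ k : ℤ, k ≠ 0 ∧ ρ * T.a c₀ = k ∧ ∀ d : ℕ+, (d : ℕ) = b * k.natAbs → ∀ u r t,
      ∃ J : Pl ι, IsInt J ∧ J ∈ supported ℝ {c | cl c ≤ cl c₀ - 1} ∧
        IsWeightedHomogeneous T.lev J (T.lev c₀) ∧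
        (zo T cl (cl c₀ - 1) d u r t).tth c₀ + (zo T cl (cl c₀ - 1) d u r t).TTh
          (C (b * ρ)⁻¹ * bind₁ (fun c => C (Real.exp (-u)) * X c) e) =
          C (T.a c₀) * (X c₀ + J) := by
  have hB := whc_mem_supported T.lev (T.lev c₀) (low_of_min hS hc hmin)
  have hlow : e ∈ supported ℝ {c | cl c ≤ cl c₀ - 1} :=
    supported_mono (fun c (h : cl c < cl c₀) => show cl c ≤ _ by omega) hR.low
  have hn : ¬ cl c₀ ≤ cl c₀ - 1 := by omega
  obtain ⟨L, hL, hL'⟩ := hR.dual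
  obtain ⟨k, hk⟩ := hL (Finsupp.single c₀ 1)
  have h1 := G4.coeff_low hL' (c := c₀) (by simp)
  rw [dotT_single, coeff_sub, hk, coeff_C_mul, T.tth_eq, coeff_add, coeff_C_mul, coeff_X,
    if_pos rfl, mul_one, Cell.top, G4.coeff_low hB hn, add_zero, sub_eq_zero] at h1
  have hk0 : k ≠ 0 := by
    rintro rfl
    exact mul_ne_zero hρ (T.a_ne c₀) (by simpa using h1)
  refine ⟨k, hk0, h1, fun d hd u r t => ?_⟩
  have hb0 : (b : ℝ) ≠ 0 := by positivity
  set I' : Pl ι := C (b * ρ) * T.top (T.lev c₀) (T.B c₀) + T.TTh e with hI'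
  have hI : IsInt I' := by
    have h2 := hR.int.sub ((isInt_X c₀).int_mul (b * k))
    rw [dotT_single, T.tth_eq, Int.cast_mul, Int.cast_natCast, ← h1] at h2
    convert h2 using 1
    simp only [hI', map_mul]
    ring
  obtain ⟨J, hJ1, hJ2, hJ3, hJ4⟩ := dil_int (f := I')
    ((hom_C_mul (T.top_hom _ _) _).add (T.TTh_hom he)) (T.lev_pos c₀) hI
    (add_mem (mul_mem (C_mem_supp _ _) hB) (hS.TTh_mem (by omega) hlow)) d
  set g : ι → Pl ι := fun c => C (((wG T cl (cl c₀ - 1) d c : ℕ+) : ℕ) : ℝ) * X c with hg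
  have hgd : ∀ {f}, f ∈ supported ℝ {c | cl c ≤ cl c₀ - 1} →
      bind₁ g f = bind₁ (fun c => (C ((d : ℕ) : ℝ) * X c : Pl ι)) f := fun hf =>
    bind_congr_supp (fun c (h : cl c ≤ _) => by simp only [hg, wG, if_pos h]) hf
  have e1 : (zo T cl (cl c₀ - 1) d u r t).tth c₀ =
      C (T.a c₀) * X c₀ + bind₁ g (T.top (T.lev c₀) (T.B c₀)) := by
    rw [zo, zm_tth, if_neg hn, Real.exp_zero, C_1, one_mul, T.tth_eq, map_add, map_mul,
      bind₁_C_right, bind₁_X_right]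
    simp only [wG, if_neg hn, PNat.val_ofNat, Nat.cast_one, C_1, one_mul]
    rfl
  have e2 : (zo T cl (cl c₀ - 1) d u r t).TTh (bind₁ (fun c => C (Real.exp (-u)) * X c) e) =
      bind₁ g (T.TTh e) := by
    rw [Cell.TTh, Cell.TTh, bind₁_bind₁, bind₁_bind₁]
    refine bind_congr_supp (fun c (h : cl c ≤ _) => ?_) hlow
    rw [map_mul, bind₁_C_right, bind₁_X_right, zo, zm_tth, if_pos h, ← mul_assoc, ← C_mul,
      ← Real.exp_add, neg_add_cancel, Real.exp_zero, C_1, one_mul]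
  have e3 : bind₁ g I' = C ((d : ℕ) : ℝ) * J := by
    rw [← hJ4]
    exact hgd (add_mem (mul_mem (C_mem_supp _ _) hB) (hS.TTh_mem (by omega) hlow))
  have e4 : (b * ρ)⁻¹ * ((d : ℕ) : ℝ) = T.a c₀ * (k.sign : ℝ) := by
    have h2 : ((k.natAbs : ℕ) : ℝ) = k * k.sign := by
      rw [← Int.cast_mul, Int.mul_sign_self, Int.cast_natCast]
    rw [hd, Nat.cast_mul, h2, ← h1]
    field_simp
  refine ⟨C (k.sign : ℝ) * J, hJ1.int_mul _, mul_mem (C_mem_supp _ _) hJ2, hom_C_mul hJ3 _, ?_⟩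
  have e5 : (C (b * ρ)⁻¹ : Pl ι) * C (b * ρ) = 1 := by
    rw [← C_mul, inv_mul_cancel₀ (mul_ne_zero hb0 hρ), C_1]
  have e6 : (C (b * ρ)⁻¹ : Pl ι) * C ((d : ℕ) : ℝ) = C (T.a c₀) * C (k.sign : ℝ) := by
    rw [← C_mul, e4, C_mul]
  rw [map_mul, Cell.TTh_C, e1, e2]
  rw [hI', map_add, map_mul, bind₁_C_right] at e3
  linear_combination (C (b * ρ)⁻¹ : Pl ι) * e3 -
    bind₁ g (T.top (T.lev c₀) (T.B c₀)) * e5 + J * e6

/-! ### sizes under zooms -/

section zoom
variable (T) (cl) (p : ℕ) (d : ℕ+) {u : ℝ} (r : ι → ℤ) (t : ι → ℝ)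

theorem zo_a_gt {c : ι} (h : p < cl c) : (zo T cl p d u r t).a c = T.a c := by
  simp [zo, zm_a, wG, not_le.2 h]

theorem log_d_nonneg : 0 ≤ Real.log ((d : ℕ) : ℝ) :=
  Real.log_nonneg (by exact_mod_cast d.pos)

theorem zo_abs (hu : 0 ≤ u) (c : ι) : |(zo T cl p d u r t).a c| ≤
    |T.a c| * Real.exp (Real.log ((d : ℕ) : ℝ) + u) := by
  have hd : (0 : ℝ) < (d : ℕ) := by exact_mod_cast d.pos
  by_cases h : cl c ≤ p
  · rw [Real.exp_add, Real.exp_log hd]
    simp [zo, zm_a, wG, h, abs_mul, mul_assoc]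
  · rw [zo_a_gt T cl p d r t (not_le.1 h)]
    exact le_mul_of_one_le_right (abs_nonneg _)
      (Real.one_le_exp (add_nonneg (log_d_nonneg d) hu))

theorem zo_log1 (hu : 0 ≤ u) (c : ι) : Real.log (1 + |(zo T cl p d u r t).a c|) ≤
    Real.log (1 + |T.a c|) + (Real.log ((d : ℕ) : ℝ) + u) := by
  have h1 := zo_abs T cl p d r t hu c
  have h2 := Real.one_le_exp (add_nonneg (log_d_nonneg d) hu)
  rw [← Real.log_exp (Real.log ((d : ℕ) : ℝ) + u), ← Real.log_mul (by positivity) (by positivity)]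
  exact Real.log_le_log (by positivity) (by nlinarith)

theorem zo_log (hu : 0 ≤ u) (c : ι) : Real.log |(zo T cl p d u r t).a c| ≤
    Real.log |T.a c| + (Real.log ((d : ℕ) : ℝ) + u) := by
  rw [← Real.log_exp (Real.log ((d : ℕ) : ℝ) + u),
    ← Real.log_mul (abs_ne_zero.2 (T.a_ne c)) (by positivity)]
  exact Real.log_le_log (abs_pos.2 ((zo T cl p d u r t).a_ne c)) (zo_abs T cl p d r t hu c)

theorem sum_le_add {S : Finset ι} {f g : ι → ℝ} {β n : ℝ} (hβ : 0 ≤ β)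
    (hn : (Fintype.card ι : ℝ) ≤ n) (h : ∀ c, f c ≤ g c + β) :
    ∑ c ∈ S, f c ≤ ∑ c ∈ S, g c + n * β := by
  refine (Finset.sum_le_sum fun c _ => h c).trans ?_
  rw [Finset.sum_add_distrib, Finset.sum_const, nsmul_eq_mul]
  exact add_le_add le_rfl (mul_le_mul_of_nonneg_right
    (le_trans (by exact_mod_cast S.card_le_univ) hn) hβ)

theorem zo_kapM (hu : 0 ≤ u) {n : ℝ} (hn : (Fintype.card ι : ℝ) ≤ n) (i : ℕ) :
    (zo T cl p d u r t).kapM cl i ≤ T.kapM cl i + n * (Real.log ((d : ℕ) : ℝ) + u) := by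
  rw [Cell.kapM, Cell.kapM, add_assoc]
  exact add_le_add le_rfl (sum_le_add (add_nonneg (log_d_nonneg d) hu) hn fun c => by
    linarith [zo_log1 T cl p d r t hu c])

theorem zo_kapM_gt {i : ℕ} (h : p < i) : (zo T cl p d u r t).kapM cl i = T.kapM cl i := by
  rw [Cell.kapM, Cell.kapM]
  congr 1
  exact Finset.sum_congr rfl fun c hc => by
    rw [zo_a_gt T cl p d r t (by rw [(Finset.mem_filter.1 hc).2]; exact h)]

theorem zo_kt (hu : 0 ≤ u) {n : ℝ} (hn : (Fintype.card ι : ℝ) ≤ n) :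
    kt (zo T cl p d u r t).toTri ≤ kt T.toTri + n * (Real.log ((d : ℕ) : ℝ) + u) :=
  sum_le_add (add_nonneg (log_d_nonneg d) hu) hn (zo_log1 T cl p d r t hu)

theorem zo_lm (hu : 0 ≤ u) {n : ℝ} (hn : (Fintype.card ι : ℝ) ≤ n) (i : ℕ) :
    lm (zo T cl p d u r t).toTri cl i ≤ lm T.toTri cl i + n * (Real.log ((d : ℕ) : ℝ) + u) :=
  sum_le_add (add_nonneg (log_d_nonneg d) hu) hn (zo_log T cl p d r t hu)

theorem zo_lm_gt {i : ℕ} (h : p < i) : lm (zo T cl p d u r t).toTri cl i = lm T.toTri cl i :=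
  Finset.sum_congr rfl fun c hc => by
    rw [show (zo T cl p d u r t).toTri.a c = T.a c from
      zo_a_gt T cl p d r t (by rw [(Finset.mem_filter.1 hc).2]; exact h)]

end zoom

theorem term_le_kapM (T : Cell ι) (cl : ι → ℕ) (c : ι) :
    1 + Real.log (1 + |T.a c|) ≤ T.kapM cl (cl c) := by
  rw [Cell.kapM]
  have := Finset.single_le_sum (f := fun c => 1 + Real.log (1 + |T.a c|))
    (s := Finset.univ.filter fun c' => cl c' = cl c) (fun c _ => by
      linarith [Real.log_nonneg (show 1 ≤ 1 + |T.a c| by linarith [abs_nonneg (T.a c)])])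
    (show c ∈ _ by simp)
  linarith

theorem kapM_congr {T T' : Cell ι} {i : ℕ} (h : ∀ c, cl c = i → T'.a c = T.a c) :
    T'.kapM cl i = T.kapM cl i := by
  rw [Cell.kapM, Cell.kapM]
  congr 1
  exact Finset.sum_congr rfl fun c hc => by rw [h c (Finset.mem_filter.1 hc).2]

theorem pot_congr {T T' : Cell ι} (h : T'.lev = T.lev) : pot T' cl o = pot T cl o := by
  rw [pot, pot, h]

open Classical in
/-- the second half of the step: from a relation on the lowest atom of its class -/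
theorem half (hS : St o s T cl) {c₀ : ι} (hc : o < cl c₀)
    (hmin : ∀ c, cl c = cl c₀ → T.rk c₀ ≤ T.rk c) {ρ : ℝ} (hρ : ρ ≠ 0) {b : ℕ} (hb : 1 ≤ b)
    {e : Pl ι} (hR : Rel T cl (cl c₀) (Pi.single c₀ ρ) b e)
    (he : IsWeightedHomogeneous T.lev e (T.lev c₀)) {τ η lam X n Y : ℝ} (hτ : 0 ≤ τ)
    (hη : 0 ≤ η) (hητ : η ≤ τ + lam) (hlam : 3 ≤ lam) (hX : 0 ≤ X)
    (hn : (Fintype.card ι : ℝ) ≤ n) (hbτ : (b : ℝ) ≤ Real.exp τ) (heτ : nrm e ≤ Real.exp τ)
    (hρη : |ρ| ≤ Real.exp η) (ha : 1 + |T.a c₀| ≤ Real.exp τ)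
    (hY : cl c₀ = o + 2 → 2 * η ≤ Y)
    (hk : X + kt T.toTri + n * (5 * τ + (s + 6) * lam) + n ≤ Real.exp lam)
    {h : (ι → ℤ) → ℝ} (hh : ∀ z, |h z| ≤ 2) (hs : Real.exp (-X) * T.mu ≤ Sg T.toTri h) :
    ∃ (ι' : Type) (_ : Fintype ι') (T' : Cell ι') (cl' : ι' → ℕ) (φ : ι → Pl ι') (v : ι' → ι)
      (G : ℕ+) (u : ℝ), Mor o T cl T' cl' φ v G u Y ∧ St o s T' cl' ∧
      pot T' cl' o < pot T cl o ∧ ((G : ℕ) : ℝ) ≤ Real.exp (3 * τ + lam) ∧
      u ≤ 2 * τ + (s + 5) * lam ∧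
      (∀ i, o < i → T'.kapM cl' i ≤ T.kapM cl i +
        if i < cl c₀ then n * (5 * τ + (s + 6) * lam) + (1 + τ) else 0) ∧
      lm T'.toTri cl' (o + 1) ≤ lm T.toTri cl (o + 1) +
        (if o + 1 < cl c₀ then n * (5 * τ + (s + 6) * lam) + τ else η) ∧
      kt T'.toTri ≤ kt T.toTri + n * (5 * τ + (s + 6) * lam) ∧
      Real.exp (-(X + 1 + τ)) * T'.mu ≤
        Sg T'.toTri fun z => h (pt φ z) + 2 * Real.exp (-(2 * lam)) := by
  obtain ⟨k, hk0, hk1, hpost⟩ := post hS hc hmin hρ hb hR he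
  have hn0 : 0 ≤ n := (Nat.cast_nonneg _).trans hn
  have hs0 : (0 : ℝ) ≤ s := Nat.cast_nonneg _
  have ha0 := abs_pos.2 (T.a_ne c₀)
  have hρ0 := abs_pos.2 hρ
  have hk2 : (1 : ℝ) ≤ |ρ| * |T.a c₀| := by
    rw [← abs_mul, hk1]; exact_mod_cast Int.one_le_abs hk0
  have haτ : |T.a c₀| ≤ Real.exp τ := by linarith
  have haη : Real.exp (-η) ≤ |T.a c₀| := by
    rw [Real.exp_neg, inv_le_comm₀ (Real.exp_pos _) ha0]
    exact le_trans (by rw [inv_le_iff_one_le_mul₀ ha0]; exact hk2) hρη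
  set d : ℕ+ := ⟨b * k.natAbs, Nat.mul_pos hb (Int.natAbs_pos.2 hk0)⟩ with hd
  have hdle : ((d : ℕ) : ℝ) ≤ Real.exp (3 * τ + lam) := by
    have h1 : ((d : ℕ) : ℝ) = b * (|ρ| * |T.a c₀|) := by
      rw [← abs_mul, hk1, hd, PNat.mk_coe, Nat.cast_mul, Nat.cast_natAbs, Int.cast_abs]
    rw [h1]
    refine (mul_le_mul hbτ (mul_le_mul hρη haτ ha0.le (Real.exp_pos _).le) (by positivity)
      (Real.exp_pos _).le).trans ?_
    rw [← Real.exp_add, ← Real.exp_add]
    exact Real.exp_le_exp.2 (by linarith)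
  have hdlog : Real.log ((d : ℕ) : ℝ) ≤ 3 * τ + lam :=
    (Real.log_le_iff_le_exp (by exact_mod_cast d.pos)).2 hdle
  set u : ℝ := 2 * τ + (s + 5) * lam with hu
  have hu0 : 0 ≤ u := by positivity
  have hβ : n * (Real.log ((d : ℕ) : ℝ) + u) ≤ n * (5 * τ + (s + 6) * lam) :=
    mul_le_mul_of_nonneg_left (by linarith) hn0
  obtain ⟨r, t, h3⟩ := zmStmt ι T (wG T cl (cl c₀ - 1) d) (fun c => if cl c ≤ cl c₀ - 1 then u else 0)
    h 2 _ (fun c => by split_ifs <;> simp [hu0]) hh (Real.exp_pos _) hs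
  obtain ⟨J, hJ1, hJ2, hJ3, hJ4⟩ := hpost d rfl u r t
  have m3 := zo_mor (o := o) (p := cl c₀ - 1) (by omega) T cl d hu0 r t Y
  change _ * (zo T cl (cl c₀ - 1) d u r t).mu ≤ Sg (zo T cl (cl c₀ - 1) d u r t).toTri _ at h3
  have hS3 : St o s (zo T cl (cl c₀ - 1) d u r t) cl := zm_st hS _ _ _ _
  have k3 := zo_kt T cl (cl c₀ - 1) d r t hu0 hn
  have a3 : (zo T cl (cl c₀ - 1) d u r t).a c₀ = T.a c₀ := zo_a_gt T cl _ d r t (by omega)
  have q3 := zo_kapM T cl (cl c₀ - 1) d r t hu0 hn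
  have q3' := fun i => zo_kapM_gt T cl (cl c₀ - 1) d r t (u := u) (i := i)
  have l3 := zo_lm T cl (cl c₀ - 1) d r t hu0 hn (o + 1)
  have l3' := zo_lm_gt T cl (cl c₀ - 1) d r t (u := u) (i := o + 1)
  have rk3 : (zo T cl (cl c₀ - 1) d u r t).rk = T.rk := rfl
  have lev3 : (zo T cl (cl c₀ - 1) d u r t).lev = T.lev := rfl
  generalize zo T cl (cl c₀ - 1) d u r t = T3 at *
  set e3 : Pl ι := C (b * ρ)⁻¹ * bind₁ (fun c => C (Real.exp (-u)) * MvPolynomial.X c) e with he3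
  have hlow : e ∈ supported ℝ {c | cl c ≤ cl c₀ - 1} :=
    supported_mono (fun c (h : cl c < cl c₀) => show cl c ≤ _ by omega) hR.low
  have he3a : e3 ∈ supported ℝ {c | cl c ≤ cl c₀ - 1} := mul_mem (C_mem_supp _ _)
    (bind_mem_supported (fun c hc => mul_mem (C_mem_supp _ _) (X_mem_supp hc)) hlow)
  have he3b : IsWeightedHomogeneous T3.lev e3 (T3.lev c₀) := by
    rw [lev3]
    exact hom_C_mul (hom_bind' (fun c => hom_C_mul (isWeightedHomogeneous_X ℝ T.lev c) _) he) _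
  have he3c : nrm e3 ≤ Real.exp (-((s + 5) * lam)) := by
    have h1 := nrm_shrink he (T.lev_pos c₀) (Real.exp_pos (-u)).le
      (Real.exp_le_one_iff.2 (by linarith))
    have h2 : |(b * ρ)⁻¹| ≤ Real.exp τ := by
      have hb' : (1 : ℝ) ≤ b := by exact_mod_cast hb
      rw [abs_inv, abs_mul, abs_of_nonneg (by linarith : (0 : ℝ) ≤ b),
        inv_le_iff_one_le_mul₀ (by positivity)]
      nlinarith [mul_le_mul_of_nonneg_left haτ hρ0.le]
    rw [he3, nrm_C_mul]
    refine (mul_le_mul h2 (h1.trans (mul_le_mul_of_nonneg_left heτ (Real.exp_pos _).le))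
      (nrm_nonneg _) (Real.exp_pos _).le).trans ?_
    rw [← Real.exp_add, ← Real.exp_add]
    exact Real.exp_le_exp.2 (by linarith)
  obtain ⟨T4, m4, hS4, rk4, a4, lev4, B4, th4, th4'⟩ :=
    exists_rep hS3 hc he3a (DegLe.of_hom he3b) Y
  have h4 := repStmt ι T3.toTri T4.toTri c₀ e3 s lam X _ a4 th4 th4'
    (supported_mono (fun c (h : cl c ≤ _) => by rintro rfl; omega) he3a)
    (fun m hm => ((DegLe.of_hom he3b).degree_le T3.lev_pos m hm).trans (hS3.lev_le c₀))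
    he3c hlam hX (by linarith) (fun z => hh _) h3
  obtain ⟨T5, φ5, m5, hS5, rk5, a5, lev5, B5, -, sg5⟩ := exists_shear hS4 hc hJ1 hJ2
    (by rw [lev4, lev3]; exact DegLe.of_hom hJ3) Y
  have mu5 : T5.mu = T4.mu := by rw [Tri.mu, Tri.mu, a5]
  rw [← sg5, ← mu5] at h4
  have hmin5 : ∀ c, cl c = cl c₀ → T5.rk c₀ ≤ T5.rk c := by rw [rk5, rk4, rk3]; exact hmin
  have hd5 : DegLe T5.lev (T5.B c₀) (T5.lev c₀ - 1) := by
    have h1 := T5.lev_pos c₀
    refine DegLe.of_whc_eq_zero (by rw [Nat.sub_add_cancel h1]; exact T5.deg c₀) ?_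
    rw [Nat.sub_add_cancel h1, B5, B4, lev5, lev4, a4]
    change T3.top _ _ = 0
    rw [T3.top_sub, T3.top_add, T3.top_Th (DegLe.of_hom he3b), T3.top_of_hom he3b,
      T3.top_of_hom (hom_C_mul (by rw [lev3]; exact hJ3) _)]
    rw [T3.tth_eq, a3] at hJ4
    rw [a3]
    linear_combination hJ4
  have a5' : T5.a = T3.a := a5.trans a4
  have hb5 : ∀ z, |h (pt (dl (wG T cl (cl c₀ - 1) d) r) (pt φ5 z)) +
      2 * Real.exp (-(2 * lam))| ≤ 4 := fun z => by
    refine (abs_add_le _ _).trans ?_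
    have h1 : Real.exp (-(2 * lam)) ≤ 1 := Real.exp_le_one_iff.2 (by linarith)
    rw [abs_of_pos (by positivity : 0 < 2 * Real.exp (-(2 * lam)))]
    linarith [hh (pt (dl (wG T cl (cl c₀ - 1) d) r) (pt φ5 z))]
  have hdem : Dem o s T5 cl c₀ Y (Real.exp (-(X + 1))) fun z =>
      h (pt (dl (wG T cl (cl c₀ - 1) d) r) (pt φ5 z)) + 2 * Real.exp (-(2 * lam)) := by
    by_cases h1 : cl c₀ = o + 1
    · refine dem_slice hS5 h1 ?_ Y hb5 (Real.exp_pos _) h4
      have := hS5.lev_eq hc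
      rwa [show T5.lev c₀ - 1 = 0 by omega] at hd5
    · refine dem_relevel hS5 (by omega) hmin5 (low_of_min hS5 hc hmin5) hd5 (fun h2 => ?_)
        (Real.exp_pos _) h4
      rw [a5', a3, ← sq_abs]
      refine le_trans (Real.exp_le_exp.2 (by linarith [hY h2] : -Y ≤ -η + -η)) ?_
      rw [Real.exp_add, sq]
      exact mul_le_mul haη haη (Real.exp_pos _).le ha0.le
  obtain ⟨ι', _, T', cl', φ6, v, m6, hS6, p6, F6, k6, s6⟩ := hdem
  rw [a5'] at F6 s6
  rw [a3] at F6 s6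
  have hl1 : Real.log (1 + |T.a c₀|) ≤ τ := (Real.log_le_iff_le_exp (by positivity)).2 ha
  have hl0 := Real.log_nonneg (show 1 ≤ 1 + |T.a c₀| by linarith)
  refine ⟨ι', inferInstance, T', cl', _, _, _, _, m3.trans (m4.trans (m5.trans m6)), hS6, ?_, ?_,
    ?_, fun i hi => ?_, ?_, ?_, ?_⟩
  · rwa [pot_congr (lev5.trans (lev4.trans lev3))] at p6
  · simpa using hdle
  · simp
  · have h1 := F6 (fun a => 1 + Real.log (1 + |a|)) i hi
    have h2 : ∑ c ∈ (Finset.univ.filter fun c => cl c = i).erase c₀,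
        (1 + Real.log (1 + |T3.a c|)) ≤ T3.kapM cl i - 1 := by
      rw [Cell.kapM, add_sub_cancel_left]
      exact Finset.sum_le_sum_of_subset_of_nonneg (Finset.erase_subset _ _) fun c _ _ => by
        linarith [Real.log_nonneg (show 1 ≤ 1 + |T3.a c| by linarith [abs_nonneg (T3.a c)])]
    have h3 : T'.kapM cl' i ≤ T3.kapM cl i +
        if i + 1 = cl c₀ then 1 + Real.log (1 + |T.a c₀|) else 0 := by
      rw [Cell.kapM, h1]
      linarith
    refine h3.trans ?_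
    have := q3 i
    by_cases h4 : i < cl c₀
    · rw [if_pos h4]; split_ifs <;> linarith
    · rw [if_neg h4, if_neg (by omega), q3' i (by omega)]
  · have h1 := F6 (fun a => Real.log |a|) (o + 1) (by omega)
    change lm T'.toTri cl' (o + 1) = _ at h1
    rw [h1]
    by_cases h4 : o + 1 < cl c₀
    · rw [if_pos h4, Finset.erase_eq_of_notMem (by simp; omega)]
      change lm T3.toTri cl (o + 1) + _ ≤ _
      have := Real.log_le_log ha0 (show |T.a c₀| ≤ 1 + |T.a c₀| by linarith)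
      split_ifs <;> linarith
    · rw [if_neg h4, if_neg (by omega), add_zero, ← l3' (by omega), lm,
        ← Finset.add_sum_erase _ _ (show c₀ ∈ Finset.univ.filter fun c => cl c = o + 1 by
          simp; omega)]
      have := (Real.le_log_iff_exp_le ha0).2 haη
      change _ ≤ Real.log |T3.a c₀| + _ + _
      rw [a3]
      linarith
  · have : kt T5.toTri = kt T3.toTri := by rw [kt, kt, a5']
    linarith
  · refine le_trans (mul_le_mul_of_nonneg_right ?_ T'.mu_pos.le) (s6.trans (le_of_eq ?_))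
    · rw [le_div_iff₀ (by positivity), show -(X + 1) = -(X + 1 + τ) + τ by ring, Real.exp_add]
      exact mul_le_mul_of_nonneg_left ha (Real.exp_pos _).le
    · congr 1
      funext z
      rw [pt_comp (m4.trans (m5.trans m6)).int, pt_comp (m5.trans m6).int, pt_X, pt_comp m6.int]

end D4

set_option maxHeartbeats 1600000 in
open D4 in
theorem demStmt : DemStmt := by
  classical
  intro s hs
  refine ⟨s + 9, ?_⟩
  intro o ι _ T cl τ lam X y n h j d u' r t hS hn hlam hX hτ0 hτ hk hh hSg hj hj' hd hu0 huy hv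
  have hanti : ∀ k i, o < i → i + k ≤ o + s + 1 → τ (i + k) ≤ τ i := by
    intro k
    induction k with
    | zero => intro i _ _; exact le_rfl
    | succ k ih =>
      intro i h1 h2
      exact ((hτ (i + k) (by omega) (by omega)).1).trans (ih i h1 (by omega))
  have anti : ∀ i i', o < i → i ≤ i' → i' ≤ o + s + 1 → τ i' ≤ τ i := fun i i' h1 h2 h3 => by
    have := hanti (i' - i) i h1 (by omega)
    rwa [Nat.add_sub_cancel' h2] at this
  have pos : ∀ i, o < i → i ≤ o + s + 1 → 0 ≤ τ i := fun i h1 h2 =>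
    hτ0.trans (anti i _ h1 h2 le_rfl)
  have hc0 : (0 : ℝ) ≤ Fintype.card ι := Nat.cast_nonneg _
  have hn' : (Fintype.card ι : ℝ) ≤ n := by linarith
  have hn2 : 2 ≤ n := by linarith
  have hs0 : (1 : ℝ) ≤ s := by exact_mod_cast hs
  have hy : 0 ≤ y := hu0.trans huy
  obtain ⟨r1, t1, h1⟩ := zmStmt ι T (wG T cl o d) (fun c => if cl c ≤ o then u' else 0)
    h 2 _ (fun c => by split_ifs <;> simp [hu0]) hh (Real.exp_pos _) hSg
  have hv1 : ¬ (zo T cl o d u' r1 t1).RegAtM cl j (Real.exp (τ (j + 1) + lam)) (Real.exp (τ j)) :=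
    fun h => hv (zm_regAtM h r t)
  set Y := 2 * (τ (o + 2) + lam) with hY
  have m1 := zo_mor (o := o) (p := o) le_rfl T cl d hu0 r1 t1 Y
  change _ * (zo T cl o d u' r1 t1).mu ≤ Sg (zo T cl o d u' r1 t1).toTri _ at h1
  have hS1 : St o s (zo T cl o d u' r1 t1) cl := zm_st hS _ _ _ _
  have hdl : Real.log ((d : ℕ) : ℝ) ≤ y :=
    (Real.log_le_iff_le_exp (by exact_mod_cast d.pos)).2 hd
  have k1 : kt (zo T cl o d u' r1 t1).toTri ≤ kt T.toTri + n * (2 * y) :=
    (zo_kt T cl o d r1 t1 hu0 hn').trans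
      (add_le_add le_rfl (mul_le_mul_of_nonneg_left (by linarith) (by linarith)))
  have q1 := fun i => zo_kapM_gt T cl o d r1 t1 (u := u') (i := i)
  have l1 := zo_lm_gt T cl o d r1 t1 (u := u') (i := o + 1) (by omega)
  have lev1 : (zo T cl o d u' r1 t1).lev = T.lev := rfl
  generalize zo T cl o d u' r1 t1 = T1 at *
  obtain ⟨ξ, b, e, hξ, hR, hH, hb, hbΛ, he, heΛ⟩ := rel_of_viol hS1 hj hv1
  obtain ⟨T2, φ2, c₀, ρ, hrot, rfl, hmin, hρ, hρ2, hR2, ⟨c1, hc1, ha1⟩, hpot⟩ :=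
    givStmt ι o s j T1 cl ξ b e hS1 hj hξ hR
  have hS2 := hrot.st' hj hS1
  have hmin2 : ∀ c, cl c = cl c₀ → T2.rk c₀ ≤ T2.rk c := by rw [hrot.rk]; exact hmin
  have he2 : IsWeightedHomogeneous T2.lev e (T2.lev c₀) := by
    have := hS1.lev_eq hj
    rw [hrot.lev, show T1.lev c₀ = cl c₀ - o by omega]
    exact he
  have hR2' : Rel T2 cl (cl c₀) (Pi.single c₀ ρ) b e := by convert hR2
  set η := τ (cl c₀ + 1) + lam with hη
  have p0 := pos (o + 1) (by omega) (by omega)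
  have pj := pos (cl c₀) hj (by omega)
  have pj1 := pos (cl c₀ + 1) (by omega) (by omega)
  have p2 := pos (o + 2) (by omega) (by omega)
  have aj := anti (o + 1) (cl c₀) (by omega) (by omega) (by omega)
  have aj1 := (hτ _ hj hj').1
  have hρη : |ρ| ≤ Real.exp η := by
    refine le_trans (abs_le_of_sq_le_sq' ?_ (Finset.sum_nonneg fun _ _ => abs_nonneg _)).2 hH
    rw [sq_abs, hρ2]
    simpa only [sq_abs] using Finset.sum_sq_le_sq_sum_of_nonneg (s := Finset.univ)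
      (f := fun c => |ξ c|) fun _ _ => abs_nonneg _
  have ha : 1 + |T2.a c₀| ≤ Real.exp (τ (cl c₀)) := by
    have h2 := term_le_kapM T1 cl c1
    rw [hc1, q1 _ hj] at h2
    have h3 : Real.log (1 + |T1.a c1|) ≤ τ (cl c₀) := by linarith [(hτ _ hj hj').2]
    linarith [(Real.log_le_iff_le_exp (by positivity)).1 h3]
  have ha0 := abs_pos.2 (T2.a_ne c₀)
  have hlog : Real.log (1 + |T2.a c₀|) ≤ Real.log |T2.a c₀| + (η + 1) := by
    obtain ⟨k, hk0, hk1, -⟩ := post hS2 hj hmin2 hρ hb hR2' he2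
    have hk2 : (1 : ℝ) ≤ |ρ| * |T2.a c₀| := by
      rw [← abs_mul, hk1]; exact_mod_cast Int.one_le_abs hk0
    have h2 : 1 ≤ Real.exp η := Real.one_le_exp (by linarith)
    have h3 : 2 ≤ Real.exp 1 := by linarith [Real.add_one_le_exp (1 : ℝ)]
    have h4 := mul_le_mul_of_nonneg_right hρη ha0.le
    rw [← Real.log_exp (η + 1), ← Real.log_mul ha0.ne' (by positivity), Real.exp_add]
    refine Real.log_le_log (by positivity) ?_
    nlinarith [mul_le_mul_of_nonneg_left h2 ha0.le,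
      mul_le_mul_of_nonneg_left h3 (mul_nonneg ha0.le (Real.exp_pos η).le)]
  have hblk : ∑ c ∈ Finset.univ.filter (fun c => cl c = cl c₀), Real.log (1 + |T2.a c|) ≤
      ∑ c ∈ Finset.univ.filter (fun c => cl c = cl c₀), Real.log (1 + |T1.a c|) + (η + 1) := by
    rw [← Finset.add_sum_erase _ _ (show c₀ ∈ Finset.univ.filter fun c => cl c = cl c₀ by simp)]
    have : ∑ c ∈ (Finset.univ.filter fun c => cl c = cl c₀).erase c₀, Real.log (1 + |T2.a c|) +
        Real.log |T2.a c₀| ≤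
      ∑ c ∈ Finset.univ.filter (fun c => cl c = cl c₀), Real.log (1 + |T1.a c|) := by
      convert hpot
    linarith
  have k2 : kt T2.toTri ≤ kt T1.toTri + (η + 1) := by
    rw [kt, kt, ← Finset.sum_filter_add_sum_filter_not _ (fun c => cl c = cl c₀),
      ← Finset.sum_filter_add_sum_filter_not (s := Finset.univ) (fun c => cl c = cl c₀)
        (fun c => Real.log (1 + |T1.a c|))]
    have : ∑ c ∈ Finset.univ.filter (fun c => ¬ cl c = cl c₀), Real.log (1 + |T2.a c|) =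
        ∑ c ∈ Finset.univ.filter (fun c => ¬ cl c = cl c₀), Real.log (1 + |T1.a c|) :=
      Finset.sum_congr rfl fun c hc => by rw [hrot.a_eq c (Finset.mem_filter.1 hc).2]
    linarith
  have q2 : T2.kapM cl (cl c₀) ≤ T1.kapM cl (cl c₀) + (η + 1) := by
    rw [Cell.kapM, Cell.kapM, Finset.sum_add_distrib, Finset.sum_add_distrib]
    linarith
  have q2' : ∀ i, i ≠ cl c₀ → T2.kapM cl i = T1.kapM cl i := fun i hi =>
    kapM_congr fun c hc => hrot.a_eq c (by omega)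
  have l2 : lm T2.toTri cl (o + 1) = lm T1.toTri cl (o + 1) := by
    by_cases h2 : cl c₀ = o + 1
    · rw [← h2]; exact hrot.lm
    · exact Finset.sum_congr rfl fun c hc => by
        rw [show T2.toTri.a c = T1.a c from
          hrot.a_eq c (by rw [(Finset.mem_filter.1 hc).2]; omega)]
  rw [← Sg_of_bij hrot.bij hrot.wgt, ← hrot.mu] at h1
  push_cast at hk ⊢
  have e1 : 0 ≤ n * τ (o + 1) := by positivity
  have e2 : 0 ≤ n * y := by positivity
  have e3 : 0 ≤ s * (n * τ (o + 1)) := by positivity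
  have e4 : 0 ≤ s * (n * y) := by positivity
  have e5 : n * τ (cl c₀) ≤ n * τ (o + 1) := mul_le_mul_of_nonneg_left aj (by linarith)
  have e6 : n * 3 ≤ n * lam := mul_le_mul_of_nonneg_left hlam (by linarith)
  have e7 : 2 * lam ≤ n * lam := mul_le_mul_of_nonneg_right hn2 (by linarith)
  have e8 : 2 * τ (o + 1) ≤ n * τ (o + 1) := mul_le_mul_of_nonneg_right hn2 p0
  obtain ⟨ι', _, T', cl', φ, v, G, u, m3, hS3, p3, G3, u3, q3, l3, k3, s3⟩ :=
    half (Y := Y) hS2 hj hmin2 hρ hb hR2' he2 pj (by linarith) (by linarith) hlam hX hn' hbΛ heΛ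
      hρη ha (fun h2 => by rw [h2] at aj1; rw [hη, h2]; linarith) (by linarith) (fun z => hh _) h1
  refine ⟨ι', inferInstance, T', cl', _, _, _, _, m1.trans ((hrot.mor hj Y).trans m3), hS3, ?_, ?_,
    ?_, fun i hi hi' => ?_, ?_, by linarith, ?_⟩
  · rwa [pot_congr (hrot.lev.trans lev1)] at p3
  · rw [one_mul, PNat.mul_coe, Nat.cast_mul]
    refine (mul_le_mul hd G3 (Nat.cast_nonneg _) (Real.exp_pos _).le).trans ?_
    rw [← Real.exp_add]
    exact Real.exp_le_exp.2 (by nlinarith)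
  · nlinarith
  · have pi := pos (i + 1) (by omega) (by omega)
    have f1 : 2 * τ (i + 1) ≤ n * τ (i + 1) := mul_le_mul_of_nonneg_right hn2 pi
    have f3 : 0 ≤ s * (n * τ (i + 1)) := by positivity
    have f4 : 0 ≤ s * (n * lam) := by positivity
    have h2 := q3 i hi
    rw [← q1 i hi]
    rcases lt_trichotomy i (cl c₀) with h3 | h3 | h3
    · rw [if_pos h3, q2' i h3.ne] at h2
      have a1 := anti (i + 1) (cl c₀) (by omega) (by omega) (by omega)
      have f2 : n * τ (cl c₀) ≤ n * τ (i + 1) := mul_le_mul_of_nonneg_left a1 (by linarith)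
      linarith
    · subst h3
      rw [if_neg (lt_irrefl _)] at h2
      linarith
    · rw [if_neg (by omega), q2' i h3.ne'] at h2
      linarith
  · have f1 : 2 * τ (o + 2) ≤ n * τ (o + 2) := mul_le_mul_of_nonneg_right hn2 p2
    have f3 : 0 ≤ s * (n * τ (o + 2)) := by positivity
    have f4 : 0 ≤ s * (n * lam) := by positivity
    rw [l2, l1] at l3
    split_ifs at l3 with h3
    · have a1 := anti (o + 2) (cl c₀) (by omega) (by omega) (by omega)
      have f2 : n * τ (cl c₀) ≤ n * τ (o + 2) := mul_le_mul_of_nonneg_left a1 (by linarith)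
      linarith
    · rw [hη, show cl c₀ + 1 = o + 2 by omega] at l3
      linarith
  · refine le_trans (mul_le_mul_of_nonneg_right (Real.exp_le_exp.2 (by nlinarith)) T'.mu_pos.le)
      (s3.trans (le_of_eq ?_))
    congr 1
    funext z
    rw [pt_comp ((hrot.mor hj Y).trans m3).int, pt_comp m3.int]

end Crest.Agent.T49.Rg
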