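import Crest.Agent.T49.RiDef_12
import Crest.Agent.T49.TwTri_51
import Crest.Agent.T49.TwLat_81
import Crest.Agent.T49.Qp_85

/-!
# Row 49 (helper46): averaging over the level-one differences (`AVG`)
-/

set_option autoImplicit false

noncomputable section

namespace Crest.Agent.T49.Ri

open Finset MvPolynomial
open Crest.Agent.T49.Tw

namespace Avg46

open Classical in
/-- abstract Markov argument: the fibre masses `Z` are `μ'(1 ± η)` on `G`, `G` carries almost all
of the ideal base mass `μ`, and the total mass is at most `(1 + η) μ μ'` -/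
theorem core {H : Type*} (γ Z v : H → ℝ) (G : H → Prop) {μ μ' η δ : ℝ} (hμ : 0 ≤ μ)
    (hμ' : 0 < μ') (hη0 : 0 ≤ η) (hη : η ≤ δ / 8) (hδ : δ ≤ 1) (hγ0 : ∀ h, 0 ≤ γ h)
    (hγ1 : ∀ h, γ h ≤ 1) (hv : ∀ h, 0 ≤ v h ∧ v h ≤ Z h) (hsγ : Summable γ)
    (hsZ : Summable fun h => γ h * Z h) (htot : ∑' h, γ h * Z h ≤ (1 + η) * (μ * μ'))
    (hG : ∀ h, G h → |Z h / μ' - 1| ≤ η) (hΓ : (1 - η) * μ ≤ ∑' h, if G h then γ h else 0)
    (hbig : δ * (μ * μ') ≤ ∑' h, γ h * v h) :
    ∃ Q : Finset H, δ / 4 * μ ≤ #Q ∧ ∀ h ∈ Q, G h ∧ δ / 8 * μ' ≤ v h := by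
  by_cases hfin : {h | G h ∧ δ / 8 * μ' ≤ v h}.Finite
  swap
  · obtain ⟨Q, h1, h2⟩ := Set.Infinite.exists_subset_card_eq hfin ⌈δ / 4 * μ⌉₊
    exact ⟨Q, h2 ▸ Nat.le_ceil _, fun h hh => h1 hh⟩
  refine ⟨hfin.toFinset, ?_, fun h hh => hfin.mem_toFinset.1 hh⟩
  set Q := hfin.toFinset
  have hZ : ∀ h, G h → (1 - η) * μ' ≤ Z h ∧ Z h ≤ (1 + η) * μ' := fun h hh => by
    have := abs_le.1 (hG h hh)
    rw [← le_div_iff₀ hμ', ← div_le_iff₀ hμ']
    constructor <;> linarith [this.1, this.2]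
  have hsG : Summable fun h => if G h then γ h else 0 :=
    hsγ.of_nonneg_of_le (fun h => by split_ifs; exacts [hγ0 h, le_rfl])
      fun h => by split_ifs; exacts [le_rfl, hγ0 h]
  have hsQ : HasSum (fun h => if h ∈ Q then 2 * μ' else 0) (2 * μ' * #Q) := by
    have := hasSum_sum_of_ne_finset_zero (L := SummationFilter.unconditional H)
      (f := fun h => if h ∈ Q then 2 * μ' else 0) (s := Q) fun h hh => if_neg hh
    rwa [sum_congr rfl fun h hh => if_pos hh, sum_const, nsmul_eq_mul, mul_comm (#Q : ℝ)] at this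
  have key : ∀ h, γ h * v h ≤ γ h * Z h - (1 - η - δ / 8) * μ' * (if G h then γ h else 0) +
      if h ∈ Q then 2 * μ' else 0 := by
    intro h
    have h0 := hγ0 h
    have h1 := hγ1 h
    obtain ⟨h2, h3⟩ := hv h
    by_cases hh : G h
    · obtain ⟨h4, h5⟩ := hZ h hh
      have h6 : 0 ≤ γ h * (Z h - (1 - η) * μ') := mul_nonneg h0 (by linarith)
      have hδ0 : 0 ≤ δ / 8 * μ' * γ h := by
        have : 0 ≤ δ / 8 := hη0.trans hη
        positivity
      rw [if_pos hh]
      by_cases hq : h ∈ Q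
      · rw [if_pos hq]
        have h7 : γ h * v h ≤ v h := mul_le_of_le_one_left h2 h1
        have h8 : η * μ' ≤ 1 * μ' := mul_le_mul_of_nonneg_right (by linarith) hμ'.le
        nlinarith
      · rw [if_neg hq]
        have h7 : v h ≤ δ / 8 * μ' := (not_le.1 fun h' => hq (hfin.mem_toFinset.2 ⟨hh, h'⟩)).le
        have h8 := mul_le_mul_of_nonneg_left h7 h0
        nlinarith
    · rw [if_neg hh, if_neg fun hq => hh (hfin.mem_toFinset.1 hq).1]
      simpa using mul_le_mul_of_nonneg_left h3 h0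
  have hsv : Summable fun h => γ h * v h :=
    hsZ.of_nonneg_of_le (fun h => mul_nonneg (hγ0 h) (hv h).1)
      fun h => mul_le_mul_of_nonneg_left (hv h).2 (hγ0 h)
  have h1 := hasSum_le key hsv.hasSum
    ((hsZ.hasSum.sub (hsG.hasSum.mul_left ((1 - η - δ / 8) * μ'))).add hsQ)
  have h2 := mul_le_mul_of_nonneg_left hΓ
    (mul_nonneg (by linarith : 0 ≤ 1 - η - δ / 8) hμ'.le)
  refine le_of_mul_le_mul_left ?_ hμ'
  have h3 : 0 ≤ μ * μ' := mul_nonneg hμ hμ'.le
  have h4 : 0 ≤ (η * η + η * (δ / 8)) * (μ * μ') := by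
    have : 0 ≤ δ / 8 := hη0.trans hη
    positivity
  have h5 : η * (μ * μ') ≤ δ / 8 * (μ * μ') := mul_le_mul_of_nonneg_right hη h3
  nlinarith

variable {ι : Type} [Fintype ι] (T : Cell ι)

/-- the matrix of the level-one windows -/
def lc (c c' : T.L1) : ℝ := coeff (Finsupp.single c'.1 1) (T.tth c.1)

theorem tth_eq_sum (c : T.L1) : T.tth c.1 = ∑ c' : T.L1, C (lc T c c') * X c'.1 := by
  classical
  ext α
  simp only [coeff_sum, coeff_C_mul, coeff_X]
  by_cases hα : ∃ c' : T.L1, Finsupp.single c'.1 1 = α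
  · obtain ⟨c', rfl⟩ := hα
    rw [sum_eq_single c' (fun d _ hd => by
      rw [if_neg fun h => hd (Subtype.ext (Finsupp.single_left_injective one_ne_zero h)),
        mul_zero]) (by simp), if_pos rfl, mul_one, lc]
  · rw [sum_eq_zero fun c' _ => by rw [if_neg fun h => hα ⟨c', h⟩, mul_zero]]
    by_contra h
    have h1 := T.tth_hom c.1 h
    rw [c.2] at h1
    obtain ⟨d, m', rfl, hd, hm'⟩ := exists_of_weight_one h1
    refine hα ⟨⟨d, hd⟩, ?_⟩
    have : m' = 0 := by
      ext e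
      by_contra he
      have h2 := hm' e (Finsupp.mem_support_iff.2 he)
      have h3 := T.lev_pos e
      omega
    simp [this]

theorem ell_eq (h : T.L1 → ℤ) (c : T.L1) : T.ell h c = ∑ c', lc T c c' * h c' := by
  rw [Cell.ell, tth_eq_sum, ev_sum]
  refine sum_congr rfl fun c' _ => ?_
  rw [ev_mul, ev_C, ev_X, Cell.ext1, dif_pos c'.2]

omit [Fintype ι] in
theorem lc_B (c c' : T.L1) (h : ¬ T.rk c'.1 < T.rk c.1) :
    coeff (Finsupp.single c'.1 1) (T.top (T.lev c.1) (T.B c.1)) = 0 := by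
  by_contra h0
  exact h (mem_supported_iff.1 (whc_mem_supported T.lev _ (T.B_mem c.1)) _
    (mem_support_iff.2 h0) c'.1 (by simp))

omit [Fintype ι] in
theorem lc_self (c : T.L1) : lc T c c = T.a c.1 := by
  classical
  rw [lc, T.tth_eq, coeff_add, lc_B T c c (lt_irrefl _), coeff_C_mul, coeff_X]
  simp

omit [Fintype ι] in
theorem lc_ne {c c' : T.L1} (hne : c' ≠ c) (h : ¬ T.rk c'.1 < T.rk c.1) : lc T c c' = 0 := by
  classical
  rw [lc, T.tth_eq, coeff_add, lc_B T c c' h, coeff_C_mul, coeff_X,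
    if_neg fun e => hne (Subtype.ext (Finsupp.single_left_injective one_ne_zero e)).symm]
  simp

theorem helm_diag (k : ℕ) (j : Fin k) :
    helm k j.succ j.succ = √((j : ℝ) + 1) / √((j : ℝ) + 2) := by
  rw [helm, if_neg (Fin.succ_ne_zero j), if_neg (lt_irrefl _), if_pos rfl, Fin.val_succ]
  have h1 : (0 : ℝ) < (j : ℝ) + 1 := by positivity
  have h2 : 0 < √((j : ℝ) + 1) := Real.sqrt_pos.2 h1
  have h3 : 0 < √((j : ℝ) + 2) := Real.sqrt_pos.2 (by positivity)
  push_cast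
  rw [Real.sqrt_mul h1.le, show (j : ℝ) + 1 + 1 = j + 2 by ring]
  field_simp
  rw [Real.sq_sqrt h1.le]

theorem prod_helm (k : ℕ) : ∏ j : Fin k, |helm k j.succ j.succ|⁻¹ = √(k + 1) := by
  simp only [helm_diag]
  rw [Fin.prod_univ_eq_prod_range (fun j : ℕ => |√((j : ℝ) + 1) / √((j : ℝ) + 2)|⁻¹) k]
  induction k with
  | zero => simp
  | succ k ih =>
    have h2 : 0 < √((k : ℝ) + 1) := Real.sqrt_pos.2 (by positivity)
    rw [prod_range_succ, ih, abs_of_nonneg (by positivity), inv_div]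
    push_cast
    rw [show (k : ℝ) + 1 + 1 = k + 2 by ring]
    field_simp

theorem helm_gt {k : ℕ} {j i : Fin k} (h : j < i) : helm k j.succ i.succ = 0 := by
  have h1 : j.succ < i.succ := Fin.succ_lt_succ_iff.2 h
  rw [helm, if_neg (Fin.succ_ne_zero j), if_neg h1.not_gt, if_neg h1.ne']

/-- the matrix of the lattice of differences -/
def LM (k : ℕ) : Matrix (Fin k × T.L1) (Fin k × T.L1) ℝ :=
  fun x y => helm k x.1.succ y.1.succ * lc T x.2 y.2

omit [Fintype ι] in
theorem isTri_LM (k : ℕ) : IsTri (fun x : Fin k × T.L1 => k * T.rk x.2.1 + x.1)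
    (fun x => helm k x.1.succ x.1.succ * T.a x.2.1) (LM T k) := by
  refine ⟨fun x => mul_ne_zero ?_ (T.a_ne _), fun x => by rw [LM, lc_self], ?_⟩
  · rw [helm_diag]; positivity
  · rintro ⟨j, c⟩ ⟨i, c'⟩ hne h
    have hi := i.2
    have hj := j.2
    simp only at h
    by_cases hc : c' = c
    · subst hc
      have h1 : i ≠ j := fun e => hne (by rw [e])
      have h2 : j < i := lt_of_le_of_ne (show (j : ℕ) ≤ i by omega) h1.symm
      rw [LM, helm_gt h2, zero_mul]
    · rw [LM, lc_ne T hc fun h1 => h ?_, mul_zero]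
      have := Nat.mul_le_mul_left k (Nat.succ_le_of_lt h1)
      rw [Nat.mul_succ] at this
      omega

theorem kap_LM (k : ℕ) :
    Gau.kap (tlin (LM T k)) = T.mu1 ^ k * √(k + 1) ^ Fintype.card T.L1 := by
  rw [(isTri_LM T k).kap, Fintype.prod_prod_type]
  simp only [abs_mul, mul_inv, prod_mul_distrib, prod_const, card_univ, Fintype.card_fin]
  rw [prod_pow, prod_helm, Cell.mu1, mul_comm]

theorem tlin_LM {k : ℕ} (x : Fin k × T.L1 → ℤ) (j : Fin k) (c : T.L1) :
    tlin (LM T k) (Lat.cast x) (j, c) =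
      ∑ i, helm k j.succ i.succ * T.ell (fun c' => x (i, c')) c := by
  rw [tlin_apply, Fintype.sum_prod_type]
  simp only [ell_eq, mul_sum, LM, Lat.cast_apply, mul_assoc]

theorem gamK_eq {k : ℕ} (x : Fin k × T.L1 → ℤ) :
    T.gamK (fun i c' => x (i, c')) = Gau.rho (tlin (LM T k) (Lat.cast x)) := by
  rw [rho_eq_exp_sum, Fintype.sum_prod_type, sum_comm, Cell.gamK]
  simp only [tlin_LM]

theorem rho_pow {E : Type*} [NormedAddCommGroup E] [InnerProductSpace ℝ E] (v : E) (N : ℕ) :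
    Gau.rho v ^ N = Gau.rho (√N • v) := by
  rw [Gau.rho, Gau.rho, ← Real.exp_nat_mul, norm_smul, mul_pow, Real.norm_eq_abs, sq_abs,
    Real.sq_sqrt (Nat.cast_nonneg N)]
  congr 1
  ring

theorem gamK_pos {k : ℕ} (h : Fin k → T.L1 → ℤ) : 0 < T.gamK h := Real.exp_pos _

theorem gamK_le_one {k : ℕ} (h : Fin k → T.L1 → ℤ) : T.gamK h ≤ 1 :=
  (gamK_eq T fun x : Fin k × T.L1 => h x.1 x.2).le.trans (Gau.rho_le_one _)

/-- inversion of the Helmert transform -/
theorem abs_le_of_helm {k : ℕ}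
    (ho : ∀ i i', ∑ r, helm k r i * helm k r i' = if i = i' then 1 else 0) (x : Fin k → ℝ)
    {R : ℝ} (hR : ∀ j : Fin k, |∑ i, helm k j.succ i.succ * x i| ≤ R) (i : Fin k) :
    |x i| ≤ 2 * k * R := by
  have hb : ∀ r i, |helm k r i| ≤ 1 := fun r i => by
    have h1 := ho i i
    rw [if_pos rfl] at h1
    have h2 := single_le_sum (f := fun r => helm k r i * helm k r i)
      (fun r _ => mul_self_nonneg _) (mem_univ r)
    exact abs_le_one_iff_mul_self_le_one.2 (h1 ▸ h2)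
  have h1 : ∑ r, (helm k r i.succ - helm k r 0) * ∑ i', helm k r i'.succ * x i' = x i := by
    simp only [mul_sum, ← mul_assoc]
    rw [sum_comm]
    simp only [← sum_mul, sub_mul, sum_sub_distrib, ho, Fin.succ_inj,
      (Fin.succ_ne_zero _).symm, if_false]
    simp
  rw [← h1, Fin.sum_univ_succ]
  have h2 : helm k 0 i.succ - helm k 0 0 = 0 := by simp [helm]
  rw [h2, zero_mul, zero_add]
  refine (abs_sum_le_sum_abs _ _).trans ((sum_le_card_nsmul _ _ (2 * R) fun j _ => ?_).trans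
    (by simp; linarith))
  rw [abs_mul]
  refine mul_le_mul ((abs_sub _ _).trans ?_) (hR j) (abs_nonneg _) zero_le_two
  linarith [hb j.succ i.succ, hb j.succ 0]

/-- the ideal mass of `gamK ^ N` -/
def muG (k N : ℕ) : ℝ :=
  (√N ^ (k * Fintype.card T.L1))⁻¹ * (T.mu1 ^ k * √(k + 1) ^ Fintype.card T.L1)

theorem mu1_pos : 0 < T.mu1 := prod_pos fun c _ => inv_pos.2 (abs_pos.2 (T.a_ne c.1))

open Classical in
/-- the ball carries almost all of the ideal mass of `gamK ^ N` -/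
theorem gam_ball {k : ℕ} (ho : ∀ i i', ∑ r, helm k r i * helm k r i' = if i = i' then 1 else 0)
    {N : ℕ} (hN : 1 ≤ N) {R : ℝ} (hR : 0 ≤ R) :
    (Summable fun h : Fin k → T.L1 → ℤ => T.gamK h ^ N) ∧
    (1 - Real.exp ((k * Fintype.card T.L1 : ℕ) / 2 - 3 / 2 * R ^ 2)) * muG T k N ≤
      ∑' h : Fin k → T.L1 → ℤ, if ∀ j, InB T (2 * k * R) (h j) then T.gamK h ^ N else 0 := by
  have hs1 : (1 : ℝ) ≤ √N := Real.one_le_sqrt.2 (by exact_mod_cast hN)
  have hA := Gau.inj_smul (isTri_LM T k).inj (s := √N) (by linarith)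
  set A := √N • tlin (LM T k) with hAdef
  let e := Equiv.curry (Fin k) T.L1 ℤ
  have he : ∀ x, T.gamK (e x) ^ N = Gau.rho (A (Lat.cast x) + 0) := fun x => by
    rw [add_zero, hAdef, LinearMap.smul_apply, ← rho_pow, ← gamK_eq]
    rfl
  have hsum := Gau.summable_rho hA 0
  have hs : Summable fun h : Fin k → T.L1 → ℤ => T.gamK h ^ N :=
    e.summable_iff.1 (hsum.congr fun x => (he x).symm)
  refine ⟨hs, ?_⟩
  have hk : Gau.kap A = muG T k N := by
    rw [hAdef, Gau.kap_smul _ (by linarith), kap_LM, muG, Fintype.card_prod, Fintype.card_fin]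
  have h1 : muG T k N ≤ Gau.th A 0 := by
    rw [Gau.th_zero_eq_rat hA, ← hk]
    exact le_mul_of_one_le_right (Gau.kap_pos hA).le (Gau.one_le_rat hA)
  have h2 := Gau.tail_le hA 0 hR (f := fun x => if ∀ j, InB T (2 * k * R) (e x j) then 0 else 1)
    (fun x => by split_ifs <;> simp) fun x hx => by
      rw [if_pos]
      intro j c
      refine abs_le_of_helm ho (fun i => T.ell (e x i) c) (fun j' => ?_) j
      have h3 := PiLp.norm_apply_le (tlin (LM T k) (Lat.cast x)) (j', c)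
      rw [tlin_LM, Real.norm_eq_abs] at h3
      rw [add_zero, hAdef, LinearMap.smul_apply, norm_smul, Real.norm_of_nonneg (by linarith)] at hx
      exact h3.trans ((le_mul_of_one_le_left (norm_nonneg _) hs1).trans hx.le)
  rw [Fintype.card_prod, Fintype.card_fin] at h2
  have h3 : ∑' h : Fin k → T.L1 → ℤ, (if ∀ j, InB T (2 * k * R) (h j) then T.gamK h ^ N else 0) =
      Gau.th A 0 - ∑' x, Gau.rho (A (Lat.cast x) + 0) *
        if ∀ j, InB T (2 * k * R) (e x j) then 0 else 1 := by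
    rw [← e.tsum_eq, Gau.th, ← hsum.tsum_sub (hsum.of_nonneg_of_le
      (fun x => mul_nonneg (Gau.rho_pos _).le (by split_ifs <;> norm_num)) fun x =>
        mul_le_of_le_one_right (Gau.rho_pos _).le (by split_ifs <;> norm_num))]
    refine tsum_congr fun x => ?_
    rw [he]
    split_ifs <;> simp
  by_cases h4 : Real.exp ((k * Fintype.card T.L1 : ℕ) / 2 - 3 / 2 * R ^ 2) ≤ 1
  · rw [h3]
    have := mul_le_mul_of_nonneg_left h1 (sub_nonneg.2 h4)
    linarith
  · refine le_trans (mul_nonpos_of_nonpos_of_nonneg (by linarith) (hk ▸ (Gau.kap_pos hA).le))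
      (tsum_nonneg fun h => ?_)
    split_ifs
    exacts [pow_nonneg (gamK_pos T h).le N, le_rfl]

open Classical in
/-- the good part of the ball carries almost all of the ideal mass of `gamK ^ N` -/
theorem gam_good {k : ℕ} (ho : ∀ i i', ∑ r, helm k r i * helm k r i' = if i = i' then 1 else 0)
    {N : ℕ} (hN : 1 ≤ N) {R β : ℝ} (hR : 0 ≤ R) (G : (Fin k → T.L1 → ℤ) → Prop)
    (hbad : ∀ Q : Finset (Fin k → T.L1 → ℤ),
      (∀ h ∈ Q, (∀ j, InB T (2 * k * R) (h j)) ∧ ¬ G h) → #Q ≤ β) :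
    (1 - Real.exp ((k * Fintype.card T.L1 : ℕ) / 2 - 3 / 2 * R ^ 2)) * muG T k N - β ≤
      ∑' h : Fin k → T.L1 → ℤ,
        if (∀ j, InB T (2 * k * R) (h j)) ∧ G h then T.gamK h ^ N else 0 := by
  obtain ⟨hs, h1⟩ := gam_ball T ho hN hR
  have h0 : ∀ h : Fin k → T.L1 → ℤ, 0 ≤ T.gamK h ^ N := fun h => pow_nonneg (gamK_pos T h).le N
  have hsP : ∀ P : (Fin k → T.L1 → ℤ) → Prop, Summable fun h => if P h then T.gamK h ^ N else 0 :=
    fun P => hs.of_nonneg_of_le (fun h => by split_ifs; exacts [h0 h, le_rfl])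
      fun h => by split_ifs; exacts [le_rfl, h0 h]
  have h2 : ∑' h : Fin k → T.L1 → ℤ,
      (if (∀ j, InB T (2 * k * R) (h j)) ∧ ¬ G h then T.gamK h ^ N else 0) ≤ β := by
    refine Real.tsum_le_of_sum_le (fun h => by dsimp only; split_ifs; exacts [h0 h, le_rfl])
      fun s => ?_
    rw [← sum_filter]
    refine le_trans (sum_le_card_nsmul _ _ 1 fun h _ =>
      pow_le_one₀ (gamK_pos T h).le (gamK_le_one T h)) ?_
    simpa using hbad _ fun h hh => (mem_filter.1 hh).2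
  have h3 := ((by convert hsP fun h => (∀ j, InB T (2 * k * R) (h j)) ∧ G h :
    Summable fun h : Fin k → T.L1 → ℤ =>
      if (∀ j, InB T (2 * k * R) (h j)) ∧ G h then T.gamK h ^ N else 0).tsum_add
    (by convert hsP fun h => (∀ j, InB T (2 * k * R) (h j)) ∧ ¬ G h :
    Summable fun h : Fin k → T.L1 → ℤ =>
      if (∀ j, InB T (2 * k * R) (h j)) ∧ ¬ G h then T.gamK h ^ N else 0))
  have h4 : ∑' h : Fin k → T.L1 → ℤ, (if ∀ j, InB T (2 * k * R) (h j) then T.gamK h ^ N else 0) =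
      ∑' h : Fin k → T.L1 → ℤ,
        ((if (∀ j, InB T (2 * k * R) (h j)) ∧ G h then T.gamK h ^ N else 0) +
        if (∀ j, InB T (2 * k * R) (h j)) ∧ ¬ G h then T.gamK h ^ N else 0) :=
    tsum_congr fun h => by
      by_cases a : ∀ j, InB T (2 * k * R) (h j) <;> by_cases b : G h <;> simp [a, b]
  linarith

theorem one_add_pow_le {x : ℝ} (h0 : 0 ≤ x) (h1 : x ≤ 1) (n : ℕ) : (1 + x) ^ n ≤ 1 + 3 ^ n * x := by
  induction n with
  | zero => simpa using h0
  | succ n ih =>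
    have h2 : (1 : ℝ) ≤ 3 ^ n := one_le_pow₀ (by norm_num)
    have h3 : 3 ^ n * x * x ≤ 3 ^ n * x := mul_le_of_le_one_right (by positivity) h1
    have h4 := mul_le_mul_of_nonneg_right ih (by linarith : 0 ≤ 1 + x)
    have h5 := mul_le_mul_of_nonneg_right h2 h0
    rw [pow_succ, pow_succ]
    nlinarith

theorem tot_eq {k : ℕ} (h : MpAt T k) :
    ∑' h : Fin k → T.L1 → ℤ, T.gamK h * (T.mp h).M = T.M ^ (k + 1) := by
  have h1 := h.tsum (fun _ => 1) fun _ => by simp
  have h2 := (L81.summable_pi (k + 1) (fun _ => T.wgt) (fun _ => T.wgt_nonneg)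
    fun _ => T.summable_wgt).2
  simp only [mul_one, ← Complex.ofReal_prod, ← Complex.ofReal_tsum, ← Complex.ofReal_mul,
    Complex.ofReal_inj] at h1
  rw [h2, prod_const, card_univ, Fintype.card_fin] at h1
  exact h1.symm

theorem card_MI_le (k : ℕ) : Fintype.card (T.MI (Fin k)) ≤ (k + 1) * Fintype.card ι := by
  rw [Fintype.card_sum, Fintype.card_prod, Fintype.card_fin, add_mul, one_mul, add_comm]
  exact Nat.add_le_add_right (Nat.mul_le_mul_left _ (Fintype.card_subtype_le _)) _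

end Avg46

open Avg46 in
/-- **task AVG** -/
theorem avgStmt (hMp : MpStmt) (hMs : MsStmt) (hHer : HerStmt) : AvgStmt := by
  classical
  intro l k
  obtain ⟨D1, C1, hC1, hMs⟩ := hMs l
  obtain ⟨D2, C2, hC2, hHer⟩ := hHer l k D1
  obtain ⟨E0, hE⟩ : ∃ C : ℕ, ∀ m ρ : ℝ, 2 ≤ m → 0 ≤ ρ → ρ ≤ Real.exp (-m ^ C) →
      ((k : ℝ) + 1) * m ≤ m ^ C ∧ 2 * k * (((k : ℝ) + 2) * m) ≤ m ^ C ∧
      3 ^ (k + 1) * ρ ≤ Real.exp (-m) / 16 := by qp
  refine ⟨D1 + D2, (E0 + 1) * C1 * C2, Nat.mul_pos (Nat.mul_pos (by omega) hC1) hC2,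
    fun ι _ T m hT v hv hbig => ?_⟩
  have hm := hT.two
  have hup : ∀ {a : ℝ} {C : ℕ}, 2 ≤ a → 1 ≤ C → a ≤ a ^ C := fun ha hC =>
    le_self_pow₀ (by linarith) (by omega)
  rw [pow_mul, pow_mul] at hT ⊢
  set y := m ^ (E0 + 1) with hy
  have hy0 : m ^ E0 ≤ y := pow_le_pow_right₀ (by linarith) (Nat.le_succ _)
  have hmy : m ≤ y := hup hm (by omega)
  have hy1 : y ≤ y ^ C1 := hup (hm.trans hmy) hC1
  have hy2 : y ^ C1 ≤ (y ^ C1) ^ C2 := hup ((hm.trans hmy).trans hy1) hC2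
  obtain ⟨e1, e2, e3⟩ := hE m (Real.exp (-y)) hm (Real.exp_pos _).le
    (Real.exp_le_exp.2 (by linarith))
  have e4 : Real.exp (-y) ≤ Real.exp (-m) / 16 :=
    (le_mul_of_one_le_left (Real.exp_pos _).le (one_le_pow₀ (by norm_num))).trans e3
  have e5 := Real.exp_pos (-m)
  have hMp := hMp ι T k
  have hγ := (mu1_pos T)
  have hG1 : muG T k 1 = T.mu1 ^ k * √(k + 1) ^ Fintype.card T.L1 := by simp [muG]
  have hG2 : T.mu1 ^ k ≤ muG T k 1 := by
    rw [hG1]
    exact le_mul_of_one_le_right (by positivity)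
      (one_le_pow₀ (Real.one_le_sqrt.2 (by linarith [Nat.cast_nonneg (α := ℝ) k])))
  have hG0 : 0 < muG T k 1 := lt_of_lt_of_le (by positivity) hG2
  have hmu : ∀ h : Fin k → T.L1 → ℤ, (T.mp h).mu = T.mu ^ (k + 1) / muG T k 1 := fun h => by
    rw [eq_div_iff hG0.ne', hG1, hMp.mu]
  have hmm : muG T k 1 * (T.mu ^ (k + 1) / muG T k 1) = T.mu ^ (k + 1) := mul_div_cancel₀ _ hG0.ne'
  have hTmu := T.mu_pos
  have hn1 : ((k * Fintype.card T.L1 : ℕ) : ℝ) ≤ k * m := by
    push_cast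
    exact mul_le_mul_of_nonneg_left (le_trans (by exact_mod_cast Fintype.card_subtype_le _) hT.card)
      (Nat.cast_nonneg k)
  have hk0 : (0 : ℝ) ≤ k := Nat.cast_nonneg k
  have hgood := gam_good T hMp.orth' (N := 1) le_rfl (R := (k + 2) * m) (by positivity)
    (fun h => Gm (T.mp h) l D1 (y ^ C1)) (β := Real.exp (-y ^ C1) * T.mu1 ^ k) fun Q hQ =>
      hHer ι T _ (hT.mono (by omega) (hmy.trans hy1) le_rfl (by positivity)) Q fun h hh =>
        ⟨fun j c => ((hQ h hh).1 j c).trans (by linarith), (hQ h hh).2⟩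
  have htail : Real.exp ((k * Fintype.card T.L1 : ℕ) / 2 - 3 / 2 * ((k + 2) * m) ^ 2) ≤
      Real.exp (-m) / 16 := by
    have h1 : (16 : ℝ) ≤ Real.exp 6 := by
      have := Real.quadratic_le_exp_of_nonneg (x := 6) (by norm_num)
      linarith
    rw [le_div_iff₀ (by norm_num)]
    refine (mul_le_mul_of_nonneg_left h1 (Real.exp_pos _).le).trans ?_
    rw [← Real.exp_add]
    refine Real.exp_le_exp.2 ?_
    have h2 : 4 ≤ (k + 2) * m := by nlinarith
    nlinarith
  obtain ⟨Q, hQ1, hQ2⟩ := core (fun h => T.gamK h) (fun h => (T.mp h).M) v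
    (fun h => (∀ j, InB T (2 * k * ((k + 2) * m)) (h j)) ∧ Gm (T.mp h) l D1 (y ^ C1))
    (μ := muG T k 1) (μ' := T.mu ^ (k + 1) / muG T k 1) (η := Real.exp (-m) / 8)
    (δ := Real.exp (-m)) hG0.le (by positivity) (by positivity) le_rfl
    (Real.exp_le_one_iff.2 (by linarith)) (fun h => (gamK_pos T h).le) (gamK_le_one T) hv
    (by simpa using (gam_ball T hMp.orth' (N := 1) le_rfl le_rfl).1) hMp.summ
    (by
      have h1 := (hMs ι T y (hT.mono (by omega) hmy hy2 (by positivity))).1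
      have h2 : T.M ≤ (1 + Real.exp (-y)) * T.mu := by
        rw [← div_le_iff₀ hTmu]; linarith [(abs_le.1 h1).2]
      rw [tot_eq T hMp, hmm]
      refine (pow_le_pow_left₀ T.M_nonneg h2 _).trans ?_
      rw [mul_pow]
      refine mul_le_mul_of_nonneg_right ((one_add_pow_le (Real.exp_pos _).le
        (Real.exp_le_one_iff.2 (by linarith)) _).trans (by linarith)) (by positivity))
    (fun h hh => by
      rw [← hmu h]
      refine (hMs _ (T.mp h) y ⟨hm.trans hmy, ?_, hh.2⟩).1.trans (by linarith)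
      calc (Fintype.card (T.MI (Fin k)) : ℝ) ≤ (k + 1) * Fintype.card ι := by
            exact_mod_cast card_MI_le T k
        _ ≤ (k + 1) * m := mul_le_mul_of_nonneg_left hT.card (by positivity)
        _ ≤ y := by linarith)
    (by
      simp only [pow_one] at hgood
      refine le_trans ?_ (by convert hgood; rfl)
      have h1 : Real.exp (-y ^ C1) * T.mu1 ^ k ≤ Real.exp (-m) / 16 * muG T k 1 :=
        mul_le_mul ((Real.exp_le_exp.2 (by linarith)).trans e4) hG2 (by positivity) (by positivity)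
      have h2 := mul_le_mul_of_nonneg_right htail hG0.le
      linarith)
    (by rwa [hmm])
  have e6 : Real.exp (-(y ^ C1) ^ C2) ≤ Real.exp (-m) / 8 :=
    (Real.exp_le_exp.2 (by linarith)).trans (e4.trans (by linarith))
  refine ⟨Q, le_trans (mul_le_mul (by linarith) hG2 (by positivity) (by positivity)) hQ1,
    fun h hh => ⟨fun j c => ((hQ2 h hh).1.1 j c).trans (by linarith), ?_⟩⟩
  rw [hmu h]
  exact le_trans (mul_le_mul_of_nonneg_right e6 (by positivity)) (hQ2 h hh).2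

end Crest.Agent.T49.Ri
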