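import Crest.Agent.T49.RiDef_12
import Crest.Agent.T49.MxCell_53
import Crest.Agent.T49.MxND_81
import Crest.Agent.T49.AhG_60

/-! # Row 49 (helper60): the level-one lattice of a cell; `BallStmt` -/

set_option autoImplicit false

noncomputable section

namespace Crest.Agent.T49.Ri

open Finset MvPolynomial Crest.Agent.T49.Tw

namespace B60

variable {ι : Type} [Fintype ι] (T : Cell ι)

/-- the level-one cell with the windows `ρ⁻¹ ell` -/
def c1 (ρ : ℝ) (hρ : 0 < ρ) : Cell T.L1 := (T.nar ρ hρ 0).frz fun c => T.lev c = 1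

variable {ρ : ℝ} (hρ : 0 < ρ)

omit [Fintype ι] in
theorem c1_th (c : T.L1) : (c1 T ρ hρ).th c = C ρ⁻¹ * dn (fun c => T.lev c = 1) (T.tth c.1) := by
  rw [c1, Cell.frz_th, Cell.nar_th]
  simp

omit [Fintype ι] in
theorem ev_c1 (h : T.L1 → ℤ) (c : T.L1) : ev h ((c1 T ρ hρ).th c) = ρ⁻¹ * T.ell h c := by
  rw [c1_th, ev_mul, ev_C, ev_dn_zero, Cell.ell]
  congr 2
  funext c'
  simp only [glue, Cell.ext1]
  split_ifs <;> rfl

theorem c1_wgt (h : T.L1 → ℤ) :
    (c1 T ρ hρ).wgt h = Real.exp (-Real.pi * ∑ c, (ρ⁻¹ * T.ell h c) ^ 2) := by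
  simp only [Tri.wgt, ev_c1]

theorem c1_mu : (c1 T ρ hρ).mu = ρ ^ Fintype.card T.L1 * T.mu1 := by
  change ∏ c : T.L1, |ρ⁻¹ * T.a c.1|⁻¹ = _
  simp only [Cell.mu1, abs_mul, mul_inv, prod_mul_distrib, abs_inv, inv_inv, abs_of_pos hρ,
    prod_const, card_univ]

theorem mu1_pos : 0 < T.mu1 := prod_pos fun c _ => inv_pos.2 (abs_pos.2 (T.a_ne c.1))

theorem card_L1_le : Fintype.card T.L1 ≤ Fintype.card ι := Fintype.card_subtype_le _

/-- the level-one cell is a projective cover -/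
theorem c1_pc {s : ℕ} (hs : ∀ c, T.lev c ≤ s) {u x : ℝ} (hu : 0 ≤ u) (h1 : ρ ≤ 1)
    (h2 : Real.exp (-u) ≤ ρ) (hx : (s + 1) * u + 2 ≤ x) : T.PC x (c1 T ρ hρ) Subtype.val := by
  have h0 : (0 : ℝ) ≤ (s + 1) * u := by positivity
  refine (T.nar_pc hρ 0 hs hu h1 h2 le_rfl).trans ((T.nar ρ hρ 0).pc_frz fun c hc => ?_)
    (by linarith) (by linarith)
  refine supported_mono (fun c' (hc' : T.lev c' ≤ T.lev c) => ?_) ((T.nar ρ hρ 0).B_mem_lev c)
  have := T.lev_pos c'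
  change T.lev c' = 1
  omega

omit [Fintype ι] in
theorem c1_hom (c : T.L1) : IsWeightedHomogeneous (fun _ => 1) ((c1 T ρ hρ).th c) 1 := by
  rw [c1_th]
  have hc := T.tth_hom c.1
  rw [c.2] at hc
  refine hom_C_mul (hom_bind' (w := T.lev) (fun c' => ?_) hc) _
  split_ifs with h
  · rw [h]; exact isWeightedHomogeneous_X ℝ (fun _ : T.L1 => 1) ⟨c', h⟩
  · exact isWeightedHomogeneous_zero _ _ _

theorem eval_lin {σ : Type} [Fintype σ] [DecidableEq σ] {f : Pl σ}
    (hf : IsWeightedHomogeneous (fun _ => 1) f 1) (x : σ → ℝ) :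
    eval x f = ∑ r, eval (Pi.single r 1) f * x r := by
  have := congrArg (eval (0 : σ → ℝ)) (bind_lin hf univ (fun r => C (x r))
    (fun r c => C ((Pi.single r 1 : σ → ℝ) c)) (fun c => C (x c)) (by simp) fun c _ => by
      simp [Pi.single_apply, apply_ite])
  simpa only [eval_bind, map_sum, map_mul, eval_C, mul_comm] using this

open Classical in
/-- `ell` as a linear map -/
def lA : (T.L1 → ℝ) →ₗ[ℝ] EuclideanSpace ℝ T.L1 :=
  tlin (Matrix.of fun c r => eval (Pi.single r 1) ((c1 T 1 one_pos).th c))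

theorem lA_apply (x : T.L1 → ℝ) (c : T.L1) : lA T x c = eval x ((c1 T 1 one_pos).th c) := by
  classical
  rw [lA, tlin_apply, eval_lin (c1_hom T one_pos c)]
  rfl

theorem lA_cast (h : T.L1 → ℤ) (c : T.L1) : lA T (Lat.cast h) c = T.ell h c := by
  rw [lA_apply]
  exact (ev_c1 T one_pos h c).trans (by rw [inv_one, one_mul])

theorem lA_inj : Function.Injective (lA T) := fun x y e =>
  (c1 T 1 one_pos).eval_th_injective fun c => by rw [← lA_apply, ← lA_apply, e]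

theorem ell_add (h h' : T.L1 → ℤ) (c : T.L1) : T.ell (h + h') c = T.ell h c + T.ell h' c := by
  have : Lat.cast (h + h') = Lat.cast h + Lat.cast h' := by ext i; simp
  simp only [← lA_cast, this, map_add, PiLp.add_apply]

theorem ell_sub (h h' : T.L1 → ℤ) (c : T.L1) : T.ell (h - h') c = T.ell h c - T.ell h' c := by
  have : Lat.cast (h - h') = Lat.cast h - Lat.cast h' := by ext i; simp
  simp only [← lA_cast, this, map_sub, PiLp.sub_apply]

theorem norm_sq_lA (h : T.L1 → ℤ) : ‖lA T (Lat.cast h)‖ ^ 2 = ∑ c, T.ell h c ^ 2 := by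
  simp only [EuclideanSpace.real_norm_sq_eq, lA_cast]

theorem gw_lA (h : T.L1 → ℤ) : AH.gw (lA T) h = (c1 T 1 one_pos).wgt h := by
  simp only [AH.gw, norm_sq_lA, c1_wgt, inv_one, one_mul]

theorem norm_lA_le {m : ℝ} (hm : 0 ≤ m) {h : T.L1 → ℤ} (hh : InB T m h) :
    ‖lA T (Lat.cast h)‖ ≤ Fintype.card T.L1 * m := by
  refine (abs_le_of_sq_le_sq' ?_ (by positivity)).2
  rw [norm_sq_lA]
  refine (sum_le_card_nsmul _ _ (m ^ 2) fun c _ => sq_le_sq' (abs_le.1 (hh c)).1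
    (abs_le.1 (hh c)).2).trans ?_
  rw [card_univ, nsmul_eq_mul, mul_pow]
  refine mul_le_mul_of_nonneg_right ?_ (sq_nonneg _)
  exact_mod_cast Nat.le_self_pow two_ne_zero _

theorem card_le_box {σ : Type} [Fintype σ] {L : σ → ℕ} {B : Finset (σ → ℤ)}
    (h : ∀ x ∈ B, ∀ i, 2 * |x i| < L i) : (#B : ℝ) ≤ ∏ i, (L i : ℝ) := by
  classical
  have h1 : B ⊆ Fintype.piFinset fun i => Ico (-((L i : ℤ) / 2)) (L i - L i / 2) := fun x hx =>
    Fintype.mem_piFinset.2 fun i => by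
      have := h x hx i
      rw [mem_Ico]
      rcases abs_cases (x i) with h2 | h2 <;> omega
  have h2 := card_le_card h1
  rw [Fintype.card_piFinset] at h2
  simp only [Int.card_Ico, sub_neg_eq_add, sub_add_cancel, Int.toNat_natCast] at h2
  exact_mod_cast h2

end B60

open B60

theorem ballStmt (hMs : MsStmt) : BallStmt := by
  intro l
  obtain ⟨D, C₁, -, hM⟩ := hMs l
  obtain ⟨C₂, hC₂⟩ : ∃ C : ℕ, ∀ (m : ℝ) (d : ℕ), 2 ≤ m → (d : ℝ) ≤ m →
      (2 * ((2 * (d : ℝ)) ^ d * (d * m) + 1)) ^ d * (Real.exp 4 * (2 * ((d : ℝ) + 1)) ^ d * 2) ≤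
        Real.exp (m ^ C) := by qp
  refine ⟨D, C₁ + C₂ + 1, by omega, fun ι _ T m h => ?_⟩
  classical
  have hm := h.two
  have hm1 : 1 ≤ m := by linarith
  obtain ⟨-, hP, -⟩ := hM ι T m
    (h.mono le_rfl le_rfl (pow_le_pow_right₀ hm1 (by omega)) (by positivity))
  have h1 := (abs_le.1 (hP _ _ _ (c1_pc T one_pos h.gm.1 le_rfl le_rfl (by simp)
    (by simpa using hm)))).2
  have hmu := mu1_pos T
  rw [c1_mu, one_pow, one_mul, sub_le_iff_le_add, div_le_iff₀ hmu] at h1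
  have h2 : ∑' z, AH.gw (lA T) z ≤ 2 * T.mu1 := by
    simp only [gw_lA]
    refine le_trans h1 (mul_le_mul_of_nonneg_right ?_ hmu.le)
    linarith [Real.exp_le_one_iff.2 (show -m ≤ 0 by linarith)]
  obtain ⟨R⟩ := Lat.exists_Red (lA T) (lA_inj T)
  have hd : (Fintype.card T.L1 : ℝ) ≤ m := le_trans (by exact_mod_cast card_L1_le T) h.card
  set t : ℝ := Lat.cst T.L1 * (Fintype.card T.L1 * m) + 1 with ht
  have ht1 : 1 ≤ t := le_add_of_nonneg_left (by have := Lat.one_le_cst T.L1; positivity)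
  have hbox : ∀ x, InB T m x → AH.coE R x ∈ AH.bx R t := fun x hx =>
    AH.bx_mono R (by linarith) (AH.co_mem_bx R (lA_inj T) (norm_lA_le T (by linarith) hx))
  have hcard : (#(AH.bx R t) : ℝ) ≤ Real.exp (m ^ (C₁ + C₂ + 1)) * T.mu1 := by
    refine (AH.card_bx_le R (lA_inj T) ht1).trans ?_
    calc _ ≤ (2 * t) ^ Fintype.card T.L1 *
          (Real.exp 4 * (2 * ((Fintype.card T.L1 : ℝ) + 1)) ^ Fintype.card T.L1 * (2 * T.mu1)) := by
          refine mul_le_mul_of_nonneg_left ((AH.gauss_lower R (lA_inj T)).trans ?_) (by positivity)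
          have h3 : 0 ≤ ∑' z, AH.gw (lA T) z := tsum_nonneg fun z => (AH.gw_pos _ z).le
          gcongr
          exact Real.pi_le_four
      _ ≤ Real.exp (m ^ C₂) * T.mu1 := by
          rw [← mul_assoc _ 2, ← mul_assoc]
          exact mul_le_mul_of_nonneg_right (hC₂ m _ hm hd) hmu.le
      _ ≤ _ := by gcongr; omega
  refine ⟨⟨AH.coE R, fun x y => funext fun i => ?_⟩,
    fun i => 2 * ⌊t / ‖lA T (Lat.cast (R.b i))‖⌋₊ + 1, (AH.card_bx R t).symm.le.trans hcard,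
    fun x hx i => ?_, fun H hH => le_trans ?_ hcard⟩
  · change R.coZ i _ = R.coZ i _ + R.coZ i _
    simp [Lat.Red.coZ, mul_add, sum_add_distrib]
  · have h3 := abs_le.2 (mem_Icc.1 (Fintype.mem_piFinset.1 (hbox x hx) i))
    change 2 * |AH.coE R x i| < _
    push_cast
    omega
  · exact_mod_cast card_le_card_of_injOn (AH.coE R) (fun x hx => hbox x (hH x hx))
      (AH.coE R).injective.injOn

end Crest.Agent.T49.Ri
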