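import Crest.Agent.T49.RiFou_42
import Crest.Agent.T49.RiBall_60
import Crest.Agent.T49.RiMs_54

/-!
# Row 49 (helper42): the `U²` inverse theorem relative to a regular cell (`BaseStmt`)

The autocorrelation of `wgt * f` along the level-one differences is truncated to the differences
whose pair cell has the ideal mass; box Cauchy-Schwarz, replacement of the four-point masses by
the level-one Gaussian model, and Plancherel on the level-one lattice.
-/

set_option autoImplicit false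
set_option linter.unusedSectionVars false

noncomputable section

namespace Crest.Agent.T49.Ri

open Finset MvPolynomial
open Crest.Agent.T49.Tw Crest.Agent.T49.Ri.F42 Crest.Agent.T49.Ri.B3
open scoped ComplexConjugate

namespace B42

variable {ι : Type} [Fintype ι] (T : Cell ι)

/-! ### multi-point cells of the wrong mass -/

/-- the mass of the configurations whose multi-point cell does not have the ideal mass -/
def bad (k : ℕ) (η : ℝ) (h : Fin k → T.L1 → ℤ) : ℝ :=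
  T.gamK h * if |(T.mp h).M / (T.mp h).mu - 1| ≤ η then 0 else (T.mp h).M

theorem bad_nonneg (k : ℕ) (η : ℝ) (h : Fin k → T.L1 → ℤ) : 0 ≤ bad T k η h := by
  refine mul_nonneg (gamK_pos h).le ?_
  split_ifs
  exacts [le_rfl, (T.mp h).M_nonneg]

theorem summable_bad {k : ℕ} (hM : MpAt T k) (η : ℝ) : Summable (bad T k η) :=
  hM.summ.of_nonneg_of_le (bad_nonneg T k η) fun h => by
    refine mul_le_mul_of_nonneg_left ?_ (gamK_pos h).le
    split_ifs
    exacts [(T.mp h).M_nonneg, le_rfl]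

theorem bad_mass (hH : HerStmt) (hA : AvgStmt) (l k : ℕ) : ∃ D C : ℕ, 1 ≤ C ∧
    ∀ (ι : Type) [Fintype ι] (T : Cell ι) (m : ℝ), Ok T l D m (m ^ C) →
      ∑' h, bad T k (Real.exp (-m)) h ≤ Real.exp (-m) * T.mu ^ (k + 1) := by
  obtain ⟨D₁, C₁, -, h₁⟩ := hA l k
  obtain ⟨D₂, C₂, -, h₂⟩ := msStmt l
  obtain ⟨D₃, C₃, -, h₃⟩ := hH l k D₂
  obtain ⟨C₀, hC₀⟩ : ∃ C : ℕ, ∀ m : ℝ, 2 ≤ m →
      m ^ C₁ + 1 ≤ m ^ C ∧ ((k + 1) * m) ^ C₂ ≤ m ^ C := by qp
  refine ⟨D₁ + D₃, C₁ + (C₀ + 1) * C₃ + 1, by omega, fun ι _ T m h => ?_⟩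
  have hm := h.two
  obtain ⟨k1, k2⟩ := hC₀ m hm
  have k3 : m ^ C₀ ≤ m ^ (C₀ + 1) := Qp.pw_mono hm (by omega)
  have k4 : m ≤ (k + 1) * m := le_mul_of_one_le_left (by linarith) (by simp)
  by_contra hc
  obtain ⟨Q, q1, q2⟩ := h₁ ι T m (h.mono (by omega) le_rfl (Qp.pw_mono hm (by omega))
    (by positivity)) (fun h => if |(T.mp h).M / (T.mp h).mu - 1| ≤ Real.exp (-m) then 0
      else (T.mp h).M) (fun h => by
        split_ifs
        exacts [⟨le_rfl, (T.mp h).M_nonneg⟩, ⟨(T.mp h).M_nonneg, le_rfl⟩]) (not_le.1 hc).le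
  have q3 := h₃ ι T _ (h.use (C₀ := C₀ + 1) (by omega) (by omega) (by omega)) Q fun x hx =>
    ⟨fun j => ((q2 x hx).1 j).mono (by linarith), fun hG => by
      have q4 := (h₂ _ _ _ (h.mp (hG.mono le_rfl (k2.trans k3) (by positivity)) le_rfl)).1
      have q5 := (q2 x hx).2
      rw [if_pos (q4.trans (exn_le k4))] at q5
      exact absurd q5 (not_le.2 (mul_pos (Real.exp_pos _) (T.mp x).mu_pos))⟩
  have q6 := le_of_mul_le_mul_right (q1.trans q3) (pow_pos (mu1_pos T) k)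
  rw [Real.exp_le_exp] at q6
  linarith

/-- comparison of two weights of almost the same mass -/
theorem cmp {H : Type} {P Q B : H → ℝ} (hP : Wt P) (hQ : Wt Q) (hB : Wt B) {t : ℝ} (ht : 0 ≤ t)
    (h : ∀ x, P x ≤ B x + (1 + t) * Q x) {κ : H → ℂ} (hκ : ∀ x, ‖κ x‖ ≤ 1) :
    ‖B3.Ex P κ‖ ≤ ‖B3.Ex Q κ‖ + (2 * ∑' x, B x + (1 + 2 * t) * ∑' x, Q x - ∑' x, P x) := by
  refine (norm_le_norm_add_norm_sub' _ (B3.Ex Q κ)).trans (add_le_add le_rfl ?_)
  rw [B3.Ex, B3.Ex, ← (hP.summable hκ).tsum_sub (hQ.summable hκ)]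
  refine tsum_of_norm_bounded (((hB.sm.hasSum.mul_left 2).add
    (hQ.sm.hasSum.mul_left (1 + 2 * t))).sub hP.sm.hasSum) fun x => ?_
  rw [← sub_mul, norm_mul, ← Complex.ofReal_sub, Complex.norm_real, Real.norm_eq_abs]
  refine (mul_le_of_le_one_right (abs_nonneg _) (hκ x)).trans (abs_le.2 ⟨?_, ?_⟩)
  · nlinarith [hB.nn x, mul_nonneg ht (hQ.nn x)]
  · nlinarith [h x]

/-! ### level-one parts -/

/-- the level-one part of a point -/
def pr (z : ι → ℤ) : T.L1 → ℤ := fun c => z c.1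

/-- the offsets of the points -/
def off {G : Type} [Zero G] {k : ℕ} (h : Fin k → G) : Fin (k + 1) → G := Fin.cases 0 h

theorem pr_pt {k : ℕ} (h : Fin k → T.L1 → ℤ) (i : Fin (k + 1)) (p : T.MI (Fin k) → ℤ) :
    pr T (T.pt h i p) = (fun c => p (Sum.inl c.1)) + off h i := by
  funext c
  refine Fin.cases ?_ (fun j => ?_) i
  · rfl
  · simp [pr, Cell.pt, Cell.wZ, off, c.2]

theorem wt_wgt {κ : Type} [Fintype κ] (U : Cell κ) : Wt U.wgt := ⟨U.wgt_nonneg, U.summable_wgt⟩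

theorem tsum_pow {X : Type} {w : X → ℝ} (hw : Wt w) (k : ℕ) :
    ∑' y : Fin k → X, ∏ i, w (y i) = (∑' x, w x) ^ k := by
  induction k with
  | zero => simp
  | succ k ih =>
    have h1 : Wt fun y : Fin k → X => ∏ i, w (y i) :=
      ⟨fun _ => prod_nonneg fun _ _ => hw.nn _, Hk.summable_pi (fun _ => hw.nn) fun _ => hw.sm⟩
    rw [pow_succ', ← ih, ← hw.mass_tw h1, ← (Fin.consEquiv fun _ => X).tsum_eq]
    exact tsum_congr fun p => by simp [tw, Fin.prod_univ_succ, Fin.consEquiv]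

variable {T}

/-- functions of the level-one differences -/
theorem sum_diff {k : ℕ} (hM : MpAt T k) {κ : (Fin (k + 1) → T.L1 → ℤ) → ℂ} (hκ : ∀ x, ‖κ x‖ ≤ 1)
    (hi : ∀ t x, κ (fun i => t + x i) = κ x) :
    ∑' y : Fin (k + 1) → ι → ℤ, (∏ i, (T.wgt (y i) : ℂ)) * κ (fun i => pr T (y i)) =
      B3.Ex (fun h => T.gamK h * (T.mp h).M) fun h => κ (off h) := by
  rw [hM.tsum (fun y => κ fun i => pr T (y i)) fun _ => hκ _, B3.Ex]
  refine tsum_congr fun h => ?_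
  simp only [pr_pt, hi]
  rw [tsum_mul_right, Tri.M, ← Complex.ofReal_tsum]
  push_cast
  ring

theorem wt_mp {k : ℕ} (hM : MpAt T k) : Wt fun h : Fin k → T.L1 → ℤ => T.gamK h * (T.mp h).M :=
  ⟨fun h => mul_nonneg (gamK_pos h).le (T.mp h).M_nonneg, hM.summ⟩

theorem mass_mp {k : ℕ} (hM : MpAt T k) :
    ∑' h : Fin k → T.L1 → ℤ, T.gamK h * (T.mp h).M = T.M ^ (k + 1) := by
  have := sum_diff hM (κ := fun _ => 1) (by simp) fun _ _ => rfl
  simp only [B3.Ex, mul_one] at this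
  rw [Tri.M, ← tsum_pow (wt_wgt T)]
  exact_mod_cast this.symm

/-! ### the level-one model -/

variable (T)

/-- the level-one cell -/
abbrev g1 : Cell T.L1 := B60.c1 T 1 one_pos

/-- the cell of the base point of a configuration of level-one points -/
def af {k : ℕ} (h : Fin k → T.L1 → ℤ) : Cell T.L1 :=
  (g1 T).aff (r := fun _ => √(k + 1)) (fun _ => by positivity)
    fun c => (√(k + 1))⁻¹ * ∑ j, T.ell (h j) c

theorem af_mu {k : ℕ} (h : Fin k → T.L1 → ℤ) :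
    (af T h).mu * √(k + 1) ^ Fintype.card T.L1 = T.mu1 := by
  have : (0 : ℝ) < √(k + 1) := by positivity
  rw [af, Cell.aff_mu, B60.c1_mu]
  simp only [abs_of_pos this, prod_const, card_univ, inv_pow, one_pow, one_mul]
  field_simp

theorem af_pc {s : ℕ} (hs : ∀ c, T.lev c ≤ s) (h : Fin 3 → T.L1 → ℤ) :
    T.PC 4 (af T h) (Subtype.val ∘ id) := by
  refine (B60.c1_pc T one_pos hs le_rfl le_rfl (by simp) (x := 2) (by simp)).trans
    (Cell.pc_aff _ _ (g1 T) (u := 1) (s := 1) (x := 2) zero_le_one (fun c => ?_)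
      (fun c => c.2.le) (by norm_num) (by norm_num)) (by norm_num) (by norm_num)
  rw [abs_of_nonneg (Real.sqrt_nonneg _)]
  refine le_trans (Real.sqrt_le_iff.2 ⟨zero_le_two, by norm_num⟩) ?_
  linarith [Real.add_one_le_exp 1]

variable {T}

theorem helm_sq {k : ℕ} (hM : MpAt T k) (t : ℝ) (x : Fin k → ℝ) :
    ∑ i, (t + off x i) ^ 2 = ∑ j : Fin k, (∑ i : Fin k, helm k j.succ i.succ * x i) ^ 2 +
      (√(k + 1) * t + (√(k + 1))⁻¹ * ∑ j, x j) ^ 2 := by
  have h0 : ∀ y : Fin (k + 1) → ℝ, ∑ r, (∑ i, helm k r i * y i) ^ 2 = ∑ i, y i ^ 2 := by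
    intro y
    simp only [sq, sum_mul_sum]
    rw [sum_comm]
    refine sum_congr rfl fun i _ => ?_
    rw [sum_comm]
    have : ∀ i', ∑ r, helm k r i * y i * (helm k r i' * y i') =
        (if i = i' then 1 else 0) * (y i * y i') := fun i' => by
      rw [← hM.orth', sum_mul]
      exact sum_congr rfl fun r _ => by ring
    simp [this]
  have h1 : (0 : ℝ) < √(k + 1) := by positivity
  have h2 : √((k : ℝ) + 1) * √(k + 1) = k + 1 := Real.mul_self_sqrt (by positivity)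
  rw [← h0, Fin.sum_univ_succ, add_comm]
  congr 1
  · refine sum_congr rfl fun j _ => ?_
    simp only [mul_add, sum_add_distrib, ← sum_mul, R12.sum_helm]
    simp [Fin.sum_univ_succ, off]
  · congr 1
    simp only [helm, if_true, ← mul_sum, sum_add_distrib, sum_const, card_univ, Fintype.card_fin]
    simp only [Fin.sum_univ_succ, off, Fin.cases_zero, Fin.cases_succ, nsmul_eq_mul]
    push_cast
    nth_rw 2 [← h2]
    field_simp
    ring

theorem prod_g1 {k : ℕ} (hM : MpAt T k) (h : Fin k → T.L1 → ℤ) (t : T.L1 → ℤ) :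
    ∏ i, (g1 T).wgt (t + off h i) = T.gamK h * (af T h).wgt t := by
  have e : ∀ i c, T.ell (off h i) c = off (fun j => T.ell (h j) c) i := fun i c => by
    refine Fin.cases ?_ (fun j => rfl) i
    have := B60.ell_sub T 0 0 c
    rwa [sub_self, sub_self] at this
  simp only [Tri.wgt, af, Cell.aff_ev, B60.ev_c1, Cell.gamK, inv_one, one_mul,
    B60.ell_add, e]
  rw [← Real.exp_sum, ← Real.exp_add, ← mul_sum, ← mul_add, sum_comm, ← sum_add_distrib]
  simp only [helm_sq hM]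

/-- configurations = differences and base point -/
def cfg (G : Type) [AddCommGroup G] (k : ℕ) : (Fin k → G) × G ≃ (Fin (k + 1) → G) where
  toFun p i := p.2 + off p.1 i
  invFun x := (fun j => x j.succ - x 0, x 0)
  left_inv p := by ext <;> simp [off]
  right_inv x := by
    funext i
    refine Fin.cases ?_ (fun j => ?_) i <;> simp [off]

theorem summable_cfg {k : ℕ} (hM : MpAt T k) :
    Summable fun p : (Fin k → T.L1 → ℤ) × (T.L1 → ℤ) => T.gamK p.1 * (af T p.1).wgt p.2 := by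
  classical
  have := (cfg (T.L1 → ℤ) k).summable_iff.2
    (Hk.summable_pi (fun _ => (g1 T).wgt_nonneg) fun _ => (g1 T).summable_wgt)
  exact this.congr fun p => prod_g1 hM p.1 p.2

theorem wt_af {k : ℕ} (hM : MpAt T k) : Wt fun h : Fin k → T.L1 → ℤ => T.gamK h * (af T h).M :=
  ⟨fun h => mul_nonneg (gamK_pos h).le (af T h).M_nonneg,
    (summable_cfg hM).prod.congr fun h => by simp only [tsum_mul_left, Tri.M]⟩

theorem sum_diff1 {k : ℕ} (hM : MpAt T k) {κ : (Fin (k + 1) → T.L1 → ℤ) → ℂ}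
    (hκ : ∀ x, ‖κ x‖ ≤ 1) (hi : ∀ t x, κ (fun i => t + x i) = κ x) :
    ∑' x : Fin (k + 1) → T.L1 → ℤ, (∏ i, ((g1 T).wgt (x i) : ℂ)) * κ x =
      B3.Ex (fun h => T.gamK h * (af T h).M) fun h => κ (off h) := by
  have h1 : Wt fun p : (Fin k → T.L1 → ℤ) × (T.L1 → ℤ) => T.gamK p.1 * (af T p.1).wgt p.2 :=
    ⟨fun p => mul_nonneg (gamK_pos _).le ((af T p.1).wgt_nonneg _), summable_cfg hM⟩
  have h2 := (h1.summable (g := fun p => κ (off p.1)) fun _ => hκ _).tsum_prod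
  rw [← (cfg (T.L1 → ℤ) k).tsum_eq, B3.Ex]
  refine Eq.trans (tsum_congr fun p => ?_) (h2.trans (tsum_congr fun h => ?_))
  · rw [← prod_g1 hM, ← hi p.2 (off p.1)]
    push_cast
    rfl
  · simp only
    rw [tsum_mul_right, ← Complex.ofReal_tsum, tsum_mul_left, Tri.M]

theorem mass_af {k : ℕ} (hM : MpAt T k) :
    ∑' h : Fin k → T.L1 → ℤ, T.gamK h * (af T h).M = (g1 T).M ^ (k + 1) := by
  have := sum_diff1 hM (κ := fun _ => 1) (by simp) fun _ _ => rfl
  simp only [B3.Ex, mul_one] at this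
  rw [Tri.M, ← tsum_pow (wt_wgt (g1 T))]
  exact_mod_cast this.symm

/-! ### the four-point form -/

/-- the box kernel -/
def kap {G : Type} [AddCommGroup G] (b : G → ℂ) (x : Fin 4 → G) : ℂ :=
  b (x 2 - x 0) * b (x 3 - x 1) * conj (b (x 3 - x 0)) * conj (b (x 2 - x 1))

theorem box4 (hM : MpAt T 3) {s : ℕ} (hs : ∀ c, T.lev c ≤ s) {η S : ℝ} (h0 : 0 ≤ η)
    (h1 : η ≤ 1 / 2) (hP : T.AllPC 4 η) (hB : ∑' h, bad T 3 η h ≤ η * T.mu ^ 4)
    {b : (T.L1 → ℤ) → ℂ} (hb : Summable fun x => ‖b x‖) (hb1 : ∀ x, ‖b x‖ ≤ 1)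
    (hS : ∀ α, ‖hat b α‖ ≤ S * T.mu1) :
    ‖∑' y : Fin 4 → ι → ℤ, (∏ i, (T.wgt (y i) : ℂ)) * kap b (fun i => pr T (y i))‖ ≤
      (8 * S + 150 * η) * T.mu ^ 4 := by
  have hk : ∀ x, ‖kap b x‖ ≤ 1 := fun x =>
    norm_mul_conj_le (norm_mul_conj_le (norm_mul_le_one (hb1 _) (hb1 _)) (hb1 _)) (hb1 _)
  have hi : ∀ t x, kap b (fun i => t + x i) = kap b x := fun t x => by
    simp only [kap, add_sub_add_left_eq_sub]
  have hμ := T.mu_pos
  have hμ1 := mu1_pos T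
  have hS0 : 0 ≤ S * T.mu1 := (norm_nonneg _).trans (hS 0)
  have m1 := mass_of_allPC hP (by norm_num)
  have m2 := hP _ _ _ (B60.c1_pc T one_pos hs le_rfl le_rfl (by simp) (x := 4) (by norm_num))
  have m3 := M_le_of m2
  rw [B60.c1_mu, one_pow, one_mul] at m3
  set ρ : ℝ := (T.mu / T.mu1) ^ 4 with hρ
  have hρ0 : 0 < ρ := by positivity
  have hρ1 : ρ * T.mu1 ^ 4 = T.mu ^ 4 := by rw [hρ]; field_simp
  have hQ : Wt fun h : Fin 3 → T.L1 → ℤ => ρ * (T.gamK h * (af T h).M) :=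
    ⟨fun h => mul_nonneg hρ0.le ((wt_af hM).nn h), (wt_af hM).sm.mul_left _⟩
  have c1 := cmp (wt_mp hM) hQ ⟨bad_nonneg T 3 η, summable_bad T hM η⟩ (t := 4 * η) (by linarith)
    (fun h => by
      have k0 := (gamK_pos h).le
      have k1 := le_M_of (hP _ _ _ (af_pc T hs h))
      have k2 : (T.mp h).mu = ρ * (af T h).mu := by
        have k3 : (0 : ℝ) < √(((3 : ℕ) : ℝ) + 1) ^ Fintype.card T.L1 := by positivity
        refine mul_right_cancel₀ (mul_pos (pow_pos hμ1 3) k3).ne' ?_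
        rw [hM.mu, ← hρ1, mul_assoc, mul_left_comm (af T h).mu, af_mu]
        ring
      have k4 := (af T h).mu_pos
      rw [bad]
      split_ifs with hg
      · have k5 := M_le_of hg
        have k6 : (T.mp h).M ≤ (1 + 4 * η) * (ρ * (af T h).M) := by
          refine k5.trans ?_
          rw [k2]
          have k7 := mul_le_mul_of_nonneg_left k1 (by positivity : 0 ≤ (1 + 4 * η) * ρ)
          have k8 : 0 ≤ (η * (1 - 2 * η)) * (ρ * (af T h).mu) :=
            mul_nonneg (mul_nonneg h0 (by linarith)) (by positivity)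
          nlinarith
        nlinarith [mul_le_mul_of_nonneg_left k6 k0]
      · exact le_add_of_nonneg_right (mul_nonneg (by linarith) (hQ.nn h)))
    fun h => hk (off h)
  have c2 : (B3.Ex (fun h : Fin 3 → T.L1 → ℤ => ρ * (T.gamK h * (af T h).M))
      fun h => kap b (off h)) =
      ρ * B3.Ex (fun h => T.gamK h * (af T h).M) fun h => kap b (off h) := by
    simp only [B3.Ex, ← tsum_mul_left, Complex.ofReal_mul, mul_assoc]
  have c3 := box_le (wt_wgt (g1 T)) (g1 T).wgt_le_one hb hb1 hS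
  rw [c2, tsum_mul_left, mass_mp hM, mass_af hM, norm_mul, Complex.norm_real,
    Real.norm_of_nonneg hρ0.le, ← sum_diff1 hM hk hi] at c1
  refine ((sum_diff hM hk hi).symm ▸ c1).trans ?_
  have c4 : (∑' x, (g1 T).wgt x) ^ 3 ≤ (2 * T.mu1) ^ 3 :=
    pow_le_pow_left₀ (g1 T).M_nonneg (m3.trans (by gcongr; linarith)) 3
  have c5 : (g1 T).M ^ 4 ≤ ((1 + η) * T.mu1) ^ 4 := pow_le_pow_left₀ (g1 T).M_nonneg m3 4
  have c6 : ((1 - η) * T.mu) ^ 4 ≤ T.M ^ 4 :=
    pow_le_pow_left₀ (mul_nonneg (by linarith) hμ.le) (le_M_of m1) 4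
  have c7 : (1 + η) ^ 4 ≤ 1 + 15 * η := by
    have : η ^ 2 ≤ η := by nlinarith
    have : η ^ 3 ≤ η := by nlinarith
    have : η ^ 4 ≤ η := by nlinarith
    nlinarith
  have c8 : 1 - 4 * η ≤ (1 - η) ^ 4 := by
    have := one_add_mul_le_pow (show (-2 : ℝ) ≤ -η by linarith) 4
    push_cast at this
    linarith [show (1 + -η) ^ 4 = (1 - η) ^ 4 by ring]
  have hμ4 : 0 < T.mu ^ 4 := by positivity
  have d1 := mul_le_mul_of_nonneg_left (c3.trans (mul_le_mul_of_nonneg_right c4 hS0)) hρ0.le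
  have d2 : ρ * ((2 * T.mu1) ^ 3 * (S * T.mu1)) = 8 * S * T.mu ^ 4 := by rw [← hρ1]; ring
  have d3 : ρ * (g1 T).M ^ 4 ≤ (1 + 15 * η) * T.mu ^ 4 := by
    refine (mul_le_mul_of_nonneg_left c5 hρ0.le).trans ?_
    rw [mul_pow, mul_left_comm, hρ1]
    exact mul_le_mul_of_nonneg_right c7 hμ4.le
  have d4 : (1 - 4 * η) * T.mu ^ 4 ≤ T.M ^ 4 := by
    refine le_trans ?_ c6
    rw [mul_pow]
    exact mul_le_mul_of_nonneg_right c8 hμ4.le
  have d5 := mul_le_mul_of_nonneg_left d3 (by linarith : 0 ≤ 1 + 2 * (4 * η))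
  have d6 : (1 + 2 * (4 * η)) * ((1 + 15 * η) * T.mu ^ 4) ≤ (1 + 143 * η) * T.mu ^ 4 := by
    rw [← mul_assoc]
    exact mul_le_mul_of_nonneg_right (by nlinarith) hμ4.le
  have d7 := mul_nonneg h0 hμ4.le
  refine le_trans (add_le_add (d1.trans d2.le) le_rfl) ?_
  norm_num at d5 d6 ⊢
  nlinarith

/-! ### the autocorrelation -/

variable (T) in
/-- the autocorrelation at the level-one difference `x` -/
def ac (f : (ι → ℤ) → ℂ) (x : T.L1 → ℤ) : ℂ := T.gamK (fun _ : Fin 1 => x) *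
  ∑' p, ((pc T x).wgt p : ℂ) * (f (y1 T x p) * conj (f (y0 T p)))

variable {f : (ι → ℤ) → ℂ}

theorem norm_ac_le (hf : ∀ z, ‖f z‖ ≤ 1) (x : T.L1 → ℤ) :
    ‖ac T f x‖ ≤ T.gamK (fun _ : Fin 1 => x) * (pc T x).M := by
  rw [ac, norm_mul, Complex.norm_real, Real.norm_of_nonneg (gamK_pos _).le]
  refine mul_le_mul_of_nonneg_left ?_ (gamK_pos _).le
  simpa using (pc T x).norm_tsum_mul_le fun p => norm_mul_conj_le (hf (y1 T x p)) (hf (y0 T p))

theorem summable_ac (hM : MpAt T 1) (hf : ∀ z, ‖f z‖ ≤ 1) : Summable fun x => ‖ac T f x‖ :=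
  ((Equiv.funUnique (Fin 1) (T.L1 → ℤ)).symm.summable_iff.2 hM.summ).of_nonneg_of_le
    (fun _ => norm_nonneg _) (norm_ac_le hf)

theorem sum_ac (hM : MpAt T 1) (hf : ∀ z, ‖f z‖ ≤ 1) {κ : (T.L1 → ℤ) → ℂ} (hκ : ∀ x, ‖κ x‖ ≤ 1) :
    ∑' y : Fin 2 → ι → ℤ, (∏ i, (T.wgt (y i) : ℂ)) *
      (conj (f (y 0)) * (f (y 1) * κ (pr T (y 1) - pr T (y 0)))) = ∑' x, ac T f x * κ x := by
  rw [hM.tsum (fun y => conj (f (y 0)) * (f (y 1) * κ (pr T (y 1) - pr T (y 0)))) fun y =>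
    norm_mul_le_one (by simpa using hf _) (norm_mul_le_one (hf _) (hκ _)),
    ← (Equiv.funUnique (Fin 1) (T.L1 → ℤ)).symm.tsum_eq]
  refine tsum_congr fun x => ?_
  rw [ac, mul_assoc, ← tsum_mul_right]
  refine congrArg₂ _ rfl (tsum_congr fun p => ?_)
  have e : pr T (T.pt (fun _ : Fin 1 => x) 1 p) - pr T (T.pt (fun _ : Fin 1 => x) 0 p) = x := by
    rw [pr_pt, pr_pt, add_sub_add_left_eq_sub]
    exact sub_zero x
  change ((pc T x).wgt p : ℂ) * (conj (f (T.pt (fun _ : Fin 1 => x) 0 p)) *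
    (f (T.pt (fun _ : Fin 1 => x) 1 p) * κ (pr T (T.pt (fun _ : Fin 1 => x) 1 p) -
      pr T (T.pt (fun _ : Fin 1 => x) 0 p)))) = _
  rw [e, pt_zero, pt_one]
  ring

theorem norm_ac_ch (hM : MpAt T 1) (hf : ∀ z, ‖f z‖ ≤ 1) (α : T.L1 → ℝ) :
    ‖∑' x, ac T f x * ch α x‖ = ‖∑' z, (T.wgt z : ℂ) * (f z * ch α (pr T z))‖ ^ 2 := by
  have h1 : Summable fun z => ‖(T.wgt z : ℂ) * (f z * ch α (pr T z))‖ :=
    (T.summable_mul fun z => norm_mul_le_one (hf z) (norm_ch _ _).le).norm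
  have h2 := tsum_mul_tsum_of_summable_norm
    (f := fun z => conj ((T.wgt z : ℂ) * (f z * ch α (pr T z))))
    (by simpa only [Complex.norm_conj] using h1) h1
  rw [← Complex.conj_tsum] at h2
  have h3 := congrArg norm h2
  rw [norm_mul, Complex.norm_conj, ← sq] at h3
  rw [← sum_ac hM hf fun x => (norm_ch α x).le, h3, ← (finTwoArrowEquiv _).symm.tsum_eq]
  congr 2
  funext p
  simp only [finTwoArrowEquiv_symm_apply, Fin.prod_univ_two, Matrix.cons_val_zero,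
    Matrix.cons_val_one, ch_sub, map_mul, Complex.conj_ofReal]
  ring

/-- the analytic core -/
theorem core (M1 : MpAt T 1) (M3 : MpAt T 3) {s : ℕ} (hs : ∀ c, T.lev c ≤ s)
    (hf : ∀ z, ‖f z‖ ≤ 1) {η δ ε : ℝ} (h0 : 0 ≤ η) (h1 : η ≤ 1 / 2) (hδ : 0 ≤ δ)
    (hP : T.AllPC 4 η) (B1 : ∑' h, bad T 1 η h ≤ η * T.mu ^ 2)
    (B3 : ∑' h, bad T 3 η h ≤ η * T.mu ^ 4) {H : Finset (T.L1 → ℤ)} (hH : ε * T.mu1 ≤ #H)
    (hA : ∀ x ∈ H, δ * (pc T x).mu ≤ ‖ac T f x‖)
    (hS : ∀ α, ‖∑' z, (T.wgt z : ℂ) * (f z * ch α (pr T z))‖ ≤ η * T.mu)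
    (hη : η ≤ δ * ε / (2 * √2 ^ Fintype.card T.L1)) :
    (δ ^ 2 * ε / (4 * √2 ^ Fintype.card T.L1)) ^ 4 ≤
      η * (16 * (8 * √2 ^ Fintype.card T.L1 + 150)) := by
  classical
  set r : ℝ := √2 ^ Fintype.card T.L1 with hr
  have hr0 : 0 < r := by positivity
  have hμ := T.mu_pos
  have hμ1 := mu1_pos T
  set ν : ℝ := T.mu ^ 2 / (T.mu1 * r) with hν
  have hν0 : 0 < ν := by positivity
  have e1 : ∀ x, (pc T x).mu = ν := fun x => by
    have := M1.mu fun _ => x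
    rw [hν, eq_div_iff (by positivity), ← this, hr]
    norm_num
  set bd : (T.L1 → ℤ) → ℝ := fun x => bad T 1 η fun _ => x with hbd
  have sb : Summable bd :=
    (Equiv.funUnique (Fin 1) (T.L1 → ℤ)).symm.summable_iff.2 (summable_bad T M1 η)
  have tb : ∑' x, bd x ≤ η * T.mu ^ 2 :=
    ((Equiv.funUnique (Fin 1) (T.L1 → ℤ)).symm.tsum_eq (bad T 1 η)).le.trans B1
  have nb : ∀ x, 0 ≤ bd x := fun x => bad_nonneg T 1 η _
  obtain ⟨a, a1, a2, a3⟩ : ∃ a : (T.L1 → ℤ) → ℂ, (∀ x, ‖a x‖ ≤ 2 * ν) ∧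
      (∀ x, ‖ac T f x - a x‖ ≤ bd x) ∧ ∀ x, a x = ac T f x ∨ a x = 0 := by
    refine ⟨fun x => if |(pc T x).M / (pc T x).mu - 1| ≤ η then ac T f x else 0, fun x => ?_,
      fun x => ?_, fun x => ?_⟩
    · beta_reduce
      split_ifs with h
      · refine (norm_ac_le hf x).trans ((mul_le_of_le_one_left (pc T x).M_nonneg
          (gamK_le_one _)).trans ((M_le_of h).trans ?_))
        rw [e1]
        exact mul_le_mul_of_nonneg_right (by linarith) hν0.le
      · simpa using hν0.le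
    · simp only [hbd, bad]
      split_ifs with h
      · simp
      · simpa using norm_ac_le hf x
    · beta_reduce
      split_ifs <;> simp
  have sA := summable_ac M1 hf
  have sa : Summable fun x => ‖a x‖ := sA.of_nonneg_of_le (fun _ => norm_nonneg _) fun x => by
    rcases a3 x with h | h <;> simp [h]
  set b : (T.L1 → ℤ) → ℂ := fun x => ((2 * ν)⁻¹ : ℝ) * conj (a x) with hb
  have nb' : ∀ x, ‖b x‖ = (2 * ν)⁻¹ * ‖a x‖ := fun x => by
    rw [hb, norm_mul, Complex.norm_conj, Complex.norm_real, Real.norm_of_nonneg (by positivity)]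
  have b1 : ∀ x, ‖b x‖ ≤ 1 := fun x => by
    rw [nb', inv_mul_le_iff₀ (by positivity), mul_one]
    exact a1 x
  have b2 : Summable fun x => ‖b x‖ := by simpa only [nb'] using sa.mul_left _
  have b3 : ∀ α, ‖hat b α‖ ≤ η * r * T.mu1 := fun α => by
    have k1 : hat b α = ((2 * ν)⁻¹ : ℝ) * conj (∑' x, a x * ch (-α) x) := by
      rw [hat, Complex.conj_tsum, ← tsum_mul_left]
      exact tsum_congr fun x => by simp only [hb, ch_neg, map_mul, Complex.conj_conj, mul_assoc]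
    have k2 : ‖∑' x, ac T f x * ch (-α) x - ∑' x, a x * ch (-α) x‖ ≤ ∑' x, bd x := by
      rw [← (Summable.of_norm (by simpa [norm_ch] using sA)).tsum_sub
        (Summable.of_norm (by simpa [norm_ch] using sa))]
      exact tsum_of_norm_bounded sb.hasSum fun x => by
        rw [← sub_mul, norm_mul, norm_ch, mul_one]; exact a2 x
    have k3 := norm_sub_norm_le (∑' x, a x * ch (-α) x) (∑' x, ac T f x * ch (-α) x)
    rw [norm_sub_rev, norm_ac_ch M1 hf] at k3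
    have k4 := pow_le_pow_left₀ (norm_nonneg _) (hS (-α)) 2
    have k5 : (η * T.mu) ^ 2 ≤ η * T.mu ^ 2 := by
      rw [mul_pow]
      exact mul_le_mul_of_nonneg_right (by nlinarith) (by positivity)
    rw [k1, norm_mul, Complex.norm_conj, Complex.norm_real, Real.norm_of_nonneg (by positivity),
      inv_mul_le_iff₀ (by positivity),
      show 2 * ν * (η * r * T.mu1) = 2 * (η * T.mu ^ 2) by rw [hν]; field_simp]
    linarith
  have x1 : ∑' x, ac T f x * b x = (((2 * ν)⁻¹ * ∑' x, ‖a x‖ ^ 2 : ℝ) : ℂ) := by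
    rw [← tsum_mul_left, Complex.ofReal_tsum]
    refine tsum_congr fun x => ?_
    rcases a3 x with h | h
    · simp only [hb, ← h]
      rw [mul_left_comm, Complex.mul_conj']
      push_cast
      rfl
    · simp [hb, h]
  have x2 : δ * ν * (δ * ν * #H - η * T.mu ^ 2) ≤ ∑' x, ‖a x‖ ^ 2 := by
    refine le_trans ?_ ((Hk.summable_sq (fun _ => norm_nonneg _) sa).sum_le_tsum H
      fun _ _ => sq_nonneg _)
    have k1 : ∑ x ∈ H, δ * ν * (δ * ν - bd x) ≤ ∑ x ∈ H, ‖a x‖ ^ 2 := sum_le_sum fun x hx => by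
      have k2 := hA x hx
      rw [e1] at k2
      have k3 := a2 x
      have k4 : 0 ≤ δ * ν := by positivity
      rcases a3 x with h | h
      · rw [h]
        nlinarith [mul_nonneg k4 (nb x)]
      · rw [h, sub_zero] at k3
        rw [h]
        simpa using mul_nonpos_of_nonneg_of_nonpos k4 (by linarith)
    refine le_trans ?_ k1
    rw [← mul_sum, sum_sub_distrib, sum_const, nsmul_eq_mul]
    refine mul_le_mul_of_nonneg_left ?_ (by positivity)
    linarith [sb.sum_le_tsum H fun x _ => nb x]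
  have x3 : δ ^ 2 * ε / (4 * r) * T.mu ^ 2 ≤ ‖∑' x, ac T f x * b x‖ := by
    rw [x1, Complex.norm_real]
    refine le_trans ?_ (le_abs_self _)
    rw [le_inv_mul_iff₀ (by positivity)]
    refine le_trans ?_ x2
    have k1 : δ * ν * (ε * T.mu1) = 2 * (δ * ε / (2 * r) * T.mu ^ 2) := by rw [hν]; field_simp
    have k2 := mul_le_mul_of_nonneg_left hH (by positivity : 0 ≤ δ * ν)
    have k3 := mul_le_mul_of_nonneg_right hη (by positivity : 0 ≤ T.mu ^ 2)
    rw [show 2 * ν * (δ ^ 2 * ε / (4 * r) * T.mu ^ 2) = δ * ν * (δ * ε / (2 * r) * T.mu ^ 2) by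
      field_simp; ring]
    exact mul_le_mul_of_nonneg_left (by linarith) (by positivity)
  have x4 := box_cs (wt_wgt T) (b := fun z => conj (f z)) (u := f)
    (K := fun y y' => b (pr T y' - pr T y)) (fun z => by simpa using hf z) hf fun _ _ => b1 _
  rw [sum_ac M1 hf b1] at x4
  have x5 := box4 M3 hs h0 h1 hP B3 b2 b1 b3
  have x6 : T.M ^ 4 ≤ (2 * T.mu) ^ 4 := pow_le_pow_left₀ T.M_nonneg
    ((M_le_of (mass_of_allPC hP (by norm_num))).trans (by gcongr; linarith)) 4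
  have x7 := x4.trans (mul_le_mul x6 x5 (norm_nonneg _) (by positivity))
  have x8 : 0 ≤ δ * ε / (2 * r) := h0.trans hη
  have x9 := (pow_le_pow_left₀ (mul_nonneg (by
    rw [show δ ^ 2 * ε / (4 * r) = δ / 2 * (δ * ε / (2 * r)) by field_simp; norm_num]
    positivity) (by positivity)) x3 4).trans x7
  refine le_of_mul_le_mul_right (a := T.mu ^ 8) ?_ (by positivity)
  convert x9 using 1 <;> ring

theorem muK_one (T : Cell ι) : muK T 1 = T.mu ^ 2 := by
  rw [muK, Tri.mu, ← prod_pow]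
  refine prod_congr rfl fun c _ => ?_
  have h1 := T.lev_pos c
  have h2 := abs_pos.2 (T.a_ne c)
  have h3 : (√2 : ℝ) ^ 2 = 2 := Real.sq_sqrt zero_le_two
  rw [← (Equiv.funUnique (Fin 1) Bool).symm.prod_comp, Fintype.prod_bool]
  simp only [Hk.wt, Equiv.funUnique_symm_apply, uniqueElim_const, Fin.sum_univ_one,
    Bool.toNat_true, Bool.toNat_false]
  rw [if_pos (show 1 ≤ _ from h1), if_pos (Nat.zero_le _)]
  field_simp
  linarith

end B42

open B42

theorem baseStmt (hM : MpStmt) (hH : HerStmt) (hA : AvgStmt) (hD : DownStmt) : BaseStmt := by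
  intro l
  obtain ⟨D₁, C₁, hC₁, h₁⟩ := hD l 0
  obtain ⟨D₂, C₂, -, h₂⟩ := msStmt l
  obtain ⟨D₃, C₃, -, h₃⟩ := bad_mass hH hA l 1
  obtain ⟨D₄, C₄, -, h₄⟩ := bad_mass hH hA l 3
  obtain ⟨C₀, hC₀⟩ : ∃ C : ℕ, ∀ (m : ℝ) (n n' : ℕ), 2 ≤ m → (n : ℝ) ≤ m → (n' : ℝ) ≤ m →
      4 ≤ m ^ C ∧ Real.exp (-m ^ C) ≤
        Real.exp (-(Real.pi * n' * (1 : ℕ) * (m ^ C₁) ^ 2)) * Real.exp (-m ^ C₁) *
          Real.exp (-m ^ C₁) / (2 * √2 ^ n) ∧
      Real.exp (-m ^ C) < ((Real.exp (-(Real.pi * n' * (1 : ℕ) * (m ^ C₁) ^ 2)) *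
        Real.exp (-m ^ C₁)) ^ 2 * Real.exp (-m ^ C₁) / (4 * √2 ^ n)) ^ 4 /
          (16 * (8 * √2 ^ n + 150)) := by qp
  refine ⟨D₁ + D₂ + D₃ + D₄, C₁ + (C₀ + 1) * (C₂ + C₃ + C₄ + 1), by omega,
    fun ι _ T m f h hf hU => ?_⟩
  classical
  have hm := h.two
  obtain ⟨k1, k2, k3⟩ := hC₀ m _ _ hm ((card_L1 T).trans h.card) h.card
  have k4 : m ^ C₀ ≤ m ^ (C₀ + 1) := Qp.pw_mono hm (by omega)
  have k5 : m ^ (C₀ + 1) ≤ m ^ (C₁ + (C₀ + 1) * (C₂ + C₃ + C₄ + 1)) :=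
    Qp.pw_mono hm (by nlinarith)
  obtain ⟨H, hd, hH'⟩ := h₁ ι T m f (h.mono (by omega) le_rfl (Qp.pw_mono hm (by omega))
    (by positivity)) hf hU
  have hP := (h₂ ι T _ (h.use (C₀ := C₀ + 1) (by omega) (by omega) (by nlinarith))).2.1
  have b1 := h₃ ι T _ (h.use (C₀ := C₀ + 1) (by omega) (by omega) (by nlinarith))
  have b3 := h₄ ι T _ (h.use (C₀ := C₀ + 1) (by omega) (by omega) (by nlinarith))
  have hex : ∃ α, Real.exp (-m ^ (C₀ + 1)) * T.mu <
      ‖∑' z, (T.wgt z : ℂ) * (f z * ch α (pr T z))‖ := by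
    by_contra hc
    have := core (hM ι T 1) (hM ι T 3) h.lev_le hf (Real.exp_pos _).le
      (exn_le_half (by linarith)) (δ := Real.exp (-(Real.pi * Fintype.card ι * (1 : ℕ) *
        (m ^ C₁) ^ 2)) * Real.exp (-m ^ C₁)) (by positivity)
      (Cell.allPC_mono hP (by linarith) le_rfl) b1 b3 hd.2 (fun x hx => ?_)
      (fun α => not_lt.1 fun h => hc ⟨α, h⟩) ((exn_le k4).trans k2)
    · rw [lt_div_iff₀ (by positivity)] at k3
      exact absurd (this.trans (mul_le_mul_of_nonneg_right (exn_le k4) (by positivity)))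
        (not_le.2 k3)
    · have q1 := hH' x hx
      rw [BigU, zero_add, muK_one, Hk.UK_one Hk.lvl_zero (Hk.lvl_one (pc T x).lev_pos)
        ((pc T x).summable_mul fun p => norm_mul_conj_le (hf _) (hf _)).norm] at q1
      have q2 := (hM ι T 1).gam_ge (fun _ => x) _ fun _ => hd.1 x hx
      rw [ac, norm_mul, Complex.norm_real, Real.norm_of_nonneg (gamK_pos _).le, mul_assoc]
      refine mul_le_mul q2 (abs_le_of_sq_le_sq' (le_trans ?_ q1) (norm_nonneg _)).2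
        (mul_pos (Real.exp_pos _) (pc T x).mu_pos).le (gamK_pos _).le
      rw [mul_pow]
      refine mul_le_mul_of_nonneg_right ?_ (sq_nonneg _)
      rw [sq]
      exact mul_le_of_le_one_left (Real.exp_pos _).le (exn_le_one (by positivity))
  obtain ⟨α, hα⟩ := hex
  refine ⟨_, _, isNilW_phase (by linarith) le_rfl (∑ c : T.L1, C (α c) * X c.1)
    (degLe_sum fun c _ => ((degLe_X c.1).mono c.2.le).C_mul _), chp_one T (by linarith), ?_⟩
  refine le_trans (mul_le_mul_of_nonneg_right (exn_le k5) T.mu_pos.le) (hα.le.trans (le_of_eq ?_))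
  simp [ch, pr, ev]

end Crest.Agent.T49.Ri
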