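import Crest.Agent.T49.HkD_67

/-!
# Row 49 (helper67): `DOWN` and `UP`
-/

set_option autoImplicit false

noncomputable section

namespace Crest.Agent.T49.Ri

open Finset
open Crest.Agent.T49.Tw Crest.Agent.T49.Hk
open scoped ComplexConjugate Classical

namespace D67

/-- averaging with fibre masses that are ideal on a set `G` carrying most of the base weight -/
theorem avg_core {H : Type*} {γ Z v : H → ℝ} {μ μ' η δ t V : ℝ} (hμ : 0 < μ) (hμ' : 0 < μ')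
    (hγ : ∀ h, 0 ≤ γ h ∧ γ h ≤ 1) (hv : ∀ h, 0 ≤ v h ∧ v h ≤ Z h)
    (hZ : HasSum (fun h => γ h * Z h) t) (hV : HasSum (fun h => γ h * v h) V)
    (ht : t ≤ (1 + η) * (μ * μ')) (G : Finset H) (hG : ∀ h ∈ G, |Z h / μ' - 1| ≤ η)
    (hγG : (1 - η) * μ ≤ ∑ h ∈ G, γ h) (hδ : δ * (μ * μ') ≤ V) (h0 : 0 ≤ η) (hη : 10 * η ≤ δ)
    (h1 : δ ≤ 1) : ∃ Q ⊆ G, δ / 4 * μ ≤ #Q ∧ ∀ h ∈ Q, δ / 10 * μ' ≤ v h := by
  have hZ1 : ∀ h ∈ G, (1 - η) * μ' ≤ Z h ∧ Z h ≤ 2 * μ' := fun h hh => by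
    obtain ⟨k1, k2⟩ := abs_le.1 (hG h hh)
    exact ⟨(le_div_iff₀ hμ').1 (by linarith), (div_le_iff₀ hμ').1 (by linarith)⟩
  have k1 : ∑ h ∈ G, (γ h * Z h - γ h * v h) ≤ t - V :=
    sum_le_hasSum G (fun h _ => sub_nonneg.2 (mul_le_mul_of_nonneg_left (hv h).2 (hγ h).1))
      (hZ.sub hV)
  have k2 : ∑ h ∈ G, γ h * Z h ≤ t :=
    sum_le_hasSum G (fun h _ => mul_nonneg (hγ h).1 ((hv h).1.trans (hv h).2)) hZ
  have k3 : (∑ h ∈ G, γ h) * ((1 - η) * μ') ≤ ∑ h ∈ G, γ h * Z h := by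
    rw [sum_mul]
    exact sum_le_sum fun h hh => mul_le_mul_of_nonneg_left (hZ1 h hh).1 (hγ h).1
  have hp : 0 < μ * μ' := mul_pos hμ hμ'
  have k4 : (1 - η) * μ * ((1 - η) * μ') ≤ (∑ h ∈ G, γ h) * ((1 - η) * μ') :=
    mul_le_mul_of_nonneg_right hγG (mul_nonneg (by linarith) hμ'.le)
  have k5 : (∑ h ∈ G, γ h) * μ' ≤ 2 * (μ * μ') := by
    have : 0 ≤ (∑ h ∈ G, γ h) * μ' := mul_nonneg (sum_nonneg fun h _ => (hγ h).1) hμ'.le
    nlinarith
  refine ⟨G.filter fun h => δ / 10 * μ' ≤ v h, filter_subset _ _, ?_,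
    fun h hh => (mem_filter.1 hh).2⟩
  have k6 : ∑ h ∈ G, γ h * v h ≤ #(G.filter fun h => δ / 10 * μ' ≤ v h) * (2 * μ') +
      (∑ h ∈ G, γ h) * (δ / 10 * μ') := by
    rw [card_filter, Nat.cast_sum, sum_mul, sum_mul, ← sum_add_distrib]
    refine sum_le_sum fun h hh => ?_
    have h2 : 0 ≤ γ h * (δ / 10 * μ') := mul_nonneg (hγ h).1 (mul_nonneg (by linarith) hμ'.le)
    split_ifs with h3
    · have := mul_le_of_le_one_left (hv h).1 (hγ h).2
      have := (hv h).2.trans (hZ1 h hh).2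
      push_cast
      linarith
    · have := mul_le_mul_of_nonneg_left (not_le.1 h3).le (hγ h).1
      push_cast
      linarith
  rw [sum_sub_distrib] at k1
  refine le_of_mul_le_mul_right ?_ (show 0 < 2 * μ' by positivity)
  have k7 : (∑ h ∈ G, γ h) * μ' * δ ≤ 2 * (μ * μ') * δ :=
    mul_le_mul_of_nonneg_right k5 (by linarith)
  nlinarith [mul_nonneg (mul_nonneg h0 h0) hp.le, mul_le_mul_of_nonneg_right hη hp.le]

variable {ι : Type} [Fintype ι] {T : Cell ι}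

theorem card_PI (T : Cell ι) : (Fintype.card (PI T) : ℝ) ≤ 2 * Fintype.card ι := by
  have : Fintype.card T.U2 ≤ Fintype.card ι := Fintype.card_subtype_le _
  simp only [Fintype.card_sum, Fintype.card_prod, Fintype.card_fin, one_mul]
  exact_mod_cast (by omega)

theorem muG_le (T : Cell ι) (s : ℕ) : muG T s ≤ T.mu1 :=
  mul_le_of_le_one_left (mu1_pos T).le (pow_le_one₀ (by positivity)
    (inv_le_one_of_one_le₀ (one_le_pow₀ (Real.one_le_sqrt.2 one_le_two))))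

theorem le_muG (T : Cell ι) (s : ℕ) {m : ℝ} (hm : (Fintype.card ι : ℝ) ≤ m) :
    Real.exp (-(s * m)) * T.mu1 ≤ muG T s := by
  refine mul_le_mul_of_nonneg_right ?_ (mu1_pos T).le
  have h1 : (Fintype.card T.L1 : ℝ) ≤ m :=
    le_trans (by exact_mod_cast Fintype.card_subtype_le _) hm
  have h2 : (√2 : ℝ) ≤ Real.exp 1 :=
    (Real.sqrt_le_iff.2 ⟨by norm_num, by norm_num⟩ : (√2 : ℝ) ≤ 2).trans
      (by linarith [Real.add_one_le_exp 1])
  rw [inv_pow, ← pow_mul, Real.exp_neg]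
  refine inv_anti₀ (by positivity) ((pow_le_pow_left₀ (by positivity) h2 _).trans ?_)
  rw [← Real.exp_nat_mul, Real.exp_le_exp]
  push_cast
  nlinarith [Nat.cast_nonneg (α := ℝ) s]

theorem g1_le_one (h : T.L1 → ℤ) : g1 T h ≤ 1 :=
  Real.exp_le_one_iff.2 (mul_nonpos_of_nonpos_of_nonneg (by linarith [Real.pi_pos])
    (sum_nonneg fun _ _ => sum_nonneg fun _ _ => sq_nonneg _))

theorem le_of_ratio {a b η : ℝ} (hb : 0 < b) (h : |a / b - 1| ≤ η) : a ≤ (1 + η) * b :=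
  (div_le_iff₀ hb).1 (by linarith [(abs_le.1 h).2])

theorem muK_pc (h : T.L1 → ℤ) (s : ℕ) : muK (pc T h) (s + 1) = muK (pc T 0) (s + 1) :=
  mul_left_cancel₀ (muG_pos T s).ne' ((muK_succ h s).symm.trans (muK_succ 0 s))

omit [Fintype ι] in
theorem pc_lev (h : T.L1 → ℤ) : (pc T h).lev = T.mlev (Fin 1) := rfl

end D67

open D67

theorem upStmt (hMp : MpStmt) (hZ : ZmStmt) : UpStmt := fun l s => by
  obtain ⟨D, C₁, hC₁, hZ⟩ := hZ l (s + 2)
  obtain ⟨C₂, h₂⟩ : ∃ C : ℕ, ∀ m n : ℝ, 2 ≤ m → 0 ≤ n → n ≤ m → Real.exp (-m ^ C) ≤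
      (Real.exp (-m) * (Real.exp (-(Real.pi * n * (1 : ℕ) * m ^ 2)) ^ 2 ^ (s + 1) *
        Real.exp (-m))) ^ 2 / 2 := by
    qp
  refine ⟨D, C₁ + C₂, by omega, fun ι _ T m f hO hf ⟨b, H, hb, hH, hU⟩ => ?_⟩
  have hm := hO.two
  have hM := hMp ι T 1
  have hz := le_of_ratio (muK_pos T _) (hZ ι T m (hO.mono le_rfl le_rfl
    (Qp.pw_mono hm (by omega)) (by positivity)))
  have hb' : ∀ z, ‖conj (b z)‖ ≤ 1 := fun z => by simpa using hb z
  have h1 := face_cs (T := T) s (summable_wgt_mul T hf) (summable_wgt_mul T hb')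
  have h2 := (hasSum_face (T := T) s (summable_wgt_mul T hf) (summable_wgt_mul T hb')).summable
  simp only [UK_pair hM (s + 1) f fun z => conj (b z), Complex.conj_conj] at h1 h2
  have h3 := UK_le_Zm (F := lvl T.lev) (s := s + 2) T.summable_wgt (norm_wgt_mul_le T hb')
  set g := Real.exp (-(Real.pi * Fintype.card ι * (1 : ℕ) * m ^ 2)) ^ 2 ^ (s + 1) with hg
  set K := muK T (s + 2) with hK
  have hK0 : 0 < K := muK_pos T _
  have h4 : Real.exp (-m) * (g * Real.exp (-m)) * K ≤ ∑' h, g1 T h ^ 2 ^ (s + 1) *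
      UK (lvl (T.mlev (Fin 1))) (s + 1) fun p => (pc T h).wgt p * (f (y1 T h p) * b (y0 T p)) := by
    refine le_trans ?_ (h2.sum_le_tsum H fun h _ =>
      mul_nonneg (pow_nonneg (g1_pos h).le _) (UK_nonneg _ _))
    refine le_trans ?_ (card_nsmul_le_sum H _ (g * (Real.exp (-m) * muK (pc T 0) (s + 1)))
      fun h hh => mul_le_mul (pow_le_pow_left₀ (by positivity) (hM.gam_ge _ m fun _ => hH.1 h hh) _)
        (by simpa only [BigU, muK_pc, pc_lev] using hU h hh) (mul_nonneg (by positivity) (muK_pos _ _).le) (pow_nonneg (g1_pos h).le _))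
    have k1 := muK_pos (pc T 0) (s + 1)
    rw [nsmul_eq_mul, hK, muK_succ 0]
    calc _ = Real.exp (-m) * muG T s * (g * (Real.exp (-m) * muK (pc T 0) (s + 1))) := by ring
      _ ≤ _ := mul_le_mul_of_nonneg_right ((mul_le_mul_of_nonneg_left (muG_le T s)
        (by positivity)).trans hH.2) (by positivity)
  have h5 := (pow_le_pow_left₀ (by positivity) h4 2).trans (h1.trans
    (mul_le_mul_of_nonneg_left (h3.trans (hz.trans (mul_le_mul_of_nonneg_right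
      (show 1 + Real.exp (-m) ≤ 2 by linarith [Real.exp_le_one_iff.2 (show -m ≤ 0 by linarith)])
      hK0.le))) (UK_nonneg _ _)))
  have h6 := (Qp.exp_neg_pw_mono hm (show C₂ ≤ C₁ + C₂ by omega)).trans
    (h₂ m _ hm (Nat.cast_nonneg _) hO.card)
  refine (mul_le_mul_of_nonneg_right h6 hK0.le).trans (le_of_mul_le_mul_right ?_
    (show 0 < 2 * K by positivity))
  refine le_of_eq_of_le ?_ h5
  ring

theorem D67.down_core {ι : Type} [Fintype ι] {T : Cell ι} (hM : MpAt T 1) (s : ℕ) {m y η : ℝ}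
    (hm : 2 ≤ m) (hc : (Fintype.card ι : ℝ) ≤ m) (hy : (s + 5) * m ≤ y)
    (hη : η = Real.exp (-(4 * m))) {f : (ι → ℤ) → ℂ} (hf : ∀ z, ‖f z‖ ≤ 1)
    (hU : BigU (s + 1) m T f) (hz : |Zm (lvl T.lev) (s + 2) T.wgt / muK T (s + 2) - 1| ≤ η)
    (good : (T.L1 → ℤ) → Prop) (hg : ∀ h, good h →
      |Zm (lvl (T.mlev (Fin 1))) (s + 1) (pc T h).wgt / muK (pc T h) (s + 1) - 1| ≤ η)
    (hbad : ∀ Q : Finset (T.L1 → ℤ), (∀ h ∈ Q, InB T y h ∧ ¬ good h) →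
      #Q ≤ Real.exp (-y) * T.mu1) :
    ∃ Q : Finset (T.L1 → ℤ), (∀ h ∈ Q, InB T y h) ∧ Real.exp (-m) / 4 * muG T s ≤ #Q ∧
      ∀ h ∈ Q, Real.exp (-m) / 10 * muK (pc T h) (s + 1) ≤ UK (lvl (T.mlev (Fin 1))) (s + 1)
        fun p => (pc T h).wgt p * (f (y1 T h p) * conj (f (y0 T p))) := by
  have hs : (0 : ℝ) ≤ s * m := by positivity
  have hy' : s * m + 5 * m ≤ y := by linarith
  have hη0 : 0 < η := hη ▸ Real.exp_pos _
  have h30 : 30 * η ≤ Real.exp (-m) := by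
    have h1 : Real.exp (-m) = Real.exp (3 * m) * η := by rw [hη, ← Real.exp_add]; ring_nf
    have h2 : Real.exp 2 ^ 3 ≤ Real.exp (3 * m) := by
      rw [← Real.exp_nat_mul]; exact Real.exp_le_exp.2 (by push_cast; linarith)
    have h3 : (5 : ℝ) ^ 3 ≤ Real.exp 2 ^ 3 := pow_le_pow_left₀ (by norm_num)
      (by linarith [Real.quadratic_le_exp_of_nonneg (show (0 : ℝ) ≤ 2 by norm_num)]) 3
    rw [h1]
    exact mul_le_mul_of_nonneg_right (by linarith) hη0.le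
  have he1 : Real.exp (-m) ≤ 1 := Real.exp_le_one_iff.2 (by linarith)
  have hz' := le_of_ratio (muK_pos T _) (hz.trans (show η ≤ 3 * η by linarith))
  obtain ⟨B, hB, hB'⟩ := exists_ball T s (R := y) (by linarith) hη0
    (hη ▸ Real.exp_le_exp.2 (by nlinarith)) (by linarith)
  have hbad' : (#(B.filter fun h => ¬ good h) : ℝ) ≤ η * muG T s := by
    refine (hbad _ fun h hh => ⟨hB _ (mem_filter.1 hh).1, (mem_filter.1 hh).2⟩).trans
      (le_trans ?_ (mul_le_mul_of_nonneg_left (le_muG T s hc) hη0.le))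
    rw [hη, ← mul_assoc, ← Real.exp_add]
    exact mul_le_mul_of_nonneg_right (Real.exp_le_exp.2 (by linarith)) (mu1_pos T).le
  have hγ : ∀ h, 0 ≤ g1 T h ^ 2 ^ (s + 1) ∧ g1 T h ^ 2 ^ (s + 1) ≤ 1 := fun h =>
    ⟨pow_nonneg (g1_pos h).le _, pow_le_one₀ (g1_pos h).le (g1_le_one h)⟩
  have hV := hasSum_UK (T := T) s (summable_wgt_mul T hf)
  simp only [UK_pair hM] at hV
  have hG : (1 - 3 * η) * muG T s ≤ ∑ h ∈ B.filter good, g1 T h ^ 2 ^ (s + 1) := by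
    have h1 := sum_filter_add_sum_filter_not B good fun h => g1 T h ^ 2 ^ (s + 1)
    have h2 := sum_le_card_nsmul (B.filter fun h => ¬ good h) _ 1 fun h _ => (hγ h).2
    rw [nsmul_eq_mul, mul_one] at h2
    linarith
  have hU' : Real.exp (-m) * muK T (s + 2) ≤
    UK (lvl T.lev) (s + 2) fun z => T.wgt z * f z := hU
  rw [muK_succ 0] at hz' hU'
  have hv : ∀ h, (0 ≤ UK (lvl (T.mlev (Fin 1))) (s + 1)
      fun p => (pc T h).wgt p * (f (y1 T h p) * conj (f (y0 T p)))) ∧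
      (UK (lvl (T.mlev (Fin 1))) (s + 1)
        fun p => (pc T h).wgt p * (f (y1 T h p) * conj (f (y0 T p)))) ≤
        Zm (lvl (T.mlev (Fin 1))) (s + 1) (pc T h).wgt := fun h =>
    ⟨UK_nonneg _ _, UK_le_Zm (pc T h).summable_wgt (norm_wgt_mul_le (pc T h) fun p => by
      rw [norm_mul, Complex.norm_conj]; exact mul_le_one₀ (hf _) (norm_nonneg _) (hf _))⟩
  have hG' : ∀ h ∈ B.filter good, |Zm (lvl (T.mlev (Fin 1))) (s + 1) (pc T h).wgt /
      muK (pc T 0) (s + 1) - 1| ≤ 3 * η := fun h hh => by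
    rw [← muK_pc h]
    exact (hg h (mem_filter.1 hh).2).trans (by linarith)
  obtain ⟨Q, hQ, k1, k2⟩ := avg_core (muG_pos T s) (muK_pos (pc T 0) (s + 1)) hγ hv
    (hasSum_Zm_pc hM (s + 1)) hV hz' (B.filter good) hG' hG hU' (by positivity) (by linarith) he1
  exact ⟨Q, fun h hh => hB h (mem_filter.1 (hQ hh)).1, k1, fun h hh => by
    rw [muK_pc]; exact k2 h hh⟩

theorem downStmt (hMp : MpStmt) (hH : HerStmt) (hZ : ZmStmt) : DownStmt := fun l s => by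
  obtain ⟨D₁, C₁, hC₁, hZ₁⟩ := hZ l (s + 2)
  obtain ⟨D₂, C₂, hC₂, hZ₂⟩ := hZ l (s + 1)
  obtain ⟨D₃, C₃, hC₃, hH⟩ := hH l 1 D₂
  obtain ⟨a, ha⟩ : ∃ C : ℕ, ∀ m : ℝ, 2 ≤ m → (s + 5) * m ≤ m ^ C := by qp
  obtain ⟨C₄, h₄⟩ : ∃ C : ℕ, ∀ m : ℝ, 2 ≤ m →
      Real.exp (-m ^ C) ≤ Real.exp (-m) / 4 * Real.exp (-(s * m)) ∧
      Real.exp (-m ^ C) ≤ Real.exp (-m) / 10 := by qp
  refine ⟨D₁ + D₃, a * C₁ + a * C₂ * C₃ + C₄ + 1, by omega, fun ι _ T m f hO hf hU => ?_⟩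
  have hm := hO.two
  have hc := hO.card
  have hs : (0 : ℝ) ≤ s * m := by positivity
  have hxm : s * m + 5 * m ≤ m ^ a := by linarith [ha m hm]
  have hxy : m ^ a ≤ (m ^ a) ^ C₂ := le_self_pow₀ (by linarith) (by omega)
  have hle : ∀ k, k ≤ a * C₁ + a * C₂ * C₃ + C₄ + 1 → m ^ k ≤ m ^ (a * C₁ + a * C₂ * C₃ + C₄ + 1) :=
    fun k => Qp.pw_mono hm
  have hxη : Real.exp (-m ^ a) ≤ Real.exp (-(4 * m)) := Real.exp_le_exp.2 (by linarith)
  have hO₁ : Ok T l D₁ (m ^ a) ((m ^ a) ^ C₁) := hO.mono (by omega) (by linarith)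
    (by rw [← pow_mul]; exact hle _ (by omega)) (by positivity)
  have hO₃ : Ok T l D₃ ((m ^ a) ^ C₂) (((m ^ a) ^ C₂) ^ C₃) := hO.mono (by omega) (by linarith)
    (by rw [← pow_mul, ← pow_mul, ← mul_assoc]; exact hle _ (by omega)) (by positivity)
  obtain ⟨Q, k0, k1, k2⟩ := down_core (hMp ι T 1) s hm hc (y := (m ^ a) ^ C₂) (by linarith) rfl
    hf hU ((hZ₁ ι T _ hO₁).trans hxη) (fun h => Gm (pc T h) l D₂ ((m ^ a) ^ C₂))
    (fun h hh => (hZ₂ _ (pc T h) (m ^ a) ⟨by linarith, (card_PI T).trans (by linarith), hh⟩).trans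
      hxη) fun Q hQ => by
      have := hH ι T _ hO₃ (Q.image fun h _ => h) fun h hh => by
        obtain ⟨h', h1, rfl⟩ := mem_image.1 hh
        exact ⟨fun _ => (hQ _ h1).1, (hQ _ h1).2⟩
      rwa [card_image_of_injective _ fun _ _ h => congrFun h 0, pow_one] at this
  obtain ⟨k3, k4⟩ := h₄ m hm
  have k5 := Real.exp_le_exp.2 (neg_le_neg (hle C₄ (by omega)))
  have hyC := hle (a * C₂) (by have := Nat.mul_le_mul_left (a * C₂) hC₃; omega)
  rw [pow_mul] at hyC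
  refine ⟨Q, ⟨fun h hh c => (k0 h hh c).trans hyC, le_trans ?_ k1⟩,
    fun h hh => le_trans (mul_le_mul_of_nonneg_right (k5.trans k4) (muK_pos _ _).le) (k2 h hh)⟩
  refine (mul_le_mul_of_nonneg_right (k5.trans k3) (mu1_pos T).le).trans ?_
  rw [mul_assoc]
  exact mul_le_mul_of_nonneg_left (le_muG T s hc) (by positivity)

end Crest.Agent.T49.Ri
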