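import Crest.Agent.T49.RiDef_12
import Crest.Agent.T49.NilFn_73
import Crest.Agent.T49.HkB_67
import Crest.Agent.T49.TwTri_51

/-!
# Row 49 (helper86): the leaf `DER` of the relative inverse theorem
-/

set_option autoImplicit false

noncomputable section

namespace Crest.Agent.T49.Ri

open Finset MvPolynomial
open Crest.Agent.T49.Tw Crest.Agent.T49.Nil Crest.Agent.T49.Nil.ND
open Crest.Agent.T49.Bch (star)
open Crest.Agent.T49.Gf (wcf lie_mem_wcf wcf_mono subst_mem_wcf)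
open scoped ComplexConjugate

namespace Der86

section box

variable {κ σ : Type} [Fintype κ] {N : ND κ} {lev : σ → ℕ}

theorem degLe_of_wcf {P : N.PS σ} (hP : P ∈ wcf lev N.F) (k : κ) : DegLe lev (P k) (N.wt k) :=
  fun m hm => not_lt.1 fun h => mem_support_iff.1 hm (hP m k h)

theorem wcf_succ_of_dlt {P : N.PS σ} (hP : ∀ k, R12.DLt lev (P k) (N.wt k)) :
    P ∈ wcf lev fun i => N.F (i + 1) := fun m k hk => by
  by_contra h
  have := hP k m (mem_support_iff.2 h)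
  omega

/-- a function of degree `≤ s` along a weighted polynomial map -/
theorem isNilW_of_nfn {S s : ℕ} {m : ℝ} {F : N.L → ℂ} (hd : (Fintype.card κ : ℝ) ≤ m)
    (hN : N.Good S (Real.exp m)) (hF : N.NFn S s (Real.exp m) F) {P : N.PS σ}
    (hP : P ∈ wcf lev N.F) : IsNilW lev s m (sqW N F P) :=
  ⟨_, inferInstance, N.trc s, _, qpr (N.keep_le s) _ P,
    le_trans (by exact_mod_cast Fintype.card_subtype_le _) hd, hN.trc s,
    hF.trc hN.wt_le (Real.exp_pos _).le, fun α => qpr_mem_FA _ (hP α),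
    funext fun n => (hF.trc_qpr hN.wt_le (N.evZ n P)).symm⟩

theorem isNilW_mono {s : ℕ} {m m' : ℝ} {ψ : (σ → ℤ) → ℂ} (h : IsNilW lev s m ψ) (hm : m ≤ m') :
    IsNilW lev s m' ψ := by
  obtain ⟨κ, _, N, F, P, h1, h2, h3, h4, h5⟩ := h
  exact ⟨κ, _, N, F, P, h1.trans hm, h2.mono (Real.exp_le_exp.2 hm),
    h3.mono (Real.exp_le_exp.2 hm), h4, h5⟩

theorem cst_mem_wcf {W : ℕ → Submodule ℝ N.L} {x : N.L} (hx : x ∈ W 0) :
    N.cst (Pl σ) x ∈ wcf lev W := by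
  classical
  intro α
  rw [cv_cst]
  split_ifs with h
  · subst h; simpa using hx
  · exact zero_mem _

theorem lie_jump {P Q : N.PS σ} (hP : P ∈ wcf lev N.F)
    (hQ : Q ∈ wcf lev fun i => N.F (max (i + 1) 2)) :
    ⁅P, Q⁆ ∈ wcf lev fun i => N.F (max (i + 1) 2) :=
  lie_mem_wcf (W := N.F) (W' := fun i => N.F (max (i + 1) 2))
    (W'' := fun i => N.F (max (i + 1) 2))
    (fun _ _ _ hx _ hy => FA_anti (by omega) (lie_mem_FA hx hy)) hP hQ

theorem lie_cst_jump {P : N.PS σ} (hP : P ∈ wcf lev N.F) (x : N.L) :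
    ⁅P, N.cst (Pl σ) x⁆ ∈ wcf lev fun i => N.F (max (i + 1) 2) := by
  refine lie_mem_wcf (W := fun i => N.F (max i 1)) (W' := fun i => N.F (i + 1))
    (W'' := fun i => N.F (max (i + 1) 2))
    (fun _ _ _ hx _ hy => FA_anti (by omega) (lie_mem_FA hx hy)) (fun α => ?_)
    (cst_mem_wcf (mem_FA_one x))
  rcases Nat.eq_zero_or_pos (Finsupp.weight lev α) with h | h
  · exact FA_anti (by omega : max (Finsupp.weight lev α) 1 ≤ 1) (mem_FA_one _)
  · exact FA_anti (by omega : max (Finsupp.weight lev α) 1 ≤ Finsupp.weight lev α) (hP α)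

theorem star_cst_sub (S : ℕ) {P : N.PS σ} (hP : P ∈ wcf lev N.F) (x : N.L) :
    star S P (N.cst _ x) - (P + N.cst _ x) ∈ wcf lev fun i => N.F (max (i + 1) 2) :=
  Bch.star_sub_mem S _ (fun _ h => lie_jump hP h)
    (fun _ h => lie_jump (cst_mem_wcf (mem_FA_zero x)) h) (lie_cst_jump hP x)

theorem cst_star_sub (S : ℕ) {P : N.PS σ} (hP : P ∈ wcf lev N.F) (x : N.L) :
    star S (N.cst _ x) P - (N.cst _ x + P) ∈ wcf lev fun i => N.F (max (i + 1) 2) :=
  Bch.star_sub_mem S _ (fun _ h => lie_jump (cst_mem_wcf (mem_FA_zero x)) h)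
    (fun _ h => lie_jump hP h)
    (by rw [← lie_skew]; exact neg_mem (lie_cst_jump hP x))

/-- **BOX**, weighted: two maps with the same symbol give a nilsequence of lower degree -/
theorem isNilW_box (hl : ∀ c, 0 < lev c) {S s : ℕ} {m : ℝ} {η : κ → ℤ} {F : N.L → ℂ} (hm : 2 ≤ m)
    (hd : (Fintype.card κ : ℝ) ≤ m) (hN : N.Good S (Real.exp m))
    (hF : N.NChar S (s + 1) (Real.exp m) η F) {Q₁ Q₀ : N.PS σ} (h₁ : Q₁ ∈ wcf lev N.F)
    (h₀ : Q₀ ∈ wcf lev N.F) (h : Q₁ - Q₀ ∈ wcf lev fun i => N.F (i + 1)) :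
    IsNilW lev s ((9 * S + 2) * m) fun z => sqW N F Q₁ z * conj (sqW N F Q₀ z) := by
  classical
  obtain ⟨u, γ, hu, hγ, hw⟩ := exists_frac_int (N.cv 0 (Q₁ - Q₀))
  have h3 : Q₁ - Q₀ - N.cst _ (u + γ) ∈ wcf lev fun i => N.F (max (i + 1) 2) := by
    intro α
    rw [map_sub, cv_cst]
    split_ifs with hα
    · subst hα
      rw [hw, sub_self]; exact zero_mem _
    · have h1 : α.degree ≠ 0 := fun h => hα ((Finsupp.degree_eq_zero_iff α).1 h).symm
      have h2 := degree_le_weight hl α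
      rw [sub_zero]
      exact FA_anti (by omega : max (Finsupp.weight lev α + 1) 2 ≤ Finsupp.weight lev α + 1) (h α)
  set Q : N.PS σ := star S (N.cst _ (-u)) (star S Q₁ (N.cst _ (-γ))) with hQ
  have h4 : Q - Q₀ ∈ wcf lev fun i => N.F (max (i + 1) 2) := by
    have a1 := cst_star_sub S (Gf.star_mem_wcf S grSub_F h₁ (cst_mem_wcf (mem_FA_zero (-γ)))) (-u)
    have a2 := star_cst_sub S h₁ (-γ)
    convert add_mem (add_mem a1 a2) h3 using 1
    simp only [hQ, map_neg, map_add]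
    abel
  have h5 : N.mk2 Q Q₀ ∈ wcf lev N.box.F := fun α => by
    rw [cv_mk2]
    exact mk2_mem_FA (h₀ α) (by rw [← map_sub]; exact FA_anti (le_max_left _ _) (h4 α))
  have h6 : N.p1 _ (N.mk2 Q Q₀) = Q :=
    p1_mk2 (mem_FA_of_cf fun α => FA_anti (le_max_right _ _) (h4 α))
  have hS : (0 : ℝ) ≤ S := Nat.cast_nonneg S
  have h7 : 2 * m ≤ (9 * S + 2) * m := by nlinarith
  have h8 := isNilW_of_nfn
    (le_trans (by exact_mod_cast card_box_le N)
      ((mul_le_mul_of_nonneg_left hd zero_le_two).trans h7))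
    ((hN.box (Real.exp_pos _).le).mono (Real.exp_le_exp.2 (by linarith)))
    ((hF.boxFn hN (Real.exp_pos _).le (Real.exp_pos _).le hu).mono
      (box_bound S hm (Nat.cast_nonneg _) hd)) h5
  convert h8 using 1
  funext n
  have := hN.nil ℝ
  have e1 : N.p1 ℝ (N.box.evZ n (N.mk2 Q Q₀)) = N.evZ n Q := by
    conv_rhs => rw [← h6]
    exact (map_p1 _ _).symm
  have e2 : N.p2 ℝ (N.box.evZ n (N.mk2 Q Q₀)) = N.evZ n Q₀ := rfl
  have hγ' : ND.IsInt (-γ) := fun k => let ⟨z, hz⟩ := hγ k; ⟨-z, by simp [hz]⟩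
  rw [sqW, sqW, sqW, ND.boxFn, e1, e2, hQ, Bch.map_star, Bch.map_star, ND.evZ, ev_cst, ev_cst,
    Bch.star_neg_star, hF.per _ _ hγ']

end box

variable {ι : Type} [Fintype ι]

omit [Fintype ι] in
theorem pt_zero (T : Cell ι) (h : T.L1 → ℤ) (p : PI T → ℤ) :
    T.pt (fun _ : Fin 1 => h) 0 p = y0 T p := funext fun _ => add_zero _

omit [Fintype ι] in
theorem pt_one (T : Cell ι) (h : T.L1 → ℤ) (p : PI T → ℤ) :
    T.pt (fun _ : Fin 1 => h) 1 p = y1 T h p := rfl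

theorem evZ_ptP {κ : Type} [Fintype κ] {N : ND κ} {T : Cell ι} {k : ℕ} (hT : MpAt T k)
    (h : Fin k → T.L1 → ℤ) (i : Fin (k + 1)) (p : T.MI (Fin k) → ℤ) (P : N.PS ι) :
    N.evZ p (N.subst (T.ptP h i) P) = N.evZ (T.pt h i p) P := by
  rw [ND.evZ, ev_subst, ND.evZ]
  congr 2
  funext c
  exact hT.ev_ptP h i p c

/-- the derivative of a weighted nilcharacter on the pair cell -/
theorem isNilW_deriv {κ : Type} [Fintype κ] {N : ND κ} {T : Cell ι} (hT : MpAt T 1) {S s : ℕ}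
    {m : ℝ} {η : κ → ℤ} {F : N.L → ℂ} (hm : 2 ≤ m) (hd : (Fintype.card κ : ℝ) ≤ m)
    (hN : N.Good S (Real.exp m)) (hF : N.NChar S (s + 1) (Real.exp m) η F) {P : N.PS ι}
    (hP : P ∈ wcf T.lev N.F) (h : T.L1 → ℤ) :
    IsNilW (T.mlev (Fin 1)) s ((9 * S + 2) * m)
      fun p => sqW N F P (y1 T h p) * conj (sqW N F P (y0 T p)) := by
  have h1 := isNilW_box (pc T h).lev_pos hm hd hN hF
    (subst_mem_wcf (T.ptP_degLe (fun _ : Fin 1 => h) 1) grSub_F.anti hP)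
    (subst_mem_wcf (T.ptP_degLe (fun _ : Fin 1 => h) 0) grSub_F.anti hP)
    (wcf_succ_of_dlt fun k => T.bind_ptP_sub (fun _ : Fin 1 => h) 1 0 (degLe_of_wcf hP k))
  simp only [sqW, evZ_ptP hT, pt_zero, pt_one] at h1
  exact h1

theorem mu_pos (T : Tri ι) : 0 < T.mu := prod_pos fun c _ => inv_pos.2 (abs_pos.2 (T.a_ne c))

theorem mu1_pos (T : Cell ι) : 0 < T.mu1 := prod_pos fun c _ => inv_pos.2 (abs_pos.2 (T.a_ne c.1))

theorem muK_one (T : Cell ι) : muK T 1 = T.mu ^ 2 := by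
  rw [muK, Tri.mu, ← prod_pow]
  refine prod_congr rfl fun c _ => ?_
  have h1 : 1 ≤ T.lev c := T.lev_pos c
  have h2 : |T.a c| ≠ 0 := abs_ne_zero.2 (T.a_ne c)
  have h3 : √2 * √2 = 2 := Real.mul_self_sqrt zero_le_two
  have h4 : (√2 : ℝ) ≠ 0 := by positivity
  rw [← (Equiv.funUnique (Fin 1) Bool).symm.prod_comp, Fintype.prod_bool]
  simp only [Hk.wt, Equiv.funUnique_symm_apply, univ_unique, sum_singleton, uniqueElim_const,
    Bool.toNat_true, Bool.toNat_false]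
  rw [if_pos h1, if_pos (Nat.zero_le _)]
  field_simp
  rw [sq, h3]

theorem summable_wgt_mul (T : Tri ι) {g : (ι → ℤ) → ℂ} (hg : ∀ z, ‖g z‖ ≤ 1) :
    Summable fun z => ‖(T.wgt z : ℂ) * g z‖ :=
  T.summable_wgt.of_nonneg_of_le (fun _ => norm_nonneg _) fun z => by
    rw [norm_mul, Complex.norm_real, Real.norm_of_nonneg (T.wgt_nonneg z)]
    exact mul_le_of_le_one_right (T.wgt_nonneg z) (hg z)

theorem norm_tsum_le (T : Tri ι) {g : (ι → ℤ) → ℂ} {ε : ℝ} (hg : ∀ z, ‖g z‖ ≤ ε) :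
    ‖∑' z, (T.wgt z : ℂ) * g z‖ ≤ ε * T.M := by
  refine tsum_of_norm_bounded (T.summable_wgt.hasSum.mul_left ε) fun z => ?_
  rw [norm_mul, Complex.norm_real, Real.norm_of_nonneg (T.wgt_nonneg z), mul_comm]
  exact mul_le_mul_of_nonneg_right (hg z) (T.wgt_nonneg z)

theorem norm_mul_le_one {a b : ℂ} (ha : ‖a‖ ≤ 1) (hb : ‖b‖ ≤ 1) : ‖a * b‖ ≤ 1 := by
  rw [norm_mul]; exact mul_le_one₀ ha (norm_nonneg _) hb

/-- the square of a weighted sum as an average over the pair cells -/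
theorem sq_le_tsum {T : Cell ι} (hT : MpAt T 1) {g : (ι → ℤ) → ℂ} (hg : ∀ z, ‖g z‖ ≤ 1) :
    ‖∑' z, (T.wgt z : ℂ) * g z‖ ^ 2 ≤ ∑' h : Fin 1 → T.L1 → ℤ, T.gamK h *
      ‖∑' p, ((T.mp h).wgt p : ℂ) * (g (T.pt h 1 p) * conj (g (T.pt h 0 p)))‖ := by
  have hb : ∀ a b, ‖g a * conj (g b)‖ ≤ 1 := fun a b =>
    norm_mul_le_one (hg a) (by simpa using hg b)
  have h1 := hT.tsum (fun y => g (y 1) * conj (g (y 0))) fun y => hb _ _
  have hs := summable_wgt_mul T.toTri hg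
  have hs' : Summable fun z => ‖conj ((T.wgt z : ℂ) * g z)‖ := by simpa using hs
  have h2 : (∑' z, conj ((T.wgt z : ℂ) * g z)) * ∑' z, (T.wgt z : ℂ) * g z =
      ∑' y : Fin (1 + 1) → ι → ℤ, (∏ i, (T.wgt (y i) : ℂ)) * (g (y 1) * conj (g (y 0))) := by
    rw [tsum_mul_tsum_of_summable_norm hs' hs, ← (finTwoArrowEquiv (ι → ℤ)).tsum_eq]
    refine tsum_congr fun y => ?_
    simp only [finTwoArrowEquiv, piFinTwoEquiv, Equiv.coe_fn_mk, Fin.prod_univ_succ, map_mul,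
      Complex.conj_ofReal, Fin.prod_univ_zero, Fin.succ_zero_eq_one]
    ring
  have h0 : ∀ h : Fin 1 → T.L1 → ℤ, 0 ≤ T.gamK h := fun h => (Real.exp_pos _).le
  rw [sq]
  nth_rewrite 1 [← Complex.norm_conj]
  rw [← norm_mul, Complex.conj_tsum, h2, h1]
  refine tsum_of_norm_bounded (Summable.hasSum (hT.summ.of_nonneg_of_le
    (fun h => mul_nonneg (h0 h) (norm_nonneg _)) fun h => mul_le_mul_of_nonneg_left ?_ (h0 h)))
    fun h => ?_
  · simpa using norm_tsum_le (T.mp h).toTri fun p => hb _ _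
  · rw [norm_mul, Complex.norm_real, Real.norm_of_nonneg (h0 h)]

/-- pigeonhole in a vertical expansion -/
theorem exists_piece (T : Tri ι) {n : ℕ} {f ψ : (ι → ℤ) → ℂ} {G : Fin n → (ι → ℤ) → ℂ} {ε δ : ℝ}
    (hf : ∀ z, ‖f z‖ ≤ 1) (hψ : ∀ z, ‖ψ z‖ ≤ 1) (hG : ∀ j z, ‖G j z‖ ≤ 1)
    (h : ∀ z, ‖ψ z - ∑ j, G j z‖ ≤ ε) (hδ : 0 < δ)
    (hc : δ + ε * T.M ≤ ‖∑' z, (T.wgt z : ℂ) * (f z * ψ z)‖) :
    ∃ j, δ ≤ n * ‖∑' z, (T.wgt z : ℂ) * (f z * G j z)‖ := by
  have s1 := (summable_wgt_mul T fun z => norm_mul_le_one (hf z) (hψ z)).of_norm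
  have s2 := fun j => (summable_wgt_mul T fun z => norm_mul_le_one (hf z) (hG j z)).of_norm
  have h1 : ∑' z, (T.wgt z : ℂ) * (f z * ψ z) - ∑ j, ∑' z, (T.wgt z : ℂ) * (f z * G j z) =
      ∑' z, (T.wgt z : ℂ) * (f z * (ψ z - ∑ j, G j z)) := by
    rw [← Summable.tsum_finsetSum fun j _ => s2 j, ← s1.tsum_sub (summable_sum fun j _ => s2 j)]
    refine tsum_congr fun z => ?_
    simp only [mul_sub, mul_sum]
  have h2 := norm_tsum_le T (g := fun z => f z * (ψ z - ∑ j, G j z)) (ε := ε) fun z => by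
    rw [norm_mul]
    exact (mul_le_of_le_one_left (norm_nonneg _) (hf z)).trans (h z)
  rw [← h1] at h2
  have h3 := norm_sub_norm_le (∑' z, (T.wgt z : ℂ) * (f z * ψ z))
    (∑ j, ∑' z, (T.wgt z : ℂ) * (f z * G j z))
  have h4 := norm_sum_le univ fun j => ∑' z, (T.wgt z : ℂ) * (f z * G j z)
  by_contra hn
  push Not at hn
  rcases Nat.eq_zero_or_pos n with rfl | hn0
  · simp at h4 h3 h2
    linarith
  · have hn1 : (0 : ℝ) < n := by exact_mod_cast hn0
    have : Nonempty (Fin n) := ⟨⟨0, hn0⟩⟩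
    have h5 : ∑ j, (n : ℝ) * ‖∑' z, (T.wgt z : ℂ) * (f z * G j z)‖ < ∑ _j : Fin n, δ :=
      sum_lt_sum_of_nonempty univ_nonempty fun j _ => hn j
    rw [← mul_sum, sum_const, card_univ, Fintype.card_fin, nsmul_eq_mul] at h5
    have := lt_of_mul_lt_mul_left h5 hn1.le
    linarith

theorem card_PI (T : Cell ι) : Fintype.card (PI T) ≤ 2 * Fintype.card ι := by
  rw [Fintype.card_sum, Fintype.card_prod, Fintype.card_fin, one_mul, two_mul]
  exact Nat.add_le_add_left (Fintype.card_subtype_le _) _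

theorem nat_mul_le {m : ℝ} (hm : 2 ≤ m) (c : ℕ) : (c : ℝ) * m ≤ m ^ (c + 1) := by
  rw [pow_succ]
  refine mul_le_mul_of_nonneg_right ?_ (by linarith)
  calc (c : ℝ) ≤ 2 ^ c := by exact_mod_cast (Nat.lt_two_pow_self).le
    _ ≤ m ^ c := pow_le_pow_left₀ (by norm_num) hm c

theorem der_zero (l : ℕ) : Imp l (fun m _ _ T f => ∃ ψ, IsNilW T.lev 0 m ψ ∧ Cor T m f ψ)
    fun m _ _ T f => BigU 0 m T f := by
  refine ⟨0, 2, by omega, fun ι _ T m f hok hf ⟨ψ, ⟨κ, _, N, F, P, _, h2, h3, _, h5⟩, hc⟩ => ?_⟩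
  have hm := hok.two
  have hψ : ∀ z, ψ z = F 0 := fun z => by
    rw [h5, sqW, eq_zero_of_mem_FA h2.wt_le (mem_FA_one (N.evZ z P))]
  have h0 : Hk.lvl T.lev 0 = ⊤ := eq_top_iff.2 fun _ _ c hc => absurd hc (Nat.not_lt_zero _)
  have h1 : Hk.lvl T.lev 1 = ⊤ := eq_top_iff.2 fun _ _ c hc => by
    have := T.lev_pos c; omega
  show Real.exp (-m ^ 2) * muK T 1 ≤ Hk.UK _ 1 _
  rw [Hk.UK_one h0 h1 (summable_wgt_mul T.toTri hf), muK_one]
  have h6 : Real.exp (-m) * T.mu ≤ ‖∑' z, (T.wgt z : ℂ) * f z‖ := by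
    refine le_trans hc ?_
    simp only [hψ, ← mul_assoc]
    rw [tsum_mul_right, norm_mul]
    exact mul_le_of_le_one_right (norm_nonneg _) (h3.bdd 0)
  have h7 := mu_pos T.toTri
  refine le_trans ?_ (pow_le_pow_left₀ (by positivity) h6 2)
  rw [mul_pow, ← Real.exp_nat_mul]
  exact mul_le_mul_of_nonneg_right (Real.exp_le_exp.2 (by push_cast; nlinarith)) (by positivity)

/-- many derivatives correlate with a nilsequence of lower degree -/
theorem der_down (hMp : MpStmt) (hMs : MsStmt) (hAvg : AvgStmt) (l d : ℕ) :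
    Imp l (fun m _ _ T f => ∃ ψ, IsNilW T.lev (d + 1) m ψ ∧ Cor T m f ψ)
      fun m _ _ T f => ∃ H, Dense T m H ∧ ∀ h ∈ H, ∃ ψ, IsNilW (T.mlev (Fin 1)) d m ψ ∧
        Cor (pc T h) m (fun p => f (y1 T h p) * conj (f (y0 T p))) ψ := by
  classical
  obtain ⟨D1, C1, hC1, hMs⟩ := hMs l
  obtain ⟨D2, C2, hC2, hAvg⟩ := hAvg l 1
  refine ⟨D1 + D2, C1 + 12 * C2 + (14 * (9 * (d + 1) + 2) + 1), by omega,
    fun ι _ T m f hok hf ⟨ψ, ⟨κ, _, N, F, P, h1, h2, h3, h4, h5⟩, hc⟩ => ?_⟩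
  have hm := hok.two
  have hm1 : 1 ≤ m := by linarith
  have hpw : ∀ {a b : ℕ}, a ≤ b → m ^ a ≤ m ^ b := fun h => pow_le_pow_right₀ hm1 h
  have hT := hMp ι T 1
  have hmu := mu_pos T.toTri
  obtain ⟨hM, -, -⟩ := hMs ι T m (hok.mono (by omega) le_rfl (hpw (by omega)) (by positivity))
  have he : Real.exp (-m) ≤ 1 / 2 := by
    have := Real.add_one_le_exp m
    rw [Real.exp_neg, inv_eq_one_div]
    exact one_div_le_one_div_of_le (by norm_num) (by linarith)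
  have hM2 : T.M ≤ 2 * T.mu := by
    have := (abs_le.1 hM).2
    rw [← div_le_iff₀ hmu]
    linarith
  obtain ⟨n, η, G, hn, hG, hap⟩ :=
    ((h3.mono (Real.exp_le_exp.2 (by linarith : m ≤ 2 * m))).nfn h2.wt_le).expand_exp
      (by linarith) (by linarith) h2.wt_le
  have he0 := Real.exp_pos (-m)
  have he2 : Real.exp (-(2 * m)) = Real.exp (-m) * Real.exp (-m) := by
    rw [← Real.exp_add]; congr 1; ring
  obtain ⟨j, hj⟩ := exists_piece T.toTri (G := fun j => sqW N (G j) P)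
    (δ := Real.exp (-m) * T.mu / 2) hf (ψ := ψ) (fun z => by rw [h5]; exact h3.bdd _)
    (fun j z => (hG j).bdd _) (fun z => by rw [h5]; exact hap _) (by positivity) (by
      refine le_trans ?_ hc
      have : Real.exp (-(2 * m)) / 2 * T.M ≤ Real.exp (-m) * (1 / 2) / 2 * (2 * T.mu) := by
        rw [he2]
        gcongr
        exact T.M_nonneg
      linarith)
  have hg : ∀ z, ‖f z * sqW N (G j) P z‖ ≤ 1 := fun z => norm_mul_le_one (hf z) ((hG j).bdd _)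
  have h6 : Real.exp (-m ^ 11) * T.mu ≤ ‖∑' z, (T.wgt z : ℂ) * (f z * sqW N (G j) P z)‖ := by
    have a1 := hj.trans (mul_le_mul_of_nonneg_right hn (norm_nonneg _))
    refine le_of_mul_le_mul_left (le_trans ?_ a1) (Real.exp_pos ((2 * m) ^ 5))
    rw [← mul_assoc, ← Real.exp_add]
    have a2 : (2 * m) ^ 5 ≤ m ^ 10 := by
      rw [show m ^ 10 = (m * m) ^ 5 by ring]
      exact pow_le_pow_left₀ (by linarith) (by nlinarith) 5
    have a3 : m ^ 2 ≤ m ^ 10 := hpw (by omega)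
    have a4 : 2 * m ^ 10 ≤ m ^ 11 := by
      rw [pow_succ m 10, mul_comm]
      exact mul_le_mul_of_nonneg_left hm (by positivity)
    have a5 : Real.exp ((2 * m) ^ 5 + -m ^ 11) ≤ Real.exp (-(2 * m)) :=
      Real.exp_le_exp.2 (by nlinarith)
    rw [he2] at a5
    have a6 : Real.exp (-m) * Real.exp (-m) ≤ Real.exp (-m) * (1 / 2) := by gcongr
    nlinarith
  have h7 : Real.exp (-m ^ 12) * T.mu ^ (1 + 1) ≤
      ‖∑' z, (T.wgt z : ℂ) * (f z * sqW N (G j) P z)‖ ^ 2 := by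
    refine le_trans ?_ (pow_le_pow_left₀ (by positivity) h6 2)
    rw [mul_pow, ← Real.exp_nat_mul]
    refine mul_le_mul_of_nonneg_right (Real.exp_le_exp.2 ?_) (by positivity)
    have : 2 * m ^ 11 ≤ m ^ 12 := by
      rw [pow_succ m 11, mul_comm]
      exact mul_le_mul_of_nonneg_left hm (by positivity)
    push_cast
    linarith
  obtain ⟨Q, hQ1, hQ2⟩ := hAvg ι T (m ^ 12) (hok.mono (by omega) (le_self_pow₀ hm1 (by omega))
    (by rw [← pow_mul]; exact hpw (by omega)) (by positivity)) _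
    (fun h => ⟨norm_nonneg _, by
      simpa using norm_tsum_le (T.mp h).toTri (ε := 1) fun p =>
        norm_mul_le_one (hg (T.pt h 1 p)) (by simpa using hg (T.pt h 0 p))⟩)
    (h7.trans (sq_le_tsum hT hg))
  rw [← pow_mul] at hQ1 hQ2
  have hle : m ^ (12 * C2) ≤ m ^ (C1 + 12 * C2 + (14 * (9 * (d + 1) + 2) + 1)) := hpw (by omega)
  have hex := Real.exp_le_exp.2 (neg_le_neg hle)
  have hinj : Function.Injective fun h : Fin 1 → T.L1 → ℤ => h 0 :=
    fun a b hab => funext fun i => by rw [Subsingleton.elim i 0]; exact hab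
  refine ⟨Q.image fun h => h 0, ⟨fun h hh => ?_, ?_⟩, fun h hh => ?_⟩
  · obtain ⟨h', hh', rfl⟩ := mem_image.1 hh
    exact fun c => ((hQ2 h' hh').1 0 c).trans hle
  · rw [card_image_of_injective _ hinj]
    rw [pow_one] at hQ1
    exact (mul_le_mul_of_nonneg_right hex (mu1_pos T).le).trans hQ1
  · obtain ⟨h', hh', rfl⟩ := mem_image.1 hh
    have e : h' = fun _ => h' 0 := funext fun i => by rw [Subsingleton.elim i 0]
    have h8 := (hQ2 h' hh').2
    generalize h' 0 = h at e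
    subst e
    refine ⟨_, isNilW_mono (isNilW_deriv hT (m := 7 * (2 * m)) (by linarith) (by linarith)
      (h2.mono (Real.exp_le_exp.2 (by linarith))) (hG j) h4 h) ?_, ?_⟩
    · refine le_trans (le_of_eq ?_) ((nat_mul_le hm (14 * (9 * (d + 1) + 2))).trans
        (hpw (by omega)))
      push_cast; ring
    · refine le_trans (mul_le_mul_of_nonneg_right hex (mu_pos _).le) (h8.trans (le_of_eq ?_))
      congr 1
      refine tsum_congr fun p => ?_
      simp only [pt_zero, pt_one, map_mul]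
      ring

end Der86

open Der86

/-- an implication on the pair cells, applied to the regular members of a dense family -/
theorem Imp.onPairs86 (hHer : HerStmt) {l : ℕ} {X Y : Pr} (h : Imp l X Y)
    (hX : ∀ m m' (ι : Type) [Fintype ι] T f, m ≤ m' → X m ι T f → X m' ι T f)
    (hY : ∀ m m' (ι : Type) [Fintype ι] T f, m ≤ m' → Y m ι T f → Y m' ι T f) :
    ∃ D C : ℕ, 1 ≤ C ∧ ∀ (ι : Type) [Fintype ι] (T : Cell ι) (m : ℝ), Ok T l D m (m ^ C) →
      ∀ (H : Finset (T.L1 → ℤ)) (a : (T.L1 → ℤ) → (PI T → ℤ) → ℂ), Dense T m H →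
        (∀ h ∈ H, (∀ p, ‖a h p‖ ≤ 1) ∧ X m (PI T) (pc T h) (a h)) →
        ∃ H' ⊆ H, Dense T (m ^ C) H' ∧ ∀ h ∈ H', Y (m ^ C) (PI T) (pc T h) (a h) := by
  classical
  obtain ⟨D1, C1, hC1, h⟩ := h
  obtain ⟨D2, C2, hC2, hHer⟩ := hHer l 1 D1
  refine ⟨D2, 2 * C1 * C2, Nat.mul_pos (by omega) hC2, fun ι _ T m hok H a hH ha => ?_⟩
  have hm := hok.two
  have hm1 : 1 ≤ m := by linarith
  have hpw : ∀ {a b : ℕ}, a ≤ b → m ^ a ≤ m ^ b := fun h => pow_le_pow_right₀ hm1 h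
  have h12 : 2 * C1 ≤ 2 * C1 * C2 := Nat.le_mul_of_pos_right _ hC2
  have hmm : 2 * m ≤ m ^ 2 := by nlinarith
  have hm2 : m ^ 2 ≤ m ^ (2 * C1) := hpw (by omega)
  set B := H.filter fun h => ¬ Gm (pc T h) l D1 (m ^ (2 * C1)) with hB
  have hinj : Function.Injective fun (h : T.L1 → ℤ) (_ : Fin 1) => h :=
    fun a b hab => congrFun hab 0
  have h1 := hHer ι T (m ^ (2 * C1)) (hok.mono le_rfl (by linarith) (by rw [← pow_mul])
    (by positivity)) (B.image fun h (_ : Fin 1) => h) fun q hq => by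
      obtain ⟨h, hh, rfl⟩ := mem_image.1 hq
      exact ⟨fun _ c => (hH.1 h (mem_filter.1 hh).1 c).trans (by linarith), (mem_filter.1 hh).2⟩
  rw [card_image_of_injective _ hinj, pow_one] at h1
  have hmu := mu1_pos T
  refine ⟨H.filter fun h => Gm (pc T h) l D1 (m ^ (2 * C1)), filter_subset _ _,
    ⟨fun h hh c => (hH.1 h (mem_filter.1 hh).1 c).trans (le_self_pow₀ hm1 (by omega)), ?_⟩,
    fun h' hh => ?_⟩
  · have h2 : (#(H.filter fun h => Gm (pc T h) l D1 (m ^ (2 * C1))) : ℝ) + #B = #H := by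
      exact_mod_cast card_filter_add_card_filter_not _
    have he : Real.exp (-m) ≤ 1 / 2 := by
      have := Real.add_one_le_exp m
      rw [Real.exp_neg, inv_eq_one_div]
      exact one_div_le_one_div_of_le (by norm_num) (by linarith)
    have h3 : Real.exp (-m ^ (2 * C1)) ≤ Real.exp (-m) * (1 / 2) :=
      le_trans (by rw [← Real.exp_add]; exact Real.exp_le_exp.2 (by linarith))
        (mul_le_mul_of_nonneg_left he (Real.exp_pos _).le)
    have h4 := Real.exp_le_exp.2 (neg_le_neg (hpw h12))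
    have h5 := hH.2
    nlinarith
  · obtain ⟨hh1, hh2⟩ := mem_filter.1 hh
    have h2 := h (PI T) (pc T h') (m ^ 2) (a h') ⟨by linarith, le_trans
      (by exact_mod_cast card_PI T) ((mul_le_mul_of_nonneg_left hok.card zero_le_two).trans hmm),
      by rwa [← pow_mul]⟩ (ha h' hh1).1 (hX m _ _ _ _ (by linarith) (ha h' hh1).2)
    rw [← pow_mul] at h2
    exact hY _ _ _ _ _ (hpw h12) h2

theorem Der86.muK_nonneg {ι : Type} [Fintype ι] (T : Cell ι) (s : ℕ) : 0 ≤ muK T s :=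
  prod_nonneg fun _ _ => prod_nonneg fun _ _ => by split_ifs <;> positivity

/-- **task DER** -/
theorem derStmt (hMp : MpStmt) (hMs : MsStmt) (hHer : HerStmt) (hAvg : AvgStmt) (hUp : UpStmt) :
    DerStmt := by
  intro l d
  induction d with
  | zero => exact der_zero l
  | succ d ih =>
    refine (der_down hMp hMs hAvg l d).trans (Imp.trans ?_ (hUp l d))
    obtain ⟨D, C, hC, h⟩ := ih.onPairs86 hHer
      (fun m m' ι _ T f hm ⟨ψ, h1, h2⟩ => ⟨ψ, isNilW_mono h1 hm, le_trans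
        (mul_le_mul_of_nonneg_right (Real.exp_le_exp.2 (neg_le_neg hm)) (mu_pos _).le) h2⟩)
      fun m m' ι _ T f hm h => le_trans
        (mul_le_mul_of_nonneg_right (Real.exp_le_exp.2 (neg_le_neg hm)) (muK_nonneg _ _)) h
    refine ⟨D, C, hC, fun ι _ T m f hok hf ⟨H, h1, h2⟩ => ?_⟩
    obtain ⟨H', -, h3, h4⟩ := h ι T m hok H (fun h p => f (y1 T h p) * conj (f (y0 T p))) h1
      fun h hh => ⟨fun p => norm_mul_le_one (hf _) (by simpa using hf _), h2 h hh⟩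
    exact ⟨fun z => conj (f z), H', fun z => by simpa using hf z, h3, h4⟩

end Crest.Agent.T49.Ri
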