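import Crest.Agent.T49.RiDef_12
import Crest.Agent.T49.GiFibC_91
import Crest.Agent.T49.TwDblA_80
import Crest.Agent.T49.TwAsmA_2

/-!
# Row 49 (helper91): relative FIBC, removal of the part that depends only on the first point
-/

set_option autoImplicit false

noncomputable section

namespace Crest.Agent.T49.Ri

open Finset Crest.Agent.T49.Nil Crest.Agent.T49.Nil.ND
open Crest.Agent.T49.Bch (star star_assoc)
open Crest.Agent.T49.GI (CoId On)
open Crest.Agent.T49.GI.FibC91 (exists_term keep_of_coId coef_inv freq_zero)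
open scoped ComplexConjugate

namespace F91

theorem pigeon {α β : Type*} (H : Finset α) (T : Finset β) (hT : T.Nonempty) (r : α → β → Prop)
    (h : ∀ x ∈ H, ∃ b ∈ T, r x b) :
    ∃ b ∈ T, ∃ H' ⊆ H, (#H : ℝ) ≤ #T * #H' ∧ ∀ x ∈ H', r x b := by
  classical
  obtain ⟨b, hb, hmax⟩ := exists_max_image T (fun b => #{x ∈ H | r x b}) hT
  refine ⟨b, hb, {x ∈ H | r x b}, filter_subset _ _, ?_, fun x hx => (mem_filter.1 hx).2⟩
  have h1 : H ⊆ T.biUnion fun b => {x ∈ H | r x b} := fun x hx => by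
    obtain ⟨b, hb, hr⟩ := h x hx
    exact mem_biUnion.2 ⟨b, hb, mem_filter.2 ⟨hx, hr⟩⟩
  have h2 := (card_le_card h1).trans (card_biUnion_le_card_mul _ _ _ hmax)
  exact_mod_cast h2

theorem summable_mul {J : Type*} {w g : J → ℂ} (hw : Summable fun j => ‖w j‖) {B : ℝ}
    (hg : ∀ j, ‖g j‖ ≤ B) : Summable fun j => w j * g j :=
  .of_norm_bounded (hw.mul_right B) fun j => by
    rw [norm_mul]; exact mul_le_mul_of_nonneg_left (hg j) (norm_nonneg _)

theorem norm_tsum_mul_le {J : Type*} {w g : J → ℂ} (hw : Summable fun j => ‖w j‖) {B : ℝ}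
    (hg : ∀ j, ‖g j‖ ≤ B) : ‖∑' j, w j * g j‖ ≤ (∑' j, ‖w j‖) * B := by
  rw [← tsum_mul_right]
  exact tsum_of_norm_bounded (hw.mul_right B).hasSum fun j => by
    rw [norm_mul]; exact mul_le_mul_of_nonneg_left (hg j) (norm_nonneg _)

/-- **bias passes to one vertical frequency**, for infinite sums -/
theorem exists_bias_tsum {ι X : Type} [Fintype ι] [DecidableEq ι] {act : (ι → ℝ) → X → X}
    {F : X → ℂ} {M : ℝ} (h : Tor.Vert act F M) (hF : ∀ x, ‖F x‖ ≤ 1) {K : ℕ} (hK : 0 < K)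
    {J : Type*} (w : J → ℂ) (hw : Summable fun j => ‖w j‖) (x : J → X) {W δ : ℝ}
    (hW : ∑' j, ‖w j‖ ≤ W) (hδ : 0 ≤ δ) (hKδ : (M * Fintype.card ι) ^ 2 ≤ δ ^ 2 * K)
    (hb : δ * W ≤ ‖∑' j, w j * F (x j)‖) :
    ∃ ξ ∈ Tor.cube ι K, δ * W / (2 * (2 * K + 1) ^ Fintype.card ι) ≤
      ‖∑' j, w j * Tor.coef act F ξ (x j)‖ := by
  have he := h.expand' hK (ε := δ / 2) (by positivity) (by nlinarith)
  have hc : ∀ ξ, Summable fun j => w j * Tor.coef act F ξ (x j) := fun ξ =>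
    summable_mul hw fun j => Tor.norm_coef_le ξ _ fun _ => hF _
  have h0 : ∑ ξ ∈ Tor.cube ι K, (Tor.fw K ξ : ℂ) * ∑' j, w j * Tor.coef act F ξ (x j) =
      ∑' j, w j * ∑ ξ ∈ Tor.cube ι K, (Tor.fw K ξ : ℂ) * Tor.coef act F ξ (x j) := by
    simp only [← tsum_mul_left]
    rw [← Summable.tsum_finsetSum fun ξ _ => (hc ξ).mul_left _]
    exact tsum_congr fun j => by rw [mul_sum]; exact sum_congr rfl fun ξ _ => by ring
  have hs2 : Summable fun j =>
      w j * ∑ ξ ∈ Tor.cube ι K, (Tor.fw K ξ : ℂ) * Tor.coef act F ξ (x j) :=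
    (summable_sum (s := Tor.cube ι K) fun ξ _ => (hc ξ).mul_left (Tor.fw K ξ : ℂ)).congr
      fun j => by rw [mul_sum]; exact sum_congr rfl fun ξ _ => by ring
  have h1 : ‖∑' j, w j * F (x j) - ∑ ξ ∈ Tor.cube ι K, (Tor.fw K ξ : ℂ) *
      ∑' j, w j * Tor.coef act F ξ (x j)‖ ≤ δ / 2 * W := by
    rw [h0, ← (summable_mul hw fun j => hF (x j)).tsum_sub hs2]
    simp only [← mul_sub]
    refine (norm_tsum_mul_le hw fun j => he (x j)).trans ?_
    rw [mul_comm]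
    exact mul_le_mul_of_nonneg_left hW (by positivity)
  have h2 : δ * W / 2 ≤ ∑ ξ ∈ Tor.cube ι K, ‖∑' j, w j * Tor.coef act F ξ (x j)‖ := by
    have h3 : ‖∑ ξ ∈ Tor.cube ι K, (Tor.fw K ξ : ℂ) * ∑' j, w j * Tor.coef act F ξ (x j)‖ ≤
        ∑ ξ ∈ Tor.cube ι K, ‖∑' j, w j * Tor.coef act F ξ (x j)‖ :=
      (norm_sum_le _ _).trans (sum_le_sum fun ξ _ => by
        rw [norm_mul, Complex.norm_real, Real.norm_of_nonneg (Tor.fw_nonneg K ξ)]
        exact mul_le_of_le_one_left (norm_nonneg _) (Tor.fw_le_one K ξ))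
    have h4 := norm_sub_norm_le (∑' j, w j * F (x j)) (∑ ξ ∈ Tor.cube ι K, (Tor.fw K ξ : ℂ) *
      ∑' j, w j * Tor.coef act F ξ (x j))
    linarith
  have hne : (Tor.cube ι K).Nonempty := ⟨0, Tor.mem_cube.2 fun i => by simp⟩
  refine exists_le_of_sum_le hne (le_trans (le_of_eq ?_) h2)
  rw [sum_const, Tor.card_cube, nsmul_eq_mul]; push_cast; field_simp

variable {ι : Type} [Fintype ι] {α X Y : Type}

/-- weights of total mass at most `W` -/
def Wt (W : ℝ) (a : X → ℂ) : Prop := (Summable fun x => ‖a x‖) ∧ ∑' x, ‖a x‖ ≤ W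

theorem Wt.mul {W : ℝ} {a g : X → ℂ} (h : Wt W a) (hg : ∀ x, ‖g x‖ ≤ 1) :
    Wt W fun x => a x * g x := by
  have h1 : ∀ x, ‖a x * g x‖ ≤ ‖a x‖ := fun x => by
    rw [norm_mul]; exact mul_le_of_le_one_right (norm_nonneg _) (hg x)
  have h2 : Summable fun x => ‖a x * g x‖ := h.1.of_nonneg_of_le (fun _ => norm_nonneg _) h1
  exact ⟨h2, (h2.tsum_le_tsum h1 h.1).trans h.2⟩

/-- the state of the downward induction -/
def St (N : ND ι) (κ : ι → Prop) (S t d : ℕ) (m W : ℝ) (H : Finset α) (F : α → N.L → ℂ)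
    (P : α → X → N.L) (y : α → X → Y) (P₀ : Y → N.L) (a : α → X → ℂ) : Prop :=
  ∀ h ∈ H, N.NFn S d (Real.exp m) (F h) ∧
    (∀ Z ∈ N.F (t + 1), On N κ Z → ∀ x, F h (star S Z x) = F h x) ∧
    (∀ x k, ¬ κ k → P h x k = P₀ (y h x) k) ∧ Wt W (a h) ∧
    Real.exp (-m) * W ≤ ‖∑' x, a h x * F h (P h x)‖

theorem step (S t : ℕ) : ∃ C : ℕ, 1 ≤ C ∧ ∀ (m : ℝ), 2 ≤ m → ∀ (ι : Type) [Fintype ι] (N : ND ι)
    (κ : ι → Prop) (d : ℕ) (W : ℝ) (α X Y : Type) (H : Finset α) (F : α → N.L → ℂ)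
    (P : α → X → N.L) (y : α → X → Y) (P₀ : Y → N.L) (a : α → X → ℂ),
    (Fintype.card ι : ℝ) ≤ m → N.Good S (Real.exp m) → CoId N κ → 0 < W →
    t ≤ d → H.Nonempty → St N κ S t (d + 1) m W H F P y P₀ a →
    ∃ (b : Y → ℂ) (H' : Finset α) (F' : α → N.L → ℂ), (∀ n, ‖b n‖ ≤ 1) ∧ H' ⊆ H ∧
      Real.exp (-m ^ C) * #H ≤ #H' ∧
      St N κ S t d (m ^ C) W H' F' P y P₀ fun h x => a h x * b (y h x) := by
  classical
  obtain ⟨C₁, hC₁⟩ := exists_vec S
  obtain ⟨C, hC⟩ : ∃ C : ℕ, ∀ (m : ℝ) (c J K : ℕ), 2 ≤ m → (c : ℝ) ≤ m →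
      (J : ℝ) ≤ Real.exp ((7 * m) ^ C₁) → (K : ℝ) ≤ Real.exp (7 * m) →
      Real.exp (7 * m) + Real.exp ((7 * m) ^ C₁) * 1 ≤ Real.exp (m ^ C) ∧
      (2 * (K : ℝ) + 1) ^ c * J ≤ Real.exp (m ^ C) ∧
      Real.exp m * (2 * (2 * (K : ℝ) + 1) ^ c) * J ≤ Real.exp (m ^ C) := by qp
  refine ⟨C + 1, by omega, fun m hm ι _ N κ d W α X Y H F P y P₀ a hd hN hκ hLr htd hH hSt => ?_⟩
  have hS := hN.wt_le
  have hnil := ND.nil hS ℝ
  have hmC : m ^ C ≤ m ^ (C + 1) := Qp.pw_mono hm (Nat.le_succ C)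
  have h1e := Real.add_one_le_exp m
  set K : ℕ := ⌈Real.exp (6 * m)⌉₊ with hK
  have hK0 : 0 < K := Nat.ceil_pos.2 (Real.exp_pos _)
  have h6 : Real.exp (6 * m) ≤ K := Nat.le_ceil _
  have hK7 : (K : ℝ) ≤ Real.exp (7 * m) := by
    have h6' : (K : ℝ) ≤ Real.exp (6 * m) + 1 := (Nat.ceil_lt_add_one (Real.exp_pos _).le).le
    have h61 : 1 ≤ Real.exp (6 * m) := Real.one_le_exp (by linarith)
    rw [show 7 * m = 6 * m + m by ring, Real.exp_add]
    nlinarith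
  set ιs := {k // N.wt k = d + 1}
  have hιs : Fintype.card ιs ≤ Fintype.card ι := Fintype.card_subtype_le _
  have hιs' : (Fintype.card ιs : ℝ) ≤ m := le_trans (by exact_mod_cast hιs) hd
  -- vertical expansion
  have hexp : ∀ h ∈ H, ∃ ξ ∈ Tor.cube ιs K,
      Real.exp (-m) * W / (2 * (2 * K + 1) ^ Fintype.card ιs) ≤
        ‖∑' x, a h x * Tor.coef (N.vact (d + 1)) (F h) ξ (P h x)‖ := by
    intro h hh
    obtain ⟨h1, -, -, h5, h6'⟩ := hSt h hh
    refine exists_bias_tsum (h1.vert hS (Real.exp_pos _).le) h1.bdd hK0 _ h5.1 _ h5.2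
      (Real.exp_pos _).le ?_ h6'
    refine le_trans ?_ (mul_le_mul_of_nonneg_left h6 (by positivity))
    have e1 : Real.exp (-m) ^ 2 * Real.exp (6 * m) = (Real.exp m * Real.exp m) ^ 2 := by
      rw [← Real.exp_nat_mul, ← Real.exp_add, ← Real.exp_add, ← Real.exp_nat_mul]
      congr 1; push_cast; ring
    rw [e1]
    exact pow_le_pow_left₀ (by positivity)
      (mul_le_mul_of_nonneg_left (by linarith) (Real.exp_pos _).le) 2
  obtain ⟨ξ, hξ, H₁, hH₁, hc₁, hb₁⟩ := pigeon H (Tor.cube ιs K)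
    ⟨0, Tor.mem_cube.2 fun i => by simp⟩ _ hexp
  have hH₁ne : H₁.Nonempty := by
    rw [← card_pos]
    by_contra h0
    have h0' : #H₁ = 0 := by omega
    have := card_pos.2 hH
    rw [h0', Nat.cast_zero, mul_zero] at hc₁
    have : (0 : ℝ) < #H := by exact_mod_cast this
    linarith
  set η := N.vz (d + 1) ξ with hη
  set G : α → N.L → ℂ := fun h => Tor.coef (N.vact (d + 1)) (F h) ξ with hG
  have hm7 : Real.exp m ≤ Real.exp (7 * m) := Real.exp_le_exp.2 (by linarith)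
  have hξle : ∀ i, |(ξ i : ℝ)| ≤ Real.exp (7 * m) := fun i =>
    le_trans (by exact_mod_cast Tor.mem_cube.1 hξ i) hK7
  have hGc : ∀ h ∈ H, N.NChar S (d + 1) (Real.exp (7 * m)) η (G h) := fun h hh =>
    (hSt h hh).1.nchar_coef hS (Real.exp_pos _).le ξ hm7 hξle
  have hGinv : ∀ h ∈ H, ∀ Z ∈ N.F (t + 1), On N κ Z → ∀ x, G h (star S Z x) = G h x :=
    fun h hh Z hZ hZκ x => coef_inv hS (hSt h hh).1 ξ ((hSt h hh).2.1 Z hZ hZκ) x
  set δ : ℝ := Real.exp (-m) * W / (2 * (2 * K + 1) ^ Fintype.card ιs) with hδ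
  have hδ0 : 0 < δ := by positivity
  obtain ⟨h₀, hh₀⟩ := hH₁ne
  -- the frequency vanishes on `κ`
  have hηκ : ∀ k, κ k → η k = 0 := by
    intro k hk
    by_cases hw : N.wt k = d + 1
    swap
    · exact (hGc h₀ (hH₁ hh₀)).supp k hw
    obtain ⟨x, hx⟩ : ∃ x, G h₀ x ≠ 0 := by
      by_contra h0
      push Not at h0
      have := hb₁ h₀ hh₀
      simp only [hG] at h0
      simp only [h0, mul_zero, tsum_zero, norm_zero] at this
      linarith
    refine freq_zero (hGc h₀ (hH₁ hh₀)) hx hw fun r => hGinv h₀ (hH₁ hh₀) _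
      (Submodule.smul_mem _ _ (FA_anti (by omega) (e_mem_F k))) (fun l hl => ?_) x
    rw [ND.smul_apply, e_apply, if_neg, smul_zero]
    rintro rfl
    exact hl hk
  -- vector characters on the quotient
  have hkeep := keep_of_coId hκ
  obtain ⟨J, B, hJ, hB, hB1⟩ := hC₁ (7 * m) (by linarith) _ (N.quo _ hkeep) (d + 1)
    (fun k => η k.1) ((Nat.cast_le.2 (Fintype.card_subtype_le _)).trans (hd.trans (by linarith)))
    ((hN.quo hkeep).mono hm7) (fun k hk => (hGc h₀ (hH₁ hh₀)).supp k.1 hk)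
    fun k => (hGc h₀ (hH₁ hh₀)).η_le k.1
  obtain ⟨hq1, hq2, hq3⟩ := hC m (Fintype.card ιs) J K hm hιs' hJ hK7
  have hBp : ∀ j, N.LipFn S (Real.exp ((7 * m) ^ C₁) * 1) fun x => B j (qpr hkeep ℝ x) := fun j =>
    (fHom_qpr hkeep).lipFn (Real.exp_pos _).le (hB j).toLipFn
  have hfn : ∀ Z : N.L, (N.quo _ hkeep).fn (fun k => η k.1) (qpr hkeep ℝ Z) = N.fn η Z := by
    intro Z
    rw [fn_apply, fn_apply, ← sum_keep (fun k => ¬ κ k) (fun k => (η k : ℝ) * Z k)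
      fun l hl => by rw [hηκ l (not_not.1 hl)]; simp]
    rfl
  have hqP : ∀ h ∈ H, ∀ x, qpr hkeep ℝ (P h x) = qpr hkeep ℝ (P₀ (y h x)) := fun h hh x =>
    (qpr_eq_iff hkeep).2 fun k hk => (hSt h hh).2.2.1 x k hk
  have hGB : ∀ h ∈ H, ∀ j x, ‖G h x * conj (B j (qpr hkeep ℝ x))‖ ≤ 1 := fun h hh j x => by
    rw [norm_mul, Complex.norm_conj]
    exact mul_le_one₀ ((hGc h hh).bdd _) (norm_nonneg _) ((hB j).bdd _)
  have hJex : ∀ h ∈ H₁, ∃ j ∈ (univ : Finset (Fin J)), δ ≤ J * ‖∑' x,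
      a h x * B j (qpr hkeep ℝ (P₀ (y h x))) *
        (G h (P h x) * conj (B j (qpr hkeep ℝ (P h x))))‖ := by
    intro h hh
    obtain ⟨j, hj⟩ := exists_term (fun j : Fin J => ∑' x,
      a h x * B j (qpr hkeep ℝ (P₀ (y h x))) *
        (G h (P h x) * conj (B j (qpr hkeep ℝ (P h x))))) hδ0 (by
        refine (hb₁ h hh).trans (le_of_eq ?_)
        rw [← Summable.tsum_finsetSum fun j _ => summable_mul
          ((hSt h (hH₁ hh)).2.2.2.1.mul fun x => (hB j).bdd _).1 fun x => hGB h (hH₁ hh) j _]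
        congr 1
        refine tsum_congr fun n => ?_
        rw [hqP h (hH₁ hh) n]
        have h1 : ∑ j, B j (qpr hkeep ℝ (P₀ (y h n))) *
            conj (B j (qpr hkeep ℝ (P₀ (y h n)))) = 1 := by
          simp only [Complex.mul_conj, Complex.normSq_eq_norm_sq]
          exact_mod_cast hB1 _
        calc _ = a h n * G h (P h n) * 1 := by rw [mul_one]
          _ = _ := by
            rw [← h1, mul_sum]
            exact sum_congr rfl fun j _ => by ring)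
    exact ⟨j, mem_univ _, hj⟩
  have hJne : (univ : Finset (Fin J)).Nonempty := by
    obtain ⟨j, -, -⟩ := hJex h₀ hh₀
    exact ⟨j, mem_univ _⟩
  obtain ⟨j, -, H₂, hH₂, hc₂, hb₂⟩ := pigeon H₁ univ hJne _ hJex
  have hJ0 : (0 : ℝ) < J := by
    have := card_pos.2 hJne
    rw [card_univ, Fintype.card_fin] at this
    exact_mod_cast this
  refine ⟨fun n => B j (qpr hkeep ℝ (P₀ n)), H₂,
    fun h x => G h x * conj (B j (qpr hkeep ℝ x)), fun n => (hB j).bdd _, hH₂.trans hH₁, ?_,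
    fun h hh => ?_⟩
  · rw [card_univ, Fintype.card_fin] at hc₂
    rw [Tor.card_cube] at hc₁
    push_cast at hc₁
    have h1 : (#H : ℝ) ≤ Real.exp (m ^ (C + 1)) * #H₂ :=
      calc (#H : ℝ) ≤ (2 * (K : ℝ) + 1) ^ Fintype.card ιs * (J * #H₂) :=
            hc₁.trans (mul_le_mul_of_nonneg_left hc₂ (by positivity))
        _ ≤ _ := by
            rw [← mul_assoc]
            exact mul_le_mul_of_nonneg_right (hq2.trans (Real.exp_le_exp.2 hmC)) (Nat.cast_nonneg _)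
    rw [Real.exp_neg, inv_mul_le_iff₀ (Real.exp_pos _)]
    exact h1
  have hh1 := hH₂ hh
  have hh0 := hH₁ hh1
  obtain ⟨-, -, h3, h5, -⟩ := hSt h hh0
  refine ⟨⟨((hGc h hh0).toLipFn.mulConj (hBp j)).mono (hq1.trans (Real.exp_le_exp.2 hmC)),
    fun Z hZ x => ?_⟩, fun Z hZ hZκ x => ?_, h3, h5.mul fun _ => (hB j).bdd _, ?_⟩
  · beta_reduce
    rw [(hGc h hh0).vert Z hZ, Bch.map_star, (hB j).vert _ (qpr_mem_FA hkeep hZ), hfn, map_mul,
      ← Tor.e_neg]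
    linear_combination (G h x * conj (B j (qpr hkeep ℝ x))) * Tor.e_mul_e_neg (N.fn η Z)
  · have hZ0 : qpr hkeep ℝ Z = 0 := pts_ext fun k => hZκ k.1 k.2
    beta_reduce
    rw [hGinv h hh0 Z hZ hZκ, Bch.map_star, hZ0, Bch.star_of_lie_eq_zero S (by simp), zero_add]
  · have h6' := hb₂ h hh
    rw [← div_le_iff₀' hJ0] at h6'
    refine le_trans ?_ h6'
    rw [hδ, div_div, le_div_iff₀ (by positivity), Real.exp_neg, Real.exp_neg m, mul_right_comm]
    refine mul_le_mul_of_nonneg_right ?_ hLr.le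
    rw [inv_mul_le_iff₀ (Real.exp_pos _), ← div_eq_mul_inv, le_div_iff₀ (Real.exp_pos _)]
    refine le_trans (le_of_eq (by ring)) (hq3.trans (Real.exp_le_exp.2 hmC))

/-- **FIBC for abstract weighted families** -/
theorem main (S t j : ℕ) : ∃ C : ℕ, 1 ≤ C ∧ ∀ (m : ℝ), 2 ≤ m → ∀ (ι : Type) [Fintype ι]
    (N : ND ι) (κ : ι → Prop) (W : ℝ) (α X Y : Type) (H : Finset α) (F : α → N.L → ℂ)
    (P : α → X → N.L) (y : α → X → Y) (P₀ : Y → N.L) (a : α → X → ℂ),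
    (Fintype.card ι : ℝ) ≤ m → N.Good S (Real.exp m) → CoId N κ → 0 < W →
    St N κ S t (t + j) m W H F P y P₀ a →
    ∃ (b : Y → ℂ) (H' : Finset α) (F' : α → N.L → ℂ), (∀ n, ‖b n‖ ≤ 1) ∧ H' ⊆ H ∧
      Real.exp (-m ^ C) * #H ≤ #H' ∧ ∀ h ∈ H', N.NFn S t (Real.exp (m ^ C)) (F' h) ∧
        Real.exp (-m ^ C) * W ≤ ‖∑' x, a h x * b (y h x) * F' h (P h x)‖ := by
  induction j with
  | zero =>
    refine ⟨1, le_rfl, fun m hm ι _ N κ W α X Y H F P y P₀ a hd hN _ _ hSt => ?_⟩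
    rw [pow_one]
    refine ⟨fun _ => 1, H, F, fun _ => by simp, subset_rfl, ?_, fun h hh => ?_⟩
    · exact mul_le_of_le_one_left (Nat.cast_nonneg _) (Real.exp_le_one_iff.2 (by linarith))
    · obtain ⟨h1, -, -, -, h6⟩ := hSt h hh
      exact ⟨h1, by simpa only [mul_one] using h6⟩
  | succ j ih =>
    obtain ⟨C₁, hC₁, h₁⟩ := step S t
    obtain ⟨C₂, hC₂, h₂⟩ := ih
    refine ⟨C₁ + C₁ * C₂ + 1, by omega,
      fun m hm ι _ N κ W α X Y H F P y P₀ a hd hN hκ hL hSt => ?_⟩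
    rcases H.eq_empty_or_nonempty with rfl | hH
    · exact ⟨fun _ => 1, ∅, F, fun _ => by simp, subset_rfl, by simp, fun _ h => by simp at h⟩
    obtain ⟨b, H', F', hb, hH', hc, hSt'⟩ :=
      h₁ m hm ι N κ (t + j) W α X Y H F P y P₀ a hd hN hκ hL (Nat.le_add_right _ _) hH hSt
    have hm1 : m ≤ m ^ C₁ := le_self_pow₀ (by linarith) (by omega)
    obtain ⟨b', H'', F'', hb', hH'', hc', h⟩ := h₂ (m ^ C₁) (hm.trans hm1) ι N κ W α X Y H' F' P y
      P₀ _ (hd.trans hm1) (hN.mono (Real.exp_le_exp.2 hm1)) hκ hL hSt'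
    rw [← pow_mul] at hc' h
    have e1 : m ^ C₁ + m ^ (C₁ * C₂) ≤ m ^ (C₁ + C₁ * C₂ + 1) := Qp.pw_add_pw hm _ _
    have e2 : m ^ (C₁ * C₂) ≤ m ^ (C₁ + C₁ * C₂ + 1) := Qp.pw_mono hm (by omega)
    refine ⟨fun n => b n * b' n, H'', F'', fun n => ?_, hH''.trans hH', ?_, fun x hx => ?_⟩
    · rw [norm_mul]; exact mul_le_one₀ (hb n) (norm_nonneg _) (hb' n)
    · calc Real.exp (-m ^ (C₁ + C₁ * C₂ + 1)) * #H ≤
            Real.exp (-m ^ (C₁ * C₂)) * (Real.exp (-m ^ C₁) * #H) := by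
            rw [← mul_assoc, ← Real.exp_add]
            exact mul_le_mul_of_nonneg_right (Real.exp_le_exp.2 (by linarith)) (Nat.cast_nonneg _)
        _ ≤ _ := (mul_le_mul_of_nonneg_left hc (Real.exp_pos _).le).trans hc'
    · obtain ⟨h3, h4⟩ := h x hx
      refine ⟨h3.mono (Real.exp_le_exp.2 e2), ?_⟩
      simp only [← mul_assoc]
      exact le_trans (mul_le_mul_of_nonneg_right (Real.exp_le_exp.2 (by linarith)) hL.le) h4

/-- a function of degree `≤ s` along a weighted polynomial map is a weighted nilsequence -/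
theorem isNilW_of_nfn {σ : Type} {lev : σ → ℕ} {N : ND ι} {S s : ℕ} {m : ℝ} {F : N.L → ℂ}
    (hd : (Fintype.card ι : ℝ) ≤ m) (hN : N.Good S (Real.exp m)) (hF : N.NFn S s (Real.exp m) F)
    {P : N.PS σ} (hP : P ∈ Gf.wcf lev N.F) : IsNilW lev s m (sqW N F P) :=
  ⟨_, inferInstance, N.trc s, _, qpr (N.keep_le s) _ P,
    le_trans (by exact_mod_cast Fintype.card_subtype_le _) hd, hN.trc s,
    hF.trc hN.wt_le (Real.exp_pos _).le, fun α => qpr_mem_FA _ (hP α),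
    funext fun n => (hF.trc_qpr hN.wt_le (N.evZ n P)).symm⟩

theorem chp_one (T : Tw.Cell ι) {m : ℝ} (hm : 0 ≤ m) : Chp T m fun _ => 1 :=
  ⟨0, 0, 1, by simpa using (Real.exp_pos m).le, le_rfl, by simpa using hm,
    fun z => by simp [Tw.ee]⟩

/-- at least half of the pair cells have mass at most twice the ideal mass -/
theorem exists_mass (hMs : MsStmt) (hH : HerStmt) (l : ℕ) : ∃ D C : ℕ, 1 ≤ C ∧
    ∀ (ι : Type) [Fintype ι] (T : Tw.Cell ι) (m : ℝ), Ok T l D m (m ^ C) →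
    ∀ H : Finset (T.L1 → ℤ), Dense T m H →
      ∃ H' ⊆ H, (#H : ℝ) ≤ 2 * #H' ∧ ∀ h ∈ H', (pc T h).M ≤ 2 * (pc T h).mu := by
  classical
  obtain ⟨D₁, C₁, hC₁, h₁⟩ := hMs l
  obtain ⟨D₂, C₂, hC₂, h₂⟩ := hH l 1 D₁
  obtain ⟨C, hC⟩ : ∃ C : ℕ, ∀ m : ℝ, 2 ≤ m → ((2 * m) ^ C₁) ^ C₂ ≤ m ^ C := by qp
  refine ⟨D₂, C + 1, by omega, fun ι _ T m hOk H hD => ?_⟩
  have hm := hOk.two
  have hm1 : 2 * m ≤ (2 * m) ^ C₁ := le_self_pow₀ (by linarith) (by omega)
  set m' := (2 * m) ^ C₁ with hm'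
  have hOk' : Ok T l D₂ m' (m' ^ C₂) :=
    ⟨by linarith, hOk.card.trans (by linarith), by
      obtain ⟨h1, cl, τ, h2, h3, h4, h5⟩ := hOk.gm
      exact ⟨h1, cl, τ, h2, h3, ((hC m hm).trans (Qp.pw_mono hm (Nat.le_succ C))).trans h4, h5⟩⟩
  set Bad := H.filter fun h => ¬ Gm (pc T h) l D₁ m' with hBad
  have hinj : Function.Injective fun (h : T.L1 → ℤ) (_ : Fin 1) => h :=
    fun _ _ h => congrFun h 0
  have hb := h₂ ι T m' hOk' (Bad.image fun h _ => h) fun q hq => by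
    obtain ⟨h, hh, rfl⟩ := mem_image.1 hq
    obtain ⟨h1, h2⟩ := mem_filter.1 hh
    exact ⟨fun _ c => (hD.1 h h1 c).trans (by linarith), h2⟩
  rw [card_image_of_injective _ hinj, pow_one] at hb
  have hmu : 0 < T.mu1 := prod_pos fun c _ => inv_pos.2 (abs_pos.2 (T.a_ne c.1))
  have he : Real.exp (-m') * 2 ≤ Real.exp (-m) := by
    calc _ ≤ Real.exp (-m') * Real.exp 1 := by gcongr; linarith [Real.add_one_le_exp 1]
      _ = Real.exp (-m' + 1) := (Real.exp_add _ _).symm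
      _ ≤ _ := Real.exp_le_exp.2 (by linarith)
  have hc : (#(H.filter fun h => Gm (pc T h) l D₁ m') : ℝ) + #Bad = #H := by
    exact_mod_cast card_filter_add_card_filter_not (s := H) _
  refine ⟨H.filter fun h => Gm (pc T h) l D₁ m', filter_subset _ _, ?_, fun h hh => ?_⟩
  · nlinarith [hD.2, mul_le_mul_of_nonneg_right he hmu.le]
  · have hcard : (Fintype.card (PI T) : ℝ) ≤ 2 * m := by
      have h1 : Fintype.card T.U2 ≤ Fintype.card ι := Fintype.card_subtype_le _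
      have h2 : (Fintype.card T.U2 : ℝ) ≤ Fintype.card ι := by exact_mod_cast h1
      simp only [Fintype.card_sum, Fintype.card_prod, Fintype.card_fin, one_mul]
      push_cast
      linarith [hOk.card]
    have h3 := (h₁ _ (pc T h) (2 * m) ⟨by linarith, hcard, (mem_filter.1 hh).2⟩).1
    have h4 := Tw.Asm.mu_pos (pc T h).toTri
    have h5 : Real.exp (-(2 * m)) ≤ 1 := Real.exp_le_one_iff.2 (by linarith)
    rw [← div_le_iff₀ h4]
    linarith [(abs_le.1 h3).2]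

theorem mp_a (T : Tw.Cell ι) {k : ℕ} (h : Fin k → T.L1 → ℤ) : (T.mp h).a =
    Sum.elim (fun c => √(k + 1) * T.a c) fun p => Tw.helm k p.1.succ p.1.succ * T.a p.2.1 := rfl

theorem mp_mu (T : Tw.Cell ι) {k : ℕ} (h h' : Fin k → T.L1 → ℤ) : (T.mp h).mu = (T.mp h').mu := by
  unfold Tw.Tri.mu
  rw [mp_a, mp_a]

end F91

set_option maxHeartbeats 200000 in
/-- **relative FIBC** -/
theorem fibCStmt (hMs : MsStmt) (hH : HerStmt) : FibCStmt := by
  intro l S t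
  obtain ⟨D, C₀, hC₀, h₀⟩ := F91.exists_mass hMs hH l
  obtain ⟨C₁, hC₁, h₁⟩ := F91.main S t S
  obtain ⟨C, hC⟩ : ∃ C : ℕ, ∀ m : ℝ, 2 ≤ m → (m + 1) ^ C₁ + 1 ≤ m ^ C := by qp
  refine ⟨D, C₀ + C + 1, by omega, fun ι _ T m hOk κ' _ N κ H F P P₀ a hd hN hκ hD hyp => ?_⟩
  have hm := hOk.two
  have e0 : m ^ C₀ ≤ m ^ (C₀ + C + 1) := Qp.pw_mono hm (by omega)
  have e1 : (m + 1) ^ C₁ + 1 ≤ m ^ (C₀ + C + 1) := (hC m hm).trans (Qp.pw_mono hm (by omega))
  have e2 : m + 1 ≤ (m + 1) ^ C₁ := le_self_pow₀ (by linarith) (by omega)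
  obtain ⟨H₁, hH₁, hc₁, hM⟩ := h₀ ι T m (hOk.mono le_rfl le_rfl e0 (by positivity)) H hD
  have hmu : ∀ h, (pc T h).mu = (pc T 0).mu := fun _ => F91.mp_mu T _ _
  have hmu0 := Tw.Asm.mu_pos (pc T 0).toTri
  have hexp : Real.exp m ≤ Real.exp (m + 1) := Real.exp_le_exp.2 (by linarith)
  have he : ∀ x : ℝ, Real.exp (-(x + 1)) * 2 ≤ Real.exp (-x) := fun x =>
    calc _ ≤ Real.exp (-(x + 1)) * Real.exp 1 := by gcongr; linarith [Real.add_one_le_exp 1]
      _ = _ := by rw [← Real.exp_add]; congr 1; ring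
  obtain ⟨b, H', F', hb, hH', hc, h⟩ := h₁ (m + 1) (by linarith) κ' N κ (2 * (pc T 0).mu) _ _ _ H₁ F
    (fun h p => N.evZ p (P h)) (fun _ => y0 T) (fun z => N.evZ z P₀)
    (fun h p => ((pc T h).wgt p : ℂ) * a h p) (by linarith) (hN.mono hexp) hκ (by positivity)
    fun h hh => by
      obtain ⟨h1, h2, -, h4, h5, h6⟩ := hyp h (hH₁ hh)
      refine ⟨(((h1.mono hexp).nfn hN.wt_le).mono_deg (Nat.le_add_left _ _)), h2,
        fun p k hk => ?_, F91.Wt.mul ?_ h5, ?_⟩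
      · change MvPolynomial.aeval _ (P h k) = MvPolynomial.aeval _ (P₀ k)
        rw [h4 k hk, MvPolynomial.aeval_rename]
        rfl
      · have h7 : ∀ p, ‖((pc T h).wgt p : ℂ)‖ = (pc T h).wgt p := fun p => by
          rw [Complex.norm_real]; exact Real.norm_of_nonneg (Real.exp_pos _).le
        simp only [F91.Wt, h7]
        exact ⟨Tw.DblA.summable_wgt _, hmu h ▸ hM h hh⟩
      · simp only [mul_assoc]
        refine le_trans ?_ h6
        rw [← mul_assoc, hmu h]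
        exact mul_le_mul_of_nonneg_right (he m) hmu0.le
  have e3 : Real.exp (-m ^ (C₀ + C + 1)) * 2 ≤ Real.exp (-(m + 1) ^ C₁) :=
    le_trans (mul_le_mul_of_nonneg_right (Real.exp_le_exp.2 (by linarith)) zero_le_two) (he _)
  refine ⟨b, fun _ => 1, H', hb, F91.chp_one T (by positivity), hH'.trans hH₁, ?_,
    fun x hx => ?_⟩
  · calc _ ≤ Real.exp (-m ^ (C₀ + C + 1)) * (2 * #H₁) :=
          mul_le_mul_of_nonneg_left hc₁ (Real.exp_pos _).le
      _ ≤ Real.exp (-(m + 1) ^ C₁) * #H₁ := by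
          rw [← mul_assoc]; exact mul_le_mul_of_nonneg_right e3 (Nat.cast_nonneg _)
      _ ≤ _ := hc
  · obtain ⟨h3, h4⟩ := h x hx
    refine ⟨sqW N (F' x) (P x), F91.isNilW_of_nfn (by linarith)
      (hN.mono (Real.exp_le_exp.2 (by linarith))) (h3.mono (Real.exp_le_exp.2 (by linarith)))
      (hyp x (hH₁ (hH' hx))).2.2.1, ?_⟩
    unfold Cor sqW
    simp only [mul_one, ← mul_assoc]
    refine le_trans ?_ h4
    rw [hmu]
    exact mul_le_mul (Real.exp_le_exp.2 (by linarith)) (by linarith) hmu0.le (Real.exp_pos _).le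

end Crest.Agent.T49.Ri
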