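import Crest.Agent.T49.RiHerA_85
import Crest.Agent.T49.Qp_85

/-!
# Row 49 (helper85): `HER` and `GENND` (the multi-point cells are regular for most differences)
-/

set_option autoImplicit false
set_option linter.unusedSectionVars false

noncomputable section

namespace Crest.Agent.T49.Ri

open Finset MvPolynomial
open Crest.Agent.T49.Tw
open Crest.Agent.T49.Br (Cs Mor)

namespace Hr85

variable {ι : Type} [Fintype ι] (k : ℕ) (T : Cell ι)

theorem ywt_pos (c : YI ι k) (h : ¬ yq k T c) : 0 < ywt k T c := by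
  rcases c with c | ⟨j, c⟩
  · exact T.lev_pos c
  · have h1 : ¬ T.lev c = 1 := h
    have := T.lev_pos c
    show 0 < T.lev c - 1
    omega

theorem ywt_zero (c : YI ι k) (h : yq k T c) : ywt k T c = 0 := by
  rcases c with c | ⟨j, c⟩
  · exact h.elim
  · have h1 : T.lev c = 1 := h
    show T.lev c - 1 = 0
    omega

/-- the fibre of the tangent cell over a point of the level-one differences -/
abbrev fib (p : {c // yq k T c} → ℤ) : Cell {c // ¬ yq k T c} :=
  (tg k T).fibW (yq k T) p (ywt k T) (ywt_pos k T) (ywt_zero k T)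
    fun c _ => DegLe.of_hom (tg_hom k T c)

/-- the level-one differences as base coordinates -/
def eQ : Fin k × T.L1 ≃ {c // yq k T c} where
  toFun p := ⟨Sum.inr (p.1, p.2.1), p.2.2⟩
  invFun c := match c with
    | ⟨Sum.inl _, h⟩ => h.elim
    | ⟨Sum.inr p, h⟩ => (p.1, ⟨p.2, h⟩)
  left_inv _ := rfl
  right_inv c := by
    rcases c with ⟨c | p, h⟩
    · exact h.elim
    · rfl

/-- the coordinates of the multi-point cell as fibre coordinates -/
def eN : T.MI (Fin k) → {c // ¬ yq k T c} :=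
  Sum.elim (fun c => ⟨Sum.inl c, fun h => h⟩) fun p => ⟨Sum.inr (p.1, p.2.1), p.2.2⟩

theorem eN_inj : Function.Injective (eN k T) := by
  rintro (a | ⟨i, a⟩) (b | ⟨j, b⟩) h
  · simpa [eN] using h
  · simp [eN] at h
  · simp [eN] at h
  · simpa [eN, Subtype.ext_iff] using h

variable {k T}

/-- the base point of a tuple of differences -/
def pOf (h : Fin k → T.L1 → ℤ) (c : {c // yq k T c}) : ℤ :=
  h ((eQ k T).symm c).1 ((eQ k T).symm c).2

theorem pOf_inj : Function.Injective (pOf (k := k) (T := T)) := fun _ _ e =>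
  funext fun j => funext fun c => congrFun e (eQ k T (j, c))

open Classical in
/-- the substitution that defines the fibre -/
def sb (p : {c // yq k T c} → ℤ) (c : YI ι k) : Pl {c // ¬ yq k T c} :=
  if h : yq k T c then C (p ⟨c, h⟩ : ℝ) else X ⟨c, h⟩

theorem fib_th (p : {c // yq k T c} → ℤ) (c : {c // ¬ yq k T c}) :
    (fib k T p).th c = bind₁ (sb p) ((tg k T).th c.1) := by
  show C ((tg k T).a c.1) * X c + bind₁ (sb p) ((tg k T).B c.1) = _
  rw [Tri.th, map_add, map_mul, bind₁_C_right, bind₁_X_right, sb, dif_neg c.2]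

theorem fib_tth (p : {c // yq k T c} → ℤ) (c : {c // ¬ yq k T c}) :
    (fib k T p).tth c = (fib k T p).th c := by
  refine (fib k T p).top_of_hom ?_
  rw [fib_th]
  refine hom_bind' (w := ywt k T) (fun c' => ?_) (Cell.th_hom (tg_hom k T c.1))
  rw [sb]
  split_ifs with h
  · rw [ywt_zero k T c' h]; exact isWeightedHomogeneous_C _ _
  · exact isWeightedHomogeneous_X ℝ _ (⟨c', h⟩ : {c // ¬ yq k T c})

theorem fib_mp (hM : MpAt T k) (h : Fin k → T.L1 → ℤ) (c : T.MI (Fin k)) :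
    rename (eN k T) ((T.mp h).tth c) = (fib k T (pOf h)).tth (eN k T c) := by
  have e0 : ∀ g : Pl ι, rename (eN k T) (rename Sum.inl g) =
      bind₁ (sb (pOf h)) (rename Sum.inl g) := fun g => by
    rw [rename_rename, bind₁_rename, rename_eq_bind]
    congr 2
    funext c
    show _ = sb (pOf h) (Sum.inl c)
    rw [sb, dif_neg (show ¬ yq k T (Sum.inl c) from fun h => h)]
    rfl
  have e1 : ∀ i c', rename (eN k T) (T.wv h i c') = sb (pOf h) (Sum.inr (i, c')) := fun i c' => by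
    rw [Cell.wv, sb]
    by_cases hc : T.lev c' = 1
    · rw [dif_pos hc, dif_pos (show yq k T (Sum.inr (i, c')) from hc), rename_C]; rfl
    · rw [dif_neg hc, dif_neg (show ¬ yq k T (Sum.inr (i, c')) from hc), rename_X]; rfl
  rw [fib_tth, fib_th]
  rcases c with c | ⟨j, c⟩
  · rw [hM.tth_inl]
    show rename _ (_ * rename Sum.inl (T.tth c)) = bind₁ _ ((tg k T).th (Sum.inl c))
    rw [tg_th_inl, map_mul, map_mul, e0, rename_C, bind₁_C_right]
  · rw [hM.tth_inr]
    show _ = bind₁ _ ((tg k T).th (Sum.inr (j, c.1)))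
    rw [tg_th_inr, map_sum, map_sum]
    refine sum_congr rfl fun i _ => ?_
    rw [map_mul, map_mul, rename_C, bind₁_C_right, dw, map_sum]
    show _ * rename _ (∑ c', rename Sum.inl (pderiv c' (T.tth c.1)) * T.wv h i c') = _
    rw [map_sum]
    simp only [map_mul, e0, e1, bind₁_X_right]

/-- regularity passes from the fibre to the multi-point cell -/
theorem regM_mp [Fintype {c // ¬ yq k T c}] (hM : MpAt T k) {cl : ι → ℕ} (hm : T.IsMC cl)
    (h : Fin k → T.L1 → ℤ) {D l : ℕ} {τ : ℕ → ℝ} (h0 : ∀ j, 0 ≤ τ j)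
    (hR : (fib k T (pOf h)).RegM (fun c => (cl ∘ ypr ι k) c.1) D l τ) :
    (T.mp h).RegM (cl ∘ T.mpr (Fin k)) D l τ := by
  classical
  have hl : ∀ c, (T.mp h).lev c = (fib k T (pOf h)).lev (eN k T c) := by
    rintro (c | ⟨j, c⟩) <;> rfl
  have hcl : cl ∘ T.mpr (Fin k) = (fun c => (cl ∘ ypr ι k) c.1) ∘ eN k T := by
    funext c; rcases c with c | ⟨j, c⟩ <;> rfl
  have hd : (fib k T (pOf h)).DCov (T.mp h) (eN k T) 1 := by
    refine Cell.dcov_of_diag (α := Unit) hl (fun _ _ => 1) (fun _ _ => 1) (by simp)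
      (fun _ c => ?_) fun ξ hξ => ?_
    · simp only [Int.cast_one, C_1, one_mul]
      rw [← rename_eq_bind, fib_mp hM]
    · funext c
      have := hξ () (eN k T c)
      rw [sum_eq_single c (fun c' _ hc => by
        rw [if_neg fun e => hc (eN_inj k T e).symm, mul_zero]) (by simp)] at this
      simpa using this
  have hmc := hM.mc h cl hm
  rw [hcl] at hmc ⊢
  intro j h1 h2
  have hk := Cell.kapM_le (fib k T (pOf h)) (T.mp h) (eN k T) (N := 1) (K := 1) le_rfl le_rfl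
    (Cell.nat_card_fib_inj (eN_inj k T)) (by rintro (c | ⟨j, c⟩) <;> rw [one_mul] <;> rfl)
    (fun c => (cl ∘ ypr ι k) c.1) j
  rw [Real.log_one, add_zero, Nat.cast_one, one_mul, one_mul] at hk
  have hk1 := Cell.one_le_kapM (T.mp h) ((fun c => (cl ∘ ypr ι k) c.1) ∘ eN k T) j
  have := (hd.covM _).regAtM hmc le_rfl (l := univ.sup (T.mp h).lev)
    (fun c => le_sup (f := (T.mp h).lev) (mem_univ c)) (x := 0) (by simp) (hR j h1 h2).2
  rw [neg_zero, Real.exp_zero, mul_one, mul_one] at this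
  exact ⟨le_trans (pow_le_pow_left₀ (by linarith [h0 (j + 1)]) (by linarith) _) (hR j h1 h2).1,
    Cell.regAtM_anti this (mul_le_mul_of_nonneg_left hk (Real.exp_pos _).le) le_rfl⟩

theorem ev_base (h : Fin k → T.L1 → ℤ) (j : Fin k) (c : T.L1) :
    ev (pOf h) (((tg k T).toTri.frz (yq k T)).th (eQ k T (j, c))) =
      ∑ i : Fin k, helm k j.succ i.succ * T.ell (h i) c := by
  let Z : YI ι k → ℤ := Sum.elim (fun _ => 0) fun p => T.ext1 (h p.1) p.2
  have e0 : ∀ g, ev (pOf h) (dn (yq k T) g) = ev Z g := fun g => by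
    refine ev_bind_of_eq (fun c' => ?_) g
    split_ifs with hc
    · rcases c' with c' | ⟨i, c'⟩
      · exact hc.elim
      · rw [ev_X]
        have hc' : T.lev c' = 1 := hc
        simp only [Z, Sum.elim_inr, Cell.ext1, dif_pos hc']
        rfl
    · rcases c' with c' | ⟨i, c'⟩
      · simp [Z]
      · rw [ev_zero]
        have hc' : ¬ T.lev c' = 1 := hc
        simp only [Z, Sum.elim_inr, Cell.ext1, dif_neg hc', Int.cast_zero]
  refine ((congrArg _ ((tg k T).frz_th (yq k T) _)).trans (e0 _)).trans ?_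
  show ev Z ((tg k T).th (Sum.inr (j, c.1))) = _
  rw [tg_th_inr, ev_sum]
  refine sum_congr rfl fun i _ => ?_
  rw [ev_mul, ev_C, dw, ev_sum, Cell.ell]
  congr 1
  have hh : IsWeightedHomogeneous T.lev (T.tth c.1) 1 := by
    have := T.tth_hom c.1
    rwa [c.2] at this
  conv_rhs => rw [← one_smul ℕ (T.tth c.1), ← hh.sum_weight_X_mul_pderiv, ev_sum]
  refine sum_congr rfl fun c' _ => ?_
  obtain ⟨r, h1, h2⟩ := pderiv_one T.lev_pos hh c'
  rw [h1]
  by_cases hc : T.lev c' = 1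
  · simp [hc, Z, mul_comm]
  · simp [h2 hc]

theorem wgt_base [Fintype {c // yq k T c}] (hM : MpAt T k) {m : ℝ}
    {h : Fin k → T.L1 → ℤ} (hb : ∀ j, InB T m (h j)) :
    Real.exp (-(4 * (k * Fintype.card ι) * (k * m) ^ 2)) ≤
      ((tg k T).toTri.frz (yq k T)).wgt (pOf h) := by
  rw [Tri.wgt, Real.exp_le_exp, ← (eQ k T).sum_comp]
  have h1 : ∀ p : Fin k × T.L1,
      ev (pOf h) (((tg k T).toTri.frz (yq k T)).th (eQ k T p)) ^ 2 ≤ (k * m) ^ 2 := by
    rintro ⟨j, c⟩
    rw [ev_base]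
    refine sq_le_sq' (neg_le_of_abs_le ?_) (le_of_abs_le ?_) <;>
    · refine (abs_sum_le_sum_abs _ _).trans ((sum_le_card_nsmul _ _ m fun i _ => ?_).trans (by simp))
      rw [abs_mul]
      exact (mul_le_mul (abs_helm_le k T hM _ _) (hb i c) (abs_nonneg _) zero_le_one).trans
        (one_mul m).le
  have h2 := sum_le_card_nsmul _ _ _ fun p (_ : p ∈ (univ : Finset (Fin k × T.L1))) => h1 p
  rw [card_univ, Fintype.card_prod, Fintype.card_fin, nsmul_eq_mul] at h2
  have h3 : ((k * Fintype.card T.L1 : ℕ) : ℝ) ≤ k * Fintype.card ι := by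
    exact_mod_cast Nat.mul_le_mul_left k (Fintype.card_subtype_le _)
  have h4 := h2.trans (mul_le_mul_of_nonneg_right h3 (sq_nonneg _))
  have h5 : 0 ≤ (k : ℝ) * Fintype.card ι * (k * m) ^ 2 := by positivity
  nlinarith [Real.pi_lt_four, Real.pi_pos]

theorem mu1_pos (T : Cell ι) : 0 < T.mu1 :=
  prod_pos fun _ _ => inv_pos.2 (abs_pos.2 (T.a_ne _))

theorem mu_base [Fintype {c // yq k T c}] :
    ((tg k T).toTri.frz (yq k T)).mu ≤ Real.exp (k * Fintype.card ι) * T.mu1 ^ k := by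
  rw [Tri.mu, ← (eQ k T).prod_comp]
  calc _ ≤ ∏ p : Fin k × T.L1, Real.exp 1 * |T.a p.2.1|⁻¹ := by
        refine prod_le_prod (fun _ _ => by positivity) fun p _ => ?_
        show |helm k p.1.succ p.1.succ * T.a p.2.1|⁻¹ ≤ _
        have h1 := helm_diag p.1
        rw [abs_mul, mul_inv, abs_of_pos (by linarith)]
        refine mul_le_mul_of_nonneg_right ((inv_anti₀ (by norm_num) h1).trans ?_) (by positivity)
        linarith [Real.add_one_le_exp 1]
    _ ≤ _ := by
        rw [prod_mul_distrib, prod_const, ← Real.exp_nat_mul, card_univ, Fintype.card_prod,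
          Fintype.card_fin, Fintype.prod_prod_type]
        simp only [prod_const, card_univ, Fintype.card_fin]
        refine mul_le_mul_of_nonneg_right (Real.exp_le_exp.2 ?_) (pow_pos (mu1_pos T) k).le
        rw [mul_one]
        exact_mod_cast Nat.mul_le_mul_left k (Fintype.card_subtype_le _)

/-- a surjective endomorphism of a Noetherian ring is injective -/
theorem inj_of_surj {R : Type} [CommRing R] [IsNoetherianRing R] (f : R →+* R)
    (hf : Function.Surjective f) : Function.Injective f := by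
  obtain ⟨n, hn⟩ := monotone_stabilizes_iff_noetherian.2 (inferInstanceAs (IsNoetherian R R))
    ⟨fun n => RingHom.ker (f ^ n), monotone_nat_of_le_succ fun n x hx => by
      rw [RingHom.mem_ker] at hx ⊢
      rw [pow_succ', RingHom.mul_def, RingHom.comp_apply, hx, map_zero]⟩
  rw [injective_iff_map_eq_zero]
  intro x hx
  obtain ⟨y, rfl⟩ := hf.iterate n x
  have h1 : y ∈ RingHom.ker (f ^ (n + 1)) := by
    rw [RingHom.mem_ker, RingHom.coe_pow, Function.iterate_succ_apply']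
    exact hx
  have h2 : RingHom.ker (f ^ n) = RingHom.ker (f ^ (n + 1)) := hn (n + 1) (Nat.le_succ n)
  rw [← h2, RingHom.mem_ker, RingHom.coe_pow] at h1
  exact h1

/-- `ND` passes along a change of normalisation -/
theorem nd_of_mor {σ : Type} [Finite σ] {c c' : Cs σ} {K Q : ℝ} {S : ℕ} (hK : 1 ≤ K) (hQ : 0 ≤ Q)
    (h : Mor c c' K X) (h' : Mor c' c K X)
    (hi : Function.Injective (aeval c'.th : Pl σ →ₐ[ℝ] Pl σ)) (hN : c'.ND S (Q * K ^ S)) :
    c.ND S Q := by
  choose E E1 E2 E3 using h.th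
  choose F _ _ F3 using h'.th
  simp only [aeval_X_left_apply] at E3 F3
  have e1 : ∀ e, aeval c.th e = aeval c'.th (aeval E e) := fun e => by
    rw [funext E3, ← comp_aeval]; rfl
  have e2 : ∀ e, aeval c'.th e = aeval c.th (aeval F e) := fun e => by
    rw [funext F3, ← comp_aeval]; rfl
  have hs : Function.Injective (aeval E : Pl σ →ₐ[ℝ] Pl σ) :=
    inj_of_surj (aeval E : Pl σ →ₐ[ℝ] Pl σ).toRingHom fun e =>
      ⟨aeval F e, hi ((e1 _).symm.trans (e2 e).symm)⟩
  intro d h1 h2 e he hn hI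
  refine hs ((hN d h1 h2 (aeval E e) (hom_bind' E1 he) ?_ (e1 e ▸ hI)).trans (map_zero _).symm)
  exact (nrm_bind_le_of_pos c.pos E2 hK (DegLe.of_hom he)).trans
    (mul_le_mul hn (pow_le_pow_right₀ hK h2) (by positivity) hQ)

end Hr85

open Hr85

/-- **HER** -/
theorem herStmt (hH : HeredStmt) (hMp : MpStmt) : HerStmt := by
  intro l k D'
  obtain ⟨Dh, hH⟩ := hH l l D'
  obtain ⟨a, ha⟩ : ∃ C : ℕ, ∀ m : ℝ, 2 ≤ m → m + k * m + 2 + 4 * (k * m) * (k * m) ^ 2 ≤ m ^ C := by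
    qp
  obtain ⟨b, hb⟩ : ∃ C : ℕ, ∀ m : ℝ, 2 ≤ m →
      (m ^ a) ^ (Dh + 1) + 2 * (((k + l + 2) ^ 2 : ℕ) : ℝ) ≤ m ^ C := by qp
  refine ⟨2 * (D' * Dh + D' + Dh + 1) + 2, b + 1, by omega, fun ι _ T m hT Q hQ => ?_⟩
  classical
  have hm := hT.two
  have hn := hT.card
  obtain ⟨hl, cl, τ, hmc, hcl, hq, hR⟩ := hT.gm
  have hM := hMp ι T k
  have ha := ha m hm
  have hb := (hb m hm).trans ((Qp.pw_mono hm (Nat.le_succ b)).trans hq)
  have hk : (0 : ℝ) ≤ k * m := by positivity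
  have hk3 : 0 ≤ 4 * (k * m) * (k * m) ^ 2 := by positivity
  generalize m ^ a = M at ha hb
  have hM2 : 2 ≤ M := by linarith
  have hMM : M ≤ M ^ (Dh + 1) := le_self_pow₀ (by linarith) (by omega)
  have hY := MA.derM_regM hR ((tg_pc k T hM hl).derM hmc) le_rfl (hM2.trans hMM) hb
  generalize hσ : (fun j => if j ≤ l then τ j / 2 else M ^ (Dh + 1)) = σ at hY
  have hσl : σ (l + 1) = M ^ (Dh + 1) := by rw [← hσ]; exact if_neg (by omega)
  have hσ0 : ∀ j, 1 ≤ j → j ≤ l + 1 → 0 ≤ σ j := fun j h1 h2 =>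
    le_trans (by rw [hσl]; positivity) (MA.regM_le hY (by omega) (by rw [hσl]; positivity) j h1 h2)
  set κ := (tg k T).kapM (cl ∘ ypr ι k) with hκ
  have hκ1 : ∀ j, 1 ≤ κ j := Cell.one_le_kapM _ _
  let τ' : ℕ → ℝ := fun j => if j ≤ l then (σ (j + 1) + κ j) ^ D' else M
  have hτl : τ' (l + 1) = M := if_neg (by omega)
  have hu : ∀ j, j ≤ l → 1 ≤ σ (j + 1) + κ j := fun j h => by
    linarith [hσ0 (j + 1) (by omega) (by omega), hκ1 j]
  have hτ0 : ∀ j, 0 ≤ τ' j := fun j => by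
    simp only [τ']
    split_ifs with h
    · exact pow_nonneg (by linarith [hu j h]) _
    · linarith
  have hτ1 : ∀ j, 1 ≤ j → j ≤ l + 1 → τ' j ^ Dh ≤ σ j ∧ τ' j ≤ σ j := fun j h1 h2 => by
    by_cases h : j ≤ l
    · simp only [τ', if_pos h]
      rw [← pow_mul]
      exact ⟨(pow_le_pow_right₀ (hu j h) (by omega)).trans (hY j h1 h).1,
        (pow_le_pow_right₀ (hu j h) (by omega)).trans (hY j h1 h).1⟩
    · obtain rfl : j = l + 1 := by omega
      rw [hτl, hσl]
      exact ⟨pow_le_pow_right₀ (by linarith) (by omega), hMM⟩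
  have hcard : (Fintype.card (YI ι k) : ℝ) + 2 ≤ τ' (l + 1) := by
    rw [hτl, Fintype.card_sum, Fintype.card_prod, Fintype.card_fin]
    push_cast
    have := mul_le_mul_of_nonneg_left hn (Nat.cast_nonneg k)
    linarith
  have key := hH (YI ι k) (tg k T) (cl ∘ ypr ι k) σ τ' (yq k T) (ywt k T) (ywt_pos k T)
    (ywt_zero k T) (fun c _ => DegLe.of_hom (tg_hom k T c)) (tg_isMC k T hmc) (fun c => hcl _)
    (fun c => hl _) (by
      rintro (c | ⟨j, c⟩)
      · exact hl c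
      · exact (Nat.sub_le _ _).trans (hl c)) (tg_clo k T) (fun c _ => tg_hom k T c)
    (MA.regM_mono hY (by omega) (by omega) (hσ0 _ (by omega) le_rfl)) hcard
    (fun j h1 h2 => (hτ1 j h1 h2).1) (fun j h1 h2 => by
      simp only [τ', if_pos h2]
      exact pow_le_pow_left₀ (by linarith [hτ0 (j + 1), hκ1 j])
        (by linarith [(hτ1 (j + 1) (by omega) (by omega)).2]) _)
  rw [hτl] at key
  have hw : ∀ p, 0 ≤ ((tg k T).toTri.frz (yq k T)).wgt p := fun p => (Real.exp_pos _).le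
  have h1 := (Summable.sum_le_tsum (Q.map ⟨_, pOf_inj⟩) (fun p _ => by
    split_ifs; exacts [le_rfl, hw p]) (Summable.of_nonneg_of_le (fun p => by
      split_ifs; exacts [le_rfl, hw p]) (fun p => by split_ifs; exacts [hw p, le_rfl])
      (Tri.summable_wgt _))).trans key
  rw [sum_map] at h1
  have h2 := (card_nsmul_le_sum Q _ (Real.exp (-(4 * (k * Fintype.card ι) * (k * m) ^ 2)))
    fun h hh => ?_).trans h1
  · rw [nsmul_eq_mul] at h2
    have h3 := h2.trans (mul_le_mul_of_nonneg_left mu_base (Real.exp_pos _).le)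
    rw [← le_div_iff₀ (Real.exp_pos _), ← mul_assoc, mul_div_right_comm, ← Real.exp_add,
      ← Real.exp_sub] at h3
    refine h3.trans (mul_le_mul_of_nonneg_right (Real.exp_le_exp.2 ?_) (pow_pos (mu1_pos T) k).le)
    have h4 := mul_le_mul_of_nonneg_left hn (Nat.cast_nonneg k)
    nlinarith [sq_nonneg (k * m)]
  · rw [Function.Embedding.coeFn_mk, if_neg]
    · exact wgt_base hM (hQ h hh).1
    · refine fun hr => (hQ h hh).2 ⟨?_, cl ∘ T.mpr (Fin k), τ', hM.mc h cl hmc, fun c => hcl _,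
        by rw [hτl]; linarith, regM_mp hM hmc h hτ0 hr⟩
      rintro (c | ⟨j, c⟩)
      · exact hl c
      · exact (Nat.sub_le _ _).trans (hl c.1)

theorem InB.mono85 {ι : Type} {T : Cell ι} {m m' : ℝ} {h : T.L1 → ℤ} (hb : InB T m h) (hm : m ≤ m') :
    InB T m' h := fun c => (hb c).trans hm

theorem card_MI_le85 {ι : Type} [Fintype ι] (T : Cell ι) (k : ℕ) :
    (Fintype.card (T.MI (Fin k)) : ℝ) ≤ (k + 1) * Fintype.card ι := by
  rw [Fintype.card_sum, Fintype.card_prod, Fintype.card_fin]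
  have : Fintype.card T.U2 ≤ Fintype.card ι := Fintype.card_subtype_le _
  exact_mod_cast (by nlinarith : Fintype.card ι + k * Fintype.card T.U2 ≤ (k + 1) * Fintype.card ι)

/-- **GENND** -/
theorem genNDStmt (hHer : HerStmt) (hNd : NdStmt) (hMp : MpStmt) : GenNDStmt := by
  intro l k S
  obtain ⟨Dn, Cn, hCn, hNd⟩ := hNd l S
  obtain ⟨D, C, hC, hHer⟩ := hHer l k Dn
  obtain ⟨a, ha⟩ : ∃ C : ℕ, ∀ m : ℝ, 2 ≤ m → (k + 1) * m ≤ m ^ C ∧
      Real.exp m * (2 * ((k : ℝ) + 1)) ^ S ≤ Real.exp (m ^ C) := by qp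
  refine ⟨D, (a + 1) * Cn * C, Nat.mul_pos (Nat.mul_pos (by omega) hCn) hC,
    fun ι _ T m hT Q hQ => ?_⟩
  have hm := hT.two
  obtain ⟨a1, a2⟩ := ha m hm
  replace a1 := a1.trans (Qp.pw_mono hm (Nat.le_succ a))
  replace a2 := a2.trans (Qp.exp_pw_mono hm (Nat.le_succ a))
  rw [pow_mul, pow_mul] at hT
  have b1 : m ≤ m ^ (a + 1) := le_self_pow₀ (by linarith) (by omega)
  generalize m ^ (a + 1) = m1 at a1 a2 b1 hT
  have b2 : m1 ≤ m1 ^ Cn := le_self_pow₀ (by linarith) (by omega)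
  refine (hHer ι T (m1 ^ Cn) ⟨by linarith, by linarith [hT.card], hT.gm⟩ Q fun h hh =>
    ⟨fun j => ((hQ h hh).1 j).mono85 (by linarith), fun hg => (hQ h hh).2 ?_⟩).trans
    (mul_le_mul_of_nonneg_right (Real.exp_le_exp.2 (by linarith)) (pow_pos (mu1_pos T) k).le)
  have hk : (0 : ℝ) ≤ k := Nat.cast_nonneg k
  have h1 := hNd _ (T.mp h) m1 ⟨by linarith, (card_MI_le85 T k).trans
    ((mul_le_mul_of_nonneg_left hT.card (by linarith)).trans a1), hg⟩
  exact nd_of_mor (by linarith) (Real.exp_pos _).le ((hMp ι T k).mor h).2 ((hMp ι T k).mor h).1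
    (T.mp h).TTh_injective (h1.mono a2)

/-- a dense family of differences in the ball contains a proportion `1/2` of regular ones -/
theorem her_sub (hHer : HerStmt) (l k D' : ℕ) : ∃ D C : ℕ, 1 ≤ C ∧ ∀ (ι : Type) [Fintype ι]
    (T : Cell ι) (m : ℝ), Ok T l D m (m ^ C) → ∀ Q : Finset (Fin k → T.L1 → ℤ),
    (∀ h ∈ Q, ∀ j, InB T m (h j)) → Real.exp (-m) * T.mu1 ^ k ≤ #Q →
    ∃ Q' ⊆ Q, #Q ≤ 2 * #Q' ∧ ∀ h ∈ Q', Gm (T.mp h) l D' m := by
  obtain ⟨D, C, hC, hHer⟩ := hHer l k D'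
  refine ⟨D, 2 * C, by omega, fun ι _ T m hT Q hQ hd => ?_⟩
  classical
  have hm := hT.two
  rw [pow_mul] at hT
  have b1 : m + 1 ≤ m ^ 2 := by nlinarith
  have h1 := hHer ι T (m ^ 2) ⟨by linarith, by linarith [hT.card], hT.gm⟩
    {h ∈ Q | ¬ Gm (T.mp h) l D' (m ^ 2)} fun h hh =>
      ⟨fun j => (hQ h (mem_filter.1 hh).1 j).mono85 (by linarith), (mem_filter.1 hh).2⟩
  refine ⟨{h ∈ Q | Gm (T.mp h) l D' (m ^ 2)}, filter_subset _ _, ?_, fun h hh =>
    (mem_filter.1 hh).2.mono le_rfl (by linarith) (by positivity)⟩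
  have h2 := card_filter_add_card_filter_not (s := Q) fun h => Gm (T.mp h) l D' (m ^ 2)
  have h3 : Real.exp (-m ^ 2) * 2 ≤ Real.exp (-m) := by
    have : Real.exp (-m ^ 2) * Real.exp 1 ≤ Real.exp (-m) := by
      rw [← Real.exp_add]; exact Real.exp_le_exp.2 (by linarith)
    nlinarith [Real.add_one_le_exp 1, Real.exp_pos (-m ^ 2)]
  have h4 := mul_le_mul_of_nonneg_right h3 (pow_pos (mu1_pos T) k).le
  have h5 : (#{h ∈ Q | ¬ Gm (T.mp h) l D' (m ^ 2)} : ℝ) * 2 ≤ #Q := by linarith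
  have h6 : #{h ∈ Q | ¬ Gm (T.mp h) l D' (m ^ 2)} * 2 ≤ #Q := by exact_mod_cast h5
  omega

end Crest.Agent.T49.Ri
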