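import Crest.Agent.T49.GiModel_40
import Crest.Agent.T49.RiDef_12

/-!
# Row 49 (helper40): the bigraded model relative to a cell
-/

set_option autoImplicit false

noncomputable section

namespace Crest.Agent.T49.Ri.M40

open Finset MvPolynomial Crest.Agent.T49.Tw Crest.Agent.T49.Nil Crest.Agent.T49.Nil.ND
open Crest.Agent.T49.GI Crest.Agent.T49.GI.M40
open Crest.Agent.T49.Bch (star expAd Ad)
open scoped Classical

variable {ι σ τ : Type} [Fintype ι]

theorem ev_ext {N : ND ι} {P Q : N.PS σ} (h : ∀ x, N.ev x P = N.ev x Q) : P = Q :=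
  pts_ext fun k => MvPolynomial.funext fun x => by
    have := congrFun (h x) k
    simpa [ND.ev, aeval_eq_eval] using this

theorem ev_apply {N : ND ι} (x : σ → ℝ) (P : N.PS σ) (k : ι) : N.ev x P k = aeval x (P k) := rfl

theorem ev_bc {ι' : Type} [Fintype ι'] {N : ND ι} {N' : ND ι'} (f : N.L →ₗ⁅ℝ⁆ N'.L) (x : σ → ℝ)
    (P : N.PS σ) : N'.ev x (bc f _ P) = f (N.ev x P) := by
  rw [bc_eq, ND.ev, map_bcl, bcl_real]
  rfl

/-- homogeneous maps for an arbitrary grading of the datum -/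
def hs (N : ND ι) (ω : ι → ℕ) (hω : ∀ i j k, N.c i j k ≠ 0 → ω i + ω j = ω k) (lev : σ → ℕ) :
    LieSubalgebra ℝ (N.PS σ) where
  carrier := {x | ∀ k, IsWeightedHomogeneous lev (x k) (ω k)}
  add_mem' hx hy k := (hx k).add (hy k)
  zero_mem' _ := isWeightedHomogeneous_zero _ _ _
  smul_mem' r _ hx k := (weightedHomogeneousSubmodule ℝ lev (ω k)).smul_mem r (hx k)
  lie_mem' {x y} hx hy k := by
    rw [lie_apply]
    refine IsWeightedHomogeneous.sum _ _ _ fun i _ => IsWeightedHomogeneous.sum _ _ _ fun j _ => ?_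
    by_cases h : N.c i j k = 0
    · simpa [h] using isWeightedHomogeneous_zero ℝ lev (ω k)
    · rw [← hω i j k h, mul_assoc, ← map_intCast (C : ℝ →+* Pl σ)]
      exact hom_C_mul ((hx i).mul (hy j)) _

theorem hom_inl {v : σ → ℕ} {v' : τ → ℕ} {f : Pl σ} {d : ℕ} (hf : IsWeightedHomogeneous v f d) :
    IsWeightedHomogeneous (Sum.elim v v') (rename Sum.inl f : Pl (σ ⊕ τ)) d := by
  rw [rename_eq_bind]
  exact hom_bind' (fun c => isWeightedHomogeneous_X ℝ (Sum.elim v v') (Sum.inl c)) hf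

theorem hom_zero (f : Pl σ) : IsWeightedHomogeneous (fun _ => 0) f 0 := fun α _ => by
  simp [Finsupp.weight_apply]

theorem hom_mul_inl {v : σ → ℕ} {v' : τ → ℕ} {f : Pl σ} {g : Pl (σ ⊕ τ)} {a d : ℕ}
    (hg : IsWeightedHomogeneous (Sum.elim v v') g a)
    (hf : ∀ α, coeff α f ≠ 0 → Finsupp.weight v α + a = d) :
    IsWeightedHomogeneous (Sum.elim v v') (g * rename Sum.inl f) d := by
  by_cases h : f = 0
  · rw [h, map_zero, mul_zero]
    exact isWeightedHomogeneous_zero _ _ _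
  · obtain ⟨α, hα⟩ := ne_zero_iff.1 h
    have h1 := hf _ hα
    have h2 : IsWeightedHomogeneous v f (Finsupp.weight v α) :=
      fun α' hα' => by have := hf _ hα'; omega
    have h3 := hg.mul (hom_inl (v' := v') h2)
    rw [add_comm] at h3
    exact h1 ▸ h3

variable {q : ND ι} {ν : ι → Prop} {hν : CoId q ν} {r c : ℕ} {hg : Graded q}

theorem SL_star (t : ℕ) (hw : ∀ k, (mA hg hν r c).wt k ≤ t + 2) (h : ℝ) (s : Fin r → ℝ)
    (x y : (mB hg hν r c).L) : SL hg hν r c h s (star (t + 2) x y) =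
      star (t + 2) (SL hg hν r c h s x) (SL hg hν r c h s y) :=
  map_star_on (t + 2) ⊤ (fun _ _ _ _ => trivial) (SL hg hν r c h s)
    (fun x _ y _ => SL_lie t hw _ _ x y) trivial trivial

theorem real_key (t : ℕ) (hw : ∀ k, (mA hg hν r c).wt k ≤ t + 2) (s : Fin r → ℝ)
    (x : (mB hg hν r c).L) :
    star (t + 2) (inc hg hν r c x) (tv hg hν r c s) =
      star (t + 2) (tv hg hν r c fun j => Int.fract (s j))
        (star (t + 2) (inc hg hν r c (SL hg hν r c 1 (fun j => -Int.fract (s j)) x))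
          (tv hg hν r c fun j => (⌊s j⌋ : ℝ))) := by
  have := ND.nil hw ℝ
  have e2 : tv hg hν r c s = star (t + 2) (tv hg hν r c fun j => Int.fract (s j))
      (tv hg hν r c fun j => (⌊s j⌋ : ℝ)) := by
    rw [Bch.star_of_lie_eq_zero _ (tv_lie_tv _ _), ← tv_add]
    congr 1
    ext j
    rw [Int.fract_add_floor]
  have e3 := inc_dil_SL t 1 1 (fun j => -Int.fract (s j)) x
  have e4 : dil2 _ hdA 1 1 (incL hg hν r c x) = incL hg hν r c x := by
    ext p; simp [dil2_apply]
  rw [dil_one, e4, tv_neg] at e3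
  rw [e2, inc_apply, inc_apply, e3, ← Bch.star_assoc,
    Bch.star_eq_star_Ad (t + 2) (incL hg hν r c x), Bch.star_assoc]
  rfl

/-- a polynomial point with `τ`- and `σ`-parts -/
def mW (hg : Graded q) (hν : CoId q ν) (r c : ℕ) {A : Type} [CommRing A] (a : q.pts A)
    (b : Fin r → q.pts A) : (mB hg hν r c).pts A := fun p => match p with
  | (none, _) => 0
  | (some none, k) => a k
  | (some (some j), k) => b j k

/-- a polynomial point of the base -/
def mY (hg : Graded q) (hν : CoId q ν) (r c : ℕ) {A : Type} [CommRing A] (y : q.pts A) :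
    (mB hg hν r c).pts A := fun p => match p with
  | (none, k) => y k
  | (some _, _) => 0

/-- extension of coordinates -/
def mX (hg : Graded q) (hν : CoId q ν) (r c : ℕ) {A : Type} (s : Fin r → A)
    (x : (mB hg hν r c).pts A) : (mA hg hν r c).pts A := Sum.elim s x

theorem ev_mW (x : σ → ℝ) (a : q.PS σ) (b : Fin r → q.PS σ) :
    (mB hg hν r c).ev x (mW hg hν r c a b) = mW hg hν r c (q.ev x a) fun j => q.ev x (b j) := by
  ext ⟨_ | _ | j, k⟩
  exacts [map_zero (aeval x : Pl σ →ₐ[ℝ] ℝ), rfl, rfl]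

theorem ev_mY (x : σ → ℝ) (y : q.PS σ) :
    (mB hg hν r c).ev x (mY hg hν r c y) = mY hg hν r c (q.ev x y) := by
  ext ⟨_ | _, k⟩
  exacts [rfl, map_zero (aeval x : Pl σ →ₐ[ℝ] ℝ)]

theorem ev_mX0 (x : σ → ℝ) (y : (mB hg hν r c).PS σ) :
    (mA hg hν r c).ev x (mX hg hν r c 0 y) = inc hg hν r c ((mB hg hν r c).ev x y) := by
  ext (j | p)
  exacts [map_zero (aeval x : Pl σ →ₐ[ℝ] ℝ), rfl]

theorem ev_mX1 (x : σ → ℝ) (s : Fin r → Pl σ) :
    (mA hg hν r c).ev x (mX hg hν r c s 0) = tv hg hν r c fun j => aeval x (s j) := by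
  ext (j | p)
  exacts [rfl, map_zero (aeval x : Pl σ →ₐ[ℝ] ℝ)]

theorem SL_mW (h : ℝ) (s : Fin r → ℝ) (a : q.L) (b : Fin r → q.L) :
    SL hg hν r c h s (mW hg hν r c a b) =
      mW hg hν r c (h • a + ∑ j, ((c : ℝ) * s j) • b j) b := by
  ext ⟨_ | _ | j, k⟩
  · rfl
  · rw [SL_t]
    simp [mW, ND.sum_apply]
  · rfl

theorem SL_mY (h : ℝ) (s : Fin r → ℝ) (y : q.L) :
    SL hg hν r c h s (mY hg hν r c y) = mY hg hν r c y := by
  ext ⟨_ | _ | j, k⟩
  · rfl
  · rw [SL_t]
    simp [mY]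
  · rfl

theorem θ_mW (hab : ∀ i j k, ν i → ν j → q.c i j k = 0) {a : q.L} (ha : On q ν a)
    (b : Fin r → q.L) : θ hab hg hν r c (mW hg hν r c a b) = a := by
  rw [θ_apply, show cp hg hν r c none (mW hg hν r c a b) = 0 from rfl, zero_add]
  exact pv_of_on ha

theorem θ_mY (hab : ∀ i j k, ν i → ν j → q.c i j k = 0) (y : q.L) :
    θ hab hg hν r c (mY hg hν r c y) = y := by
  rw [θ_apply, show cp hg hν r c (some none) (mY hg hν r c y) = 0 from rfl, map_zero, add_zero]
  rfl

theorem at_lin {β κ Λ : Type} [Fintype κ] (a : Λ) (x : q.PS β) (ℓ : κ → q.PS β) (k : ι) :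
    Br.at' q a (q.subst (Br.up β κ Unit) x + Br.linM q ℓ) k =
      rename Sum.inl (x k) + ∑ i, X (Sum.inr (a, i)) * rename Sum.inl (ℓ i k) := by
  have e : ∀ f : Pl β, aeval (Br.ren β κ fun _ : Unit => a) (aeval (Br.up β κ Unit) f) =
      (rename Sum.inl f : Pl (Br.V β κ Λ)) := fun f => by
    rw [← AlgHom.comp_apply]
    congr 1
    ext v
    simp [Br.up, Br.ren]
  simp only [Br.at', ND.subst, ND.map_apply, ND.add_apply, Br.linM, ND.sum_apply, asm_apply, map_add,
    map_sum, map_mul, e, aeval_X]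
  rfl

end Crest.Agent.T49.Ri.M40

namespace Crest.Agent.T49.Ri

open Finset MvPolynomial Crest.Agent.T49.Tw Crest.Agent.T49.Nil Crest.Agent.T49.Nil.ND
open Crest.Agent.T49.GI Crest.Agent.T49.GI.M40 Crest.Agent.T49.Ri.M40
open Crest.Agent.T49.Bch (star expAd Ad)
open Crest.Agent.T49.Br (Hm V at' up ren HmL lamR linM)
open scoped Classical

theorem modelStmt : Ri.ModelStmt := by
  intro t
  obtain ⟨C, hC⟩ : ∃ C : ℕ, ∀ (m : ℝ) (d r : ℕ), 2 ≤ m → (d : ℝ) ≤ m → (r : ℝ) ≤ m →
      (r : ℝ) + (r + 1 + 1) * d ≤ m ^ C ∧ ((Bch.dn (t + 2) : ℕ) : ℝ) ≤ Real.exp (m ^ C) ∧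
        m ≤ m ^ C := by qp
  refine ⟨Bch.dn (t + 2), Bch.dn_pos _, C + 1, by omega, ?_⟩
  intro m hm ι _ T κq _ q ν η r β y a b ℓ hq hdv hν hab hη hr hy ha hb hℓ hℓν
  obtain ⟨h1, h2, h3⟩ := hC m _ r hm hq.dim hr
  have hCC : m ^ C ≤ m ^ (C + 1) := pw_le_pw hm (by omega)
  replace h1 := h1.trans hCC
  replace h2 := h2.trans (Real.exp_le_exp.2 hCC)
  replace h3 := h3.trans hCC
  set M := m ^ (C + 1)
  set c := Bch.dn (t + 2) with hc
  have hc0 : (c : ℝ) ≠ 0 := by exact_mod_cast (Bch.dn_pos _).ne'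
  have hg := hq.gr
  have hM0 : 0 ≤ M := by linarith
  have hme : Real.exp m ≤ Real.exp M := Real.exp_le_exp.2 h3
  have hqc : ∀ i j k, |(q.c i j k : ℝ)| ≤ Real.exp M := fun i j k => (hq.c_le i j k).trans hme
  have hz : |((0 : ℤ) : ℝ)| ≤ Real.exp M := by simpa using (Real.exp_pos M).le
  have hwA : ∀ k, (mA hg hν r c).wt k ≤ t + 2 := fun k => by
    cases k with
    | inl j => exact Nat.le_add_left 1 _
    | inr p =>
      have := hq.wt_le p.2
      have := (hdA (.inr p : IA κq r)).toNat_le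
      rw [wt_A_inr]; omega
  have hwB : ∀ k, (mB hg hν r c).wt k ≤ t + 1 := fun k => hq.wt_le k.2
  have hcB : ∀ i j k, |((mB hg hν r c).c i j k : ℝ)| ≤ Real.exp M :=
    cB_prop (R := fun z => |(z : ℝ)| ≤ Real.exp M) hz hqc
  let βw : Fin r → Pl (ι ⊕ ι) := fun j => ∑ i : T.L1, MvPolynomial.C (β j i) * X (Sum.inr i.1)
  let a' : q.PS (ι ⊕ ι) := fun k => ∑ i : T.L1, X (Sum.inr i.1) * rename Sum.inl (a i k) +
    ∑ i : T.U2, X (Sum.inr i.1) * rename Sum.inl (ℓ i k) + ∑ j, βw j * rename Sum.inl (b j k)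
  let b' : Fin r → q.PS ι := fun j => (c : ℝ)⁻¹ • b j
  let il : ∀ τ : Type, q.PS ι →ₗ⁅ℝ⁆ q.PS (ι ⊕ τ) := fun τ => q.map (rename Sum.inl)
  let τh : (T.L1 → ℤ) → q.PS (PI T) := fun h =>
    at' q (0 : Fin 1) (q.subst (up ι T.U2 Unit) (lamR β a b h) + linM q ℓ)
  have hτ : ∀ h k, τh h k = rename Sum.inl (lamR β a b h k) +
      ∑ i : T.U2, X (Sum.inr (0, i)) * rename Sum.inl (ℓ i k) := fun h k => at_lin _ _ _ _
  have hil : ∀ τ (x : ι ⊕ τ → ℝ) (P : q.PS ι), q.ev x (il τ P) = q.ev (x ∘ Sum.inl) P :=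
    fun τ x P => pts_ext fun k => aeval_rename _ _ _
  have hb' : ∀ j, b' j ∈ Hm T.lev q := fun j => Submodule.smul_mem _ _ (hb j).1
  have hlam : ∀ h, lamR β a b h ∈ Hm T.lev q := fun h =>
    add_mem (sum_mem fun i _ => Submodule.smul_mem _ _ (ha i).1)
      (sum_mem fun j _ => Submodule.smul_mem _ _ (hb j).1)
  let s : (T.L1 → ℤ) → Fin r → ℝ := fun h j => ∑ i, β j i * h i
  refine ⟨IA κq r, inferInstance, mA hg hν r c, hdA, fun p => match p with
      | .inr (some none, k) => if ν k then η k else 0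
      | _ => 0,
    star (t + 2) (star (t + 2) (mX hg hν r c 0 (mW hg hν r c a' fun j => il ι (b' j)))
      (mX hg hν r c 0 (mY hg hν r c (il ι y)))) (mX hg hν r c βw 0),
    IB κq r, inferInstance, mB hg hν r c, fun p => p.1 = some none, inc hg hν r c,
    θ hab hg hν r c,
    fun h => star (t + 2) (mW hg hν r c (τh h) fun j => il _ (b' j)) (mY hg hν r c (il _ y)),
    star (t + 2) (mW hg hν r c 0 b') (mY hg hν r c y), ?_, ?_, bigr_A, ⟨?_, ?_⟩, ?_, ?_,
    ⟨⟨hwB, ?_, hcB⟩, graded_B⟩, ?_, ?_, ?_, ?_, ?_, ?_, ?_, ?_, ?_⟩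
  · simpa using h1
  · exact good_of_dvd hwA
      (cA_prop (R := fun z => |(z : ℝ)| ≤ Real.exp M) hz hqc (by simpa using h2) (by simpa using h2))
      (cA_prop (R := fun z => (c : ℤ) ∣ z) (dvd_zero _) hdv dvd_rfl (dvd_neg.2 dvd_rfl))
  · rintro (j | ⟨_ | _ | j, k⟩) hk <;> try rfl
    have : η k = 0 := hη.supp k fun h => hk (by rw [wt_A_inr]; simp [hdA, h])
    simp [this]
  · rintro (j | ⟨_ | _ | j, k⟩) <;> try exact hz
    dsimp only
    split_ifs
    · exact (hη.le k).trans hme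
    · exact hz
  · rintro (j | ⟨_ | _ | j, k⟩) hk <;> first | rfl | simp [hdA] at hk
  · have key : ∀ (ω : IA κq r → ℕ) (hω : ∀ i j k, (mA hg hν r c).c i j k ≠ 0 → ω i + ω j = ω k)
        (v v' : ι → ℕ), (∀ j, IsWeightedHomogeneous (Sum.elim v v') (βw j) (ω (.inl j))) →
        (∀ k, IsWeightedHomogeneous (Sum.elim v v') (a' k) (ω (.inr (some none, k)))) →
        (∀ j k, IsWeightedHomogeneous v (b' j k) (ω (.inr (some (some j), k)))) →
        (∀ k, IsWeightedHomogeneous v (y k) (ω (.inr (none, k)))) →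
        star (t + 2) (star (t + 2) (mX hg hν r c 0 (mW hg hν r c a' fun j => il ι (b' j)))
          (mX hg hν r c 0 (mY hg hν r c (il ι y)))) (mX hg hν r c βw 0) ∈
          hs (mA hg hν r c) ω hω (Sum.elim v v') := by
      intro ω hω v v' k1 k2 k3 k4
      have z0 := fun d => isWeightedHomogeneous_zero ℝ (Sum.elim v v') d
      refine Bch.star_mem _ _ (Bch.star_mem _ _ ?_ ?_) ?_
      · rintro (j | ⟨_ | _ | j, k⟩)
        exacts [z0 _, z0 _, k2 k, hom_inl (k3 j k)]
      · rintro (j | ⟨_ | _, k⟩)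
        exacts [z0 _, hom_inl (k4 k), z0 _]
      · rintro (j | p)
        exacts [k1 j, z0 _]
    have hβ : ∀ v v' : ι → ℕ, (∀ i : T.L1, v' i.1 = 1) →
        ∀ j, IsWeightedHomogeneous (Sum.elim v v') (βw j) 1 := fun v v' h j =>
      IsWeightedHomogeneous.sum _ _ _ fun i _ => hom_C_mul
        (by simpa [h i] using isWeightedHomogeneous_X ℝ (Sum.elim v v') (Sum.inr i.1)) _
    have hX := fun (v v' : ι → ℕ) (i : ι) => isWeightedHomogeneous_X ℝ (Sum.elim v v') (Sum.inr i)
    intro k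
    refine ⟨key _ bigr_A.1 T.lev T.lev (hβ _ _ fun i => i.2) (fun k => ?_) hb' hy k,
      key (fun k => (hdA k).toNat) bigr_A.2 (fun _ => 0) (fun _ => 1) (hβ _ _ fun _ => rfl)
        (fun k => ?_) (fun _ _ => hom_zero _) (fun _ => hom_zero _) k⟩
    · change IsWeightedHomogeneous _ _ (q.wt k + 1)
      refine ((IsWeightedHomogeneous.sum _ _ _ fun i _ => hom_mul_inl (hX _ _ _) fun α hα => ?_).add
        (IsWeightedHomogeneous.sum _ _ _ fun i _ => hom_mul_inl (hX _ _ _) fun α hα => ?_)).add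
        (IsWeightedHomogeneous.sum _ _ _ fun j _ =>
          hom_mul_inl (hβ _ _ (fun i => i.2) j) fun α hα => ?_)
      · rw [(ha i).1 k hα, Sum.elim_inr, i.2]
      · have e1 : Finsupp.weight T.lev α + (T.lev i.1 - 1) = q.wt k := hℓ i k α hα
        have := T.lev_pos i.1
        rw [Sum.elim_inr]
        omega
      · rw [(hb j).1 k hα]
    · change IsWeightedHomogeneous _ _ 1
      refine ((IsWeightedHomogeneous.sum _ _ _ fun i _ => hom_mul_inl (hX _ _ _) fun α hα => ?_).add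
        (IsWeightedHomogeneous.sum _ _ _ fun i _ => hom_mul_inl (hX _ _ _) fun α hα => ?_)).add
        (IsWeightedHomogeneous.sum _ _ _ fun j _ =>
          hom_mul_inl (hβ _ _ (fun i => rfl) j) fun α hα => ?_) <;>
      rw [hom_zero _ hα] <;> rfl
  · have : (0 : ℝ) ≤ r := Nat.cast_nonneg _
    simp only [Fintype.card_prod, Fintype.card_option, Fintype.card_fin, Nat.cast_mul, Nat.cast_add,
      Nat.cast_one]
    linarith
  · exact good_of_dvd (fun k => (hwB k).trans (Nat.le_succ _)) hcB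
      (cB_prop (R := fun z => (c : ℤ) ∣ z) (dvd_zero _) hdv)
  · intro i j k h hj
    have := (cB_ne hg h).2
    have h5 := (hdA (.inr k : IA κq r)).toNat_le
    by_contra hk
    simp [hdA, hj, hk] at this
  · intro i k
    cases k with
    | inl j => exact ⟨0, by simp, hz⟩
    | inr p =>
      rcases e_01 (g := mB hg hν r c) i p with h | h
      · exact ⟨0, by simpa using h, hz⟩
      · exact ⟨1, by simpa using h.1, by simpa using hM0⟩
  · refine gMap_of_01 hM0 ?_
    rintro ⟨u, i⟩ k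
    change θ hab hg hν r c _ k = 0 ∨ (θ hab hg hν r c _ k = 1 ∧ q.wt k = q.wt i)
    rw [θ_apply, ND.add_apply, pv_apply, cp_apply, cp_apply, e_apply, e_apply]
    by_cases hk : k = i
    · subst hk
      rcases u with _ | _ | j <;> by_cases hv : ν k <;> simp [hv]
    · simp [hk]
  · intro Z hZ hZκ
    constructor
    · rintro (j | p) hp
      · rfl
      · change Z p = 0
        by_cases h : p.1 = some none
        · refine hZ p ?_
          rw [wt_A_inr] at hp
          simp only [hdA, h, decide_true, Bool.toNat_true] at hp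
          change q.wt p.2 < _
          omega
        · exact hZκ p h
    · rw [fn_apply, fn_apply, Fintype.sum_sum_type, Fintype.sum_prod_type, Fintype.sum_option,
        Fintype.sum_option]
      simp only [θ_apply, ND.add_apply, pv_apply, cp_apply, inc_apply, incL_inr, Int.cast_zero,
        zero_mul, sum_const_zero, zero_add, add_zero]
      refine sum_congr rfl fun k _ => ?_
      rw [hZκ (none, k) (by simp)]
      split_ifs <;> simp
  · intro h
    have z0 := fun d => isWeightedHomogeneous_zero ℝ (T.mlev (Fin 1)) d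
    refine Bch.star_mem _ (hs (mB hg hν r c) _ graded_B (T.mlev (Fin 1))) ?_ ?_
    · rintro ⟨_ | _ | j, k⟩
      · exact z0 _
      · change IsWeightedHomogeneous _ (τh h k) (q.wt k)
        rw [hτ]
        exact (hom_inl (hlam h k)).add (IsWeightedHomogeneous.sum _ _ _ fun i _ =>
          hom_mul_inl (isWeightedHomogeneous_X ℝ _ _) (hℓ i k))
      · exact hom_inl (hb' j k)
    · rintro ⟨_ | _, k⟩
      exacts [hom_inl (hy k), z0 _]
  · intro h k hk
    refine MvPolynomial.funext fun x => ?_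
    have e1 : ∀ u : (mB hg hν r c).L, u k = SL hg hν r c 0 0 u k := fun u => by
      rcases k with ⟨_ | _ | j, k⟩
      exacts [rfl, absurd rfl hk, rfl]
    rw [← coe_aeval_eq_eval, RingHom.coe_coe, aeval_rename, ← ev_apply, ← ev_apply,
      e1 (ND.ev _ x _), e1 (ND.ev _ (x ∘ Sum.inl) _), Bch.map_star, Bch.map_star, SL_star t hwA, SL_star t hwA, ev_mW, ev_mW,
      ev_mY, ev_mY, SL_mW, SL_mW]
    simp only [hil, zero_smul]
  · intro h
    refine ev_ext fun x => ?_
    rw [ev_bc, Bch.map_star, Bch.map_star, Bch.map_star, ev_mW, ev_mY, θ_mY, θ_mW]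
    · congr 1
      rw [hil, ev_subst]
      congr 2
      ext v
      simp [up]
    · intro k hk
      rw [ev_apply, hτ]
      simp [lamR, ND.sum_apply, fun i => (ha i).2 k hk, fun j => (hb j).2 k hk,
        fun i => hℓν i k hk]
  · intro h
    refine ⟨tv hg hν r c fun j => Int.fract (s h j), tv hg hν r c fun j => (⌊s h j⌋ : ℝ), ?_, ?_,
      ev_ext fun x => ?_⟩
    · rw [norm_le_iff zero_le_one]
      rintro (j | p)
      · rw [tv_inl, abs_of_nonneg (Int.fract_nonneg _)]
        exact (Int.fract_lt_one _).le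
      · simp
    · rintro (j | p)
      · exact ⟨_, rfl⟩
      · exact ⟨0, by simp⟩
    · set x' : ι ⊕ ι → ℝ := fun v => aeval x (fixh T h v) with hx'
      have x1 : x' ∘ Sum.inl = x ∘ Sum.inl := by
        ext v; simp [x', fixh]
      have x2 : ∀ i : T.L1, x' (Sum.inr i.1) = h i := fun i => by
        simp [x', fixh, Cell.wv, i.2]
      have x3 : ∀ i : T.U2, x' (Sum.inr i.1) = x (Sum.inr (0, i)) := fun i => by
        simp [x', fixh, Cell.wv, i.2]
      have x4 : ∀ j, aeval x' (βw j) = s h j := fun j => by simp [βw, s, x2]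
      simp only [ev_subst, ← hx', Bch.map_star, ev_cst, ev_bc, ev_mX0, ev_mX1, ev_mW, ev_mY, hil, x1,
        x4]
      rw [← Bch.map_star, real_key t hwA, SL_star t hwA, SL_mW, SL_mY, Bch.map_star]
      congr 5
      ext k
      simp only [ND.add_apply, ND.sum_apply, ND.smul_apply, ev_apply, hτ, a', b', lamR, map_add,
        map_sum, map_mul, map_smul, aeval_X, aeval_rename, x1, x2, x3, x4, smul_eq_mul, one_mul]
      rw [add_assoc, add_right_comm (∑ i, _) (∑ j, _), ← sum_add_distrib]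
      congr 1
      congr 1
      refine sum_congr rfl fun j _ => ?_
      rw [Int.fract]
      field_simp
      ring

end Crest.Agent.T49.Ri
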