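import Crest.Agent.T49.RiDef_12
import Crest.Agent.T49.MxCov_53

/-!
# Row 49 (helper98): top parts of the multi-point cell (Taylor), morphisms, classes
-/

set_option autoImplicit false

noncomputable section

namespace Crest.Agent.T49.Ri

open Finset MvPolynomial
open Crest.Agent.T49.Tw Crest.Agent.T49.Tw.R12
open Crest.Agent.T49.Br (Cs Mk Mor)

namespace M98

section taylor

variable {σ ι : Type} {w : σ → ℕ} {v : ι → ℕ}

/-- weighted degree `≤ d - 2` -/
def D2 (w : σ → ℕ) (f : Pl σ) (d : ℕ) : Prop := ∀ m ∈ f.support, Finsupp.weight w m + 2 ≤ d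

theorem d2_zero (d : ℕ) : D2 w (0 : Pl σ) d := fun m hm => by simp at hm

theorem D2.add {f g : Pl σ} {d : ℕ} (hf : D2 w f d) (hg : D2 w g d) : D2 w (f + g) d := by
  classical
  intro m hm
  rcases Finset.mem_union.1 (support_add hm) with h | h
  exacts [hf m h, hg m h]

theorem D2.mul {f g : Pl σ} {a b : ℕ} (hf : DegLe w f a) (hg : D2 w g b) :
    D2 w (f * g) (a + b) := by
  classical
  intro m hm
  obtain ⟨x, hx, y, hy, rfl⟩ := Finset.mem_add.1 (support_mul f g hm)
  have := hf x hx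
  have := hg y hy
  rw [map_add]
  omega

theorem d2_mul {f g : Pl σ} {a b : ℕ} (hf : DLt w f a) (hg : DLt w g b) :
    D2 w (f * g) (a + b) := by
  classical
  intro m hm
  obtain ⟨x, hx, y, hy, rfl⟩ := Finset.mem_add.1 (support_mul f g hm)
  have := hf x hx
  have := hg y hy
  rw [map_add]
  omega

theorem D2.mono {f : Pl σ} {a b : ℕ} (hf : D2 w f a) (h : a ≤ b) : D2 w f b :=
  fun m hm => (hf m hm).trans h

theorem D2.dlt {f : Pl σ} {a : ℕ} (hf : D2 w f a) : DLt w f a :=
  fun m hm => by have := hf m hm; omega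

theorem d2_sum {α : Type*} {s : Finset α} {f : α → Pl σ} {d : ℕ} (h : ∀ a ∈ s, D2 w (f a) d) :
    D2 w (∑ a ∈ s, f a) d :=
  Finset.sum_induction f (fun p => D2 w p d) (fun _ _ => D2.add) (d2_zero d) h

theorem D2.C_mul {f : Pl σ} {d : ℕ} (hf : D2 w f d) (r : ℝ) : D2 w (C r * f) d := by
  simpa using D2.mul (degLe_C (w := w) r 0) hf

theorem whc_dlt {f : Pl σ} {d : ℕ} (hf : DLt w f d) : weightedHomogeneousComponent w d f = 0 :=
  weightedHomogeneousComponent_eq_zero' d f fun m hm => (hf m hm).ne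

theorem whc_d2 {f : Pl σ} {d : ℕ} (hf : D2 w f (d + 1)) :
    weightedHomogeneousComponent w d f = 0 :=
  whc_dlt fun m hm => by have := hf m hm; omega

variable [Fintype ι]

/-- the first-order term -/
def dd (g W : ι → Pl σ) (f : Pl ι) : Pl σ := ∑ c, bind₁ g (pderiv c f) * W c

theorem dd_mul (g W : ι → Pl σ) (f f' : Pl ι) :
    dd g W (f * f') = bind₁ g f * dd g W f' + dd g W f * bind₁ g f' := by
  simp only [dd, pderiv_mul, map_add, map_mul, mul_sum, sum_mul, ← sum_add_distrib]
  exact sum_congr rfl fun c _ => by ring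

/-- **Taylor's formula** to first order -/
theorem taylor {g W : ι → Pl σ} (hg : ∀ c, DegLe w (g c) (v c)) (hW : ∀ c, DLt w (W c) (v c))
    {f : Pl ι} {d : ℕ} (hf : DegLe v f d) :
    D2 w (bind₁ (fun c => g c + W c) f - bind₁ g f - dd g W f) d := by
  classical
  have hg' : ∀ c, DegLe w (g c + W c) (v c) := fun c =>
    (hg c).add ((hW c).degLe.mono (Nat.sub_le _ _))
  have hsub : ∀ {f : Pl ι} {d : ℕ}, DegLe v f d →
      DLt w (bind₁ (fun c => g c + W c) f - bind₁ g f) d := fun hf =>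
    dlt_bind_sub hg' hg (fun c => by simpa using hW c) hf
  have hmul : ∀ {f f' : Pl ι} {a b : ℕ}, DegLe v f a → DegLe v f' b →
      D2 w (bind₁ (fun c => g c + W c) f - bind₁ g f - dd g W f) a →
      D2 w (bind₁ (fun c => g c + W c) f' - bind₁ g f' - dd g W f') b →
      D2 w (bind₁ (fun c => g c + W c) (f * f') - bind₁ g (f * f') - dd g W (f * f')) (a + b) := by
    intro f f' a b h1 h2 h3 h4
    have hD : DLt w (dd g W f) a := by
      have := (hsub h1).add (h3.dlt.C_mul (-1))
      convert this using 1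
      simp only [map_neg, map_one]
      ring
    have e1 := D2.mul (DegLe.bind hg h1) h4
    have e2 := d2_mul hD (hsub h2)
    have e3 := D2.mul (DegLe.bind hg' h2) h3
    rw [add_comm b a] at e3
    have := (e1.add e2).add e3
    convert this using 1
    rw [dd_mul, map_mul, map_mul]
    ring
  have key : ∀ m : ι →₀ ℕ, D2 w (bind₁ (fun c => g c + W c) (monomial m (1 : ℝ)) -
      bind₁ g (monomial m 1) - dd g W (monomial m 1)) (Finsupp.weight v m) := by
    intro m
    have h0 : D2 w (bind₁ (fun c => g c + W c) (monomial (0 : ι →₀ ℕ) (1 : ℝ)) -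
        bind₁ g (monomial 0 1) - dd g W (monomial 0 1)) 0 := by
      have : (monomial (0 : ι →₀ ℕ) (1 : ℝ) : Pl ι) = 1 := rfl
      rw [this]
      simpa [dd] using d2_zero 0
    induction m using Finsupp.induction_linear with
    | zero => simpa using h0
    | add a b ha hb =>
      have e : (monomial (a + b) (1 : ℝ) : Pl ι) = monomial a 1 * monomial b 1 := by
        rw [monomial_mul, mul_one]
      rw [e, map_add]
      exact hmul (degLe_monomial a 1) (degLe_monomial b 1) ha hb
    | single c n =>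
      induction n with
      | zero => simpa using h0
      | succ n ih =>
        have e : (monomial (Finsupp.single c (n + 1)) (1 : ℝ) : Pl ι) =
            monomial (Finsupp.single c n) 1 * X c := by
          rw [X, monomial_mul, mul_one, Finsupp.single_add]
        have e2 : Finsupp.weight v (Finsupp.single c (n + 1)) =
            Finsupp.weight v (Finsupp.single c n) + v c := by
          rw [Finsupp.single_add, map_add, Finsupp.weight_single v c 1, one_smul]
        rw [e, e2]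
        refine hmul (degLe_monomial _ 1) (degLe_X c) ih ?_
        have : dd g W (X c) = W c := by
          rw [dd, sum_eq_single c]
          · simp
          · intro b _ hb
            rw [pderiv_X_of_ne hb.symm, map_zero, zero_mul]
          · simp
        rw [this, bind₁_X_right, bind₁_X_right]
        simpa using d2_zero _
  have hsum : ∀ (s : Finset (ι →₀ ℕ)) (F : (ι →₀ ℕ) → Pl ι),
      dd g W (∑ m ∈ s, F m) = ∑ m ∈ s, dd g W (F m) := fun s F => by
    simp only [dd, map_sum, sum_mul]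
    exact sum_comm
  rw [f.as_sum, map_sum, map_sum, hsum, ← Finset.sum_sub_distrib, ← Finset.sum_sub_distrib]
  refine d2_sum fun m hm => ?_
  have e : (monomial m (coeff m f) : Pl ι) = C (coeff m f) * monomial m 1 := by
    rw [C_mul_monomial, mul_one]
  have e' : dd g W (C (coeff m f) * monomial m 1) = C (coeff m f) * dd g W (monomial m 1) := by
    simp only [dd, pderiv_C_mul, map_mul, bind₁_C_right, mul_sum, mul_assoc]
  rw [e, e', map_mul, map_mul, bind₁_C_right, bind₁_C_right, ← mul_sub, ← mul_sub]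
  exact ((key m).C_mul _).mono (hf m hm)

end taylor

variable {ι : Type} [Fintype ι] (T : Cell ι) {k : ℕ}

theorem tn_eq {J : Type} (h : J → T.L1 → ℤ) : T.tn h = ((mkT T).cs h).th := by
  funext v
  rcases v with c | ⟨j, c⟩
  · rfl
  · show ∑ c', rename Sum.inl (pderiv c' (T.tth c.1)) * T.wv h j c' =
      rename Sum.inl (∑ r : T.L1, C (h j r : ℝ) * pderiv r.1 (T.tth c.1)) +
        ∑ c' : T.U2, rename Sum.inl (pderiv c'.1 (T.tth c.1)) * X (Sum.inr (j, c'))
    rw [← Fintype.sum_subtype_add_sum_subtype (fun c => T.lev c = 1), map_sum]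
    congr 1
    · refine sum_congr rfl fun r _ => ?_
      rw [Cell.wv, dif_pos r.2, map_mul, rename_C, mul_comm]
    · refine sum_congr rfl fun r _ => ?_
      rw [Cell.wv, dif_neg r.2]

theorem tn_hom {J : Type} (h : J → T.L1 → ℤ) (v : T.MI J) :
    IsWeightedHomogeneous (T.mlev J) (T.tn h v) (T.mlev J v) := by
  rw [tn_eq]
  exact ((mkT T).cs h).hom v

omit [Fintype ι] in
theorem ptP_zero (h : Fin k → T.L1 → ℤ) : T.ptP h 0 = fun c => X (Sum.inl c) :=
  funext fun c => by simp [Cell.ptP, Cell.wv0]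

omit [Fintype ι] in
theorem th_inl (h : Fin k → T.L1 → ℤ) (c : ι) : (T.mp h).th (Sum.inl c) =
    ∑ i, C (helm k 0 i) * bind₁ (T.ptP h i) (T.th c) := by
  have hs : ∑ i, helm k 0 i = √(k + 1) := by
    simp only [helm, if_true, sum_const, card_univ, Fintype.card_fin, nsmul_eq_mul]
    have : (0 : ℝ) < k + 1 := by positivity
    push_cast
    rw [← div_eq_mul_inv, Real.div_sqrt]
  show C (√(k + 1) * T.a c) * X (Sum.inl c) + ∑ i, C (helm k 0 i) *
    (C (T.a c) * T.wv0 h i c + bind₁ (T.ptP h i) (T.B c)) = _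
  rw [← hs, sum_mul, map_sum, sum_mul, ← sum_add_distrib]
  refine sum_congr rfl fun i _ => ?_
  rw [Tri.th, map_add, map_mul, map_mul, bind₁_C_right, bind₁_X_right, Cell.ptP]
  ring

omit [Fintype ι] in
theorem sum_helm_mul (j : Fin k) {σ : Type} (f : Pl σ) : ∑ i, C (helm k j.succ i) * f = 0 := by
  rw [← sum_mul, ← map_sum, sum_helm, C_0, zero_mul]

omit [Fintype ι] in
theorem th_inr (h : Fin k → T.L1 → ℤ) (j : Fin k) (c : T.U2) : (T.mp h).th (Sum.inr (j, c)) =
    ∑ i, C (helm k j.succ i) * bind₁ (T.ptP h i) (T.th c.1) := by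
  show C (helm k j.succ j.succ * T.a c.1) * X (Sum.inr (j, c)) + ∑ i, C (helm k j.succ i) *
    ((if i = j.succ then 0 else C (T.a c.1) * T.wv0 h i c.1) +
      (bind₁ (T.ptP h i) (T.B c.1) - bind₁ (T.ptP h 0) (T.B c.1))) = _
  have e1 : C (helm k j.succ j.succ * T.a c.1) * X (Sum.inr (j, c)) =
      ∑ i, C (helm k j.succ i) * (if i = j.succ then C (T.a c.1) * T.wv0 h i c.1 else 0) := by
    rw [sum_eq_single j.succ]
    · rw [if_pos rfl, map_mul, mul_assoc]
      simp only [Cell.wv0, Fin.cases_succ, Cell.wv, dif_neg c.2]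
    · intro b _ hb
      rw [if_neg hb, mul_zero]
    · simp
  have e2 := sum_helm_mul j (C (T.a c.1) * X (Sum.inl c.1) + bind₁ (T.ptP h 0) (T.B c.1) :
    Pl (T.MI (Fin k)))
  rw [e1]
  refine (add_zero _).symm.trans ((congrArg _ e2.symm).trans ?_)
  rw [← sum_add_distrib, ← sum_add_distrib]
  refine sum_congr rfl fun i _ => ?_
  rw [Tri.th, map_add, map_mul, bind₁_C_right, bind₁_X_right, Cell.ptP]
  split_ifs <;> ring

omit [Fintype ι] in
theorem whc_ptP (h : Fin k → T.L1 → ℤ) (i : Fin (k + 1)) (c : ι) :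
    weightedHomogeneousComponent (T.mlev (Fin k)) (T.lev c) (bind₁ (T.ptP h i) (T.th c)) =
      rename Sum.inl (T.tth c) := by
  have h1 := whc_dlt (T.bind_ptP_sub h i 0 (T.th_degLe c))
  rw [map_sub, sub_eq_zero] at h1
  rw [h1, ptP_zero, ← rename_eq_bind, whc_rename]
  rfl

theorem tth_inl (h : Fin k → T.L1 → ℤ) (c : ι) :
    (T.mp h).tth (Sum.inl c) = C √(k + 1) * T.tn h (Sum.inl c) := by
  have hs : ∑ i, helm k 0 i = √(k + 1) := by
    simp only [helm, if_true, sum_const, card_univ, Fintype.card_fin, nsmul_eq_mul]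
    have : (0 : ℝ) < k + 1 := by positivity
    push_cast
    rw [← div_eq_mul_inv, Real.div_sqrt]
  show weightedHomogeneousComponent (T.mlev (Fin k)) (T.lev c) ((T.mp h).th (Sum.inl c)) = _
  rw [th_inl, map_sum, ← hs, map_sum, sum_mul]
  refine sum_congr rfl fun i _ => ?_
  rw [whc_C_mul', whc_ptP]
  rfl

/-- the top part of a difference of window coordinates is the tangent form -/
theorem whc_dif (h : Fin k → T.L1 → ℤ) (i : Fin k) (c : T.U2) :
    weightedHomogeneousComponent (T.mlev (Fin k)) (T.lev c.1 - 1)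
      (bind₁ (T.ptP h i.succ) (T.th c.1) - bind₁ (T.ptP h 0) (T.th c.1)) =
      T.tn h (Sum.inr (i, c)) := by
  obtain ⟨d, hd⟩ : ∃ d, T.lev c.1 = d + 1 := ⟨T.lev c.1 - 1, by have := T.lev_pos c.1; omega⟩
  have hd' : T.lev c.1 - 1 = d := by omega
  have hr : DegLe T.lev (T.th c.1 - T.tth c.1) d := by
    have h1 := T.th_degLe c.1
    have h2 : T.tth c.1 = weightedHomogeneousComponent T.lev (d + 1) (T.th c.1) := by
      rw [← hd]; rfl
    rw [hd] at h1
    rw [h2]
    exact h1.sub_whc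
  have h1 := whc_dlt (T.bind_ptP_sub h i.succ 0 hr)
  have h2 := taylor (w := T.mlev (Fin k)) (v := T.lev) (g := fun c => X (Sum.inl c))
    (W := T.wv0 h i.succ) (fun c => degLe_X (w := T.mlev (Fin k)) (Sum.inl c))
    (T.wv0_dlt h i.succ) (DegLe.of_hom (T.tth_hom c.1))
  rw [hd] at h2
  have h3 := whc_d2 h2
  have e : dd (fun c => X (Sum.inl c)) (T.wv0 h i.succ) (T.tth c.1) = T.tn h (Sum.inr (i, c)) := by
    simp only [dd, ← rename_eq_bind]
    rfl
  have h4 := whc_of_hom (tn_hom T h (Sum.inr (i, c)))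
  have h5 : T.mlev (Fin k) (Sum.inr (i, c)) = d := hd'
  rw [h5] at h4
  rw [e] at h3
  have e2 : bind₁ (T.ptP h i.succ) (T.th c.1) - bind₁ (T.ptP h 0) (T.th c.1) =
      T.tn h (Sum.inr (i, c)) + (bind₁ (T.ptP h i.succ) (T.th c.1 - T.tth c.1) -
        bind₁ (T.ptP h 0) (T.th c.1 - T.tth c.1)) +
      (bind₁ (fun c => X (Sum.inl c) + T.wv0 h i.succ c) (T.tth c.1) -
        bind₁ (fun c => X (Sum.inl c)) (T.tth c.1) - T.tn h (Sum.inr (i, c))) := by
    rw [map_sub, map_sub, ptP_zero]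
    show _ = _ + _ + (bind₁ (T.ptP h i.succ) (T.tth c.1) - _ - _)
    ring
  rw [hd', e2, map_add, map_add, h1, h3, h4, add_zero, add_zero]

theorem tth_inr (h : Fin k → T.L1 → ℤ) (j : Fin k) (c : T.U2) :
    (T.mp h).tth (Sum.inr (j, c)) =
      ∑ i : Fin k, C (helm k j.succ i.succ) * T.tn h (Sum.inr (i, c)) := by
  show weightedHomogeneousComponent (T.mlev (Fin k)) (T.lev c.1 - 1)
    ((T.mp h).th (Sum.inr (j, c))) = _
  have e : (T.mp h).th (Sum.inr (j, c)) = ∑ i, C (helm k j.succ i) *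
      (bind₁ (T.ptP h i) (T.th c.1) - bind₁ (T.ptP h 0) (T.th c.1)) := by
    simp only [mul_sub, sum_sub_distrib]
    rw [sum_helm_mul, sub_zero, th_inr]
  rw [e, Fin.sum_univ_succ, sub_self, mul_zero, zero_add, map_sum]
  exact sum_congr rfl fun i _ => by rw [whc_C_mul', whc_dif]

theorem tn_inr (ho : ∀ i i', ∑ r, helm k r i * helm k r i' = if i = i' then 1 else 0)
    (h : Fin k → T.L1 → ℤ) (i : Fin k) (c : T.U2) : T.tn h (Sum.inr (i, c)) =
    ∑ j : Fin k, C (helm k j.succ i.succ - helm k j.succ 0) * (T.mp h).tth (Sum.inr (j, c)) := by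
  have key : ∀ i' : Fin k, ∑ j : Fin k, (helm k j.succ i.succ - helm k j.succ 0) *
      helm k j.succ i'.succ = if i = i' then 1 else 0 := by
    intro i'
    have h1 := ho i.succ i'.succ
    have h2 := ho 0 i'.succ
    rw [Fin.sum_univ_succ] at h1 h2
    rw [if_neg (Fin.succ_ne_zero i').symm] at h2
    have h3 : helm k 0 i.succ = helm k 0 0 := by simp [helm]
    simp only [Fin.succ_inj] at h1
    simp only [sub_mul, sum_sub_distrib]
    rw [h3] at h1
    linarith
  simp only [tth_inr, mul_sum, ← mul_assoc, ← map_mul]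
  rw [sum_comm]
  simp only [← sum_mul, ← map_sum, key]
  rw [sum_eq_single i]
  · simp
  · intro b _ hb
    rw [if_neg hb.symm, C_0, zero_mul]
  · simp

omit [Fintype ι] in
theorem abs_helm_le (ho : ∀ i i', ∑ r, helm k r i * helm k r i' = if i = i' then 1 else 0)
    (r i : Fin (k + 1)) : |helm k r i| ≤ 1 := by
  have h1 := ho i i
  rw [if_pos rfl] at h1
  have h2 : helm k r i * helm k r i ≤ ∑ r, helm k r i * helm k r i :=
    single_le_sum (f := fun r => helm k r i * helm k r i) (fun _ _ => mul_self_nonneg _)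
      (mem_univ r)
  rw [h1] at h2
  exact abs_le_one_iff_mul_self_le_one.2 h2

theorem mor (ho : ∀ i i', ∑ r, helm k r i * helm k r i' = if i = i' then 1 else 0)
    (h : Fin k → T.L1 → ℤ) : Mor (Cs.ofCell (T.mp h)) ((mkT T).cs h) (2 * (k + 1)) X ∧
    Mor ((mkT T).cs h) (Cs.ofCell (T.mp h)) (2 * (k + 1)) X := by
  have hk : (0 : ℝ) ≤ k := Nat.cast_nonneg k
  have hs1 : (1 : ℝ) ≤ √(k + 1) := Real.one_le_sqrt.2 (by linarith)
  have hs2 : √(k + 1) ≤ (k + 1 : ℝ) := Real.sqrt_le_iff.2 ⟨by linarith, by nlinarith⟩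
  have lin : ∀ (c : T.U2) (i : Fin k) (x : Fin k → ℝ), (∀ j, |x j| ≤ 2) →
      IsWeightedHomogeneous (T.mlev (Fin k))
        (∑ j, C (x j) * X (Sum.inr (j, c)) : Pl (T.MI (Fin k))) (T.mlev (Fin k) (Sum.inr (i, c))) ∧
      nrm (∑ j, C (x j) * X (Sum.inr (j, c)) : Pl (T.MI (Fin k))) ≤ 2 * (k + 1) := by
    intro c i x hx
    refine ⟨IsWeightedHomogeneous.sum _ _ _ fun j _ =>
      hom_C_mul (isWeightedHomogeneous_X ℝ (T.mlev (Fin k)) (Sum.inr (j, c))) _, ?_⟩
    refine (nrm_sum_le _ _).trans ?_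
    simp only [nrm_C_mul, nrm_X, mul_one]
    refine (sum_le_card_nsmul _ _ 2 fun j _ => hx j).trans ?_
    simp only [card_univ, Fintype.card_fin, nsmul_eq_mul]
    linarith
  constructor
  · refine ⟨fun v => isInt_X v, fun v => isWeightedHomogeneous_X ℝ (T.mlev (Fin k)) v, fun v => ?_⟩
    rw [← tn_eq, aeval_X_left_apply]
    rcases v with c | ⟨j, c⟩
    · refine ⟨C √(k + 1) * X (Sum.inl c),
        hom_C_mul (isWeightedHomogeneous_X ℝ (T.mlev (Fin k)) (Sum.inl c)) _, ?_, ?_⟩
      · rw [nrm_C_mul, nrm_X, mul_one, abs_of_nonneg (by linarith)]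
        linarith
      · rw [map_mul, aeval_X, aeval_C]
        exact tth_inl T h c
    · obtain ⟨h1, h2⟩ := lin c j (fun i => helm k j.succ i.succ) fun i =>
        (abs_helm_le ho _ _).trans one_le_two
      refine ⟨_, h1, h2, ?_⟩
      simp only [map_sum, map_mul, aeval_X, aeval_C]
      exact tth_inr T h j c
  · refine ⟨fun v => isInt_X v, fun v => isWeightedHomogeneous_X ℝ (T.mlev (Fin k)) v, fun v => ?_⟩
    rw [← tn_eq, aeval_X_left_apply]
    rcases v with c | ⟨j, c⟩
    · refine ⟨C (√(k + 1))⁻¹ * X (Sum.inl c),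
        hom_C_mul (isWeightedHomogeneous_X ℝ (T.mlev (Fin k)) (Sum.inl c)) _, ?_, ?_⟩
      · rw [nrm_C_mul, nrm_X, mul_one, abs_of_nonneg (by positivity)]
        have := inv_le_one_of_one_le₀ hs1
        linarith
      · rw [map_mul, aeval_X, aeval_C]
        show _ = C (√(k + 1))⁻¹ * (T.mp h).tth (Sum.inl c)
        rw [tth_inl, ← mul_assoc, ← map_mul, inv_mul_cancel₀ (by linarith), C_1, one_mul]
    · obtain ⟨h1, h2⟩ := lin c j (fun i => helm k i.succ j.succ - helm k i.succ 0) fun i =>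
        (abs_sub _ _).trans (by linarith [abs_helm_le ho i.succ j.succ, abs_helm_le ho i.succ 0])
      refine ⟨_, h1, h2, ?_⟩
      simp only [map_sum, map_mul, aeval_X, aeval_C]
      exact tn_inr T ho h j c

omit [Fintype ι] in
theorem mc (h : Fin k → T.L1 → ℤ) (cl : ι → ℕ) (hc : T.IsMC cl) :
    (T.mp h).IsMC (cl ∘ T.mpr (Fin k)) := by
  have hp : ∀ i c, MCP (cl ∘ T.mpr (Fin k)) (T.ptP h i c) (cl c) := by
    intro i c
    refine (MCP.X' rfl).add ?_
    refine Fin.cases ?_ (fun j => ?_) i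
    · exact MCP.zero
    · simp only [Cell.wv0, Fin.cases_succ, Cell.wv]
      split_ifs
      · exact MCP.C _
      · exact MCP.X' rfl
  refine Cell.isMC_of_th (fun v => hc.pos _) fun v => ?_
  rcases v with c | ⟨j, c⟩
  · rw [th_inl]
    exact MCP.sum _ fun i _ => (MCP.bind (hp i) (hc.th c)).C_mul _
  · rw [th_inr]
    exact MCP.sum _ fun i _ => (MCP.bind (hp i) (hc.th c.1)).C_mul _

end M98

end Crest.Agent.T49.Ri
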