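import Crest.Agent.T49.RiMpA_14
import Crest.Agent.T49.RiMpB_98

/-! # Row 49 (helper98): `MpStmt` -/

set_option autoImplicit false

namespace Crest.Agent.T49.Ri

theorem mpStmt : MpStmt := fun _ _ T k =>
  ⟨Mp.ev_ptP T, Mp.th_inl T, Mp.th_inr T, Mp.orth k, Mp.orth' k, Mp.wgt T, Mp.mu T,
    M98.tth_inl T, M98.tth_inr T, M98.tn_inr T (Mp.orth' k), M98.tn_eq T, M98.mor T (Mp.orth' k),
    Mp.bij T k, M98.mc T, Mp.gam_ge T, Mp.tsum T, Mp.summ T k⟩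

end Crest.Agent.T49.Ri
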