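import Crest.Agent.T49.RiDef_12
import Crest.Agent.T49.TwTri_51
import Crest.Agent.T49.GiSym_40

/-!
# Row 49 (helper31): cheap phases of the pair cells split (`SplitStmt`), family converse of LT
-/

set_option autoImplicit false
set_option linter.unusedSectionVars false

noncomputable section

namespace Crest.Agent.T49.Ri

open Finset MvPolynomial
open Crest.Agent.T49.Tw Crest.Agent.T49.Nil Crest.Agent.T49.Nil.ND
open Crest.Agent.T49.Gf (wcf)
open Crest.Agent.T49.GI (GR GrOf)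
open Crest.Agent.T49.Br (Cs NearR ClosRStmt)

namespace S31

variable {σ : Type} [Fintype σ]

/-- the cheap phase with given data -/
def chp (T : Cell σ) (ξ : σ → ℝ) (n : σ → ℤ) (b : ℕ) (z : σ → ℤ) : ℂ :=
  ee (∑ c, ξ c * ev z (T.th c) + (∑ c, (n c : ℝ) * z c) / b)

theorem norm_chp (T : Cell σ) (ξ : σ → ℝ) (n : σ → ℤ) (b : ℕ) (z : σ → ℤ) :
    ‖chp T ξ n b z‖ = 1 := Tw.norm_ee _

theorem chp_mod (T : Cell σ) (ξ : σ → ℝ) (n : σ → ℤ) {b : ℕ} (hb : 1 ≤ b) (z : σ → ℤ) :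
    chp T ξ (fun c => n c % b) b z = chp T ξ n b z := by
  have hb0 : (b : ℝ) ≠ 0 := by positivity
  have e : (∑ c, (n c : ℝ) * z c) / b =
      (∑ c, ((n c % b : ℤ) : ℝ) * z c) / b + ((∑ c, n c / b * z c : ℤ) : ℝ) := by
    rw [div_add' _ _ _ hb0, Int.cast_sum, sum_mul, ← sum_add_distrib]
    congr 1
    refine sum_congr rfl fun c _ => ?_
    have : (n c : ℝ) = ((n c % b : ℤ) : ℝ) + b * ((n c / b : ℤ) : ℝ) := by
      exact_mod_cast (Int.emod_add_mul_ediv (n c) b).symm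
    rw [Int.cast_mul]
    linear_combination (z c : ℝ) * this
  unfold chp
  rw [e, ← add_assoc, ee_add_int]

/-- mass and tails -/
def Ms (T : Cell σ) : Prop :=
  T.M ≤ 2 * T.mu ∧ ∀ R : ℝ, 0 ≤ R → (∑' z, if ∀ c, |ev z (T.th c)| ≤ R then 0 else T.wgt z) ≤
    2 * √2 ^ Fintype.card σ * Real.exp (-(Real.pi * R ^ 2 / 2)) * T.mu

theorem ms_of {T : Cell σ} {m : ℝ} (hm : 0 ≤ m) (h1 : |T.M / T.mu - 1| ≤ Real.exp (-m))
    (h2 : ∀ R : ℝ, 0 ≤ R → (∑' z, if ∀ c, |ev z (T.th c)| ≤ R then 0 else T.wgt z) ≤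
      2 * √2 ^ Fintype.card σ * Real.exp (-(Real.pi * R ^ 2 / 2)) * T.mu) : Ms T := by
  refine ⟨?_, h2⟩
  have h3 : Real.exp (-m) ≤ 1 := Real.exp_le_one_iff.2 (by linarith)
  have h4 : T.M / T.mu ≤ 2 := by linarith [(abs_le.1 h1).2]
  rwa [div_le_iff₀ T.mu_pos] at h4

/-- two bounded functions that are close on the bulk have close means -/
theorem close {T : Cell σ} (f g : (σ → ℤ) → ℂ) (hf : ∀ z, ‖f z‖ ≤ 1) (hg : ∀ z, ‖g z‖ ≤ 1)
    {R δ : ℝ} (hδ : 0 ≤ δ) (h : ∀ z, (∀ c, |ev z (T.th c)| ≤ R) → ‖f z - g z‖ ≤ δ) :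
    ‖∑' z, (T.wgt z : ℂ) * f z - ∑' z, (T.wgt z : ℂ) * g z‖ ≤
      δ * T.M + 2 * ∑' z, if ∀ c, |ev z (T.th c)| ≤ R then 0 else T.wgt z := by
  classical
  have hs : Summable fun z => if ∀ c, |ev z (T.th c)| ≤ R then 0 else T.wgt z :=
    T.summable_wgt.of_nonneg_of_le (fun z => by split_ifs; exacts [le_rfl, T.wgt_nonneg z])
      fun z => by split_ifs; exacts [T.wgt_nonneg z, le_rfl]
  rw [← (T.summable_mul hf).tsum_sub (T.summable_mul hg), Tri.M, ← tsum_mul_left, ← tsum_mul_left,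
    ← (T.summable_wgt.mul_left δ).tsum_add (hs.mul_left 2)]
  refine tsum_of_norm_bounded ((T.summable_wgt.mul_left δ).add (hs.mul_left 2)).hasSum fun z => ?_
  have hw := T.wgt_nonneg z
  rw [← mul_sub, norm_mul, Complex.norm_real, Real.norm_of_nonneg hw]
  split_ifs with hz
  · have := mul_le_mul_of_nonneg_left (h z hz) hw
    linarith
  · have h1 : ‖f z - g z‖ ≤ 2 := (norm_sub_le _ _).trans (by linarith [hf z, hg z])
    have := mul_le_mul_of_nonneg_left h1 hw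
    nlinarith

theorem num1 {m : ℝ} (hm : 2 ≤ m) :
    2 * Real.pi * (m * (Real.exp (-(10 * m)) * (2 * m))) * 2 ≤ Real.exp (-m) / 4 := by
  have h1 : m + 1 ≤ Real.exp m := Real.add_one_le_exp m
  have h2 : (128 : ℝ) * m ^ 2 ≤ Real.exp m ^ 9 := by
    have h3 : (3 : ℝ) ^ 7 ≤ Real.exp m ^ 7 := by gcongr; linarith
    have h4 : m ^ 2 ≤ Real.exp m ^ 2 := by gcongr; linarith
    calc (128 : ℝ) * m ^ 2 ≤ Real.exp m ^ 7 * Real.exp m ^ 2 := by gcongr; linarith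
      _ = _ := by ring
  have h5 : Real.exp (-m) = Real.exp (-(10 * m)) * Real.exp m ^ 9 := by
    rw [← Real.exp_nat_mul, ← Real.exp_add]; congr 1; push_cast; ring
  have h6 := Real.exp_pos (-(10 * m))
  have h7 := Real.pi_le_four
  rw [h5]
  have h8 : 0 ≤ Real.exp (-(10 * m)) * m ^ 2 := by positivity
  nlinarith [mul_le_mul_of_nonneg_left h2 h6.le, mul_le_mul_of_nonneg_right h7 h8]

theorem num2 {m : ℝ} (hm : 2 ≤ m) {n : ℕ} (hn : (n : ℝ) ≤ m) :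
    2 * (2 * √2 ^ n * Real.exp (-(Real.pi * (2 * m) ^ 2 / 2))) ≤ Real.exp (-m) / 4 := by
  have h1 : √2 ^ n ≤ Real.exp m := by
    calc √2 ^ n ≤ Real.exp 1 ^ n := by
          gcongr
          have := Real.add_one_le_exp (1 : ℝ)
          exact (Real.sqrt_le_left (by positivity)).2 (by nlinarith)
      _ = Real.exp n := by rw [← Real.exp_nat_mul, mul_one]
      _ ≤ _ := Real.exp_le_exp.2 hn
  have h2 : Real.exp (-(Real.pi * (2 * m) ^ 2 / 2)) ≤ Real.exp (-(12 * m)) := by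
    refine Real.exp_le_exp.2 ?_
    have := Real.pi_gt_three
    nlinarith [mul_nonneg (sub_nonneg.2 this.le) (sq_nonneg m)]
  have h3 : Real.exp (-m) = Real.exp m * Real.exp (-(12 * m)) * Real.exp (10 * m) := by
    rw [← Real.exp_add, ← Real.exp_add]; congr 1; ring
  have h4 : 16 ≤ Real.exp (10 * m) := by linarith [Real.add_one_le_exp (10 * m)]
  have h5 : √2 ^ n * Real.exp (-(Real.pi * (2 * m) ^ 2 / 2)) ≤
      Real.exp m * Real.exp (-(12 * m)) := by gcongr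
  have h6 : 0 < Real.exp m * Real.exp (-(12 * m)) := by positivity
  rw [h3]
  nlinarith

/-- rounding of the real frequency -/
theorem round {T : Cell σ} {m : ℝ} (hm : 2 ≤ m) (hn : (Fintype.card σ : ℝ) ≤ m) (hT : Ms T)
    {ξ ξ' : σ → ℝ} (hξ : ∀ c, |ξ c - ξ' c| ≤ Real.exp (-(10 * m))) (n : σ → ℤ) (b : ℕ)
    {a ψ : (σ → ℤ) → ℂ} (ha : ∀ z, ‖a z‖ ≤ 1) (hψ : ∀ z, ‖ψ z‖ ≤ 1)
    (h : Cor T m (fun z => a z * chp T ξ n b z) ψ) :
    Cor T (m + 1) (fun z => a z * chp T ξ' n b z) ψ := by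
  have hb : ∀ (x : σ → ℝ) z, ‖a z * chp T x n b z * ψ z‖ ≤ 1 := fun x z => by
    rw [norm_mul, norm_mul, norm_chp, mul_one]
    exact mul_le_one₀ (ha z) (norm_nonneg _) (hψ z)
  have he := Real.exp_pos (-(10 * m))
  have h1 := close (T := T) _ _ (hb ξ) (hb ξ') (R := 2 * m)
    (δ := 2 * Real.pi * (m * (Real.exp (-(10 * m)) * (2 * m)))) (by positivity) fun z hz => by
      rw [← sub_mul, ← mul_sub, norm_mul, norm_mul]
      have h2 : ‖chp T ξ n b z - chp T ξ' n b z‖ ≤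
          2 * Real.pi * (m * (Real.exp (-(10 * m)) * (2 * m))) := by
        refine (norm_ee_sub_ee_le _ _).trans (mul_le_mul_of_nonneg_left ?_ (by positivity))
        rw [add_sub_add_right_eq_sub, ← sum_sub_distrib]
        refine (abs_sum_le_sum_abs _ _).trans ?_
        refine (sum_le_card_nsmul _ _ (Real.exp (-(10 * m)) * (2 * m)) fun c _ => ?_).trans ?_
        · rw [← sub_mul, abs_mul]
          exact mul_le_mul (hξ c) (hz c) (abs_nonneg _) he.le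
        · rw [nsmul_eq_mul, card_univ]
          gcongr
      calc _ ≤ 1 * ‖chp T ξ n b z - chp T ξ' n b z‖ * 1 := by gcongr; exacts [ha z, hψ z]
        _ ≤ _ := by rwa [one_mul, mul_one]
  have h2 := hT.2 (2 * m) (by linarith)
  have h3 := mul_le_mul_of_nonneg_right (num1 hm) T.mu_pos.le
  have h4 := mul_le_mul_of_nonneg_right (num2 hm hn) T.mu_pos.le
  have h5 := mul_le_mul_of_nonneg_left hT.1
    (show 0 ≤ 2 * Real.pi * (m * (Real.exp (-(10 * m)) * (2 * m))) by positivity)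
  have h6 : Real.exp (-(m + 1)) * 2 ≤ Real.exp (-m) := by
    have : Real.exp (-m) = Real.exp (-(m + 1)) * Real.exp 1 := by
      rw [← Real.exp_add]; congr 1; ring
    rw [this]
    exact mul_le_mul_of_nonneg_left (by linarith [Real.add_one_le_exp (1 : ℝ)])
      (Real.exp_pos _).le
  have h7 := mul_le_mul_of_nonneg_right h6 T.mu_pos.le
  have h8 := norm_sub_norm_le (∑' z, (T.wgt z : ℂ) * (a z * chp T ξ n b z * ψ z))
    (∑' z, (T.wgt z : ℂ) * (a z * chp T ξ' n b z * ψ z))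
  unfold Cor at h ⊢
  linarith

/-- pigeonholing bounded integer vectors -/
theorem pig {α J : Type} [Fintype J] (H : Finset α) (c : α → J → ℤ) {X : ℝ} (hX : 0 ≤ X)
    (hc : ∀ x ∈ H, ∀ j, |(c x j : ℝ)| ≤ X) :
    ∃ H' ⊆ H, (#H : ℝ) ≤ (2 * X + 1) ^ Fintype.card J * #H' ∧ ∃ v, ∀ x ∈ H', c x = v := by
  classical
  set N : ℕ := ⌊X⌋₊
  set Λ : Finset (J → ℤ) := Fintype.piFinset fun _ => Icc (-(N : ℤ)) N
  have hmem : ∀ x ∈ H, c x ∈ Λ := fun x hx => Fintype.mem_piFinset.2 fun j => by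
    have h1 : (c x j).natAbs ≤ N := Nat.le_floor (by
      rw [← Int.cast_natCast, Int.natCast_natAbs, Int.cast_abs]; exact hc x hx j)
    rw [mem_Icc]
    omega
  have hne : Λ.Nonempty := ⟨0, Fintype.mem_piFinset.2 fun j => by simp⟩
  have hcard : (#Λ : ℝ) ≤ (2 * X + 1) ^ Fintype.card J := by
    have : #Λ = (2 * N + 1) ^ Fintype.card J := by
      rw [Fintype.card_piFinset, prod_const, card_univ, Int.card_Icc]
      congr 1
      omega
    rw [this]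
    push_cast
    gcongr
    exact Nat.floor_le hX
  obtain ⟨v, -, hv⟩ := exists_max_image Λ (fun v => #{x ∈ H | c x = v}) hne
  refine ⟨{x ∈ H | c x = v}, filter_subset _ _, ?_, v, fun x hx => (mem_filter.1 hx).2⟩
  have h1 : #H ≤ #Λ * #{x ∈ H | c x = v} := by
    rw [card_eq_sum_card_fiberwise hmem]
    exact (sum_le_card_nsmul _ _ _ hv).trans (by rw [smul_eq_mul])
  calc (#H : ℝ) ≤ #Λ * #{x ∈ H | c x = v} := by exact_mod_cast h1
    _ ≤ _ := by gcongr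

/-- **one cheap phase for a family of cells on the same coordinates** -/
theorem chp_pig {α : Type} (T : α → Cell σ) (H : Finset α) {m : ℝ} (hm : 2 ≤ m)
    (hn : (Fintype.card σ : ℝ) ≤ m) (a ψ : α → (σ → ℤ) → ℂ)
    (h : ∀ x ∈ H, Ms (T x) ∧ (∀ z, ‖a x z‖ ≤ 1) ∧ (∀ z, ‖ψ x z‖ ≤ 1) ∧
      ∃ φ, Chp (T x) m φ ∧ Cor (T x) m (fun z => a x z * φ z) (ψ x)) :
    ∃ (ξ : σ → ℝ) (n : σ → ℤ) (b : ℕ) (H' : Finset α), ∑ c, |ξ c| ≤ Real.exp (m + 1) ∧ 1 ≤ b ∧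
      (b : ℝ) ≤ Real.exp m ∧ H' ⊆ H ∧ Real.exp (-(39 * m ^ 2)) * #H ≤ #H' ∧
      ∀ x ∈ H', Cor (T x) (m + 1) (fun z => a x z * chp (T x) ξ n b z) (ψ x) := by
  classical
  have h' : ∀ x, ∃ (ξ : σ → ℝ) (n : σ → ℤ) (b : ℕ), x ∈ H → ∑ c, |ξ c| ≤ Real.exp m ∧ 1 ≤ b ∧
      (b : ℝ) ≤ Real.exp m ∧ Cor (T x) m (fun z => a x z * chp (T x) ξ n b z) (ψ x) := by
    intro x
    by_cases hx : x ∈ H
    · obtain ⟨-, -, -, φ, ⟨ξ, n, b, h1, h2, h3, h4⟩, h5⟩ := h x hx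
      obtain rfl : φ = chp (T x) ξ n b := funext h4
      exact ⟨ξ, n, b, fun _ => ⟨h1, h2, h3, h5⟩⟩
    · exact ⟨0, 0, 0, fun h => absurd h hx⟩
  choose ξ n b hd using h'
  set ε := Real.exp (-(10 * m)) with hε
  have hε0 : 0 < ε := Real.exp_pos _
  have hε1 : ε ≤ 1 := Real.exp_le_one_iff.2 (by linarith)
  have hx1 : m + 1 ≤ Real.exp m := Real.add_one_le_exp m
  have hX : Real.exp m ≤ Real.exp (12 * m) := Real.exp_le_exp.2 (by linarith)
  have hfl : ∀ x c, |ξ x c - ε * (⌊ξ x c / ε⌋ : ℤ)| ≤ ε := fun x c => by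
    have e : ξ x c - ε * (⌊ξ x c / ε⌋ : ℤ) = ε * Int.fract (ξ x c / ε) := by
      rw [Int.fract]; field_simp
    rw [e, abs_mul, abs_of_pos hε0, abs_of_nonneg (Int.fract_nonneg _)]
    exact mul_le_of_le_one_right hε0.le (Int.fract_lt_one _).le
  obtain ⟨H', hH, hc, v, hv⟩ := pig H (J := σ ⊕ σ ⊕ Unit)
    (fun x => Sum.elim (fun c => ⌊ξ x c / ε⌋) (Sum.elim (fun c => n x c % b x) fun _ => b x))
    (X := Real.exp (12 * m)) (Real.exp_pos _).le (by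
      intro x hx j
      obtain ⟨h1, h2, h3, -⟩ := hd x hx
      rcases j with c | c | c
      · have h4 : |ξ x c| ≤ Real.exp m :=
          (single_le_sum (f := fun c => |ξ x c|) (fun _ _ => abs_nonneg _) (mem_univ c)).trans h1
        have h5 : |ε * (⌊ξ x c / ε⌋ : ℤ)| ≤ Real.exp m + 1 := by
          have := abs_sub_abs_le_abs_sub (ε * (⌊ξ x c / ε⌋ : ℤ)) (ξ x c)
          rw [abs_sub_comm] at this
          linarith [hfl x c]
        have h6 : ε * Real.exp (12 * m) = Real.exp m * Real.exp m := by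
          rw [hε, ← Real.exp_add, ← Real.exp_add]; congr 1; ring
        rw [abs_mul, abs_of_pos hε0] at h5
        refine le_of_mul_le_mul_left (h5.trans ?_) hε0
        rw [h6]
        nlinarith
      · have h4 : 0 ≤ n x c % b x := Int.emod_nonneg _ (by omega)
        have h5 : n x c % b x < b x := Int.emod_lt_of_pos _ (by omega)
        have h6 : ((n x c % b x : ℤ) : ℝ) ≤ b x := by exact_mod_cast h5.le
        simp only [Sum.elim_inr, Sum.elim_inl]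
        rw [abs_of_nonneg (by exact_mod_cast h4)]
        linarith
      · simp only [Sum.elim_inr, Int.cast_natCast, Nat.abs_cast]
        linarith)
  have hcnt : Real.exp (-(39 * m ^ 2)) * #H ≤ #H' := by
    have h1 : 2 * Real.exp (12 * m) + 1 ≤ Real.exp (13 * m) := by
      have : Real.exp (13 * m) = Real.exp m * Real.exp (12 * m) := by
        rw [← Real.exp_add]; congr 1; ring
      nlinarith
    have h2 : (2 * Real.exp (12 * m) + 1) ^ Fintype.card (σ ⊕ σ ⊕ Unit) ≤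
        Real.exp (39 * m ^ 2) := by
      refine (pow_le_pow_left₀ (by positivity) h1 _).trans ?_
      rw [← Real.exp_nat_mul]
      refine Real.exp_le_exp.2 ?_
      simp only [Fintype.card_sum, Fintype.card_unit]
      push_cast
      nlinarith
    rw [Real.exp_neg, inv_mul_le_iff₀ (Real.exp_pos _)]
    exact hc.trans (by gcongr)
  rcases H'.eq_empty_or_nonempty with h0 | ⟨x₀, hx₀⟩
  · exact ⟨0, 0, 1, H', by simpa using (Real.exp_pos _).le, le_rfl, by push_cast; linarith, hH,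
      hcnt, fun x hx => by simp [h0] at hx⟩
  obtain ⟨h1, h2, h3, -⟩ := hd x₀ (hH hx₀)
  refine ⟨fun c => ε * (⌊ξ x₀ c / ε⌋ : ℤ), fun c => n x₀ c % b x₀, b x₀, H', ?_, h2, h3, hH, hcnt,
    fun x hx => ?_⟩
  · have h4 : ∑ c, |ε * (⌊ξ x₀ c / ε⌋ : ℤ)| ≤ ∑ c, (|ξ x₀ c| + 1) := sum_le_sum fun c _ => by
      have := abs_sub_abs_le_abs_sub (ε * (⌊ξ x₀ c / ε⌋ : ℤ)) (ξ x₀ c)
      rw [abs_sub_comm] at this
      linarith [hfl x₀ c]
    rw [sum_add_distrib, sum_const, card_univ, nsmul_eq_mul, mul_one] at h4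
    have h5 : Real.exp m * 2 ≤ Real.exp (m + 1) := by
      rw [Real.exp_add]
      exact mul_le_mul_of_nonneg_left (by linarith [Real.add_one_le_exp (1 : ℝ)])
        (Real.exp_pos _).le
    linarith
  · have e := (hv x hx).trans (hv x₀ hx₀).symm
    have e1 : ∀ c, ⌊ξ x c / ε⌋ = ⌊ξ x₀ c / ε⌋ := fun c => congrFun e (Sum.inl c)
    have e2 : (fun c => n x c % b x) = fun c => n x₀ c % b x₀ :=
      funext fun c => congrFun e (Sum.inr (Sum.inl c))
    have e3 : b x = b x₀ := Nat.cast_injective (R := ℤ) (congrFun e (Sum.inr (Sum.inr ())))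
    obtain ⟨-, h5, -, h6⟩ := hd x (hH hx)
    obtain ⟨h7, h8, h9, -⟩ := h x (hH hx)
    have := round hm hn h7 (ξ' := fun c => ε * (⌊ξ x₀ c / ε⌋ : ℤ))
      (fun c => e1 c ▸ hfl x c) (n x) (b x) h8 h9 h6
    rw [← e2, ← e3]
    simpa only [chp_mod _ _ _ h5] using this

/-! ### the pair cell -/

variable {ι : Type} [Fintype ι]

/-- extension by zero from the coordinates of level `≥ 2` -/
def ex2 {A : Type} [Zero A] (T : Cell ι) (v : T.U2 → A) (c : ι) : A :=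
  if hc : ¬ T.lev c = 1 then v ⟨c, hc⟩ else 0

theorem sum_ex2 (T : Cell ι) (v : T.U2 → ℝ) (G : ι → ℝ → ℝ) (hG : ∀ c, G c 0 = 0) :
    ∑ c, G c (ex2 T v c) = ∑ c : T.U2, G c.1 (v c) := by
  rw [← Fintype.sum_subtype_add_sum_subtype (fun c => ¬ T.lev c = 1)]
  rw [sum_eq_zero (s := univ) (f := fun c : {c // ¬¬ T.lev c = 1} => G c.1 (ex2 T v c.1))
    fun c _ => by rw [ex2, dif_neg c.2, hG], add_zero]
  exact sum_congr rfl fun c _ => by rw [ex2, dif_pos c.2]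

theorem sum_PI (T : Cell ι) (f : PI T → ℝ) :
    ∑ c, f c = ∑ c, f (Sum.inl c) + ∑ c : T.U2, f (Sum.inr (0, c)) := by
  rw [Fintype.sum_sum_type, Fintype.sum_prod_type, Fin.sum_univ_one]

theorem card_PI (T : Cell ι) : Fintype.card (PI T) ≤ 2 * Fintype.card ι := by
  have : Fintype.card T.U2 ≤ Fintype.card ι := Fintype.card_subtype_le _
  simp only [Fintype.card_sum, Fintype.card_prod, Fintype.card_fin]
  omega

theorem pt_zero (T : Cell ι) (h : T.L1 → ℤ) (p : PI T → ℤ) :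
    T.pt (fun _ : Fin 1 => h) 0 p = y0 T p := funext fun c => by simp [Cell.pt, y0]

theorem pt_one (T : Cell ι) (h : T.L1 → ℤ) (p : PI T → ℤ) :
    T.pt (fun _ : Fin 1 => h) 1 p = y1 T h p := rfl

theorem abs_helm {T : Cell ι} (hM : MpAt T 1) (r i : Fin 2) : |helm 1 r i| ≤ 1 := by
  have h1 := hM.orth r r
  rw [if_pos rfl] at h1
  have h2 := single_le_sum (f := fun i => helm 1 r i * helm 1 r i)
    (fun i _ => mul_self_nonneg _) (mem_univ i)
  exact abs_le_one_iff_mul_self_le_one.2 (h2.trans h1.le)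

/-- the real frequency at the point `i` -/
def xi (T : Cell ι) (ξ : PI T → ℝ) (i : Fin 2) (c : ι) : ℝ :=
  ξ (Sum.inl c) * helm 1 0 i + ex2 T (fun c => ξ (Sum.inr (0, c))) c * helm 1 1 i

theorem sum_xi {T : Cell ι} (hM : MpAt T 1) (ξ : PI T → ℝ) (i : Fin 2) :
    ∑ c, |xi T ξ i c| ≤ ∑ c, |ξ c| := by
  rw [sum_PI, ← sum_ex2 T (fun c => ξ (Sum.inr (0, c))) (fun _ x => |x|) fun _ => abs_zero,
    ← sum_add_distrib]
  refine sum_le_sum fun c _ => (abs_add_le _ _).trans (add_le_add ?_ ?_) <;> rw [abs_mul]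
  · exact mul_le_of_le_one_right (abs_nonneg _) (abs_helm hM _ _)
  · exact mul_le_of_le_one_right (abs_nonneg _) (abs_helm hM _ _)

/-- a cheap phase of the pair cell is a product -/
theorem chp_pc {T : Cell ι} (hM : MpAt T 1) (h : T.L1 → ℤ) (ξ : PI T → ℝ) (n : PI T → ℤ) (b : ℕ)
    (p : PI T → ℤ) :
    chp (pc T h) ξ n b p = chp T (xi T ξ 1) (ex2 T fun c => n (Sum.inr (0, c))) b (y1 T h p) *
      chp T (xi T ξ 0) (fun c => n (Sum.inl c) - ex2 T (fun c => n (Sum.inr (0, c))) c) b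
        (y0 T p) := by
  have hev : ∀ (r : Fin 2) (f : Pl ι),
      ev p (∑ i, C (helm 1 r i) * bind₁ (T.ptP (fun _ : Fin 1 => h) i) f) =
        helm 1 r 0 * ev (y0 T p) f + helm 1 r 1 * ev (y1 T h p) f := fun r f => by
    simp only [ev_sum, ev_mul, ev_C, ev_bind_of_eq (hM.ev_ptP _ _ p)]
    exact (Fin.sum_univ_two _).trans (by rw [pt_zero, pt_one])
  have e1 : ∑ c, ξ c * ev p ((pc T h).th c) = ∑ c, xi T ξ 1 c * ev (y1 T h p) (T.th c) +
      ∑ c, xi T ξ 0 c * ev (y0 T p) (T.th c) := by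
    rw [sum_PI]
    simp only [hM.th_inl, hM.th_inr, hev]
    rw [← sum_ex2 T (fun c => ξ (Sum.inr (0, c))) (fun c x => x *
      (helm 1 (Fin.succ 0) 0 * ev (y0 T p) (T.th c) + helm 1 (Fin.succ 0) 1 * ev (y1 T h p) (T.th c)))
      fun _ => zero_mul _, ← sum_add_distrib, ← sum_add_distrib]
    refine sum_congr rfl fun c _ => ?_
    rw [xi, xi, Fin.succ_zero_eq_one]
    ring
  have e2 : ∑ c, (n c : ℝ) * p c =
      ∑ c, ((ex2 T (fun c => n (Sum.inr (0, c))) c : ℤ) : ℝ) * y1 T h p c +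
      ∑ c, ((n (Sum.inl c) - ex2 T (fun c => n (Sum.inr (0, c))) c : ℤ) : ℝ) * y0 T p c := by
    rw [sum_PI, ← sum_ex2 T (fun c => (n (Sum.inr (0, c)) : ℝ) * p (Sum.inr (0, c)))
      (fun _ x => x) fun _ => rfl, ← sum_add_distrib, ← sum_add_distrib]
    refine sum_congr rfl fun c _ => ?_
    simp only [ex2, y1, y0, dy, Cell.wZ, Pi.add_apply]
    split_ifs <;> push_cast <;> ring
  unfold chp
  rw [← ee_add, e1, e2]
  congr 1
  ring

theorem chp_chp (T : Cell ι) {m : ℝ} {ξ : ι → ℝ} (n : ι → ℤ) {b : ℕ} (h1 : ∑ c, |ξ c| ≤ Real.exp m)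
    (h2 : 1 ≤ b) (h3 : (b : ℝ) ≤ Real.exp m) : Chp T m (chp T ξ n b) :=
  ⟨ξ, n, b, h1, h2, h3, fun _ => rfl⟩

theorem isNilW_mono {lev : σ → ℕ} {s : ℕ} {m m' : ℝ} {ψ : (σ → ℤ) → ℂ} (h : IsNilW lev s m ψ)
    (hm : m ≤ m') : IsNilW lev s m' ψ := by
  obtain ⟨κ, _, N, F, P, h1, h2, h3, h4, h5⟩ := h
  exact ⟨κ, _, N, F, P, h1.trans hm, h2.mono (Real.exp_le_exp.2 hm),
    h3.mono (Real.exp_le_exp.2 hm), h4, h5⟩

theorem isNilW_bdd {lev : σ → ℕ} {s : ℕ} {m : ℝ} {ψ : (σ → ℤ) → ℂ} (h : IsNilW lev s m ψ)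
    (z : σ → ℤ) : ‖ψ z‖ ≤ 1 := by
  obtain ⟨κ, _, N, F, P, -, -, h3, -, rfl⟩ := h
  exact h3.bdd _

theorem cor_mono {T : Cell σ} {m m' : ℝ} {a ψ : (σ → ℤ) → ℂ} (h : Cor T m a ψ) (hm : m ≤ m') :
    Cor T m' a ψ :=
  le_trans (mul_le_mul_of_nonneg_right (Real.exp_le_exp.2 (neg_le_neg hm)) T.mu_pos.le) h

theorem chp_mono {T : Cell σ} {m m' : ℝ} {φ : (σ → ℤ) → ℂ} (h : Chp T m φ) (hm : m ≤ m') :
    Chp T m' φ := by
  obtain ⟨ξ, n, b, h1, h2, h3, h4⟩ := h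
  exact ⟨ξ, n, b, h1.trans (Real.exp_le_exp.2 hm), h2, h3.trans (Real.exp_le_exp.2 hm), h4⟩

theorem half {m m' x y z : ℝ} (hm : m + 1 ≤ m') (hx : 0 ≤ x) (h1 : Real.exp (-m) * x ≤ y)
    (h2 : y ≤ 2 * z) : Real.exp (-m') * x ≤ z := by
  have h3 : Real.exp (-m') * 2 ≤ Real.exp (-m) := by
    calc Real.exp (-m') * 2 ≤ Real.exp (-m') * Real.exp 1 := by
          gcongr; linarith [Real.add_one_le_exp (1 : ℝ)]
      _ ≤ _ := by rw [← Real.exp_add]; exact Real.exp_le_exp.2 (by linarith)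
  nlinarith [mul_le_mul_of_nonneg_right h3 hx]

theorem mu1_pos (T : Cell ι) : 0 < T.mu1 := prod_pos fun _ _ => inv_pos.2 (abs_pos.2 (T.a_ne _))

theorem dense_half {T : Cell ι} {m m' : ℝ} {H H₁ : Finset (T.L1 → ℤ)} (h : Dense T m H)
    (hs : H₁ ⊆ H) (hc : (#H : ℝ) ≤ 2 * #H₁) (hm : m + 1 ≤ m') : Dense T m' H₁ :=
  ⟨fun x hx c => (h.1 x (hs hx) c).trans (by linarith), half hm (mu1_pos T).le h.2 hc⟩

theorem red_half {t : ℕ} {T : Cell ι} {m m' : ℝ} {H H₁ : Finset (T.L1 → ℤ)}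
    {a : (T.L1 → ℤ) → (PI T → ℤ) → ℂ} (h : Red t m T H₁ a) (hs : H₁ ⊆ H)
    (hc : (#H : ℝ) ≤ 2 * #H₁) (hm : m + 1 ≤ m') : Red t m' T H a := by
  obtain ⟨b, φ, H', h1, h2, h3, h4, h5⟩ := h
  have hm' : m ≤ m' := by linarith
  refine ⟨b, φ, H', h1, chp_mono h2 hm', h3.trans hs, half hm (Nat.cast_nonneg _) le_rfl ?_,
    fun x hx => ?_⟩
  · nlinarith [mul_le_mul_of_nonneg_left hc (Real.exp_pos (-m)).le]
  · obtain ⟨ψ, h6, h7⟩ := h5 x hx
    exact ⟨ψ, isNilW_mono h6 hm', cor_mono h7 hm'⟩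

theorem pw_le {m : ℝ} (hm : 2 ≤ m) {a b : ℕ} (h : a ≤ b) : m ^ a ≤ m ^ b :=
  pow_le_pow_right₀ (by linarith) h

theorem pw_lt {m : ℝ} (hm : 2 ≤ m) {a b : ℕ} (h : a + 1 ≤ b) : 2 * m ^ a ≤ m ^ b :=
  le_trans (by rw [pow_succ]; nlinarith [pow_pos (show 0 < m by linarith) a]) (pw_le hm h)

/-- most pair cells of a dense family are regular -/
theorem reg_sub (hHer : HerStmt) (l D' a C' : ℕ) (ha : 2 ≤ a) (hC' : 1 ≤ C') :
    ∃ D C : ℕ, 1 ≤ C ∧ ∀ (ι : Type) [Fintype ι] (T : Cell ι) (m : ℝ), Ok T l D m (m ^ C) →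
      ∀ H, Dense T m H → ∃ H₁ ⊆ H, (#H : ℝ) ≤ 2 * #H₁ ∧
        ∀ h ∈ H₁, Ok (pc T h) l D' (m ^ a) ((m ^ a) ^ C') := by
  classical
  obtain ⟨D, C, hC, hH⟩ := hHer l 1 D'
  refine ⟨D, a * C' * C, Nat.mul_pos (Nat.mul_pos (by omega) hC') hC, fun ι _ T m hT H hd => ?_⟩
  have hm := hT.two
  have h1 : 2 * m ≤ m ^ a := by simpa using pw_lt hm (a := 1) ha
  have h2 : m ^ a ≤ (m ^ a) ^ C' := le_self_pow₀ (by linarith) (by omega)
  have h3 := hH ι T ((m ^ a) ^ C') (hT.mono le_rfl (by linarith) (by rw [pow_mul, pow_mul])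
    (by positivity))
    ((H.filter fun h => ¬ Gm (pc T h) l D' ((m ^ a) ^ C')).image fun h _ => h) (by
      intro q hq
      obtain ⟨h, hh, rfl⟩ := mem_image.1 hq
      exact ⟨fun _ c => (hd.1 h (mem_filter.1 hh).1 c).trans (by linarith), (mem_filter.1 hh).2⟩)
  rw [card_image_of_injective _ fun h h' e => congrFun e 0, pow_one] at h3
  have h4 := card_filter_add_card_filter_not (s := H) fun h => Gm (pc T h) l D' ((m ^ a) ^ C')
  have h5 : Real.exp (-(m ^ a) ^ C') * T.mu1 ≤ #H / 2 :=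
    half (m := m) (by linarith) (mu1_pos T).le hd.2 (by linarith)
  refine ⟨H.filter fun h => Gm (pc T h) l D' ((m ^ a) ^ C'), filter_subset _ _, ?_,
    fun h hh => ⟨by linarith, ?_, (mem_filter.1 hh).2⟩⟩
  · have h6 : (#{h ∈ H | Gm (pc T h) l D' ((m ^ a) ^ C')} : ℝ) +
        #{h ∈ H | ¬ Gm (pc T h) l D' ((m ^ a) ^ C')} = #H := by exact_mod_cast h4
    linarith
  · have h6 : (Fintype.card (PI T) : ℝ) ≤ 2 * Fintype.card ι := by exact_mod_cast card_PI T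
    linarith [hT.card]

end S31

open S31

theorem splitStmt (hMp : MpStmt) (hMs : MsStmt) (hHer : HerStmt) : SplitStmt := by
  classical
  intro l t
  obtain ⟨D₁, C₁, hC₁, hMs⟩ := hMs l
  obtain ⟨D, C, hC, hR⟩ := reg_sub hHer l D₁ 2 C₁ le_rfl hC₁
  refine ⟨D, C + 11, by omega, fun ι _ T m hT H a hd h => ?_⟩
  have hm := hT.two
  obtain ⟨H₁, hs, hc, hO⟩ := hR ι T m (hT.mono le_rfl le_rfl (pw_le hm (by omega))
    (by positivity)) H hd
  have h1 : 2 * m ≤ m ^ 2 := by nlinarith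
  have h' : ∀ x, ∃ ψ, x ∈ H → IsNilW (T.mlev (Fin 1)) t m ψ ∧
      ∃ φ, Chp (pc T x) m φ ∧ Cor (pc T x) m (fun z => a x z * φ z) ψ := by
    intro x
    by_cases hx : x ∈ H
    · obtain ⟨ψ, φ, h1, h2, h3⟩ := (h x hx).2
      exact ⟨ψ, fun _ => ⟨h1, φ, h2, h3⟩⟩
    · exact ⟨0, fun h => absurd h hx⟩
  choose ψ hψ using h'
  have hn : (Fintype.card (PI T) : ℝ) ≤ m ^ 2 := by
    have h6 : (Fintype.card (PI T) : ℝ) ≤ 2 * Fintype.card ι := by exact_mod_cast card_PI T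
    linarith [hT.card]
  obtain ⟨ξ, n, b, H', h2, h3, h4, h5, h6, h7⟩ := chp_pig (fun x => pc T x) H₁ (m := m ^ 2)
    (by linarith) hn a ψ fun x hx => by
      obtain ⟨h2, -, h3⟩ := hMs _ _ _ (hO x hx)
      obtain ⟨h4, φ, h5, h6⟩ := hψ x (hs hx)
      exact ⟨ms_of (by positivity) h2 h3, (h x (hs hx)).1, isNilW_bdd h4, φ,
        chp_mono h5 (by linarith), cor_mono h6 (by linarith)⟩
  have h8 : 64 * m ^ 4 ≤ m ^ 10 := by
    have : (2 : ℝ) ^ 6 ≤ m ^ 6 := by gcongr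
    nlinarith [pow_pos (show 0 < m by linarith) 4]
  have h9 : m ^ 2 + 1 ≤ m ^ 4 := by nlinarith
  have h10 : 2 * m ^ 10 ≤ m ^ (C + 11) := pw_lt hm (by omega)
  refine red_half (m := m ^ 10) ⟨_, _, H', fun z => (norm_chp T (xi T ξ 0) (fun c =>
    n (Sum.inl c) - ex2 T (fun c => n (Sum.inr (0, c))) c) b z).le,
    chp_chp T (ξ := xi T ξ 1) (ex2 T fun c => n (Sum.inr (0, c))) (b := b)
      (((sum_xi (hMp ι T 1) ξ 1).trans h2).trans (Real.exp_le_exp.2 (by nlinarith))) h3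
      (h4.trans (Real.exp_le_exp.2 (by nlinarith))), h5, le_trans ?_ h6, fun x hx => ?_⟩ hs hc
    (by nlinarith)
  · gcongr
    nlinarith
  · refine ⟨ψ x, isNilW_mono (hψ x (hs (h5 hx))).1 (by nlinarith), ?_⟩
    have := cor_mono (h7 x hx) (m' := m ^ 10) (by nlinarith)
    simpa only [chp_pc (hMp ι T 1), mul_assoc] using this

theorem convFStmt (hConv : ConvStmt) (hSplit : SplitStmt) (hHer : HerStmt) (hMp : MpStmt)
    (hClos : ClosRStmt) : ConvFStmt := by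
  intro l S t
  obtain ⟨C₀, hC₀, hN⟩ := hClos.2.2 S
  obtain ⟨D₁, C₁, hC₁, hConv⟩ := hConv l S t
  obtain ⟨D₂, C₂, hC₂, hSplit⟩ := hSplit l t
  obtain ⟨D, C, hC, hR⟩ := reg_sub hHer l D₁ (C₀ + 1) C₁ (by omega) hC₁
  refine ⟨D + D₂, C + (C₀ + 1) * C₁ * C₂ + 1, by omega,
    fun ι _ T m hT κ _ N g η 𝔥 H F P a hg hκ hN' hGR hη hd h => ?_⟩
  have hm := hT.two
  obtain ⟨H₁, hs, hc, hO⟩ := hR ι T m (hT.mono (by omega) le_rfl (pw_le hm (by omega))
    (by positivity)) H hd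
  have h1 : 2 * m ≤ m ^ (C₀ + 1) := by simpa using pw_lt hm (a := 1) (by omega)
  have h2 : m ^ (C₀ + 1) ≤ (m ^ (C₀ + 1)) ^ C₁ := le_self_pow₀ (by linarith) (by omega)
  have h3 : (m ^ (C₀ + 1)) ^ C₁ ≤ ((m ^ (C₀ + 1)) ^ C₁) ^ C₂ :=
    le_self_pow₀ (by linarith) (by omega)
  have h4 : 2 * ((m ^ (C₀ + 1)) ^ C₁) ^ C₂ ≤ m ^ (C + (C₀ + 1) * C₁ * C₂ + 1) := by
    rw [← pow_mul, ← pow_mul, ← mul_assoc]
    exact pw_lt hm (by omega)
  have he : Real.exp m ≤ Real.exp (m ^ (C₀ + 1)) := Real.exp_le_exp.2 (by linarith)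
  refine red_half (hSplit ι T ((m ^ (C₀ + 1)) ^ C₁)
    (hT.mono (by omega) (by linarith) (by linarith) (by linarith)) H₁ a
    (dense_half hd hs hc (by linarith)) fun x hx => ?_) hs hc (by linarith)
  obtain ⟨h5, h6, h7, h8, h9⟩ := h x (hs hx)
  refine ⟨h8, hConv _ (pc T x) _ (hO x hx) κ N g η 𝔥 (F x) (P x) (a x) hg (by linarith)
    (hN'.mono he) (hGR.mono (by linarith)) hη (h5.mono he) h6 ?_ h8 (cor_mono h9 (by linarith))⟩
  have hmor := ((hMp ι T 1).mor fun _ => x).2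
  have h10 := ((hN m hm κ _ g _ ((GI.fd_of_good hκ hN').grOf hg)).2.2.2 _ _ X
    ⟨hmor.int, hmor.hom, fun v => by
      obtain ⟨e, h1, h2, h3⟩ := hmor.th v
      refine ⟨e, h1, h2.trans ?_, h3⟩
      have h11 := Real.add_one_le_exp (1 : ℝ)
      have h12 : Real.exp 1 * Real.exp 1 ≤ Real.exp m := by
        rw [← Real.exp_add]; exact Real.exp_le_exp.2 (by linarith)
      push_cast
      nlinarith⟩).2.2.2 _ _ h7
  have e : g.subst X (symW (T.mlev (Fin 1)) N g (P x)) = symW (T.mlev (Fin 1)) N g (P x) :=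
    funext fun k => by rw [Gf.subst_apply, bind₁_X_left, AlgHom.id_apply]
  rw [e] at h10
  exact h10.mono (pw_le hm (by omega)) le_rfl

end Crest.Agent.T49.Ri
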