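import Crest.Agent.T49.RiApi_81

/-!
# Row 49 (helper81): steps 1 and 8 of the relative inverse theorem
-/

set_option autoImplicit false

noncomputable section

namespace Crest.Agent.T49.Ri

open Finset MvPolynomial
open Crest.Agent.T49.Tw Crest.Agent.T49.Nil Crest.Agent.T49.Nil.ND
open Crest.Agent.T49.Gf (wcf)
open scoped ComplexConjugate

open A81

theorem step1 (hMs : MsStmt) (hHer : HerStmt) (hDown : DownStmt) (hSplit : SplitStmt) :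
    Step1Stmt := by
  classical
  intro l t hRI
  obtain ⟨D₀, C₀, hC₀, hRI⟩ := hRI
  obtain ⟨D₁, C₁, hC₁, hDown⟩ := hDown l (t + 1)
  obtain ⟨D₂, C₂, hC₂, hMs⟩ := mass_le hMs l
  obtain ⟨D₃, C₃, hC₃, hHer⟩ := pair_ok hHer l (D₀ + D₂) (C₀ + C₂)
  obtain ⟨D₄, C₄, hC₄, hSplit⟩ := hSplit l (t + 1)
  obtain ⟨C, hC⟩ : ∃ C : ℕ, ∀ m : ℝ, 2 ≤ m → m ^ C₁ ≤ m ^ C ∧ (m ^ C₁) ^ C₃ ≤ m ^ C ∧
      7 * ((2 * m ^ C₁) ^ C₀) ^ C₄ ≤ m ^ C ∧
      ((2 * m ^ C₁) ^ C₀) ^ C₄ + 2 + (((2 * m ^ C₁) ^ C₀) ^ C₄) ^ 5 ≤ m ^ C ∧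
      (2 * m ^ C₁) ^ C₀ + ((2 * m ^ C₁) ^ C₀) ^ C₄ + (((2 * m ^ C₁) ^ C₀) ^ C₄) ^ (t + 1 + 7) +
        (7 * ((2 * m ^ C₁) ^ C₀) ^ C₄) ^ 3 ≤ m ^ C := by qp
  refine ⟨D₁ + D₃ + D₄, C + 1, by omega, fun ι _ T m f hT hb hU => ?_⟩
  have hm := hT.two
  obtain ⟨e1, e2, e3, e4, e5⟩ := hC m hm
  have eC : m ^ C ≤ m ^ (C + 1) := Qp.pw_mono hm (by omega)
  have a1 : m ≤ m ^ C₁ := le_self_pow₀ (by linarith) (by omega)
  set m₁ := m ^ C₁ with hm₁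
  have a2 : 2 * m₁ ≤ (2 * m₁) ^ C₀ := le_self_pow₀ (by linarith) (by omega)
  set m₂ := (2 * m₁) ^ C₀ with hm₂
  have a3 : m₂ ≤ m₂ ^ C₄ := le_self_pow₀ (by linarith) (by omega)
  set m₃ := m₂ ^ C₄ with hm₃
  have hm3 : 2 ≤ m₃ := by linarith
  have e0 : m₃ ≤ m ^ (C + 1) := by linarith
  obtain ⟨H₀, hd0, hH₀⟩ := hDown ι T m f
    (hT.mono (by omega) le_rfl (e1.trans eC) (by linarith)) hb hU
  obtain ⟨H₁, hs1, hd1, hH₁⟩ := hHer ι T m₁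
    (hT.mono (by omega) a1 (e2.trans eC) (by positivity)) H₀ hd0
  have hab : ∀ (h : T.L1 → ℤ) (p : PI T → ℤ), ‖f (y1 T h p) * conj (f (y0 T p))‖ ≤ 1 :=
    fun h p => by
      rw [norm_mul, RCLike.norm_conj]; exact mul_le_one₀ (hb _) (norm_nonneg _) (hb _)
  obtain ⟨b, φ, H₂, hbb, hφ, hs2, hd2, hH₂⟩ := hSplit ι T m₂
    (hT.mono (by omega) (by linarith) e0 (by linarith)) H₁
    (fun h p => f (y1 T h p) * conj (f (y0 T p))) (dense_mono hd1 (by linarith)) fun h hh =>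
      ⟨hab h, hRI _ (pc T h) (2 * m₁) _ ((hH₁ h hh).mono (by omega) le_rfl
        (pow_le_pow_right₀ (by linarith) (by omega)) (pow_nonneg (by linarith) _)) (hab h)
        (bigU_mono (hH₀ h (hs1 hh)) (by linarith))⟩
  have hd2' := dense_sub' (dense_mono hd1 (by linarith : m₁ + 1 ≤ m₂)) hs2 (by linarith) hd2
  set a : (T.L1 → ℤ) → (PI T → ℤ) → ℂ := fun h p =>
    f (y1 T h p) * φ (y1 T h p) * (conj (f (y0 T p)) * b (y0 T p)) with ha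
  have hb' : ∀ z, ‖conj (f z) * b z‖ ≤ 1 := fun z => by
    rw [norm_mul, RCLike.norm_conj]; exact mul_le_one₀ (hb _) (norm_nonneg _) (hbb _)
  have ha1 : ∀ h p, ‖a h p‖ ≤ 1 := fun h p => by
    simp only [ha]
    rw [norm_mul, norm_mul, chp_norm hφ, mul_one]
    exact mul_le_one₀ (hb _) (norm_nonneg _) (hb' _)
  obtain ⟨⟨d, N⟩, ⟨hd, hN⟩, H₃, hs3, hd3, hr3⟩ := (cnt_data_exp (t + 1) hm3).pigeon_exp
    (mu1_pos T) hd2'.2
    (fun h x => ∃ (F : x.2.L → ℂ) (P : x.2.PS (PI T)), x.2.LipFn (t + 1) (Real.exp m₃) F ∧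
      P ∈ wcf (T.mlev (Fin 1)) x.2.F ∧ Cor (pc T h) m₃ (a h) (sqW x.2 F P)) (by
      intro h hh
      obtain ⟨ψ, hψ, hc⟩ := hH₂ h hh
      obtain ⟨d, N, F, P, h1, h2, h3, h4, rfl⟩ := nil_fin hψ
      exact ⟨⟨d, N⟩, ⟨h1, h2⟩, F, P, h3, h4, cor_congr hc fun p => by simp only [ha]; ring⟩)
  simp only at hd hN hr3
  have hd' : (Fintype.card (Fin d) : ℝ) ≤ m₃ := by simpa using hd
  have hwt : ∀ k, N.wt k ≤ t + 2 := fun k => (hN.wt_le k).trans (by omega)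
  obtain ⟨η, hη, H₄, hs4, hd4, hr4⟩ := (cnt_vec_exp (m := 7 * m₃) (Fin d) (by linarith)
    (by linarith)).pigeon_exp (mu1_pos T) hd3
    (fun h η => ∃ (G : N.L → ℂ) (P : N.PS (PI T)),
      N.NChar (t + 2) (t + 1) (Real.exp (7 * m₃)) η G ∧ P ∈ wcf (T.mlev (Fin 1)) N.F ∧
        Cor (pc T h) (m₃ + 2 + m₃ ^ 5) (a h) (sqW N G P)) (by
      intro h hh
      obtain ⟨F, P, h1, h2, h3⟩ := hr3 h hh
      obtain ⟨η, G, h4, h5⟩ := cor_expand hm3 hd' hwt ((h1.nfn hN.wt_le).step hN.wt_le hwt)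
        (hMs _ (pc T h) (2 * m₁) ((hH₁ h (hs2 (hs3 hh))).mono (by omega) le_rfl
          (pow_le_pow_right₀ (by linarith) (by omega)) (by positivity))).1 (ha1 h) P h3
      exact ⟨η, h4.η_le, G, P, h4, h2, h5⟩)
  have hd5 : Dense T (m ^ (C + 1)) H₄ := dense_sub hd2' (hs4.trans hs3)
    (by nlinarith [pow_nonneg (by linarith : 0 ≤ m₃) (t + 1 + 7),
      pow_nonneg (by linarith : 0 ≤ 7 * m₃) 3])
    (dens_mono hd4 (e5.trans eC) (mu1_pos T).le)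
  choose! G P h1 h2 h3 using hr4
  obtain ⟨h₀, hh₀⟩ := dense_nonempty hd5
  have e3' := Real.exp_le_exp.2 (e3.trans eC)
  exact ⟨Fin d, inferInstance, N, η, H₄, G, P, φ, fun z => conj (f z) * b z,
    { dim := hd'.trans e0
      good := (hN.step hwt).mono (Real.exp_le_exp.2 e0)
      wt_le := hN.wt_le
      freq := ⟨(h1 h₀ hh₀).supp, fun k => (hη k).trans e3'⟩
      dense := hd5
      chp := chp_mono hφ e0
      bdd := hb'
      chr := fun h hh => (h1 h hh).mono e3'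
      poly := h2
      cor := fun h hh => cor_mono (h3 h hh) (e4.trans eC) }⟩

theorem step8_81 (hHer : HerStmt) (hDer : DerStmt) (hUp : UpStmt) : Step8Stmt := by
  intro l t hRI
  obtain ⟨D₀, C₀, hC₀, hRI⟩ := hRI
  obtain ⟨D₁, C₁, hC₁, hDer⟩ := hDer l t
  obtain ⟨D₂, C₂, hC₂, hUp⟩ := hUp l t
  obtain ⟨D₃, C₃, hC₃, hHer⟩ := pair_ok hHer l D₁ C₁
  obtain ⟨C, hC⟩ : ∃ C : ℕ, ∀ m : ℝ, 2 ≤ m → m ^ C₃ ≤ m ^ C ∧
      2 * (((2 * m) ^ C₁) ^ C₂) ^ C₀ ≤ m ^ C := by qp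
  refine ⟨D₀ + D₂ + D₃, C + 1, by omega, fun ι _ T m f hT hb hE => ?_⟩
  obtain ⟨Θ, φ, b, H, hΘ, hφ, hbb, hd, hc⟩ := hE
  have hm := hT.two
  obtain ⟨e1, e2⟩ := hC m hm
  have eC : m ^ C ≤ m ^ (C + 1) := Qp.pw_mono hm (by omega)
  have a1 : 2 * m ≤ (2 * m) ^ C₁ := le_self_pow₀ (by linarith) (by omega)
  set m₁ := (2 * m) ^ C₁ with hm₁
  have a2 : m₁ ≤ m₁ ^ C₂ := le_self_pow₀ (by linarith) (by omega)
  set m₂ := m₁ ^ C₂ with hm₂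
  have a3 : m₂ ≤ m₂ ^ C₀ := le_self_pow₀ (by linarith) (by omega)
  set m₃ := m₂ ^ C₀ with hm₃
  obtain ⟨H₁, hs1, hd1, hH₁⟩ := hHer ι T m
    (hT.mono (by omega) le_rfl (e1.trans eC) (by positivity)) H hd
  set g : (ι → ℤ) → ℂ := fun z => f z * φ z * Θ z with hg
  have bg : ∀ z, ‖g z‖ ≤ 1 := fun z => by
    simp only [hg]
    rw [norm_mul, norm_mul, chp_norm hφ, mul_one]
    exact mul_le_one₀ (hb z) (norm_nonneg _) (nil_bdd hΘ z)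
  have hU : BigU (t + 1) m₂ T g := by
    refine hUp ι T m₁ g (hT.mono (by omega) (by linarith) (by linarith) (by linarith)) bg
      ⟨b, H₁, hbb, dense_mono hd1 (by linarith), fun h hh => ?_⟩
    obtain ⟨ψ, h1, h2⟩ := hc h (hs1 hh)
    refine hDer _ (pc T h) (2 * m) _ (hH₁ h hh) (fun p => ?_)
      ⟨ψ, nil_mono h1 le_rfl (by linarith), cor_mono h2 (by linarith)⟩
    rw [norm_mul]
    exact mul_le_one₀ (bg _) (norm_nonneg _) (hbb _)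
  obtain ⟨ψ, φ', p1, p2, p3⟩ := hRI ι T m₂ g
    (hT.mono (by omega) (by linarith) (by linarith) (by linarith)) bg hU
  refine ⟨fun z => Θ z * ψ z, fun z => φ z * φ' z,
    nil_mono (nil_mul (by linarith) (nil_mono hΘ le_rfl (by linarith))
      (nil_mono p1 (by omega) le_rfl)) le_rfl (e2.trans eC),
    chp_mono (chp_mul (by linarith) (chp_mono hφ (by linarith)) p2) (e2.trans eC),
    cor_mono (cor_congr p3 fun z => ?_) (by linarith)⟩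
  simp only [hg]
  ring

end Crest.Agent.T49.Ri
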