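import Crest.Agent.T49.RiStep2A_3
import Crest.Agent.T49.RiA_54
import Crest.Agent.T49.Qp_85

/-!
# Row 49 (helper3): relative inverse theorem, step 2 (`StA ⇒ StQ`)
-/

set_option autoImplicit false

noncomputable section

namespace Crest.Agent.T49.Ri

open Finset MvPolynomial
open Crest.Agent.T49.Tw Crest.Agent.T49.Nil Crest.Agent.T49.Nil.ND
open Crest.Agent.T49.Gf (wcf)
open Crest.Agent.T49.GI (Gd GR gr pw pwη sg4 tup pr)
open Crest.Agent.T49.Br (NearR qt q3)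
open Crest.Agent.T49.Box (cz)
open scoped ComplexConjugate

namespace St2

theorem famA_mono {ι κ : Type} [Fintype ι] [Fintype κ] {t : ℕ} {m m' : ℝ} {T : Cell ι}
    {f : (ι → ℤ) → ℂ} {N : ND κ} {η : κ → ℤ} {H : Finset (T.L1 → ℤ)}
    {F : (T.L1 → ℤ) → N.L → ℂ} {P : (T.L1 → ℤ) → N.PS (PI T)} {φ b : (ι → ℤ) → ℂ}
    (h : FamA t m T f N η H F P φ b) (hm : m ≤ m') : FamA t m' T f N η H F P φ b :=
  ⟨h.dim.trans hm, h.good.mono (ex_le hm), h.wt_le,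
    ⟨h.freq.supp, fun k => (h.freq.le k).trans (ex_le hm)⟩, h.dense.mono hm, h.chp.mono hm, h.bdd,
    fun x hx => (h.chr x hx).mono (ex_le hm), h.poly, fun x hx => (h.cor x hx).mono hm⟩

theorem gd_gr {κ : Type} [Fintype κ] {N : ND κ} {S : ℕ} {m : ℝ} (hd : (Fintype.card κ : ℝ) ≤ m)
    (h : N.Good S (Real.exp m)) : ∀ g, GI.GrOf N g → Gd g S m := fun g hg =>
  { wt_le := fun k => hg.1 k ▸ h.wt_le k
    dim := hd
    c_le := fun i j k => by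
      rw [hg.2]
      split_ifs
      · exact h.c_le i j k
      · simpa using (Real.exp_pos m).le
    gr := hg.graded }

theorem bk1 : ∃ C : ℕ, ∀ (m : ℝ) (n : ℕ), 2 ≤ m → (n : ℝ) ≤ m →
    4 * (2 * m + Real.pi * n * m ^ 2 + n) + 4 ≤ m ^ C ∧ 6 * m ≤ m ^ C := by qp

theorem bk2 (a b c d : ℕ) : ∃ C : ℕ, ∀ (m : ℝ), 2 ≤ m →
    (m ^ a) ^ b + 1 + (((m ^ a) ^ b) ^ c) ^ 4 ≤ m ^ C ∧
    ((((m ^ a) ^ b) ^ c) ^ d) ^ d ≤ m ^ C ∧ m ≤ m ^ C := by qp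

/-- many triples of differences with a large four-point correlation -/
theorem four_large {ι : Type} [Fintype ι] {T : Cell ι} (hM : MpAt T 3) {x y : ℝ}
    {K : (ι → ℤ) → (ι → ℤ) → ℂ} {a b : (ι → ℤ) → ℂ} (ha : ∀ z, ‖a z‖ ≤ 1) (hb : ∀ z, ‖b z‖ ≤ 1)
    (hK : ∀ x y, ‖K x y‖ ≤ 1) (hM2 : T.M ≤ 2 * T.mu) (hxy : 4 * x + 4 ≤ y)
    (h : Real.exp (-x) * T.mu ^ 2 ≤ ‖∑' y : Fin 2 → ι → ℤ, (∏ i, (T.wgt (y i) : ℂ)) *
      (b (y 0) * (a (y 1) * K (y 0) (y 1)))‖) :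
    Real.exp (-y) * T.mu ^ (3 + 1) ≤ ∑' h : Fin 3 → T.L1 → ℤ, T.gamK h *
      ‖∑' p, ((T.mp h).wgt p : ℂ) * G4 K fun i => T.pt h i p‖ := by
  have hmu := T.mu_pos
  have h1 := B3.box_cs ⟨T.wgt_nonneg, T.summable_wgt⟩ hb ha hK
  have h2 := hM.tsum _ (norm_G4 hK)
  have hv : ∀ h : Fin 3 → T.L1 → ℤ, ‖∑' p, ((T.mp h).wgt p : ℂ) * G4 K fun i => T.pt h i p‖ ≤
      (T.mp h).M := fun h =>
    ((B3.Wt.mk (T.mp h).wgt_nonneg (T.mp h).summable_wgt).norm_Ex_le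
      fun p => norm_G4 hK fun i => T.pt h i p).trans (le_of_eq (mul_one _))
  have hs : Summable fun h : Fin 3 → T.L1 → ℤ => T.gamK h *
      ‖∑' p, ((T.mp h).wgt p : ℂ) * G4 K fun i => T.pt h i p‖ :=
    Summable.of_nonneg_of_le (fun h => mul_nonneg (gamK_pos h).le (norm_nonneg _))
      (fun h => mul_le_mul_of_nonneg_left (hv h) (gamK_pos h).le) hM.summ
  have h3 : ‖∑' y : Fin 4 → ι → ℤ, (∏ i, (T.wgt (y i) : ℂ)) * G4 K y‖ ≤ _ :=
    (le_of_eq (congrArg _ h2)).trans (tsum_of_norm_bounded hs.hasSum fun h => by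
      rw [norm_mul, Complex.norm_real, Real.norm_of_nonneg (gamK_pos h).le])
  refine le_trans ?_ h3
  have h4 := ((pow_le_pow_left₀ (by positivity) h 4).trans h1).trans
    (mul_le_mul_of_nonneg_right (pow_le_pow_left₀ T.M_pos.le hM2 4) (norm_nonneg _))
  refine le_of_mul_le_mul_left (le_trans ?_ h4) (by positivity : 0 < (2 * T.mu) ^ 4)
  have h5 : (2 : ℝ) ^ 4 * Real.exp (-y) ≤ Real.exp (-x) ^ 4 := by
    have h6 : (2 : ℝ) ≤ Real.exp 1 := by linarith [Real.add_one_le_exp (1 : ℝ)]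
    refine (mul_le_mul_of_nonneg_right (pow_le_pow_left₀ (by norm_num) h6 4)
      (Real.exp_pos _).le).trans ?_
    rw [← Real.exp_nat_mul, ← Real.exp_nat_mul, ← Real.exp_add, Real.exp_le_exp]
    push_cast; linarith
  calc _ = 2 ^ 4 * Real.exp (-y) * T.mu ^ 8 := by ring
    _ ≤ Real.exp (-x) ^ 4 * T.mu ^ 8 := by gcongr
    _ = _ := by ring

end St2

open St2

theorem step2 (hMp : MpStmt) (hMs : MsStmt) (hHer : HerStmt) (hAvg : AvgStmt) (hLt : LtStmt)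
    (hCl : Br.ClosRStmt) (hMk : Br.MkRStmt) : Step2Stmt := by
  classical
  intro l t
  obtain ⟨Ds, Cs, -, hMs⟩ := hMs l
  obtain ⟨Da, Ca, hCa, hAvg⟩ := hAvg l 3
  obtain ⟨Dl, Cl, hCl1, hLt⟩ := hLt l (t + 2) (t + 1) (by omega)
  obtain ⟨Dh, Ch, -, hHer⟩ := hHer l 3 Dl
  obtain ⟨Cc, hCc, hCl⟩ := hCl.2.2 (t + 2)
  obtain ⟨c₀, hc₀⟩ := bk1
  obtain ⟨E, hE⟩ := bk2 (c₀ + 1) Ca Cl Cc
  refine ⟨Ds + Da + Dh, E + Cs + (c₀ + 1) * Ca + (c₀ + 1) * Ca * Cl * 2 * Ch + 1, by omega, ?_⟩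
  rintro ι _ T m f hOk hf ⟨κ, _, N, η, H, F, P, φ, b, hA⟩
  have hm := hOk.two
  set C := E + Cs + (c₀ + 1) * Ca + (c₀ + 1) * Ca * Cl * 2 * Ch + 1 with hC
  obtain ⟨e1, e2⟩ := hc₀ m _ hm hOk.card
  obtain ⟨e3, e4, e5⟩ := hE m hm
  have eC : m ^ E ≤ m ^ C := Qp.pw_mono hm (by omega)
  have ec : m ^ c₀ ≤ m ^ (c₀ + 1) := Qp.pw_mono hm (by omega)
  have up : ∀ {a : ℝ} {C : ℕ}, 2 ≤ a → 1 ≤ C → a ≤ a ^ C := fun ha hC =>
    le_self_pow₀ (by linarith) (by omega)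
  set m₂ := m ^ (c₀ + 1) with hm₂
  set m₃ := m₂ ^ Ca with hm₃
  set m₅ := m₃ ^ Cl with hm₅
  have l2 : 6 * m ≤ m₂ := e2.trans ec
  have l3 : m₂ ≤ m₃ := up (by linarith) hCa
  have l5 : m₃ ≤ m₅ := up (by linarith) hCl1
  have l6 : m₅ ≤ m₅ ^ Cc := up (by linarith) hCc
  have l7 : m₅ ^ Cc ≤ (m₅ ^ Cc) ^ Cc := up (by linarith) hCc
  have l4 : m₅ + 1 ≤ m₅ ^ 2 := by nlinarith
  have hM2 : T.M ≤ 2 * T.mu := M_le_two_mu (hMs ι T m (hOk.mono (by omega) le_rfl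
    (Qp.pw_mono hm (by omega)) (by positivity))).1 (by linarith)
  have hF : ∀ h ∈ H, ∀ x, ‖F h x‖ ≤ 1 := fun h hh => (hA.chr h hh).bdd
  have ha : ∀ z, ‖f z * φ z‖ ≤ 1 := bdd_mul hf hA.chp.bdd
  obtain ⟨c, hc, h2⟩ := two_large (hMp ι T 1) ha hA.bdd hF hA.dense hA.cor
  have hK := norm_KK (P := P) hc hF
  have h4 := four_large (hMp ι T 3) ha hA.bdd hK hM2 (e1.trans ec) h2
  obtain ⟨Q, hQ, hQ'⟩ := hAvg ι T m₂ (hOk.use (by omega) (by omega) (by omega)) _ (fun h =>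
    ⟨norm_nonneg _, ((B3.Wt.mk (T.mp h).wgt_nonneg (T.mp h).summable_wgt).norm_Ex_le
      fun p => norm_G4 hK fun i => T.pt h i p).trans (le_of_eq (mul_one _))⟩) h4
  have hOk4 : Ok T l Dh (m₅ ^ 2) ((m₅ ^ 2) ^ Ch) := by
    have := hOk.use (D' := Dh) (C₀ := (c₀ + 1) * Ca * Cl * 2) (C' := Ch) (by omega)
      (Nat.mul_pos (Nat.mul_pos (Nat.mul_pos (by omega) hCa) hCl1) two_pos) (by omega)
    simpa only [pow_mul] using this
  have hmu := pow_pos (mu1_pos T) 3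
  have hbad := hHer ι T _ hOk4 {h ∈ Q | ¬ Gm (T.mp h) l Dl (m₅ ^ 2)} fun h hh =>
    ⟨fun j => ((hQ' h (mem_filter.1 hh).1).1 j).mono (by linarith), (mem_filter.1 hh).2⟩
  have hgood : Real.exp (-(m₃ + 1)) * T.mu1 ^ 3 ≤ #{h ∈ Q | Gm (T.mp h) l Dl (m₅ ^ 2)} := by
    have h5 : (#{h ∈ Q | Gm (T.mp h) l Dl (m₅ ^ 2)} : ℝ) +
        #{h ∈ Q | ¬ Gm (T.mp h) l Dl (m₅ ^ 2)} = #Q := by
      exact_mod_cast card_filter_add_card_filter_not _
    have h6 := mul_le_mul_of_nonneg_right (two_mul_exn m₃) hmu.le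
    have h7 := mul_le_mul_of_nonneg_right (exn_le (show m₃ + 1 ≤ m₅ ^ 2 by linarith)) hmu.le
    linarith
  have hc4 : (Fintype.card (Fin 4 × κ) : ℝ) ≤ m₃ := by
    rw [Fintype.card_prod, Fintype.card_fin]; push_cast; linarith [hA.dim]
  have hgood4 : (pw N (Fin 4)).Good (t + 2) (Real.exp m₃) :=
    (good_pw hA.good (Real.exp_pos _).le _).mono (ex_le (by linarith))
  have hgr := (GI.grOf_gr N).pw (Fin 4)
  have hgd := gd_gr hc4 hgood4 _ hgr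
  have hcnt : Cnt (fun 𝔥 : LieSubalgebra ℝ (pw (gr N) (Fin 4)).L =>
      GR (pw (gr N) (Fin 4)) m₅ 𝔥.toSubmodule ∧
        ∀ z ∈ 𝔥, (pw (gr N) (Fin 4)).fn (pwη sg4 η) z = 0) (Real.exp (m₅ ^ 4)) :=
    (cnt_ratS_exp (pw (gr N) (Fin 4)) (by linarith) (hc4.trans l5)).of_inj
      (fun 𝔥 => 𝔥.toSubmodule) (fun 𝔥 h => h.1.rat)
      fun _ _ _ _ h => LieSubalgebra.toSubmodule_injective h
  have he2 : (2 : ℝ) ≤ Real.exp 1 := by linarith [Real.add_one_le_exp (1 : ℝ)]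
  have he8 : ∀ x : ℝ, 7 ≤ x → 8 ≤ Real.exp x := fun x hx => by linarith [Real.add_one_le_exp x]
  obtain ⟨𝔥, ⟨hg1, hg2⟩, Z, -, hdZ, hr⟩ := hcnt.pigeon_exp hmu hgood
    (fun h 𝔥 => (∀ i, qq T h i ∈ H) ∧ NearR ((mkT T).cs (q3 (qq T h))) (pw (gr N) (Fin 4)) (t + 2)
      ((m₅ ^ Cc) ^ Cc) 𝔥.toSubmodule (qt (gr N) (fun _ h => symP T N (P h)) (qq T h))) (by
      intro h hh
      obtain ⟨hh1, hh2⟩ := mem_filter.1 hh
      have hv := (hQ' h hh1).2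
      have hmem : ∀ i, qq T h i ∈ H := fun i => by
        by_contra hi
        simp only [B3.Ex, G4_zero hi, mul_zero, tsum_zero, norm_zero] at hv
        exact absurd hv (not_le.2 (mul_pos (Real.exp_pos _) (T.mp h).mu_pos))
      have hchr := nChar_pw_cz (Real.exp_pos m).le sgU fun i => hA.chr _ (hmem i)
      rw [sgU_eq] at hchr
      have h5 : (Fintype.card (Fin 4) : ℝ) * Real.exp m ≤ Real.exp m₃ := by
        rw [Fintype.card_fin]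
        calc ((4 : ℕ) : ℝ) * Real.exp m ≤ Real.exp (4 * m) * Real.exp m := by
              have := he8 (4 * m) (by linarith)
              gcongr; push_cast; linarith
          _ = Real.exp (4 * m + m) := (Real.exp_add _ _).symm
          _ ≤ _ := ex_le (by linarith)
      obtain ⟨𝔥, k1, k2, k3⟩ := hLt _ (T.mp h) m₃
        ((hOk.mp (m' := m₃) hh2 (by push_cast; linarith)).mono le_rfl le_rfl (by linarith)
          (by positivity)) _ _ _ _ _ (P4 T h P) (fun _ => 1) hgr hc4 hgood4 (hchr.mono h5)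
        (P4_mem T h fun i => hA.poly _ (hmem i)) (chp_one _ (by linarith)) (by
          refine hv.trans (le_of_eq ?_)
          simp only [B3.Ex, G4_pos (hMp ι T 3) hmem, one_mul, mul_left_comm _ (∏ i, cz _ _), tsum_mul_left,
            norm_mul, norm_prod, Box.norm_cz, hc, prod_const_one])
      refine ⟨𝔥, ⟨k1, k2⟩, hmem, ?_⟩
      have k4 := (hCl m₅ (by linarith) _ _ _ _ (Br.gd_mono hgd l5)).2.2.2 _ _ _
        (((hMp ι T 3).mor h).1.mono (by push_cast; linarith [he8 m₅ (by linarith)])) |>.2.2.2 _ _ k3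
      have k5 := (hCl (m₅ ^ Cc) (by linarith) _ _ _ _ (Br.gd_mono hgd (l5.trans l6))).2.2.2 _ _ _
        ((((hMk.1 ι T.U2 T.L1 _ _ (mkT T) h (q3 (qq T h))).1 MM (eq_MM T h)).2 2 one_le_two
          MM_le).mono (by linarith [he8 (m₅ ^ Cc) (by linarith)])) |>.2.2.2 _ _ k4
      rw [← sym_P4 T h fun i => hA.poly _ (hmem i)]
      convert k5 using 2
      funext j
      exact (aeval_X_left_apply _).symm)
  refine ⟨κ, inferInstance, N, η, H, F, P, φ, b, famA_mono hA (e5.trans eC), 𝔥, Z.image (qq T),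
    Br.gr_mono hg1 (by linarith), hg2, ?_, fun q hq => ?_⟩
  · rw [card_image_of_injective _ (qq_inj T)]
    exact (mul_le_mul_of_nonneg_right (exn_le (e3.trans eC)) hmu.le).trans hdZ
  · obtain ⟨h, hh, rfl⟩ := mem_image.1 hq
    exact ⟨(hr h hh).1, qq_add T h, (hr h hh).2.mono (e4.trans eC) le_rfl⟩

end Crest.Agent.T49.Ri
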