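import Crest.Agent.T49.RiS4A_58
import Crest.Agent.T49.GiPush_14
import Crest.Agent.T49.GiSubq_33
import Crest.Agent.T49.GiVec_46

/-!
# Row 49 (helper58): step 4 of the relative inverse theorem, `StS → StB`
-/

set_option autoImplicit false

noncomputable section

namespace Crest.Agent.T49.Ri

open Finset MvPolynomial
open Crest.Agent.T49.Tw Crest.Agent.T49.Nil Crest.Agent.T49.Nil.ND
open Crest.Agent.T49.Bch (star)
open Crest.Agent.T49.Gf (wcf)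
open Crest.Agent.T49.GI (CoId On Gd GR GMap Freq Graded gr Bigr pd pair fst snd grOf_gr fn_pd)
open Crest.Agent.T49.GI.S57 (dg dg_apply graph freq_mono intMap_mono gd_mono gr_mono gmap_mono
  gmap_freq gmap_comp gmap_dg gd_gr le_pw)
open Crest.Agent.T49.Br (Hm Uo NearR at' up ren)
open scoped ComplexConjugate

namespace S58

variable {ι κ κ' : Type} [Fintype ι] [Fintype κ] [Fintype κ']

theorem famA_mono {t : ℕ} {m m' : ℝ} {T : Cell ι} {f : (ι → ℤ) → ℂ} {N : ND κ} {η : κ → ℤ}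
    {H : Finset (T.L1 → ℤ)} {F : (T.L1 → ℤ) → N.L → ℂ} {P : (T.L1 → ℤ) → N.PS (PI T)}
    {φ b : (ι → ℤ) → ℂ} (h : FamA t m T f N η H F P φ b) (hm : m ≤ m') :
    FamA t m' T f N η H F P φ b :=
  ⟨h.dim.trans hm, h.good.mono (Real.exp_le_exp.2 hm), h.wt_le, freq_mono h.freq hm,
    dense_mono h.dense hm, chp_mono h.chp hm, h.bdd,
    fun a ha => (h.chr a ha).mono (Real.exp_le_exp.2 hm), h.poly,
    fun a ha => cor_mono (h.cor a ha) hm⟩

/-- the output of `ModelStmt`, with the frequency pulled back to `B` -/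
structure Mdl (t : ℕ) (m : ℝ) (T : Cell ι) (A : ND κ) (hd : κ → Bool) (ηA : κ → ℤ)
    (x : A.PS (ι ⊕ ι)) (B : ND κ') (ν : κ' → Prop) (inc : B.L →ₗ⁅ℝ⁆ A.L) (ηB : κ' → ℤ)
    (z : (T.L1 → ℤ) → B.PS (PI T)) (z₀ : B.PS ι) : Prop where
  dimA : (Fintype.card κ : ℝ) ≤ m
  goodA : A.Good (t + 2) (Real.exp m)
  bigr : Bigr A hd
  freqA : Freq A (t + 2) m ηA
  top : ∀ k, hd k = false → ηA k = 0
  bih : BiH A hd T.lev x
  dimB : (Fintype.card κ' : ℝ) ≤ m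
  grB : Graded B
  goodB : B.Good (t + 2) (Real.exp m)
  coid : CoId B ν
  int : B.IntMap A (Real.exp m) inc.toLinearMap
  freqB : Freq B (t + 1) m ηB
  vert : ∀ Z ∈ B.F (t + 1), On B ν Z → inc Z ∈ A.F (t + 2) ∧ A.fn ηA (inc Z) = B.fn ηB Z
  hom : ∀ h, z h ∈ Hm (T.mlev (Fin 1)) B
  off : ∀ h k, ¬ ν k → z h k = rename Sum.inl (z₀ k)
  fac : ∀ h, ∃ u γ : A.L, ‖u‖ ≤ 1 ∧ IsInt γ ∧ ∀ p, A.evZ (Sum.elim (y0 T p) (dy T h p)) x =
    star (t + 2) u (star (t + 2) (inc (B.evZ p (z h))) γ)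

omit [Fintype ι] in
theorem Mdl.mono {t : ℕ} {m m' : ℝ} {T : Cell ι} {A : ND κ} {hd : κ → Bool} {ηA : κ → ℤ}
    {x : A.PS (ι ⊕ ι)} {B : ND κ'} {ν : κ' → Prop} {inc : B.L →ₗ⁅ℝ⁆ A.L} {ηB : κ' → ℤ}
    {z : (T.L1 → ℤ) → B.PS (PI T)} {z₀ : B.PS ι}
    (h : Mdl t m T A hd ηA x B ν inc ηB z z₀) (hm : m ≤ m') :
    Mdl t m' T A hd ηA x B ν inc ηB z z₀ :=
  have e := Real.exp_le_exp.2 hm
  ⟨h.dimA.trans hm, h.goodA.mono e, h.bigr, freq_mono h.freqA hm, h.top, h.bih, h.dimB.trans hm,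
    h.grB, h.goodB.mono e, h.coid, intMap_mono h.int e, freq_mono h.freqB hm, h.vert, h.hom, h.off,
    h.fac⟩

/-- the symbols of the family and of the model lie jointly near an annihilated subalgebra -/
def St1 (t : ℕ) : Pr := fun m ι _ T f =>
  ∃ (κ : Type) (_ : Fintype κ) (N : ND κ), ∃ η H F P φ b, FamA t m T f N η H F P φ b ∧
    ∃ (ιA : Type) (_ : Fintype ιA) (A : ND ιA) (hd : ιA → Bool) (ηA : ιA → ℤ) (x : A.PS (ι ⊕ ι))
      (ιB : Type) (_ : Fintype ιB) (B : ND ιB) (ν : ιB → Prop) (inc : B.L →ₗ⁅ℝ⁆ A.L)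
      (ηB : ιB → ℤ) (z : (T.L1 → ℤ) → B.PS (PI T)) (z₀ : B.PS ι),
      Mdl t m T A hd ηA x B ν inc ηB z z₀ ∧
      ∃ 𝔭 : LieSubalgebra ℝ (pd (gr N) B).L, GR (pd (gr N) B) m 𝔭.toSubmodule ∧
        (∀ p ∈ 𝔭, (pd (gr N) B).fn (Sum.elim η (-ηB)) p = 0) ∧
        ∀ h ∈ H, NearR ((mkT T).cs fun _ : Fin 1 => h) (pd (gr N) B) (t + 2) m 𝔭.toSubmodule
          (pair (symW (T.mlev (Fin 1)) N (gr N) (P h)) (z h))

/-- the derivatives are explained by nilcharacters on `B` up to degree `t` -/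
def St2 (t : ℕ) : Pr := fun m ι _ T f =>
  ∃ (ιA : Type) (_ : Fintype ιA) (A : ND ιA) (hd : ιA → Bool) (ηA : ιA → ℤ) (x : A.PS (ι ⊕ ι))
    (ιB : Type) (_ : Fintype ιB) (B : ND ιB) (ν : ιB → Prop) (inc : B.L →ₗ⁅ℝ⁆ A.L)
    (ηB : ιB → ℤ) (z : (T.L1 → ℤ) → B.PS (PI T)) (z₀ : B.PS ι),
    Mdl t m T A hd ηA x B ν inc ηB z z₀ ∧
    ∃ (G : (T.L1 → ℤ) → B.L → ℂ) (φ b : (ι → ℤ) → ℂ) (H : Finset (T.L1 → ℤ)), Dense T m H ∧
      Chp T m φ ∧ (∀ y, ‖b y‖ ≤ 1) ∧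
      ∀ h ∈ H, B.NChar (t + 2) (t + 1) (Real.exp m) ηB (G h) ∧
        ∃ ψ, IsNilW (T.mlev (Fin 1)) t m ψ ∧ Cor (pc T h) m
          (fun p => f (y1 T h p) * φ (y1 T h p) * b (y0 T p) * G h (B.evZ p (z h))) ψ

/-- the algebra -/
theorem imp1 (hModel : ModelStmt) (l t : ℕ) : Imp l (StS t) (St1 t) := by
  obtain ⟨c, hc, C₂, hC₂, hModel⟩ := hModel t
  obtain ⟨C₁, hC₁, hSubQ⟩ := GI.subQStmt (t + 1) c hc
  obtain ⟨C₃, hC₃, hPush⟩ := GI.pushStmt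
  obtain ⟨C, hC⟩ : ∃ C : ℕ, ∀ m : ℝ, 2 ≤ m → (3 * (3 * m ^ C₁) ^ C₂) ^ C₃ ≤ m ^ C := by qp
  refine ⟨0, C + 1, by omega, fun ι _ T m f hok _ hS => ?_⟩
  have hm := hok.two
  obtain ⟨κ, _, N, η, H, F, P, φ, b₀, hA, 𝔥, Nn, K, y, r, β, a, b, ℓ, hT, hr, hy, hyU, ha, hb, hℓ,
    hℓU, hrep⟩ := hS
  have h1 : m ≤ m ^ C₁ := le_pw hm hC₁
  set m₁ := m ^ C₁ with hm₁
  have h2 : 3 * m₁ ≤ (3 * m₁) ^ C₂ := le_pw (by linarith) hC₂
  set m₂ := (3 * m₁) ^ C₂ with hm₂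
  have h3 : 3 * m₂ ≤ (3 * m₂) ^ C₃ := le_pw (by linarith) hC₃
  have h4 : (3 * m₂) ^ C₃ ≤ m ^ (C + 1) := (hC m hm).trans (Qp.pw_mono hm (by omega))
  set m₃ := (3 * m₂) ^ C₃ with hm₃
  obtain ⟨r', q, ν, Z, hq, hdvd, hZ, hZH, hZlie, hsurj, hsurjN, hν, hab⟩ :=
    hSubQ m hm κ (gr N) η 𝔥 Nn K (gd_gr hA.dim hA.good hA.wt_le) hT
  have hη : Freq (gr N) (t + 1) m₁ η := freq_mono ⟨hA.freq.supp, hA.freq.le⟩ h1
  obtain ⟨ηq, hηq, hηq'⟩ := gmap_freq hZ hη (hA.dim.trans h1)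
  obtain ⟨y', hy'1, -, hy'⟩ := lift_ps hT.grK.gr hZ (fun _ => True) (Finsupp.weight T.lev) y
    (fun k α h0 => hy k h0) fun α => by
      obtain ⟨w, hw⟩ := hsurj _ (hyU α)
      exact ⟨w, fun k hk => absurd trivial hk, hw⟩
  choose a' ha'1 ha'2 ha' using fun i => lift_ps hT.grK.gr hZ ν (Finsupp.weight T.lev) (a i)
    (fun k α h0 => (ha i).1 k h0) fun α => hsurjN _ ((ha i).2 α)
  choose b' hb'1 hb'2 hb' using fun j => lift_ps hT.grK.gr hZ ν (Finsupp.weight T.lev) (b j)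
    (fun k α h0 => (hb j).1 k h0) fun α => hsurjN _ ((hb j).2 α)
  choose ℓ' hℓ'1 hℓ'2 hℓ' using fun c => lift_ps hT.grK.gr hZ ν
    (fun α => Finsupp.weight T.lev α + (mkT T).lv c) (ℓ c)
    (fun k α h0 => hℓ c k α h0) fun α => hsurjN _ (hℓU c α)
  obtain ⟨ιA, _, A, hd, ηA, x, ιB, _, B, κB, inc, θ, z, z₀, dA, gA, bA, fA, tA, bih, gdB, gB, cB,
    iB, hθ, hvert, hhom, hoff, hz, hfac⟩ := hModel (3 * m₁) (by linarith) ι T (Fin r') q ν ηq r β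
      y' a' b' ℓ' (gd_mono hq (by linarith)) hdvd hν hab hηq (by linarith)
      (fun k α h0 => hy'1 k α h0) (fun i => ⟨fun k α h0 => ha'1 i k α h0, ha'2 i⟩)
      (fun j => ⟨fun k α h0 => hb'1 j k α h0, hb'2 j⟩) (fun c k α h0 => hℓ'1 c k α h0) hℓ'2
  have hqd : (Fintype.card (Fin r') : ℝ) ≤ m₂ := hq.dim.trans (by linarith)
  obtain ⟨ηB, hηB, hηB'⟩ := gmap_freq hθ (freq_mono hηq h2) hqd
  have hφ : GMap B (gr N) (3 * m₂) (Z ∘ₗ θ.toLinearMap) :=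
    gmap_comp (gmap_mono hZ (by linarith)) hθ hqd
  have hφH : ∀ w, (Z ∘ₗ θ.toLinearMap) w ∈ 𝔥 := fun w => hZH _
  have hφlie : ∀ w w', (Z ∘ₗ θ.toLinearMap) ⁅w, w'⁆ -
      ⁅(Z ∘ₗ θ.toLinearMap) w, (Z ∘ₗ θ.toLinearMap) w'⁆ ∈ K := fun w w' => by
    have := hZlie (θ w) (θ w')
    rwa [← LieHom.map_lie] at this
  have KH : K ≤ 𝔥.toSubmodule := hT.KN.trans hT.NH
  have hcard : (Fintype.card (κ ⊕ ιB) : ℝ) ≤ 3 * m₂ := by
    rw [Fintype.card_sum, Nat.cast_add]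
    linarith [hA.dim, gdB.dim]
  refine ⟨κ, inferInstance, N, η, H, F, P, φ, b₀, famA_mono hA (by linarith), ιA, inferInstance, A,
    hd, ηA, x, ιB, inferInstance, B, κB, inc, ηB, z, z₀, Mdl.mono (m := 3 * m₂) ⟨by linarith,
      gA.mono (Real.exp_le_exp.2 (by linarith)), bA, freq_mono fA (by linarith), tA, bih,
      gdB.dim.trans (by linarith), gdB.gr, gB.mono (Real.exp_le_exp.2 (by linarith)), cB,
      intMap_mono iB (Real.exp_le_exp.2 (by linarith)), hηB, fun W hW hW' => ?_, hhom, hoff,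
      fun h => ?_⟩
      (by linarith), graph 𝔥 K _ KH hT.lieK hφH hφlie, ?_, fun p hp => ?_, fun h hh => ?_⟩
  · exact ⟨(hvert W hW hW').1, by rw [(hvert W hW hW').2, hηB']; rfl⟩
  · obtain ⟨u, γ, hu, hγ, e⟩ := hfac h
    refine ⟨u, γ, hu, hγ, fun p => ?_⟩
    rw [evZ_fixh, e, Bch.map_star, Bch.map_star, ND.evZ, ND.evZ, ev_cst, ev_cst, bc_eq, ND.ev,
      ND.ev, map_bcl, bcl_real]
    rfl
  · refine gr_mono (((hPush (3 * m₂) (by linarith) _ _ (pd (gr N) B) (gr N) hcard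
      (hA.dim.trans (by linarith))).1 _ (gmap_dg hφ (by linarith))).2.1 K
      (gr_mono hT.grK (by linarith))) h4
  · rw [fn_pd, fn_neg67, hηB', hηq', ← sub_eq_add_neg, ← map_sub]
    exact hT.kill _ hp
  · obtain ⟨ε, w, γ, hε, hγ, hw, -, hw₀, hx⟩ := hrep h hh
    have hmor := (Br.Mk16.simp_ren (mkT T) fun _ : Unit => (0 : Fin 1)).mor
      (c := (mkT T).cs fun _ : Unit => h) (c' := (mkT T).cs fun _ : Fin 1 => h)
      (Br.Mk16.th_ren (mkT T) _ fun _ => rfl)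
    rw [← at_symP, show symP T N (P h) = _ from hx, at', Bch.map_star, Bch.map_star]
    refine nearR_mono (m := m) (nearR_pair (Br.C14.smR_subst hmor le_rfl hA.wt_le (by simp) hε)
      (Br.C14.rtR_subst hmor hγ) (Br.C14.subst_mem_Hm hmor.hom hw) (hhom h) ?_) (by linarith)
    refine rl_iff.1 ?_
    have e1 := Br.C14.subst_mem_Uo (ren ι T.U2 fun _ : Unit => (0 : Fin 1)) hw₀
    have e2 := ((((rl_lamR β ha' hb' h).subst (up ι T.U2 Unit)).add (rl_linM hℓ')).subst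
      (ren ι T.U2 fun _ : Unit => (0 : Fin 1))).star KH hT.lieK hZH hZlie (t + 2)
      (hy'.subst (up ι T.U2 (Fin 1)))
    rw [map_sub, Bch.map_star, show (gr N).subst _ ((gr N).subst (up ι T.U2 Unit) y) = _ from
      at_up T _ y] at e1
    have e3 := add_mem e1 e2
    rw [sub_add_sub_cancel, ← hz h] at e3
    unfold Rl
    rw [bcl_comp]
    exact e3

/-- the converse of the equidistribution theorem on the product -/
theorem imp2 (hConv : ConvFStmt) (l t : ℕ) : Imp l (St1 t) (St2 t) := by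
  obtain ⟨C₁, hC₁, hVec⟩ := GI.vecStmt (t + 2) (t + 1)
  obtain ⟨D, C₂, hC₂, hConv⟩ := hConv l (t + 2) t
  obtain ⟨C, hC⟩ : ∃ C : ℕ, ∀ m : ℝ, 2 ≤ m → 3 * (3 * m ^ C₁) ^ C₂ ≤ m ^ C := by qp
  refine ⟨D, C + 1, by omega, fun ι _ T m f hok hf hS => ?_⟩
  have hm := hok.two
  obtain ⟨κ, _, N, η, H, F, P, φ, b₀, hA, ιA, _, A, hd, ηA, x, ιB, _, B, ν, inc, ηB, z, z₀, hM, 𝔭,
    hp, hk, hnear⟩ := hS
  have h1 : m ≤ m ^ C₁ := le_pw hm hC₁
  set m₁ := m ^ C₁ with hm₁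
  have h2 : 3 * m₁ ≤ (3 * m₁) ^ C₂ := le_pw (by linarith) hC₂
  have h4 : 3 * (3 * m₁) ^ C₂ ≤ m ^ (C + 1) := (hC m hm).trans (Qp.pw_mono hm (by omega))
  set m₂ := (3 * m₁) ^ C₂ with hm₂
  obtain ⟨J, G, hJ, hG, hG1⟩ := hVec m hm ιB B ηB hM.dimB hM.goodB hM.freqB
  have hab : ∀ h p, ‖f (y1 T h p) * φ (y1 T h p) * b₀ (y0 T p)‖ ≤ 1 := fun h p =>
    nm_mul (nm_mul (hf _) (chp_bdd hA.chp _)) (hA.bdd _)
  have : Nonempty (Fin J) := by
    by_contra h0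
    rw [not_nonempty_iff] at h0
    simpa using hG1 0
  choose! j hj using fun h (hh : h ∈ H) => cor_insert (hA.cor h hh) (hab h)
    (fun p => (hA.chr h hh).bdd _) hJ (fun j p => G j (B.evZ p (z h))) (fun j p => (hG j).bdd _)
    fun p => hG1 _
  have hcard : (Fintype.card (κ ⊕ ιB) : ℝ) ≤ 3 * m₁ := by
    rw [Fintype.card_sum, Nat.cast_add]
    linarith [hA.dim, hM.dimB]
  have e1 : Real.exp m ≤ Real.exp (3 * m₁) := Real.exp_le_exp.2 (by linarith)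
  obtain ⟨b, φ', H', hb, hφ', hH', hden, hcor⟩ := hConv ι T (3 * m₁)
    (hok.mono le_rfl (by linarith) (by linarith) (by positivity)) _ (pd N B) (pd (gr N) B)
    (Sum.elim η (-ηB)) 𝔭 H (fun h p => F h (fst N B ℝ p) * conj (G (j h) (snd N B ℝ p)))
    (fun h => pair (P h) (z h))
    (fun h p => f (y1 T h p) * φ (y1 T h p) * b₀ (y0 T p) * G (j h) (B.evZ p (z h)))
    ((grOf_gr N).pd hM.grB.grOf) hcard
    (good_pd (hA.good.mono e1) (hM.goodB.mono e1) (Real.exp_pos _).le)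
    (gr_mono hp (by linarith)) hk (dense_mono hA.dense (by linarith)) fun h hh =>
      ⟨(nChar_pd (Real.exp_pos _).le (Real.exp_pos _).le (hA.chr h hh) (hG (j h)).conj).mono
          ((exp_add_exp_le67 (by linarith) (by linarith)).trans (Real.exp_le_exp.2 (by linarith))),
        pair_mem_wcf (hA.poly h hh) (hm_wcf (hM.hom h)),
        by rw [symW_pair, symW_hm (hM.hom h)]; exact nearR_mono (hnear h hh) (by linarith),
        fun p => nm_mul (hab h p) ((hG _).bdd _),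
        cor_congr (cor_mono (hj h hh) (by linarith)) fun p => rfl⟩
  refine ⟨ιA, inferInstance, A, hd, ηA, x, ιB, inferInstance, B, ν, inc, ηB, z, z₀,
    hM.mono (by linarith), fun h => G (j h), fun y => φ y * φ' y, fun y => b₀ y * b y, H',
    dense_mono (dense_sub hA.dense hH' (by linarith) hden) (by linarith),
    chp_mono (chp_mul hA.chp hφ' (by linarith) (by linarith)) (by linarith),
    fun y => nm_mul (hA.bdd y) (hb y), fun h hh =>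
      ⟨(hG _).mono (Real.exp_le_exp.2 (by linarith)), ?_⟩⟩
  obtain ⟨ψ, h5, h6⟩ := hcor h hh
  exact ⟨ψ, nilW_mono h5 (by linarith), cor_congr (cor_mono h6 (by linarith)) fun p => by ring⟩

/-- removal of the part of the model that depends only on the first point -/
theorem imp3 (hFib : FibCStmt) (l t : ℕ) : Imp l (St2 t) (StB t) := by
  obtain ⟨C₁, hC₁, hVec⟩ := GI.vecStmt (t + 2) (t + 2)
  obtain ⟨D, C₂, hC₂, hFib⟩ := hFib l (t + 2) t
  obtain ⟨C₃, hC₃⟩ : ∃ C : ℕ, ∀ m d : ℝ, 2 ≤ m → 0 ≤ d → d ≤ m → Real.exp m + Real.exp (m ^ C₁) *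
      Real.exp (3 * ((t + 2 : ℕ) : ℝ) * (3 * m)) * (d * Real.exp m) ≤ Real.exp (m ^ C) ∧
      2 * m ^ C₁ ≤ m ^ C := by qp
  obtain ⟨C, hC⟩ : ∃ C : ℕ, ∀ m : ℝ, 2 ≤ m → 3 * (m ^ C₃) ^ C₂ ≤ m ^ C := by qp
  refine ⟨D, C + 1, by omega, fun ι _ T m f hok hf hS => ?_⟩
  have hm := hok.two
  obtain ⟨ιA, _, A, hd, ηA, x, ιB, _, B, ν, inc, ηB, z, z₀, hM, G, φ, b, H, hden, hφ, hb, hG⟩ := hS
  have h1 : m ≤ m ^ C₁ := le_pw hm hC₁
  obtain ⟨hlip, h2⟩ := hC₃ m _ hm (Nat.cast_nonneg _) hM.dimB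
  set m₁ := m ^ C₁ with hm₁
  have h3 : m ^ C₃ ≤ (m ^ C₃) ^ C₂ := le_pw (by linarith) hC₂
  have h4 : 3 * (m ^ C₃) ^ C₂ ≤ m ^ (C + 1) := (hC m hm).trans (Qp.pw_mono hm (by omega))
  set m₂ := m ^ C₃ with hm₂
  set m₃ := m₂ ^ C₂ with hm₃
  have := hM.goodA.nil ℝ
  obtain ⟨J, Φ, hJ, hΦ, hΦ1⟩ := hVec m hm ιA A ηA hM.dimA hM.goodA hM.freqA
  choose! ψ hψ hcor using fun h hh => (hG h hh).2
  choose u γ hu hγ hfac using hM.fac
  have hab : ∀ h p, ‖f (y1 T h p) * φ (y1 T h p) * b (y0 T p)‖ ≤ 1 := fun h p =>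
    nm_mul (nm_mul (hf _) (chp_bdd hφ _)) (hb _)
  obtain ⟨j, -, H₁, hH₁, hden₁, hl⟩ := ((Cnt.of_fintype fun _ : Fin J => True).le
    (by rwa [Fintype.card_fin])).pigeon_exp (mu1_pos T) hden.2
    (fun h j => Cor (pc T h) (m + m₁)
      (fun p => f (y1 T h p) * φ (y1 T h p) * b (y0 T p) * G h (B.evZ p (z h)) *
        sqW A (Φ j) x (Sum.elim (y0 T p) (dy T h p)))
      fun p => ψ h p * conj (sqW A (Φ j) x (Sum.elim (y0 T p) (dy T h p)))) fun h hh => by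
        obtain ⟨j, hj⟩ := cor_insert (hcor h hh) (fun p => nm_mul (hab h p) ((hG h hh).1.bdd _))
          (nilW_bdd (hψ h hh)) hJ (fun j p => sqW A (Φ j) x (Sum.elim (y0 T p) (dy T h p)))
          (fun j p => (hΦ j).bdd _) fun p => hΦ1 _
        exact ⟨j, trivial, hj⟩
  have hD₁ : Dense T (m + m₁) H₁ :=
    ⟨fun h hh c => (hden.1 h (hH₁ hh) c).trans (by linarith), hden₁⟩
  have hadB : adB (t + 2) ((Fintype.card ιA : ℝ) ^ 2 * Real.exp m * 1) ≤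
      Real.exp (3 * ((t + 2 : ℕ) : ℝ) * (3 * m)) := by
    refine adB_le_exp _ (by positivity) (by linarith) ?_
    have hd : (Fintype.card ιA : ℝ) ≤ Real.exp m :=
      hM.dimA.trans (by linarith [Real.add_one_le_exp m])
    calc (Fintype.card ιA : ℝ) ^ 2 * Real.exp m * 1 ≤ Real.exp m ^ 2 * Real.exp m * 1 := by gcongr
      _ = Real.exp (3 * m) := by
        rw [mul_one, pow_two, ← Real.exp_add, ← Real.exp_add]; congr 1; ring
  have hleft := fun h => (hΦ j).left hM.goodA (Real.exp_pos _).le (Real.exp_pos _).le (hu h)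
  have e1 : Real.exp m ≤ Real.exp m₂ := Real.exp_le_exp.2 (by linarith)
  obtain ⟨b', φ', H₂, hb', hφ', hH₂, hden₂, hcor₂⟩ := hFib ι T m₂
    (hok.mono le_rfl (by linarith) (by linarith) (by positivity)) ιB B ν H₁
    (fun h w => G h w * conj (Φ j (star (t + 2) (u h) (inc w)))) z z₀
    (fun h p => f (y1 T h p) * φ (y1 T h p) * b (y0 T p) * ψ h p *
      sqW A (Φ j) x (Sum.elim (y0 T p) (dy T h p))) (hM.dimB.trans (by linarith))
    (hM.goodB.mono e1) hM.coid (dense_mono hD₁ (by linarith)) fun h hh => by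
      have hG' := (hG h (hH₁ hh)).1
      refine ⟨(hG'.toLipFn.mulConj ((hleft h).toLipFn.pullHom
        (mul_nonneg (Real.exp_pos _).le (zero_le_one.trans (one_le_adB _ (by positivity)))) inc
        (fun w hw => hM.int.isInt67 hw) (hM.int.norm_le67 (Real.exp_pos _).le))).mono
        (le_trans ?_ hlip), fun W hW hW' w => ?_, hm_wcf (hM.hom h), hM.off h,
        fun p => nm_mul (nm_mul (hab h p) (nilW_bdd (hψ h (hH₁ hh)) p)) ((hΦ j).bdd _),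
        cor_congr (cor_mono (hl h hh) (by linarith)) fun p => ?_⟩
      · gcongr
      · obtain ⟨v1, v2⟩ := hM.vert W hW hW'
        have := (hleft h).vert _ v1 (inc w)
        rw [hG'.vert W hW, Bch.map_star, this, v2, map_mul, ← Tor.e_neg]
        have e2 : Tor.e (B.fn ηB W) * Tor.e (-B.fn ηB W) = 1 := by
          rw [← Tor.e_add]; simp
        linear_combination (G h w * conj (Φ j (star (t + 2) (u h) (inc w)))) * e2
      · have e3 : Φ j (A.evZ (Sum.elim (y0 T p) (dy T h p)) x) =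
            Φ j (star (t + 2) (u h) (inc (B.evZ p (z h)))) := by
          rw [hfac, ← Bch.star_assoc, (hΦ j).per _ _ (hγ h)]
        simp only [sqW, ← e3]
        ring
  refine ⟨ιA, inferInstance, A, hd, ηA, x, Φ j, fun y => φ y * φ' y, fun y => b y * b' y, H₂,
    hM.dimA.trans (by linarith), hM.goodA.mono (Real.exp_le_exp.2 (by linarith)), hM.bigr,
    (hΦ j).mono (Real.exp_le_exp.2 (by linarith)), hM.top, hM.bih,
    dense_mono (dense_sub hD₁ hH₂ (by linarith) hden₂) (by linarith),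
    chp_mono (chp_mul hφ hφ' (by linarith) (by linarith)) (by linarith),
    fun y => nm_mul (hb y) (hb' y), fun h hh => ?_⟩
  obtain ⟨ψ', h5, h6⟩ := hcor₂ h hh
  exact ⟨fun p => ψ h p * ψ' p, nilW_mono (nilW_mul (hψ h (hH₁ (hH₂ hh))) h5) (by linarith),
    cor_congr (cor_mono h6 (by linarith)) fun p => by ring⟩

end S58

/-- **step 4** -/
theorem step4Stmt (hModel : ModelStmt) (hConv : ConvFStmt) (hFib : FibCStmt) : Step4Stmt :=
  fun l t => (S58.imp1 hModel l t).trans <| (S58.imp2 hConv l t).trans (S58.imp3 hFib l t)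

end Crest.Agent.T49.Ri
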