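import Crest.Agent.T49.RiA_54

/-!
# Row 49 (helper56): the last step of the relative inverse theorem
-/

set_option autoImplicit false

noncomputable section

namespace Crest.Agent.T49.Ri

open Finset
open Crest.Agent.T49.Tw

theorem two_mul_pow_le56 {m : ℝ} (hm : 2 ≤ m) {C E : ℕ} (h : 2 * C ≤ E) : (2 * m) ^ C ≤ m ^ E :=
  calc (2 * m) ^ C ≤ (m ^ 2) ^ C := pow_le_pow_left₀ (by linarith) (by nlinarith) C
    _ = m ^ (2 * C) := (pow_mul _ _ _).symm
    _ ≤ m ^ E := pow_le_pow_right₀ (by linarith) h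

theorem add_one_le_pow56 {m : ℝ} (hm : 2 ≤ m) {E : ℕ} (h : 2 ≤ E) : m + 1 ≤ m ^ E :=
  le_trans (by nlinarith) (pow_le_pow_right₀ (by linarith : (1 : ℝ) ≤ m) h)

/-- at least half of a dense set of differences has regular pair cells -/
theorem dense_reg56 (hH : HerStmt) (l D' C' : ℕ) : ∃ D C : ℕ, 1 ≤ C ∧
    ∀ (ι : Type) [Fintype ι] (T : Cell ι) (m : ℝ), Ok T l D m (m ^ C) →
      ∀ H : Finset (T.L1 → ℤ), Dense T m H → ∃ H' ⊆ H, Dense T (m + 1) H' ∧
        (#H : ℝ) ≤ 2 * #H' ∧ ∀ h ∈ H', Ok (pc T h) l D' (2 * m) ((2 * m) ^ C') := by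
  classical
  obtain ⟨D, C, hC, hH⟩ := hH l 1 D'
  refine ⟨D, (2 * C' + 2) * C, Nat.mul_pos (by omega) hC, fun ι _ T m hT H hd => ?_⟩
  have hm := hT.two
  set m₁ := m ^ (2 * C' + 2) with hm₁
  have h1 : m + 1 ≤ m₁ := add_one_le_pow56 hm (by omega)
  have h2 : (2 * m) ^ C' ≤ m₁ := two_mul_pow_le56 hm (by omega)
  have hB := hH ι T m₁ (hT.use le_rfl (by omega) le_rfl)
    ((H.filter fun h => ¬ Gm (pc T h) l D' m₁).image fun h => fun _ : Fin 1 => h) (by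
      intro x hx
      obtain ⟨h, hh, rfl⟩ := mem_image.1 hx
      exact ⟨fun _ => (hd.1 h (mem_filter.1 hh).1).mono (by linarith), (mem_filter.1 hh).2⟩)
  rw [card_image_of_injective _ (fun a b hab => congrFun hab 0), pow_one] at hB
  have hs : (#(H.filter fun h => Gm (pc T h) l D' m₁) : ℝ) +
      #(H.filter fun h => ¬ Gm (pc T h) l D' m₁) = #H := by
    exact_mod_cast card_filter_add_card_filter_not (s := H) fun h => Gm (pc T h) l D' m₁
  have hp := mu1_pos T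
  have h3 : 2 * (Real.exp (-m₁) * T.mu1) ≤ Real.exp (-m) * T.mu1 := by
    have := two_mul_exn m
    have := exn_le h1
    nlinarith
  have h4 := hd.2
  have h5 : 2 * (Real.exp (-(m + 1)) * T.mu1) ≤ Real.exp (-m) * T.mu1 := by
    have := two_mul_exn m
    nlinarith
  refine ⟨H.filter fun h => Gm (pc T h) l D' m₁, filter_subset _ _,
    ⟨fun h hh => (hd.1 h (mem_filter.1 hh).1).mono (by linarith), by linarith⟩, by linarith,
    fun h hh => hT.pc ((mem_filter.1 hh).2.mono le_rfl h2 ?_) le_rfl⟩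
  positivity

/-- **STEP 8** -/
theorem step8 (hH : HerStmt) (hD : DerStmt) (hU : UpStmt) : Step8Stmt := by
  intro l t hR
  obtain ⟨Dd, Cd, hCd, hD⟩ := hD l t
  obtain ⟨Dh, Ch, hCh, hH⟩ := dense_reg56 hH l Dd Cd
  obtain ⟨D, C, hC, hI⟩ := (hU l t).trans hR
  refine ⟨Dh + D, (2 * Cd + 2) * C + Ch + 2, by omega, fun ι _ T m f hT hf hE => ?_⟩
  obtain ⟨Θ, φ, b, H, hΘ, hφ, hb, hd, hc⟩ := hE
  have hm := hT.two
  have hm1 : (1 : ℝ) ≤ m := by linarith
  obtain ⟨H', hs, hd', -, hok⟩ := hH ι T m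
    (hT.mono (by omega) le_rfl (pow_le_pow_right₀ hm1 (by omega)) (by positivity)) H hd
  set m₁ := m ^ (2 * Cd + 2) with hm₁
  have h1 : m + 1 ≤ m₁ := add_one_le_pow56 hm (by omega)
  have h2 : (2 * m) ^ Cd ≤ m₁ := two_mul_pow_le56 hm (by omega)
  have hg : ∀ z, ‖f z * φ z * Θ z‖ ≤ 1 := bdd_mul (bdd_mul hf hφ.bdd) hΘ.bdd
  obtain ⟨ψ', φ', hψ', hφ', hc'⟩ := hI ι T m₁ (fun z => f z * φ z * Θ z)
    (hT.use (by omega) (by omega) (by omega)) hg ⟨b, H', hb, hd'.mono h1, fun h hh => by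
      obtain ⟨ψ, hψ, hcor⟩ := hc h (hs hh)
      exact (hD _ (pc T h) (2 * m) _ (hok h hh)
        (bdd_mul (fun p => hg (y1 T h p)) fun p => hb (y0 T p))
        ⟨ψ, hψ.mono (by linarith), hcor.mono (by linarith)⟩).mono h2⟩
  have h3 : m ≤ m₁ ^ C := le_trans (by linarith) (le_self_pow₀ (by linarith) (by omega))
  have h4 : 3 * m₁ ^ C ≤ m ^ ((2 * Cd + 2) * C + Ch + 2) := by
    have h5 : m₁ ^ C ≤ m ^ ((2 * Cd + 2) * C + Ch) := by
      rw [hm₁, ← pow_mul]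
      exact pow_le_pow_right₀ hm1 (by omega)
    rw [pow_add _ _ 2]
    have h6 : 0 < m ^ ((2 * Cd + 2) * C + Ch) := by positivity
    have h7 : 3 ≤ m ^ 2 := by nlinarith
    nlinarith
  refine ⟨fun z => Θ z * ψ' z, fun z => φ z * φ' z,
    (hΘ.mul (hψ'.mono_deg (by omega))).mono (by linarith), (hφ.mul hφ').mono (by linarith),
    (hc'.mono (by linarith)).congr fun z => by ring⟩

end Crest.Agent.T49.Ri
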