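import Crest.Agent.T49.BrAll_62
import Crest.Agent.T49.MxHerF_53
import Crest.Agent.T49.RiAvg_46
import Crest.Agent.T49.RiBall_60
import Crest.Agent.T49.RiBase_42
import Crest.Agent.T49.RiConv_84
import Crest.Agent.T49.RiDU_67
import Crest.Agent.T49.RiDer_86
import Crest.Agent.T49.RiFibC_91
import Crest.Agent.T49.RiHer_85
import Crest.Agent.T49.RiModel_40
import Crest.Agent.T49.RiMp_98
import Crest.Agent.T49.RiMs_54
import Crest.Agent.T49.RiSplit_31
import Crest.Agent.T49.RiStep1_81
import Crest.Agent.T49.RiStep2_3
import Crest.Agent.T49.RiStep3_60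
import Crest.Agent.T49.RiStep4_58
import Crest.Agent.T49.RiStep8_56
import Crest.Agent.T49.RiZm_10
import Crest.Agent.T49.Ltr_33

/-!
# Row 49 (helper62): the relative inverse theorem from the block `StB ⇒ StE`
-/

set_option autoImplicit false

namespace Crest.Agent.T49.Ri.A62

theorem her : HerStmt := herStmt Tw.heredStmt mpStmt
theorem genND : GenNDStmt := genNDStmt her ndStmt mpStmt
theorem ball : BallStmt := ballStmt msStmt
theorem zm : ZmStmt := zmStmt msStmt
theorem avg : AvgStmt := avgStmt mpStmt msStmt her
theorem down : DownStmt := downStmt mpStmt her zm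
theorem up : UpStmt := upStmt mpStmt zm
theorem split : SplitStmt := splitStmt mpStmt msStmt her
theorem der : DerStmt := derStmt mpStmt msStmt her avg up
theorem base : BaseStmt := baseStmt mpStmt her avg down
theorem fibC : FibCStmt := fibCStmt msStmt her
theorem conv : ConvStmt := convStmt msStmt
theorem convF : ConvFStmt := convFStmt conv split her mpStmt Br.closRStmt
theorem st1 : Step1Stmt := step1 msStmt her down split
theorem st2 : Step2Stmt := step2 mpStmt msStmt her avg ltStmt Br.closRStmt Br.mkR
theorem st3 : Step3Stmt := step3 Br.structRStmt genND ball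
theorem st4 : Step4Stmt := step4Stmt modelStmt convF fibC
theorem st8 : Step8Stmt := step8 her der up

/-- the relative inverse theorem from the block -/
theorem ri_of_block (hB : BlockStmt) (l t : ℕ) : RI l (t + 1) :=
  ri_of base st1 st2 st3 st4 hB st8 l t

end Crest.Agent.T49.Ri.A62
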