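import Crest.Agent.T49.HkB_67

/-!
# Row 49 (helper3): the weighted box Cauchy-Schwarz inequality for series
-/

set_option autoImplicit false

noncomputable section

namespace Crest.Agent.T49.Ri.B3

open Finset
open scoped ComplexConjugate

variable {X Y : Type} {w : X → ℝ} {w' : Y → ℝ}

/-- a non-negative summable weight -/
structure Wt (w : X → ℝ) : Prop where
  nn : ∀ x, 0 ≤ w x
  sm : Summable w

/-- weighted sum -/
def Ex (w : X → ℝ) (g : X → ℂ) : ℂ := ∑' x, (w x : ℂ) * g x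

/-- product weight -/
def tw (w : X → ℝ) (w' : Y → ℝ) (p : X × Y) : ℝ := w p.1 * w' p.2

theorem Wt.mass_nonneg (h : Wt w) : 0 ≤ ∑' x, w x := tsum_nonneg h.nn

theorem Wt.norm_le (h : Wt w) {g : X → ℂ} {B : ℝ} (hg : ∀ x, ‖g x‖ ≤ B) (x : X) :
    ‖(w x : ℂ) * g x‖ ≤ w x * B := by
  rw [norm_mul, Complex.norm_real, Real.norm_of_nonneg (h.nn x)]
  exact mul_le_mul_of_nonneg_left (hg x) (h.nn x)

theorem Wt.summable (h : Wt w) {g : X → ℂ} {B : ℝ} (hg : ∀ x, ‖g x‖ ≤ B) :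
    Summable fun x => (w x : ℂ) * g x :=
  Summable.of_norm_bounded (h.sm.mul_right B) (h.norm_le hg)

theorem Wt.norm_Ex_le (h : Wt w) {g : X → ℂ} {B : ℝ} (hg : ∀ x, ‖g x‖ ≤ B) :
    ‖Ex w g‖ ≤ (∑' x, w x) * B :=
  tsum_of_norm_bounded (h.sm.hasSum.mul_right B) (h.norm_le hg)

theorem Wt.tw (h : Wt w) (h' : Wt w') : Wt (tw w w') :=
  ⟨fun p => mul_nonneg (h.nn p.1) (h'.nn p.2), h.sm.mul_of_nonneg h'.sm h.nn h'.nn⟩

theorem Wt.mass_tw (h : Wt w) (h' : Wt w') :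
    ∑' p, B3.tw w w' p = (∑' x, w x) * ∑' y, w' y :=
  (h.sm.tsum_mul_tsum h'.sm (h.tw h').sm).symm

theorem Ex_mul_left (c : ℂ) (g : X → ℂ) : Ex w (fun x => c * g x) = c * Ex w g := by
  simp only [Ex, ← tsum_mul_left, mul_left_comm]

theorem conj_Ex (g : X → ℂ) : conj (Ex w g) = Ex w fun x => conj (g x) := by
  simp only [Ex, Complex.conj_tsum, map_mul, Complex.conj_ofReal]

theorem Ex_prod (h : Wt w) (h' : Wt w') {G : X × Y → ℂ} {B : ℝ} (hG : ∀ p, ‖G p‖ ≤ B) :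
    Ex (tw w w') G = Ex w fun x => Ex w' fun y => G (x, y) := by
  rw [Ex, ((h.tw h').summable hG).tsum_prod, Ex]
  refine tsum_congr fun x => ?_
  rw [Ex, ← tsum_mul_left]
  exact tsum_congr fun y => by simp only [tw]; push_cast; ring

theorem Ex_swap (h : Wt w) (h' : Wt w') {G : X → Y → ℂ} {B : ℝ} (hG : ∀ x y, ‖G x y‖ ≤ B) :
    (Ex w fun x => Ex w' fun y => G x y) = Ex w' fun y => Ex w fun x => G x y := by
  rw [← Ex_prod h h' (G := fun p => G p.1 p.2) fun p => hG p.1 p.2,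
    ← Ex_prod h' h (G := fun p => G p.2 p.1) fun p => hG p.2 p.1, Ex, Ex,
    ← (Equiv.prodComm X Y).tsum_eq]
  exact tsum_congr fun p => by simp only [tw, Equiv.prodComm_apply, Prod.fst_swap, Prod.snd_swap,
    mul_comm (w p.1)]

theorem cs (h : Wt w) {b g : X → ℂ} {B : ℝ} (hb : ∀ x, ‖b x‖ ≤ 1) (hg : ∀ x, ‖g x‖ ≤ B) :
    ‖Ex w fun x => b x * g x‖ ^ 2 ≤ (∑' x, w x) * ‖Ex w fun x => g x * conj (g x)‖ := by
  have e1 : ∀ x, √(w x) ^ 2 = w x := fun x => Real.sq_sqrt (h.nn x)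
  have e2 : ∀ x, (√(w x) * ‖g x‖) ^ 2 = w x * ‖g x‖ ^ 2 := fun x => by rw [mul_pow, e1]
  have s2 : Summable fun x => w x * ‖g x‖ ^ 2 :=
    Summable.of_nonneg_of_le (fun x => mul_nonneg (h.nn x) (sq_nonneg _))
      (fun x => mul_le_mul_of_nonneg_left (pow_le_pow_left₀ (norm_nonneg _) (hg x) 2) (h.nn x))
      (h.sm.mul_right _)
  have h1 := Hk.tsum_mul_sq_le (a := fun x => √(w x)) (b := fun x => √(w x) * ‖g x‖)
    (fun _ => Real.sqrt_nonneg _) (fun _ => by positivity) (by simpa only [e1] using h.sm)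
    (by simpa only [e2] using s2)
  simp only [e1, e2, ← mul_assoc, Real.mul_self_sqrt (h.nn _)] at h1
  have s1 : Summable fun x => w x * ‖g x‖ :=
    Summable.of_nonneg_of_le (fun x => mul_nonneg (h.nn x) (norm_nonneg _))
      (fun x => mul_le_mul_of_nonneg_left (hg x) (h.nn x)) (h.sm.mul_right _)
  have h2 : ‖Ex w fun x => b x * g x‖ ≤ ∑' x, w x * ‖g x‖ :=
    tsum_of_norm_bounded s1.hasSum fun x => by
      rw [norm_mul, norm_mul, Complex.norm_real, Real.norm_of_nonneg (h.nn x)]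
      exact mul_le_mul_of_nonneg_left (mul_le_of_le_one_left (norm_nonneg _) (hb x)) (h.nn x)
  have h3 : (Ex w fun x => g x * conj (g x)) = ((∑' x, w x * ‖g x‖ ^ 2 : ℝ) : ℂ) := by
    rw [Ex, Complex.ofReal_tsum]
    exact tsum_congr fun x => by rw [Complex.mul_conj']; push_cast; rfl
  rw [h3, Complex.norm_real, Real.norm_of_nonneg
    (tsum_nonneg fun x => mul_nonneg (h.nn x) (sq_nonneg _))]
  exact (pow_le_pow_left₀ (norm_nonneg _) h2 2).trans h1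

theorem norm_mul_le_one {a b : ℂ} (ha : ‖a‖ ≤ 1) (hb : ‖b‖ ≤ 1) : ‖a * b‖ ≤ 1 := by
  rw [norm_mul]; exact mul_le_one₀ ha (norm_nonneg _) hb

theorem norm_mul_conj_le {a b : ℂ} (ha : ‖a‖ ≤ 1) (hb : ‖b‖ ≤ 1) : ‖a * conj b‖ ≤ 1 :=
  norm_mul_le_one ha (by rwa [Complex.norm_conj])

theorem cs_step (h : Wt w) (h' : Wt w') {b : X → ℂ} {k : X → Y → ℂ} (hb : ∀ x, ‖b x‖ ≤ 1)
    (hk : ∀ x y, ‖k x y‖ ≤ 1) :
    ‖Ex w fun x => b x * Ex w' (k x)‖ ^ 2 ≤
      (∑' x, w x) * ‖Ex (tw w' w') fun p => Ex w fun x => k x p.1 * conj (k x p.2)‖ := by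
  refine (cs h hb fun x => h'.norm_Ex_le (hk x)).trans (le_of_eq ?_)
  rw [← Ex_swap h (h'.tw h') fun x p => norm_mul_conj_le (hk x p.1) (hk x p.2)]
  congr 3
  funext x
  rw [Ex_prod h' h' fun p => norm_mul_conj_le (hk x p.1) (hk x p.2)]
  simp only [Ex_mul_left, ← conj_Ex]
  rw [mul_comm, ← Ex_mul_left]
  simp only [mul_comm]

/-- four points -/
def e4 (X : Type) : (X × X) × (X × X) ≃ (Fin 4 → X) where
  toFun p := ![p.1.1, p.1.2, p.2.1, p.2.2]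
  invFun y := ((y 0, y 1), (y 2, y 3))
  left_inv _ := rfl
  right_inv y := by funext i; fin_cases i <;> rfl

/-- **box Cauchy-Schwarz** -/
theorem box_cs (h : Wt w) {b u : X → ℂ} {K : X → X → ℂ} (hb : ∀ x, ‖b x‖ ≤ 1)
    (hu : ∀ x, ‖u x‖ ≤ 1) (hK : ∀ x y, ‖K x y‖ ≤ 1) :
    ‖∑' y : Fin 2 → X, (∏ i, (w (y i) : ℂ)) * (b (y 0) * (u (y 1) * K (y 0) (y 1)))‖ ^ 4 ≤
      (∑' x, w x) ^ 4 * ‖∑' y : Fin 4 → X, (∏ i, (w (y i) : ℂ)) *
        (K (y 0) (y 2) * K (y 1) (y 3) * conj (K (y 0) (y 3)) * conj (K (y 1) (y 2)))‖ := by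
  have h2 := h.tw h
  have hk : ∀ x y, ‖u y * K x y‖ ≤ 1 := fun x y => norm_mul_le_one (hu y) (hK x y)
  have hk' : ∀ (p : X × X) x, ‖K x p.1 * conj (K x p.2)‖ ≤ 1 := fun p x =>
    norm_mul_conj_le (hK _ _) (hK _ _)
  have e1 : ∑' y : Fin 2 → X, (∏ i, (w (y i) : ℂ)) * (b (y 0) * (u (y 1) * K (y 0) (y 1))) =
      Ex w fun x => b x * Ex w fun y => u y * K x y := by
    simp only [← Ex_mul_left]
    rw [← Ex_prod h h (G := fun p => b p.1 * (u p.2 * K p.1 p.2))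
      fun p => norm_mul_le_one (hb _) (hk _ _), Ex, ← (finTwoArrowEquiv X).symm.tsum_eq]
    exact tsum_congr fun p => by simp [tw]
  have s1 := cs_step h h hb hk
  have e2 : (Ex (tw w w) fun p => Ex w fun x => u p.1 * K x p.1 * conj (u p.2 * K x p.2)) =
      Ex (tw w w) fun p => (u p.1 * conj (u p.2)) * Ex w fun x => K x p.1 * conj (K x p.2) := by
    congr 1
    funext p
    rw [← Ex_mul_left]
    congr 1
    funext x
    rw [map_mul]; ring
  have s2 := cs_step h2 h (fun p => norm_mul_conj_le (hu p.1) (hu p.2)) hk'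
  have e3 : (Ex (tw w w) fun r => Ex (tw w w) fun p =>
      K r.1 p.1 * conj (K r.1 p.2) * conj (K r.2 p.1 * conj (K r.2 p.2))) =
      ∑' y : Fin 4 → X, (∏ i, (w (y i) : ℂ)) *
        (K (y 0) (y 2) * K (y 1) (y 3) * conj (K (y 0) (y 3)) * conj (K (y 1) (y 2))) := by
    rw [← Ex_prod h2 h2 (G := fun z => K z.1.1 z.2.1 * conj (K z.1.1 z.2.2) *
      conj (K z.1.2 z.2.1 * conj (K z.1.2 z.2.2)))
      fun z => norm_mul_conj_le (hk' _ _) (hk' _ _), Ex, ← (e4 X).tsum_eq]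
    refine tsum_congr fun z => ?_
    have a0 : e4 X z 0 = z.1.1 := rfl
    have a1 : e4 X z 1 = z.1.2 := rfl
    have a2 : e4 X z 2 = z.2.1 := rfl
    have a3 : e4 X z 3 = z.2.2 := rfl
    simp only [tw, Fin.prod_univ_four, a0, a1, a2, a3, map_mul, Complex.conj_conj]
    push_cast
    ring
  rw [e2] at s1
  rw [e3, h.mass_tw h] at s2
  rw [e1]
  refine le_trans (le_of_eq (by ring)) ((pow_le_pow_left₀ (sq_nonneg _) s1 2).trans ?_)
  rw [mul_pow]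
  refine (mul_le_mul_of_nonneg_left s2 (sq_nonneg _)).trans (le_of_eq ?_)
  ring

end Crest.Agent.T49.Ri.B3
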