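import Crest.Agent.T49.MxDefB_53
import Crest.Agent.T49.TwPoly_91

/-!
# Row 49 (helper12): the cell of `k + 1` points with prescribed level-one differences

Points `y 0 = z`, `y (j+1) = z + w j`, where the level-one part of `w j` is the number `h j` and the
other coordinates `u j c` are variables of weight `lev c - 1`.  The windows are the Helmert
combinations of the `θ_c (y i)`, so that the weight is exactly `∏ i, wgt (y i)` up to the factor
`gamK h`.
-/

set_option autoImplicit false

noncomputable section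

open MvPolynomial

namespace Crest.Agent.T49.Tw

namespace Cell

variable {ι : Type} (T : Cell ι)

/-- coordinates of level one -/
abbrev L1 : Type := {c // T.lev c = 1}

/-- coordinates of level at least two -/
abbrev U2 : Type := {c // ¬ T.lev c = 1}

/-- coordinates of a point and of blocks of marked variables indexed by `J` -/
abbrev MI (J : Type) : Type := ι ⊕ (J × T.U2)

/-- the projection to the coordinates of `T` -/
def mpr (J : Type) : T.MI J → ι := Sum.elim id fun p => p.2.1

/-- the weights: marked variables lose one -/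
def mlev (J : Type) : T.MI J → ℕ := Sum.elim T.lev fun p => T.lev p.2.1 - 1

/-- the difference `w j = (h j, u j)` -/
def wv {J : Type} (h : J → T.L1 → ℤ) (j : J) (c : ι) : Pl (T.MI J) :=
  if hc : T.lev c = 1 then C (h j ⟨c, hc⟩ : ℝ) else X (Sum.inr (j, ⟨c, hc⟩))

/-- the differences `y i - y 0` -/
def wv0 {k : ℕ} (h : Fin k → T.L1 → ℤ) (i : Fin (k + 1)) : ι → Pl (T.MI (Fin k)) :=
  Fin.cases (fun _ => 0) (T.wv h) i

/-- the `i`-th point as a substitution -/
def ptP {k : ℕ} (h : Fin k → T.L1 → ℤ) (i : Fin (k + 1)) (c : ι) : Pl (T.MI (Fin k)) :=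
  X (Sum.inl c) + T.wv0 h i c

/-- the integer difference `w j` -/
def wZ {J : Type} (h : J → T.L1 → ℤ) (j : J) (p : T.MI J → ℤ) (c : ι) : ℤ :=
  if hc : T.lev c = 1 then h j ⟨c, hc⟩ else p (Sum.inr (j, ⟨c, hc⟩))

/-- the `i`-th integer point -/
def pt {k : ℕ} (h : Fin k → T.L1 → ℤ) (i : Fin (k + 1)) (p : T.MI (Fin k) → ℤ) (c : ι) : ℤ :=
  p (Sum.inl c) + Fin.cases (motive := fun _ => ℤ) 0 (fun j => T.wZ h j p c) i

end Cell

/-- the Helmert matrix: an orthogonal matrix whose row `0` is constant and whose row `j+1` is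
supported on the columns `≤ j+1` -/
def helm (k : ℕ) (r i : Fin (k + 1)) : ℝ :=
  if r = 0 then (√(k + 1))⁻¹
  else if i < r then -(√(r.val * (r.val + 1)))⁻¹
  else if i = r then r.val * (√(r.val * (r.val + 1)))⁻¹ else 0

namespace R12

variable {σ : Type} {w : σ → ℕ}

/-- weighted degree `< d` -/
def DLt (w : σ → ℕ) (f : Pl σ) (d : ℕ) : Prop := ∀ m ∈ f.support, Finsupp.weight w m < d

theorem dlt_zero (d : ℕ) : DLt w (0 : Pl σ) d := fun m hm => by simp at hm

theorem DLt.add {f g : Pl σ} {d : ℕ} (hf : DLt w f d) (hg : DLt w g d) : DLt w (f + g) d := by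
  classical
  intro m hm
  rcases Finset.mem_union.1 (support_add hm) with h | h
  exacts [hf m h, hg m h]

theorem DLt.mul {f g : Pl σ} {a b : ℕ} (hf : DegLe w f a) (hg : DLt w g b) :
    DLt w (f * g) (a + b) := by
  classical
  intro m hm
  obtain ⟨x, hx, y, hy, rfl⟩ := Finset.mem_add.1 (support_mul f g hm)
  rw [map_add]
  exact add_lt_add_of_le_of_lt (hf x hx) (hg y hy)

theorem DLt.mono {f : Pl σ} {a b : ℕ} (hf : DLt w f a) (h : a ≤ b) : DLt w f b :=
  fun m hm => (hf m hm).trans_le h

theorem DLt.degLe {f : Pl σ} {a : ℕ} (hf : DLt w f a) : DegLe w f (a - 1) :=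
  fun m hm => by have := hf m hm; omega

theorem DLt.of_degLe {f : Pl σ} {a b : ℕ} (hf : DegLe w f a) (h : a < b) : DLt w f b :=
  fun m hm => (hf m hm).trans_lt h

theorem dlt_sum {α : Type*} {s : Finset α} {f : α → Pl σ} {d : ℕ} (h : ∀ a ∈ s, DLt w (f a) d) :
    DLt w (∑ a ∈ s, f a) d :=
  Finset.sum_induction f (fun p => DLt w p d) (fun _ _ => DLt.add) (dlt_zero d) h

theorem DLt.C_mul {f : Pl σ} {d : ℕ} (hf : DLt w f d) (r : ℝ) : DLt w (C r * f) d := by
  simpa using DLt.mul (degLe_C (w := w) r 0) hf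

/-- two substitutions that agree to top order -/
theorem dlt_bind_sub {ι : Type} {v : ι → ℕ} {g g' : ι → Pl σ} (hg : ∀ c, DegLe w (g c) (v c))
    (hg' : ∀ c, DegLe w (g' c) (v c)) (hd : ∀ c, DLt w (g c - g' c) (v c)) {f : Pl ι} {d : ℕ}
    (hf : DegLe v f d) : DLt w (bind₁ g f - bind₁ g' f) d := by
  classical
  have key : ∀ m : ι →₀ ℕ, DLt w (bind₁ g (monomial m (1 : ℝ)) - bind₁ g' (monomial m 1))
      (Finsupp.weight v m) := by
    intro m
    induction m using Finsupp.induction_linear with
    | zero => simpa using dlt_zero 0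
    | add a b ha hb =>
      have e : (monomial (a + b) (1 : ℝ) : Pl ι) = monomial a 1 * monomial b 1 := by
        rw [monomial_mul, mul_one]
      have h1 := DLt.mul (DegLe.bind hg (degLe_monomial (w := v) a 1)) hb
      have h2 := DLt.mul (DegLe.bind hg' (degLe_monomial (w := v) b 1)) ha
      rw [add_comm] at h2
      have := h1.add h2
      rw [e, map_mul, map_mul, map_add]
      convert this using 1
      ring
    | single c n =>
      induction n with
      | zero => simpa using dlt_zero 0
      | succ n ih =>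
        have e : (monomial (Finsupp.single c (n + 1)) (1 : ℝ) : Pl ι) =
            monomial (Finsupp.single c n) 1 * X c := by
          rw [X, monomial_mul, mul_one, Finsupp.single_add]
        have h1 := DLt.mul (DegLe.bind hg (degLe_monomial (w := v) (Finsupp.single c n) 1)) (hd c)
        have h2 := DLt.mul (hg' c) ih
        rw [add_comm] at h2
        have := h1.add h2
        have e2 : Finsupp.weight v (Finsupp.single c (n + 1)) =
            Finsupp.weight v (Finsupp.single c n) + v c := by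
          rw [Finsupp.single_add, map_add, Finsupp.weight_single v c 1, one_smul]
        rw [e, map_mul, map_mul, e2, bind₁_X_right, bind₁_X_right]
        convert this using 1
        ring
  rw [f.as_sum, map_sum, map_sum, ← Finset.sum_sub_distrib]
  refine dlt_sum fun m hm => ?_
  have e : (monomial m (coeff m f) : Pl ι) = C (coeff m f) * monomial m 1 := by
    rw [C_mul_monomial, mul_one]
  rw [e, map_mul, map_mul, bind₁_C_right, bind₁_C_right, ← mul_sub]
  exact ((key m).C_mul _).mono (hf m hm)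

theorem sum_helm (k : ℕ) (j : Fin k) : ∑ i, helm k j.succ i = 0 := by
  have e : ∀ i : Fin (k + 1), helm k j.succ i =
      (if i < j.succ then -(√(j.succ.val * (j.succ.val + 1)))⁻¹ else 0) +
        if i = j.succ then j.succ.val * (√(j.succ.val * (j.succ.val + 1)))⁻¹ else 0 := by
    intro i
    rw [helm, if_neg (Fin.succ_ne_zero j)]
    by_cases h1 : i < j.succ
    · rw [if_pos h1, if_pos h1, if_neg h1.ne, add_zero]
    · rw [if_neg h1, if_neg h1, zero_add]
  simp only [e, Finset.sum_add_distrib, Finset.sum_ite_eq', Finset.mem_univ, if_true]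
  rw [← Finset.sum_filter, Finset.sum_const, Finset.filter_gt_eq_Iio, Fin.card_Iio, nsmul_eq_mul]
  ring

end R12

namespace Cell

open R12

variable {ι : Type} (T : Cell ι)

theorem wv0_dlt {k : ℕ} (h : Fin k → T.L1 → ℤ) (i : Fin (k + 1)) (c : ι) :
    DLt (T.mlev (Fin k)) (T.wv0 h i c) (T.lev c) := by
  refine Fin.cases ?_ (fun j => ?_) i
  · exact dlt_zero _
  · have := T.lev_pos c
    simp only [wv0, Fin.cases_succ, wv]
    split_ifs with hc
    · exact DLt.of_degLe (degLe_C _ 0) this
    · exact DLt.of_degLe (degLe_X _) (by show T.lev c - 1 < _; omega)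

theorem ptP_degLe {k : ℕ} (h : Fin k → T.L1 → ℤ) (i : Fin (k + 1)) (c : ι) :
    DegLe (T.mlev (Fin k)) (T.ptP h i c) (T.lev c) :=
  (degLe_X (w := T.mlev (Fin k)) (Sum.inl c)).add ((T.wv0_dlt h i c).degLe.mono (Nat.sub_le _ _))

theorem bind_ptP_sub {k : ℕ} (h : Fin k → T.L1 → ℤ) (i i' : Fin (k + 1)) {f : Pl ι} {d : ℕ}
    (hf : DegLe T.lev f d) :
    DLt (T.mlev (Fin k)) (bind₁ (T.ptP h i) f - bind₁ (T.ptP h i') f) d := by
  refine dlt_bind_sub (T.ptP_degLe h i) (T.ptP_degLe h i') (fun c => ?_) hf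
  have := (T.wv0_dlt h i c).add ((T.wv0_dlt h i' c).C_mul (-1))
  convert this using 1
  simp only [ptP, map_neg, map_one]
  ring

/-- the ranks of the multi-point cell -/
def mrk (k : ℕ) : T.MI (Fin k) → ℕ :=
  Sum.elim (fun c => (k + 1) * T.rk c + k) fun p => (k + 1) * T.rk p.2.1 + p.1

theorem wv0_mem {k : ℕ} (h : Fin k → T.L1 → ℤ) (i : Fin (k + 1)) (c : ι) :
    T.wv0 h i c ∈ supported ℝ {c' | T.mrk k c' < (k + 1) * T.rk c + i} := by
  refine Fin.cases ?_ (fun j => ?_) i
  · exact zero_mem _
  · simp only [wv0, Fin.cases_succ, wv]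
    split_ifs with hc
    · exact C_mem_supp _ _
    · refine X_mem_supp ?_
      show (k + 1) * T.rk c + j < _
      simp

theorem bind_ptP_mem {k : ℕ} (h : Fin k → T.L1 → ℤ) (i : Fin (k + 1)) (c : ι) :
    bind₁ (T.ptP h i) (T.B c) ∈ supported ℝ {c' | T.mrk k c' < (k + 1) * T.rk c} := by
  refine bind_mem_supported (fun c' hc' => ?_) (T.B_mem c)
  have h1 : T.rk c' + 1 ≤ T.rk c := hc'
  have h2 := Nat.mul_le_mul_left (k + 1) h1
  rw [mul_add, mul_one] at h2
  refine add_mem (X_mem_supp ?_) (supported_mono (fun x hx => ?_) (T.wv0_mem h i c'))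
  · show (k + 1) * T.rk c' + k < _
    omega
  · have h3 : T.mrk k x < (k + 1) * T.rk c' + i := hx
    have := i.2
    show T.mrk k x < _
    omega

/-- **the cell of `k + 1` points** with level-one differences `h` -/
def mp {k : ℕ} (h : Fin k → T.L1 → ℤ) : Cell (T.MI (Fin k)) where
  rk := T.mrk k
  a := Sum.elim (fun c => √(k + 1) * T.a c) fun p => helm k p.1.succ p.1.succ * T.a p.2.1
  B := Sum.elim
    (fun c => ∑ i, C (helm k 0 i) * (C (T.a c) * T.wv0 h i c + bind₁ (T.ptP h i) (T.B c)))
    fun p => ∑ i, C (helm k p.1.succ i) *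
      ((if i = p.1.succ then 0 else C (T.a p.2.1) * T.wv0 h i p.2.1) +
        (bind₁ (T.ptP h i) (T.B p.2.1) - bind₁ (T.ptP h 0) (T.B p.2.1)))
  a_ne c := by
    rcases c with c | ⟨j, c⟩
    · exact mul_ne_zero (by positivity) (T.a_ne c)
    · refine mul_ne_zero ?_ (T.a_ne c.1)
      rw [helm, if_neg (Fin.succ_ne_zero j), if_neg (lt_irrefl _), if_pos rfl, Fin.val_succ]
      positivity
  B_mem c := by
    rcases c with c | ⟨j, c⟩
    · refine sum_mem fun i _ => mul_mem (C_mem_supp _ _) (add_mem (mul_mem (C_mem_supp _ _)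
        (supported_mono (fun x hx => ?_) (T.wv0_mem h i c)))
        (supported_mono (fun x hx => ?_) (T.bind_ptP_mem h i c)))
      · have h3 : T.mrk k x < (k + 1) * T.rk c + i := hx
        have := i.2
        show T.mrk k x < (k + 1) * T.rk c + k
        omega
      · have h3 : T.mrk k x < (k + 1) * T.rk c := hx
        show T.mrk k x < (k + 1) * T.rk c + k
        omega
    · have hs : supported ℝ {c' | T.mrk k c' < (k + 1) * T.rk c.1} ≤
          supported ℝ {c' | T.mrk k c' < T.mrk k (Sum.inr (j, c))} :=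
        supported_mono fun x hx => by
          have h3 : T.mrk k x < (k + 1) * T.rk c.1 := hx
          show T.mrk k x < (k + 1) * T.rk c.1 + j
          omega
      refine sum_mem fun i _ => ?_
      by_cases h1 : j.succ < i
      · have : helm k j.succ i = 0 := by
          rw [helm, if_neg (Fin.succ_ne_zero j), if_neg h1.not_gt, if_neg h1.ne']
        rw [this, C_0, zero_mul]
        exact zero_mem _
      · refine mul_mem (C_mem_supp _ _) (add_mem ?_
          (sub_mem (hs (T.bind_ptP_mem h i c.1)) (hs (T.bind_ptP_mem h 0 c.1))))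
        split_ifs with h2
        · exact zero_mem _
        · refine mul_mem (C_mem_supp _ _) (supported_mono (fun x hx => ?_) (T.wv0_mem h i c.1))
          have h3 : T.mrk k x < (k + 1) * T.rk c.1 + i := hx
          have h4 : i < j.succ := lt_of_le_of_ne (not_lt.1 h1) h2
          have h5 : (i : ℕ) < j + 1 := h4
          show T.mrk k x < (k + 1) * T.rk c.1 + j
          omega
  lev := T.mlev (Fin k)
  lev_pos c := by
    rcases c with c | ⟨j, c⟩
    · exact T.lev_pos c
    · have h1 := T.lev_pos c.1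
      have h2 := c.2
      show 0 < T.lev c.1 - 1
      omega
  deg c := by
    rcases c with c | ⟨j, c⟩
    · exact degLe_sum fun i _ => ((((T.wv0_dlt h i c).degLe.mono (Nat.sub_le _ _)).C_mul _).add
        (DegLe.bind (T.ptP_degLe h i) (T.deg c))).C_mul _
    · refine DLt.degLe (dlt_sum fun i _ => DLt.C_mul (DLt.add ?_
        (T.bind_ptP_sub h i 0 (T.deg c.1))) _)
      split_ifs
      · exact dlt_zero _
      · exact (T.wv0_dlt h i c.1).C_mul _

/-- extension by zero of a level-one vector -/
def ext1 (h : T.L1 → ℤ) (c : ι) : ℤ := if hc : T.lev c = 1 then h ⟨c, hc⟩ else 0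

/-- the window coordinates `θ_c (y + h) - θ_c (y)` of a level-one vector -/
def ell (h : T.L1 → ℤ) (c : T.L1) : ℝ := ev (T.ext1 h) (T.tth c.1)

/-- `∏ i, wgt (y i) = gamK h * (mp h).wgt` -/
def gamK [Fintype ι] {k : ℕ} (h : Fin k → T.L1 → ℤ) : ℝ :=
  Real.exp (-Real.pi * ∑ c : T.L1, ∑ j : Fin k, (∑ i : Fin k, helm k j.succ i.succ * T.ell (h i) c) ^ 2)

/-- the ideal number of level-one vectors in the unit window -/
def mu1 [Fintype ι] : ℝ := ∏ c : T.L1, |T.a c.1|⁻¹

/-- the tangent system: `θ^top_c (z)` and `D θ^top_c (z) [w j]` -/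
def tn [Fintype ι] {J : Type} (h : J → T.L1 → ℤ) : T.MI J → Pl (T.MI J) :=
  Sum.elim (fun c => rename Sum.inl (T.tth c))
    fun p => ∑ c', rename Sum.inl (pderiv c' (T.tth p.2.1)) * T.wv h p.1 c'

end Cell

end Crest.Agent.T49.Tw
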