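import Crest.Agent.T49.RiBox_3
import Crest.Agent.T49.TwPoly_91

/-!
# Row 49 (helper42): Fourier series on `ℤ^σ`, Plancherel, the box form of a difference kernel
-/

set_option autoImplicit false

noncomputable section

namespace Crest.Agent.T49.Ri.F42

open Finset MeasureTheory
open Crest.Agent.T49.Tw Crest.Agent.T49.Ri.B3
open scoped ComplexConjugate

variable {σ : Type} [Fintype σ]

/-- the character of frequency `α` -/
def ch (α : σ → ℝ) (x : σ → ℤ) : ℂ := ee (∑ c, α c * x c)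

theorem norm_ch (α : σ → ℝ) (x : σ → ℤ) : ‖ch α x‖ = 1 := norm_ee _

theorem ch_add (α : σ → ℝ) (x y : σ → ℤ) : ch α (x + y) = ch α x * ch α y := by
  simp only [ch, ← ee_add, ← sum_add_distrib, Pi.add_apply, Int.cast_add, mul_add]

theorem ch_sub (α : σ → ℝ) (x y : σ → ℤ) : ch α (x - y) = ch α x * conj (ch α y) := by
  simp only [ch, ← ee_sub, ← sum_sub_distrib, Pi.sub_apply, Int.cast_sub, mul_sub]

theorem ch_neg (α : σ → ℝ) (x : σ → ℤ) : ch (-α) x = conj (ch α x) := by
  simp only [ch, ← ee_neg, Pi.neg_apply, neg_mul, sum_neg_distrib]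

theorem continuous_ch (x : σ → ℤ) : Continuous fun α : σ → ℝ => ch α x := by
  unfold ch ee
  fun_prop

/-- Lebesgue measure on the unit cube -/
def cub (σ : Type) [Fintype σ] : Measure (σ → ℝ) :=
  Measure.pi fun _ => (volume : Measure ℝ).restrict (Set.Ioc 0 1)

theorem cub_prob : IsProbabilityMeasure (cub σ) := by
  have : IsProbabilityMeasure ((volume : Measure ℝ).restrict (Set.Ioc 0 1)) := ⟨by simp⟩
  unfold cub
  infer_instance

theorem int_ee (n : ℤ) :
    ∫ t in Set.Ioc (0 : ℝ) 1, ee (t * n) = if n = 0 then 1 else 0 := by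
  split_ifs with h
  · simp [h]
  · have hc : (2 * Real.pi * Complex.I * n : ℂ) ≠ 0 := by
      simp [h, Real.pi_ne_zero]
    have := integral_exp_mul_complex (a := 0) (b := 1) hc
    rw [intervalIntegral.integral_of_le zero_le_one] at this
    have e : ∀ t : ℝ, ee (t * n) = Complex.exp (2 * Real.pi * Complex.I * n * t) := fun t => by
      rw [ee]; congr 1; push_cast; ring
    simp only [e]
    rw [this]
    have h1 := ee_int n
    rw [ee] at h1
    simp only [Complex.ofReal_intCast] at h1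
    simp [h1]

open Classical in
theorem int_ch (x : σ → ℤ) : ∫ α, ch α x ∂cub σ = if x = 0 then 1 else 0 := by
  simp only [ch, ee_sum, cub]
  rw [integral_fintype_prod_eq_prod (f := fun c (t : ℝ) => ee (t * x c))]
  simp only [int_ee]
  split_ifs with h
  · simp [h]
  · obtain ⟨c, hc⟩ := Function.ne_iff.1 h
    exact prod_eq_zero (mem_univ c) (if_neg hc)

theorem integrable_bdd {E : Type} [NormedAddCommGroup E] [SecondCountableTopology E]
    {F : (σ → ℝ) → E} (h : Continuous F) {B : ℝ} (hB : ∀ α, ‖F α‖ ≤ B) :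
    Integrable F (cub σ) := by
  have := cub_prob (σ := σ)
  exact Integrable.of_bound h.aestronglyMeasurable B (Filter.Eventually.of_forall hB)

theorem int_tsum {X : Type} [Countable X] {φ : X → ℂ} (hφ : Summable fun x => ‖φ x‖)
    {F : X → (σ → ℝ) → ℂ} (hF : ∀ x, Continuous (F x)) {B : ℝ} (hB : ∀ x α, ‖F x α‖ ≤ B) :
    ∫ α, (∑' x, φ x * F x α) ∂cub σ = ∑' x, φ x * ∫ α, F x α ∂cub σ := by
  have := cub_prob (σ := σ)
  have h1 : ∀ x α, ‖φ x * F x α‖ ≤ ‖φ x‖ * B := fun x α => by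
    rw [norm_mul]; exact mul_le_mul_of_nonneg_left (hB x α) (norm_nonneg _)
  rw [← (hasSum_integral_of_summable_integral_norm (F := fun x α => φ x * F x α)
    (fun x => integrable_bdd (continuous_const.mul (hF x)) (h1 x)) ?_).tsum_eq]
  · simp only [integral_const_mul]
  · refine (hφ.mul_right B).of_nonneg_of_le (fun x => integral_nonneg fun _ => norm_nonneg _)
      fun x => ?_
    have := norm_integral_le_of_norm_le_const (μ := cub σ) (f := fun α => ‖φ x * F x α‖)
      (C := ‖φ x‖ * B) (Filter.Eventually.of_forall fun α => by simpa only [norm_norm] using h1 x α)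
    rw [probReal_univ, mul_one] at this
    exact (le_abs_self _).trans this

/-- the Fourier series -/
def hat (u : (σ → ℤ) → ℂ) (α : σ → ℝ) : ℂ := ∑' x, u x * ch α x

variable {u v b : (σ → ℤ) → ℂ}

theorem norm_hat_le (hu : Summable fun x => ‖u x‖) (α : σ → ℝ) : ‖hat u α‖ ≤ ∑' x, ‖u x‖ :=
  tsum_of_norm_bounded hu.hasSum fun x => by rw [norm_mul, norm_ch, mul_one]

theorem continuous_hat (hu : Summable fun x => ‖u x‖) : Continuous (hat u) :=
  continuous_tsum (fun x => continuous_const.mul (continuous_ch x)) hu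
    fun x α => by rw [norm_mul, norm_ch, mul_one]

theorem int_coef (hu : Summable fun x => ‖u x‖) (n : σ → ℤ) :
    ∫ α, ch α n * conj (hat u α) ∂cub σ = conj (u n) := by
  classical
  have e : ∀ α, ch α n * conj (hat u α) = ∑' x, conj (u x) * ch α (n - x) := fun α => by
    rw [hat, Complex.conj_tsum, ← tsum_mul_left]
    exact tsum_congr fun x => by rw [ch_sub, map_mul]; ring
  simp only [e]
  rw [int_tsum (B := 1) (by simpa using hu) (fun x => continuous_ch _) fun x α => (norm_ch _ _).le,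
    tsum_eq_single n fun x hx => by rw [int_ch, if_neg (sub_ne_zero.2 hx.symm), mul_zero]]
  simp [int_ch]

/-- Plancherel -/
theorem int_pair {X : Type} [Countable X] {φ : X → ℂ} (hφ : Summable fun x => ‖φ x‖)
    (π : X → σ → ℤ) (hu : Summable fun x => ‖u x‖) :
    ∫ α, (∑' x, φ x * ch α (π x)) * conj (hat u α) ∂cub σ = ∑' x, φ x * conj (u (π x)) := by
  simp only [← tsum_mul_right, mul_assoc]
  rw [int_tsum (B := ∑' x, ‖u x‖) (F := fun x α => ch α (π x) * conj (hat u α)) hφ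
    (fun x => (continuous_ch _).mul (Complex.continuous_conj.comp (continuous_hat hu)))
    fun x α => by rw [norm_mul, norm_ch, one_mul, Complex.norm_conj]; exact norm_hat_le hu α]
  simp only [int_coef hu]

theorem integrable_sq (hu : Summable fun x => ‖u x‖) :
    Integrable (fun α => ‖hat u α‖ ^ 2) (cub σ) :=
  integrable_bdd ((continuous_hat hu).norm.pow 2) (B := (∑' x, ‖u x‖) ^ 2) fun α => by
    rw [norm_pow, norm_norm]
    exact pow_le_pow_left₀ (norm_nonneg _) (norm_hat_le hu α) 2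

/-- Parseval -/
theorem parseval (hu : Summable fun x => ‖u x‖) :
    ∫ α, ‖hat u α‖ ^ 2 ∂cub σ = ∑' x, ‖u x‖ ^ 2 := by
  have := int_pair hu id hu
  simp only [id, ← hat.eq_1, Complex.mul_conj'] at this
  exact_mod_cast this

/-- a difference kernel is bounded on `ℓ²` by the supremum of its Fourier series -/
theorem bilin (hb : Summable fun x => ‖b x‖) (hu : Summable fun x => ‖u x‖)
    (hv : Summable fun x => ‖v x‖) {S : ℝ} (hS : ∀ α, ‖hat b α‖ ≤ S) :
    ‖∑' q : (σ → ℤ) × (σ → ℤ), u q.1 * conj (v q.2) * b (q.2 - q.1)‖ ≤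
      S * ((∑' x, ‖u x‖ ^ 2 + ∑' x, ‖v x‖ ^ 2) / 2) := by
  let E : (σ → ℤ) × (σ → ℤ) ≃ (σ → ℤ) × (σ → ℤ) :=
    ⟨fun p => (p.2, p.1 + p.2), fun q => (q.2 - q.1, q.1), fun p => by simp, fun q => by simp⟩
  have h1 := int_pair (hb.mul_norm hu) (fun p => p.1 + p.2) hv
  have h2 : ∀ α, ∑' p : (σ → ℤ) × (σ → ℤ), b p.1 * u p.2 * ch α (p.1 + p.2) =
      hat b α * hat u α := fun α => by
    rw [hat, hat, tsum_mul_tsum_of_summable_norm (by simpa [norm_ch] using hb)
      (by simpa [norm_ch] using hu)]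
    exact tsum_congr fun p => by rw [ch_add]; ring
  have h3 : ∑' q : (σ → ℤ) × (σ → ℤ), u q.1 * conj (v q.2) * b (q.2 - q.1) =
      ∑' p : (σ → ℤ) × (σ → ℤ), b p.1 * u p.2 * conj (v (p.1 + p.2)) := by
    rw [← E.tsum_eq]
    exact tsum_congr fun p => by simp only [E, Equiv.coe_fn_mk, add_sub_cancel_right]; ring
  simp only [h2] at h1
  rw [h3, ← h1, ← parseval hu, ← parseval hv, ← integral_add (integrable_sq hu) (integrable_sq hv),
    ← integral_div, ← integral_const_mul]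
  refine norm_integral_le_of_norm_le ((((integrable_sq hu).add (integrable_sq hv)).div_const
    2).const_mul S) (Filter.Eventually.of_forall fun α => ?_)
  rw [norm_mul, norm_mul, Complex.norm_conj, mul_assoc]
  refine mul_le_mul (hS α) ?_ (by positivity) ((norm_nonneg _).trans (hS α))
  nlinarith [sq_nonneg (‖hat u α‖ - ‖hat v α‖)]

/-- four points, the other pairing -/
def e4' (X : Type) : (X × X) × (X × X) ≃ (Fin 4 → X) where
  toFun p := ![p.2.1, p.1.1, p.2.2, p.1.2]
  invFun y := ((y 1, y 3), (y 0, y 2))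
  left_inv _ := rfl
  right_inv y := by funext i; fin_cases i <;> rfl

/-- the box form of a difference kernel for a bounded weight -/
theorem box_le {g : (σ → ℤ) → ℝ} (hg : Wt g) (h1 : ∀ x, g x ≤ 1) (hb : Summable fun x => ‖b x‖)
    (hb1 : ∀ x, ‖b x‖ ≤ 1) {S : ℝ} (hS : ∀ α, ‖hat b α‖ ≤ S) :
    ‖∑' y : Fin 4 → σ → ℤ, (∏ i, (g (y i) : ℂ)) * (b (y 2 - y 0) * b (y 3 - y 1) *
      conj (b (y 3 - y 0)) * conj (b (y 2 - y 1)))‖ ≤ (∑' x, g x) ^ 3 * S := by
  have h2 := hg.tw hg
  have hS0 : 0 ≤ S := (norm_nonneg _).trans (hS 0)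
  have hc : ∀ x, ‖conj (b x)‖ ≤ 1 := fun x => by rw [Complex.norm_conj]; exact hb1 x
  have e : ∑' y : Fin 4 → σ → ℤ, (∏ i, (g (y i) : ℂ)) * (b (y 2 - y 0) * b (y 3 - y 1) *
      conj (b (y 3 - y 0)) * conj (b (y 2 - y 1))) =
      Ex (tw g g) fun r => b (r.2 - r.1) * Ex (tw g g) fun q =>
        conj (b (r.2 - q.1)) * conj (b (q.2 - r.1)) * b (q.2 - q.1) := by
    simp only [← Ex_mul_left]
    rw [← Ex_prod h2 h2 (G := fun z => b (z.1.2 - z.1.1) *
      (conj (b (z.1.2 - z.2.1)) * conj (b (z.2.2 - z.1.1)) * b (z.2.2 - z.2.1)))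
      fun z => norm_mul_le_one (hb1 _) (norm_mul_le_one (norm_mul_le_one (hc _) (hc _)) (hb1 _)),
      Ex, ← (e4' (σ → ℤ)).tsum_eq]
    refine tsum_congr fun z => ?_
    have a0 : e4' (σ → ℤ) z 0 = z.2.1 := rfl
    have a1 : e4' (σ → ℤ) z 1 = z.1.1 := rfl
    have a2 : e4' (σ → ℤ) z 2 = z.2.2 := rfl
    have a3 : e4' (σ → ℤ) z 3 = z.1.2 := rfl
    simp only [tw, Fin.prod_univ_four, a0, a1, a2, a3]
    push_cast
    ring
  have k : ∀ {f : (σ → ℤ) → ℂ}, (∀ x, ‖f x‖ ≤ 1) → (Summable fun x => ‖(g x : ℂ) * f x‖) ∧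
      ∑' x, ‖(g x : ℂ) * f x‖ ^ 2 ≤ ∑' x, g x := by
    intro f hf
    have k1 : ∀ x, ‖(g x : ℂ) * f x‖ ≤ g x := fun x => by simpa using hg.norm_le hf x
    have k2 := hg.sm.of_nonneg_of_le (fun _ => norm_nonneg _) k1
    refine ⟨k2, (Hk.summable_sq (fun _ => norm_nonneg _) k2).tsum_le_tsum (fun x => ?_) hg.sm⟩
    nlinarith [k1 x, h1 x, norm_nonneg ((g x : ℂ) * f x)]
  rw [e]
  refine (h2.norm_Ex_le (B := S * ∑' x, g x) fun r => ?_).trans (le_of_eq ?_)
  · obtain ⟨k1, k2⟩ := k fun x => hc (r.2 - x)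
    obtain ⟨k3, k4⟩ := k fun x => hb1 (x - r.1)
    have k5 := bilin hb k1 k3 hS
    rw [norm_mul]
    refine (mul_le_of_le_one_left (norm_nonneg _) (hb1 _)).trans (le_trans (le_of_eq ?_)
      (k5.trans (mul_le_mul_of_nonneg_left (by linarith) hS0)))
    rw [Ex]
    congr 2
    funext q
    simp only [tw, map_mul, Complex.conj_ofReal]
    push_cast
    ring
  · rw [hg.mass_tw hg]; ring

end Crest.Agent.T49.Ri.F42
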