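import Crest.Agent.T49.RiDef_12
import Crest.Agent.T49.MxCell_53
import Crest.Agent.T49.MxAsmA_91

/-!
# Row 49 (helper85): the tangent cell of `k + 1` points (all levels of the differences are free)
-/

set_option autoImplicit false
set_option linter.unusedSectionVars false

noncomputable section

namespace Crest.Agent.T49.Ri.Hr85

open Finset MvPolynomial
open Crest.Agent.T49.Tw

variable {ι : Type} [Fintype ι] {k : ℕ}

/-- coordinates of a point and of `k` differences -/
abbrev YI (ι : Type) (k : ℕ) : Type := ι ⊕ Fin k × ι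

/-- the projection -/
def ypr (ι : Type) (k : ℕ) : YI ι k → ι := Sum.elim id Prod.snd

/-- the derivative of `f` at `z` in the direction `w i` -/
def dw (i : Fin k) (f : Pl ι) : Pl (YI ι k) :=
  ∑ c, rename Sum.inl (pderiv c f) * X (Sum.inr (i, c))

theorem mem_supp_pderiv {c : ι} {f : Pl ι} {m : ι →₀ ℕ} (h : m ∈ (pderiv c f).support) :
    m + Finsupp.single c 1 ∈ f.support := by
  rw [mem_support_iff] at h ⊢
  rw [coeff_pderiv] at h
  exact left_ne_zero_of_mul h

theorem mem_add_l {c c' : ι} {m : ι →₀ ℕ} (h : c' ∈ m.support) :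
    c' ∈ (m + Finsupp.single c 1).support := by
  rw [Finsupp.mem_support_iff] at h ⊢
  rw [Finsupp.add_apply]; omega

theorem mem_add_r (c : ι) (m : ι →₀ ℕ) : c ∈ (m + Finsupp.single c 1).support := by
  rw [Finsupp.mem_support_iff, Finsupp.add_apply, Finsupp.single_eq_same]; omega

theorem pderiv_supp {s : Set ι} {f : Pl ι} (hf : f ∈ supported ℝ s) (c : ι) :
    pderiv c f ∈ supported ℝ s :=
  Asm.mem_supported_iff.2 fun _ hm c' hc' =>
    Asm.mem_supported_iff.1 hf _ (mem_supp_pderiv hm) c' (mem_add_l hc')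

theorem ex_supp {f : Pl ι} (h : f ≠ 0) : ∃ m, m ∈ f.support :=
  (ne_zero_iff.1 h).imp fun _ hm => mem_support_iff.2 hm

theorem dw_supp {s : Set ι} {t : Set (YI ι k)} {i : Fin k} (h1 : ∀ c ∈ s, Sum.inl c ∈ t)
    (h2 : ∀ c ∈ s, Sum.inr (i, c) ∈ t) {f : Pl ι} (hf : f ∈ supported ℝ s) :
    dw i f ∈ supported ℝ t := by
  refine sum_mem fun c _ => ?_
  by_cases h : pderiv c f = 0
  · rw [h, map_zero, zero_mul]; exact zero_mem _
  · obtain ⟨m, hm⟩ := ex_supp h
    exact mul_mem (rename_mem_supported _ h1 (pderiv_supp hf c)) (X_mem_supp (h2 c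
      (Asm.mem_supported_iff.1 hf _ (mem_supp_pderiv hm) c (mem_add_r c m))))

theorem lev_le_of_pderiv {v : ι → ℕ} {f : Pl ι} {d : ℕ} (hf : IsWeightedHomogeneous v f d) {c : ι}
    (h : pderiv c f ≠ 0) : v c ≤ d := by
  obtain ⟨m, hm⟩ := ex_supp h
  have := hf (mem_support_iff.1 (mem_supp_pderiv hm))
  rw [map_add, Finsupp.weight_single, one_smul] at this
  omega

theorem rename_hom {κ : Type} {v : ι → ℕ} {w : κ → ℕ} {φ : ι → κ} (h : ∀ c, w (φ c) = v c)
    {f : Pl ι} {d : ℕ} (hf : IsWeightedHomogeneous v f d) :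
    IsWeightedHomogeneous w (rename φ f) d := by
  rw [rename_eq_bind]
  exact hom_bind' (fun c => h c ▸ isWeightedHomogeneous_X ℝ w (φ c)) hf

theorem dw_hom {v : ι → ℕ} {w : YI ι k → ℕ} {i : Fin k} {δ d d' : ℕ}
    (h1 : ∀ c, w (Sum.inl c) = v c) (h2 : ∀ c, w (Sum.inr (i, c)) + δ = v c) {f : Pl ι}
    (hf : IsWeightedHomogeneous v f d) (hd : d' + δ = d) : IsWeightedHomogeneous w (dw i f) d' := by
  refine IsWeightedHomogeneous.sum _ _ _ fun c _ => ?_
  by_cases h : pderiv c f = 0
  · rw [h, map_zero, zero_mul]; exact isWeightedHomogeneous_zero _ _ _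
  · have h3 := lev_le_of_pderiv hf h
    have h4 := (rename_hom h1 (hf.pderiv (n' := d - v c) (i := c) (by omega))).mul
      (isWeightedHomogeneous_X ℝ w (Sum.inr (i, c)))
    have h5 := h2 c
    rwa [show d - v c + w (Sum.inr (i, c)) = d' by omega] at h4

/-- derivatives of a linear form are constants -/
theorem pderiv_one {v : ι → ℕ} (hv : ∀ c, 0 < v c) {f : Pl ι} (hf : IsWeightedHomogeneous v f 1)
    (c : ι) : ∃ r : ℝ, pderiv c f = C r ∧ (v c ≠ 1 → r = 0) := by
  by_cases h : pderiv c f = 0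
  · exact ⟨0, by rw [h, C_0], fun _ => rfl⟩
  · have h3 := lev_le_of_pderiv hf h
    have h4 := hv c
    exact ⟨_, DegLe.eq_C hv (DegLe.of_hom (hf.pderiv (n' := 0) (i := c) (by omega))),
      fun h5 => absurd (by omega) h5⟩

theorem dw_mcp {cl : ι → ℕ} {f : Pl ι} {j : ℕ} (hf : MCP cl f j) (i : Fin k) :
    MCP (cl ∘ ypr ι k) (dw i f) j := by
  refine MCP.sum _ fun c _ => ?_
  by_cases h : cl c < j
  · refine MCP.of_supp (mul_mem (rename_mem_supported (s := {c | cl c < j}) Sum.inl (fun _ h => h)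
      (Asm.mem_supported_iff.2 fun m hm c' hc' => ?_)) (X_mem_supp h))
    rcases hf _ (mem_supp_pderiv hm) c' (mem_add_l hc') with h1 | h1
    · exact h1
    · have h2 := mem_add_r c m
      rw [h1.2] at h2
      obtain rfl : c = c' := by simpa using Finsupp.support_single_subset h2
      exact absurd h1.1 h.ne
  · by_cases h0 : pderiv c f = 0
    · rw [h0, map_zero, zero_mul]; exact MCP.zero
    · have key : ∀ m ∈ (pderiv c f).support, cl c = j ∧ m = 0 := fun m hm => by
        rcases hf _ (mem_supp_pderiv hm) c (mem_add_r c m) with h1 | h1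
        · exact absurd h1 h
        · exact ⟨h1.1, by simpa using h1.2⟩
      obtain ⟨m, hm⟩ := ex_supp h0
      have h1 : pderiv c f = C (coeff 0 (pderiv c f)) :=
        DegLe.eq_C (w := fun _ => 1) (fun _ => one_pos) fun m hm => by
          rw [(key m hm).2, map_zero]
      rw [h1, rename_C]
      exact (MCP.X' (cl := cl ∘ ypr ι k) (c := Sum.inr (i, c)) (key m hm).1).C_mul _

theorem dw_add (i : Fin k) (f g : Pl ι) : dw i (f + g) = dw i f + dw i g := by
  simp only [dw, map_add, add_mul, sum_add_distrib]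

theorem dw_X (i : Fin k) (r : ℝ) (c : ι) : dw i (C r * X c) = C r * X (Sum.inr (i, c)) := by
  classical
  rw [dw, sum_eq_single c (fun c' _ h => by
    rw [pderiv_C_mul, pderiv_X_of_ne h.symm, mul_zero, map_zero, zero_mul]) (by simp)]
  simp

theorem helm_zero {j i : Fin k} (h : j < i) : helm k j.succ i.succ = 0 := by
  have h1 : j.succ < i.succ := Fin.succ_lt_succ_iff.2 h
  rw [helm, if_neg (Fin.succ_ne_zero j), if_neg h1.not_gt, if_neg h1.ne']

theorem helm_diag (j : Fin k) : 1 / 2 ≤ helm k j.succ j.succ := by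
  rw [helm, if_neg (Fin.succ_ne_zero j), if_neg (lt_irrefl _), if_pos rfl, Fin.val_succ]
  have h0 : (1 : ℝ) ≤ ((j : ℕ) + 1 : ℕ) := by exact_mod_cast Nat.succ_pos _
  generalize (((j : ℕ) + 1 : ℕ) : ℝ) = a at h0
  rw [← div_eq_mul_inv, le_div_iff₀ (by positivity)]
  have : √(a * (a + 1)) ≤ 2 * a := Real.sqrt_le_iff.2 ⟨by positivity, by nlinarith⟩
  linarith

variable (T : Cell ι) (k)

/-- the weights along the fibres -/
def ywt : YI ι k → ℕ := Sum.elim T.lev fun p => T.lev p.2 - 1

/-- the level-one differences -/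
def yq : YI ι k → Prop := Sum.elim (fun _ => False) fun p => T.lev p.2 = 1

/-- the lower parts of the windows -/
def yB : YI ι k → Pl (YI ι k) :=
  Sum.elim (fun c => C √(k + 1) * rename Sum.inl (T.top (T.lev c) (T.B c)))
    fun p => ∑ i : Fin k, C (helm k p.1.succ i.succ) *
      ((if i = p.1 then 0 else C (T.a p.2) * X (Sum.inr (i, p.2))) +
        dw i (T.top (T.lev p.2) (T.B p.2)))

theorem yB_hom {w : YI ι k → ℕ} {δ : ℕ} (h1 : ∀ c, w (Sum.inl c) = T.lev c)
    (h2 : ∀ i c, w (Sum.inr (i, c)) + δ = T.lev c) (c : YI ι k) :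
    IsWeightedHomogeneous w (yB k T c) (w c) := by
  rcases c with c | ⟨j, c⟩
  · rw [h1]
    exact hom_C_mul (rename_hom h1 (T.top_hom _ _)) _
  · simp only [yB, Sum.elim_inr]
    refine IsWeightedHomogeneous.sum _ _ _ fun i _ => hom_C_mul (IsWeightedHomogeneous.add ?_
      (dw_hom h1 (h2 i) (T.top_hom _ _) (h2 j c))) _
    split_ifs
    · exact isWeightedHomogeneous_zero _ _ _
    · have := hom_C_mul (isWeightedHomogeneous_X ℝ w (Sum.inr (i, c))) (T.a c)
      rwa [show w (Sum.inr (i, c)) = w (Sum.inr (j, c)) by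
        have := h2 i c; have := h2 j c; omega] at this

/-- **the tangent cell** -/
def tg : Cell (YI ι k) where
  rk := Sum.elim (fun c => (k + 1) * T.rk c + k) fun p => (k + 1) * T.rk p.2 + p.1
  a := Sum.elim (fun c => √(k + 1) * T.a c) fun p => helm k p.1.succ p.1.succ * T.a p.2
  B := yB k T
  a_ne c := by
    rcases c with c | ⟨j, c⟩
    · exact mul_ne_zero (by positivity) (T.a_ne c)
    · exact mul_ne_zero (by have := helm_diag j; positivity) (T.a_ne c)
  B_mem c := by
    have key : ∀ c c' : ι, T.rk c' < T.rk c → (k + 1) * T.rk c' + k < (k + 1) * T.rk c :=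
      fun c c' h => by
        have h2 := Nat.mul_le_mul_left (k + 1) (show T.rk c' + 1 ≤ T.rk c from h)
        rw [mul_add, mul_one] at h2
        omega
    rcases c with c | ⟨j, c⟩
    · refine mul_mem (C_mem_supp _ _) (rename_mem_supported _ (fun c' hc' => ?_)
        (whc_mem_supported _ _ (T.B_mem c)))
      have := key c c' hc'
      show (k + 1) * T.rk c' + k < (k + 1) * T.rk c + k
      omega
    · simp only [yB, Sum.elim_inr]
      refine sum_mem fun i _ => ?_
      by_cases h : j < i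
      · rw [helm_zero h, C_0, zero_mul]; exact zero_mem _
      refine mul_mem (C_mem_supp _ _) (add_mem ?_ (dw_supp (fun c' hc' => ?_) (fun c' hc' => ?_)
        (whc_mem_supported _ _ (T.B_mem c))))
      · split_ifs with h2
        · exact zero_mem _
        · refine mul_mem (C_mem_supp _ _) (X_mem_supp ?_)
          have h3 : (i : ℕ) < j := lt_of_le_of_ne (not_lt.1 h) fun e => h2 (Fin.ext e)
          show (k + 1) * T.rk c + i < (k + 1) * T.rk c + j
          omega
      · have := key c c' hc'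
        show (k + 1) * T.rk c' + k < (k + 1) * T.rk c + j
        omega
      · have := key c c' hc'
        have := i.2
        show (k + 1) * T.rk c' + i < (k + 1) * T.rk c + j
        omega
  lev c := T.lev (ypr ι k c)
  lev_pos c := T.lev_pos _
  deg c := DegLe.of_hom (yB_hom k T (δ := 0) (fun _ => rfl) (fun _ _ => rfl) c)

theorem ywt_inr (i : Fin k) (c : ι) : ywt k T (Sum.inr (i, c)) + 1 = T.lev c := by
  have := T.lev_pos c
  show T.lev c - 1 + 1 = _
  omega

theorem tg_hom (c : YI ι k) : IsWeightedHomogeneous (ywt k T) ((tg k T).B c) (ywt k T c) :=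
  yB_hom k T (δ := 1) (fun _ => rfl) (ywt_inr k T) c

theorem tg_th_inl (c : ι) : (tg k T).th (Sum.inl c) = C √(k + 1) * rename Sum.inl (T.tth c) := by
  show C (√(k + 1) * T.a c) * X (Sum.inl c) +
    C √(k + 1) * rename Sum.inl (T.top (T.lev c) (T.B c)) = _
  rw [T.tth_eq, map_add, map_mul, map_mul, rename_C, rename_X]
  ring

theorem tg_th_inr (j : Fin k) (c : ι) : (tg k T).th (Sum.inr (j, c)) =
    ∑ i : Fin k, C (helm k j.succ i.succ) * dw i (T.tth c) := by
  show C (helm k j.succ j.succ * T.a c) * X (Sum.inr (j, c)) +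
    ∑ i : Fin k, C (helm k j.succ i.succ) *
      ((if i = j then 0 else C (T.a c) * X (Sum.inr (i, c))) + dw i (T.top (T.lev c) (T.B c))) = _
  have e : ∀ i : Fin k, C (helm k j.succ i.succ) * dw i (T.tth c) =
      (if i = j then C (helm k j.succ j.succ * T.a c) * X (Sum.inr (j, c)) else 0) +
      C (helm k j.succ i.succ) * ((if i = j then 0 else C (T.a c) * X (Sum.inr (i, c))) +
        dw i (T.top (T.lev c) (T.B c))) := fun i => by
    rw [T.tth_eq, dw_add, dw_X]
    split_ifs with h
    · rw [h, map_mul]; ring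
    · ring
  rw [sum_congr rfl fun i _ => e i, sum_add_distrib, sum_ite_eq', if_pos (mem_univ _)]

theorem tg_tth (c : YI ι k) : (tg k T).tth c = (tg k T).th c :=
  (tg k T).top_of_hom (Cell.th_hom (yB_hom k T (δ := 0) (fun _ => rfl) (fun _ _ => rfl) c))

theorem tg_isMC {cl : ι → ℕ} (h : T.IsMC cl) : (tg k T).IsMC (cl ∘ ypr ι k) := by
  refine Cell.isMC_of_th (fun c => h.pos _) fun c => ?_
  rcases c with c | ⟨j, c⟩
  · rw [tg_th_inl]
    exact (MCP.rename (cl' := cl ∘ ypr ι k) (v := Sum.inl) (fun _ => rfl) (h.tth c)).C_mul _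
  · rw [tg_th_inr]
    exact MCP.sum _ fun i _ => (dw_mcp (h.tth c) i).C_mul _

theorem tg_clo : (tg k T).Clo (yq k T) := by
  rintro (c | ⟨j, c⟩) hc
  · exact hc.elim
  · have hc' : T.lev c = 1 := hc
    show yB k T (Sum.inr (j, c)) ∈ supported ℝ {c | yq k T c}
    simp only [yB, Sum.elim_inr]
    refine sum_mem fun i _ => mul_mem (C_mem_supp _ _) (add_mem ?_ (sum_mem fun c' _ => ?_))
    · split_ifs
      · exact zero_mem _
      · exact mul_mem (C_mem_supp _ _) (X_mem_supp hc)
    · obtain ⟨r, h1, h2⟩ := pderiv_one T.lev_pos (hc' ▸ T.top_hom (T.lev c) (T.B c)) c'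
      rw [hc', h1, rename_C]
      by_cases h : T.lev c' = 1
      · exact mul_mem (C_mem_supp _ _) (X_mem_supp h)
      · rw [h2 h, C_0, zero_mul]; exact zero_mem _

theorem abs_helm_le (hM : MpAt T k) (r i : Fin (k + 1)) : |helm k r i| ≤ 1 := by
  have h1 := hM.orth r r
  rw [if_pos rfl] at h1
  have h2 := single_le_sum (f := fun i => helm k r i * helm k r i)
    (fun _ _ => mul_self_nonneg _) (mem_univ i)
  exact abs_le_one_iff_mul_self_le_one.2 (h2.trans h1.le)

/-- the tangent cell is a projective cover -/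
theorem tg_pc (hM : MpAt T k) {l : ℕ} (hl : ∀ c, T.lev c ≤ l) :
    T.PC (((k + l + 2) ^ 2 : ℕ) : ℝ) (tg k T) (ypr ι k) := by
  classical
  have hk : (0 : ℝ) ≤ k := Nat.cast_nonneg k
  have hl0 : (0 : ℝ) ≤ l := Nat.cast_nonneg l
  have hs : √((k : ℝ) + 1) ≤ k + 1 := Real.sqrt_le_iff.2 ⟨by positivity, by nlinarith⟩
  have hs0 : 0 < √((k : ℝ) + 1) := by positivity
  let n : Option (Fin k) → YI ι k → ℤ := fun t =>
    Sum.elim (fun _ => 1) fun p => if t = some p.1 then T.lev p.2 else 0
  have b0 : ∀ t (f : Pl ι), bind₁ (fun c' => C (n t c' : ℝ) * X (ypr ι k c'))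
      (rename Sum.inl f) = f := fun t f => by
    rw [rename_eq_bind, bind₁_bind₁]
    simp [n, ypr]
  have b1 : ∀ t i c, bind₁ (fun c' => C (n t c' : ℝ) * X (ypr ι k c')) (dw i (T.tth c)) =
      C (if t = some i then (T.lev c : ℝ) else 0) * T.tth c := fun t i c => by
    rw [dw, map_sum]
    simp only [map_mul, b0, bind₁_X_right]
    by_cases h : t = some i
    · have := (T.tth_hom c).sum_weight_X_mul_pderiv
      rw [nsmul_eq_mul] at this
      rw [if_pos h, map_natCast, ← this]
      refine sum_congr rfl fun c' _ => ?_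
      simp [n, ypr, h]
      ring
    · simp [n, ypr, h]
  refine Cell.DCov.pc' (K := k + l + 1) (T := T) (T' := tg k T) (π := ypr ι k)
    (Cell.dcov_of_diag (α := Option (Fin k)) (fun _ => rfl) n
    (fun t => Sum.elim (fun _ => √(k + 1)) fun p =>
      ∑ i : Fin k, helm k p.1.succ i.succ * if t = some i then (T.lev p.2 : ℝ) else 0)
    (fun t c' => ?_) (fun t c' => ?_) fun ξ hξ => ?_) (by linarith) hl ?_ (fun _ => rfl)
    (N := k + 1) (K' := k + 1) (by omega) (by linarith) (fun c => ?_) (fun c' => ?_) ?_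
    fun cl hm => tg_isMC k T hm
  · rcases c' with c | ⟨j, c⟩
    · simp only [Sum.elim_inl]
      rw [abs_of_pos hs0]; linarith
    · simp only [Sum.elim_inr]
      have h1 : (T.lev c : ℝ) ≤ l := by exact_mod_cast hl c
      rcases t with _ | t
      · simp; linarith
      · rw [sum_eq_single t (fun i _ h => by simp [h.symm]) (by simp), if_pos rfl, abs_mul,
          Nat.abs_cast]
        have := abs_helm_le k T hM j.succ t.succ
        nlinarith [abs_nonneg (helm k j.succ t.succ), Nat.cast_nonneg (α := ℝ) (T.lev c)]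
  · rw [tg_tth]
    rcases c' with c | ⟨j, c⟩
    · rw [tg_th_inl, map_mul, b0, bind₁_C_right]; rfl
    · rw [tg_th_inr, map_sum]
      simp only [map_mul, b1, bind₁_C_right, Sum.elim_inr, map_sum, sum_mul, mul_assoc]
      rfl
  · have key : ∀ t c, ξ (Sum.inl c) * √(k + 1) + ∑ j : Fin k, ξ (Sum.inr (j, c)) *
        ∑ i : Fin k, helm k j.succ i.succ * (if t = some i then (T.lev c : ℝ) else 0) = 0 := by
      intro t c
      have := hξ t c
      rw [Fintype.sum_sum_type, Fintype.sum_prod_type, sum_eq_single c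
        (fun c' _ hc => by simp [ypr, Ne.symm hc]) (by simp)] at this
      refine Eq.trans ?_ this
      congr 1
      · simp [ypr]
      · refine sum_congr rfl fun j _ => ?_
        rw [sum_eq_single c (fun c' _ hc => by simp [ypr, Ne.symm hc]) (by simp)]
        simp [ypr]
    have k1 : ∀ c, ξ (Sum.inl c) = 0 := fun c => by
      simpa [hs0.ne'] using key none c
    have k2 : ∀ c (t : Fin k), ∑ j : Fin k, ξ (Sum.inr (j, c)) * helm k j.succ t.succ = 0 := by
      intro c t
      have h1 := key (some t) c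
      have h2 : (T.lev c : ℝ) ≠ 0 := by exact_mod_cast (T.lev_pos c).ne'
      rw [k1, zero_mul, zero_add] at h1
      refine (mul_eq_zero.1 ?_).resolve_right h2
      rw [← h1, sum_mul]
      refine sum_congr rfl fun j _ => ?_
      rw [sum_eq_single t (fun i _ h => by simp [h.symm]) (by simp), if_pos rfl, mul_assoc]
    have k3 : ∀ c (t : Fin (k + 1)), ∑ j : Fin k, ξ (Sum.inr (j, c)) * helm k j.succ t = 0 := by
      intro c t
      refine Fin.cases ?_ (k2 c) t
      have h1 : ∑ t : Fin (k + 1), ∑ j : Fin k, ξ (Sum.inr (j, c)) * helm k j.succ t = 0 := by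
        rw [sum_comm]
        exact sum_eq_zero fun j _ => by rw [← mul_sum, R12.sum_helm, mul_zero]
      rwa [Fin.sum_univ_succ, sum_eq_zero fun t _ => k2 c t, add_zero] at h1
    funext c'
    rcases c' with c | ⟨j, c⟩
    · exact k1 c
    · have h1 : ∑ t : Fin (k + 1), (∑ j' : Fin k, ξ (Sum.inr (j', c)) * helm k j'.succ t) *
          helm k j.succ t = 0 := sum_eq_zero fun t _ => by rw [k3, zero_mul]
      simp only [sum_mul, mul_assoc] at h1
      rw [sum_comm] at h1
      simp only [← mul_sum, hM.orth] at h1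
      simpa using h1
  · calc ((k : ℝ) + l + 1) ^ (l + 1) ≤ Real.exp (k + l) ^ (l + 1) :=
          pow_le_pow_left₀ (by positivity) (Real.add_one_le_exp _) _
      _ ≤ _ := by rw [← Real.exp_nat_mul, Real.exp_le_exp]; push_cast; nlinarith
  · let f : {c' : YI ι k // ypr ι k c' = c} → Option (Fin k) := fun c' =>
      Sum.elim (fun _ => none) (fun p => some p.1) c'.1
    have hf : Function.Injective f := by
      rintro ⟨a | ⟨i, a⟩, ha⟩ ⟨b | ⟨j, b⟩, hb⟩ h
      · exact Subtype.ext (congrArg Sum.inl (ha.trans hb.symm))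
      · simp [f] at h
      · simp [f] at h
      · obtain rfl : i = j := by simpa [f] using h
        obtain rfl : a = b := ha.trans hb.symm
        rfl
    simpa using Nat.card_le_card_of_injective f hf
  · rcases c' with c | ⟨j, c⟩
    · show |√(k + 1) * T.a c| ≤ _ * |T.a c|
      rw [abs_mul, abs_of_pos hs0]
      exact mul_le_mul_of_nonneg_right hs (abs_nonneg _)
    · show |helm k j.succ j.succ * T.a c| ≤ _ * |T.a c|
      rw [abs_mul]
      exact mul_le_mul_of_nonneg_right ((abs_helm_le k T hM _ _).trans (by linarith)) (abs_nonneg _)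
  · have := Real.log_le_sub_one_of_pos (show (0 : ℝ) < k + 1 by positivity)
    push_cast; nlinarith

end Crest.Agent.T49.Ri.Hr85
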