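import Crest.Agent.T49.RiDef_12
import Crest.Agent.T49.TwTri_51
import Crest.Agent.T49.HkB_67

/-!
# Row 49 (helper14): exact identities for the multi-point cell `T.mp h`
-/

set_option autoImplicit false

noncomputable section

namespace Crest.Agent.T49.Ri.Mp

open Finset MvPolynomial
open Crest.Agent.T49.Tw

/-! ### the Helmert matrix -/

theorem helm_zero (k : ℕ) (i : Fin (k + 1)) : helm k 0 i = (√(k + 1))⁻¹ := if_pos rfl

theorem helm_of_lt {k : ℕ} {r i : Fin (k + 1)} (h : i < r) :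
    helm k r i = -(√(r.val * (r.val + 1)))⁻¹ := by
  rw [helm, if_neg (ne_of_gt (lt_of_le_of_lt (Fin.zero_le i) h)), if_pos h]

theorem helm_of_gt {k : ℕ} {r i : Fin (k + 1)} (hr : r ≠ 0) (h : r < i) : helm k r i = 0 := by
  rw [helm, if_neg hr, if_neg h.not_gt, if_neg h.ne']

theorem helm_diag {k : ℕ} {r : Fin (k + 1)} (hr : r ≠ 0) :
    helm k r r = r.val * (√(r.val * (r.val + 1)))⁻¹ := by
  rw [helm, if_neg hr, if_neg (lt_irrefl _), if_pos rfl]

theorem sum_helm_zero (k : ℕ) : ∑ i, helm k 0 i = √(k + 1) := by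
  simp only [helm_zero, sum_const, card_univ, Fintype.card_fin, nsmul_eq_mul]
  have h : (0 : ℝ) < √(k + 1) := by positivity
  have h2 : √(k + 1 : ℝ) * √(k + 1) = k + 1 := Real.mul_self_sqrt (by positivity)
  push_cast
  rw [← h2, mul_assoc, h2, mul_inv_cancel₀ h.ne', mul_one]

theorem sum_helm_ne {k : ℕ} {r : Fin (k + 1)} (hr : r ≠ 0) : ∑ i, helm k r i = 0 := by
  obtain ⟨j, rfl⟩ := Fin.exists_succ_eq.2 hr
  exact R12.sum_helm k j

theorem orth_lt {k : ℕ} {r r' : Fin (k + 1)} (h : r < r') :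
    ∑ i, helm k r i * helm k r' i = 0 := by
  have hr' : r' ≠ 0 := ne_of_gt (lt_of_le_of_lt (Fin.zero_le r) h)
  by_cases hr : r = 0
  · subst hr
    simp only [helm_zero, ← mul_sum, sum_helm_ne hr', mul_zero]
  · have e : ∀ i, helm k r i * helm k r' i = helm k r i * -(√(r'.val * (r'.val + 1)))⁻¹ := by
      intro i
      rcases le_or_gt i r with h1 | h1
      · rw [helm_of_lt (h1.trans_lt h)]
      · rw [helm_of_gt hr h1, zero_mul, zero_mul]
    simp only [e, ← sum_mul, sum_helm_ne hr, zero_mul]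

theorem orth_self {k : ℕ} (r : Fin (k + 1)) : ∑ i, helm k r i * helm k r i = 1 := by
  by_cases hr : r = 0
  · subst hr
    have h : (0 : ℝ) < √(k + 1) := by positivity
    have : ∀ i, helm k 0 i * helm k 0 i = helm k 0 i * (√(k + 1))⁻¹ := fun i => by rw [helm_zero]
    simp only [this, ← sum_mul, sum_helm_zero, mul_inv_cancel₀ h.ne']
  · have hp : (0 : ℝ) < r.val := Nat.cast_pos.2 (Fin.pos_iff_ne_zero.2 hr)
    set s : ℝ := √(r.val * (r.val + 1)) with hs
    have hs0 : 0 < s := by positivity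
    have hs2 : s * s = r.val * (r.val + 1) := Real.mul_self_sqrt (by positivity)
    have e : ∀ i, helm k r i * helm k r i = helm k r i * -s⁻¹ +
        if i = r then r.val * s⁻¹ * ((r.val + 1) * s⁻¹) else 0 := by
      intro i
      rcases lt_trichotomy i r with h1 | h1 | h1
      · rw [helm_of_lt h1, if_neg h1.ne, add_zero]
      · rw [h1, helm_diag hr, if_pos rfl]; ring
      · rw [helm_of_gt hr h1, if_neg h1.ne']; ring
    simp only [e, sum_add_distrib, ← sum_mul, sum_helm_ne hr, sum_ite_eq', mem_univ, if_true]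
    field_simp
    linarith

theorem orth (k : ℕ) (r r' : Fin (k + 1)) :
    ∑ i, helm k r i * helm k r' i = if r = r' then 1 else 0 := by
  rcases lt_trichotomy r r' with h | h | h
  · rw [orth_lt h, if_neg h.ne]
  · rw [h, orth_self, if_pos rfl]
  · rw [if_neg h.ne', ← orth_lt h]
    exact sum_congr rfl fun i _ => mul_comm _ _

theorem orth' (k : ℕ) (i i' : Fin (k + 1)) :
    ∑ r, helm k r i * helm k r i' = if i = i' then 1 else 0 := by
  have h : Matrix.of (helm k) * (Matrix.of (helm k)).transpose = 1 := by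
    ext r r'
    simp only [Matrix.mul_apply, Matrix.transpose_apply, Matrix.of_apply, Matrix.one_apply, orth]
  have h1 : (Matrix.of (helm k)).transpose * Matrix.of (helm k) = 1 := mul_eq_one_comm.1 h
  have h2 := congrFun (congrFun h1 i) i'
  simpa only [Matrix.mul_apply, Matrix.transpose_apply, Matrix.of_apply, Matrix.one_apply] using h2

/-- the Helmert matrix is an isometry -/
theorem sum_sq_helm (k : ℕ) (x : Fin (k + 1) → ℝ) :
    ∑ r, (∑ i, helm k r i * x i) ^ 2 = ∑ i, x i ^ 2 := by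
  calc ∑ r, (∑ i, helm k r i * x i) ^ 2
      = ∑ r, ∑ i, ∑ i', x i * x i' * (helm k r i * helm k r i') := by
        refine sum_congr rfl fun r _ => ?_
        rw [sq, sum_mul_sum]
        exact sum_congr rfl fun i _ => sum_congr rfl fun i' _ => by ring
    _ = ∑ i, ∑ i', x i * x i' * ∑ r, helm k r i * helm k r i' := by
        rw [sum_comm]
        refine sum_congr rfl fun i _ => ?_
        rw [sum_comm]
        simp only [mul_sum]
    _ = _ := by simp [orth', sq]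

theorem abs_helm_le (k : ℕ) (r i : Fin (k + 1)) : |helm k r i| ≤ 1 := by
  have h := single_le_sum (f := fun i => helm k r i * helm k r i) (fun i _ => mul_self_nonneg _)
    (mem_univ i)
  rw [orth_self] at h
  exact abs_le_one_iff_mul_self_le_one.2 h

theorem helm_one_zero (i : Fin 2) : helm 1 0 i = (√2)⁻¹ := by
  rw [helm_zero]; norm_num

theorem helm_one_one_zero : helm 1 1 0 = -(√2)⁻¹ := by
  rw [helm_of_lt (by decide)]; norm_num

theorem helm_one_one_one : helm 1 1 1 = (√2)⁻¹ := by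
  rw [helm_diag (by decide)]; norm_num

theorem prod_helm_diag (k : ℕ) : ∏ j : Fin k, helm k j.succ j.succ = (√(k + 1))⁻¹ := by
  have e : ∀ j : Fin k, helm k j.succ j.succ = √(j.val + 1) / √(j.val + 1 + 1) := fun j => by
    have h : (0 : ℝ) < √(j.val + 1) := by positivity
    have h2 : √(j.val + 1 : ℝ) * √(j.val + 1) = j.val + 1 := Real.mul_self_sqrt (by positivity)
    rw [helm_diag (Fin.succ_ne_zero j), Fin.val_succ, Nat.cast_add, Nat.cast_one,
      Real.sqrt_mul (by positivity)]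
    field_simp
    linarith
  simp only [e]
  rw [Fin.prod_univ_eq_prod_range (fun j => √(j + 1 : ℝ) / √(j + 1 + 1)) k]
  clear e
  induction k with
  | zero => simp
  | succ k ih =>
    have h : (0 : ℝ) < √(k + 1) := by positivity
    rw [prod_range_succ, ih]
    push_cast
    field_simp

theorem helm_diag_pos (k : ℕ) (j : Fin k) : 0 < helm k j.succ j.succ := by
  rw [helm_diag (Fin.succ_ne_zero j), Fin.val_succ]
  positivity

/-! ### points and windows -/

variable {ι : Type} (T : Cell ι) {k : ℕ}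

theorem ev_wv {J : Type} (h : J → T.L1 → ℤ) (j : J) (p : T.MI J → ℤ) (c : ι) :
    ev p (T.wv h j c) = T.wZ h j p c := by
  unfold Cell.wv Cell.wZ
  split_ifs
  exacts [ev_C _ _, ev_X _ _]

theorem pt_zero (h : Fin k → T.L1 → ℤ) (p : T.MI (Fin k) → ℤ) (c : ι) :
    T.pt h 0 p c = p (Sum.inl c) := by simp [Cell.pt]

theorem pt_succ (h : Fin k → T.L1 → ℤ) (j : Fin k) (p : T.MI (Fin k) → ℤ) (c : ι) :
    T.pt h j.succ p c = p (Sum.inl c) + T.wZ h j p c := by simp [Cell.pt]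

theorem ptP_zero (h : Fin k → T.L1 → ℤ) (c : ι) : T.ptP h 0 c = X (Sum.inl c) := by
  simp [Cell.ptP, Cell.wv0]

theorem ptP_succ (h : Fin k → T.L1 → ℤ) (j : Fin k) (c : ι) :
    T.ptP h j.succ c = X (Sum.inl c) + T.wv h j c := by simp [Cell.ptP, Cell.wv0]

theorem wZ_L1 {J : Type} (h : J → T.L1 → ℤ) (j : J) (p : T.MI J → ℤ) (c : T.L1) :
    T.wZ h j p c.1 = h j c := dif_pos c.2

theorem wZ_U2 {J : Type} (h : J → T.L1 → ℤ) (j : J) (p : T.MI J → ℤ) (c : T.U2) :
    T.wZ h j p c.1 = p (Sum.inr (j, c)) := dif_neg c.2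

theorem wv_L1 {J : Type} (h : J → T.L1 → ℤ) (j : J) (c : T.L1) :
    T.wv h j c.1 = C (h j c : ℝ) := dif_pos c.2

theorem wv_U2 {J : Type} (h : J → T.L1 → ℤ) (j : J) (c : T.U2) :
    T.wv h j c.1 = X (Sum.inr (j, c)) := dif_neg c.2

theorem ext1_L1 (h : T.L1 → ℤ) (c : T.L1) : T.ext1 h c.1 = h c := dif_pos c.2

theorem ext1_U2 (h : T.L1 → ℤ) (c : T.U2) : T.ext1 h c.1 = 0 := dif_neg c.2

theorem ev_ptP (h : Fin k → T.L1 → ℤ) (i : Fin (k + 1)) (p : T.MI (Fin k) → ℤ) (c : ι) :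
    ev p (T.ptP h i c) = T.pt h i p c := by
  refine Fin.cases ?_ (fun j => ?_) i
  · rw [ptP_zero, pt_zero, ev_X]
  · rw [ptP_succ, pt_succ, ev_add, ev_X, ev_wv, Int.cast_add]

theorem ev_bind_ptP (h : Fin k → T.L1 → ℤ) (i : Fin (k + 1)) (p : T.MI (Fin k) → ℤ) (f : Pl ι) :
    ev p (bind₁ (T.ptP h i) f) = ev (T.pt h i p) f := ev_bind_of_eq (ev_ptP T h i p) f

theorem bind_th (h : Fin k → T.L1 → ℤ) (i : Fin (k + 1)) (c : ι) :
    bind₁ (T.ptP h i) (T.th c) =
      C (T.a c) * (X (Sum.inl c) + T.wv0 h i c) + bind₁ (T.ptP h i) (T.B c) := by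
  rw [Tri.th, map_add, map_mul, bind₁_C_right, bind₁_X_right, Cell.ptP]

theorem th_inl (h : Fin k → T.L1 → ℤ) (c : ι) : (T.mp h).th (Sum.inl c) =
    ∑ i, C (helm k 0 i) * bind₁ (T.ptP h i) (T.th c) := by
  have e : (T.mp h).th (Sum.inl c) = C (√(k + 1) * T.a c) * X (Sum.inl c) +
      ∑ i, C (helm k 0 i) * (C (T.a c) * T.wv0 h i c + bind₁ (T.ptP h i) (T.B c)) := rfl
  rw [e, ← sum_helm_zero, sum_mul, map_sum, sum_mul, ← sum_add_distrib]
  refine sum_congr rfl fun i _ => ?_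
  rw [bind_th, map_mul]
  ring

theorem th_inr (h : Fin k → T.L1 → ℤ) (j : Fin k) (c : T.U2) : (T.mp h).th (Sum.inr (j, c)) =
    ∑ i, C (helm k j.succ i) * bind₁ (T.ptP h i) (T.th c.1) := by
  have e : (T.mp h).th (Sum.inr (j, c)) =
      C (helm k j.succ j.succ * T.a c.1) * X (Sum.inr (j, c)) + ∑ i, C (helm k j.succ i) *
      ((if i = j.succ then 0 else C (T.a c.1) * T.wv0 h i c.1) +
        (bind₁ (T.ptP h i) (T.B c.1) - bind₁ (T.ptP h 0) (T.B c.1))) := rfl
  have e0 : ∑ i, (C (helm k j.succ i) : Pl (T.MI (Fin k))) = 0 := by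
    rw [← map_sum, R12.sum_helm, map_zero]
  have e1 : ∀ i, C (helm k j.succ i) * bind₁ (T.ptP h i) (T.th c.1) =
      (if i = j.succ then C (helm k j.succ j.succ * T.a c.1) * X (Sum.inr (j, c)) else 0) +
      C (helm k j.succ i) * ((if i = j.succ then 0 else C (T.a c.1) * T.wv0 h i c.1) +
        (bind₁ (T.ptP h i) (T.B c.1) - bind₁ (T.ptP h 0) (T.B c.1))) +
      C (helm k j.succ i) * (C (T.a c.1) * X (Sum.inl c.1) + bind₁ (T.ptP h 0) (T.B c.1)) := by
    intro i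
    rw [bind_th]
    split_ifs with hi
    · have : T.wv0 h i c.1 = X (Sum.inr (j, c)) := by
        rw [hi, Cell.wv0, Fin.cases_succ, wv_U2]
      rw [this, hi, map_mul]
      ring
    · ring
  simp only [e, e1, sum_add_distrib, ← sum_mul, e0, zero_mul, add_zero, sum_ite_eq', mem_univ,
    if_true]

theorem ev_th_inl (h : Fin k → T.L1 → ℤ) (p : T.MI (Fin k) → ℤ) (c : ι) :
    ev p ((T.mp h).th (Sum.inl c)) = ∑ i, helm k 0 i * ev (T.pt h i p) (T.th c) := by
  simp only [th_inl, ev_sum, ev_mul, ev_C, ev_bind_ptP]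

theorem ev_th_inr (h : Fin k → T.L1 → ℤ) (p : T.MI (Fin k) → ℤ) (j : Fin k) (c : T.U2) :
    ev p ((T.mp h).th (Sum.inr (j, c))) = ∑ i, helm k j.succ i * ev (T.pt h i p) (T.th c.1) := by
  simp only [th_inr, ev_sum, ev_mul, ev_C, ev_bind_ptP]

/-- a form of weight one is additive -/
theorem ev_add_of_hom {f : Pl ι} (hf : IsWeightedHomogeneous T.lev f 1) {x y z : ι → ℤ}
    (h : ∀ c, T.lev c = 1 → x c = y c + z c) : ev x f = ev y f + ev z f := by
  have h1 := bind_add_of_hom_one (κ := ι) hf (g := fun c => C (x c : ℝ))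
    (g₁ := fun c => C (y c : ℝ)) (g₂ := fun c => C (z c : ℝ))
    (fun c hc => absurd hc (T.lev_pos c).ne') (fun c hc => absurd hc (T.lev_pos c).ne')
    fun c hc => by rw [h c hc, Int.cast_add, map_add]
  have h2 := congrArg (ev 0) h1
  rwa [ev_add, ev_bind_of_eq (x := x) (fun c => ev_C _ _), ev_bind_of_eq (x := y) (fun c => ev_C _ _),
    ev_bind_of_eq (x := z) (fun c => ev_C _ _)] at h2

/-- a level-one window coordinate is affine -/
theorem ev_th_L1 (c : T.L1) {x y : ι → ℤ} {h : T.L1 → ℤ} (hx : ∀ c : T.L1, x c.1 = y c.1 + h c) :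
    ev x (T.th c.1) = ev y (T.th c.1) + T.ell h c := by
  have h1 : DegLe T.lev (T.th c.1) (0 + 1) := by simpa [c.2] using T.th_degLe c.1
  have h2 := (DegLe.sub_whc h1).eq_C T.lev_pos
  have h3 : T.tth c.1 = weightedHomogeneousComponent T.lev (0 + 1) (T.th c.1) := by
    rw [Cell.tth, Cell.top, c.2]
  rw [← h3, sub_eq_iff_eq_add] at h2
  have h4 : IsWeightedHomogeneous T.lev (T.tth c.1) 1 := by simpa [c.2] using T.tth_hom c.1
  rw [h2, ev_add, ev_add, ev_C, ev_C, Cell.ell, add_assoc,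
    ev_add_of_hom T h4 (x := x) (y := y) (z := T.ext1 h) fun c' hc' => by
      rw [hx ⟨c', hc'⟩, ext1_L1 T h ⟨c', hc'⟩]]

theorem ell_add (h h' : T.L1 → ℤ) (c : T.L1) : T.ell (h + h') c = T.ell h c + T.ell h' c :=
  ev_add_of_hom T (by simpa [c.2] using T.tth_hom c.1) fun c' hc' => by
    rw [ext1_L1 T _ ⟨c', hc'⟩, ext1_L1 T _ ⟨c', hc'⟩, ext1_L1 T _ ⟨c', hc'⟩, Pi.add_apply]

theorem ell_zero (c : T.L1) : T.ell 0 c = 0 := by
  have := ell_add T 0 0 c
  rw [add_zero] at this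
  linarith

theorem ell_neg (h : T.L1 → ℤ) (c : T.L1) : T.ell (-h) c = -T.ell h c := by
  have := ell_add T h (-h) c
  rw [add_neg_cancel, ell_zero] at this
  linarith

theorem ell_sub (h h' : T.L1 → ℤ) (c : T.L1) : T.ell (h - h') c = T.ell h c - T.ell h' c := by
  rw [sub_eq_add_neg, ell_add, ell_neg, sub_eq_add_neg]

theorem ev_th_pt_succ (h : Fin k → T.L1 → ℤ) (j : Fin k) (p : T.MI (Fin k) → ℤ) (c : T.L1) :
    ev (T.pt h j.succ p) (T.th c.1) = ev (T.pt h 0 p) (T.th c.1) + T.ell (h j) c :=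
  ev_th_L1 T c fun c' => by rw [pt_succ, pt_zero, wZ_L1]

theorem row_L1 (h : Fin k → T.L1 → ℤ) (j : Fin k) (p : T.MI (Fin k) → ℤ) (c : T.L1) :
    ∑ i, helm k j.succ i * ev (T.pt h i p) (T.th c.1) =
      ∑ i : Fin k, helm k j.succ i.succ * T.ell (h i) c := by
  have h0 := R12.sum_helm k j
  rw [Fin.sum_univ_succ] at h0 ⊢
  simp only [ev_th_pt_succ, mul_add, sum_add_distrib, ← sum_mul]
  rw [← add_assoc, ← add_mul, h0, zero_mul, zero_add]

/-- the bijection `(h, p) ↦ (y i)` -/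
def ptE (k : ℕ) : (Fin k → T.L1 → ℤ) × (T.MI (Fin k) → ℤ) ≃ (Fin (k + 1) → ι → ℤ) where
  toFun x i := T.pt x.1 i x.2
  invFun y := (fun j c => y j.succ c.1 - y 0 c.1,
    Sum.elim (y 0) fun q => y q.1.succ q.2.1 - y 0 q.2.1)
  left_inv x := by
    refine Prod.ext (funext fun j => funext fun c => ?_) (funext fun v => ?_)
    · simp only [pt_succ, pt_zero, wZ_L1, add_sub_cancel_left]
    · rcases v with c | ⟨j, c⟩
      · exact pt_zero T _ _ c
      · simp only [Sum.elim_inr, pt_succ, pt_zero, wZ_U2, add_sub_cancel_left]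
  right_inv y := by
    funext i c
    refine Fin.cases ?_ (fun j => ?_) i
    · exact pt_zero T _ _ c
    · refine (pt_succ T _ _ _ c).trans ?_
      by_cases hc : T.lev c = 1
      · rw [wZ_L1 T _ _ _ ⟨c, hc⟩]; simp
      · rw [wZ_U2 T _ _ _ ⟨c, hc⟩]; simp

theorem ptE_apply (h : Fin k → T.L1 → ℤ) (p : T.MI (Fin k) → ℤ) (i : Fin (k + 1)) :
    ptE T k (h, p) i = T.pt h i p := rfl

theorem bij (k : ℕ) : Function.Bijective fun x : (Fin k → T.L1 → ℤ) × (T.MI (Fin k) → ℤ) =>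
    fun i => T.pt x.1 i x.2 := (ptE T k).bijective

variable [Fintype ι]

theorem sum_L1 {M : Type*} [AddCommMonoid M] (g : ι → M) :
    ∑ c, g c = ∑ c : T.L1, g c.1 + ∑ c : T.U2, g c.1 :=
  (Fintype.sum_subtype_add_sum_subtype (fun c => T.lev c = 1) g).symm

theorem prod_L1 {M : Type*} [CommMonoid M] (g : ι → M) :
    ∏ c, g c = (∏ c : T.L1, g c.1) * ∏ c : T.U2, g c.1 :=
  (Fintype.prod_subtype_mul_prod_subtype (fun c => T.lev c = 1) g).symm

theorem card_L1 : Fintype.card T.L1 + Fintype.card T.U2 = Fintype.card ι := by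
  simpa using (sum_L1 T fun _ => (1 : ℕ)).symm

theorem card_L1_le : Fintype.card T.L1 ≤ Fintype.card ι := by
  have := card_L1 T; omega

theorem card_U2_le : Fintype.card T.U2 ≤ Fintype.card ι := by
  have := card_L1 T; omega

theorem card_MI (J : Type) [Fintype J] :
    Fintype.card (T.MI J) = Fintype.card ι + Fintype.card J * Fintype.card T.U2 := by
  simp only [Fintype.card_sum, Fintype.card_prod]

theorem card_MI_le (k : ℕ) : Fintype.card (T.MI (Fin k)) ≤ (k + 1) * Fintype.card ι := by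
  rw [card_MI, Fintype.card_fin, add_mul, one_mul, add_comm]
  exact Nat.add_le_add_right (Nat.mul_le_mul_left _ (card_U2_le T)) _

theorem card_MI_le' (k : ℕ) :
    (Fintype.card (T.MI (Fin k)) : ℝ) ≤ (k + 1) * Fintype.card ι := by
  exact_mod_cast card_MI_le T k

theorem sum_sq (h : Fin k → T.L1 → ℤ) (p : T.MI (Fin k) → ℤ) :
    ∑ i, ∑ c, ev (T.pt h i p) (T.th c) ^ 2 =
      ∑ c : T.L1, ∑ j : Fin k, (∑ i : Fin k, helm k j.succ i.succ * T.ell (h i) c) ^ 2 +
        ∑ v, ev p ((T.mp h).th v) ^ 2 := by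
  rw [sum_comm]
  simp only [← sum_sq_helm k fun i => ev (T.pt h i p) (T.th _), Fin.sum_univ_succ (n := k)
    (f := fun r => (∑ i, helm k r i * ev (T.pt h i p) (T.th _)) ^ 2), sum_add_distrib,
    Fintype.sum_sum_type, Fintype.sum_prod_type, ev_th_inl, ev_th_inr]
  rw [sum_L1 T fun c => ∑ j : Fin k, (∑ i, helm k j.succ i * ev (T.pt h i p) (T.th c)) ^ 2,
    sum_comm (s := (univ : Finset T.U2))]
  simp only [row_L1]
  ring

theorem wgt (h : Fin k → T.L1 → ℤ) (p : T.MI (Fin k) → ℤ) :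
    ∏ i, T.wgt (T.pt h i p) = T.gamK h * (T.mp h).wgt p := by
  simp only [Tri.wgt, Cell.gamK, ← Real.exp_sum, ← Real.exp_add, ← mul_sum, ← mul_add]
  rw [← sum_sq]

theorem mu1_pos : 0 < T.mu1 := prod_pos fun c _ => inv_pos.2 (abs_pos.2 (T.a_ne c.1))

theorem mu (h : Fin k → T.L1 → ℤ) :
    (T.mp h).mu * (T.mu1 ^ k * √(k + 1) ^ Fintype.card T.L1) = T.mu ^ (k + 1) := by
  have hs : (0 : ℝ) < √(k + 1) := by positivity
  have e : (T.mp h).mu = (∏ c, |√(k + 1) * T.a c|⁻¹) *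
      ∏ j : Fin k, ∏ c : T.U2, |helm k j.succ j.succ * T.a c.1|⁻¹ := by
    rw [Tri.mu, Fintype.prod_sum_type, Fintype.prod_prod_type]
    rfl
  have e2 : T.mu = T.mu1 * ∏ c : T.U2, |T.a c.1|⁻¹ := prod_L1 T fun c => |T.a c|⁻¹
  have e3 : ∏ c, |√(k + 1) * T.a c|⁻¹ = (√(k + 1))⁻¹ ^ Fintype.card ι * T.mu := by
    simp only [abs_mul, abs_of_pos hs, mul_inv, prod_mul_distrib, prod_const, card_univ, Tri.mu]
  have e4 : ∏ j : Fin k, ∏ c : T.U2, |helm k j.succ j.succ * T.a c.1|⁻¹ =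
      √(k + 1) ^ Fintype.card T.U2 * (∏ c : T.U2, |T.a c.1|⁻¹) ^ k := by
    simp only [abs_mul, abs_of_pos (helm_diag_pos k _), mul_inv, prod_mul_distrib, prod_const,
      card_univ, Fintype.card_fin]
    rw [prod_pow, prod_inv_distrib, prod_helm_diag, inv_inv]
  rw [e, e3, e4, ← card_L1 T, pow_succ T.mu, pow_add]
  nth_rw 2 [e2]
  rw [mul_pow, inv_pow, inv_pow]
  generalize ∏ c : T.U2, |T.a c.1|⁻¹ = x
  field_simp

theorem gamK_pos (h : Fin k → T.L1 → ℤ) : 0 < T.gamK h := Real.exp_pos _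

theorem gamK_le_one (h : Fin k → T.L1 → ℤ) : T.gamK h ≤ 1 := by
  rw [Cell.gamK, Real.exp_le_one_iff, neg_mul, neg_nonpos]
  positivity

theorem sum_sq_row_le (x : Fin k → ℝ) :
    ∑ j : Fin k, (∑ i : Fin k, helm k j.succ i.succ * x i) ^ 2 ≤ ∑ i, x i ^ 2 := by
  have h := sum_sq_helm k (Fin.cons 0 x)
  simp only [Fin.sum_univ_succ, Fin.cons_zero, Fin.cons_succ, mul_zero, zero_add] at h
  nlinarith [sq_nonneg (∑ i : Fin k, helm k 0 i.succ * x i)]

theorem gam_ge' (h : Fin k → T.L1 → ℤ) :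
    Real.exp (-Real.pi * ∑ c : T.L1, ∑ j : Fin k, T.ell (h j) c ^ 2) ≤ T.gamK h :=
  Real.exp_le_exp.2 (mul_le_mul_of_nonpos_left
    (sum_le_sum fun c _ => sum_sq_row_le fun j => T.ell (h j) c) (by linarith [Real.pi_pos]))

theorem gam_ge (h : Fin k → T.L1 → ℤ) (m : ℝ) (hm : ∀ j, InB T m (h j)) :
    Real.exp (-(Real.pi * Fintype.card ι * k * m ^ 2)) ≤ T.gamK h := by
  refine le_trans (Real.exp_le_exp.2 ?_) (gam_ge' T h)
  have h1 : ∑ c : T.L1, ∑ j : Fin k, T.ell (h j) c ^ 2 ≤ ∑ _c : T.L1, ∑ _j : Fin k, m ^ 2 :=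
    sum_le_sum fun c _ => sum_le_sum fun j _ => by
      rw [← sq_abs]; exact pow_le_pow_left₀ (abs_nonneg _) (hm j c) 2
  simp only [sum_const, card_univ, Fintype.card_fin, nsmul_eq_mul] at h1
  have h2 : (Fintype.card T.L1 : ℝ) ≤ Fintype.card ι := Nat.cast_le.2 (card_L1_le T)
  have h3 := mul_le_mul_of_nonneg_right h2 (show (0 : ℝ) ≤ k * m ^ 2 by positivity)
  have h4 := mul_le_mul_of_nonneg_left (h1.trans h3) Real.pi_pos.le
  linarith

theorem summable_prod_wgt (k : ℕ) : Summable fun y : Fin k → ι → ℤ => ∏ i, T.wgt (y i) :=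
  Hk.summable_pi (w := fun _ => T.wgt) (fun _ => T.wgt_nonneg) fun _ => T.summable_wgt

theorem summable_gam_wgt (k : ℕ) :
    Summable fun x : (Fin k → T.L1 → ℤ) × (T.MI (Fin k) → ℤ) => T.gamK x.1 * (T.mp x.1).wgt x.2 := by
  have := (ptE T k).summable_iff.2 (summable_prod_wgt T (k + 1))
  exact this.congr fun x => wgt T x.1 x.2

theorem summ (k : ℕ) : Summable fun h : Fin k → T.L1 → ℤ => T.gamK h * (T.mp h).M :=
  (summable_gam_wgt T k).prod.congr fun h => by
    rw [Tri.M, ← tsum_mul_left]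

theorem hasSum (G : (Fin (k + 1) → ι → ℤ) → ℂ) (hG : ∀ y, ‖G y‖ ≤ 1) :
    HasSum (fun h : Fin k → T.L1 → ℤ => (T.gamK h : ℂ) *
        ∑' p, ((T.mp h).wgt p : ℂ) * G fun i => T.pt h i p)
      (∑' y : Fin (k + 1) → ι → ℤ, (∏ i, (T.wgt (y i) : ℂ)) * G y) := by
  have hs : Summable fun x : (Fin k → T.L1 → ℤ) × (T.MI (Fin k) → ℤ) =>
      (T.gamK x.1 : ℂ) * (((T.mp x.1).wgt x.2 : ℂ) * G fun i => T.pt x.1 i x.2) := by
    refine Summable.of_norm_bounded (summable_gam_wgt T k) fun x => ?_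
    rw [norm_mul, norm_mul, Complex.norm_real, Complex.norm_real,
      Real.norm_of_nonneg (gamK_pos T _).le, Real.norm_of_nonneg (Tri.wgt_nonneg _ _)]
    exact mul_le_mul_of_nonneg_left (mul_le_of_le_one_right (Tri.wgt_nonneg _ _) (hG _))
      (gamK_pos T _).le
  have e : ∑' y : Fin (k + 1) → ι → ℤ, (∏ i, (T.wgt (y i) : ℂ)) * G y =
      ∑' x : (Fin k → T.L1 → ℤ) × (T.MI (Fin k) → ℤ),
        (T.gamK x.1 : ℂ) * (((T.mp x.1).wgt x.2 : ℂ) * G fun i => T.pt x.1 i x.2) := by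
    rw [← (ptE T k).tsum_eq]
    refine tsum_congr fun x => ?_
    rw [← mul_assoc, ← Complex.ofReal_mul, ← wgt, Complex.ofReal_prod]
    rfl
  rw [e]
  simp only [← tsum_mul_left]
  exact hs.hasSum.prod_fiberwise fun h => (hs.prod_factor h).hasSum

theorem tsum (G : (Fin (k + 1) → ι → ℤ) → ℂ) (hG : ∀ y, ‖G y‖ ≤ 1) :
    ∑' y : Fin (k + 1) → ι → ℤ, (∏ i, (T.wgt (y i) : ℂ)) * G y =
      ∑' h : Fin k → T.L1 → ℤ, (T.gamK h : ℂ) *
        ∑' p, ((T.mp h).wgt p : ℂ) * G fun i => T.pt h i p :=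
  (hasSum T G hG).tsum_eq.symm

theorem hasSum_real (G : (Fin (k + 1) → ι → ℤ) → ℝ) (hG : ∀ y, |G y| ≤ 1) :
    HasSum (fun h : Fin k → T.L1 → ℤ => T.gamK h * ∑' p, (T.mp h).wgt p * G fun i => T.pt h i p)
      (∑' y : Fin (k + 1) → ι → ℤ, (∏ i, T.wgt (y i)) * G y) := by
  rw [← Complex.hasSum_ofReal]
  have := hasSum T (fun y => (G y : ℂ)) fun y => by rw [Complex.norm_real]; exact hG y
  simpa only [Complex.ofReal_mul, Complex.ofReal_tsum, Complex.ofReal_prod] using this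

end Crest.Agent.T49.Ri.Mp
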