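import Crest.Agent.T49.RiMpA_14

/-!
# Row 49 (helper14): the pair cell `pc T h`
-/

set_option autoImplicit false

noncomputable section

namespace Crest.Agent.T49.Ri.Mp

open Finset MvPolynomial
open Crest.Agent.T49.Tw
open scoped ComplexConjugate

variable {ι : Type} (T : Cell ι)

theorem pt_y0 (h : T.L1 → ℤ) (p : PI T → ℤ) : T.pt (fun _ : Fin 1 => h) 0 p = y0 T p :=
  funext fun c => pt_zero T _ p c

theorem pt_y1 (h : T.L1 → ℤ) (p : PI T → ℤ) : T.pt (fun _ : Fin 1 => h) 1 p = y1 T h p :=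
  funext fun c => pt_succ T (fun _ : Fin 1 => h) 0 p c

theorem y0_apply (p : PI T → ℤ) (c : ι) : y0 T p c = p (Sum.inl c) := rfl

theorem dy_L1 (h : T.L1 → ℤ) (p : PI T → ℤ) (c : T.L1) : dy T h p c.1 = h c := wZ_L1 T _ _ _ c

theorem dy_U2 (h : T.L1 → ℤ) (p : PI T → ℤ) (c : T.U2) :
    dy T h p c.1 = p (Sum.inr (0, c)) := wZ_U2 T _ _ _ c

theorem y1_L1 (h : T.L1 → ℤ) (p : PI T → ℤ) (c : T.L1) :
    y1 T h p c.1 = p (Sum.inl c.1) + h c := by rw [y1, Pi.add_apply, dy_L1, y0_apply]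

theorem y1_U2 (h : T.L1 → ℤ) (p : PI T → ℤ) (c : T.U2) :
    y1 T h p c.1 = p (Sum.inl c.1) + p (Sum.inr (0, c)) := by
  rw [y1, Pi.add_apply, dy_U2, y0_apply]

theorem y1_sub_y0 (h : T.L1 → ℤ) (p : PI T → ℤ) : y1 T h p - y0 T p = dy T h p :=
  add_sub_cancel_left _ _

/-- the substitutions giving the two points -/
abbrev P0 (h : T.L1 → ℤ) : ι → Pl (PI T) := T.ptP (fun _ : Fin 1 => h) 0

/-- the substitutions giving the two points -/
abbrev P1 (h : T.L1 → ℤ) : ι → Pl (PI T) := T.ptP (fun _ : Fin 1 => h) 1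

theorem P0_eq (h : T.L1 → ℤ) : P0 T h = fun c => X (Sum.inl c) := funext (ptP_zero T _)

theorem P1_eq (h : T.L1 → ℤ) (c : ι) :
    P1 T h c = X (Sum.inl c) + T.wv (fun _ : Fin 1 => h) 0 c := ptP_succ T (fun _ : Fin 1 => h) 0 c

theorem ev_P0 (h : T.L1 → ℤ) (p : PI T → ℤ) (f : Pl ι) :
    ev p (bind₁ (P0 T h) f) = ev (y0 T p) f := by rw [ev_bind_ptP, pt_y0]

theorem ev_P1 (h : T.L1 → ℤ) (p : PI T → ℤ) (f : Pl ι) :
    ev p (bind₁ (P1 T h) f) = ev (y1 T h p) f := by rw [ev_bind_ptP, pt_y1]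

theorem ev_rename_inl (p : PI T → ℤ) (f : Pl ι) : ev p (rename Sum.inl f) = ev (y0 T p) f :=
  ev_rename p _ f

theorem ev_fixh (h : T.L1 → ℤ) (p : PI T → ℤ) (v : ι ⊕ ι) :
    ev p (fixh T h v) = ((Sum.elim (y0 T p) (dy T h p) v : ℤ) : ℝ) := by
  rcases v with c | c
  · exact ev_X p (Sum.inl c)
  · exact ev_wv T (fun _ : Fin 1 => h) 0 p c

theorem pc_th_inl (h : T.L1 → ℤ) (c : ι) : (pc T h).th (Sum.inl c) =
    C (√2)⁻¹ * (bind₁ (P1 T h) (T.th c) + bind₁ (P0 T h) (T.th c)) := by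
  rw [th_inl, Fin.sum_univ_two, helm_one_zero, helm_one_zero]; ring

theorem pc_th_inr (h : T.L1 → ℤ) (j : Fin 1) (c : T.U2) : (pc T h).th (Sum.inr (j, c)) =
    C (√2)⁻¹ * (bind₁ (P1 T h) (T.th c.1) - bind₁ (P0 T h) (T.th c.1)) := by
  obtain rfl : j = 0 := Subsingleton.elim _ _
  rw [th_inr, Fin.sum_univ_two, Fin.succ_zero_eq_one, helm_one_one_zero, helm_one_one_one, map_neg]
  ring

theorem ev_pc_th_inl (h : T.L1 → ℤ) (p : PI T → ℤ) (c : ι) : ev p ((pc T h).th (Sum.inl c)) =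
    (ev (y1 T h p) (T.th c) + ev (y0 T p) (T.th c)) / √2 := by
  rw [pc_th_inl, ev_mul, ev_C, ev_add, ev_P0, ev_P1, div_eq_inv_mul]

theorem ev_pc_th_inr (h : T.L1 → ℤ) (p : PI T → ℤ) (j : Fin 1) (c : T.U2) :
    ev p ((pc T h).th (Sum.inr (j, c))) =
      (ev (y1 T h p) (T.th c.1) - ev (y0 T p) (T.th c.1)) / √2 := by
  rw [pc_th_inr, ev_mul, ev_C, ev_sub, ev_P0, ev_P1, div_eq_inv_mul]

theorem ev_th_y1_L1 (h : T.L1 → ℤ) (p : PI T → ℤ) (c : T.L1) :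
    ev (y1 T h p) (T.th c.1) = ev (y0 T p) (T.th c.1) + T.ell h c :=
  ev_th_L1 T c fun c' => y1_L1 T h p c'

theorem pc_a_inl (h : T.L1 → ℤ) (c : ι) : (pc T h).a (Sum.inl c) = √2 * T.a c := by
  show √((1 : ℕ) + 1 : ℝ) * T.a c = _
  norm_num

theorem pc_a_inr (h : T.L1 → ℤ) (j : Fin 1) (c : T.U2) :
    (pc T h).a (Sum.inr (j, c)) = (√2)⁻¹ * T.a c.1 := by
  obtain rfl : j = 0 := Subsingleton.elim _ _
  show helm 1 (Fin.succ 0) (Fin.succ 0) * T.a c.1 = _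
  rw [Fin.succ_zero_eq_one, helm_one_one_one]

theorem mp_lev {k : ℕ} (h : Fin k → T.L1 → ℤ) : (T.mp h).lev = T.mlev (Fin k) := rfl

theorem mlev_le {J : Type} {l : ℕ} (hl : ∀ c, T.lev c ≤ l) (v : T.MI J) : T.mlev J v ≤ l := by
  rcases v with c | ⟨j, c⟩
  · exact hl c
  · exact (Nat.sub_le _ _).trans (hl c.1)

/-- the first point as an additive map -/
def hx : (PI T → ℤ) →+ (ι → ℤ) where
  toFun := y0 T
  map_zero' := rfl
  map_add' _ _ := rfl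

/-- the second point without the level-one difference, as an additive map -/
def hy : (PI T → ℤ) →+ (ι → ℤ) where
  toFun := y1 T 0
  map_zero' := funext fun c => by
    by_cases hc : T.lev c = 1
    · rw [y1_L1 T _ _ ⟨c, hc⟩]; simp
    · rw [y1_U2 T _ _ ⟨c, hc⟩]; simp
  map_add' p q := funext fun c => by
    rw [Pi.add_apply]
    by_cases hc : T.lev c = 1
    · simp only [y1_L1 T _ _ ⟨c, hc⟩, Pi.add_apply, Pi.zero_apply]; ring
    · simp only [y1_U2 T _ _ ⟨c, hc⟩, Pi.add_apply]; ring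

theorem hx_apply (p : PI T → ℤ) : hx T p = y0 T p := rfl

theorem hy_apply (p : PI T → ℤ) : hy T p = y1 T 0 p := rfl

theorem hy_add (h : T.L1 → ℤ) (p : PI T → ℤ) : hy T p + T.ext1 h = y1 T h p := funext fun c => by
  rw [Pi.add_apply, hy_apply]
  by_cases hc : T.lev c = 1
  · rw [y1_L1 T _ _ ⟨c, hc⟩, y1_L1 T _ _ ⟨c, hc⟩, ext1_L1 T _ ⟨c, hc⟩]; simp
  · rw [y1_U2 T _ _ ⟨c, hc⟩, y1_U2 T _ _ ⟨c, hc⟩, ext1_U2 T _ ⟨c, hc⟩, add_zero]

theorem pair_aux (i j : ℕ) (hj : 2 ≤ j) (hij : ∀ c : T.U2, T.lev c.1 - 1 < i ↔ T.lev c.1 < j)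
    (a b : ι → ℤ) : (a ∈ Hk.lvl T.lev i ∧ b - a ∈ Hk.lvl T.lev j) ↔
      ∃ p ∈ Hk.lvl (T.mlev (Fin 1)) i, hx T p = a ∧ hy T p = b := by
  constructor
  · rintro ⟨h1, h2⟩
    refine ⟨Sum.elim a fun q => b q.2.1 - a q.2.1, ?_, rfl, funext fun c => ?_⟩
    · rintro (c | ⟨k, c⟩) hc
      · exact h1 c hc
      · exact h2 c.1 ((hij c).1 hc)
    · rw [hy_apply]
      by_cases hc : T.lev c = 1
      · have : b c - a c = 0 := h2 c (by omega)
        rw [y1_L1 T _ _ ⟨c, hc⟩]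
        simp only [Sum.elim_inl, Pi.zero_apply]
        omega
      · rw [y1_U2 T _ _ ⟨c, hc⟩]; simp
  · rintro ⟨p, hp, rfl, rfl⟩
    refine ⟨fun c hc => hp (Sum.inl c) hc, fun c hc => ?_⟩
    rw [hx_apply, hy_apply, y1_sub_y0]
    by_cases h1 : T.lev c = 1
    · exact dy_L1 T _ _ ⟨c, h1⟩
    · rw [dy_U2 T _ _ ⟨c, h1⟩]
      exact hp _ ((hij ⟨c, h1⟩).2 hc)

/-- the pair cells parametrise the pairs of points -/
theorem pair : Hk.Pair (Hk.lvl T.lev) (Hk.lvl (T.mlev (Fin 1))) (hx T) (hy T) T.ext1 where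
  inj p h0 h1 := funext fun v => by
    rcases v with c | ⟨j, c⟩
    · exact congrFun h0 c
    · obtain rfl : j = 0 := Subsingleton.elim _ _
      have h2 := congrFun h1 c.1
      have h3 : p (Sum.inl c.1) = 0 := congrFun h0 c.1
      rwa [hy_apply, y1_U2, h3, zero_add] at h2
  zero := pair_aux T 0 2 le_rfl fun c => by have := T.lev_pos c.1; have := c.2; omega
  succ i := pair_aux T (i + 1) (i + 2) (by omega) fun c => by have := T.lev_pos c.1; omega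
  mem h c hc := by have := T.lev_pos c; omega
  sec d _ := by
    refine ⟨fun c => d c.1, fun c hc => ?_, fun h hh => funext fun c => ?_⟩
    · have h1 : T.lev c = 1 := by have := T.lev_pos c; omega
      rw [Pi.sub_apply, ext1_L1 T _ ⟨c, h1⟩, sub_self]
    · have := hh c.1 (by have := c.2; omega)
      rw [Pi.sub_apply, ext1_L1] at this
      omega

variable [Fintype ι]

theorem card_PI_le : (Fintype.card (PI T) : ℝ) ≤ 2 * Fintype.card ι := by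
  have := card_MI_le' T 1
  norm_num at this ⊢
  exact this

theorem gamK_one (h : T.L1 → ℤ) :
    T.gamK (fun _ : Fin 1 => h) = Real.exp (-Real.pi * ∑ c, T.ell h c ^ 2 / 2) := by
  simp only [Cell.gamK, Fin.sum_univ_one, Fin.succ_zero_eq_one, helm_one_one_one]
  congr 2
  refine sum_congr rfl fun c _ => ?_
  rw [mul_pow, inv_pow, Real.sq_sqrt (by norm_num)]
  ring

theorem wgt_pair (h : T.L1 → ℤ) (p : PI T → ℤ) :
    T.wgt (y1 T h p) * T.wgt (y0 T p) = T.gamK (fun _ : Fin 1 => h) * (pc T h).wgt p := by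
  rw [← wgt, Fin.prod_univ_two, pt_y0, pt_y1, mul_comm]

theorem mu_pair (h : T.L1 → ℤ) :
    (pc T h).mu * (T.mu1 * √2 ^ Fintype.card T.L1) = T.mu ^ 2 := by
  have := mu T fun _ : Fin 1 => h
  norm_num at this ⊢
  exact this

theorem gam_one_ge (h : T.L1 → ℤ) {m : ℝ} (hm : InB T m h) :
    Real.exp (-(Real.pi * Fintype.card ι * m ^ 2)) ≤ T.gamK fun _ : Fin 1 => h := by
  simpa using gam_ge T (fun _ : Fin 1 => h) m fun _ => hm

theorem muK_pos (s : ℕ) : 0 < muK T s :=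
  prod_pos fun c _ => prod_pos fun β _ => by
    have := abs_pos.2 (T.a_ne c)
    split_ifs <;> positivity

theorem muK_zero : muK T 0 = T.mu := by
  simp [muK, Tri.mu, Hk.wt]

/-- **recursion** for the ideal mass of cubes -/
theorem muK_succ (h : T.L1 → ℤ) (s : ℕ) :
    muK T (s + 1) = muK (pc T h) s * (T.mu1 * (√2 ^ s / √2)⁻¹ ^ Fintype.card T.L1) := by
  have h2 : (0 : ℝ) < √2 := by positivity
  have h22 : √2 * √2 = (2 : ℝ) := Real.mul_self_sqrt (by norm_num)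
  have e1 : ∀ (c : ι) (w : ℕ), √2 ^ (s + 1) / 2 ^ w * |T.a c| = √2 ^ s / 2 ^ w * |√2 * T.a c| :=
    fun c w => by rw [abs_mul, abs_of_pos h2]; ring
  have e2 : ∀ (c : ι) (w : ℕ),
      √2 ^ (s + 1) / 2 ^ (w + 1) * |T.a c| = √2 ^ s / 2 ^ w * |(√2)⁻¹ * T.a c| := fun c w => by
    rw [abs_mul, abs_of_pos (inv_pos.2 h2), pow_succ, pow_succ]
    field_simp
    rw [sq, h22]
  have e3 : ∀ c : T.L1, (∏ w : Fin s → Bool, if Hk.wt w + 1 ≤ T.lev c.1 then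
      (√2 ^ (s + 1) / 2 ^ (Hk.wt w + 1) * |T.a c.1|)⁻¹ else 1) =
      |T.a c.1|⁻¹ * (√2 ^ s / √2)⁻¹ := fun c => by
    rw [prod_eq_single (fun _ => false) (fun w _ hw => if_neg fun h => hw (Hk.wt_eq_zero.1
      (by have := c.2; omega))) (fun h => absurd (mem_univ _) h), Hk.wt_bot,
      if_pos (by have := c.2; omega), e2, abs_mul, abs_of_pos (inv_pos.2 h2), ← mul_inv]
    congr 1
    ring
  have e4 : ∀ c : T.U2, (∏ w : Fin s → Bool, if Hk.wt w + 1 ≤ T.lev c.1 then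
      (√2 ^ (s + 1) / 2 ^ (Hk.wt w + 1) * |T.a c.1|)⁻¹ else 1) =
      ∏ w : Fin s → Bool, if Hk.wt w ≤ (pc T h).lev (Sum.inr (0, c)) then
        (√2 ^ s / 2 ^ Hk.wt w * |(pc T h).a (Sum.inr (0, c))|)⁻¹ else 1 := fun c =>
    prod_congr rfl fun w _ => by
      rw [e2, pc_a_inr]
      refine if_congr ?_ rfl rfl
      have := T.lev_pos c.1
      show _ ↔ Hk.wt w ≤ T.lev c.1 - 1
      omega
  have e5 : ∀ c : ι, (∏ w : Fin s → Bool, if Hk.wt w ≤ T.lev c then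
      (√2 ^ (s + 1) / 2 ^ Hk.wt w * |T.a c|)⁻¹ else 1) =
      ∏ w : Fin s → Bool, if Hk.wt w ≤ (pc T h).lev (Sum.inl c) then
        (√2 ^ s / 2 ^ Hk.wt w * |(pc T h).a (Sum.inl c)|)⁻¹ else 1 := fun c =>
    prod_congr rfl fun w _ => by rw [e1, pc_a_inl]; rfl
  rw [muK, muK, Fintype.prod_sum_type, Fintype.prod_prod_type, Fin.prod_univ_one]
  simp only [Hk.prod_ins (Hk.fe s), Hk.wt_ins, Bool.toNat_true, Bool.toNat_false, add_zero]
  rw [prod_mul_distrib, prod_L1 T, prod_congr rfl fun c _ => e3 c, prod_congr rfl fun c _ => e4 c,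
    prod_congr rfl fun c _ => e5 c, prod_mul_distrib, prod_const, card_univ, Cell.mu1]
  ring

theorem muK_succ' (h : T.L1 → ℤ) (s : ℕ) :
    muK T (s + 1) * √2 ^ (s * Fintype.card T.L1) =
      muK (pc T h) s * (T.mu1 * √2 ^ Fintype.card T.L1) := by
  have h2 : (0 : ℝ) < √2 := by positivity
  rw [muK_succ T h, inv_div, div_pow, pow_mul]
  field_simp

theorem muK_one : muK T 1 = T.mu ^ 2 := by
  rw [← mu_pair T 0, ← muK_zero, ← muK_succ' T 0 0]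
  simp

/-- the weighted derivative, in terms of the pair cell -/
theorem wgt_deriv (h : T.L1 → ℤ) (f g : (ι → ℤ) → ℂ) (p : PI T → ℤ) :
    (T.wgt (hy T p + T.ext1 h) * f (hy T p + T.ext1 h)) * conj (T.wgt (hx T p) * g (hx T p)) =
      T.gamK (fun _ : Fin 1 => h) *
        ((pc T h).wgt p * (f (y1 T h p) * conj (g (y0 T p)))) := by
  rw [hy_add, hx_apply, map_mul, Complex.conj_ofReal, ← mul_assoc (T.gamK _ : ℂ),
    ← Complex.ofReal_mul, ← wgt_pair, Complex.ofReal_mul]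
  ring

theorem hasSum_pair (G : (ι → ℤ) → (ι → ℤ) → ℂ) (hG : ∀ x y, ‖G x y‖ ≤ 1) :
    HasSum (fun h : T.L1 → ℤ => (T.gamK (fun _ : Fin 1 => h) : ℂ) *
        ∑' p, ((pc T h).wgt p : ℂ) * G (y0 T p) (y1 T h p))
      (∑' y : (ι → ℤ) × (ι → ℤ), (T.wgt y.1 * T.wgt y.2 : ℂ) * G y.1 y.2) := by
  have h1 := hasSum T (k := 1) (fun y => G (y 0) (y 1)) fun y => hG _ _
  rw [← (Equiv.funUnique (Fin 1) (T.L1 → ℤ)).symm.hasSum_iff,
    ← (finTwoArrowEquiv (ι → ℤ)).symm.tsum_eq] at h1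
  convert h1 using 1
  · funext h
    have e : (Equiv.funUnique (Fin 1) (T.L1 → ℤ)).symm h = fun _ => h := rfl
    simp only [Function.comp_apply, e, pt_y0, pt_y1]
  · simp [Fin.prod_univ_two]

end Crest.Agent.T49.Ri.Mp
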