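import Crest.Agent.T49.RiDef_12
import Crest.Agent.T49.GiStep4_57
import Crest.Agent.T49.BrClos_14
import Crest.Agent.T49.BrMk_16
import Crest.Agent.T49.TwTri_51

/-!
# Row 49 (helper58): tools for step 4 of the relative inverse theorem

Calculus of `Cor`, `Dense`, `Chp`, `IsNilW`; graphs modulo `K` over `Pl σ`; graded lifts.
-/

set_option autoImplicit false

noncomputable section

namespace Crest.Agent.T49.Ri

open Finset MvPolynomial
open Crest.Agent.T49.Tw Crest.Agent.T49.Nil Crest.Agent.T49.Nil.ND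
open Crest.Agent.T49.Bch (star)
open Crest.Agent.T49.Gf (wcf)
open Crest.Agent.T49.GI (On GR GMap IsG hp pd pair fst snd star_pair)
open Crest.Agent.T49.GI.S57 (dg dg_pair graph)
open Crest.Agent.T49.Br (Cs Mk Hm Uo SmR RtR NearR V at' up ren lamR linM cw mem_Uo)
open scoped ComplexConjugate

namespace S58

/-! ### the measure side -/

section meas

variable {ι : Type} [Fintype ι] {T : Cell ι} {m m' : ℝ}

theorem cor_mono {a ψ : (ι → ℤ) → ℂ} (h : Cor T m a ψ) (hm : m ≤ m') : Cor T m' a ψ :=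
  le_trans (mul_le_mul_of_nonneg_right (Real.exp_le_exp.2 (neg_le_neg hm)) T.mu_pos.le) h

theorem cor_congr {a ψ a' ψ' : (ι → ℤ) → ℂ} (h : Cor T m a ψ)
    (e : ∀ z, a' z * ψ' z = a z * ψ z) : Cor T m a' ψ' := by
  unfold Cor at h ⊢
  simp only [e]
  exact h

theorem nm_mul {a b : ℂ} (ha : ‖a‖ ≤ 1) (hb : ‖b‖ ≤ 1) : ‖a * b‖ ≤ 1 :=
  GI.S57.norm_mul_le_one ha hb

theorem summable_wgt_mul (T : Cell ι) {a : (ι → ℤ) → ℂ} (h : ∀ z, ‖a z‖ ≤ 1) :
    Summable fun z => (T.wgt z : ℂ) * a z := by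
  refine Summable.of_norm_bounded T.summable_wgt fun z => ?_
  rw [norm_mul, Complex.norm_real, Real.norm_of_nonneg (T.wgt_nonneg z)]
  exact mul_le_of_le_one_right (T.wgt_nonneg z) (h z)

/-- insertion of a partition of unity `∑ |G j|² = 1` -/
theorem cor_insert {J : ℕ} {a ψ : (ι → ℤ) → ℂ} (h : Cor T m a ψ) (ha : ∀ z, ‖a z‖ ≤ 1)
    (hψ : ∀ z, ‖ψ z‖ ≤ 1) (hJ : (J : ℝ) ≤ Real.exp m') (G : Fin J → (ι → ℤ) → ℂ)
    (hG1 : ∀ j z, ‖G j z‖ ≤ 1) (hG : ∀ z, ∑ j, G j z * conj (G j z) = 1) :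
    ∃ j, Cor T (m + m') (fun z => a z * G j z) fun z => ψ z * conj (G j z) := by
  have hne : (univ : Finset (Fin J)).Nonempty := by
    rw [nonempty_iff_ne_empty]
    intro h0
    have := hG 0
    rw [h0, sum_empty] at this
    exact zero_ne_one this
  have key : ∑' z, (T.wgt z : ℂ) * (a z * ψ z) =
      ∑ j, ∑' z, (T.wgt z : ℂ) * ((a z * G j z) * (ψ z * conj (G j z))) := by
    rw [← Summable.tsum_finsetSum fun j _ => summable_wgt_mul T fun z =>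
      nm_mul (nm_mul (ha z) (hG1 j z)) (nm_mul (hψ z) (by rw [RCLike.norm_conj]; exact hG1 j z))]
    refine tsum_congr fun z => ?_
    calc (T.wgt z : ℂ) * (a z * ψ z) = T.wgt z * (a z * ψ z) * ∑ j, G j z * conj (G j z) := by
          rw [hG, mul_one]
      _ = _ := by rw [mul_sum]; exact sum_congr rfl fun j _ => by ring
  have h2 : ∑ _j : Fin J, Real.exp (-(m + m')) * T.mu ≤
      ∑ j, ‖∑' z, (T.wgt z : ℂ) * ((a z * G j z) * (ψ z * conj (G j z)))‖ := by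
    refine le_trans ?_ (le_trans (show Real.exp (-m) * T.mu ≤ _ from h) ?_)
    · rw [sum_const, card_univ, Fintype.card_fin, nsmul_eq_mul, ← mul_assoc]
      refine mul_le_mul_of_nonneg_right ?_ T.mu_pos.le
      calc (J : ℝ) * Real.exp (-(m + m')) ≤ Real.exp m' * Real.exp (-(m + m')) :=
            mul_le_mul_of_nonneg_right hJ (Real.exp_pos _).le
        _ = Real.exp (-m) := by rw [← Real.exp_add]; congr 1; ring
    · rw [key]; exact norm_sum_le _ _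
  obtain ⟨j, -, hj⟩ := exists_le_of_sum_le hne h2
  exact ⟨j, hj⟩

theorem mu1_pos (T : Cell ι) : 0 < T.mu1 :=
  prod_pos fun c _ => inv_pos.2 (abs_pos.2 (T.a_ne c.1))

theorem dense_mono {H : Finset (T.L1 → ℤ)} (h : Dense T m H) (hm : m ≤ m') : Dense T m' H :=
  ⟨fun x hx c => (h.1 x hx c).trans hm, GI.S57.dense_mono (mu1_pos T).le h.2 hm⟩

theorem dense_sub {H H' : Finset (T.L1 → ℤ)} (h : Dense T m H) (hs : H' ⊆ H) (h0 : 0 ≤ m')
    (hc : Real.exp (-m') * #H ≤ #H') : Dense T (m + m') H' :=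
  ⟨fun x hx c => (h.1 x (hs hx) c).trans (by linarith), GI.S57.dense_trans h.2 hc⟩

theorem chp_mono {φ : (ι → ℤ) → ℂ} (h : Chp T m φ) (hm : m ≤ m') : Chp T m' φ := by
  obtain ⟨ξ, n, b, h1, h2, h3, h4⟩ := h
  exact ⟨ξ, n, b, h1.trans (Real.exp_le_exp.2 hm), h2, h3.trans (Real.exp_le_exp.2 hm), h4⟩

theorem chp_bdd {φ : (ι → ℤ) → ℂ} (h : Chp T m φ) (z : ι → ℤ) : ‖φ z‖ ≤ 1 := by
  obtain ⟨ξ, n, b, -, -, -, h4⟩ := h
  rw [h4, norm_ee]

theorem chp_mul {φ φ' : (ι → ℤ) → ℂ} (h : Chp T m φ) (h' : Chp T m' φ') (h0 : 0 ≤ m)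
    (h0' : 0 ≤ m') : Chp T (m + m' + 1) fun z => φ z * φ' z := by
  obtain ⟨ξ, n, b, h1, h2, h3, h4⟩ := h
  obtain ⟨ξ', n', b', h1', h2', h3', h4'⟩ := h'
  refine ⟨ξ + ξ', fun c => n c * b' + n' c * b, b * b', ?_, Nat.mul_pos h2 h2', ?_, fun z => ?_⟩
  · refine le_trans ?_ ((add_le_add h1 h1').trans (exp_add_exp_le67 h0 h0'))
    rw [← sum_add_distrib]
    exact sum_le_sum fun c _ => abs_add_le _ _
  · rw [Nat.cast_mul]
    calc (b : ℝ) * b' ≤ Real.exp m * Real.exp m' := by gcongr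
      _ ≤ _ := by rw [← Real.exp_add]; exact Real.exp_le_exp.2 (by linarith)
  · have hb : (b : ℝ) ≠ 0 := by positivity
    have hb' : (b' : ℝ) ≠ 0 := by positivity
    beta_reduce
    rw [h4, h4', ← ee_add]
    congr 1
    have e : ∑ c, ((n c * b' + n' c * b : ℤ) : ℝ) * z c =
        (∑ c, (n c : ℝ) * z c) * b' + (∑ c, (n' c : ℝ) * z c) * b := by
      rw [sum_mul, sum_mul, ← sum_add_distrib]
      exact sum_congr rfl fun c _ => by push_cast; ring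
    rw [e]
    simp only [Pi.add_apply, add_mul, sum_add_distrib, Nat.cast_mul]
    field_simp
    ring

end meas

section nil

variable {σ : Type} {lev : σ → ℕ} {s : ℕ} {m m' : ℝ} {ψ ψ' : (σ → ℤ) → ℂ}

theorem nilW_mono (h : IsNilW lev s m ψ) (hm : m ≤ m') : IsNilW lev s m' ψ := by
  obtain ⟨κ, _, N, F, P, hd, hN, hF, hP, hf⟩ := h
  exact ⟨κ, _, N, F, P, hd.trans hm, hN.mono (Real.exp_le_exp.2 hm),
    hF.mono (Real.exp_le_exp.2 hm), hP, hf⟩

theorem nilW_bdd (h : IsNilW lev s m ψ) (z : σ → ℤ) : ‖ψ z‖ ≤ 1 := by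
  obtain ⟨κ, _, N, F, P, -, -, hF, -, rfl⟩ := h
  exact hF.bdd _

theorem pair_mem_wcf {κ κ' : Type} [Fintype κ] [Fintype κ'] {N : ND κ} {N' : ND κ'} {P : N.PS σ}
    {Q : N'.PS σ} (hP : P ∈ wcf lev N.F) (hQ : Q ∈ wcf lev N'.F) :
    pair P Q ∈ wcf lev (pd N N').F := fun α => mem_pd_FA.2 ⟨hP α, hQ α⟩

theorem nilW_mul (h : IsNilW lev s m ψ) (h' : IsNilW lev s m' ψ') :
    IsNilW lev s (m + m' + 1) fun z => ψ z * ψ' z := by
  obtain ⟨κ, _, N, F, P, hd, hN, hF, hP, rfl⟩ := h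
  obtain ⟨κ', _, N', F', P', hd', hN', hF', hP', rfl⟩ := h'
  have h0 : 0 ≤ m := (Nat.cast_nonneg _).trans hd
  have h0' : 0 ≤ m' := (Nat.cast_nonneg _).trans hd'
  refine ⟨κ ⊕ κ', inferInstance, pd N N', _, pair P P', ?_,
    good_pd (hN.mono (Real.exp_le_exp.2 (by linarith)))
      (hN'.mono (Real.exp_le_exp.2 (by linarith))) (Real.exp_pos _).le,
    (lipFn_pd (Real.exp_pos _).le (Real.exp_pos _).le hF hF').mono (exp_add_exp_le67 h0 h0'),
    pair_mem_wcf hP hP', rfl⟩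
  rw [Fintype.card_sum, Nat.cast_add]; linarith

end nil

/-! ### symbols -/

section alg

variable {κ κ' : Type} [Fintype κ] [Fintype κ'] {g : ND κ} {g' : ND κ'} {σ τ : Type}

theorem hm_wcf {lev : σ → ℕ} {x : g.PS σ} (h : x ∈ Hm lev g) : x ∈ wcf lev g.F := by
  intro α k hk
  by_contra h0
  exact hk.ne' (h k h0)

theorem symW_hm {lev : σ → ℕ} {x : g.PS σ} (h : x ∈ Hm lev g) : symW lev g g x = x :=
  pts_ext fun k => weightedHomogeneousComponent_eq_self (h k)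

theorem symW_pair (lev : σ → ℕ) (N g : ND κ) (N' g' : ND κ') (P : N.PS σ) (Q : N'.PS σ) :
    symW lev (pd N N') (pd g g') (pair P Q) = pair (symW lev N g P) (symW lev N' g' Q) := by
  refine pts_ext fun k => ?_
  cases k <;> rfl

theorem hm_pair {lev : σ → ℕ} {x : g.PS σ} {y : g'.PS σ} (hx : x ∈ Hm lev g) (hy : y ∈ Hm lev g') :
    pair x y ∈ Hm lev (pd g g') := fun k => by
  cases k with
  | inl k => exact hx k
  | inr k => exact hy k

theorem smR_mono {c : Cs σ} {m m' : ℝ} {x : g.PS σ} (h : SmR c g m x) (hm : m ≤ m') :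
    SmR c g m' x := by
  obtain ⟨e, h1, h2, h3⟩ := h
  exact ⟨e, h1, fun k => (h2 k).trans (Real.exp_le_exp.2 hm), h3⟩

theorem rtR_mono {lev : σ → ℕ} {m m' : ℝ} {x : g.PS σ} (h : RtR lev g m x) (hm : m ≤ m') :
    RtR lev g m' x := by
  obtain ⟨h0, q, h1, h2, h3⟩ := h
  exact ⟨h0, q, h1, h2.trans (Real.exp_le_exp.2 hm), h3⟩

theorem nearR_mono {c : Cs σ} {S : ℕ} {m m' : ℝ} {U : Submodule ℝ g.L} {x : g.PS σ}
    (h : NearR c g S m U x) (hm : m ≤ m') : NearR c g S m' U x := by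
  obtain ⟨ε, y, γ, h1, h2, h3, h4, h5⟩ := h
  exact ⟨ε, y, γ, smR_mono h1 hm, h2, h3, rtR_mono h4 hm, h5⟩

theorem nearR_pair {c : Cs σ} {S : ℕ} {m : ℝ} {U : Submodule ℝ (pd g g').L} {ε w γ : g.PS σ}
    {z : g'.PS σ} (hε : SmR c g m ε) (hγ : RtR c.lev g m γ) (hw : w ∈ Hm c.lev g)
    (hz : z ∈ Hm c.lev g') (hU : pair w z ∈ Uo σ U) :
    NearR c (pd g g') S m U (pair (star S ε (star S w γ)) z) := by
  refine ⟨pair ε 0, pair w z, pair γ 0, ?_, hm_pair hw hz, hU, ?_, ?_⟩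
  · obtain ⟨e, h1, h2, rfl⟩ := hε
    refine ⟨pair e 0, hm_pair h1 (zero_mem _), fun k => ?_, ?_⟩
    · cases k with
      | inl k => exact h2 k
      | inr k =>
        change nrm 0 ≤ _
        rw [nrm_zero]
        positivity
    · rw [ND.subst, ND.subst, map_pair, map_zero]
  · obtain ⟨h0, q, h1, h2, h3⟩ := hγ
    exact ⟨hm_pair h0 (zero_mem _), q, h1, h2, ratP_pd.2 ⟨h3, St.RatP_zero q⟩⟩
  · rw [star_pair, star_pair, Bch.star_zero, Bch.zero_star]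

/-- `x = Z w` modulo `K` -/
def Rl (K : Submodule ℝ g.L) (Z : g'.L →ₗ[ℝ] g.L) (x : g.PS σ) (w : g'.PS σ) : Prop :=
  x - bcl Z _ w ∈ Uo σ K

variable {K : Submodule ℝ g.L} {Z : g'.L →ₗ[ℝ] g.L}

theorem rl_iff {x : g.PS σ} {w : g'.PS σ} :
    Rl K Z x w ↔ pair x w ∈ Uo σ (K.comap (dg Z)) := by
  simp only [Rl, mem_Uo, Submodule.mem_comap, cv_pair, dg_pair, map_sub, cv_bcl]

theorem Rl.add {x x' : g.PS σ} {w w' : g'.PS σ} (h : Rl K Z x w) (h' : Rl K Z x' w') :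
    Rl K Z (x + x') (w + w') := by
  rw [rl_iff] at h h' ⊢
  rw [pair_add]
  exact add_mem h h'

theorem Rl.smul {x : g.PS σ} {w : g'.PS σ} (h : Rl K Z x w) (r : ℝ) : Rl K Z (r • x) (r • w) := by
  rw [rl_iff] at h ⊢
  rw [pair_smul]
  exact Submodule.smul_mem _ _ h

theorem rl_sum {α : Type} [Fintype α] {x : α → g.PS σ} {w : α → g'.PS σ}
    (h : ∀ a, Rl K Z (x a) (w a)) : Rl K Z (∑ a, x a) (∑ a, w a) := by
  unfold Rl
  rw [map_sum, ← sum_sub_distrib]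
  exact sum_mem fun a _ => h a

theorem Rl.subst {x : g.PS σ} {w : g'.PS σ} (h : Rl K Z x w) (r : σ → Pl τ) :
    Rl K Z (g.subst r x) (g'.subst r w) := by
  rw [rl_iff] at h ⊢
  have := Br.C14.subst_mem_Uo r h
  rwa [ND.subst, map_pair] at this

theorem Rl.asm {x : g.PS σ} {w : g'.PS σ} (h : Rl K Z x w) (a : Pl σ) :
    Rl K Z (asm a x) (asm a w) := by
  rw [rl_iff] at h ⊢
  have := Br.C14.cw_mem_Uo (LinearMap.mulLeft ℝ a) h
  have e : cw (pd g g') (LinearMap.mulLeft ℝ a) (pair x w) = pair (ND.asm a x) (ND.asm a w) :=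
    pts_ext fun k => by cases k <;> rfl
  rwa [e] at this

theorem Rl.star {𝔥 : LieSubalgebra ℝ g.L} (KH : K ≤ 𝔥.toSubmodule)
    (lieK : ∀ x ∈ 𝔥, ∀ y ∈ K, ⁅x, y⁆ ∈ K) (hZ : ∀ w, Z w ∈ 𝔥)
    (hlie : ∀ w w', Z ⁅w, w'⁆ - ⁅Z w, Z w'⁆ ∈ K) (S : ℕ) {x x' : g.PS σ} {w w' : g'.PS σ}
    (h : Rl K Z x w) (h' : Rl K Z x' w') : Rl K Z (star S x x') (star S w w') := by
  rw [rl_iff] at h h' ⊢
  rw [← star_pair]
  exact Br.C14.star_mem_Uo S (fun _ hx _ hy => (graph 𝔥 K Z KH lieK hZ hlie).lie_mem hx hy) h h'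

theorem rl_lamR {ρ : Type} [Fintype ρ] {r : ℕ} (β : Fin r → ρ → ℝ) {a : ρ → g.PS σ}
    {a' : ρ → g'.PS σ} {b : Fin r → g.PS σ} {b' : Fin r → g'.PS σ} (ha : ∀ i, Rl K Z (a i) (a' i))
    (hb : ∀ j, Rl K Z (b j) (b' j)) (h : ρ → ℤ) : Rl K Z (lamR β a b h) (lamR β a' b' h) :=
  (rl_sum fun i => (ha i).smul _).add (rl_sum fun j => (hb j).smul _)

theorem rl_linM {υ : Type} [Fintype υ] {ℓ : υ → g.PS σ} {ℓ' : υ → g'.PS σ}
    (h : ∀ c, Rl K Z (ℓ c) (ℓ' c)) : Rl K Z (linM g ℓ) (linM g' ℓ') :=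
  rl_sum fun c => ((h c).subst _).asm _

/-- a graded lift, coefficient by coefficient -/
theorem lift_ps {m : ℝ} (hK : IsG g K) (hZ : GMap g' g m Z) (ν : κ' → Prop)
    (d : (σ →₀ ℕ) → ℕ) (x : g.PS σ) (hx : ∀ k α, coeff α (x k) ≠ 0 → d α = g.wt k)
    (h : ∀ α, ∃ w, On g' ν w ∧ g.cv α x - Z w ∈ K) :
    ∃ w : g'.PS σ, (∀ k α, coeff α (w k) ≠ 0 → d α = g'.wt k) ∧ (∀ k, ¬ ν k → w k = 0) ∧
      Rl K Z x w := by
  classical
  choose w hw hw' using h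
  set s : Finset (σ →₀ ℕ) := univ.biUnion fun k => (x k).support with hs
  have hcv : ∀ α, g'.cv α (∑ β ∈ s, g'.mono β (hp g' (d β) (w β))) =
      if α ∈ s then hp g' (d α) (w α) else 0 := fun α => by
    rw [map_sum]
    simp only [cv_mono]
    rw [sum_ite_eq']
  have hco : ∀ k α, coeff α ((∑ β ∈ s, g'.mono β (hp g' (d β) (w β))) k) =
      if α ∈ s ∧ g'.wt k = d α then w α k else 0 := fun k α => by
    rw [← cv_apply, hcv]
    by_cases h1 : α ∈ s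
    · simp [h1, GI.P61.hp_apply]
    · simp [h1]
  refine ⟨∑ β ∈ s, g'.mono β (hp g' (d β) (w β)), fun k α h0 => ?_, fun k hk => ?_, fun α => ?_⟩
  · rw [hco] at h0
    by_contra h1
    exact h0 (if_neg fun h2 => h1 h2.2.symm)
  · refine MvPolynomial.ext _ _ fun α => ?_
    rw [hco, hw α k hk, ite_self, coeff_zero]
  · rw [map_sub, cv_bcl, hcv]
    split_ifs with h1
    · have e : hp g (d α) (g.cv α x) = g.cv α x := pts_ext fun k => by
        rw [GI.P61.hp_apply]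
        split_ifs with h2
        · rfl
        · by_contra h3
          exact h2 (hx k α (Ne.symm h3)).symm
      rw [GI.P61.map_hp hZ, ← e, ← map_sub]
      exact hK _ _ (hw' α)
    · have e : g.cv α x = 0 := pts_ext fun k => by
        by_contra h3
        exact h1 (mem_biUnion.2 ⟨k, mem_univ _, mem_support_iff.2 h3⟩)
      rw [e, map_zero, sub_zero]
      exact zero_mem _

theorem bcl_comp {κ'' : Type} [Fintype κ''] {g'' : ND κ''} (Z : g'.L →ₗ[ℝ] g.L)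
    (θ : g''.L →ₗ[ℝ] g'.L) (x : g''.PS σ) : bcl (Z ∘ₗ θ) _ x = bcl Z _ (bcl θ _ x) :=
  ps_ext fun α => by rw [cv_bcl, cv_bcl, cv_bcl, LinearMap.comp_apply]

end alg

section cell

variable {ι κ : Type} [Fintype κ] (T : Cell ι)

theorem at_symP (N : ND κ) (P : N.PS (PI T)) :
    at' (GI.gr N) (0 : Fin 1) (symP T N P) = symW (T.mlev (Fin 1)) N (GI.gr N) P := by
  refine Br.Mk16.subst_id _ (fun v => ?_) _
  rw [ren, aeval_X, ren]
  rcases v with v | ⟨j, c⟩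
  · rfl
  · rw [Subsingleton.elim j 0]; rfl

theorem at_up (g : ND κ) (y : g.PS ι) :
    at' g (0 : Fin 1) (g.subst (up ι T.U2 Unit) y) = g.subst (up ι T.U2 (Fin 1)) y := by
  rw [at', Br.Mk16.subst_subst]
  congr 2
  funext v
  rw [up, aeval_X]
  rfl

theorem evZ_fixh (A : ND κ) (x : A.PS (ι ⊕ ι)) (h : T.L1 → ℤ) (p : PI T → ℤ) :
    A.evZ (Sum.elim (y0 T p) (dy T h p)) x = A.evZ p (A.subst (fixh T h) x) := by
  rw [ND.evZ, ND.evZ, ev_subst]
  congr 2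
  funext v
  rcases v with c | c
  · simp [fixh, y0]
  · simp only [fixh, Sum.elim_inr, dy, Cell.wZ, Cell.wv]
    split_ifs <;> simp

end cell

end S58

end Crest.Agent.T49.Ri
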