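import Crest.Agent.T49.RiDef_12
import Crest.Agent.T49.RiBox_3
import Crest.Agent.T49.NilPw_67
import Crest.Agent.T49.NilCnt_14
import Crest.Agent.T49.TwTri_51

/-!
# Row 49 (helper3): relative inverse theorem, step 2: pairs of points inside multi-point cells
-/

set_option autoImplicit false
set_option linter.unusedSectionVars false

noncomputable section

namespace Crest.Agent.T49.Ri.St2

open Finset MvPolynomial
open Crest.Agent.T49.Tw Crest.Agent.T49.Nil Crest.Agent.T49.Nil.ND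
open Crest.Agent.T49.Gf (wcf)
open Crest.Agent.T49.GI (gr pw pwη sg4 tup pr)
open Crest.Agent.T49.Br (V ren qt q3 rs rol)
open Crest.Agent.T49.Box (cz)
open scoped ComplexConjugate

variable {ι : Type} [Fintype ι] (T : Cell ι) {k : ℕ}

/-- the level-one difference of two points -/
def d1 (x y : ι → ℤ) : T.L1 → ℤ := fun c => y c - x c

/-- two points as a point of the pair cell -/
def pp (x y : ι → ℤ) : PI T → ℤ := Sum.elim x fun p => y p.2.1 - x p.2.1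

/-- the level-one positions of the points -/
def hv (h : Fin k → T.L1 → ℤ) (i : Fin (k + 1)) : T.L1 → ℤ := Fin.cases 0 h i

/-- the marked variables of the points -/
def uv (i : Fin (k + 1)) (c : T.U2) : Pl (T.MI (Fin k)) :=
  Fin.cases 0 (fun j => X (Sum.inr (j, c))) i

/-- the pair of the points `s`, `e` as a substitution -/
def rr (h : Fin k → T.L1 → ℤ) (s e : Fin (k + 1)) : PI T → Pl (T.MI (Fin k)) :=
  Sum.elim (T.ptP h s) fun p => T.ptP h e p.2.1 - T.ptP h s p.2.1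

/-- its top part -/
def rt (s e : Fin (k + 1)) : PI T → Pl (T.MI (Fin k)) :=
  Sum.elim (fun c => X (Sum.inl c)) fun p => uv T e p.2 - uv T s p.2

theorem pt_L1 (h : Fin k → T.L1 → ℤ) (i : Fin (k + 1)) (p : T.MI (Fin k) → ℤ) (c : T.L1) :
    T.pt h i p c = p (Sum.inl c) + hv T h i c := by
  refine Fin.cases rfl (fun j => ?_) i
  simp only [Cell.pt, hv, Fin.cases_succ, Cell.wZ, dif_pos c.2]

theorem d1_pt (h : Fin k → T.L1 → ℤ) (s e : Fin (k + 1)) (p : T.MI (Fin k) → ℤ) :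
    d1 T (T.pt h s p) (T.pt h e p) = hv T h e - hv T h s := by
  funext c
  simp only [d1, pt_L1, Pi.sub_apply]
  ring

theorem pt_one_zero (h : T.L1 → ℤ) (p : PI T → ℤ) : T.pt (fun _ : Fin 1 => h) 0 p = y0 T p := by
  funext c
  simp [Cell.pt, y0]

theorem pt_one_one (h : T.L1 → ℤ) (p : PI T → ℤ) : T.pt (fun _ : Fin 1 => h) 1 p = y1 T h p := rfl

theorem d1_y (h : T.L1 → ℤ) (p : PI T → ℤ) : d1 T (y0 T p) (y1 T h p) = h := by
  rw [← pt_one_zero, ← pt_one_one, d1_pt]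
  exact sub_zero _

theorem pp_y (h : T.L1 → ℤ) (p : PI T → ℤ) : pp T (y0 T p) (y1 T h p) = p := by
  funext v
  rcases v with c | ⟨j, c⟩
  · rfl
  · obtain rfl : j = 0 := Subsingleton.elim _ _
    simp [pp, y1, dy, Cell.wZ, c.2]

theorem wv0_U2 (h : Fin k → T.L1 → ℤ) (i : Fin (k + 1)) (c : T.U2) :
    T.wv0 h i c.1 = uv T i c := by
  refine Fin.cases rfl (fun j => ?_) i
  simp only [Cell.wv0, uv, Fin.cases_succ, Cell.wv, dif_neg c.2]

theorem uv_hom (i : Fin (k + 1)) (c : T.U2) :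
    IsWeightedHomogeneous (T.mlev (Fin k)) (uv T i c) (T.lev c.1 - 1) := by
  refine Fin.cases (isWeightedHomogeneous_zero _ _ _) (fun j => ?_) i
  exact isWeightedHomogeneous_X ℝ (T.mlev (Fin k)) (Sum.inr (j, c))

theorem rr_inr (h : Fin k → T.L1 → ℤ) (s e : Fin (k + 1)) (p : Fin 1 × T.U2) :
    rr T h s e (Sum.inr p) = uv T e p.2 - uv T s p.2 := by
  simp only [rr, Sum.elim_inr, Cell.ptP, wv0_U2, add_sub_add_left_eq_sub]

theorem rr_degLe (h : Fin k → T.L1 → ℤ) (s e : Fin (k + 1)) (v : PI T) :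
    DegLe (T.mlev (Fin k)) (rr T h s e v) (T.mlev (Fin 1) v) := by
  rcases v with c | p
  · exact T.ptP_degLe h s c
  · rw [rr_inr]
    exact fun m hm => (((uv_hom T e p.2).sub (uv_hom T s p.2)) (mem_support_iff.1 hm)).le

theorem whc_rr (h : Fin k → T.L1 → ℤ) (s e : Fin (k + 1)) (v : PI T) :
    weightedHomogeneousComponent (T.mlev (Fin k)) (T.mlev (Fin 1) v) (rr T h s e v) =
      rt T s e v := by
  rcases v with c | p
  · change weightedHomogeneousComponent _ (T.lev c) (X (Sum.inl c) + T.wv0 h s c) = X (Sum.inl c)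
    rw [map_add, whc_of_hom (d := T.lev c) (isWeightedHomogeneous_X ℝ (T.mlev (Fin k)) (Sum.inl c)),
      weightedHomogeneousComponent_eq_zero' _ _ fun m hm => (T.wv0_dlt h s c m hm).ne, add_zero]
  · rw [rr_inr]
    exact whc_of_hom ((uv_hom T e p.2).sub (uv_hom T s p.2))

variable {κ : Type} [Fintype κ] {N : ND κ}

theorem evZ_rr (hM : MpAt T k) (h : Fin k → T.L1 → ℤ) (s e : Fin (k + 1))
    (p : T.MI (Fin k) → ℤ) (P : N.PS (PI T)) :
    N.evZ p (N.subst (rr T h s e) P) = N.evZ (pp T (T.pt h s p) (T.pt h e p)) P := by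
  rw [ND.evZ, ND.evZ, ev_subst]
  congr 2
  funext v
  rw [aeval_eq_eval]
  rcases v with c | v
  · exact hM.ev_ptP h s p c
  · change ev p (T.ptP h e v.2.1 - T.ptP h s v.2.1) = _
    rw [ev_sub, hM.ev_ptP, hM.ev_ptP]
    simp [pp]

theorem degLe_of_wcf {σ : Type} {lev : σ → ℕ} {P : N.PS σ} (hP : P ∈ wcf lev N.F) (j : κ) :
    DegLe lev (P j) (N.wt j) := fun m hm => by
  by_contra h
  exact mem_support_iff.1 hm (hP m j (not_le.1 h))

theorem sym_rr (h : Fin k → T.L1 → ℤ) (s e : Fin (k + 1)) {P : N.PS (PI T)}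
    (hP : P ∈ wcf (T.mlev (Fin 1)) N.F) (j : κ) :
    weightedHomogeneousComponent (T.mlev (Fin k)) (N.wt j) (N.subst (rr T h s e) P j) =
      bind₁ (rt T s e) (weightedHomogeneousComponent (T.mlev (Fin 1)) (N.wt j) (P j)) := by
  rw [Gf.subst_apply, whc_bind_degLe (rr_degLe T h s e) (degLe_of_wcf hP j)]
  simp only [whc_rr]

/-! ### four points -/

/-- first points of the four pairs -/
def sI : Fin 4 → Fin 4 := ![0, 1, 0, 1]
/-- second points of the four pairs -/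
def eI : Fin 4 → Fin 4 := ![2, 3, 3, 2]
/-- the signs -/
def sgU : Fin 4 → ℤˣ := ![1, 1, -1, -1]
/-- the change of labels -/
def MM : Fin 3 → Fin 3 → ℤ := ![![0, -1, 1], ![1, 0, 0], ![0, 0, 1]]

theorem sgU_eq : (fun a => ((sgU a : ℤˣ) : ℤ)) = sg4 := by
  funext a; fin_cases a <;> rfl

/-- the additive quadruple -/
def qq (h : Fin 3 → T.L1 → ℤ) (i : Fin 4) : T.L1 → ℤ := hv T h (eI i) - hv T h (sI i)

theorem qq_0 (h : Fin 3 → T.L1 → ℤ) : qq T h 0 = h 1 := sub_zero _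
theorem qq_1 (h : Fin 3 → T.L1 → ℤ) : qq T h 1 = h 2 - h 0 := rfl
theorem qq_2 (h : Fin 3 → T.L1 → ℤ) : qq T h 2 = h 2 := sub_zero _
theorem qq_3 (h : Fin 3 → T.L1 → ℤ) : qq T h 3 = h 1 - h 0 := rfl

theorem qq_add (h : Fin 3 → T.L1 → ℤ) : qq T h 0 + qq T h 1 = qq T h 2 + qq T h 3 := by
  rw [qq_0, qq_1, qq_2, qq_3]; abel

theorem eq_MM (h : Fin 3 → T.L1 → ℤ) (a : Fin 3) : h a = ∑ b, MM a b • q3 (qq T h) b := by
  have e0 : q3 (qq T h) 0 = h 1 := qq_0 T h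
  have e1 : q3 (qq T h) 1 = h 2 - h 0 := qq_1 T h
  have e2 : q3 (qq T h) 2 = h 2 := qq_2 T h
  rw [Fin.sum_univ_three, e0, e1, e2]
  fin_cases a <;> simp [MM]

theorem qq_inj : Function.Injective (qq T) := fun h h' e => funext fun a => by
  rw [eq_MM T h a, eq_MM T h' a, e]

theorem MM_le (a : Fin 3) : ∑ b, |(MM a b : ℝ)| ≤ 2 := by
  rw [Fin.sum_univ_three]
  fin_cases a <;> simp [MM]
  norm_num

theorem sub_rt (i : Fin 4) (v : PI T) :
    aeval (Br.sub ι T.U2 MM) (rt T (sI i) (eI i) v) =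
      aeval (rs ι T.U2 i) (ren ι T.U2 (fun _ : Fin 1 => ()) v) := by
  rcases v with c | ⟨j, c⟩
  · simp [rt, ren, rs, Br.sub]
  · have u0 : uv T (0 : Fin 4) c = 0 := rfl
    have u1 : uv T (1 : Fin 4) c = X (Sum.inr (0, c)) := rfl
    have u2 : uv T (2 : Fin 4) c = X (Sum.inr (1, c)) := rfl
    have u3 : uv T (3 : Fin 4) c = X (Sum.inr (2, c)) := rfl
    fin_cases i <;>
      simp [rt, ren, rs, Br.sub, sI, eI, u0, u1, u2, u3, MM, rol, Fin.sum_univ_three]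
    ring

/-- the polynomial map of the four pairs -/
def P4 (h : Fin 3 → T.L1 → ℤ) (P : (T.L1 → ℤ) → N.PS (PI T)) :
    (pw N (Fin 4)).PS (T.MI (Fin 3)) :=
  tup fun i => N.subst (rr T h (sI i) (eI i)) (P (qq T h i))

theorem P4_mem (h : Fin 3 → T.L1 → ℤ) {P : (T.L1 → ℤ) → N.PS (PI T)}
    (hP : ∀ i, P (qq T h i) ∈ wcf (T.mlev (Fin 1)) N.F) :
    P4 T h P ∈ wcf (T.mlev (Fin 3)) (pw N (Fin 4)).F := fun α => mem_pw_FA.2 fun i =>
  Gf.subst_mem_wcf (rr_degLe T h (sI i) (eI i)) grSub_F.anti (hP i) α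

theorem sym_P4 (h : Fin 3 → T.L1 → ℤ) {P : (T.L1 → ℤ) → N.PS (PI T)}
    (hP : ∀ i, P (qq T h i) ∈ wcf (T.mlev (Fin 1)) N.F) :
    (pw (gr N) (Fin 4)).subst (Br.sub ι T.U2 MM)
      (symW (T.mlev (Fin 3)) (pw N (Fin 4)) (pw (gr N) (Fin 4)) (P4 T h P)) =
      qt (gr N) (fun _ h => symP T N (P h)) (qq T h) := by
  funext ⟨i, j⟩
  change aeval _ (weightedHomogeneousComponent _ (N.wt j)
    (N.subst (rr T h (sI i) (eI i)) (P (qq T h i)) j)) = aeval (rs ι T.U2 i)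
      (aeval (ren ι T.U2 fun _ : Fin 1 => ()) (weightedHomogeneousComponent _ (N.wt j) _))
  rw [sym_rr T h _ _ (hP i), aeval_bind₁, aeval_eq_bind₁ (ren _ _ _), aeval_bind₁]
  simp only [sub_rt]

open Classical in
/-- the kernel -/
def KK (H : Finset (T.L1 → ℤ)) (c : (T.L1 → ℤ) → ℂ) (F : (T.L1 → ℤ) → N.L → ℂ)
    (P : (T.L1 → ℤ) → N.PS (PI T)) (x y : ι → ℤ) : ℂ :=
  if d1 T x y ∈ H then c (d1 T x y) * sqW N (F (d1 T x y)) (P (d1 T x y)) (pp T x y) else 0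

variable {T} {H : Finset (T.L1 → ℤ)} {c : (T.L1 → ℤ) → ℂ} {F : (T.L1 → ℤ) → N.L → ℂ}
  {P : (T.L1 → ℤ) → N.PS (PI T)}

theorem norm_KK (hc : ∀ h, ‖c h‖ = 1) (hF : ∀ h ∈ H, ∀ x, ‖F h x‖ ≤ 1) (x y : ι → ℤ) :
    ‖KK T H c F P x y‖ ≤ 1 := by
  unfold KK
  split_ifs with h
  · exact B3.norm_mul_le_one (hc _).le (hF _ h _)
  · simp

/-- the product over the four pairs -/
def G4 (K : (ι → ℤ) → (ι → ℤ) → ℂ) (y : Fin 4 → ι → ℤ) : ℂ :=
  K (y 0) (y 2) * K (y 1) (y 3) * conj (K (y 0) (y 3)) * conj (K (y 1) (y 2))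

theorem G4_eq (K : (ι → ℤ) → (ι → ℤ) → ℂ) (y : Fin 4 → ι → ℤ) :
    G4 K y = ∏ i, cz (sgU i) (K (y (sI i)) (y (eI i))) := by
  simp [G4, Fin.prod_univ_four, sgU, sI, eI]

theorem norm_G4 {K : (ι → ℤ) → (ι → ℤ) → ℂ} (hK : ∀ x y, ‖K x y‖ ≤ 1) (y : Fin 4 → ι → ℤ) :
    ‖G4 K y‖ ≤ 1 :=
  B3.norm_mul_conj_le (B3.norm_mul_conj_le (B3.norm_mul_le_one (hK _ _) (hK _ _)) (hK _ _)) (hK _ _)

theorem G4_zero {h : Fin 3 → T.L1 → ℤ} {i : Fin 4} (hi : qq T h i ∉ H) (p : T.MI (Fin 3) → ℤ) :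
    G4 (KK T H c F P) (fun i => T.pt h i p) = 0 := by
  rw [G4_eq]
  refine prod_eq_zero (mem_univ i) ?_
  rw [KK, d1_pt, ← qq, if_neg hi]
  simp [cz]

theorem G4_pos (hM : MpAt T 3) {h : Fin 3 → T.L1 → ℤ} (hi : ∀ i, qq T h i ∈ H)
    (p : T.MI (Fin 3) → ℤ) :
    G4 (KK T H c F P) (fun i => T.pt h i p) = (∏ i, cz (sgU i) (c (qq T h i))) *
      sqW (pw N (Fin 4)) (fun x => ∏ i, cz (sgU i) (F (qq T h i) (pr N ℝ i x))) (P4 T h P) p := by
  rw [G4_eq, sqW, ← prod_mul_distrib]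
  refine prod_congr rfl fun i _ => ?_
  rw [KK, d1_pt, ← qq, if_pos (hi i), Box.cz_mul, P4, evZ_tup, GI.pr_tup, evZ_rr T hM]
  rfl

/-- the two-point sum is large -/
theorem two_large (hM : MpAt T 1) {m : ℝ} {a b : (ι → ℤ) → ℂ} (ha : ∀ z, ‖a z‖ ≤ 1)
    (hb : ∀ z, ‖b z‖ ≤ 1) (hF : ∀ h ∈ H, ∀ x, ‖F h x‖ ≤ 1) (hH : Dense T m H)
    (hcor : ∀ h ∈ H, Cor (pc T h) m (fun p => a (y1 T h p) * b (y0 T p)) (sqW N (F h) (P h))) :
    ∃ c : (T.L1 → ℤ) → ℂ, (∀ h, ‖c h‖ = 1) ∧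
      Real.exp (-(2 * m + Real.pi * Fintype.card ι * m ^ 2 + Fintype.card ι)) * T.mu ^ 2 ≤
        ‖∑' y : Fin 2 → ι → ℤ, (∏ i, (T.wgt (y i) : ℂ)) *
          (b (y 0) * (a (y 1) * KK T H c F P (y 0) (y 1)))‖ := by
  classical
  let J : (T.L1 → ℤ) → ℂ := fun h => ∑' p, ((pc T h).wgt p : ℂ) *
    (a (y1 T h p) * b (y0 T p) * sqW N (F h) (P h) p)
  choose c hc hcJ using fun h => Complex.exists_norm_eq_mul_self (J h)
  refine ⟨c, hc, ?_⟩
  have hK := norm_KK (P := P) hc hF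
  have hG : ∀ y : Fin 2 → ι → ℤ, ‖b (y 0) * (a (y 1) * KK T H c F P (y 0) (y 1))‖ ≤ 1 := fun y =>
    B3.norm_mul_le_one (hb _) (B3.norm_mul_le_one (ha _) (hK _ _))
  let u : (Fin 1 → T.L1 → ℤ) → ℝ := fun h => if h 0 ∈ H then ‖J (h 0)‖ else 0
  have hu0 : ∀ h, 0 ≤ u h := fun h => by simp only [u]; split_ifs <;> positivity
  have hI : ∀ h : Fin 1 → T.L1 → ℤ, ∑' p, ((T.mp h).wgt p : ℂ) * (b (T.pt h 0 p) *
      (a (T.pt h 1 p) * KK T H c F P (T.pt h 0 p) (T.pt h 1 p))) = (u h : ℂ) := fun h => by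
    obtain ⟨h, rfl⟩ : ∃ h', h = fun _ => h' := ⟨h 0, funext fun j => congrArg h (Subsingleton.elim _ _)⟩
    simp only [pt_one_zero, pt_one_one, KK, d1_y, pp_y, u]
    split_ifs with hh
    · rw [hcJ, ← tsum_mul_left]
      exact tsum_congr fun p => by ring
    · simp
  have hu1 : ∀ h, u h ≤ (T.mp h).M := fun h => by
    have := (B3.Wt.mk (T.mp h).wgt_nonneg (T.mp h).summable_wgt).norm_Ex_le
      fun p => hG fun i => T.pt h i p
    rwa [B3.Ex, hI, mul_one, Complex.norm_real, Real.norm_of_nonneg (hu0 h)] at this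
  have hg : ∀ h : Fin 1 → T.L1 → ℤ, 0 ≤ T.gamK h := fun h => (Real.exp_pos _).le
  have hs : Summable fun h => T.gamK h * u h :=
    Summable.of_nonneg_of_le (fun h => mul_nonneg (hg h) (hu0 h))
      (fun h => mul_le_mul_of_nonneg_left (hu1 h) (hg h)) hM.summ
  rw [hM.tsum _ hG]
  simp only [hI, ← Complex.ofReal_mul]
  rw [← Complex.ofReal_tsum, Complex.norm_real,
    Real.norm_of_nonneg (tsum_nonneg fun h => mul_nonneg (hg h) (hu0 h))]
  refine le_trans ?_ (hs.sum_le_tsum (H.map ⟨fun h _ => h, fun _ _ e => congrFun e 0⟩)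
    fun h _ => mul_nonneg (hg h) (hu0 h))
  rw [sum_map]
  have hmu1 : 0 < T.mu1 := prod_pos fun c _ => inv_pos.2 (abs_pos.2 (T.a_ne c.1))
  set n := Fintype.card ι
  set s : ℝ := √((1 : ℕ) + 1) ^ Fintype.card T.L1 with hsd
  have hs0 : 0 < s := by positivity
  have hs1 : s ≤ Real.exp n := by
    have h1 : √((1 : ℕ) + 1 : ℝ) ≤ Real.exp 1 := by
      rw [Real.sqrt_le_left (Real.exp_pos _).le]
      have := Real.add_one_le_exp (1 : ℝ)
      push_cast; nlinarith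
    refine (pow_le_pow_left₀ (Real.sqrt_nonneg _) h1 _).trans ?_
    rw [← Real.exp_nat_mul, mul_one]
    exact Real.exp_le_exp.2 (by exact_mod_cast Fintype.card_subtype_le _)
  refine le_trans ?_ (card_nsmul_le_sum H _ (Real.exp (-(Real.pi * n * m ^ 2)) *
    (Real.exp (-m) * (T.mu ^ 2 / (T.mu1 * s)))) fun h hh => mul_le_mul ?_ ?_
      (by have := T.mu_pos; positivity) (hg _))
  · rw [nsmul_eq_mul]
    refine le_trans ?_ (mul_le_mul_of_nonneg_right hH.2 (by have := T.mu_pos; positivity))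
    have e : Real.exp (-m) * T.mu1 * (Real.exp (-(Real.pi * n * m ^ 2)) *
        (Real.exp (-m) * (T.mu ^ 2 / (T.mu1 * s)))) =
        Real.exp (-(2 * m + Real.pi * n * m ^ 2)) * s⁻¹ * T.mu ^ 2 := by
      rw [show -(2 * m + Real.pi * n * m ^ 2) = -m + -(Real.pi * n * m ^ 2) + -m by ring,
        Real.exp_add, Real.exp_add]
      field_simp
    rw [e, neg_add (2 * m + _), Real.exp_add, Real.exp_neg (n : ℝ)]
    gcongr
  · have := hM.gam_ge (fun _ => h) m fun _ => hH.1 h hh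
    rwa [Nat.cast_one, mul_one] at this
  · have h1 := hM.mu fun _ => h
    rw [pow_one] at h1
    change _ ≤ if h ∈ H then ‖J h‖ else 0
    rw [if_pos hh, ← h1, mul_div_cancel_right₀ _ (by positivity)]
    exact hcor h hh

end Crest.Agent.T49.Ri.St2
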