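import Crest.Agent.T49.RiBall_60

/-! # Row 49 (helper60): `StQ ⇒ StS` on a cell from the relative structure theorem -/

set_option autoImplicit false

noncomputable section

namespace Crest.Agent.T49.Ri

open Finset MvPolynomial
open Crest.Agent.T49.Tw Crest.Agent.T49.Nil Crest.Agent.T49.Nil.ND
open Crest.Agent.T49.GI (Gd GR gr pw pwη sg4 grOf_gr)
open Crest.Agent.T49.Br

namespace S60

section mono

variable {ι : Type} [Fintype ι] {T : Cell ι} {m m' : ℝ}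

omit [Fintype ι] in
theorem inB_mono {h : T.L1 → ℤ} (hh : InB T m h) (hm : m ≤ m') : InB T m' h :=
  fun c => (hh c).trans hm

theorem dens_mono {a b X Y : ℝ} (h : Real.exp (-a) * X ≤ Y) (hab : a ≤ b) (hX : 0 ≤ X) :
    Real.exp (-b) * X ≤ Y :=
  le_trans (mul_le_mul_of_nonneg_right (Real.exp_le_exp.2 (neg_le_neg hab)) hX) h

theorem cor_mono {a ψ : (ι → ℤ) → ℂ} (h : Cor T m a ψ) (hm : m ≤ m') : Cor T m' a ψ :=
  dens_mono h hm T.mu_pos.le

theorem chp_mono {φ : (ι → ℤ) → ℂ} (h : Chp T m φ) (hm : m ≤ m') : Chp T m' φ := by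
  obtain ⟨ξ, n, b, h1, h2, h3, h4⟩ := h
  exact ⟨ξ, n, b, h1.trans (ex_mono hm), h2, h3.trans (ex_mono hm), h4⟩

theorem famA_mono {κ : Type} [Fintype κ] {t : ℕ} {f : (ι → ℤ) → ℂ} {N : ND κ} {η : κ → ℤ}
    {H H' : Finset (T.L1 → ℤ)} {F : (T.L1 → ℤ) → N.L → ℂ} {P : (T.L1 → ℤ) → N.PS (PI T)}
    {φ b : (ι → ℤ) → ℂ} (h : FamA t m T f N η H F P φ b) (hm : m ≤ m') (hH : H' ⊆ H)
    (hd : Real.exp (-m') * T.mu1 ≤ #H') : FamA t m' T f N η H' F P φ b where
  dim := h.dim.trans hm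
  good := h.good.mono (ex_mono hm)
  wt_le := h.wt_le
  freq := ⟨h.freq.supp, fun k => (h.freq.le k).trans (ex_mono hm)⟩
  dense := ⟨fun x hx => inB_mono (h.dense.1 x (hH hx)) hm, hd⟩
  chp := chp_mono h.chp hm
  bdd := h.bdd
  chr x hx := (h.chr x (hH hx)).mono (ex_mono hm)
  poly x hx := h.poly x (hH hx)
  cor x hx := cor_mono (h.cor x (hH hx)) hm

theorem gd_gr {κ : Type} [Fintype κ] {N : ND κ} {S : ℕ} (hN : N.Good S (Real.exp m))
    (hκ : (Fintype.card κ : ℝ) ≤ m) : Gd (gr N) S m :=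
  { wt_le := hN.wt_le
    dim := hκ
    c_le := fun i j k => by
      show |((if N.wt i + N.wt j = N.wt k then N.c i j k else 0 : ℤ) : ℝ)| ≤ _
      split_ifs
      · exact hN.c_le i j k
      · simpa using (Real.exp_pos m).le
    gr := (grOf_gr N).graded }

end mono

section re

variable {β κ ρ : Type} [Fintype κ] [Fintype ρ] [DecidableEq ρ]

theorem addEquiv_apply (R : (ρ → ℤ) ≃+ (ρ → ℤ)) (h : ρ → ℤ) (i : ρ) :
    (R h i : ℝ) = ∑ k, (R (Pi.single k 1) i : ℝ) * h k := by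
  conv_lhs => rw [pi_eq_sum_univ' h, map_sum]
  simp only [map_zsmul, Finset.sum_apply, Pi.smul_apply, smul_eq_mul, Int.cast_sum, Int.cast_mul,
    mul_comm]

/-- the marked system in the coordinates `R h` -/
def re (𝓜 : Mk β κ ρ) (R : (ρ → ℤ) ≃+ (ρ → ℤ)) : Mk β κ ρ :=
  { 𝓜 with
    Dh := fun r c => ∑ k, C (R.symm (Pi.single r 1) k : ℝ) * 𝓜.Dh k c
    homh := fun _ c => IsWeightedHomogeneous.sum _ _ _ fun k _ => hom_C_mul (𝓜.homh k c) _ }

theorem re_cs (𝓜 : Mk β κ ρ) (R : (ρ → ℤ) ≃+ (ρ → ℤ)) {Λ : Type} (hh : Λ → ρ → ℤ) :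
    (re 𝓜 R).cs hh = 𝓜.cs fun a => R.symm (hh a) := by
  have : ∀ (h : ρ → ℤ) c, ∑ r, C (h r : ℝ) * (re 𝓜 R).Dh r c =
      ∑ k, C (R.symm h k : ℝ) * 𝓜.Dh k c := fun h c => by
    simp only [re, mul_sum, addEquiv_apply R.symm h, map_sum, sum_mul, map_mul]
    rw [sum_comm]
    exact sum_congr rfl fun _ _ => sum_congr rfl fun _ _ => by ring
  simp only [Mk.cs, this]
  rfl

theorem lamR_re {E : Type*} [AddCommGroup E] [Module ℝ E] {r : ℕ} (R : (ρ → ℤ) ≃+ (ρ → ℤ))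
    (b : Fin r → ρ → ℝ) (a : ρ → E) (e : Fin r → E) (h : ρ → ℤ) :
    lamR b a e (R h) = lamR (fun j k => ∑ i, b j i * R (Pi.single k 1) i)
      (fun k => ∑ i, (R (Pi.single k 1) i : ℝ) • a i) e h := by
  simp only [lamR, addEquiv_apply R h, smul_sum, smul_smul, sum_mul, mul_sum, sum_smul, mul_assoc]
  congr 1
  · rw [sum_comm]
    exact sum_congr rfl fun i _ => sum_congr rfl fun k _ => by rw [mul_comm]
  · exact sum_congr rfl fun j _ => by rw [sum_comm]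

theorem strd_re {ι : Type} [Fintype ι] {𝓜 : Mk β κ ρ} {R : (ρ → ℤ) ≃+ (ρ → ℤ)} {g : ND ι} {S : ℕ}
    {m m' : ℝ} {η : ι → ℤ} {x : (ρ → ℤ) → g.PS (V β κ Unit)} {H H' : Finset (ρ → ℤ)}
    (h : StrdR (re 𝓜 R) g S m η (fun y => x (R.symm y)) H) (hm : m ≤ m')
    (hH : ∀ y ∈ H', R y ∈ H) : StrdR 𝓜 g S m' η x H' := by
  obtain ⟨𝔥, Nn, K, y, r, b, a, e, ℓ, h1, h2, h3, h4, h5, h6, h7, h8, h9⟩ := h
  refine ⟨𝔥, Nn, K, y, r, fun j k => ∑ i, b j i * R (Pi.single k 1) i,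
    fun k => ∑ i, (R (Pi.single k 1) i : ℝ) • a i, e, ℓ,
    { h1 with grH := gr_mono h1.grH hm, grN := gr_mono h1.grN hm, grK := gr_mono h1.grK hm },
    h2.trans hm, h3, h4, fun k => ⟨Submodule.sum_mem _ fun i _ => Submodule.smul_mem _ _ (h5 i).1,
      Submodule.sum_mem _ fun i _ => Submodule.smul_mem _ _ (h5 i).2⟩, h6, h7, h8, fun z hz => ?_⟩
  obtain ⟨ε, w, γ, k1, k2, k3⟩ := h9 _ (hH z hz)
  simp only [re_cs, lamR_re, AddEquiv.symm_apply_apply] at k1 k2 k3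
  exact ⟨ε, w, γ, k1.mono hm, k2.mono hm, k3⟩

end re

end S60

open S60 B60

theorem step3 (hS : StructRStmt) (hG : GenNDStmt) (hB : BallStmt) : Step3Stmt := by
  intro l t
  obtain ⟨Cs, hCs, hS⟩ := hS (t + 2)
  obtain ⟨Db, Cb, -, hB⟩ := hB l
  choose Dg Cg _ hG using fun k => hG l k (t + 2)
  obtain ⟨C₁, hC₁⟩ : ∃ C : ℕ, ∀ m : ℝ, 2 ≤ m → m + 3 * m ^ Cb ≤ m ^ C := by qp
  obtain ⟨C₂, hC₂⟩ : ∃ C : ℕ, ∀ m : ℝ, 2 ≤ m → m ^ Cb ≤ m ^ C ∧ (m ^ C₁) ^ Cs + m ≤ m ^ C ∧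
    ((m ^ C₁) ^ Cs + 6 * m) ^ (∑ k ∈ range 7, Cg k) ≤ m ^ C := by qp
  refine ⟨Db + ∑ k ∈ range 7, Dg k, C₂ + 1, by omega, ?_⟩
  rintro ι _ T m f h - ⟨κ, _, N, η, H, F, P, φ, b, hA, 𝔥, Q, h1, h2, h3, h4⟩
  classical
  have hm := h.two
  have e0 := hC₁ m hm
  obtain ⟨e1, e2, e3⟩ := hC₂ m hm
  have e4 : m ^ C₂ ≤ m ^ (C₂ + 1) := pow_le_pow_right₀ (by linarith) (by omega)
  have e5 : 0 ≤ m ^ Cb := by positivity
  have e8 : 0 ≤ m ^ (C₂ + 1) := by positivity
  generalize m ^ C₁ = m₁ at *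
  have e6 : m₁ ≤ m₁ ^ Cs := le_self_pow₀ (by linarith) (by omega)
  obtain ⟨R, L, r1, r2, -⟩ := hB ι T m (h.mono (by omega) le_rfl (by linarith) e8)
  have hmu := mu1_pos T
  set B := H.map R.toEquiv.toEmbedding with hBd
  have hBm : ∀ y ∈ B, R.symm y ∈ H := fun y hy => by simpa [hBd] using hy
  have hBL : ∀ y ∈ B, ∀ i, 2 * |y i| < L i := fun y hy => by
    simpa using r2 _ (hA.dense.1 _ (hBm y hy))
  have hN : T.mu1 ≤ Real.exp m * ∏ i, (L i : ℝ) := by
    have k0 := card_le_box hBL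
    rw [hBd, card_map] at k0
    have k1 := hA.dense.2.trans k0
    rwa [Real.exp_neg, inv_mul_le_iff₀ (Real.exp_pos _)] at k1
  have hN0 : 0 ≤ ∏ i, (L i : ℝ) := prod_nonneg fun i _ => Nat.cast_nonneg _
  let e : ∀ {k : ℕ}, (Fin k → T.L1 → ℤ) ≃ (Fin k → T.L1 → ℤ) := Equiv.piCongrRight fun _ => R.toEquiv
  have hL : ∀ i, 0 < L i := fun i => by
    have := r2 0 (fun c => by
      have h0 := ell_sub T 0 0 c
      rw [sub_self, sub_self] at h0
      rw [h0, abs_zero]; linarith) i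
    have := abs_nonneg (R 0 i)
    omega
  obtain ⟨H', k1, k2, k3⟩ := hS m₁ (by linarith) κ ι T.U2 T.L1 (re (mkT T) R) (gr N) η 𝔥 L B
    (Q.map e.toEmbedding) (fun y => symP T N (P (R.symm y)))
    { gd := gd_mono (gd_gr hA.good hA.dim) (by linarith)
      cβ := h.card.trans (by linarith)
      cρ := le_trans (by exact_mod_cast card_L1_le T) (h.card.trans (by linarith))
      gr := gr_mono h1 (by linarith)
      kill := h2
      diam := ⟨hL, fun x hx y hy i => by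
        have a1 := hBL x hx i
        have a2 := hBL y hy i
        have a3 := abs_sub (x i) (y i)
        omega⟩
      quad := fun q' hq' => by
        obtain ⟨q, hq, rfl⟩ := mem_map.1 hq'
        refine ⟨fun i => mem_map_of_mem _ ((h4 q hq).1 i), ?_⟩
        change R (q 0) + R (q 1) = R (q 2) + R (q 3)
        rw [← map_add, ← map_add, (h4 q hq).2.1]
      dense := by
        rw [card_map]
        refine le_trans ?_ h3
        calc _ ≤ Real.exp (-m₁) * (Real.exp (m ^ Cb) * T.mu1) ^ 3 := by gcongr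
          _ = Real.exp (-m₁ + 3 * m ^ Cb) * T.mu1 ^ 3 := by
              rw [mul_pow, ← Real.exp_nat_mul, Real.exp_add, mul_assoc]; rfl
          _ ≤ _ := by gcongr; linarith
      gen := fun k hk => by
        have a1 : Dg k ≤ ∑ k ∈ range 7, Dg k :=
          single_le_sum (fun _ _ => Nat.zero_le _) (mem_range.2 (by omega))
        have a2 : Cg k ≤ ∑ k ∈ range 7, Cg k :=
          single_le_sum (fun _ _ => Nat.zero_le _) (mem_range.2 (by omega))
        have a3 := hG k ι T (m₁ ^ Cs + 6 * m) (h.mono (by omega) (by linarith)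
          ((pow_le_pow_right₀ (by linarith) a2).trans (e3.trans e4)) e8)
          ({y ∈ Fintype.piFinset fun _ : Fin k => B | ¬ ((re (mkT T) R).cs y).ND (t + 2)
            (Real.exp (m₁ ^ Cs))}.map e.symm.toEmbedding) fun x hx => by
            obtain ⟨y, hy, rfl⟩ := mem_map.1 hx
            obtain ⟨b1, b2⟩ := mem_filter.1 hy
            refine ⟨fun j => inB_mono (hA.dense.1 _ (hBm _ (Fintype.mem_piFinset.1 b1 j)))
              (by linarith), fun b3 => b2 ?_⟩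
            rw [re_cs]
            exact Br.Cs.ND.mono b3 (ex_mono (by linarith))
        rw [card_map] at a3
        unfold Most
        refine le_trans (le_of_eq (by congr)) (a3.trans ?_)
        have a4 : (k : ℝ) ≤ 6 := by exact_mod_cast hk
        calc _ ≤ Real.exp (-(m₁ ^ Cs + 6 * m)) * (Real.exp m * ∏ i, (L i : ℝ)) ^ k := by gcongr
          _ = Real.exp (-(m₁ ^ Cs + 6 * m) + k * m) * (∏ i, (L i : ℝ)) ^ k := by
              rw [mul_pow, ← Real.exp_nat_mul, Real.exp_add, mul_assoc]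
          _ ≤ _ := by gcongr; nlinarith }
    fun q' hq' => by
      obtain ⟨q, hq, rfl⟩ := mem_map.1 hq'
      have a1 := (h4 q hq).2.2.mono (show m ≤ m₁ by linarith) le_rfl
      rw [re_cs]
      convert a1 using 1
      · congr 1
        funext a; exact R.symm_apply_apply _
      · unfold qt
        congr 1
        funext i
        exact congrArg (fun y => (gr N).subst _ (symP T N (P y))) (R.symm_apply_apply _)
  refine ⟨κ, inferInstance, N, η, H'.map R.symm.toEquiv.toEmbedding, F, P, φ, b,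
    famA_mono hA (by linarith) (fun x hx => ?_) ?_, strd_re k3 (by linarith) fun y hy => ?_⟩
  · obtain ⟨y, hy, rfl⟩ := mem_map.1 hx
    obtain ⟨q', hq', rfl⟩ := k1 y hy
    obtain ⟨q, hq, rfl⟩ := mem_map.1 hq'
    exact hBm _ (mem_map_of_mem _ ((h4 q hq).1 0))
  · rw [card_map]
    refine le_trans ?_ k2
    calc _ ≤ Real.exp (-m ^ (C₂ + 1)) * (Real.exp m * ∏ i, (L i : ℝ)) := by gcongr
      _ = Real.exp (-m ^ (C₂ + 1) + m) * ∏ i, (L i : ℝ) := by rw [Real.exp_add, mul_assoc]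
      _ ≤ _ := by gcongr; linarith
  · simpa using hy

end Crest.Agent.T49.Ri
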