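import Crest.Agent.T49.RiDef_12

/-!
# Row 49 (helper29): the block `StB ⇒ StE` (symmetry and integration), definitions and leaves

`BlockStmt` follows from `RescStmt`, `SymStepStmt`, `IntStmt` (`block_of`).
-/

set_option autoImplicit false

noncomputable section

namespace Crest.Agent.T49.Sy

open Finset MvPolynomial
open Crest.Agent.T49.Tw Crest.Agent.T49.Nil Crest.Agent.T49.Nil.ND
open Crest.Agent.T49.Bch (star)
open Crest.Agent.T49.Gf (wcf)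
open Crest.Agent.T49.GI (CoId On Gd GR Freq pw pr tup pwη Bigr Graded SFil)
open Crest.Agent.T49.Br (Cs Mor Hm Uo NearR GS)
open Crest.Agent.T49.Ri
open Crest.Agent.T49.Box (cz SF sgnF)

variable {κ : Type} [Fintype κ] {σ τ : Type}

/-! ### dual numbers -/

/-- the datum `g ⊗ ℤ[ε]`, `ε ^ 2 = 0`; the coordinates `(true, k)` are those of `ε` -/
def du (g : ND κ) : ND (Bool × κ) where
  wt p := g.wt p.2
  c p q r := if p.1.toNat + q.1.toNat = r.1.toNat then g.c p.2 q.2 r.2 else 0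
  wt_pos p := g.wt_pos p.2
  c_wt p q r h := g.c_wt _ _ _ fun h0 => h (by simp [h0])
  anti p q r := by
    rw [add_comm q.1.toNat]
    split_ifs
    · exact g.anti _ _ _
    · simp
  jac := by
    rintro ⟨a, i⟩ ⟨b, j⟩ ⟨c, k⟩ ⟨d, m⟩
    cases a <;> cases b <;> cases c <;> cases d <;>
      simp [Fintype.sum_prod_type, g.jac i j k m]

section du

variable {g : ND κ} {R : Type} [CommRing R] [Algebra ℝ R]

@[simp] theorem du_wt (p : Bool × κ) : (du g).wt p = g.wt p.2 := rfl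

theorem du_c (p q r : Bool × κ) :
    (du g).c p q r = if p.1.toNat + q.1.toNat = r.1.toNat then g.c p.2 q.2 r.2 else 0 := rfl

/-- the coefficient of `ε ^ e` -/
def dc (g : ND κ) (R : Type) [CommRing R] [Algebra ℝ R] (e : Bool) :
    (du g).pts R →ₗ[ℝ] g.pts R where
  toFun x k := x (e, k)
  map_add' _ _ := rfl
  map_smul' _ _ := rfl

@[simp] theorem dc_apply (e : Bool) (x : (du g).pts R) (k : κ) : dc g R e x k = x (e, k) := rfl

/-- `a + ε a'` -/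
def dmk (a a' : g.pts R) : (du g).pts R := fun p => if p.1 then a' p.2 else a p.2

@[simp] theorem dc_dmk_false (a a' : g.pts R) : dc g R false (dmk a a') = a := rfl
@[simp] theorem dc_dmk_true (a a' : g.pts R) : dc g R true (dmk a a') = a' := rfl

theorem du_ext {x y : (du g).pts R} (h0 : dc g R false x = dc g R false y)
    (h1 : dc g R true x = dc g R true y) : x = y :=
  pts_ext fun p => by
    obtain ⟨e, k⟩ := p
    cases e
    exacts [congrFun h0 k, congrFun h1 k]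

theorem dc_lie_false (x y : (du g).pts R) :
    dc g R false ⁅x, y⁆ = ⁅dc g R false x, dc g R false y⁆ := by
  ext k
  simp [lie_apply, Fintype.sum_prod_type, du_c]

theorem dc_lie_true (x y : (du g).pts R) :
    dc g R true ⁅x, y⁆ = ⁅dc g R false x, dc g R true y⁆ + ⁅dc g R true x, dc g R false y⁆ := by
  ext k
  simp [lie_apply, Fintype.sum_prod_type, du_c, add_comm]

theorem graded_du (h : Graded g) : Graded (du g) := fun p q r hc =>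
  h _ _ _ fun h0 => hc (by simp [du_c, h0])

theorem bigr_du (h : Graded g) : Bigr (du g) Prod.fst :=
  ⟨graded_du h, fun p q r hc => by
    by_contra h0
    exact hc (by rw [du_c, if_neg h0])⟩

/-- `U ⊕ ε U` -/
def duS (U : Submodule ℝ g.L) : Submodule ℝ (du g).L :=
  U.comap (dc g ℝ false) ⊓ U.comap (dc g ℝ true)

end du

/-! ### tangent structures -/

/-- the derivative of `f` at `Z = inl` in the direction `D = inr` -/
def dirD [Fintype σ] (f : Pl σ) : Pl (σ ⊕ σ) :=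
  ∑ c, rename Sum.inl (pderiv c f) * X (Sum.inr c)

theorem rename_inl_hom {w : σ → ℕ} {w' : τ → ℕ} {f : Pl σ} {d : ℕ}
    (hf : IsWeightedHomogeneous w f d) :
    IsWeightedHomogeneous (Sum.elim w w') (rename Sum.inl f : Pl (σ ⊕ τ)) d := by
  rw [rename_eq_bind]
  exact hom_bind' (fun c => isWeightedHomogeneous_X ℝ (Sum.elim w w') (Sum.inl c)) hf

theorem dirD_hom [Fintype σ] {w : σ → ℕ} {f : Pl σ} {d : ℕ} (hf : IsWeightedHomogeneous w f d) :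
    IsWeightedHomogeneous (Sum.elim w w) (dirD f) d := by
  refine IsWeightedHomogeneous.sum _ _ _ fun c _ => ?_
  by_cases h : pderiv c f = 0
  · rw [h, map_zero, zero_mul]
    exact isWeightedHomogeneous_zero _ _ _
  · obtain ⟨α, hα⟩ := ne_zero_iff.1 h
    rw [coeff_pderiv] at hα
    have h1 := hf (left_ne_zero_of_mul hα)
    rw [map_add, Finsupp.weight_single, one_smul] at h1
    have h2 := (rename_inl_hom (w' := w) (hf.pderiv h1)).mul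
      (isWeightedHomogeneous_X ℝ (Sum.elim w w) (Sum.inr c))
    exact h1 ▸ h2

/-- the tangent structure: `θ_c (Z)` and `Dθ_c (Z) [D]` -/
def tanC [Fintype σ] (c : Cs σ) : Cs (σ ⊕ σ) where
  lev := Sum.elim c.lev c.lev
  th := Sum.elim (fun v => rename Sum.inl (c.th v)) fun v => dirD (c.th v)
  pos v := by cases v <;> exact c.pos _
  hom v := by
    cases v with
    | inl v => exact rename_inl_hom (c.hom v)
    | inr v => exact dirD_hom (c.hom v)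

/-- the first jet `x (Z + ε D)` -/
def tang [Fintype σ] (g : ND κ) (x : g.PS σ) : (du g).PS (σ ⊕ σ) :=
  dmk (fun k => rename Sum.inl (x k)) fun k => dirD (x k)

/-- `NearR` on the tangent structure with MATCHED factors: the coefficient of `ε ^ e` is
homogeneous of degree `e` in the direction variables; the outer factors take values in `U'` -/
def NearM [Fintype σ] (c : Cs σ) (g : ND κ) (S : ℕ) (m : ℝ) (U U' : Submodule ℝ (du g).L)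
    (W : (du g).PS (σ ⊕ σ)) : Prop :=
  ∃ (E y Γ : (du g).PS (σ ⊕ σ)) (q : ℕ), BiH (du g) Prod.fst c.lev E ∧ E ∈ Uo _ U' ∧
    (∀ p, nrm (E p) ≤ Real.exp m) ∧ BiH (du g) Prod.fst c.lev y ∧ y ∈ Uo _ U ∧
    BiH (du g) Prod.fst c.lev Γ ∧ Γ ∈ Uo _ U' ∧ 1 ≤ q ∧ (q : ℝ) ≤ Real.exp m ∧ (du g).RatP q Γ ∧
    W = star S ((du g).subst (tanC c).th E) (star S y Γ)

/-- the Euler substitution `(Z, D) ↦ (z, E z)` -/
def eul (lev : σ → ℕ) : σ ⊕ σ → Pl σ := Sum.elim X fun c => C (lev c : ℝ) * X c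

/-- the coordinates of `h`-degree `e` -/
def phP (A : ND κ) (hd : κ → Bool) (e : Bool) (x : A.PS σ) : A.PS σ :=
  fun k => if hd k = e then x k else 0

/-- the pair `(Y (Z + ε D), x (Z, ε D))`, `Y = x (z, E z)` -/
def W2 [Fintype σ] (A : ND κ) (hd : κ → Bool) (lev : σ → ℕ) (x : A.PS (σ ⊕ σ)) :
    (du (pw A (Fin 2))).PS (σ ⊕ σ) :=
  dmk (tup ![fun k => rename Sum.inl (A.subst (eul lev) x k), phP A hd false x])
    (tup ![fun k => dirD (A.subst (eul lev) x k), phP A hd true x])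

/-- the `ε`-free part of the second entry has `h`-degree zero -/
def mS (A : ND κ) (hd : κ → Bool) : Submodule ℝ (du (pw A (Fin 2))).L where
  carrier := {w | ∀ k, hd k = true → w (false, 1, k) = 0}
  add_mem' hx hy k hk := by simp [hx k hk, hy k hk]
  zero_mem' _ _ := rfl
  smul_mem' r x hx k hk := by simp [hx k hk]

/-- what the symmetry argument says about a subalgebra of `(A × A)[ε]` -/
structure SymSub (A : ND κ) (hd : κ → Bool) (η : κ → ℤ) (s : ℕ) (m : ℝ)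
    (𝔟 : Submodule ℝ (du (pw A (Fin 2))).L) : Prop where
  gs : GS (du (pw A (Fin 2))) m 𝔟
  eg : ∀ w ∈ 𝔟, dmk (dc _ ℝ false w) 0 ∈ 𝔟
  m0 : ∀ w ∈ 𝔟, ∀ k, w (false, 1, k) = if hd k then 0 else w (false, 0, k)
  kill : ∀ w ∈ 𝔟, A.fn η (pr A ℝ 0 (dc _ ℝ true w)) = s * A.fn η (pr A ℝ 1 (dc _ ℝ true w))

/-! ### the pattern of the symmetry argument

Vertices `(side, idx, neg, w)`: `A_a = (ff, a, ff)`, `D_a = (ff, a, tt)`, `B_b = (tt, b, ff)`,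
`C_b = (tt, b, tt)`, each a cube `w`; factors `(a, b, c, w)`: `M (A_a, C_b)` for `c = ff` and
`M (B_b, D_a)` for `c = tt`. -/

/-- the first point of a factor -/
def bsV {t : ℕ} (j : SF t) : SF t :=
  (j.2.2.1, if j.2.2.1 then j.2.1 else j.1, false, j.2.2.2)

/-- the second point of a factor -/
def tpV {t : ℕ} (j : SF t) : SF t :=
  (!j.2.2.1, if j.2.2.1 then j.1 else j.2.1, true, j.2.2.2)

/-- eight cubes `A_a, D_a, B_b, C_b`, congruent modulo `F 1`, with `A_a + D_a ≡ B_b + C_b`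
modulo `F 2` -/
def Pat8 {G : Type} [AddCommGroup G] (F : ℕ → AddSubgroup G) (t : ℕ) :
    AddSubgroup (SF t → G) where
  carrier := {z | (fun w => z (false, false, false, w)) ∈ Hk.Cu F (Fin t) ∧
    (∀ s i n, (fun w => z (s, i, n, w) - z (false, false, false, w)) ∈ Hk.Cu (Hk.sh F 1) (Fin t)) ∧
    ∀ s i, (fun w => z (s, i, false, w) + z (s, i, true, w) - z (false, false, false, w) -
      z (false, false, true, w)) ∈ Hk.Cu (Hk.sh F 2) (Fin t)}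
  add_mem' := fun {x y} hx hy => ⟨add_mem hx.1 hy.1,
    fun s i n => by
      convert add_mem (hx.2.1 s i n) (hy.2.1 s i n) using 1
      funext w; simp only [Pi.add_apply]; abel,
    fun s i => by
      convert add_mem (hx.2.2 s i) (hy.2.2 s i) using 1
      funext w; simp only [Pi.add_apply]; abel⟩
  zero_mem' := ⟨zero_mem _, fun _ _ _ => by
      convert zero_mem (Hk.Cu (Hk.sh F 1) (Fin t)) using 1
      funext w; simp,
    fun _ _ => by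
      convert zero_mem (Hk.Cu (Hk.sh F 2) (Fin t)) using 1
      funext w; simp⟩
  neg_mem' := fun {x} hx => ⟨neg_mem hx.1,
    fun s i n => by
      convert neg_mem (hx.2.1 s i n) using 1
      funext w; simp only [Pi.neg_apply]; abel,
    fun s i => by
      convert neg_mem (hx.2.2 s i) using 1
      funext w; simp only [Pi.neg_apply]; abel⟩

/-- the sum over the pattern -/
def box8 {G : Type} [AddCommGroup G] (F : ℕ → AddSubgroup G) (t : ℕ) (w : G → ℝ)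
    (M : G → G → ℂ) : ℂ :=
  ∑' z : Pat8 F t, ((∏ v, w (z.1 v) : ℝ) : ℂ) * ∏ j, cz (sgnF j) (M (z.1 (bsV j)) (z.1 (tpV j)))

/-- the linear form `l = 1_{A_1} - 1_{D_1} + |w|` -/
def l1 {t : ℕ} (v : SF t) : ℤ :=
  (if v.1 = false ∧ v.2.1 = true then (if v.2.2.1 then -1 else 1) else 0) + Hk.wt v.2.2.2

/-- the linear form `l' = 1_{B_1} - 1_{C_1}` -/
def l2 {t : ℕ} (v : SF t) : ℤ :=
  if v.1 = true ∧ v.2.1 = true then (if v.2.2.1 then -1 else 1) else 0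

/-- the identities that give the symmetry relation -/
def Kid {J : Type} [Fintype J] (s : ℕ) (sg ν ν' μ μ' : J → ℤ) (κ0 : ℤ) : Prop :=
  (∀ l, 1 ≤ l → l + 1 ≤ s → ∑ j, sg j * (ν j ^ (s - l - 1) * ν' j * (μ j ^ l - ν j ^ l)) = l * κ0) ∧
  ∀ l, 1 ≤ l → l ≤ s → ∑ j, sg j *
    (ν j ^ (s - l) * (μ j ^ (l - 1) * μ' j - ν j ^ (l - 1) * ν' j)) = ((l : ℤ) - s) * κ0

/-- the ideal mass of the pattern -/
def muP {ι : Type} [Fintype ι] (T : Cell ι) (t : ℕ) : ℝ := muK T (t + 2) ^ 3 / muK T (t + 1) ^ 2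

/-! ### leaves of the symmetry step -/

/-- (CHAIN) two applications of Cauchy-Schwarz -/
def ChainStmt : Prop := ∀ (G G' H : Type) [AddCommGroup G] [AddCommGroup G']
  (F : ℕ → AddSubgroup G) (F' : ℕ → AddSubgroup G') (x y : G' →+ G) (o : H → G) (t : ℕ)
  (w : G → ℝ) (f b : G → ℂ) (M : G → G → ℂ) (s : Finset H), Antitone F → Hk.Pair F F' x y o →
  Summable w → (∀ z, ‖f z‖ ≤ w z) → (∀ z, ‖b z‖ ≤ w z) → (∀ z z', ‖M z z'‖ ≤ 1) →
  (∑ h ∈ s, Hk.UK F' (t + 1) fun c => f (y c + o h) * b (x c) * M (x c) (y c + o h)) ^ 4 ≤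
    Hk.Zm F (t + 1) w ^ 2 * Hk.Zm F (t + 2) w * ‖box8 F t w M‖

/-- (BOX) correlations on many pair cells give a biased pattern -/
def BoxStmt : Prop := ∀ l t : ℕ, ∃ D C : ℕ, 1 ≤ C ∧ ∀ (ι : Type) [Fintype ι] (T : Cell ι) (m : ℝ),
  Ok T l D m (m ^ C) → ∀ (f b : (ι → ℤ) → ℂ) (M : (ι → ℤ) → (ι → ℤ) → ℂ)
    (H : Finset (T.L1 → ℤ)), (∀ z, ‖f z‖ ≤ 1) → (∀ z, ‖b z‖ ≤ 1) → (∀ z z', ‖M z z'‖ ≤ 1) →
    Dense T m H → (∀ h ∈ H, ∃ ψ, IsNilW (T.mlev (Fin 1)) t m ψ ∧ Cor (pc T h) m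
      (fun p => f (y1 T h p) * b (y0 T p) * M (y0 T p) (y1 T h p)) ψ) →
    Real.exp (-m ^ C) * muP T t ≤ ‖box8 (Hk.lvl T.lev) t T.wgt M‖

/-- (PAT) the pattern is a cell; its jets along `(l1, l2)` -/
def PatStmt : Prop := ∀ l t : ℕ, ∃ K : ℕ, 1 ≤ K ∧ ∀ (ι : Type) [Fintype ι] (T : Cell ι),
  (∀ c, T.lev c ≤ l) →
  ∃ (σ : Type) (_ : Fintype σ) (P : Cell σ) (π : σ → ι) (pv : SF t → ι → Pl σ)
    (e : (σ → ℤ) ≃ Pat8 (Hk.lvl T.lev) t) (r : σ ⊕ σ → Pl (ι ⊕ ι)),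
    T.PC K P π ∧ P.mu ≤ K ^ Fintype.card ι * muP T t ∧
    (∀ v c, IsWeightedHomogeneous P.lev (pv v c) (T.lev c)) ∧
    (∀ p v c, ((e p).1 v c : ℝ) = ev p (pv v c)) ∧ (∀ p, P.wgt p = ∏ v, T.wgt ((e p).1 v)) ∧
    Mor (tanC (Cs.ofCell P)) (tanC (Cs.ofCell T)) K r ∧
    ∀ v c, aeval r (rename Sum.inl (pv v c)) = C ((l1 v : ℝ) ^ T.lev c) * X (Sum.inl c) ∧
      aeval r (dirD (pv v c)) = C ((l1 v : ℝ) ^ (T.lev c - 1) * l2 v) * X (Sum.inr c)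

/-- (KID) -/
def KidStmt : Prop := ∀ t : ℕ, Kid (t + 2) (fun j : SF t => ((sgnF j : ℤˣ) : ℤ))
  (fun j => l1 (bsV j)) (fun j => l2 (bsV j)) (fun j => l1 (tpV j)) (fun j => l2 (tpV j))
  t.factorial

/-- (TAN) no short integer form on the tangent structure of a regular cell -/
def TanStmt : Prop := ∀ l S : ℕ, ∃ D C : ℕ, 1 ≤ C ∧ ∀ (ι : Type) [Fintype ι] (T : Cell ι) (m : ℝ),
  Ok T l D m (m ^ C) → (tanC (Cs.ofCell T)).ND S (Real.exp m)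

/-- (JET) first jets of factorisations -/
def JetStmt : Prop := ∀ S : ℕ, ∃ C : ℕ, 1 ≤ C ∧ ∀ (m : ℝ), 2 ≤ m → ∀ (κ σ : Type) [Fintype κ]
  [Fintype σ] (g : ND κ) (c : Cs σ) (U : Submodule ℝ g.L) (x : g.PS σ), Gd g S m →
  Gd (du g) S (m ^ C) ∧ (GS g m U → GS (du g) m (duS U)) ∧
  (NearR c g S m U x → NearR (tanC c) (du g) S (m ^ C) (duS U) (tang g x))

/-- (MATCH) the factors of a matched element can be chosen matched -/
def MatchStmt : Prop := ∀ S : ℕ, ∃ C : ℕ, 1 ≤ C ∧ ∀ (m : ℝ), 2 ≤ m → ∀ (κ σ : Type) [Fintype κ]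
  [Fintype σ] (g : ND κ) (c : Cs σ) (U U' : Submodule ℝ (du g).L) (W : (du g).PS (σ ⊕ σ)),
  Gd (du g) S m → (tanC c).ND S (Real.exp (m ^ C)) → GS (du g) m U → GS (du g) m U' → U ≤ U' →
  (∀ w ∈ U, dmk (dc g ℝ false w) 0 ∈ U) → BiH (du g) Prod.fst c.lev W → W ∈ Uo _ U' →
  NearR (tanC c) (du g) S m U W → NearM c g S (m ^ C) U U' W

/-- (ALG) the algebra of the symmetry argument -/
def AlgStmt : Prop := ∀ s : ℕ, ∃ C₀ : ℕ, 1 ≤ C₀ ∧ ∀ (m : ℝ), 2 ≤ m →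
  ∀ (ι σ κ J : Type) [Fintype ι] [Fintype σ] [Fintype κ] [Fintype J] [DecidableEq J] (A : ND κ)
    (hd : κ → Bool) (η : κ → ℤ) (c : Cs ι) (cP : Cs σ) (x : A.PS (ι ⊕ ι)) (sg ν ν' μ μ' : J → ℤ)
    (κ0 : ℤ) (bs tp : J → ι → Pl σ) (r : σ ⊕ σ → Pl (ι ⊕ ι)) (U : Submodule ℝ (pw A J).L),
    Gd A s m → Bigr A hd → (Fintype.card J : ℝ) ≤ m → (∀ k, A.wt k ≠ s → η k = 0) →
    (∀ k, hd k = false → η k = 0) → BiH A hd c.lev x → (tanC c).ND s (Real.exp (m ^ C₀)) →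
    (∀ j, |(ν j : ℝ)| ≤ m ∧ |(ν' j : ℝ)| ≤ m ∧ |(μ j : ℝ)| ≤ m ∧ |(μ' j : ℝ)| ≤ m) →
    κ0 ≠ 0 → Kid s sg ν ν' μ μ' κ0 → Mor (tanC cP) (tanC c) (Real.exp m) r →
    (∀ j v, aeval r (rename Sum.inl (bs j v)) = C ((ν j : ℝ) ^ c.lev v) * X (Sum.inl v) ∧
      aeval r (dirD (bs j v)) = C ((ν j : ℝ) ^ (c.lev v - 1) * ν' j) * X (Sum.inr v) ∧
      aeval r (rename Sum.inl (tp j v)) = C ((μ j : ℝ) ^ c.lev v) * X (Sum.inl v) ∧
      aeval r (dirD (tp j v)) = C ((μ j : ℝ) ^ (c.lev v - 1) * μ' j) * X (Sum.inr v)) →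
    GS (pw A J) m U → (∀ z ∈ U, (pw A J).fn (pwη sg η) z = 0) →
    NearR cP (pw A J) s m U (tup fun j => A.subst (Sum.elim (bs j) (tp j - bs j)) x) →
    ∃ 𝔟, SymSub A hd η s (m ^ C₀) 𝔟 ∧
      NearM c (pw A (Fin 2)) s (m ^ C₀) 𝔟 (mS A hd) (W2 A hd c.lev x)

/-! ### leaves of the integration step -/

section

variable {ι : Type} [Fintype ι]

/-- the second point of a pair as a substitution -/
def y1P (T : Cell ι) (h : T.L1 → ℤ) (c : ι) : Pl (PI T) :=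
  X (Sum.inl c) + T.wv (fun _ : Fin 1 => h) 0 c

/-- the true windows `θ (y0)` and `θ (y1) - θ (y0)` -/
def thP (T : Cell ι) (h : T.L1 → ℤ) : ι ⊕ ι → Pl (PI T) :=
  Sum.elim (fun c => rename Sum.inl (T.th c))
    fun c => aeval (y1P T h) (T.th c) - rename Sum.inl (T.th c)

/-- the triple `(Y (y0), Y (y1), x (y0, y1 - y0))` -/
def P3 (T : Cell ι) (A : ND κ) (x : A.PS (ι ⊕ ι)) (h : T.L1 → ℤ) : (pw A (Fin 3)).PS (PI T) :=
  tup ![A.subst (fun c => X (Sum.inl c)) (A.subst (eul T.lev) x),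
    A.subst (y1P T h) (A.subst (eul T.lev) x), A.subst (fixh T h) x]

end

/-- (LIFT) the filtration in which the triple has degree `≤ t` over its first entry -/
def LiftStmt : Prop := ∀ t : ℕ, ∃ C : ℕ, 1 ≤ C ∧ ∀ (m : ℝ), 2 ≤ m →
  ∀ (ι κ : Type) [Fintype ι] [Fintype κ] (T : Cell ι) (A : ND κ) (hd : κ → Bool) (η η' : κ → ℤ)
    (x : A.PS (ι ⊕ ι)) (𝔟 : Submodule ℝ (du (pw A (Fin 2))).L), (Fintype.card κ : ℝ) ≤ m →
    A.Good (t + 2) (Real.exp m) → Bigr A hd → (∀ k, A.wt k ≠ t + 2 → η k = 0) →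
    (∀ k, hd k = false → η k = 0) → (∀ k, η k = ((t : ℤ) + 2) * η' k) → BiH A hd T.lev x →
    SymSub A hd η (t + 2) m 𝔟 →
    NearM (Cs.ofCell T) (pw A (Fin 2)) (t + 2) m 𝔟 (mS A hd) (W2 A hd T.lev x) →
    ∃ (V : ℕ → Submodule ℝ (pw A (Fin 3)).L) (𝔨 : Submodule ℝ (pw A (Fin 3)).L) (q : ℕ)
      (P₀ : (pw A (Fin 3)).PS ι), SFil (pw A (Fin 3)) (t + 2) (m ^ C) V 𝔨 ∧
      (∀ Z ∈ V (t + 1), Z ∈ 𝔨 → Z ∈ (pw A (Fin 3)).F (t + 2) ∧
        A.fn η (pr A ℝ 2 Z) = A.fn η' (pr A ℝ 1 Z)) ∧ 1 ≤ q ∧ (q : ℝ) ≤ Real.exp (m ^ C) ∧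
      ∀ h : T.L1 → ℤ, ∃ (E : (pw A (Fin 3)).PS (ι ⊕ ι)) (P Γ : (pw A (Fin 3)).PS (PI T)),
        E ∈ (pw A (Fin 3)).poly (ι ⊕ ι) ∧ (pw A (Fin 3)).Sm 1 (Real.exp (m ^ C)) E ∧
        (pw A (Fin 3)).RatP q Γ ∧ P ∈ wcf (T.mlev (Fin 1)) V ∧
        P - (pw A (Fin 3)).subst (fun c => X (Sum.inl c)) P₀ ∈ Uo _ 𝔨 ∧
        P3 T A x h = star (t + 2) ((pw A (Fin 3)).subst (thP T h) E) (star (t + 2) P Γ)

/-- (CPF) pointwise removal of smooth and rational factors, for a filtration with an ideal -/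
def CpFStmt : Prop := ∀ S t : ℕ, 1 ≤ S → ∃ C : ℕ, 1 ≤ C ∧ ∀ (m : ℝ), 2 ≤ m →
  ∀ (κ : Type) [Fintype κ] (N : ND κ) (V : ℕ → Submodule ℝ N.L) (𝔨 : Submodule ℝ N.L) (q : ℕ),
    (Fintype.card κ : ℝ) ≤ m → N.Good S (Real.exp m) → SFil N S m V 𝔨 → 1 ≤ q →
    (q : ℝ) ≤ Real.exp m →
    ∃ (r : ℕ) (N' : ND (Fin r)) (κ' : Fin r → Prop) (ψ : N.L →ₗ[ℝ] N'.L) (q' : ℕ),
      (r : ℝ) ≤ m ∧ N'.Good S (Real.exp (m ^ C)) ∧ CoId N' κ' ∧ 1 ≤ q' ∧
      (q' : ℝ) ≤ Real.exp (m ^ C) ∧ (∀ b, ∀ x ∈ V b, ψ x ∈ N'.F b) ∧ (∀ x ∈ 𝔨, On N' κ' (ψ x)) ∧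
      ∀ (σ τ : Type) [Fintype σ] [Fintype τ] (ϑ : τ → Pl σ) (η : κ → ℤ) (F : N.L → ℂ) (E : N.PS τ)
        (P Γ : N.PS σ), (Fintype.card τ : ℝ) ≤ m → N.NChar S S (Real.exp m) η F →
        (∀ Z ∈ V (t + 1), Z ∈ 𝔨 → Z ∈ N.F S ∧ N.fn η Z = 0) → E ∈ N.poly τ →
        N.Sm 1 (Real.exp m) E → N.RatP q Γ → P ∈ Uo σ (V 1) →
        ∃ F' : (σ → ℤ) → N'.L → ℂ, ∀ p₀, (∀ v, |ev p₀ (ϑ v)| ≤ Real.exp m) →
          N'.LipFn S (Real.exp (m ^ C)) (F' p₀) ∧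
          (∀ Z ∈ N'.F (t + 1), On N' κ' Z → ∀ z, F' p₀ (star S Z z) = F' p₀ z) ∧
          ∀ (p : σ → ℤ) (ρ : ℝ), 0 ≤ ρ → (∀ v, |ev p (ϑ v)| ≤ Real.exp m) →
            (∀ v, |ev p (ϑ v) - ev p₀ (ϑ v)| ≤ ρ) → (∀ c, (q' : ℤ) ∣ p c - p₀ c) →
            ‖F (N.evZ p (star S (N.subst ϑ E) (star S P Γ))) -
              F' p₀ (N'.evZ p (bcl ψ _ P))‖ ≤ Real.exp (m ^ C) * ρ

/-- (CHEAP) localisation to a small window and a residue class costs a cheap phase -/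
def CheapStmt : Prop := ∀ l : ℕ, ∃ D C : ℕ, 1 ≤ C ∧ ∀ (ι : Type) [Fintype ι] (T : Cell ι) (m : ℝ),
  Ok T l D m (m ^ C) → ∀ (a Φ : (ι → ℤ) → ℂ) (G : (ι → ℤ) → (ι → ℤ) → ℂ) (q : ℕ), 1 ≤ q →
    (q : ℝ) ≤ Real.exp m → (∀ z, ‖a z‖ ≤ 1) → (∀ z, ‖Φ z‖ ≤ 1) → (∀ z₀ z, ‖G z₀ z‖ ≤ 1) →
    (∀ (z₀ z : ι → ℤ) (ρ : ℝ), 0 ≤ ρ → (∀ c, |ev z₀ (T.th c)| ≤ m) → (∀ c, |ev z (T.th c)| ≤ m) →
      (∀ c, |ev z (T.th c) - ev z₀ (T.th c)| ≤ ρ) → (∀ c, (q : ℤ) ∣ z c - z₀ c) →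
      ‖Φ z - G z₀ z‖ ≤ Real.exp m * ρ) → Cor T m a Φ →
    ∃ z₀ φ, (∀ c, |ev z₀ (T.th c)| ≤ m) ∧ Chp T (m ^ C) φ ∧
      Cor T (m ^ C) (fun z => a z * φ z) (G z₀)

/-! ### the states and the steps -/

/-- `StB` with a divisible frequency -/
def StB1 (t : ℕ) : Pr := fun m _ _ T f =>
  ∃ (κ : Type) (_ : Fintype κ) (A : ND κ), ∃ hd η x F φ b H, FamB t m T f A hd η x F φ b H ∧
    ∀ k, ((t : ℤ) + 2) ∣ η k

/-- after the symmetry argument -/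
def StC (t : ℕ) : Pr := fun m _ _ T f =>
  ∃ (κ : Type) (_ : Fintype κ) (A : ND κ), ∃ hd η x F φ b H, FamB t m T f A hd η x F φ b H ∧
    (∀ k, ((t : ℤ) + 2) ∣ η k) ∧ ∃ 𝔟, SymSub A hd η (t + 2) m 𝔟 ∧
      NearM (Cs.ofCell T) (pw A (Fin 2)) (t + 2) m 𝔟 (mS A hd) (W2 A hd T.lev x)

def RescStmt : Prop := ∀ l t, Imp l (StB t) (StB1 t)
def SymStepStmt : Prop := ∀ l t, Imp l (StB1 t) (StC t)
def IntStmt : Prop := ∀ l t, Imp l (StC t) (StE t)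

theorem block_of (h1 : RescStmt) (h2 : SymStepStmt) (h3 : IntStmt) : BlockStmt :=
  fun l t => (h1 l t).trans ((h2 l t).trans (h3 l t))

end Crest.Agent.T49.Sy
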