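import Crest.Agent.T49.RngDef_63
import Crest.Agent.T49.TwPoly_91

/-! # Row 49 (helper63): algebra of `hev`, coefficientwise functionals, leading terms -/

set_option autoImplicit false

open MvPolynomial

namespace Crest.Agent.T49.Rng
open Tw

section Grade
variable {ι B : Type} [CommRing B] [Algebra ℝ B]

theorem pow_mem_grade {s : ℕ} {E : ℕ → Submodule ℝ B} (h1 : (1 : B) ∈ E 0)
    (hm : ∀ i j, i + j ≤ s → ∀ x ∈ E i, ∀ y ∈ E j, x * y ∈ E (i + j)) {x : B} {a : ℕ}
    (hx : x ∈ E a) (k : ℕ) (hk : k * a ≤ s) : x ^ k ∈ E (k * a) := by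
  induction k with
  | zero => simpa using h1
  | succ k ih =>
    rw [pow_succ, Nat.succ_mul]
    rw [Nat.succ_mul] at hk
    exact hm _ _ hk _ (ih (by omega)) _ hx

theorem prod_mem_grade {s : ℕ} {E : ℕ → Submodule ℝ B} (h1 : (1 : B) ∈ E 0)
    (hm : ∀ i j, i + j ≤ s → ∀ x ∈ E i, ∀ y ∈ E j, x * y ∈ E (i + j)) {α : Type*}
    (t : Finset α) (x : α → B) (a : α → ℕ) (hx : ∀ i ∈ t, x i ∈ E (a i))
    (hk : ∑ i ∈ t, a i ≤ s) : ∏ i ∈ t, x i ∈ E (∑ i ∈ t, a i) := by
  classical
  induction t using Finset.induction_on with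
  | empty => simpa using h1
  | insert i t hi ih =>
    rw [Finset.prod_insert hi, Finset.sum_insert hi]
    rw [Finset.sum_insert hi] at hk
    exact hm _ _ hk _ (hx i (Finset.mem_insert_self _ _)) _
      (ih (fun j hj => hx j (Finset.mem_insert_of_mem hj)) (by omega))

theorem aeval_mem_grade {s : ℕ} {E : ℕ → Submodule ℝ B} (h1 : (1 : B) ∈ E 0)
    (hm : ∀ i j, i + j ≤ s → ∀ x ∈ E i, ∀ y ∈ E j, x * y ∈ E (i + j)) {lev : ι → ℕ} {w : ι → B}
    {f : Pl ι} (hw : ∀ m ∈ f.support, ∀ c ∈ m.support, w c ∈ E (lev c)) {d : ℕ} (hd : d ≤ s)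
    (hf : IsWeightedHomogeneous lev f d) : aeval w f ∈ E d := by
  classical
  rw [f.as_sum, map_sum]
  refine Submodule.sum_mem _ fun m hmm => ?_
  have hwt : Finsupp.weight lev m = d := hf (mem_support_iff.1 hmm)
  rw [Finsupp.weight_apply, Finsupp.sum] at hwt
  simp only [smul_eq_mul] at hwt
  rw [aeval_monomial, ← Algebra.smul_def]
  refine Submodule.smul_mem _ _ ?_
  rw [Finsupp.prod, ← hwt]
  refine prod_mem_grade h1 hm _ _ _ (fun c hc => ?_) (hwt ▸ hd)
  refine pow_mem_grade h1 hm (hw m hmm c hc) _ (le_trans ?_ (hwt ▸ hd))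
  exact Finset.single_le_sum (f := fun c => m c * lev c) (fun _ _ => Nat.zero_le _) hc

theorem support_whc_subset {M : Type*} [AddCommMonoid M] {R : Type*} [CommSemiring R]
    (w : ι → M) (d : M) (f : MvPolynomial ι R) :
    (weightedHomogeneousComponent w d f).support ⊆ f.support := by
  classical
  rw [support_weightedHomogeneousComponent]
  exact Finset.filter_subset _ _

theorem hev_mem_grade {s : ℕ} {E : ℕ → Submodule ℝ B} (h1 : (1 : B) ∈ E 0)
    (hm : ∀ i j, i + j ≤ s → ∀ x ∈ E i, ∀ y ∈ E j, x * y ∈ E (i + j)) {lev : ι → ℕ} {w : ι → B}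
    {t0 : B} (ht : t0 ∈ E 1) {f : Pl ι}
    (hw : ∀ m ∈ f.support, ∀ c ∈ m.support, w c ∈ E (lev c)) {l : ℕ} (hl : l ≤ s) :
    hev lev t0 w l f ∈ E l := by
  refine Submodule.sum_mem _ fun d hd => ?_
  have hd' : d ≤ l := Nat.lt_succ_iff.1 (Finset.mem_range.1 hd)
  have e1 := pow_mem_grade h1 hm ht (l - d) (by omega)
  have e2 := aeval_mem_grade h1 hm (lev := lev) (w := w)
    (f := weightedHomogeneousComponent lev d f)
    (fun m hmm => hw m (support_whc_subset _ _ _ hmm)) (hd'.trans hl)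
    (weightedHomogeneousComponent_isWeightedHomogeneous d f)
  have := hm _ _ (by omega) _ e1 _ e2
  rwa [show (l - d) * 1 + d = l by omega] at this

theorem hev_map {B' : Type} [CommRing B'] [Algebra ℝ B'] (φ : B →ₐ[ℝ] B') (lev : ι → ℕ) (t0 : B)
    (w : ι → B) (l : ℕ) (f : Pl ι) :
    φ (hev lev t0 w l f) = hev lev (φ t0) (fun c => φ (w c)) l f := by
  unfold hev
  rw [map_sum]
  refine Finset.sum_congr rfl fun d _ => ?_
  rw [map_mul, map_pow, comp_aeval_apply]

theorem hev_add (lev : ι → ℕ) (t0 : B) (w : ι → B) (l : ℕ) (f g : Pl ι) :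
    hev lev t0 w l (f + g) = hev lev t0 w l f + hev lev t0 w l g := by
  unfold hev
  rw [← Finset.sum_add_distrib]
  refine Finset.sum_congr rfl fun d _ => ?_
  rw [map_add, map_add, mul_add]

theorem hev_of_hom (lev : ι → ℕ) (t0 : B) (w : ι → B) {l : ℕ} {f : Pl ι}
    (hf : IsWeightedHomogeneous lev f l) : hev lev t0 w l f = aeval w f := by
  unfold hev
  rw [Finset.sum_eq_single l]
  · rw [weightedHomogeneousComponent_eq_self hf]; simp
  · intro d _ hd
    rw [hf.weightedHomogeneousComponent_ne d hd]; simp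
  · intro h; simp at h

theorem sum_whc_of_degLe {lev : ι → ℕ} {l : ℕ} {f : Pl ι} (hf : DegLe lev f l) :
    ∑ d ∈ Finset.range (l + 1), weightedHomogeneousComponent lev d f = f := by
  classical
  ext m
  rw [coeff_sum]
  simp only [coeff_weightedHomogeneousComponent]
  rw [Finset.sum_ite_eq]
  split_ifs with h
  · rfl
  · by_contra h2
    exact h (Finset.mem_range.2 (Nat.lt_succ_of_le (hf m (mem_support_iff.2 (Ne.symm h2)))))

theorem hev_one (lev : ι → ℕ) (w : ι → B) {l : ℕ} {f : Pl ι} (hf : DegLe lev f l) :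
    hev lev 1 w l f = aeval w f := by
  unfold hev
  simp only [one_pow, one_mul]
  rw [← map_sum, sum_whc_of_degLe hf]

theorem hev_zero (lev : ι → ℕ) (w : ι → B) (l : ℕ) (f : Pl ι) :
    hev lev 0 w l f = aeval w (weightedHomogeneousComponent lev l f) := by
  unfold hev
  rw [Finset.sum_eq_single l]
  · simp
  · intro d hd hne
    have : l - d ≠ 0 := by have := Finset.mem_range.1 hd; omega
    simp [this]
  · intro h; simp at h

theorem hom_CX (T : Cell ι) (c : ι) :
    IsWeightedHomogeneous T.lev (C (T.a c) * X c : Pl ι) (T.lev c) :=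
  (isWeightedHomogeneous_X ℝ T.lev c).C_mul _

theorem hev_th (T : Cell ι) (t0 : B) (w : ι → B) (c : ι) :
    hev T.lev t0 w (T.lev c) (T.th c) = T.a c • w c + hev T.lev t0 w (T.lev c) (T.B c) := by
  rw [Tri.th, hev_add, hev_of_hom _ _ _ (hom_CX T c), map_mul, aeval_C, aeval_X, Algebra.smul_def]

theorem degLe_th (T : Cell ι) (c : ι) : DegLe T.lev (T.th c) (T.lev c) := by
  classical
  intro m hm
  rcases Finset.mem_union.1 (support_add hm) with h | h
  · exact (hom_CX T c (mem_support_iff.1 h)).le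
  · exact T.deg c m h

end Grade

section Coef
variable {κ A : Type} [CommRing A] [Algebra ℝ A]

/-- apply a real functional to all coefficients -/
noncomputable def coP (φ : A →ₗ[ℝ] ℝ) : MvPolynomial κ A →ₗ[ℝ] Pl κ where
  toFun p := ∑ m ∈ p.support, monomial m (φ (coeff m p))
  map_add' p q := by
    classical
    ext m
    simp only [coeff_add, coeff_sum, coeff_monomial, Finset.sum_ite_eq', mem_support_iff]
    by_cases h1 : coeff m p = 0 <;> by_cases h2 : coeff m q = 0 <;>
      by_cases h3 : coeff m p + coeff m q = 0 <;> simp [h1, h2, h3]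
    rw [← map_add, h3, map_zero]
  map_smul' r p := by
    classical
    ext m
    simp only [coeff_smul, coeff_sum, coeff_monomial, Finset.sum_ite_eq', mem_support_iff,
      RingHom.id_apply]
    by_cases h1 : coeff m p = 0 <;> by_cases h3 : r • coeff m p = 0 <;> simp [h1, h3]
    rw [← mul_eq_zero, ← smul_eq_mul, ← map_smul, h3, map_zero]

theorem coeff_coP (φ : A →ₗ[ℝ] ℝ) (p : MvPolynomial κ A) (m : κ →₀ ℕ) :
    coeff m (coP φ p) = φ (coeff m p) := by
  classical
  show coeff m (∑ m ∈ p.support, monomial m (φ (coeff m p))) = _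
  simp only [coeff_sum, coeff_monomial, Finset.sum_ite_eq', mem_support_iff]
  split_ifs with h
  · rfl
  · rw [not_not.1 h, map_zero]

theorem coP_monomial (φ : A →ₗ[ℝ] ℝ) (m : κ →₀ ℕ) (a : A) :
    coP φ (monomial m a) = monomial m (φ a) := by
  classical
  ext n
  rw [coeff_coP, coeff_monomial, coeff_monomial]
  split_ifs <;> simp

theorem support_coP (φ : A →ₗ[ℝ] ℝ) (p : MvPolynomial κ A) : (coP φ p).support ⊆ p.support := by
  intro m hm
  rw [mem_support_iff] at hm ⊢
  intro h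
  rw [coeff_coP, h, map_zero] at hm
  exact hm rfl

theorem coP_C_mul_map (φ : A →ₗ[ℝ] ℝ) (y : A) (f : Pl κ) :
    coP φ (C y * map (algebraMap ℝ A) f) = C (φ y) * f := by
  ext m
  rw [coeff_coP, coeff_C_mul, coeff_C_mul, coeff_map, mul_comm, ← Algebra.smul_def, map_smul,
    smul_eq_mul, mul_comm]

theorem coP_whc (φ : A →ₗ[ℝ] ℝ) (w : κ → ℕ) (d : ℕ) (p : MvPolynomial κ A) :
    weightedHomogeneousComponent w d (coP φ p) = coP φ (weightedHomogeneousComponent w d p) := by
  classical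
  ext m
  rw [coeff_coP, coeff_weightedHomogeneousComponent, coeff_weightedHomogeneousComponent, coeff_coP]
  split_ifs <;> simp

/-- evaluation of a polynomial with coefficients in `A` at an integer point -/
noncomputable def evA (z : κ → ℤ) : MvPolynomial κ A →ₐ[ℝ] A :=
  (aeval (R := A) fun c => (z c : A)).restrictScalars ℝ

theorem evA_monomial (z : κ → ℤ) (m : κ →₀ ℕ) (a : A) :
    evA z (monomial m a) = (∏ c ∈ m.support, (z c : ℝ) ^ m c) • a := by
  show aeval (R := A) (fun c => (z c : A)) (monomial m a) = _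
  rw [aeval_monomial, Algebra.smul_def, Finsupp.prod, mul_comm]
  simp

theorem ev_coP (φ : A →ₗ[ℝ] ℝ) (z : κ → ℤ) (p : MvPolynomial κ A) :
    ev z (coP φ p) = φ (evA z p) := by
  rw [p.as_sum, map_sum, map_sum, map_sum, ev_sum]
  refine Finset.sum_congr rfl fun m _ => ?_
  rw [coP_monomial, evA_monomial, map_smul, ev, eval_monomial, Finsupp.prod, smul_eq_mul, mul_comm]

theorem evA_C (z : κ → ℤ) (a : A) : evA z (C a : MvPolynomial κ A) = a := by
  show aeval (R := A) (fun c => (z c : A)) (C a) = _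
  simp

theorem evA_X (z : κ → ℤ) (c : κ) : evA z (X c : MvPolynomial κ A) = (z c : A) := by
  show aeval (R := A) (fun c => (z c : A)) (X c) = _
  simp

/-- polynomials all of whose monomials have a weight with property `p` -/
def wtSub (w : κ → ℕ) (p : ℕ → Prop) : Submodule ℝ (MvPolynomial κ A) where
  carrier := {f | ∀ m ∈ f.support, p (Finsupp.weight w m)}
  add_mem' := by
    classical
    intro f g hf hg m hm
    rcases Finset.mem_union.1 (support_add hm) with h | h
    exacts [hf m h, hg m h]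
  zero_mem' := by intro m hm; simp at hm
  smul_mem' := fun r f hf m hm => hf m (support_smul hm)

theorem wtSub_mul {w : κ → ℕ} {p q r : ℕ → Prop} (h : ∀ a b, p a → q b → r (a + b))
    {f g : MvPolynomial κ A} (hf : f ∈ wtSub w p) (hg : g ∈ wtSub w q) : f * g ∈ wtSub w r := by
  classical
  intro m hm
  obtain ⟨x, hx, y, hy, rfl⟩ := Finset.mem_add.1 (support_mul f g hm)
  rw [map_add]
  exact h _ _ (hf x hx) (hg y hy)

theorem wtSub_mono {w : κ → ℕ} {p q : ℕ → Prop} (h : ∀ a, p a → q a)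
    {f : MvPolynomial κ A} (hf : f ∈ wtSub w p) : f ∈ wtSub w q := fun m hm => h _ (hf m hm)

theorem C_mem_wtSub {w : κ → ℕ} {p : ℕ → Prop} (h : p 0) (a : A) :
    (C a : MvPolynomial κ A) ∈ wtSub w p := by
  intro m hm
  have := support_monomial_subset (s := (0 : κ →₀ ℕ)) (a := a) hm
  rw [Finset.mem_singleton.1 this, map_zero]
  exact h

theorem X_mem_wtSub {w : κ → ℕ} {p : ℕ → Prop} {c : κ} (h : p (w c)) :
    (X c : MvPolynomial κ A) ∈ wtSub w p := by
  intro m hm
  have := support_monomial_subset (s := Finsupp.single c 1) (a := (1 : A)) hm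
  rw [Finset.mem_singleton.1 this]
  simpa [Finsupp.weight_apply] using h

/-- pairs (polynomial, leading term of weight `d`) -/
noncomputable def ltSub (w : κ → ℕ) (d : ℕ) : Submodule ℝ (MvPolynomial κ A × MvPolynomial κ A) :=
  (wtSub w (· = d)).comap (LinearMap.snd ℝ _ _) ⊓
    (wtSub w (· < d)).comap (LinearMap.fst ℝ _ _ - LinearMap.snd ℝ _ _)

theorem mem_ltSub {w : κ → ℕ} {d : ℕ} {x : MvPolynomial κ A × MvPolynomial κ A} :
    x ∈ ltSub w d ↔ x.2 ∈ wtSub w (· = d) ∧ x.1 - x.2 ∈ wtSub w (· < d) := Iff.rfl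

theorem one_mem_ltSub (w : κ → ℕ) :
    (1 : MvPolynomial κ A × MvPolynomial κ A) ∈ ltSub w 0 := by
  rw [mem_ltSub]
  refine ⟨C_mem_wtSub (A := A) (w := w) (p := (· = 0)) rfl 1, ?_⟩
  simp

theorem mul_mem_ltSub (w : κ → ℕ) (i j : ℕ) (x : MvPolynomial κ A × MvPolynomial κ A)
    (hx : x ∈ ltSub w i) (y : MvPolynomial κ A × MvPolynomial κ A) (hy : y ∈ ltSub w j) :
    x * y ∈ ltSub w (i + j) := by
  rw [mem_ltSub] at hx hy ⊢
  refine ⟨wtSub_mul (fun a b ha hb => by omega) hx.1 hy.1, ?_⟩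
  have : (x * y).1 - (x * y).2 =
      (x.1 - x.2) * (y.1 - y.2) + (x.1 - x.2) * y.2 + x.2 * (y.1 - y.2) := by
    simp only [Prod.fst_mul, Prod.snd_mul]; ring
  rw [this]
  exact add_mem (add_mem (wtSub_mul (fun a b ha hb => by omega) hx.2 hy.2)
    (wtSub_mul (fun a b ha hb => by omega) hx.2 hy.1))
    (wtSub_mul (fun a b ha hb => by omega) hx.1 hy.2)

theorem ltSub_whc {w : κ → ℕ} {d : ℕ} {x : MvPolynomial κ A × MvPolynomial κ A}
    (hx : x ∈ ltSub w d) : weightedHomogeneousComponent w d x.1 = x.2 := by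
  classical
  rw [mem_ltSub] at hx
  ext m
  rw [coeff_weightedHomogeneousComponent]
  split_ifs with h
  · by_contra h2
    have := hx.2 m (mem_support_iff.2 (by rw [coeff_sub]; exact sub_ne_zero.2 h2))
    omega
  · by_contra h2
    exact h (hx.1 m (mem_support_iff.2 (Ne.symm h2)))

theorem ltSub_le {w : κ → ℕ} {d : ℕ} {x : MvPolynomial κ A × MvPolynomial κ A}
    (hx : x ∈ ltSub w d) : x.1 ∈ wtSub w (· ≤ d) := by
  rw [mem_ltSub] at hx
  have : x.1 = x.2 + (x.1 - x.2) := by ring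
  rw [this]
  exact add_mem (wtSub_mono (fun a h => h.le) hx.1) (wtSub_mono (fun a h => h.le) hx.2)

/-- leading term of a homogenised evaluation -/
theorem hev_mem_ltSub {ι : Type} (lev : ι → ℕ) (w' : κ → ℕ) (t0 : A) (W W0 : ι → MvPolynomial κ A)
    (hW : ∀ c, (W c, W0 c) ∈ ltSub w' (lev c)) (l : ℕ) (f : Pl ι) :
    (hev lev (C t0) W l f, aeval W0 (weightedHomogeneousComponent lev l f)) ∈ ltSub w' l := by
  have ht : ((C t0 : MvPolynomial κ A), (0 : MvPolynomial κ A)) ∈ ltSub w' 1 := by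
    rw [mem_ltSub]
    exact ⟨zero_mem _, by simpa using C_mem_wtSub (A := A) (w := w') (p := (· < 1)) one_pos t0⟩
  have h := hev_mem_grade (s := l) (E := ltSub (A := A) w') (one_mem_ltSub w')
    (fun i j _ => mul_mem_ltSub w' i j) (lev := lev) (w := fun c => (W c, W0 c)) ht (f := f)
    (fun _ _ c _ => hW c) le_rfl
  have e1 := hev_map (AlgHom.fst ℝ (MvPolynomial κ A) (MvPolynomial κ A)) lev (C t0, 0)
    (fun c => (W c, W0 c)) l f
  have e2 := hev_map (AlgHom.snd ℝ (MvPolynomial κ A) (MvPolynomial κ A)) lev (C t0, 0)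
    (fun c => (W c, W0 c)) l f
  simp only [AlgHom.fst_apply, AlgHom.snd_apply] at e1 e2
  rw [hev_zero] at e2
  rw [← e1, ← e2]
  exact h

/-- substitution commutes with `coP` -/
theorem bind_coP {ι : Type} (φ : A →ₗ[ℝ] ℝ) (g : κ → Pl ι) (p : MvPolynomial κ A) :
    bind₁ g (coP φ p) = coP φ (bind₁ (fun c => map (algebraMap ℝ A) (g c)) p) := by
  rw [p.as_sum, map_sum, map_sum, map_sum, map_sum]
  refine Finset.sum_congr rfl fun m _ => ?_
  rw [coP_monomial, bind₁_monomial, bind₁_monomial]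
  simp only [← map_pow, ← map_prod]
  rw [coP_C_mul_map]

/-- weighted dilation by a ring element -/
theorem aeval_dil {ι : Type} (lev : ι → ℕ) (a : A) {l : ℕ} {f : Pl ι}
    (hf : IsWeightedHomogeneous lev f l) :
    aeval (fun c => (C (a ^ lev c) * X c : MvPolynomial ι A)) f =
      C (a ^ l) * map (algebraMap ℝ A) f := by
  classical
  conv_lhs => rw [f.as_sum, map_sum]
  conv_rhs => rw [f.as_sum, map_sum, Finset.mul_sum]
  refine Finset.sum_congr rfl fun m hm => ?_
  have hwt : Finsupp.weight lev m = l := hf (mem_support_iff.1 hm)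
  rw [Finsupp.weight_apply, Finsupp.sum] at hwt
  simp only [smul_eq_mul] at hwt
  rw [aeval_monomial, map_monomial, monomial_eq, Finsupp.prod, Finsupp.prod, ← hwt]
  simp only [mul_pow, Finset.prod_mul_distrib, ← map_pow, ← map_prod, ← pow_mul]
  rw [← Finset.prod_pow_eq_pow_sum, MvPolynomial.algebraMap_apply]
  simp only [mul_comm (m _) (lev _)]
  ring

end Coef

end Crest.Agent.T49.Rng
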