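import Crest.Agent.T49.RngAlg_63

/-! # Row 49 (helper63): triangular bases, the cell `T(A)` and its mass -/

set_option autoImplicit false

open MvPolynomial

namespace Crest.Agent.T49.Rng
open Tw

/-- triangular basis of a lattice for a Euclidean window -/
structure TB {A F : Type} [AddCommGroup A] [Module ℝ A] [NormedAddCommGroup F]
    [InnerProductSpace ℝ F] (L : Submodule ℤ A) (Q : A →ₗ[ℝ] F) (K : ℝ) (β : Type) [Fintype β] where
  v : β → A
  co : β → A →ₗ[ℝ] ℝ
  pos : β → ℕ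
  mem : ∀ j, v j ∈ L
  gen : ∀ y ∈ L, ∃ z : β → ℤ, y = ∑ j, z j • v j
  nrm : ∀ y ∈ Submodule.span ℝ (L : Set A), ‖Q y‖ ^ 2 = ∑ j, co j y ^ 2
  tri : ∀ i j, co j (v i) ≠ 0 → i = j ∨ pos i < pos j
  ne : ∀ j, co j (v j) ≠ 0
  le : ∀ j, |co j (v j)| ≤ K

namespace TB
variable {A F : Type} [AddCommGroup A] [Module ℝ A] [NormedAddCommGroup F]
  [InnerProductSpace ℝ F] {L : Submodule ℤ A} {Q : A →ₗ[ℝ] F} {K : ℝ} {β : Type} [Fintype β]
  (b : TB L Q K β)

theorem sep {ξ : β → ℝ} (h : ∀ i, ∑ j, ξ j * b.co j (b.v i) = 0) : ξ = 0 := by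
  classical
  by_contra hne
  have hS : (Finset.univ.filter fun j => ξ j ≠ 0).Nonempty := by
    obtain ⟨j, hj⟩ := Function.ne_iff.1 hne
    exact ⟨j, by simpa using hj⟩
  obtain ⟨i, hi, hmax⟩ := Finset.exists_max_image _ b.pos hS
  have hi' : ξ i ≠ 0 := by simpa using hi
  have := h i
  rw [Finset.sum_eq_single i] at this
  · exact mul_ne_zero hi' (b.ne i) this
  · intro j _ hj
    by_contra h2
    rcases b.tri i j (right_ne_zero_of_mul h2) with h3 | h3
    · exact hj h3.symm
    · have := hmax j (by simpa using left_ne_zero_of_mul h2)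
      omega
  · simp

theorem indep : LinearIndependent ℝ b.v := by
  classical
  rw [Fintype.linearIndependent_iff]
  intro x hx
  by_contra hne
  have hS : (Finset.univ.filter fun j => x j ≠ 0).Nonempty := by
    obtain ⟨j, hj⟩ := not_forall.1 hne
    exact ⟨j, by simpa using hj⟩
  obtain ⟨j, hj, hmin⟩ := Finset.exists_min_image _ b.pos hS
  have hj' : x j ≠ 0 := by simpa using hj
  have := congrArg (b.co j) hx
  rw [map_sum, map_zero, Finset.sum_eq_single j] at this
  · rw [map_smul, smul_eq_mul] at this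
    exact mul_ne_zero hj' (b.ne j) this
  · intro i _ hi
    rw [map_smul, smul_eq_mul]
    by_contra h2
    rcases b.tri i j (right_ne_zero_of_mul h2) with h3 | h3
    · exact hi h3
    · have := hmin i (by simpa using left_ne_zero_of_mul h2)
      omega
  · simp

theorem span_eq : Submodule.span ℝ (Set.range b.v) = Submodule.span ℝ (L : Set A) := by
  refine le_antisymm (Submodule.span_mono ?_) (Submodule.span_le.2 fun y hy => ?_)
  · rintro _ ⟨j, rfl⟩; exact b.mem j
  · obtain ⟨z, rfl⟩ := b.gen y hy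
    refine Submodule.sum_mem _ fun j _ => ?_
    rw [← Int.cast_smul_eq_zsmul ℝ]
    exact Submodule.smul_mem _ _ (Submodule.subset_span ⟨j, rfl⟩)

include b in
theorem finrank_eq : Module.finrank ℝ (Submodule.span ℝ (L : Set A)) = Fintype.card β := by
  rw [← b.span_eq, finrank_span_eq_card b.indep]

include b in
theorem card_le {δ : Type} [Fintype δ] (g : δ → A)
    (h : Submodule.span ℝ (L : Set A) ≤ Submodule.span ℝ (Set.range g)) :
    Fintype.card β ≤ Fintype.card δ := by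
  rw [← b.finrank_eq]
  have : Module.Finite ℝ (Submodule.span ℝ (Set.range g)) :=
    Module.Finite.span_of_finite ℝ (Set.finite_range g)
  exact (Submodule.finrank_mono h).trans (finrank_range_le_card g)

theorem abs_co_le {y : A} (hy : y ∈ Submodule.span ℝ (L : Set A)) (j : β) :
    |b.co j y| ≤ ‖Q y‖ := by
  refine abs_le_of_sq_le_sq' ?_ (norm_nonneg _) |> abs_le.2
  rw [b.nrm y hy]
  exact Finset.single_le_sum (f := fun j => b.co j y ^ 2) (fun _ _ => sq_nonneg _)
    (Finset.mem_univ j)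

/-- integer coordinates -/
noncomputable def eqv : (β → ℤ) ≃ L :=
  Equiv.ofBijective (fun z => ⟨∑ j, z j • b.v j,
    Submodule.sum_mem _ fun j _ => Submodule.smul_mem _ _ (b.mem j)⟩) (by
    constructor
    · intro z z' h
      have h1 : ∑ j, z j • b.v j = ∑ j, z' j • b.v j := congrArg Subtype.val h
      have h2 : ∑ j, ((z j : ℝ) - z' j) • b.v j = 0 := by
        simp only [sub_smul, Finset.sum_sub_distrib, Int.cast_smul_eq_zsmul]
        exact sub_eq_zero.2 h1
      funext j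
      have := Fintype.linearIndependent_iff.1 b.indep _ h2 j
      exact_mod_cast sub_eq_zero.1 this
    · intro y
      obtain ⟨z, hz⟩ := b.gen y y.2
      exact ⟨z, Subtype.ext hz.symm⟩)

theorem eqv_apply (z : β → ℤ) : (b.eqv z : A) = ∑ j, z j • b.v j := rfl

/-- reciprocal covolume -/
noncomputable def vol : ℝ := ∏ j, |b.co j (b.v j)|⁻¹

theorem vol_pos : 0 < b.vol := Finset.prod_pos fun j _ => inv_pos.2 (abs_pos.2 (b.ne j))

end TB

theorem mem_supported_of_wt {κ : Type} {S : Set κ} [DecidablePred (· ∈ S)] {f : Pl κ}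
    (h : ∀ m ∈ f.support, Finsupp.weight (fun x => if x ∈ S then 0 else 1) m = 0) :
    f ∈ supported ℝ S := by
  classical
  rw [mem_supported]
  intro x hx
  obtain ⟨m, hm, hxm⟩ := (mem_vars_iff_mem_support _).1 hx
  have h1 := weight_pos_le (fun x => if x ∈ S then 0 else 1) m hxm
  rw [h m hm] at h1
  by_contra h2
  simp [h2] at h1

theorem supp_of_mem_supported {κ : Type} {S : Set κ} {f : Pl κ} (h : f ∈ supported ℝ S)
    {m : κ →₀ ℕ} (hm : m ∈ f.support) {c : κ} (hc : c ∈ m.support) : c ∈ S := by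
  classical
  exact mem_supported.1 h ((mem_vars_iff_mem_support _).2 ⟨m, hm, hc⟩)

namespace Rg
variable {s : ℕ} {A F : Type} [CommRing A] [Algebra ℝ A] [NormedAddCommGroup F]
  [InnerProductSpace ℝ F] (R : Rg s A F) {ι : Type} [Fintype ι] (T : Cell ι) {K : ℝ}
  {β : ι → Type} [∀ c, Fintype (β c)]
  (tb : ∀ c, TB (R.L (T.lev c)) (R.Q (T.lev c)) K (β c)) (o : Off ι A)

/-- generic point of the lattice -/
noncomputable def W0 (c : ι) : MvPolynomial (Σ c, β c) A := ∑ j, C ((tb c).v j) * X ⟨c, j⟩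

/-- generic centred window coordinate -/
noncomputable def Thp (c : ι) : MvPolynomial (Σ c, β c) A :=
  hev T.lev (C R.t0) (fun c => C (o.r c) + R.W0 T tb c) (T.lev c) (T.th c) - C (o.cen c)

/-- bound for the positions -/
def N0 : ℕ := (∑ x : Σ c, β c, (tb x.1).pos x.2) + 1

theorem pos_lt (x : Σ c, β c) : (tb x.1).pos x.2 < R.N0 T tb :=
  Nat.lt_succ_of_le (Finset.single_le_sum (f := fun x : Σ c, β c => (tb x.1).pos x.2)
    (fun _ _ => Nat.zero_le _) (Finset.mem_univ x))

omit [Fintype ι] in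
theorem W0_mem {w : (Σ c, β c) → ℕ} {p : ℕ → Prop} {c : ι} (h : ∀ j, p (w ⟨c, j⟩)) :
    R.W0 T tb c ∈ wtSub w p :=
  Submodule.sum_mem _ fun j _ => wtSub_mul (p := (· = 0)) (q := (· = w ⟨c, j⟩))
    (fun a b ha hb => by subst ha hb; simpa using h j) (C_mem_wtSub (p := (· = 0)) rfl _)
    (X_mem_wtSub (p := (· = w ⟨c, j⟩)) rfl)

omit [Fintype ι] in
theorem W_lt (c : ι) : (C (o.r c) + R.W0 T tb c, R.W0 T tb c) ∈
    ltSub (fun x : Σ c, β c => T.lev x.1) (T.lev c) := by
  rw [mem_ltSub]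
  refine ⟨R.W0_mem T tb fun j => rfl, ?_⟩
  simpa using C_mem_wtSub (A := A) (w := fun x : Σ c, β c => T.lev x.1) (p := (· < T.lev c))
    (T.lev_pos c) (o.r c)

omit [Fintype ι] in
theorem Thp_lt (c : ι) : (R.Thp T tb o c, aeval (R.W0 T tb) (T.tth c)) ∈
    ltSub (fun x : Σ c, β c => T.lev x.1) (T.lev c) := by
  have h := hev_mem_ltSub T.lev (fun x : Σ c, β c => T.lev x.1) R.t0 _ _ (R.W_lt T tb o)
    (T.lev c) (T.th c)
  have h2 : ((C (o.cen c) : MvPolynomial (Σ c, β c) A), (0 : MvPolynomial (Σ c, β c) A)) ∈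
      ltSub (fun x : Σ c, β c => T.lev x.1) (T.lev c) := by
    rw [mem_ltSub]
    exact ⟨zero_mem _, by
      simpa using C_mem_wtSub (A := A) (w := fun x : Σ c, β c => T.lev x.1)
        (p := (· < T.lev c)) (T.lev_pos c) (o.cen c)⟩
  have := sub_mem h h2
  simpa [Thp, Cell.tth, Cell.top] using this

omit [Fintype ι] in
theorem coP_W0 (φ : A →ₗ[ℝ] ℝ) (c : ι) :
    coP φ (R.W0 T tb c) = ∑ j, C (φ ((tb c).v j)) * X ⟨c, j⟩ := by
  rw [W0, map_sum]
  refine Finset.sum_congr rfl fun j _ => ?_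
  rw [← coP_C_mul_map, map_X]

omit [Fintype ι] [∀ c, Fintype (β c)] in
theorem coP_C (φ : A →ₗ[ℝ] ℝ) (y : A) : coP φ (C y : MvPolynomial (Σ c, β c) A) = C (φ y) :=
  coP_monomial φ 0 y

/-- the cell of `A`-points -/
noncomputable def cell : Cell (Σ c, β c) where
  rk x := T.rk x.1 * R.N0 T tb + (tb x.1).pos x.2
  a x := T.a x.1 * (tb x.1).co x.2 ((tb x.1).v x.2)
  B x := coP ((tb x.1).co x.2) (R.Thp T tb o x.1) -
    C (T.a x.1 * (tb x.1).co x.2 ((tb x.1).v x.2)) * X x
  a_ne x := mul_ne_zero (T.a_ne _) ((tb x.1).ne _)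
  B_mem := by
    classical
    rintro ⟨c, j⟩
    dsimp only
    set S : Set (Σ c, β c) := {x | T.rk x.1 * R.N0 T tb + (tb x.1).pos x.2 <
      T.rk c * R.N0 T tb + (tb c).pos j} with hS
    have hB : coP ((tb c).co j) (hev T.lev (C R.t0) (fun c => C (o.r c) + R.W0 T tb c) (T.lev c)
        (T.B c)) ∈ supported ℝ S := by
      refine mem_supported_of_wt fun m hm => ?_
      have h := hev_mem_grade (s := T.lev c)
        (E := fun _ => wtSub (A := A) (fun x => if x ∈ S then 0 else 1) (· = 0))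
        (C_mem_wtSub (A := A) (p := (· = 0)) rfl 1)
        (fun _ _ _ x hx y hy => wtSub_mul (fun a b ha hb => by omega) hx hy)
        (lev := T.lev) (w := fun c => C (o.r c) + R.W0 T tb c) (t0 := C R.t0)
        (C_mem_wtSub (p := (· = 0)) rfl _) (f := T.B c) (fun m hm c' hc' => ?_) le_rfl
      · exact h m (support_coP _ _ hm)
      · have hlt : T.rk c' < T.rk c := supp_of_mem_supported (T.B_mem c) hm hc'
        refine add_mem (C_mem_wtSub (p := (· = 0)) rfl _) (R.W0_mem T tb fun i => ?_)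
        have h1 := R.pos_lt T tb ⟨c', i⟩
        have h2 : (T.rk c' + 1) * R.N0 T tb ≤ T.rk c * R.N0 T tb := Nat.mul_le_mul_right _ hlt
        rw [if_pos]
        show T.rk c' * R.N0 T tb + (tb c').pos i < _
        dsimp only at h1
        rw [Nat.succ_mul] at h2
        omega
    rw [Thp, hev_th, map_sub, map_add, map_smul, map_add, coP_W0, coP_C, coP_C,
      ← Finset.add_sum_erase _ _ (Finset.mem_univ j)]
    have e : T.a c • (C ((tb c).co j (o.r c)) + (C ((tb c).co j ((tb c).v j)) * X ⟨c, j⟩ +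
        ∑ x ∈ Finset.univ.erase j, C ((tb c).co j ((tb c).v x)) * X ⟨c, x⟩)) +
        coP ((tb c).co j) (hev T.lev (C R.t0) (fun c => C (o.r c) + R.W0 T tb c) (T.lev c)
          (T.B c)) - C ((tb c).co j (o.cen c)) -
        C (T.a c * (tb c).co j ((tb c).v j)) * (X ⟨c, j⟩ : Pl (Σ c, β c)) =
        C (T.a c) * (C ((tb c).co j (o.r c)) +
          ∑ x ∈ Finset.univ.erase j, C ((tb c).co j ((tb c).v x)) * X ⟨c, x⟩) +
        coP ((tb c).co j) (hev T.lev (C R.t0) (fun c => C (o.r c) + R.W0 T tb c) (T.lev c)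
          (T.B c)) - C ((tb c).co j (o.cen c)) := by
      rw [smul_eq_C_mul, map_mul]; ring
    rw [e]
    refine sub_mem (add_mem (MulMemClass.mul_mem (C_mem_supp _ _) (add_mem (C_mem_supp _ _)
      (sum_mem fun i hi => ?_))) hB) (C_mem_supp _ _)
    by_cases h0 : (tb c).co j ((tb c).v i) = 0
    · rw [h0, map_zero, zero_mul]; exact zero_mem _
    · refine MulMemClass.mul_mem (C_mem_supp _ _) (X_mem_supp ?_)
      rcases (tb c).tri i j h0 with h | h
      · exact absurd h (Finset.ne_of_mem_erase hi)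
      · show T.rk c * R.N0 T tb + (tb c).pos i < _
        omega
  lev x := T.lev x.1
  lev_pos x := T.lev_pos _
  deg := by
    classical
    rintro ⟨c, j⟩ m hm
    have h1 := ltSub_le (R.Thp_lt T tb o c)
    rcases Finset.mem_union.1 (support_sub _ _ _ hm) with h | h
    · exact h1 m (support_coP _ _ h)
    · exact (((isWeightedHomogeneous_X ℝ (fun x : Σ c, β c => T.lev x.1) ⟨c, j⟩).C_mul _)
        (mem_support_iff.1 h)).le

theorem cell_th (x : Σ c, β c) :
    (R.cell T tb o).th x = coP ((tb x.1).co x.2) (R.Thp T tb o x.1) := by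
  simp [Tri.th, cell]

theorem cell_tth (x : Σ c, β c) :
    (R.cell T tb o).tth x = coP ((tb x.1).co x.2) (aeval (R.W0 T tb) (T.tth x.1)) := by
  rw [Cell.tth, Cell.top, cell_th, coP_whc]
  congr 1
  exact ltSub_whc (R.Thp_lt T tb o x.1)

/-- integer coordinates of a point -/
noncomputable def ptE : ((Σ c, β c) → ℤ) ≃ R.Pt T :=
  (Equiv.piCurry fun (c : ι) (_ : β c) => ℤ).trans (Equiv.piCongrRight fun c => (tb c).eqv)

omit [Fintype ι] in
theorem evA_Thp (z : (Σ c, β c) → ℤ) (c : ι) :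
    evA z (R.Thp T tb o c) = R.dv T o (R.ptE T tb z) c := by
  rw [Thp, map_sub, hev_map, evA_C, evA_C, dv, th]
  congr 2
  funext c'
  rw [map_add, evA_C, up, W0, map_sum]
  congr 1
  show _ = ∑ j, z ⟨c', j⟩ • (tb c').v j
  refine Finset.sum_congr rfl fun j _ => ?_
  rw [map_mul, evA_C, evA_X, zsmul_eq_mul, mul_comm]

omit [Fintype ι] in
theorem dv_mem (hlev : ∀ c, T.lev c ≤ s) {o : Off ι A} (ho : R.OffMem T o) (w : R.Pt T) (c : ι) :
    R.dv T o w c ∈ R.E (T.lev c) := by
  refine sub_mem ?_ (ho c).2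
  exact hev_mem_grade (E := R.E) R.one_mem R.mul_mem R.t0_mem
    (fun _ _ c' _ => add_mem (ho c').1 (Submodule.subset_span (w c').2)) (hlev c)

theorem cell_wgt (hlev : ∀ c, T.lev c ≤ s) {o : Off ι A} (ho : R.OffMem T o)
    (z : (Σ c, β c) → ℤ) : (R.cell T tb o).wgt z = R.wt T o (R.ptE T tb z) := by
  unfold Tri.wgt wt
  congr 2
  rw [Fintype.sum_sigma]
  refine Finset.sum_congr rfl fun c _ => ?_
  rw [(tb c).nrm _ (R.dv_mem T hlev ho _ c)]
  refine Finset.sum_congr rfl fun j _ => ?_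
  rw [cell_th, ev_coP, evA_Thp]

theorem cell_M (hlev : ∀ c, T.lev c ≤ s) {o : Off ι A} (ho : R.OffMem T o) :
    (R.cell T tb o).M = R.M T o := by
  unfold Tri.M M
  rw [← (R.ptE T tb).tsum_eq]
  exact tsum_congr fun z => R.cell_wgt T tb hlev ho z

/-- ideal mass -/
noncomputable def mu : ℝ := ∏ c, (|T.a c|⁻¹ ^ Fintype.card (β c) * (tb c).vol)

theorem mu_pos : 0 < R.mu T tb :=
  Finset.prod_pos fun c _ => mul_pos (pow_pos (inv_pos.2 (abs_pos.2 (T.a_ne c))) _) (tb c).vol_pos

theorem cell_mu : (R.cell T tb o).mu = R.mu T tb := by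
  unfold Tri.mu mu
  rw [Fintype.prod_sigma]
  refine Finset.prod_congr rfl fun c _ => ?_
  simp only [cell, abs_mul, mul_inv, Finset.prod_mul_distrib, Finset.prod_const, Finset.card_univ,
    TB.vol]

end Rg

end Crest.Agent.T49.Rng
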