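import Crest.Agent.T49.RngCell_63

/-! # Row 49 (helper63): the cell `T(A)` is derived from `T` -/

set_option autoImplicit false

open MvPolynomial

namespace Crest.Agent.T49.Rng
open Tw

theorem coeff_single_bind {ι : Type} {β : ι → Type} [∀ c, Fintype (β c)]
    (n : (Σ c, β c) → ℝ) (p : Pl (Σ c, β c)) :
    coeff 0 (bind₁ (fun x : Σ c, β c => (C (n x) * X x.1 : Pl ι)) p) = coeff 0 p ∧
    ∀ c, coeff (Finsupp.single c 1) (bind₁ (fun x : Σ c, β c => (C (n x) * X x.1 : Pl ι)) p) =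
      ∑ j, n ⟨c, j⟩ * coeff (Finsupp.single ⟨c, j⟩ 1) p := by
  classical
  induction p using MvPolynomial.induction_on with
  | C a =>
    refine ⟨by simp, fun c => ?_⟩
    have h1 : ∀ {σ : Type} (x : σ), coeff (Finsupp.single x 1) (C a : Pl σ) = 0 := fun x => by
      classical
      rw [coeff_C, if_neg]
      exact fun h => one_ne_zero (Finsupp.single_eq_zero.1 h.symm)
    simp [h1]
  | add p q hp hq =>
    refine ⟨by simp [hp.1, hq.1], fun c => ?_⟩
    simp only [map_add, coeff_add, hp.2, hq.2, mul_add, Finset.sum_add_distrib]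
  | mul_X p x hp =>
    rw [map_mul, bind₁_X_right, ← mul_assoc]
    refine ⟨by simp [coeff_mul_X'], fun c => ?_⟩
    obtain ⟨c0, j0⟩ := x
    simp only [coeff_mul_X', Finsupp.mem_support_iff, Finsupp.single_apply]
    by_cases hc : c = c0
    · subst hc
      rw [Finset.sum_eq_single j0]
      · simp only [if_true, ne_eq, one_ne_zero, not_false_eq_true, tsub_self]
        rw [mul_comm _ (C _), coeff_C_mul, hp.1]
      · intro j _ hj
        have : (⟨c, j⟩ : Σ c, β c) ≠ ⟨c, j0⟩ := fun h => hj (by simpa using h)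
        simp [this]
      · simp
    · have : ∀ j, (⟨c, j⟩ : Σ c, β c) ≠ ⟨c0, j0⟩ := fun j h => hc (congrArg Sigma.fst h)
      simp [hc, this]

namespace Rg
variable {s : ℕ} {A F : Type} [CommRing A] [Algebra ℝ A] [NormedAddCommGroup F]
  [InnerProductSpace ℝ F] (R : Rg s A F) {ι : Type} [Fintype ι] (T : Cell ι) {K : ℝ}
  {β : ι → Type} [∀ c, Fintype (β c)]
  (tb : ∀ c, TB (R.L (T.lev c)) (R.Q (T.lev c)) K (β c)) (o : Off ι A)

omit [Fintype ι] in
theorem tth_hom (c : ι) : IsWeightedHomogeneous T.lev (T.tth c) (T.lev c) :=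
  weightedHomogeneousComponent_isWeightedHomogeneous _ _

theorem bind_tth (a : A) (n : (Σ c, β c) → ℤ)
    (hn : ∀ c, a ^ T.lev c = ∑ j, n ⟨c, j⟩ • (tb c).v j) (x : Σ c, β c) :
    bind₁ (fun x : Σ c, β c => (C (n x : ℝ) * X x.1 : Pl ι)) ((R.cell T tb o).tth x) =
      C ((tb x.1).co x.2 (a ^ T.lev x.1)) * T.tth x.1 := by
  rw [cell_tth, bind_coP, ← coP_C_mul_map, ← aeval_dil T.lev a (tth_hom T x.1)]
  congr 1
  have h := comp_aeval_apply (R := ℝ) (f := R.W0 T tb)
    ((bind₁ (R := A) fun x : Σ c, β c =>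
      map (algebraMap ℝ A) (C (n x : ℝ) * X x.1 : Pl ι)).restrictScalars ℝ) (T.tth x.1)
  refine Eq.trans h ?_
  congr 2
  funext c
  rw [hn c, W0, map_sum, map_sum, Finset.sum_mul]
  refine Finset.sum_congr rfl fun j _ => ?_
  simp only [AlgHom.coe_restrictScalars', map_mul, bind₁_C_right, bind₁_X_right, map_X,
    map_intCast, zsmul_eq_mul]
  ring

theorem cell_kap {r : ℕ} (hr : ∀ c, Fintype.card (β c) ≤ r) (hr1 : 1 ≤ r) (hK : 0 ≤ K) (l : ℕ) :
    (R.cell T tb o).kap l ≤ r * (1 + Real.log (1 + K)) * T.kap l := by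
  classical
  have hL : 0 ≤ Real.log (1 + K) := Real.log_nonneg (by linarith)
  have hr' : (1 : ℝ) ≤ r := by exact_mod_cast hr1
  unfold Cell.kap
  rw [Finset.sum_filter, Finset.sum_filter, Fintype.sum_sigma, mul_add, mul_one, Finset.mul_sum]
  refine add_le_add (by nlinarith) (Finset.sum_le_sum fun c _ => ?_)
  show ∑ j : β c, (if T.lev c = l then
    (1 + Real.log (1 + |T.a c * (tb c).co j ((tb c).v j)|)) else 0) ≤ _
  split_ifs with h
  · have ha : 0 ≤ Real.log (1 + |T.a c|) := Real.log_nonneg (by linarith [abs_nonneg (T.a c)])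
    have h1 : ∀ j, 1 + Real.log (1 + |T.a c * (tb c).co j ((tb c).v j)|) ≤
        (1 + Real.log (1 + K)) * (1 + Real.log (1 + |T.a c|)) := by
      intro j
      have h2 : 1 + |T.a c * (tb c).co j ((tb c).v j)| ≤ (1 + K) * (1 + |T.a c|) := by
        rw [abs_mul]
        nlinarith [abs_nonneg (T.a c), (tb c).le j, abs_nonneg ((tb c).co j ((tb c).v j))]
      have h3 := Real.log_le_log (by positivity) h2
      rw [Real.log_mul (by positivity) (by positivity)] at h3
      nlinarith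
    refine (Finset.sum_le_card_nsmul _ _ _ fun j _ => h1 j).trans ?_
    rw [nsmul_eq_mul, Finset.card_univ, mul_assoc]
    exact mul_le_mul_of_nonneg_right (by exact_mod_cast hr c) (by positivity)
  · simp

theorem cell_der (hlev : ∀ c, T.lev c ≤ s) {r : ℕ} (hr : ∀ c, Fintype.card (β c) ≤ r)
    (hr1 : 1 ≤ r) (hK : 0 ≤ K) {K2 x : ℝ} (hK2 : 1 ≤ K2) (P : A → Prop)
    (hP : ∀ a, P a → ∀ c, a ^ T.lev c ∈ R.L (T.lev c) ∧ ‖R.Q (T.lev c) (a ^ T.lev c)‖ ≤ K2)
    (hsp : ∀ c, R.E (T.lev c) ≤ Submodule.span ℝ {y | ∃ a, P a ∧ y = a ^ T.lev c})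
    (hx1 : r * (1 + Real.log (1 + K)) ≤ x) (hx2 : K2 ^ s ≤ Real.exp x) :
    T.Der x (R.cell T tb o) := by
  classical
  have hL : 0 ≤ Real.log (1 + K) := Real.log_nonneg (by linarith)
  have hr' : (1 : ℝ) ≤ r := by exact_mod_cast hr1
  have hrx : (r : ℝ) ≤ x := le_trans (by nlinarith) hx1
  refine ⟨fun x => ⟨x.1, rfl⟩, ?_, fun l => ?_, ?_⟩
  · rw [Fintype.card_sigma]
    have : ∑ c, Fintype.card (β c) ≤ r * Fintype.card ι := by
      simpa [mul_comm] using Finset.sum_le_card_nsmul Finset.univ _ r fun c _ => hr c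
    calc ((∑ c, Fintype.card (β c) : ℕ) : ℝ) ≤ (r * Fintype.card ι : ℕ) := by exact_mod_cast this
      _ ≤ x * Fintype.card ι := by
        push_cast; exact mul_le_mul_of_nonneg_right hrx (Nat.cast_nonneg _)
  · refine (R.cell_kap T tb o hr hr1 hK l).trans (mul_le_mul_of_nonneg_right hx1 ?_)
    unfold Cell.kap
    exact add_nonneg zero_le_one (Finset.sum_nonneg fun c _ => add_nonneg zero_le_one
      (Real.log_nonneg (by linarith [abs_nonneg (T.a c)])))
  intro l H Λ hreg ξ' b e' hdual hH hb1 hbΛ hhom hsupp hnrm hint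
  by_cases hls : s < l
  · funext y
    exact hdual.1 y (by have := hlev y.1; show T.lev y.1 ≠ l; omega)
  by_cases hl0 : l = 0
  · funext y
    exact hdual.1 y (by have := T.lev_pos y.1; show T.lev y.1 ≠ l; omega)
  have hKl : K2 ^ l ≤ Real.exp x := (pow_le_pow_right₀ hK2 (by omega)).trans hx2
  have hK1 : K2 ≤ Real.exp x := (le_self_pow₀ hK2 hl0).trans hKl
  have hee : Real.exp (-x) * Real.exp x = 1 := by rw [← Real.exp_add]; simp
  have he1 : Real.exp (-x) ≤ 1 := Real.exp_le_one_iff.2 (by linarith)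
  have hΛ : 0 ≤ Λ := by
    have : (0 : ℝ) < b := by exact_mod_cast hb1
    by_contra h
    nlinarith [Real.exp_pos (-x)]
  have key : ∀ a, P a → ∀ c, ∑ j, ξ' ⟨c, j⟩ * (tb c).co j (a ^ T.lev c) = 0 := by
    intro a ha
    choose n hn using fun c => (tb c).gen _ (hP a ha c).1
    set n' : (Σ c, β c) → ℤ := fun y => n y.1 y.2
    set κ : (Σ c, β c) → ℝ := fun y => (tb y.1).co y.2 (a ^ T.lev y.1) with hκ
    have hκle : ∀ y, |κ y| ≤ K2 := fun y =>
      ((tb y.1).abs_co_le (Submodule.subset_span (hP a ha y.1).1) y.2).trans (hP a ha y.1).2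
    set ψ : Pl (Σ c, β c) →ₐ[ℝ] Pl ι := bind₁ fun y => C (n' y : ℝ) * X y.1 with hψ
    have k1 : ∀ y, ψ ((R.cell T tb o).tth y) = C (κ y) * T.tth y.1 :=
      R.bind_tth T tb o a n' hn
    set ξ : ι → ℝ := fun c => ∑ j, ξ' ⟨c, j⟩ * κ ⟨c, j⟩ with hξ
    set e : Pl ι := bind₁ (fun y : Σ c, β c => (C (κ y) * X y.1 : Pl ι)) e' with he
    have k2 : ψ ((R.cell T tb o).dotT ξ') = T.dotT ξ := by
      unfold Cell.dotT
      rw [map_sum, Fintype.sum_sigma]
      refine Finset.sum_congr rfl fun c _ => ?_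
      rw [hξ]
      dsimp only
      rw [map_sum, Finset.sum_mul]
      refine Finset.sum_congr rfl fun j _ => ?_
      rw [map_mul, k1, map_mul, hψ, bind₁_C_right, mul_assoc]
    have k3 : ψ ((R.cell T tb o).TTh e') = T.TTh e := by
      have : ψ.comp (R.cell T tb o).TTh =
          T.TTh.comp (bind₁ fun y : Σ c, β c => (C (κ y) * X y.1 : Pl ι)) := by
        refine MvPolynomial.algHom_ext fun y => ?_
        simp only [AlgHom.comp_apply, Cell.TTh, bind₁_X_right, k1, map_mul, bind₁_C_right]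
      exact AlgHom.congr_fun this e'
    have h0 := hreg ξ b e ?_ ?_ hb1 ?_ ?_ ?_ ?_ ?_
    · intro c; exact congrFun h0 c
    · refine ⟨fun c hc => Finset.sum_eq_zero fun j _ => ?_, fun c hc => ?_⟩
      · rw [hdual.1 ⟨c, j⟩ hc, zero_mul]
      · choose N hN using fun j => hdual.2 ⟨c, j⟩ hc
        refine ⟨∑ j, n' ⟨c, j⟩ * N j, ?_⟩
        rw [← k2, hψ, (coeff_single_bind (fun y => (n' y : ℝ)) _).2 c]
        push_cast
        exact Finset.sum_congr rfl fun j _ => by rw [hN j]
    · have h1 : ∑ c, |ξ c| ≤ (∑ y, |ξ' y|) * K2 := by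
        rw [Fintype.sum_sigma, Finset.sum_mul]
        refine Finset.sum_le_sum fun c _ => (Finset.abs_sum_le_sum_abs _ _).trans ?_
        rw [Finset.sum_mul]
        refine Finset.sum_le_sum fun j _ => ?_
        rw [abs_mul]
        exact mul_le_mul_of_nonneg_left (hκle _) (abs_nonneg _)
      have h2 : 0 ≤ ∑ y, |ξ' y| := Finset.sum_nonneg fun _ _ => abs_nonneg _
      calc ∑ c, |ξ c| ≤ (H * Real.exp (-x)) * Real.exp x :=
            h1.trans (mul_le_mul hH hK1 (by linarith) (h2.trans hH))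
        _ = H := by rw [mul_assoc, hee, mul_one]
    · exact hbΛ.trans (mul_le_of_le_one_right hΛ he1)
    · exact hom_bind (AddMonoidHom.id ℕ) (w := (R.cell T tb o).lev)
        (fun y => (isWeightedHomogeneous_X ℝ T.lev y.1).C_mul _) hhom
    · exact bind_mem_supported (t := {c | T.lev c < l})
        (g := fun y : Σ c, β c => (C (κ y) * X y.1 : Pl ι))
        (fun y hy => MulMemClass.mul_mem (C_mem_supp _ _) (X_mem_supp (c := y.1) hy)) hsupp
    · have h1 := nrm_bind_le_of_pos (w := (R.cell T tb o).lev) (R.cell T tb o).lev_pos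
        (g := fun y : Σ c, β c => (C (κ y) * X y.1 : Pl ι)) (K := K2) (fun y => by
          rw [C_mul', nrm_smul]; simpa using hκle y) hK2 (f := e') (d := l)
        (fun m hm => (hhom (mem_support_iff.1 hm)).le)
      calc nrm e ≤ (Λ * Real.exp (-x)) * Real.exp x :=
            h1.trans (mul_le_mul hnrm hKl (by positivity) ((nrm_nonneg _).trans hnrm))
        _ = Λ := by rw [mul_assoc, hee, mul_one]
    · have h1 := IsInt.bind (g := fun y : Σ c, β c => (C (n' y : ℝ) * X y.1 : Pl ι))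
        (fun y => (isInt_X _).int_mul _) hint
      rw [← hψ, map_add, map_mul, k2, k3, hψ, bind₁_C_right] at h1
      exact h1
  funext y
  obtain ⟨c, j⟩ := y
  have hz : ∀ y ∈ R.E (T.lev c), ∑ j, ξ' ⟨c, j⟩ * (tb c).co j y = 0 := by
    intro y hy
    have hy' := hsp c hy
    clear hy
    induction hy' using Submodule.span_induction with
    | mem y hy => obtain ⟨a, ha, rfl⟩ := hy; exact key a ha c
    | zero => simp
    | add y z _ _ hy hz => simp only [map_add, mul_add, Finset.sum_add_distrib, hy, hz, add_zero]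
    | smul t y _ hy =>
      simp only [map_smul, smul_eq_mul, mul_left_comm _ t, ← Finset.mul_sum, hy, mul_zero]
  have := (tb c).sep (ξ := fun j => ξ' ⟨c, j⟩) fun i =>
    hz _ (Submodule.subset_span ((tb c).mem i))
  exact congrFun this j

end Rg

end Crest.Agent.T49.Rng
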