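import Crest.Agent.T49.RngSur_63

/-! # Row 49 (helper63): fibre products of patterns, variance, push-forward, Cauchy-Schwarz -/

set_option autoImplicit false

namespace Crest.Agent.T49.Rng
open Tw

namespace Sur
variable {s : ℕ} {A F A' F' A0 F0 F1 F1' : Type} [CommRing A] [Algebra ℝ A] [NormedAddCommGroup F]
  [InnerProductSpace ℝ F] [CommRing A'] [Algebra ℝ A'] [NormedAddCommGroup F']
  [InnerProductSpace ℝ F'] [CommRing A0] [Algebra ℝ A0] [NormedAddCommGroup F0]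
  [InnerProductSpace ℝ F0] [NormedAddCommGroup F1] [InnerProductSpace ℝ F1]
  [NormedAddCommGroup F1'] [InnerProductSpace ℝ F1']
  {R : Rg s A F} {R' : Rg s A' F'} {R0 : Rg s A0 F0} (S : Sur R R0 F1) (S' : Sur R' R0 F1')
  {ι : Type}

/-- lattices of the fibre product -/
def fibL (l : ℕ) : Submodule ℤ (A × A') where
  carrier := {y | y.1 ∈ R.L l ∧ y.2 ∈ R'.L l ∧ S.φ y.1 = S'.φ y.2}
  add_mem' h h' := ⟨add_mem h.1 h'.1, add_mem h.2.1 h'.2.1, by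
    simp only [Prod.fst_add, Prod.snd_add, map_add, h.2.2, h'.2.2]⟩
  zero_mem' := ⟨zero_mem _, zero_mem _, by simp⟩
  smul_mem' n _ h := ⟨Submodule.smul_mem _ n h.1, Submodule.smul_mem _ n h.2.1, by
    simp only [Prod.smul_fst, Prod.smul_snd, map_zsmul, h.2.2]⟩

theorem mem_fibL {l : ℕ} {y : A × A'} :
    y ∈ S.fibL S' l ↔ y.1 ∈ R.L l ∧ y.2 ∈ R'.L l ∧ S.φ y.1 = S'.φ y.2 := Iff.rfl

theorem fibL_onto_fst (l : ℕ) : ∀ y ∈ R.L l, ∃ x ∈ S.fibL S' l, x.1 = y := fun y hy =>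
  let ⟨y', hy', e⟩ := S'.onto l _ (S.maps l y hy); ⟨(y, y'), ⟨hy, hy', e.symm⟩, rfl⟩

theorem fibL_onto_snd (l : ℕ) : ∀ y ∈ R'.L l, ∃ x ∈ S.fibL S' l, x.2 = y := fun y hy =>
  let ⟨y', hy', e⟩ := S.onto l _ (S'.maps l y hy); ⟨(y', y), ⟨hy', hy, e⟩, rfl⟩

theorem mem_fibE {l : ℕ} {y : A × A'} : y ∈ Submodule.span ℝ (S.fibL S' l : Set (A × A')) ↔
    y.1 ∈ R.E l ∧ y.2 ∈ R'.E l ∧ S.φ y.1 = S'.φ y.2 := by
  have h1 : ∀ y ∈ Submodule.span ℝ (S.fibL S' l : Set (A × A')),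
      y.1 ∈ R.E l ∧ y.2 ∈ R'.E l ∧ S.φ y.1 = S'.φ y.2 := fun y hy =>
    ⟨map_mem_span (L := S.fibL S' l) (LinearMap.fst ℝ A A') (fun _ h => h.1) hy,
      map_mem_span (L := S.fibL S' l) (LinearMap.snd ℝ A A') (fun _ h => h.2.1) hy,
      sub_eq_zero.1 ((Submodule.span_le (p := LinearMap.ker (S.φ.toLinearMap ∘ₗ LinearMap.fst ℝ A A'
        - S'.φ.toLinearMap ∘ₗ LinearMap.snd ℝ A A'))).2 (fun _ h => sub_eq_zero.2 h.2.2) hy)⟩
  refine ⟨h1 y, fun h => ?_⟩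
  obtain ⟨x, hx, e⟩ := onto_span (LinearMap.fst ℝ A A') (S.fibL_onto_fst S' l) h.1
  have e' : x.1 = y.1 := e
  have h2 := S'.ker_span (sub_mem h.2.1 (h1 x hx).2.1) (by
    rw [map_sub, ← h.2.2, ← (h1 x hx).2.2, e', sub_self])
  have h3 := map_mem_span (L := S'.Lk l) (L0 := S.fibL S' l) (LinearMap.inr ℝ A A')
    (fun k hk => ⟨zero_mem _, hk.1, by
      have : S'.φ k = 0 := hk.2
      simp [this]⟩) h2
  convert add_mem hx h3 using 1
  ext <;> simp [e']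

/-- windows of the fibre product -/
noncomputable def fibQ (l : ℕ) : A × A' →ₗ[ℝ] WithLp 2 (F × F1') :=
  l2 (R.Q l ∘ₗ LinearMap.fst ℝ A A') (S'.Q1 l ∘ₗ LinearMap.snd ℝ A A')

theorem norm_fibQ (l : ℕ) (y : A × A') :
    ‖fibQ (R := R) S' l y‖ ^ 2 = ‖R.Q l y.1‖ ^ 2 + ‖S'.Q1 l y.2‖ ^ 2 := norm_l2_sq _ _ _

/-- **fibre product** -/
noncomputable def fibRg : Rg s (A × A') (WithLp 2 (F × F1')) where
  L := S.fibL S'
  t0 := (R.t0, R'.t0)
  Q := fibQ (R := R) S'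
  lat l := ((R.lat l).prod (R'.lat l)).mono fun _ h => ⟨h.1, h.2.1⟩
  one_mem := (S.mem_fibE S').2 ⟨R.one_mem, R'.one_mem, by simp⟩
  t0_mem := (S.mem_fibE S').2 ⟨R.t0_mem, R'.t0_mem, by rw [S.map_t0, S'.map_t0]⟩
  mul_mem i j h x hx y hy := by
    rw [S.mem_fibE S'] at hx hy ⊢
    exact ⟨R.mul_mem i j h _ hx.1 _ hy.1, R'.mul_mem i j h _ hx.2.1 _ hy.2.1, by
      simp only [Prod.fst_mul, Prod.snd_mul, map_mul, hx.2.2, hy.2.2]⟩
  inj l hl x hx h := by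
    rw [S.mem_fibE S'] at hx
    have h1 := norm_fibQ (R := R) S' l x
    rw [h, norm_zero] at h1
    have h2 : R.Q l x.1 = 0 := by
      rw [← norm_eq_zero]; nlinarith [sq_nonneg ‖R.Q l x.1‖, sq_nonneg ‖S'.Q1 l x.2‖]
    have h3 : S'.Q1 l x.2 = 0 := by
      rw [← norm_eq_zero]; nlinarith [sq_nonneg ‖R.Q l x.1‖, sq_nonneg ‖S'.Q1 l x.2‖]
    have h4 := R.inj l hl _ hx.1 h2
    refine Prod.ext h4 (R'.inj l hl _ hx.2.1 ?_)
    have h5 := S'.pyth l hl _ hx.2.1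
    rw [← hx.2.2, h4, h3] at h5
    simpa using h5

theorem mem_fibRg_E {l : ℕ} {y : A × A'} : y ∈ (S.fibRg S').E l ↔
    y.1 ∈ R.E l ∧ y.2 ∈ R'.E l ∧ S.φ y.1 = S'.φ y.2 := S.mem_fibE S'

theorem norm_fibRg (l : ℕ) (y : A × A') :
    ‖(S.fibRg S').Q l y‖ ^ 2 = ‖R.Q l y.1‖ ^ 2 + ‖S'.Q1 l y.2‖ ^ 2 := norm_l2_sq _ _ _

/-- first projection -/
noncomputable def fst : Sur (S.fibRg S') R F1' where
  φ := AlgHom.fst ℝ A A'
  maps _ _ h := h.1
  onto := S.fibL_onto_fst S'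
  map_t0 := rfl
  Q1 l := S'.Q1 l ∘ₗ LinearMap.snd ℝ A A'
  pyth l _ y _ := S.norm_fibRg S' l y
  ker l hl y hy := by
    obtain ⟨k, hk, h1, h2⟩ := S'.ker l hl _ ((S.mem_fibRg_E S').1 hy).2.1
    exact ⟨(0, k), (S.mem_fibRg_E S').2 ⟨zero_mem _, hk, by simp [h1]⟩, rfl, h2⟩

/-- second projection -/
noncomputable def snd : Sur (S.fibRg S') R' F1 where
  φ := AlgHom.snd ℝ A A'
  maps _ _ h := h.2.1
  onto := S.fibL_onto_snd S'
  map_t0 := rfl
  Q1 l := S.Q1 l ∘ₗ LinearMap.fst ℝ A A'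
  pyth l hl y hy := by
    have h := (S.mem_fibRg_E S').1 hy
    rw [S.norm_fibRg S' l y, S.pyth l hl _ h.1, h.2.2]
    have := S'.pyth l hl _ h.2.1
    show _ = ‖R'.Q l y.2‖ ^ 2 + ‖S.Q1 l y.1‖ ^ 2
    linarith
  ker l hl y hy := by
    obtain ⟨k, hk, h1, h2⟩ := S.ker l hl _ ((S.mem_fibRg_E S').1 hy).1
    exact ⟨(k, 0), (S.mem_fibRg_E S').2 ⟨hk, zero_mem _, by simp [h1]⟩, rfl, h2⟩

theorem fst_vol1 {l : ℕ} (hl : l ≤ s) :
    (S.fst S').vol1 l = S'.vol1 l ∧ (S.fst S').rk1 l = S'.rk1 l := by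
  refine vol0_iso (φ := LinearMap.snd ℝ A A') (((S.fibRg S').lat l).mono inf_le_left)
    ((R'.lat l).mono inf_le_left) (fun y hy => ⟨hy.1.2.1, ?_⟩)
    (fun y hy => ⟨(0, y), ⟨⟨zero_mem _, hy.1, ?_⟩, rfl⟩, rfl⟩) (fun x hx h => ?_) fun _ _ => rfl
  · have h1 : y.1 = 0 := hy.2
    have h2 := hy.1.2.2
    rw [h1, map_zero] at h2
    exact h2.symm
  · have : S'.φ y = 0 := hy.2
    simp [this]
  · obtain ⟨h1, h2⟩ := ker_of_mem_span hx
    refine (S.fibRg S').inj l hl x h1 ?_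
    have h3 := (S.fst S').pyth l hl x h1
    have h2' : (S.fst S').φ x = 0 := h2
    rw [h, h2'] at h3
    simpa using h3

variable [Fintype ι] {T : Cell ι}

theorem fst_mu1 (hlev : ∀ c, T.lev c ≤ s) : (S.fst S').mu1 T = S'.mu1 T :=
  Finset.prod_congr rfl fun c _ => by
    rw [(S.fst_vol1 S' (hlev c)).1, (S.fst_vol1 S' (hlev c)).2]

theorem fibRg_mu0 (hlev : ∀ c, T.lev c ≤ s) :
    (S.fibRg S').mu0 T = S.mu1 T * S'.mu1 T * R0.mu0 T := by
  rw [(S.fst S').mu0_eq hlev, S.fst_mu1 S' hlev, S.mu0_eq hlev]; ring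

omit [Fintype ι] in
theorem offMem_pair {o : Off ι A} {o' : Off ι A'} (ho : R.OffMem T o) (ho' : R'.OffMem T o')
    (h : o.map S.φ = o'.map S'.φ) : (S.fibRg S').OffMem T (o.pair o') := fun c =>
  ⟨(S.mem_fibRg_E S').2 ⟨(ho c).1, (ho' c).1, congrFun (congrArg Off.r h) c⟩,
    (S.mem_fibRg_E S').2 ⟨(ho c).2, (ho' c).2, congrFun (congrArg Off.cen h) c⟩⟩

omit [Fintype ι] in
theorem pt_fst_snd (W : (S.fibRg S').Pt T) : S.pt ((S.fst S').pt W) = S'.pt ((S.snd S').pt W) :=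
  funext fun c => Subtype.ext (W c).2.2.2

/-- points of the fibre product over a point of the first factor -/
noncomputable def fibE (w : R.Pt T) :
    ((S.fst S').pt (T := T)) ⁻¹' {w} ≃ (S'.pt (T := T)) ⁻¹' {S.pt w} where
  toFun W := ⟨(S.snd S').pt W.1, by
    have h : (S.fst S').pt W.1 = w := W.2
    show _ = _
    rw [← S.pt_fst_snd S', h]⟩
  invFun w' := ⟨fun c => ⟨(w c, w'.1 c), (w c).2, (w'.1 c).2,
    (congrArg Subtype.val (congrFun (show S'.pt w'.1 = S.pt w from w'.2) c)).symm⟩, rfl⟩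
  left_inv W := by
    obtain ⟨W, rfl⟩ := W
    rfl
  right_inv _ := rfl

theorem fst_w1 (o : Off ι A) (o' : Off ι A') (W : (S.fibRg S').Pt T) :
    (S.fst S').w1 T (o.pair o') W = S'.w1 T o' ((S.snd S').pt W) := by
  unfold w1
  congr 2
  refine Finset.sum_congr rfl fun c _ => ?_
  have := (S.snd S').dv_pt (o.pair o') W c
  exact congrArg (fun y => ‖S'.Q1 (T.lev c) y‖ ^ 2) this.symm

variable {𝕜 : Type} [RCLike 𝕜]

theorem fst_fib (o : Off ι A) (o' : Off ι A') (f : R.Pt T → 𝕜) (f' : R'.Pt T → 𝕜) (w : R.Pt T) :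
    (S.fst S').fib T (o.pair o') (fun W => f ((S.fst S').pt W) * f' ((S.snd S').pt W)) w =
      f w * S'.fib T o' f' (S.pt w) := by
  rw [fib, fib, ← tsum_mul_left, ← (S.fibE S' w).tsum_eq]
  refine tsum_congr fun W => ?_
  have h : (S.fst S').pt W.1 = w := W.2
  rw [h, S.fst_w1 S', mul_smul_comm]
  rfl

omit S' in
theorem fib_mul_pt (o : Off ι A) (f : R.Pt T → 𝕜) (g : R0.Pt T → 𝕜) (p : R0.Pt T) :
    S.fib T o (fun w => f w * g (S.pt w)) p = S.fib T o f p * g p := by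
  rw [fib, fib, ← tsum_mul_right]
  refine tsum_congr fun w => ?_
  have : S.pt w.1 = p := w.2
  rw [this, smul_mul_assoc]

/-- **conditional independence**: sums over the fibre product -/
theorem hasSum_fibRg (hlev : ∀ c, T.lev c ≤ s) {o : Off ι A} {o' : Off ι A'} (ho : R.OffMem T o)
    (ho' : R'.OffMem T o') (h : o.map S.φ = o'.map S'.φ) {f : R.Pt T → 𝕜} {f' : R'.Pt T → 𝕜}
    (hs : Summable fun W => (S.fibRg S').wt T (o.pair o') W •
      (f ((S.fst S').pt W) * f' ((S.snd S').pt W))) :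
    HasSum (fun p => R0.wt T (o.map S.φ) p • (S.fib T o f p * S'.fib T o' f' p))
      (∑' W, (S.fibRg S').wt T (o.pair o') W • (f ((S.fst S').pt W) * f' ((S.snd S').pt W))) := by
  have h1 := (S.fst S').hasSum_fib hlev (S.offMem_pair S' ho ho' h) hs
  simp only [S.fst_fib S'] at h1
  have h2 := S.hasSum_fib hlev ho (f := fun w => f w * S'.fib T o' f' (S.pt w)) h1.summable
  simp only [S.fib_mul_pt] at h2
  rw [← h1.tsum_eq]
  exact h2

theorem hasSum_fibRg' (hlev : ∀ c, T.lev c ≤ s) {o : Off ι A} {o' : Off ι A'} (ho : R.OffMem T o)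
    (ho' : R'.OffMem T o') (h : o.map S.φ = o'.map S'.φ) {f : R.Pt T → 𝕜} {f' : R'.Pt T → 𝕜}
    {B B' : ℝ} (hf : ∀ w, ‖f w‖ ≤ B) (hf' : ∀ w, ‖f' w‖ ≤ B') :
    HasSum (fun p => R0.wt T (o.map S.φ) p • (S.fib T o f p * S'.fib T o' f' p))
      (∑' W, (S.fibRg S').wt T (o.pair o') W • (f ((S.fst S').pt W) * f' ((S.snd S').pt W))) :=
  S.hasSum_fibRg S' hlev ho ho' h ((S.fibRg S').summable_smul hlev (S.offMem_pair S' ho ho' h)
    (B := B * B') fun W => (norm_mul_le _ _).trans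
      (mul_le_mul (hf _) (hf' _) (norm_nonneg _) ((norm_nonneg _).trans (hf ((S.fst S').pt W)))))

theorem hasSum_ZZ (hlev : ∀ c, T.lev c ≤ s) {o : Off ι A} {o' : Off ι A'} (ho : R.OffMem T o)
    (ho' : R'.OffMem T o') (h : o.map S.φ = o'.map S'.φ) :
    HasSum (fun p => R0.wt T (o.map S.φ) p * (S.Z T o p * S'.Z T o' p))
      ((S.fibRg S').M T (o.pair o')) := by
  have := S.hasSum_fibRg' S' hlev ho ho' h (f := fun _ => (1 : ℝ)) (f' := fun _ => (1 : ℝ))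
    (B := 1) (B' := 1) (by simp) (by simp)
  simpa [Rg.M, Z] using this

omit S'

/-- **variance of the fibre mass** -/
theorem var (hlev : ∀ c, T.lev c ≤ s) {η : ℝ} (hR : R.Good T η) (h0 : R0.Good T η)
    (h2 : (S.fibRg S).Good T η) {o : Off ι A} (ho : R.OffMem T o) :
    Summable (fun p => R0.wt T (o.map S.φ) p * (S.Z T o p - S.mu1 T) ^ 2) ∧
    ∑' p, R0.wt T (o.map S.φ) p * (S.Z T o p - S.mu1 T) ^ 2 ≤ 4 * η * S.mu1 T ^ 2 * R0.mu0 T := by
  have k2 := S.hasSum_ZZ S hlev ho ho rfl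
  have k1 := (S.hasSum_Z hlev ho).mul_left (2 * S.mu1 T)
  have k0 := (R0.summable_wt hlev (S.offMem_map ho)).hasSum.mul_left (S.mu1 T ^ 2)
  have k := ((k2.sub k1).add k0).congr_fun (g := fun p => R0.wt T (o.map S.φ) p *
    (S.Z T o p - S.mu1 T) ^ 2) fun p => by ring
  refine ⟨k.summable, ?_⟩
  rw [k.tsum_eq]
  have a2 := h2.le hlev (S.offMem_pair S ho ho rfl)
  have a1 := hR.ge hlev ho
  have a0 : ∑' p, R0.wt T (o.map S.φ) p ≤ _ := h0.le hlev (S.offMem_map ho)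
  rw [S.fibRg_mu0 S hlev] at a2
  rw [S.mu0_eq hlev] at a1
  have hm := S.mu1_pos (T := T) hlev
  nlinarith [mul_le_mul_of_nonneg_left a1 hm.le, mul_le_mul_of_nonneg_left a0 (sq_nonneg (S.mu1 T))]

/-- the fibre mass is `mu1` in `L¹` -/
theorem var_one (hlev : ∀ c, T.lev c ≤ s) {η : ℝ} (hη : 0 < η) (hη1 : η ≤ 1) (hR : R.Good T η)
    (h0 : R0.Good T η) (h2 : (S.fibRg S).Good T η) {o : Off ι A} (ho : R.OffMem T o) :
    Summable (fun p => R0.wt T (o.map S.φ) p * |S.Z T o p - S.mu1 T|) ∧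
    ∑' p, R0.wt T (o.map S.φ) p * |S.Z T o p - S.mu1 T| ≤ 3 * √η * R.mu0 T := by
  obtain ⟨v1, v2⟩ := S.var hlev hR h0 h2 ho
  have hm := S.mu1_pos (T := T) hlev
  have hm0 := R0.mu0_pos (T := T) hlev
  have hq := Real.sqrt_pos.2 hη
  have hq2 := Real.sq_sqrt hη.le
  set t := 2 * √η * S.mu1 T with ht
  have ht0 : 0 < t := by positivity
  have s0 := R0.summable_wt hlev (S.offMem_map ho)
  have s1 := (v1.mul_left (2 * t)⁻¹).add (s0.mul_left (t / 2))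
  have hle : ∀ p, R0.wt T (o.map S.φ) p * |S.Z T o p - S.mu1 T| ≤
      (2 * t)⁻¹ * (R0.wt T (o.map S.φ) p * (S.Z T o p - S.mu1 T) ^ 2) +
        t / 2 * R0.wt T (o.map S.φ) p := fun p => by
    have h1 : |S.Z T o p - S.mu1 T| ≤ (2 * t)⁻¹ * (S.Z T o p - S.mu1 T) ^ 2 + t / 2 := by
      rw [← sq_abs, ← sub_nonneg]
      have : (2 * t)⁻¹ * |S.Z T o p - S.mu1 T| ^ 2 + t / 2 - |S.Z T o p - S.mu1 T| =
          (2 * t)⁻¹ * (|S.Z T o p - S.mu1 T| - t) ^ 2 := by field_simp; ring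
      rw [this]; positivity
    nlinarith [mul_le_mul_of_nonneg_left h1 (R0.wt_pos (o.map S.φ) p).le]
  have s2 := Summable.of_nonneg_of_le
    (fun p => mul_nonneg (R0.wt_pos (o.map S.φ) p).le (abs_nonneg _)) hle s1
  refine ⟨s2, (s2.tsum_le_tsum hle s1).trans ?_⟩
  rw [(v1.mul_left _).tsum_add (s0.mul_left _), tsum_mul_left, tsum_mul_left, S.mu0_eq hlev]
  have a0 : ∑' p, R0.wt T (o.map S.φ) p ≤ _ := h0.le hlev (S.offMem_map ho)
  have b1 : (2 * t)⁻¹ * ∑' p, R0.wt T (o.map S.φ) p * (S.Z T o p - S.mu1 T) ^ 2 ≤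
      √η * (S.mu1 T * R0.mu0 T) := by
    rw [inv_mul_le_iff₀ (by positivity)]
    refine v2.trans (le_of_eq ?_)
    rw [ht]; linear_combination (-4 * S.mu1 T ^ 2 * R0.mu0 T) * hq2
  have b2 : t / 2 * ∑' p, R0.wt T (o.map S.φ) p ≤ t / 2 * (2 * R0.mu0 T) :=
    mul_le_mul_of_nonneg_left (a0.trans (by nlinarith)) (by positivity)
  rw [ht] at b2
  linarith

variable {V : Type} [NormedAddCommGroup V] [NormedSpace ℝ V] [CompleteSpace V]

theorem hasSum_pt (hlev : ∀ c, T.lev c ≤ s) {o : Off ι A} (ho : R.OffMem T o) {g : R0.Pt T → V}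
    {B : ℝ} (hg : ∀ p, ‖g p‖ ≤ B) :
    HasSum (fun p => (R0.wt T (o.map S.φ) p * S.Z T o p) • g p)
      (∑' w, R.wt T o w • g (S.pt w)) := by
  have := S.hasSum_fib hlev ho (R.summable_smul hlev ho (f := fun w => g (S.pt w)) fun w => hg _)
  simpa only [S.fib_pt hlev ho, smul_smul] using this

/-- **push-forward**, unnormalised -/
theorem push (hlev : ∀ c, T.lev c ≤ s) {η : ℝ} (hη : 0 < η) (hη1 : η ≤ 1) (hR : R.Good T η)
    (h0 : R0.Good T η) (h2 : (S.fibRg S).Good T η) {o : Off ι A} (ho : R.OffMem T o)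
    {g : R0.Pt T → V} {B : ℝ} (hg : ∀ p, ‖g p‖ ≤ B) :
    ‖∑' w, R.wt T o w • g (S.pt w) - S.mu1 T • ∑' p, R0.wt T (o.map S.φ) p • g p‖ ≤
      3 * √η * R.mu0 T * B := by
  obtain ⟨v1, v2⟩ := S.var_one hlev hη hη1 hR h0 h2 ho
  have hB : 0 ≤ B := (norm_nonneg _).trans (hg 0)
  have k := (S.hasSum_pt hlev ho hg).sub
    ((R0.summable_smul hlev (S.offMem_map ho) hg).hasSum.const_smul (S.mu1 T))
  rw [← k.tsum_eq]
  refine (tsum_of_norm_bounded (v1.mul_right B).hasSum fun p => ?_).trans ?_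
  · rw [smul_smul, ← sub_smul, norm_smul, mul_comm (S.mu1 T), ← mul_sub, Real.norm_eq_abs, abs_mul,
      abs_of_pos (R0.wt_pos _ _)]
    exact mul_le_mul_of_nonneg_left (hg p) (mul_nonneg (R0.wt_pos _ _).le (abs_nonneg _))
  · rw [tsum_mul_right]
    exact mul_le_mul_of_nonneg_right v2 hB

/-- **push-forward**, normalised -/
theorem push_Ex (hlev : ∀ c, T.lev c ≤ s) {η : ℝ} (hη : 0 < η) (hη1 : η ≤ 1 / 7) (hR : R.Good T η)
    (h0 : R0.Good T η) (h2 : (S.fibRg S).Good T η) {o : Off ι A} (ho : R.OffMem T o)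
    {g : R0.Pt T → V} {B : ℝ} (hg : ∀ p, ‖g p‖ ≤ B) :
    ‖R.Ex T o (fun w => g (S.pt w)) - R0.Ex T (o.map S.φ) g‖ ≤ 7 * √η * B := by
  have hB : 0 ≤ B := (norm_nonneg _).trans (hg 0)
  have k1 := S.push hlev hη (by linarith) hR h0 h2 ho hg
  have k2 := S.push hlev hη (by linarith) hR h0 h2 ho (g := fun _ => (1 : ℝ)) (B := 1) (by simp)
  simp only [smul_eq_mul, mul_one, Real.norm_eq_abs] at k2
  change |R.M T o - S.mu1 T * R0.M T (o.map S.φ)| ≤ _ at k2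
  have hM := R.M_pos hlev ho
  have hM0 := R0.M_pos hlev (S.offMem_map ho)
  have hge := hR.ge hlev ho
  have hmu := R.mu0_pos (T := T) hlev
  set X := ∑' w, R.wt T o w • g (S.pt w)
  set Y := ∑' p, R0.wt T (o.map S.φ) p • g p with hY
  have hYB : ‖Y‖ ≤ R0.M T (o.map S.φ) * B := by
    rw [Rg.M, ← tsum_mul_right]
    refine tsum_of_norm_bounded ((R0.summable_wt hlev (S.offMem_map ho)).mul_right B).hasSum
      fun p => ?_
    rw [norm_smul, Real.norm_of_nonneg (R0.wt_pos _ _).le]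
    exact mul_le_mul_of_nonneg_left (hg _) (R0.wt_pos _ _).le
  have e : R.Ex T o (fun w => g (S.pt w)) - R0.Ex T (o.map S.φ) g = (R.M T o)⁻¹ •
      ((X - S.mu1 T • Y) - ((R.M T o - S.mu1 T * R0.M T (o.map S.φ)) / R0.M T (o.map S.φ)) • Y) := by
    show (R.M T o)⁻¹ • X - (R0.M T (o.map S.φ))⁻¹ • Y = _
    rw [sub_sub, ← add_smul, smul_sub, smul_smul]
    congr 2
    field_simp; ring
  rw [e, norm_smul, Real.norm_of_nonneg (inv_pos.2 hM).le, inv_mul_le_iff₀ hM]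
  refine (norm_sub_le _ _).trans ?_
  have k3 : ‖((R.M T o - S.mu1 T * R0.M T (o.map S.φ)) / R0.M T (o.map S.φ)) • Y‖ ≤
      3 * √η * R.mu0 T * B := by
    rw [norm_smul, Real.norm_eq_abs, abs_div, abs_of_pos hM0, div_mul_eq_mul_div,
      div_le_iff₀ hM0]
    calc _ ≤ (3 * √η * R.mu0 T) * (R0.M T (o.map S.φ) * B) :=
          mul_le_mul k2 hYB (norm_nonneg _) (by positivity)
      _ = _ := by ring
  have k4 : 6 * R.mu0 T ≤ 7 * R.M T o := by nlinarith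
  nlinarith [mul_le_mul_of_nonneg_left k4 (show 0 ≤ √η * B by positivity)]

/-- the second moment of a fibre sum is a sum over the fibre square -/
theorem hasSum_sq (hlev : ∀ c, T.lev c ≤ s) {o : Off ι A} (ho : R.OffMem T o) {f : R.Pt T → 𝕜}
    {B : ℝ} (hf : ∀ w, ‖f w‖ ≤ B) :
    HasSum (fun p => R0.wt T (o.map S.φ) p * ‖S.fib T o f p‖ ^ 2)
      (RCLike.re (∑' W, (S.fibRg S).wt T (o.pair o) W •
        (f ((S.fst S).pt W) * (starRingEnd 𝕜) (f ((S.snd S).pt W))))) := by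
  have h := S.hasSum_fibRg' S hlev ho ho rfl (f := f) (f' := fun w => (starRingEnd 𝕜) (f w))
    hf (B' := B) (by simpa using hf)
  have h1 : ∀ p, S.fib T o (fun w => (starRingEnd 𝕜) (f w)) p = (starRingEnd 𝕜) (S.fib T o f p) :=
    fun p => by
      rw [fib, fib, RCLike.conj_tsum]
      exact tsum_congr fun w => by simp [RCLike.real_smul_eq_coe_mul]
  convert RCLike.hasSum_re 𝕜 h using 2 with p
  rw [h1, RCLike.mul_conj, RCLike.smul_re, ← RCLike.ofReal_pow, RCLike.ofReal_re]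

/-- **Cauchy-Schwarz over the base** -/
theorem cs (hlev : ∀ c, T.lev c ≤ s) {o : Off ι A} (ho : R.OffMem T o) {f : R.Pt T → 𝕜}
    {g : R0.Pt T → 𝕜} {B B' : ℝ} (hf : ∀ w, ‖f w‖ ≤ B) (hg : ∀ p, ‖g p‖ ≤ B') :
    ‖∑' w, R.wt T o w • (f w * g (S.pt w))‖ ^ 2 ≤
      (∑' p, R0.wt T (o.map S.φ) p * ‖g p‖ ^ 2) *
      RCLike.re (∑' W, (S.fibRg S).wt T (o.pair o) W •
        (f ((S.fst S).pt W) * (starRingEnd 𝕜) (f ((S.snd S).pt W)))) := by
  have h2 := S.hasSum_sq hlev ho hf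
  have h1 := S.hasSum_fib hlev ho (f := fun w => f w * g (S.pt w)) (R.summable_smul hlev ho
    (B := B * B') fun w => (norm_mul_le _ _).trans
      (mul_le_mul (hf _) (hg _) (norm_nonneg _) ((norm_nonneg _).trans (hf w))))
  simp only [S.fib_mul_pt] at h1
  have h3 : Summable fun p => R0.wt T (o.map S.φ) p * ‖g p‖ ^ 2 :=
    R0.summable_smul hlev (S.offMem_map ho) (f := fun p => ‖g p‖ ^ 2) (B := B' ^ 2) fun p => by
      rw [Real.norm_of_nonneg (sq_nonneg _)]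
      exact pow_le_pow_left₀ (norm_nonneg _) (hg p) 2
  rw [← h1.tsum_eq, ← h2.tsum_eq]
  have hw := fun p => (R0.wt_pos (T := T) (o.map S.φ) p).le
  have h0 : 0 ≤ (∑' p, R0.wt T (o.map S.φ) p * ‖g p‖ ^ 2) *
      ∑' p, R0.wt T (o.map S.φ) p * ‖S.fib T o f p‖ ^ 2 :=
    mul_nonneg (tsum_nonneg fun p => mul_nonneg (hw p) (sq_nonneg _))
      (tsum_nonneg fun p => mul_nonneg (hw p) (sq_nonneg _))
  refine (Real.le_sqrt (norm_nonneg _) h0).1 ?_
  refine le_of_tendsto' h1.summable.hasSum.norm fun U => (norm_sum_le _ _).trans ?_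
  refine Real.le_sqrt_of_sq_le (le_trans (Finset.sum_sq_le_sum_mul_sum_of_sq_le_mul U
    (fun p _ => mul_nonneg (hw p) (sq_nonneg ‖g p‖))
    (fun p _ => mul_nonneg (hw p) (sq_nonneg ‖S.fib T o f p‖)) fun p _ => ?_) ?_)
  · rw [norm_smul, norm_mul, Real.norm_of_nonneg (hw p)]; exact le_of_eq (by ring)
  · exact mul_le_mul (h3.sum_le_tsum _ fun p _ => mul_nonneg (hw p) (sq_nonneg _))
      (h2.summable.sum_le_tsum _ fun p _ => mul_nonneg (hw p) (sq_nonneg _))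
      (Finset.sum_nonneg fun p _ => mul_nonneg (hw p) (sq_nonneg _))
      (tsum_nonneg fun p => mul_nonneg (hw p) (sq_nonneg _))

end Sur

end Crest.Agent.T49.Rng
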