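import Crest.Agent.T49.RngPC_63
import Crest.Agent.T49.TwTri_51

/-! # Row 49 (helper63): covolumes, ideal mass, the mass theorem -/

set_option autoImplicit false

open InnerProductSpace

namespace Crest.Agent.T49.Rng
open Tw

section Vol
variable {A F : Type} [AddCommGroup A] [Module ℝ A] [NormedAddCommGroup F]
  [InnerProductSpace ℝ F] {L : Submodule ℤ A} {Q : A →ₗ[ℝ] F} {K K' : ℝ} {β β' : Type} [Fintype β]
  [Fintype β']

namespace TB

theorem v_mem (b : TB L Q K β) (j : β) : b.v j ∈ Submodule.span ℝ (L : Set A) :=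
  Submodule.subset_span (b.mem j)

theorem det_tri [DecidableEq β] (b : TB L Q K β) :
    (Matrix.of fun i j => b.co j (b.v i)).det = ∏ j, b.co j (b.v j) := by
  rw [Matrix.det_apply, Finset.sum_eq_single 1]
  · simp
  · intro σ _ hσ
    by_contra h
    have h1 : ∀ i, b.co i (b.v (σ i)) ≠ 0 := fun i h0 =>
      h (by rw [Finset.prod_eq_zero (Finset.mem_univ i) (by simpa using h0), smul_zero])
    have h2 : ∀ i, b.pos (σ i) ≤ b.pos i := fun i => by
      rcases b.tri _ _ (h1 i) with h | h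
      · rw [h]
      · exact h.le
    obtain ⟨i, hi⟩ : ∃ i, σ i ≠ i := by
      by_contra h3
      push Not at h3
      exact hσ (Equiv.ext h3)
    have h3 : b.pos (σ i) < b.pos i := (b.tri _ _ (h1 i)).resolve_left hi
    have h4 := Finset.sum_lt_sum (s := Finset.univ) (fun i _ => h2 i) ⟨i, Finset.mem_univ _, h3⟩
    rw [Equiv.sum_comp σ b.pos] at h4
    exact lt_irrefl _ h4
  · simp

theorem inner_eq (b : TB L Q K β) {x y : A} (hx : x ∈ Submodule.span ℝ (L : Set A))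
    (hy : y ∈ Submodule.span ℝ (L : Set A)) : ⟪Q x, Q y⟫_ℝ = ∑ j, b.co j x * b.co j y := by
  have h1 := b.nrm _ (add_mem hx hy)
  rw [map_add, norm_add_sq_real, b.nrm x hx, b.nrm y hy] at h1
  simp only [map_add, add_sq, Finset.sum_add_distrib, mul_assoc, ← Finset.mul_sum] at h1
  linarith

theorem gram [DecidableEq β] (b : TB L Q K β) :
    (Matrix.of fun i j => ⟪Q (b.v i), Q (b.v j)⟫_ℝ).det = (∏ j, b.co j (b.v j)) ^ 2 := by
  have : (Matrix.of fun i j => ⟪Q (b.v i), Q (b.v j)⟫_ℝ) = (Matrix.of fun i j => b.co j (b.v i)) *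
      (Matrix.of fun i j => b.co j (b.v i)).transpose := by
    ext i j
    simp [Matrix.mul_apply, b.inner_eq (b.v_mem i) (b.v_mem j)]
  rw [this, Matrix.det_mul, Matrix.det_transpose, b.det_tri, sq]

/-- reindexing -/
def reindex (b : TB L Q K β) (e : β' ≃ β) : TB L Q K β' where
  v j := b.v (e j)
  co j := b.co (e j)
  pos j := b.pos (e j)
  mem j := b.mem _
  gen y hy := by
    obtain ⟨z, hz⟩ := b.gen y hy
    exact ⟨fun j => z (e j), by rw [hz, ← Equiv.sum_comp e]⟩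
  nrm y hy := by rw [b.nrm y hy, ← Equiv.sum_comp e]
  tri i j h := (b.tri _ _ h).imp (fun h => e.injective h) id
  ne j := b.ne _
  le j := b.le _

theorem vol_reindex (b : TB L Q K β) (e : β' ≃ β) : (b.reindex e).vol = b.vol :=
  Equiv.prod_comp e fun j => |b.co j (b.v j)|⁻¹

theorem vol_eq_same (b : TB L Q K β) (b' : TB L Q K' β) : b.vol = b'.vol := by
  classical
  choose U hU using fun i => b.gen _ (b'.mem i)
  choose U' hU' using fun i => b'.gen _ (b.mem i)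
  have h1 : Matrix.of U' * Matrix.of U = 1 := by
    ext i k
    have h2 : ∑ k, (((Matrix.of U' * Matrix.of U) i k : ℝ) - ((1 : Matrix β β ℤ) i k : ℝ)) • b.v k
        = 0 := by
      simp only [sub_smul, Finset.sum_sub_distrib, Int.cast_smul_eq_zsmul]
      rw [sub_eq_zero, Finset.sum_eq_single i (f := fun k => (1 : Matrix β β ℤ) i k • b.v k)
        (fun k _ hk => by simp [Ne.symm hk]) (by simp), Matrix.one_apply_eq,
        one_smul]
      conv_rhs => rw [hU' i]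
      simp only [Matrix.mul_apply, Matrix.of_apply, Finset.sum_smul]
      rw [Finset.sum_comm]
      refine Finset.sum_congr rfl fun j _ => ?_
      rw [hU j, Finset.smul_sum]
      exact Finset.sum_congr rfl fun k _ => mul_smul _ _ _
    have := Fintype.linearIndependent_iff.1 b.indep _ h2 k
    exact_mod_cast sub_eq_zero.1 this
  have h2 : (Matrix.of U).det ^ 2 = 1 := by
    have h3 := congrArg Matrix.det h1
    rw [Matrix.det_mul, Matrix.det_one] at h3
    rcases Int.eq_one_or_neg_one_of_mul_eq_one' h3 with h | h <;> rw [h.2] <;> rfl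
  set V : Matrix β β ℝ := (Int.castRingHom ℝ).mapMatrix (Matrix.of U) with hV
  have h3 : V.det ^ 2 = 1 := by
    rw [hV, ← RingHom.map_det, ← map_pow, h2, map_one]
  have h4 : (Matrix.of fun i j => ⟪Q (b'.v i), Q (b'.v j)⟫_ℝ) =
      V * (Matrix.of fun i j => ⟪Q (b.v i), Q (b.v j)⟫_ℝ) * V.transpose := by
    ext i j
    rw [Matrix.of_apply, hU i, hU j, map_sum, map_sum, inner_sum, Matrix.mul_apply]
    refine Finset.sum_congr rfl fun k _ => ?_
    rw [sum_inner, Matrix.mul_apply, Finset.sum_mul]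
    refine Finset.sum_congr rfl fun m _ => ?_
    rw [← Int.cast_smul_eq_zsmul ℝ, ← Int.cast_smul_eq_zsmul ℝ, map_smul, map_smul,
      real_inner_smul_left, real_inner_smul_right]
    simp [hV]; ring
  have h5 := b'.gram
  rw [h4, Matrix.det_mul, Matrix.det_mul, Matrix.det_transpose, b.gram] at h5
  have h6 : (∏ j, b.co j (b.v j)) ^ 2 = (∏ j, b'.co j (b'.v j)) ^ 2 := by
    rw [← h5]; linear_combination (-(∏ j, b.co j (b.v j)) ^ 2) * h3
  unfold vol
  rw [Finset.prod_inv_distrib, Finset.prod_inv_distrib, ← Finset.abs_prod, ← Finset.abs_prod,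
    (sq_eq_sq_iff_abs_eq_abs _ _).1 h6]

theorem vol_eq (b : TB L Q K β) (b' : TB L Q K' β') : b.vol = b'.vol := by
  have e : β ≃ β' := Fintype.equivOfCardEq (by rw [← b.finrank_eq, b'.finrank_eq])
  rw [← b'.vol_reindex e, b.vol_eq_same]

/-- weakening the bound -/
def mono (b : TB L Q K β) (h : K ≤ K') : TB L Q K' β :=
  { b with le := fun j => (b.le j).trans h }

end TB

/-- reciprocal covolume of a lattice for a Euclidean window -/
noncomputable def vol0 (L : Submodule ℤ A) (Q : A →ₗ[ℝ] F) : ℝ :=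
  Classical.epsilon fun x => ∀ (K : ℝ) (β : Type) [Fintype β] (b : TB L Q K β), b.vol = x

theorem TB.vol_eq_vol0 (b : TB L Q K β) : b.vol = vol0 L Q :=
  Classical.epsilon_spec (p := fun x => ∀ (K : ℝ) (β : Type) [Fintype β] (b : TB L Q K β),
    b.vol = x) ⟨b.vol, fun _ _ _ b' => b'.vol_eq b⟩ K β b

theorem exists_TB0 (hL : IsLat L) (hQ : ∀ x ∈ Submodule.span ℝ (L : Set A), Q x = 0 → x = 0) :
    ∃ (K : ℝ) (n : ℕ) (b : TB L Q K (Fin n)), ∀ j y, Q y = 0 → b.co j y = 0 := by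
  obtain ⟨n, v, hm, hi, hg⟩ := hL.exists_basis
  refine ⟨∑ i, ‖Q (v i)‖, n, exists_TB_of_basis v hm ?_ hg fun i =>
    Finset.single_le_sum (f := fun i => ‖Q (v i)‖) (fun _ _ => norm_nonneg _) (Finset.mem_univ i)⟩
  rw [Fintype.linearIndependent_iff] at hi ⊢
  intro t ht
  refine hi t (hQ _ (Submodule.sum_mem _ fun i _ =>
    Submodule.smul_mem _ _ (Submodule.subset_span (hm i))) ?_)
  simpa using ht

theorem vol0_pos (hL : IsLat L) (hQ : ∀ x ∈ Submodule.span ℝ (L : Set A), Q x = 0 → x = 0) :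
    0 < vol0 L Q := by
  obtain ⟨K, n, b, -⟩ := exists_TB0 hL hQ
  rw [← b.vol_eq_vol0]; exact b.vol_pos

end Vol

namespace Rg
variable {s : ℕ} {A F : Type} [CommRing A] [Algebra ℝ A] [NormedAddCommGroup F]
  [InnerProductSpace ℝ F] (R : Rg s A F) {ι : Type} [Fintype ι] (T : Cell ι)

/-- rank of the level-`l` lattice -/
noncomputable def rk (l : ℕ) : ℕ := Module.finrank ℝ (R.E l)

/-- reciprocal covolume of the level-`l` lattice -/
noncomputable def vol (l : ℕ) : ℝ := vol0 (R.L l) (R.Q l)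

/-- ideal mass (basis free) -/
noncomputable def mu0 : ℝ := ∏ c, (|T.a c|⁻¹ ^ R.rk (T.lev c) * R.vol (T.lev c))

/-- all translates have the ideal mass -/
def Good (η : ℝ) : Prop := ∀ o, R.OffMem T o → |R.M T o / R.mu0 T - 1| ≤ η

theorem vol_pos {l : ℕ} (hl : l ≤ s) : 0 < R.vol l := vol0_pos (R.lat l) (R.inj l hl)

theorem mu_eq {K : ℝ} {β : ι → Type} [∀ c, Fintype (β c)]
    (tb : ∀ c, TB (R.L (T.lev c)) (R.Q (T.lev c)) K (β c)) : R.mu T tb = R.mu0 T :=
  Finset.prod_congr rfl fun c _ => by rw [(tb c).vol_eq_vol0, ← (tb c).finrank_eq]; rfl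

theorem exists_tb (hlev : ∀ c, T.lev c ≤ s) : ∃ (K : ℝ) (n : ι → ℕ),
    Nonempty (∀ c, TB (R.L (T.lev c)) (R.Q (T.lev c)) K (Fin (n c))) := by
  choose K n b _ using fun c => exists_TB0 (R.lat (T.lev c)) (R.inj _ (hlev c))
  exact ⟨∑ c, |K c|, n, ⟨fun c => (b c).mono ((le_abs_self _).trans
    (Finset.single_le_sum (f := fun c => |K c|) (fun _ _ => abs_nonneg _) (Finset.mem_univ c)))⟩⟩

variable {T}

theorem mu0_pos (hlev : ∀ c, T.lev c ≤ s) : 0 < R.mu0 T :=
  Finset.prod_pos fun c _ => mul_pos (pow_pos (inv_pos.2 (abs_pos.2 (T.a_ne c))) _)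
    (R.vol_pos (hlev c))

theorem wt_pos (o : Off ι A) (w : R.Pt T) : 0 < R.wt T o w := Real.exp_pos _

theorem wt_le_one (o : Off ι A) (w : R.Pt T) : R.wt T o w ≤ 1 :=
  Real.exp_le_one_iff.2 (by
    have : 0 ≤ ∑ c, ‖R.Q (T.lev c) (R.dv T o w c)‖ ^ 2 := Finset.sum_nonneg fun _ _ => sq_nonneg _
    nlinarith [Real.pi_pos])

theorem summable_wt (hlev : ∀ c, T.lev c ≤ s) {o : Off ι A} (ho : R.OffMem T o) :
    Summable (R.wt T o) := by
  obtain ⟨K, n, ⟨tb⟩⟩ := R.exists_tb T hlev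
  rw [← (R.ptE T tb).summable_iff]
  exact ((R.cell T tb o).summable_wgt).congr fun z => R.cell_wgt T tb hlev ho z

theorem M_pos (hlev : ∀ c, T.lev c ≤ s) {o : Off ι A} (ho : R.OffMem T o) : 0 < R.M T o :=
  (R.summable_wt hlev ho).tsum_pos (fun w => (R.wt_pos o w).le) 0 (R.wt_pos o 0)

omit [Fintype ι] in
theorem offMem_zero : R.OffMem T (Off.zero ι A) := fun _ => ⟨zero_mem _, zero_mem _⟩

variable {R}

namespace Gens
variable {γ : Type} [Fintype γ] {K : ℝ} (G : R.Gens γ K)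
include G

theorem pow_mem {a : A} {k : ℕ} (ha : Sm G.g k a) {l : ℕ} (h1 : 1 ≤ l) (hl : l ≤ s) :
    a ^ l ∈ R.L l ∧ ‖R.Q l (a ^ l)‖ ≤ k ^ l * |K| := by
  classical
  obtain ⟨n, hn, rfl⟩ := ha
  rw [pow_expand]
  refine ⟨Submodule.sum_mem _ fun u _ => Submodule.smul_mem _ _ (G.mem l h1 hl u), ?_⟩
  rw [map_sum]
  refine (norm_sum_le _ _).trans ?_
  have h2 : ∀ u : Fin l → γ, ‖R.Q l ((∏ i, (n (u i) : ℤ)) • ∏ i, G.g (u i))‖ ≤
      (∏ i, (n (u i) : ℝ)) * |K| := by
    intro u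
    rw [← Int.cast_smul_eq_zsmul ℝ, map_smul, norm_smul]
    push_cast
    rw [Real.norm_of_nonneg (Finset.prod_nonneg fun _ _ => Nat.cast_nonneg _)]
    exact mul_le_mul_of_nonneg_left ((G.nrm l h1 hl u).trans (le_abs_self _))
      (Finset.prod_nonneg fun _ _ => Nat.cast_nonneg _)
  refine (Finset.sum_le_sum fun u _ => h2 u).trans ?_
  rw [← Finset.sum_mul, ← Fintype.piFinset_univ,
    ← Finset.sum_pow' Finset.univ (fun i => (n i : ℝ)) l]
  refine mul_le_mul_of_nonneg_right (pow_le_pow_left₀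
    (Finset.sum_nonneg fun _ _ => Nat.cast_nonneg _) (by exact_mod_cast hn) _) (abs_nonneg _)

theorem rk_le {l : ℕ} (h1 : 1 ≤ l) (hl : l ≤ s) : R.rk l ≤ Fintype.card γ ^ l := by
  obtain ⟨K, n, b, -⟩ := exists_TB0 (R.lat l) (R.inj l hl)
  have := b.card_le _ (G.span l h1 hl)
  rw [Fintype.card_fun, Fintype.card_fin l] at this
  exact b.finrank_eq.trans_le this

theorem rk_le' {l : ℕ} (h1 : 1 ≤ l) (hl : l ≤ s) : R.rk l ≤ (Fintype.card γ + 1) ^ s :=
  (G.rk_le h1 hl).trans ((Nat.pow_le_pow_left (Nat.le_succ _) _).trans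
    (Nat.pow_le_pow_right (Nat.succ_pos _) hl))

theorem span_pow {l : ℕ} (h1 : 1 ≤ l) (hl : l ≤ s) :
    R.E l ≤ Submodule.span ℝ {y | ∃ a, Sm G.g s a ∧ y = a ^ l} :=
  (G.span l h1 hl).trans (Submodule.span_le.2 (by
    rintro _ ⟨u, rfl⟩; exact prod_mem_span_pow G.g hl u))

/-- short triangular bases exist, and the cells are projective covers -/
theorem exists_pc (hlev : ∀ c, T.lev c ≤ s) (hK : 1 ≤ K) {y x : ℝ}
    (hy : ((Fintype.card γ + 1 : ℕ) : ℝ) ^ s + s + Real.log K + 2 ≤ y) (hx : y ^ 6 ≤ x) :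
    ∃ (K' : ℝ) (n : ι → ℕ) (tb : ∀ c, TB (R.L (T.lev c)) (R.Q (T.lev c)) K' (Fin (n c))),
      ∀ o, T.PC x (R.cell T tb o) Sigma.fst ∧ T.Der x (R.cell T tb o) := by
  set r := (Fintype.card γ + 1) ^ s with hr
  have hr1 : 1 ≤ r := Nat.one_le_pow _ _ (Nat.succ_pos _)
  have hr1' : (1 : ℝ) ≤ r := by exact_mod_cast hr1
  have hlog : 0 ≤ Real.log K := Real.log_nonneg hK
  have hs0 : (0 : ℝ) ≤ s := Nat.cast_nonneg _
  have hy' : (r : ℝ) + s + Real.log K + 2 ≤ y := by rw [hr]; push_cast at hy ⊢; exact hy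
  choose n tb _ using fun c => exists_TB (R.lat (T.lev c)) (R.inj _ (hlev c)) (K := K) (r := r)
    (by linarith) ((G.span _ (T.lev_pos c) (hlev c)).trans (Submodule.span_mono (by
      rintro _ ⟨u, rfl⟩
      exact ⟨G.mem _ (T.lev_pos c) (hlev c) u, G.nrm _ (T.lev_pos c) (hlev c) u⟩)))
    (G.rk_le' (T.lev_pos c) (hlev c))
  have hcard : ∀ c, Fintype.card (Fin (n c)) ≤ r := fun c => by
    rw [← (tb c).finrank_eq]; exact G.rk_le' (T.lev_pos c) (hlev c)
  have hp1 : (1 : ℝ) ≤ (2 * r + 1) ^ r := one_le_pow₀ (by linarith)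
  have hK' : (1 : ℝ) ≤ (2 * r + 1) ^ r * K := one_le_mul_of_one_le_of_one_le hp1 hK
  have hp2 : (1 : ℝ) ≤ (s + 1) ^ s := one_le_pow₀ (by linarith)
  have hK2 : (1 : ℝ) ≤ (s + 1) ^ s * K := one_le_mul_of_one_le_of_one_le hp2 hK
  have hP : ∀ a, Sm G.g s a → ∀ c, a ^ T.lev c ∈ R.L (T.lev c) ∧
      ‖R.Q (T.lev c) (a ^ T.lev c)‖ ≤ (s + 1) ^ s * K := fun a ha c => by
    have h := G.pow_mem ha (T.lev_pos c) (hlev c)
    refine ⟨h.1, h.2.trans ?_⟩
    rw [abs_of_nonneg (by linarith)]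
    exact mul_le_mul_of_nonneg_right ((pow_le_pow_left₀ hs0 (by linarith) _).trans
      (pow_le_pow_right₀ (by linarith) (hlev c))) (by linarith)
  have hy3 : 3 ≤ y := by linarith
  have hy6 : 27 * y ^ 3 ≤ x := by
    have : (3 : ℝ) ^ 3 ≤ y ^ 3 := pow_le_pow_left₀ (by norm_num) hy3 3
    nlinarith [pow_pos (show 0 < y by linarith) 3]
  have hl1 : Real.log ((2 * r + 1) ^ r * K) ≤ 2 * y ^ 2 + (y - 2) := by
    rw [Real.log_mul (by positivity) (by positivity), Real.log_pow]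
    have h1 := Real.log_le_sub_one_of_pos (show (0 : ℝ) < 2 * r + 1 by positivity)
    have h2 : (r : ℝ) * Real.log (2 * r + 1) ≤ y * (2 * y) :=
      mul_le_mul (by linarith) (by linarith) (Real.log_nonneg (by linarith)) (by linarith)
    nlinarith
  have hl1' : Real.log (1 + (2 * r + 1) ^ r * K) ≤ 2 * y ^ 2 + (y - 1) := by
    have h1 : Real.log (1 + (2 * r + 1) ^ r * K) ≤ Real.log (2 * ((2 * r + 1) ^ r * K)) :=
      Real.log_le_log (by positivity) (by linarith)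
    rw [Real.log_mul (by norm_num) (by positivity)] at h1
    linarith [Real.log_two_lt_d9]
  have hx1 : r * (1 + Real.log (1 + (2 * r + 1) ^ r * K)) ≤ x := by
    have h2 : (r : ℝ) * (1 + Real.log (1 + (2 * r + 1) ^ r * K)) ≤ y * (2 * y ^ 2 + y) :=
      mul_le_mul (by linarith) (by linarith)
        (by linarith [Real.log_nonneg (show 1 ≤ 1 + (2 * r + 1 : ℝ) ^ r * K by linarith)])
        (by linarith)
    nlinarith
  have hx2 : ((s + 1 : ℝ) ^ s * K) ^ (s + 1) ≤ Real.exp x := by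
    rw [← Real.log_le_iff_le_exp (by positivity), Real.log_pow,
      Real.log_mul (by positivity) (by positivity), Real.log_pow]
    have h1 := Real.log_le_sub_one_of_pos (show (0 : ℝ) < s + 1 by positivity)
    have h2 : (s : ℝ) * Real.log (s + 1) ≤ y * y :=
      mul_le_mul (by linarith) (by linarith) (Real.log_nonneg (by linarith)) (by linarith)
    have h3 : ((s + 1 : ℕ) : ℝ) * (s * Real.log (s + 1) + Real.log K) ≤ y * (y * y + y) :=
      mul_le_mul (by push_cast; linarith) (by linarith)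
        (add_nonneg (mul_nonneg hs0 (Real.log_nonneg (by linarith))) hlog) (by linarith)
    nlinarith
  refine ⟨_, n, tb, fun o => ⟨R.cell_pc T tb o hlev hcard hr1 hK' hK2 _ hP
    (fun c => G.span_pow (T.lev_pos c) (hlev c)) (le_trans ?_ hx1) hx2,
    R.cell_der T tb o hlev hcard hr1 (by linarith) hK2 _ hP
    (fun c => G.span_pow (T.lev_pos c) (hlev c)) hx1
    (le_trans (pow_le_pow_right₀ hK2 (Nat.le_succ s)) hx2)⟩⟩
  gcongr
  linarith

/-- **mass theorem** -/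
theorem good0 (hlev : ∀ c, T.lev c ≤ s) (hK : 1 ≤ K) {y x η : ℝ}
    (hy : ((Fintype.card γ + 1 : ℕ) : ℝ) ^ s + s + Real.log K + 2 ≤ y) (hx : y ^ 6 ≤ x)
    (hA : T.AllPC x η ∨ T.AllDer x η) : R.Good T η := by
  obtain ⟨K', n, tb, h⟩ := G.exists_pc hlev hK hy hx
  intro o ho
  rw [← R.cell_M T tb hlev ho, ← R.mu_eq T tb, ← R.cell_mu T tb o]
  rcases hA with hA | hA
  · exact hA _ _ _ (h o).1
  · exact hA _ _ (h o).2

/-- **mass theorem**, in terms of `loss` -/
theorem good (hlev : ∀ c, T.lev c ≤ s) (hK : 1 ≤ K) {n : ℕ} {K' x η : ℝ}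
    (hn : Fintype.card γ ≤ 3 * n + 1) (hK' : K ≤ 2 * K') (hx : loss s n K' ≤ x)
    (hA : T.AllPC x η ∨ T.AllDer x η) : R.Good T η := by
  refine G.good0 hlev hK ?_ hx hA
  have h1 : ((Fintype.card γ + 1 : ℕ) : ℝ) ≤ ((3 * n + 2 : ℕ) : ℝ) := by
    exact_mod_cast Nat.succ_le_succ hn
  have h2 := pow_le_pow_left₀ (Nat.cast_nonneg _) h1 s
  have h3 := Real.log_le_log (by linarith) hK'
  linarith

end Gens

theorem Good.le {η : ℝ} (h : R.Good T η) (hlev : ∀ c, T.lev c ≤ s) {o : Off ι A}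
    (ho : R.OffMem T o) : R.M T o ≤ (1 + η) * R.mu0 T := by
  rw [← div_le_iff₀ (R.mu0_pos hlev)]
  linarith [(abs_le.1 (h o ho)).2]

theorem Good.ge {η : ℝ} (h : R.Good T η) (hlev : ∀ c, T.lev c ≤ s) {o : Off ι A}
    (ho : R.OffMem T o) : (1 - η) * R.mu0 T ≤ R.M T o := by
  rw [← le_div_iff₀ (R.mu0_pos hlev)]
  linarith [(abs_le.1 (h o ho)).1]

theorem Good.nonneg {η : ℝ} (h : R.Good T η) : 0 ≤ η :=
  (abs_nonneg _).trans (h _ R.offMem_zero)

theorem Good.mono {η η' : ℝ} (h : R.Good T η) (h' : η ≤ η') : R.Good T η' :=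
  fun o ho => (h o ho).trans h'

end Rg

end Crest.Agent.T49.Rng
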