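import Crest.Agent.T49.RngGen_63

/-! # Row 49 (helper63): comparison of covolumes, sublattices, domination, tails, the point ring -/

set_option autoImplicit false

open InnerProductSpace MvPolynomial

namespace Crest.Agent.T49.Rng
open Tw

section Vol
variable {A F F' : Type} [AddCommGroup A] [Module ℝ A] [NormedAddCommGroup F]
  [InnerProductSpace ℝ F] [NormedAddCommGroup F'] [InnerProductSpace ℝ F']
  {L L' : Submodule ℤ A} {Q : A →ₗ[ℝ] F} {Q' : A →ₗ[ℝ] F'} {K K' : ℝ} {β : Type} [Fintype β]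

theorem TB.sum_mem (b : TB L Q K β) (x : β → ℝ) :
    ∑ i, x i • b.v i ∈ Submodule.span ℝ (L : Set A) :=
  Submodule.sum_mem _ fun i _ => Submodule.smul_mem _ _ (b.v_mem i)

theorem TB.co_eq_zero (b : TB L Q K β) {i k : β} (h1 : i ≠ k) (h2 : b.pos k ≤ b.pos i) :
    b.co k (b.v i) = 0 := by
  by_contra h
  rcases b.tri i k h with h | h
  · exact h1 h
  · omega

theorem TB.exists_min (b : TB L Q K β)
    (hQ : ∀ x ∈ Submodule.span ℝ (L : Set A), Q x = 0 → x = 0) (j : β) :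
    ∃ x : β → ℝ, (∀ i, b.pos i ≤ b.pos j → x i = 0) ∧
      ‖Q (b.v j + ∑ i, x i • b.v i)‖ = |b.co j (b.v j)| := by
  classical
  let ex : ({i // b.pos j < b.pos i} → ℝ) →ₗ[ℝ] (β → ℝ) := LinearMap.pi fun i =>
    if h : b.pos j < b.pos i then LinearMap.proj (⟨i, h⟩ : {i // b.pos j < b.pos i}) else 0
  have hex0 : ∀ x i, b.pos i ≤ b.pos j → ex x i = 0 := fun x i h => by
    simp [ex, dif_neg (not_lt.2 h)]
  let Φ : ({i // b.pos j < b.pos i} → ℝ) →ₗ[ℝ] ({i // b.pos j < b.pos i} → ℝ) :=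
    LinearMap.pi fun k => b.co k.1 ∘ₗ Fintype.linearCombination ℝ b.v ∘ₗ ex
  have hΦ : ∀ x k, Φ x k = b.co k.1 (∑ i, ex x i • b.v i) := fun x k => by
    simp [Φ, Fintype.linearCombination_apply]
  have hlow : ∀ x k, b.pos k ≤ b.pos j → b.co k (∑ i, ex x i • b.v i) = 0 := fun x k hk => by
    rw [map_sum]
    refine Finset.sum_eq_zero fun i _ => ?_
    by_cases h : b.pos i ≤ b.pos j
    · rw [hex0 x i h, zero_smul, map_zero]
    · rw [map_smul, b.co_eq_zero (by rintro rfl; exact h hk) (by omega), smul_zero]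
  have hinj : Function.Injective Φ := by
    rw [← LinearMap.ker_eq_bot, LinearMap.ker_eq_bot']
    intro x hx
    have h1 : ‖Q (∑ i, ex x i • b.v i)‖ ^ 2 = 0 := by
      rw [b.nrm _ (b.sum_mem _)]
      refine Finset.sum_eq_zero fun k _ => ?_
      by_cases h : b.pos k ≤ b.pos j
      · rw [hlow x k h]; simp
      · rw [← hΦ x ⟨k, not_le.1 h⟩, hx]; simp
    have h2 := Fintype.linearIndependent_iff.1 b.indep _
      (hQ _ (b.sum_mem _) (by simpa using h1))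
    funext i
    simpa [ex, i.2] using h2 i.1
  obtain ⟨x, hx⟩ := LinearMap.injective_iff_surjective.1 hinj fun k => -b.co k.1 (b.v j)
  refine ⟨ex x, hex0 x, ?_⟩
  rw [← Real.sqrt_sq (norm_nonneg _), b.nrm _ (add_mem (b.v_mem j) (b.sum_mem _)),
    Finset.sum_eq_single j, map_add, hlow x j le_rfl, add_zero, Real.sqrt_sq_eq_abs]
  · intro k _ hk
    rw [map_add]
    by_cases h : b.pos k ≤ b.pos j
    · rw [hlow x k h, b.co_eq_zero hk.symm h]; simp
    · rw [← hΦ x ⟨k, not_le.1 h⟩, hx]; simp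
  · simp

/-- **monotonicity of the covolume in the window** -/
theorem vol0_mono (hL : IsLat L) (hQ : ∀ x ∈ Submodule.span ℝ (L : Set A), Q x = 0 → x = 0)
    {C : ℝ} (h : ∀ y ∈ Submodule.span ℝ (L : Set A), ‖Q y‖ ≤ C * ‖Q' y‖) :
    vol0 L Q' ≤ C ^ Module.finrank ℝ (Submodule.span ℝ (L : Set A)) * vol0 L Q := by
  have hQ' : ∀ x ∈ Submodule.span ℝ (L : Set A), Q' x = 0 → x = 0 := fun x hx h0 =>
    hQ x hx (norm_le_zero_iff.1 (by simpa [h0] using h x hx))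
  obtain ⟨n, v, hm, hi, hg⟩ := hL.exists_basis
  have ind : ∀ {G : Type} [NormedAddCommGroup G] [InnerProductSpace ℝ G] (P : A →ₗ[ℝ] G),
      (∀ x ∈ Submodule.span ℝ (L : Set A), P x = 0 → x = 0) →
      ∃ b : TB L P (∑ i, ‖P (v i)‖) (Fin n), b.v = v ∧ b.pos = fun j : Fin n => n - j := by
    intro G _ _ P hP
    obtain ⟨b, -, hb⟩ := exists_TB_of_basis' (Q := P) v hm (by
      rw [Fintype.linearIndependent_iff] at hi ⊢
      intro t ht
      refine hi t (hP _ (Submodule.sum_mem _ fun i _ =>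
        Submodule.smul_mem _ _ (Submodule.subset_span (hm i))) ?_)
      simpa using ht) hg fun i => Finset.single_le_sum (f := fun i => ‖P (v i)‖)
        (fun _ _ => norm_nonneg _) (Finset.mem_univ i)
    exact ⟨b, hb⟩
  obtain ⟨b, hb1, hb2⟩ := ind Q hQ
  obtain ⟨b', hb1', hb2'⟩ := ind Q' hQ'
  rw [← b.vol_eq_vol0, ← b'.vol_eq_vol0, b.finrank_eq, TB.vol, TB.vol, ← Finset.card_univ,
    ← Finset.prod_const, ← Finset.prod_mul_distrib]
  refine Finset.prod_le_prod (fun j _ => by positivity) fun j _ => ?_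
  obtain ⟨x, hx, e⟩ := b'.exists_min hQ' j
  have hy := add_mem (b'.v_mem j) (b'.sum_mem x)
  have h1 := (b.abs_co_le hy j).trans (h _ hy)
  have h2 : b.co j (b'.v j + ∑ i, x i • b'.v i) = b.co j (b.v j) := by
    rw [map_add, map_sum, hb1'.trans hb1.symm, add_eq_left]
    refine Finset.sum_eq_zero fun i _ => ?_
    by_cases hi : b'.pos i ≤ b'.pos j
    · rw [hx i hi, zero_smul, map_zero]
    · rw [map_smul, b.co_eq_zero (by rintro rfl; exact hi le_rfl)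
        (by rw [hb2.trans hb2'.symm]; omega), smul_zero]
  rw [e, h2] at h1
  rw [← div_eq_mul_inv, inv_eq_one_div, div_le_div_iff₀ (abs_pos.2 (b'.ne j)) (abs_pos.2 (b.ne j))]
  linarith

theorem TB.vol_le_of_le (b : TB L Q K β) (b' : TB L' Q K' β) (h : L' ≤ L) : b'.vol ≤ b.vol := by
  classical
  choose U hU using fun i => b.gen _ (h (b'.mem i))
  set V : Matrix β β ℝ := (Int.castRingHom ℝ).mapMatrix (Matrix.of U) with hV
  have h3 : V.det = ((Matrix.of U).det : ℤ) := by rw [hV, ← RingHom.map_det]; rfl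
  have h4 : (Matrix.of fun i j => ⟪Q (b'.v i), Q (b'.v j)⟫_ℝ) =
      V * (Matrix.of fun i j => ⟪Q (b.v i), Q (b.v j)⟫_ℝ) * V.transpose := by
    ext i j
    rw [Matrix.of_apply, hU i, hU j, map_sum, map_sum, inner_sum, Matrix.mul_apply]
    refine Finset.sum_congr rfl fun k _ => ?_
    rw [sum_inner, Matrix.mul_apply, Finset.sum_mul]
    refine Finset.sum_congr rfl fun m _ => ?_
    rw [← Int.cast_smul_eq_zsmul ℝ, ← Int.cast_smul_eq_zsmul ℝ, map_smul, map_smul,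
      real_inner_smul_left, real_inner_smul_right]
    simp [hV]; ring
  have h5 := b'.gram
  rw [h4, Matrix.det_mul, Matrix.det_mul, Matrix.det_transpose, b.gram, h3] at h5
  have p' : ∏ j, b'.co j (b'.v j) ≠ 0 := Finset.prod_ne_zero_iff.2 fun j _ => b'.ne j
  have p : ∏ j, b.co j (b.v j) ≠ 0 := Finset.prod_ne_zero_iff.2 fun j _ => b.ne j
  have hd : (Matrix.of U).det ≠ 0 := fun h0 => p' (by
    rw [h0] at h5
    exact pow_eq_zero_iff two_ne_zero |>.1 (by simpa using h5.symm))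
  have hd1 : (1 : ℝ) ≤ (((Matrix.of U).det : ℤ) : ℝ) ^ 2 := by
    exact_mod_cast (one_le_sq_iff_one_le_abs _).2 (Int.one_le_abs hd)
  unfold TB.vol
  rw [Finset.prod_inv_distrib, Finset.prod_inv_distrib, ← Finset.abs_prod, ← Finset.abs_prod]
  refine inv_anti₀ (abs_pos.2 p) (sq_le_sq.1 ?_)
  nlinarith [sq_nonneg (∏ j, b.co j (b.v j))]

/-- **monotonicity of the covolume in the lattice** -/
theorem vol0_le_of_le (hL : IsLat L) (hQ : ∀ x ∈ Submodule.span ℝ (L : Set A), Q x = 0 → x = 0)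
    (h : L' ≤ L) (hE : Submodule.span ℝ (L' : Set A) = Submodule.span ℝ (L : Set A)) :
    vol0 L' Q ≤ vol0 L Q := by
  obtain ⟨K, n, b, -⟩ := exists_TB0 hL hQ
  obtain ⟨K', n', b', -⟩ := exists_TB0 (hL.mono h) (Q := Q) (hE ▸ hQ)
  have e : Fin n ≃ Fin n' := Fintype.equivOfCardEq (by rw [← b.finrank_eq, ← b'.finrank_eq, hE])
  rw [← b.vol_eq_vol0, ← b'.vol_eq_vol0, ← b'.vol_reindex e]
  exact b.vol_le_of_le _ h

/-- the lattice `g L` -/
def mulL (g : ℤ) (L : Submodule ℤ A) : Submodule ℤ A := L.map (g • LinearMap.id)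

omit [Module ℝ A] in
theorem mem_mulL {g : ℤ} {y : A} : y ∈ mulL g L ↔ ∃ x ∈ L, g • x = y := Iff.rfl

omit [Module ℝ A] in
theorem mulL_le (g : ℤ) (L : Submodule ℤ A) : mulL g L ≤ L := by
  rintro _ ⟨x, hx, rfl⟩; exact L.smul_mem g hx

theorem span_eq_of_mul (h : L' ≤ L) {g : ℤ} (hg : g ≠ 0) (h' : ∀ y ∈ L, g • y ∈ L') :
    Submodule.span ℝ (L' : Set A) = Submodule.span ℝ (L : Set A) := by
  refine le_antisymm (Submodule.span_mono h) (Submodule.span_le.2 fun y hy => ?_)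
  have := Submodule.smul_mem _ (g : ℝ)⁻¹ (Submodule.subset_span (R := ℝ) (h' y hy))
  rwa [← Int.cast_smul_eq_zsmul ℝ, smul_smul, inv_mul_cancel₀ (by exact_mod_cast hg),
    one_smul] at this

theorem span_mulL {g : ℤ} (hg : g ≠ 0) (L : Submodule ℤ A) :
    Submodule.span ℝ (mulL g L : Set A) = Submodule.span ℝ (L : Set A) :=
  span_eq_of_mul (mulL_le g L) hg fun y hy => ⟨y, hy, rfl⟩

theorem vol0_mulL (hL : IsLat L) (hQ : ∀ x ∈ Submodule.span ℝ (L : Set A), Q x = 0 → x = 0)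
    {g : ℤ} (hg : g ≠ 0) : vol0 (mulL g L) Q =
      |(g : ℝ)|⁻¹ ^ Module.finrank ℝ (Submodule.span ℝ (L : Set A)) * vol0 L Q := by
  have hg' : (g : ℝ) ≠ 0 := by exact_mod_cast hg
  rw [← vol0_smul hL hQ hg']
  refine (vol0_iso hL (hL.mono (mulL_le g L)) (φ := (g : ℝ) • LinearMap.id)
    (fun y hy => ⟨y, hy, by simp [Int.cast_smul_eq_zsmul]⟩) ?_
    (fun x hx h => hQ x hx ((smul_eq_zero.1 h).resolve_left hg')) fun y _ => by simp).1.symm
  rintro _ ⟨x, hx, rfl⟩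
  exact ⟨x, hx, by simp [Int.cast_smul_eq_zsmul]⟩

/-- a sublattice containing `g L` -/
theorem vol0_ge_of_mul (hL : IsLat L) (hQ : ∀ x ∈ Submodule.span ℝ (L : Set A), Q x = 0 → x = 0)
    (h : L' ≤ L) {g : ℤ} (hg : g ≠ 0) (h' : ∀ y ∈ L, g • y ∈ L') :
    |(g : ℝ)|⁻¹ ^ Module.finrank ℝ (Submodule.span ℝ (L : Set A)) * vol0 L Q ≤ vol0 L' Q := by
  rw [← vol0_mulL hL hQ hg]
  have hE := span_eq_of_mul h hg h'
  refine vol0_le_of_le (hL.mono h) (hE ▸ hQ) ?_ (by rw [hE, span_mulL hg])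
  rintro _ ⟨x, hx, rfl⟩
  exact h' x hx

end Vol

/-- shift the lattice offset -/
def Off.sh {ι A : Type} [Add A] (o : Off ι A) (r : ι → A) : Off ι A :=
  ⟨fun c => o.r c + r c, o.cen⟩

namespace Rg
variable {s : ℕ} {A F A' F' : Type} [CommRing A] [Algebra ℝ A] [NormedAddCommGroup F]
  [InnerProductSpace ℝ F] [CommRing A'] [Algebra ℝ A'] [NormedAddCommGroup F']
  [InnerProductSpace ℝ F'] (R : Rg s A F) {ι : Type} {T : Cell ι}

/-- other lattices with the same real spans -/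
def setL (L' : ℕ → Submodule ℤ A) (hl : ∀ l, IsLat (L' l))
    (hE : ∀ l, Submodule.span ℝ (L' l : Set A) = R.E l) : Rg s A F where
  L := L'
  t0 := R.t0
  Q := R.Q
  lat := hl
  one_mem := by rw [hE]; exact R.one_mem
  t0_mem := by rw [hE]; exact R.t0_mem
  mul_mem i j h := by rw [hE, hE, hE]; exact R.mul_mem i j h
  inj l h := by rw [hE]; exact R.inj l h

theorem setL_E (L' : ℕ → Submodule ℤ A) (hl : ∀ l, IsLat (L' l))
    (hE : ∀ l, Submodule.span ℝ (L' l : Set A) = R.E l) (l : ℕ) : (R.setL L' hl hE).E l = R.E l :=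
  hE l

/-- the sublattices `g l • L l` (classes modulo `g`) -/
def mul (g : ℕ → ℤ) (hg : ∀ l, g l ≠ 0) : Rg s A F :=
  R.setL (fun l => mulL (g l) (R.L l)) (fun l => (R.lat l).mono (mulL_le _ _))
    fun l => span_mulL (hg l) _

/-- generators of a pattern with smaller lattices -/
def Gens.setL {R : Rg s A F} {γ : Type} {K : ℝ} (G : R.Gens γ K) (L' : ℕ → Submodule ℤ A)
    (hl : ∀ l, IsLat (L' l)) (hE : ∀ l, Submodule.span ℝ (L' l : Set A) = R.E l) (g : ℤ)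
    (hg : g ≠ 0) (h : ∀ l, 1 ≤ l → l ≤ s → ∀ y ∈ R.L l, g ^ l • y ∈ L' l) :
    (R.setL L' hl hE).Gens γ (|(g : ℝ)| ^ s * |K|) where
  g j := g • G.g j
  mem l h1 h2 u := by
    rw [Finset.prod_smul, Finset.prod_const, Finset.card_univ, Fintype.card_fin]
    exact h l h1 h2 _ (G.mem l h1 h2 u)
  nrm l h1 h2 u := by
    rw [Finset.prod_smul, Finset.prod_const, Finset.card_univ, Fintype.card_fin,
      ← Int.cast_smul_eq_zsmul ℝ, map_smul, norm_smul, Int.cast_pow, norm_pow, Real.norm_eq_abs]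
    exact mul_le_mul (pow_le_pow_right₀ (by exact_mod_cast Int.one_le_abs hg) h2)
      ((G.nrm l h1 h2 u).trans (le_abs_self _)) (norm_nonneg _) (by positivity)
  span l h1 h2 := by
    rw [setL_E]
    refine (G.span l h1 h2).trans (Submodule.span_le.2 ?_)
    rintro _ ⟨u, rfl⟩
    have : ∏ i, G.g (u i) = ((g : ℝ) ^ l)⁻¹ • ∏ i, g • G.g (u i) := by
      rw [Finset.prod_smul, Finset.prod_const, Finset.card_univ, Fintype.card_fin,
        ← Int.cast_smul_eq_zsmul ℝ, smul_smul, Int.cast_pow,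
        inv_mul_cancel₀ (pow_ne_zero _ (by exact_mod_cast hg)), one_smul]
    show ∏ i, G.g (u i) ∈ _
    rw [this]
    exact Submodule.smul_mem _ _ (Submodule.subset_span ⟨u, rfl⟩)

/-- generators of the classes modulo `g` -/
def Gens.mul {R : Rg s A F} {γ : Type} {K : ℝ} (G : R.Gens γ K) (g : ℕ → ℤ) (hg : ∀ l, g l ≠ 0)
    (g0 : ℤ) (h0 : g0 ≠ 0) (h : ∀ l, 1 ≤ l → l ≤ s → g l ∣ g0 ^ l) :
    (R.mul g hg).Gens γ (|(g0 : ℝ)| ^ s * |K|) :=
  G.setL _ _ _ g0 h0 fun l h1 h2 y hy => by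
    obtain ⟨k, hk⟩ := h l h1 h2
    exact ⟨k • y, Submodule.smul_mem _ k hy, by rw [hk, mul_smul]; rfl⟩

theorem offMem_sh {o : Off ι A} (ho : R.OffMem T o) {r : ι → A} (hr : ∀ c, r c ∈ R.E (T.lev c)) :
    R.OffMem T (o.sh r) := fun c => ⟨add_mem (ho c).1 (hr c), (ho c).2⟩

/-- windows along an algebra map -/
theorem dv_map (R' : Rg s A' F') (φ : A' →ₐ[ℝ] A) (ht : φ R'.t0 = R.t0) {o : Off ι A}
    {o' : Off ι A'} {w : R.Pt T} {w' : R'.Pt T} (hu : ∀ c, R.up o w c = φ (R'.up o' w' c))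
    (hc : ∀ c, o.cen c = φ (o'.cen c)) (c : ι) : R.dv T o w c = φ (R'.dv T o' w' c) := by
  unfold dv th
  rw [map_sub, hev_map, ht, hc, funext hu]

variable [Fintype ι]

theorem mu0_le_of_vol (R' : Rg s A' F') (hlev : ∀ c, T.lev c ≤ s) {C : ℝ}
    (hr : ∀ l ≤ s, R'.rk l = R.rk l) (h : ∀ l ≤ s, R'.vol l ≤ C ^ R.rk l * R.vol l) :
    R'.mu0 T ≤ C ^ R.rank T * R.mu0 T := by
  unfold mu0 rank
  rw [← Finset.prod_pow_eq_pow_sum, ← Finset.prod_mul_distrib]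
  refine Finset.prod_le_prod (fun c _ => mul_nonneg (by positivity) (R'.vol_pos (hlev c)).le)
    fun c _ => ?_
  rw [hr _ (hlev c), mul_left_comm]
  exact mul_le_mul_of_nonneg_left (h _ (hlev c)) (by positivity)

/-- wider windows: `|Q y| ≤ C |Q' y|` gives `mu0' ≤ C ^ rank * mu0` -/
theorem setQ_mu0_le (hlev : ∀ c, T.lev c ≤ s) (Q' : ℕ → A →ₗ[ℝ] F')
    (h : ∀ l ≤ s, ∀ x ∈ R.E l, Q' l x = 0 → x = 0) {C : ℝ}
    (hC : ∀ l ≤ s, ∀ y ∈ R.E l, ‖R.Q l y‖ ≤ C * ‖Q' l y‖) :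
    (R.setQ Q' h).mu0 T ≤ C ^ R.rank T * R.mu0 T :=
  R.mu0_le_of_vol _ hlev (fun _ _ => rfl) fun l hl => vol0_mono (R.lat l) (R.inj l hl) (hC l hl)

/-- comparison of the ideal masses along a map that is bijective on the lattices -/
theorem mu0_le_of_map (R' : Rg s A' F') (hlev : ∀ c, T.lev c ≤ s) (φ : A →ₗ[ℝ] A')
    (hm : ∀ l ≤ s, ∀ y ∈ R.L l, φ y ∈ R'.L l) (ho : ∀ l ≤ s, ∀ y ∈ R'.L l, ∃ x ∈ R.L l, φ x = y)
    {C : ℝ} (hC : ∀ l ≤ s, ∀ y ∈ R.E l, ‖R.Q l y‖ ≤ C * ‖R'.Q l (φ y)‖) :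
    R'.mu0 T ≤ C ^ R.rank T * R.mu0 T := by
  have key : ∀ l ≤ s, vol0 (R.L l) (R'.Q l ∘ₗ φ) = R'.vol l ∧ R.rk l = R'.rk l := fun l hl =>
    vol0_iso (R.lat l) (R'.lat l) (hm l hl) (ho l hl) (fun x hx h => R.inj l hl x hx
      (norm_le_zero_iff.1 (by simpa [show R'.Q l (φ x) = 0 from h] using hC l hl x hx)))
      fun _ _ => rfl
  exact R.mu0_le_of_vol _ hlev (fun l hl => (key l hl).2.symm) fun l hl => by
    rw [← (key l hl).1]; exact vol0_mono (R.lat l) (R.inj l hl) (hC l hl)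

theorem mul_mu0 (hlev : ∀ c, T.lev c ≤ s) (g : ℕ → ℤ) (hg : ∀ l, g l ≠ 0) :
    (R.mul g hg).mu0 T = (∏ c, |(g (T.lev c) : ℝ)|⁻¹ ^ R.rk (T.lev c)) * R.mu0 T := by
  unfold mu0
  rw [← Finset.prod_mul_distrib]
  refine Finset.prod_congr rfl fun i _ => ?_
  have h1 : (R.mul g hg).vol (T.lev i) = _ := vol0_mulL (R.lat _) (R.inj _ (hlev i)) (hg _)
  have h2 : (R.mul g hg).rk (T.lev i) = R.rk (T.lev i) := by
    unfold rk; rw [mul, setL_E]
  rw [h1, h2]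
  show _ * (_ ^ R.rk (T.lev i) * R.vol (T.lev i)) = _
  ring

theorem setL_mu0 (hlev : ∀ c, T.lev c ≤ s) (L' : ℕ → Submodule ℤ A) (hl : ∀ l, IsLat (L' l))
    (hE : ∀ l, Submodule.span ℝ (L' l : Set A) = R.E l) (hle : ∀ l ≤ s, L' l ≤ R.L l) {g : ℤ}
    (hg : g ≠ 0) (h : ∀ l ≤ s, ∀ y ∈ R.L l, g • y ∈ L' l) :
    (R.setL L' hl hE).mu0 T ≤ R.mu0 T ∧
      R.mu0 T ≤ |(g : ℝ)| ^ R.rank T * (R.setL L' hl hE).mu0 T := by
  have hr : ∀ l, (R.setL L' hl hE).rk l = R.rk l := fun l => by unfold rk; rw [setL_E]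
  have hg' : 0 < |(g : ℝ)| := abs_pos.2 (by exact_mod_cast hg)
  constructor
  · simpa using R.mu0_le_of_vol (R.setL L' hl hE) hlev (C := 1) (fun l _ => hr l) fun l h1 => by
      rw [one_pow, one_mul]
      exact vol0_le_of_le (R.lat l) (R.inj l h1) (hle l h1) (hE l)
  · have : (R.setL L' hl hE).rank T = R.rank T := Finset.sum_congr rfl fun c _ => hr _
    rw [← this]
    refine (R.setL L' hl hE).mu0_le_of_vol R hlev (fun l _ => (hr l).symm) fun l h1 => ?_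
    have h2 := vol0_ge_of_mul (R.lat l) (R.inj l h1) (hle l h1) hg (h l h1)
    rw [inv_pow, inv_mul_le_iff₀ (pow_pos hg' _)] at h2
    rw [hr]; exact h2

theorem wt_le_of (R' : Rg s A' F') {o : Off ι A} {o' : Off ι A'} {w : R.Pt T} {w' : R'.Pt T}
    (h : ∀ c, ‖R.Q (T.lev c) (R.dv T o w c)‖ ≤ ‖R'.Q (T.lev c) (R'.dv T o' w' c)‖) :
    R'.wt T o' w' ≤ R.wt T o w :=
  Real.exp_le_exp.2 (mul_le_mul_of_nonpos_left (Finset.sum_le_sum fun c _ =>
    pow_le_pow_left₀ (norm_nonneg _) (h c) 2) (by linarith [Real.pi_pos]))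

theorem wt_eq_of (R' : Rg s A' F') {o : Off ι A} {o' : Off ι A'} {w : R.Pt T} {w' : R'.Pt T}
    (h : ∀ c, ‖R.Q (T.lev c) (R.dv T o w c)‖ = ‖R'.Q (T.lev c) (R'.dv T o' w' c)‖) :
    R'.wt T o' w' = R.wt T o w :=
  le_antisymm (R.wt_le_of R' fun c => (h c).le) (R'.wt_le_of R fun c => (h c).ge)

/-- **domination** along an injection of points -/
theorem tsum_le_of_inj (hlev : ∀ c, T.lev c ≤ s) {o : Off ι A} (ho : R.OffMem T o) {X : Type}
    {e : X → R.Pt T} (he : Function.Injective e) {ρ : X → ℝ} (h0 : ∀ x, 0 ≤ ρ x) {C : ℝ}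
    (hC : 0 ≤ C) (h : ∀ x, ρ x ≤ C * R.wt T o (e x)) {g : R.Pt T → ℝ} {B : ℝ} (hg0 : ∀ w, 0 ≤ g w)
    (hg : ∀ w, g w ≤ B) :
    Summable (fun x => ρ x * g (e x)) ∧ ∑' x, ρ x * g (e x) ≤ C * ∑' w, R.wt T o w * g w := by
  have h1 : Summable fun w => C * (R.wt T o w * g w) := (R.summable_smul hlev ho (f := g) (B := B)
    fun w => by rw [Real.norm_of_nonneg (hg0 w)]; exact hg w).mul_left C
  have h2 : ∀ x, ρ x * g (e x) ≤ C * (R.wt T o (e x) * g (e x)) := fun x => by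
    rw [← mul_assoc]; exact mul_le_mul_of_nonneg_right (h x) (hg0 _)
  have h3 := Summable.of_nonneg_of_le (fun x => mul_nonneg (h0 x) (hg0 _)) h2
    (h1.comp_injective he)
  refine ⟨h3, ?_⟩
  rw [← tsum_mul_left]
  exact h3.tsum_le_tsum_of_inj e he
    (fun w _ => mul_nonneg hC (mul_nonneg (R.wt_pos _ _).le (hg0 _))) h2 h1

/-- the class `r + L'` -/
def clsPt (L' : ℕ → Submodule ℤ A) (hl : ∀ l, IsLat (L' l))
    (hE : ∀ l, Submodule.span ℝ (L' l : Set A) = R.E l) (hle : ∀ l, L' l ≤ R.L l) (r : R.Pt T)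
    (w : (R.setL L' hl hE).Pt T) : R.Pt T := fun c => r c + ⟨w c, hle _ (w c).2⟩

open Classical in
/-- **sums over a class** -/
theorem tsum_cls (L' : ℕ → Submodule ℤ A) (hl : ∀ l, IsLat (L' l))
    (hE : ∀ l, Submodule.span ℝ (L' l : Set A) = R.E l) (hle : ∀ l, L' l ≤ R.L l) (r : R.Pt T)
    (o : Off ι A) {V : Type} [NormedAddCommGroup V] [NormedSpace ℝ V] (f : R.Pt T → V) :
    ∑' w, R.wt T o w • (if ∀ c, (w c : A) - r c ∈ L' (T.lev c) then f w else 0) =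
      ∑' w, (R.setL L' hl hE).wt T (o.sh fun c => r c) w • f (R.clsPt L' hl hE hle r w) := by
  have hinj : Function.Injective (R.clsPt L' hl hE hle r) := fun w w' h => funext fun c =>
    Subtype.ext (add_left_cancel (a := (r c : A)) (congrArg Subtype.val (congrFun h c)))
  rw [← hinj.tsum_eq]
  · refine tsum_congr fun w => ?_
    rw [if_pos (fun c => by simp [clsPt])]
    congr 1
    refine ((R.setL L' hl hE).wt_eq_of R fun c => ?_)
    rw [R.dv_map (R.setL L' hl hE) (AlgHom.id ℝ A) rfl (o' := o.sh fun c => r c) (w' := w)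
      (fun c => (add_assoc _ _ _).symm) fun _ => rfl]
    rfl
  · intro w hw
    by_cases h : ∀ c, (w c : A) - r c ∈ L' (T.lev c)
    · exact ⟨fun c => ⟨_, h c⟩, funext fun c => Subtype.ext (by simp [clsPt])⟩
    · exact absurd (by simp only [if_neg h, smul_zero]) hw

theorem scl_wt (c : ℝ) (hc : c ≠ 0) (o : Off ι A) (w : R.Pt T) :
    (R.scl c hc).wt T o w =
      Real.exp (-Real.pi * (c ^ 2 * ∑ i, ‖R.Q (T.lev i) (R.dv T o w i)‖ ^ 2)) := by
  unfold wt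
  rw [Finset.mul_sum _ _ (c ^ 2)]
  congr 2
  refine Finset.sum_congr rfl fun i _ => ?_
  show ‖c • R.Q (T.lev i) (R.dv T o w i)‖ ^ 2 = _
  rw [norm_smul, mul_pow, Real.norm_eq_abs, sq_abs]

theorem sqrt_two_inv_ne : (√2)⁻¹ ≠ 0 := by positivity

theorem half_wt (o : Off ι A) (w : R.Pt T) : (R.scl _ sqrt_two_inv_ne).wt T o w =
    Real.exp (-Real.pi * ((∑ i, ‖R.Q (T.lev i) (R.dv T o w i)‖ ^ 2) / 2)) := by
  rw [scl_wt, inv_pow, Real.sq_sqrt zero_le_two, inv_mul_eq_div]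

open Classical in
/-- **tails** -/
theorem tail (hlev : ∀ c, T.lev c ≤ s) {o : Off ι A} (ho : R.OffMem T o) (r : ℝ) :
    ∑' w, R.wt T o w * (if r ≤ ∑ i, ‖R.Q (T.lev i) (R.dv T o w i)‖ ^ 2 then 1 else 0) ≤
      Real.exp (-Real.pi * r / 2) * (R.scl _ sqrt_two_inv_ne).M T o := by
  have h1 := ((R.scl _ sqrt_two_inv_ne).summable_wt hlev ho).mul_left (Real.exp (-Real.pi * r / 2))
  have h2 : ∀ w, R.wt T o w * (if r ≤ ∑ i, ‖R.Q (T.lev i) (R.dv T o w i)‖ ^ 2 then 1 else 0) ≤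
      Real.exp (-Real.pi * r / 2) * (R.scl _ sqrt_two_inv_ne).wt T o w := fun w => by
    split_ifs with h
    · rw [half_wt, ← Real.exp_add, mul_one, wt]
      exact Real.exp_le_exp.2 (by nlinarith [Real.pi_pos])
    · rw [mul_zero]; exact (mul_pos (Real.exp_pos _) (wt_pos _ _ _)).le
  rw [M, ← tsum_mul_left]
  exact (Summable.of_nonneg_of_le (fun w => mul_nonneg (R.wt_pos _ _).le (by positivity)) h2
    h1).tsum_le_tsum h2 h1

/-- **moving the centre** -/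
theorem wt_cen_le (o : Off ι A) (cen : ι → A) (w : R.Pt T) :
    R.wt T ⟨o.r, cen⟩ w ≤ Real.exp (Real.pi * ∑ i, ‖R.Q (T.lev i) (cen i - o.cen i)‖ ^ 2) *
      (R.scl _ sqrt_two_inv_ne).wt T o w := by
  rw [half_wt, ← Real.exp_add, wt]
  refine Real.exp_le_exp.2 ?_
  have : ∑ i, ‖R.Q (T.lev i) (R.dv T o w i)‖ ^ 2 ≤
      2 * ∑ i, ‖R.Q (T.lev i) (R.dv T ⟨o.r, cen⟩ w i)‖ ^ 2 +
        2 * ∑ i, ‖R.Q (T.lev i) (cen i - o.cen i)‖ ^ 2 := by
    rw [Finset.mul_sum, Finset.mul_sum, ← Finset.sum_add_distrib]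
    refine Finset.sum_le_sum fun i _ => ?_
    have e : R.dv T o w i = R.dv T ⟨o.r, cen⟩ w i + (cen i - o.cen i) := by
      show R.th T (R.up o w) i - o.cen i = R.th T (R.up o w) i - cen i + _
      abel
    rw [e, map_add]
    have := norm_add_le (R.Q (T.lev i) (R.dv T ⟨o.r, cen⟩ w i)) (R.Q (T.lev i) (cen i - o.cen i))
    have := pow_le_pow_left₀ (norm_nonneg _) this 2
    nlinarith [sq_nonneg (‖R.Q (T.lev i) (R.dv T ⟨o.r, cen⟩ w i)‖ -
      ‖R.Q (T.lev i) (cen i - o.cen i)‖)]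
  nlinarith [Real.pi_pos]

end Rg

end Crest.Agent.T49.Rng
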