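import Crest.Agent.T49.RngTB_63
import Crest.Agent.T49.MxCov_53

/-! # Row 49 (helper63): the cell `T(A)` is a projective cover of `T` -/

set_option autoImplicit false

open MvPolynomial

namespace Crest.Agent.T49.Rng
open Tw

section MC
variable {κ A : Type} [CommRing A] [Algebra ℝ A]

/-- `MCP` for polynomials with coefficients in `A` -/
def mcSub (cl : κ → ℕ) (j : ℕ) : Submodule ℝ (MvPolynomial κ A) where
  carrier := {f | ∀ m ∈ f.support, ∀ c' ∈ m.support,
    cl c' < j ∨ (cl c' = j ∧ m = Finsupp.single c' 1)}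
  add_mem' := by
    classical
    intro f g hf hg m hm
    rcases Finset.mem_union.1 (support_add hm) with h | h
    exacts [hf m h, hg m h]
  zero_mem' := by intro m hm; simp at hm
  smul_mem' := fun r f hf m hm => hf m (support_smul hm)

theorem C_mul_mem_mcSub {cl : κ → ℕ} {j : ℕ} (a : A) {f : MvPolynomial κ A}
    (hf : f ∈ mcSub cl j) : C a * f ∈ mcSub cl j := fun m hm => hf m (by
  rw [mem_support_iff] at hm ⊢
  rw [coeff_C_mul] at hm
  exact right_ne_zero_of_mul hm)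

theorem mcSub_of_wt {cl : κ → ℕ} {j : ℕ} {f : MvPolynomial κ A}
    (hf : f ∈ wtSub (fun x => if cl x < j then 0 else 1) (· = 0)) : f ∈ mcSub cl j := by
  intro m hm c hc
  left
  by_contra h
  have h1 : Finsupp.weight (fun x => if cl x < j then 0 else 1) m = 0 := hf m hm
  have h2 := Finsupp.le_weight_of_ne_zero (w := fun x => if cl x < j then 0 else 1)
    (fun _ => Nat.zero_le _) (Finsupp.mem_support_iff.1 hc)
  simp only [if_neg h] at h2
  omega

theorem X_mem_mcSub {cl : κ → ℕ} (c : κ) : (X c : MvPolynomial κ A) ∈ mcSub cl (cl c) := by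
  intro m hm c' hc'
  have := support_monomial_subset (s := Finsupp.single c 1) (a := (1 : A)) hm
  rw [Finset.mem_singleton] at this
  subst this
  obtain rfl : c' = c := by simpa using Finsupp.support_single_subset hc'
  exact Or.inr ⟨rfl, rfl⟩

theorem aeval_mem_mcSub {ι : Type} {cl : ι → ℕ} {cl' : κ → ℕ} {W : ι → MvPolynomial κ A}
    (hW : ∀ c, W c ∈ mcSub cl' (cl c))
    (hW' : ∀ j c, cl c < j → W c ∈ wtSub (fun x => if cl' x < j then 0 else 1) (· = 0))
    {f : Pl ι} {j : ℕ} (hf : MCP cl f j) : aeval W f ∈ mcSub cl' j := by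
  classical
  rw [f.as_sum, map_sum]
  refine Submodule.sum_mem _ fun m hm => ?_
  rw [aeval_monomial, ← Algebra.smul_def]
  refine Submodule.smul_mem _ _ ?_
  by_cases h : ∀ c ∈ m.support, cl c < j
  · refine mcSub_of_wt ?_
    refine Finset.prod_induction _ (· ∈ wtSub (A := A) (fun x => if cl' x < j then 0 else 1)
      (· = 0)) (fun a b ha hb => wtSub_mul (fun a b ha hb => by omega) ha hb)
      (C_mem_wtSub (A := A) (p := (· = 0)) rfl 1) fun c hc => ?_
    induction m c with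
    | zero => exact C_mem_wtSub (A := A) (p := (· = 0)) rfl 1
    | succ k ih =>
      show W c ^ (k + 1) ∈ _
      rw [pow_succ]
      exact wtSub_mul (fun a b ha hb => by omega) ih (hW' j c (h c hc))
  · push Not at h
    obtain ⟨c, hc, hj⟩ := h
    rcases hf m hm c hc with h1 | ⟨h1, h2⟩
    · omega
    · subst h2
      rw [Finsupp.prod_single_index (by simp), pow_one, ← h1]
      exact hW c

end MC

namespace Rg
variable {s : ℕ} {A F : Type} [CommRing A] [Algebra ℝ A] [NormedAddCommGroup F]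
  [InnerProductSpace ℝ F] (R : Rg s A F) {ι : Type} [Fintype ι] (T : Cell ι) {K : ℝ}
  {β : ι → Type} [∀ c, Fintype (β c)]
  (tb : ∀ c, TB (R.L (T.lev c)) (R.Q (T.lev c)) K (β c)) (o : Off ι A)

theorem cell_isMC {cl : ι → ℕ} (h : T.IsMC cl) : (R.cell T tb o).IsMC (cl ∘ Sigma.fst) := by
  refine Cell.isMC_of_th (fun c => h.pos c.1) fun x => ?_
  rw [cell_th]
  have h1 : R.Thp T tb o x.1 ∈ mcSub (A := A) (cl ∘ Sigma.fst) (cl x.1) := by
    have hC : ∀ (a : A) j, (C a : MvPolynomial (Σ c, β c) A) ∈ mcSub (cl ∘ Sigma.fst) j :=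
      fun a j => mcSub_of_wt (C_mem_wtSub (p := (· = 0)) rfl a)
    refine sub_mem (Submodule.sum_mem _ fun d _ => ?_) (hC _ _)
    rw [← map_pow]
    refine C_mul_mem_mcSub _ (aeval_mem_mcSub (fun c => add_mem (hC _ _) ?_) (fun j c hc => ?_)
      ((h.th x.1).top _ _))
    · exact Submodule.sum_mem _ fun j _ => C_mul_mem_mcSub _ (X_mem_mcSub (cl := cl ∘ Sigma.fst)
        (⟨c, j⟩ : Σ c, β c))
    · exact add_mem (C_mem_wtSub (p := (· = 0)) rfl _) (R.W0_mem T tb fun i => if_pos hc)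
  exact fun m hm => h1 m (support_coP _ _ hm)

theorem cell_dcov {K2 : ℝ} (P : A → Prop)
    (hP : ∀ a, P a → ∀ c, a ^ T.lev c ∈ R.L (T.lev c) ∧ ‖R.Q (T.lev c) (a ^ T.lev c)‖ ≤ K2)
    (hsp : ∀ c, R.E (T.lev c) ≤ Submodule.span ℝ {y | ∃ a, P a ∧ y = a ^ T.lev c}) :
    T.DCov (R.cell T tb o) Sigma.fst K2 := by
  classical
  intro ξ' hξ'
  have hex : ∃ a, P a ∧ ∃ c, ∑ j, ξ' ⟨c, j⟩ * (tb c).co j (a ^ T.lev c) ≠ 0 := by
    by_contra hcon
    push Not at hcon
    apply hξ'
    funext y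
    obtain ⟨c, j⟩ := y
    have hz : ∀ y ∈ R.E (T.lev c), ∑ j, ξ' ⟨c, j⟩ * (tb c).co j y = 0 := by
      intro y hy
      have hy' := hsp c hy
      clear hy
      induction hy' using Submodule.span_induction with
      | mem y hy => obtain ⟨a, ha, rfl⟩ := hy; exact hcon a ha c
      | zero => simp
      | add y z _ _ hy hz => simp only [map_add, mul_add, Finset.sum_add_distrib, hy, hz, add_zero]
      | smul t y _ hy =>
        simp only [map_smul, smul_eq_mul, mul_left_comm _ t, ← Finset.mul_sum, hy, mul_zero]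
    have := (tb c).sep (ξ := fun j => ξ' ⟨c, j⟩) fun i =>
      hz _ (Submodule.subset_span ((tb c).mem i))
    exact congrFun this j
  obtain ⟨a, ha, c0, hc0⟩ := hex
  choose n hn using fun c => (tb c).gen _ (hP a ha c).1
  set n' : (Σ c, β c) → ℤ := fun y => n y.1 y.2
  set κ : (Σ c, β c) → ℝ := fun y => (tb y.1).co y.2 (a ^ T.lev y.1) with hκ
  refine ⟨fun y => C (n' y : ℝ) * X y.1, fun y c => if c = y.1 then κ y else 0,
    ⟨fun y => (isInt_X _).int_mul _, fun y => (isWeightedHomogeneous_X ℝ T.lev y.1).C_mul _,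
      fun y c h => ?_, fun y => ?_, fun y => ?_⟩, fun y c h => ?_, fun y c h => ?_, c0, ?_⟩
  · by_cases hc : c = y.1
    · rw [hc]; rfl
    · exact absurd (if_neg hc) h
  · rw [Finset.sum_eq_single y.1 (fun c _ hc => by simp [hc]) (by simp), if_pos rfl]
    exact ((tb y.1).abs_co_le (Submodule.subset_span (hP a ha y.1).1) y.2).trans (hP a ha y.1).2
  · rw [R.bind_tth T tb o a n' hn, Finset.sum_eq_single y.1 (fun c _ hc => by simp [hc]) (by simp),
      if_pos rfl]
  · by_contra hc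
    exact h (if_neg hc)
  · by_contra hc
    apply h
    rw [coeff_C_mul, coeff_X, if_neg, mul_zero]
    intro h1
    exact hc ((Finsupp.single_left_inj one_ne_zero).1 h1).symm
  · rw [Fintype.sum_sigma, Finset.sum_eq_single c0 (fun c _ hc => by simp [Ne.symm hc]) (by simp)]
    simpa using hc0

/-- **the cell of `A`-points is a projective cover** -/
theorem cell_pc (hlev : ∀ c, T.lev c ≤ s) {r : ℕ} (hr : ∀ c, Fintype.card (β c) ≤ r)
    (hr1 : 1 ≤ r) (hK : 1 ≤ K) {K2 x : ℝ} (hK2 : 1 ≤ K2) (P : A → Prop)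
    (hP : ∀ a, P a → ∀ c, a ^ T.lev c ∈ R.L (T.lev c) ∧ ‖R.Q (T.lev c) (a ^ T.lev c)‖ ≤ K2)
    (hsp : ∀ c, R.E (T.lev c) ≤ Submodule.span ℝ {y | ∃ a, P a ∧ y = a ^ T.lev c})
    (hx1 : r * (1 + Real.log K) ≤ x) (hx2 : K2 ^ (s + 1) ≤ Real.exp x) :
    T.PC x (R.cell T tb o) Sigma.fst := by
  refine (R.cell_dcov T tb o P hP hsp).pc' hK2 hlev hx2 (fun _ => rfl) hr1 hK (fun c => ?_)
    (fun y => ?_) hx1 fun cl h => R.cell_isMC T tb o h
  · refine le_trans (Nat.card_le_card_of_surjective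
      (fun j : β c => (⟨⟨c, j⟩, rfl⟩ : {c' : Σ c, β c // c'.1 = c})) ?_) (by simpa using hr c)
    rintro ⟨⟨c', j⟩, rfl⟩
    exact ⟨j, rfl⟩
  · show |T.a y.1 * _| ≤ _
    rw [abs_mul, mul_comm]
    exact mul_le_mul_of_nonneg_right ((tb y.1).le _) (abs_nonneg _)

end Rg

end Crest.Agent.T49.Rng
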