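import Crest.Agent.T49.RngOps_63

/-! # Row 49 (helper63): the point ring, patterns with an explicit basis, composition,
isomorphisms, products -/

set_option autoImplicit false

open MvPolynomial

namespace Crest.Agent.T49.Rng
open Tw

section Pt

/-- the integers in `ℝ` -/
def zL : Submodule ℤ ℝ := Submodule.span ℤ {1}

theorem mem_zL {y : ℝ} : y ∈ zL ↔ ∃ n : ℤ, (n : ℝ) = y := by
  simp [zL, Submodule.mem_span_singleton]

theorem span_zL : Submodule.span ℝ (zL : Set ℝ) = ⊤ := by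
  refine eq_top_iff.2 fun y _ => ?_
  simpa using Submodule.smul_mem (Submodule.span ℝ (zL : Set ℝ)) y
    (Submodule.subset_span (mem_zL.2 ⟨1, Int.cast_one⟩))

/-- the basis `1` -/
noncomputable def zTB {q : ℝ} (hq : q ≠ 0) : TB zL (q • LinearMap.id : ℝ →ₗ[ℝ] ℝ) |q| Unit where
  v _ := 1
  co _ := q • LinearMap.id
  pos _ := 0
  mem _ := mem_zL.2 ⟨1, Int.cast_one⟩
  gen y hy := let ⟨n, h⟩ := mem_zL.1 hy; ⟨fun _ => n, by simp [h]⟩
  nrm y _ := by simp [mul_pow]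
  tri _ _ _ := Or.inl rfl
  ne _ := by simpa using hq
  le _ := by simp

theorem isLat_zL : IsLat zL := isLat_of_gen (zTB one_ne_zero).indep (zTB one_ne_zero).gen

/-- **the point ring** with window scales `q l` -/
noncomputable def ptRg (s : ℕ) (q : ℕ → ℝ) (hq : ∀ l, q l ≠ 0) : Rg s ℝ ℝ where
  L _ := zL
  t0 := 1
  Q l := q l • LinearMap.id
  lat _ := isLat_zL
  one_mem := by rw [span_zL]; trivial
  t0_mem := by rw [span_zL]; trivial
  mul_mem _ _ _ _ _ _ _ := by rw [span_zL]; trivial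
  inj l _ x _ h := by simpa [hq l] using h

variable {s : ℕ} {q : ℕ → ℝ} (hq : ∀ l, q l ≠ 0) {ι : Type} (T : Cell ι)

theorem ptRg_E (l : ℕ) : (ptRg s q hq).E l = ⊤ := span_zL

theorem ptRg_offMem (o : Off ι ℝ) : (ptRg s q hq).OffMem T o := fun _ => by
  simp [ptRg_E]

theorem ptRg_Q (l : ℕ) (y : ℝ) : (ptRg s q hq).Q l y = q l * y := rfl

/-- points of the point ring -/
noncomputable def ptZ : (ι → ℤ) ≃ (ptRg s q hq).Pt T :=
  Equiv.piCongrRight fun _ => Equiv.ofBijective (fun n : ℤ => (⟨n, mem_zL.2 ⟨n, rfl⟩⟩ : zL))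
    ⟨fun _ _ h => Int.cast_injective (α := ℝ) (congrArg Subtype.val h),
      fun y => let ⟨n, h⟩ := mem_zL.1 y.2; ⟨n, Subtype.ext h⟩⟩

theorem ptZ_apply (z : ι → ℤ) (c : ι) : ((ptZ (s := s) hq T z c : zL) : ℝ) = z c := rfl

theorem ptRg_dv (o : Off ι ℝ) (z : ι → ℤ) (c : ι) : (ptRg s q hq).dv T o (ptZ hq T z) c =
    eval (fun c => o.r c + z c) (T.th c) - o.cen c := by
  unfold Rg.dv Rg.th
  rw [show (ptRg s q hq).t0 = 1 from rfl, hev_one _ _ (degLe_th T c)]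
  rfl

variable [Fintype ι]

theorem ptRg_wt (o : Off ι ℝ) (z : ι → ℤ) : (ptRg s q hq).wt T o (ptZ hq T z) =
    Real.exp (-Real.pi * ∑ c, (q (T.lev c) *
      (eval (fun c => o.r c + z c) (T.th c) - o.cen c)) ^ 2) := by
  simp only [Rg.wt, ptRg_dv, ptRg_Q, Real.norm_eq_abs, sq_abs]

theorem ptRg_wt_zero (z : ι → ℤ) : (ptRg s q hq).wt T (Off.zero ι ℝ) (ptZ hq T z) =
    Real.exp (-Real.pi * ∑ c, (q (T.lev c) * ev z (T.th c)) ^ 2) := by
  simp [ptRg_wt, Off.zero, ev]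

theorem ptRg_wt_one (z : ι → ℤ) :
    (ptRg s (fun _ => 1) fun _ => one_ne_zero).wt T (Off.zero ι ℝ) (ptZ _ T z) = T.wgt z := by
  simp [ptRg_wt_zero, Tri.wgt]

omit [Fintype ι] in
theorem ptRg_vol (l : ℕ) : (ptRg s q hq).vol l = |q l|⁻¹ ∧ (ptRg s q hq).rk l = 1 :=
  ⟨((zTB (hq l)).vol_eq_vol0.symm).trans (by simp [TB.vol, zTB]), (zTB (hq l)).finrank_eq⟩

theorem ptRg_mu0 : (ptRg s q hq).mu0 T = T.mu * ∏ c, |q (T.lev c)|⁻¹ := by
  unfold Rg.mu0 Tri.mu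
  rw [← Finset.prod_mul_distrib]
  exact Finset.prod_congr rfl fun c _ => by rw [(ptRg_vol hq _).1, (ptRg_vol hq _).2, pow_one]

theorem ptRg_rank : (ptRg s q hq).rank T = Fintype.card ι := by
  have : ∀ c, Module.finrank ℝ ((ptRg s q hq).E (T.lev c)) = 1 := fun c => (ptRg_vol hq _).2
  simp [Rg.rank, this]

/-- generator of the point ring -/
noncomputable def ptGens {K : ℝ} (hK : ∀ l, 1 ≤ l → l ≤ s → |q l| ≤ K) :
    (ptRg s q hq).Gens Unit K where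
  g _ := 1
  mem _ _ _ _ := mem_zL.2 ⟨1, by simp⟩
  nrm l h1 h2 _ := by simpa [ptRg_Q] using hK l h1 h2
  span l _ _ y _ := by simp

end Pt

section Basis
variable {A κ : Type} [AddCommGroup A] [Module ℝ A] [Fintype κ] [DecidableEq κ]

/-- lattice spanned by part of a family -/
def bL (v : κ → A) (I : Finset κ) : Submodule ℤ A :=
  Submodule.span ℤ (Set.range fun j : I => v j)

/-- diagonal window -/
noncomputable def bQ (co : κ → A →ₗ[ℝ] ℝ) (I : Finset κ) (sc : κ → ℝ) :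
    A →ₗ[ℝ] EuclideanSpace ℝ κ :=
  (WithLp.linearEquiv 2 ℝ (κ → ℝ)).symm.toLinearMap ∘ₗ
    LinearMap.pi fun j => if j ∈ I then (sc j)⁻¹ • co j else 0

theorem norm_bQ (co : κ → A →ₗ[ℝ] ℝ) (I : Finset κ) (sc : κ → ℝ) (y : A) :
    ‖bQ co I sc y‖ ^ 2 = ∑ j ∈ I, (co j y / sc j) ^ 2 := by
  rw [EuclideanSpace.real_norm_sq_eq, ← Finset.sum_subset (Finset.subset_univ I)]
  · exact Finset.sum_congr rfl fun j hj => by simp [bQ, hj, div_eq_inv_mul]
  · intro j _ hj; simp [bQ, hj]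

omit [Module ℝ A] [Fintype κ] [DecidableEq κ] in
theorem mem_bL {v : κ → A} {I : Finset κ} {y : A} :
    y ∈ bL v I ↔ ∃ z : I → ℤ, ∑ j, z j • v j = y :=
  Submodule.mem_span_range_iff_exists_fun ℤ

omit [Fintype κ] [DecidableEq κ] in
theorem span_bL (v : κ → A) (I : Finset κ) : Submodule.span ℝ (bL v I : Set A) =
    Submodule.span ℝ (Set.range fun j : I => v j) := Submodule.span_span_of_tower ℤ ℝ _

/-- the diagonal basis -/
noncomputable def bTB {v : κ → A} {co : κ → A →ₗ[ℝ] ℝ} {I : Finset κ}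
    (h : ∀ i ∈ I, ∀ j ∈ I, co j (v i) = if i = j then 1 else 0) {sc : κ → ℝ}
    (hsc : ∀ j ∈ I, sc j ≠ 0) {K : ℝ} (hK : ∀ j ∈ I, |sc j|⁻¹ ≤ K) :
    TB (bL v I) (bQ co I sc) K I where
  v j := v j
  co j := (sc j)⁻¹ • co j
  pos _ := 0
  mem j := Submodule.subset_span ⟨j, rfl⟩
  gen y hy := let ⟨z, h⟩ := mem_bL.1 hy; ⟨z, h.symm⟩
  nrm y _ := by
    rw [norm_bQ, ← Finset.sum_coe_sort]
    simp [div_eq_inv_mul]
  tri i j h1 := Or.inl (by
    by_contra h2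
    exact h1 (by simp [h i i.2 j j.2, Subtype.coe_ne_coe.2 h2]))
  ne j := by simp [h j j.2 j j.2, hsc j j.2]
  le j := by simpa [h j j.2 j j.2, abs_inv] using hK j j.2

theorem bL_spec {v : κ → A} {co : κ → A →ₗ[ℝ] ℝ} {I : Finset κ}
    (h : ∀ i ∈ I, ∀ j ∈ I, co j (v i) = if i = j then 1 else 0) {sc : κ → ℝ}
    (hsc : ∀ j ∈ I, sc j ≠ 0) : IsLat (bL v I) ∧
      (∀ x ∈ Submodule.span ℝ (bL v I : Set A), bQ co I sc x = 0 → x = 0) ∧
      vol0 (bL v I) (bQ co I sc) = ∏ j ∈ I, |sc j| ∧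
      Module.finrank ℝ (Submodule.span ℝ (bL v I : Set A)) = I.card := by
  have b := bTB h hsc (K := ∑ j ∈ I, |sc j|⁻¹) fun j hj =>
    Finset.single_le_sum (f := fun j => |sc j|⁻¹) (fun _ _ => by positivity) hj
  set b' := bTB h hsc (K := ∑ j ∈ I, |sc j|⁻¹) fun j hj =>
    Finset.single_le_sum (f := fun j => |sc j|⁻¹) (fun _ _ => by positivity) hj with hb
  refine ⟨isLat_of_gen b.indep b.gen, fun x hx h0 => ?_, ?_, by simpa using b.finrank_eq⟩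
  · rw [span_bL] at hx
    obtain ⟨t, rfl⟩ := (Submodule.mem_span_range_iff_exists_fun ℝ).1 hx
    have h1 := norm_bQ co I sc (∑ j : I, t j • v j)
    rw [h0, norm_zero, zero_pow two_ne_zero, eq_comm,
      Finset.sum_eq_zero_iff_of_nonneg fun _ _ => sq_nonneg _] at h1
    refine Finset.sum_eq_zero fun j _ => ?_
    have h2 := h1 j j.2
    rw [map_sum, Finset.sum_eq_single j (fun i _ hi => by
      simp [h i i.2 j j.2, Subtype.coe_ne_coe.2 hi]) (by simp)] at h2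
    simp only [map_smul, h j j.2 j j.2, if_true, smul_eq_mul, mul_one, ne_eq, OfNat.ofNat_ne_zero,
      not_false_eq_true, pow_eq_zero_iff, div_eq_zero_iff, hsc j j.2, or_false] at h2
    rw [h2, zero_smul]
  · rw [← b'.vol_eq_vol0, TB.vol, ← Finset.prod_coe_sort I]
    exact Finset.prod_congr rfl fun j _ => by simp [hb, bTB, h j j.2 j j.2, abs_inv]

end Basis

section BRg
variable {A κ : Type} [CommRing A] [Algebra ℝ A] [Fintype κ] [DecidableEq κ]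

/-- **pattern with an explicit basis and diagonal windows** -/
noncomputable def bRg (s : ℕ) (v : κ → A) (co : κ → A →ₗ[ℝ] ℝ) (I : ℕ → Finset κ)
    (h : ∀ l, ∀ i ∈ I l, ∀ j ∈ I l, co j (v i) = if i = j then 1 else 0) (sc : ℕ → κ → ℝ)
    (hsc : ∀ l, ∀ j ∈ I l, sc l j ≠ 0) (t0 : A)
    (h1 : (1 : A) ∈ Submodule.span ℝ (Set.range fun j : I 0 => v j))
    (ht : t0 ∈ Submodule.span ℝ (Set.range fun j : I 1 => v j))
    (hm : ∀ a b, a + b ≤ s → ∀ i ∈ I a, ∀ j ∈ I b,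
      v i * v j ∈ Submodule.span ℝ (Set.range fun j : I (a + b) => v j)) :
    Rg s A (EuclideanSpace ℝ κ) where
  L l := bL v (I l)
  t0 := t0
  Q l := bQ co (I l) (sc l)
  lat l := (bL_spec (h l) (hsc l)).1
  one_mem := by rw [span_bL]; exact h1
  t0_mem := by rw [span_bL]; exact ht
  mul_mem a b hab x hx y hy := by
    rw [span_bL] at hx hy ⊢
    obtain ⟨t, rfl⟩ := (Submodule.mem_span_range_iff_exists_fun ℝ).1 hx
    obtain ⟨u, rfl⟩ := (Submodule.mem_span_range_iff_exists_fun ℝ).1 hy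
    rw [Finset.sum_mul_sum]
    refine Submodule.sum_mem _ fun i _ => Submodule.sum_mem _ fun j _ => ?_
    rw [smul_mul_smul_comm]
    exact Submodule.smul_mem _ _ (hm a b hab i i.2 j j.2)
  inj l _ := (bL_spec (h l) (hsc l)).2.1

end BRg

variable {s : ℕ} {A F A' F' A0 F0 F1 F2 : Type} [CommRing A] [Algebra ℝ A] [NormedAddCommGroup F]
  [InnerProductSpace ℝ F] [CommRing A'] [Algebra ℝ A'] [NormedAddCommGroup F']
  [InnerProductSpace ℝ F'] [CommRing A0] [Algebra ℝ A0] [NormedAddCommGroup F0]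
  [InnerProductSpace ℝ F0] [NormedAddCommGroup F1] [InnerProductSpace ℝ F1]
  [NormedAddCommGroup F2] [InnerProductSpace ℝ F2]

/-- an isometric surjection -/
def isoSur (R : Rg s A F) (R0 : Rg s A0 F0) (φ : A →ₐ[ℝ] A0) (hm : ∀ l, ∀ y ∈ R.L l, φ y ∈ R0.L l)
    (ho : ∀ l, ∀ y0 ∈ R0.L l, ∃ y ∈ R.L l, φ y = y0) (ht : φ R.t0 = R0.t0)
    (hn : ∀ l ≤ s, ∀ y ∈ R.E l, ‖R.Q l y‖ = ‖R0.Q l (φ y)‖) : Sur R R0 F where
  φ := φ
  maps := hm
  onto := ho
  map_t0 := ht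
  Q1 _ := 0
  pyth l hl y hy := by simp [hn l hl y hy]
  ker _ _ _ _ := ⟨0, zero_mem _, map_zero _, rfl⟩

namespace Sur
variable {R : Rg s A F} {R' : Rg s A' F'} {R0 : Rg s A0 F0} {ι : Type} {T : Cell ι}

theorem pt_inj (S : Sur R R0 F1) (hlev : ∀ c, T.lev c ≤ s) (h : ∀ l, S.Q1 l = 0) :
    Function.Injective (S.pt (T := T)) := fun w w' e => funext fun c => Subtype.ext (by
  have h1 : (w c : A) - w' c ∈ R.E (T.lev c) := Submodule.subset_span (sub_mem (w c).2 (w' c).2)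
  have h2 := S.pyth _ (hlev c) _ h1
  have h3 : S.φ (w c) = S.φ (w' c) := congrArg Subtype.val (congrFun e c)
  rw [map_sub S.φ, h3, sub_self, h] at h2
  exact sub_eq_zero.1 (R.inj _ (hlev c) _ h1 (by simpa using h2)))

/-- isometric surjections preserve all sums -/
theorem tsum_iso [Fintype ι] (S : Sur R R0 F1) (hlev : ∀ c, T.lev c ≤ s) (h : ∀ l, S.Q1 l = 0)
    {o : Off ι A} (ho : R.OffMem T o) {V : Type} [NormedAddCommGroup V] [NormedSpace ℝ V]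
    (g : R0.Pt T → V) :
    ∑' w, R.wt T o w • g (S.pt w) = ∑' p, R0.wt T (o.map S.φ) p • g p := by
  rw [← (Equiv.ofBijective _ ⟨S.pt_inj hlev h, S.pt_surj⟩).tsum_eq]
  refine tsum_congr fun w => ?_
  rw [S.wt_eq hlev ho]
  simp [w1, h]

theorem mu0_iso [Fintype ι] (S : Sur R R0 F1) (hlev : ∀ c, T.lev c ≤ s) (h : ∀ l, S.Q1 l = 0) :
    R.mu0 T = R0.mu0 T := by
  refine Finset.prod_congr rfl fun c _ => ?_
  have := vol0_iso (φ := S.φ.toLinearMap) (R.lat _) (R0.lat _) (S.maps _) (S.onto _)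
    (Q0 := R0.Q (T.lev c)) (R.inj _ (hlev c)) fun y hy => by
      have := S.pyth _ (hlev c) y hy
      rw [h] at this
      exact (pow_left_inj₀ (norm_nonneg _) (norm_nonneg _) two_ne_zero).1 (by simpa using this)
  unfold Rg.rk Rg.vol Rg.E
  rw [this.1, this.2]

theorem exists_sec (S : Sur R R0 F1) (l : ℕ) (hl : l ≤ s) : ∀ y0 ∈ R0.E l,
    ∃ y ∈ R.E l, S.φ y = y0 ∧ S.Q1 l y = 0 := fun y0 h => by
  obtain ⟨y, hy, rfl⟩ := S.onto_E h
  obtain ⟨y', h1, h2, h3, -⟩ := S.exists_min hl hy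
  exact ⟨y', h1, h2, h3⟩

/-- composition -/
noncomputable def comp (S : Sur R R' F1) (S' : Sur R' R0 F2) : Sur R R0 (WithLp 2 (F1 × F2)) where
  φ := S'.φ.comp S.φ
  maps l y hy := S'.maps l _ (S.maps l y hy)
  onto l y0 h := by
    obtain ⟨y1, h1, rfl⟩ := S'.onto l y0 h
    obtain ⟨y, hy, rfl⟩ := S.onto l y1 h1
    exact ⟨y, hy, rfl⟩
  map_t0 := by rw [AlgHom.comp_apply, S.map_t0, S'.map_t0]
  Q1 l := l2 (S.Q1 l) (S'.Q1 l ∘ₗ S.φ.toLinearMap)
  pyth l hl y hy := by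
    rw [norm_l2_sq, S.pyth l hl y hy, S'.pyth l hl _ (S.map_E hy)]
    show _ = ‖R0.Q l (S'.φ (S.φ y))‖ ^ 2 + (_ + ‖S'.Q1 l (S.φ y)‖ ^ 2)
    ring
  ker l hl y hy := by
    obtain ⟨k1, a1, a2, a3⟩ := S.ker l hl y hy
    obtain ⟨k2, b1, b2, b3⟩ := S'.ker l hl _ (S.map_E hy)
    obtain ⟨k, c1, c2, c3⟩ := S.exists_sec l hl k2 b1
    refine ⟨k1 + k, add_mem a1 c1, ?_, ?_⟩
    · rw [AlgHom.comp_apply, map_add, a2, c2, zero_add, b2]
    · show WithLp.toLp 2 (S.Q1 l (k1 + k), S'.Q1 l (S.φ (k1 + k))) =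
        WithLp.toLp 2 (S.Q1 l y, S'.Q1 l (S.φ y))
      rw [map_add, map_add, a3, c3, a2, c2, add_zero, zero_add, b3]

theorem comp_pt (S : Sur R R' F1) (S' : Sur R' R0 F2) (w : R.Pt T) :
    (S.comp S').pt w = S'.pt (S.pt w) := rfl

theorem comp_mu1 [Fintype ι] (S : Sur R R' F1) (S' : Sur R' R0 F2) (hlev : ∀ c, T.lev c ≤ s) :
    (S.comp S').mu1 T = S.mu1 T * S'.mu1 T := by
  have h := (S.comp S').mu0_eq (T := T) hlev
  rw [S.mu0_eq hlev, S'.mu0_eq hlev, ← mul_assoc] at h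
  exact (mul_right_cancel₀ (R0.mu0_pos hlev).ne' h).symm

/-- lift of an offset with vanishing fibre part -/
theorem exists_off (S : Sur R R0 F1) {o0 : Off ι A0} (h : R0.OffMem T o0) :
    ∃ o, R.OffMem T o ∧ o.map S.φ = o0 := by
  choose r hr er using fun c => S.onto_E (h c).1
  choose d hd ed using fun c => S.onto_E (h c).2
  exact ⟨⟨r, d⟩, fun c => ⟨hr c, hd c⟩, by simp [Off.map, er, ed]⟩

end Sur

/-- the positive functional of a pattern -/
noncomputable def Rg.pf (R : Rg s A F) {ι : Type} [Fintype ι] {T : Cell ι}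
    (hlev : ∀ c, T.lev c ≤ s) {o : Off ι A} (ho : R.OffMem T o) : Samp.PF (R.Pt T) :=
  Samp.PF.ofTsum (fun w => (R.M T o)⁻¹ * R.wt T o w) ((R.summable_wt hlev ho).mul_left _)
    fun w => (mul_pos (inv_pos.2 (R.M_pos hlev ho)) (R.wt_pos o w)).le

theorem Rg.pf_E (R : Rg s A F) {ι : Type} [Fintype ι] {T : Cell ι}
    (hlev : ∀ c, T.lev c ≤ s) {o : Off ι A} (ho : R.OffMem T o) {f : R.Pt T → ℝ}
    (hf : Samp.Bdd f) : (R.pf hlev ho).E f = R.Ex T o f := by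
  rw [Rg.pf, Samp.PF.ofTsum_E _ _ _ hf, Rg.Ex, smul_eq_mul, ← tsum_mul_left]
  exact tsum_congr fun w => mul_assoc _ _ _

theorem bRg_vol {κ : Type} [Fintype κ] [DecidableEq κ] (v : κ → A) (co : κ → A →ₗ[ℝ] ℝ)
    (I : ℕ → Finset κ) (h) (sc : ℕ → κ → ℝ) (hsc) (t0 : A) (h1) (ht) (hm) (l : ℕ) :
    (bRg s v co I h sc hsc t0 h1 ht hm).vol l = ∏ j ∈ I l, |sc l j| ∧
      (bRg s v co I h sc hsc t0 h1 ht hm).rk l = (I l).card := (bL_spec (h l) (hsc l)).2.2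

end Crest.Agent.T49.Rng
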