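import Crest.Agent.T49.RngMass_63

/-! # Row 49 (helper63): surjections of patterns: volumes, fibre sums, fibre products -/

set_option autoImplicit false

namespace Crest.Agent.T49.Rng
open Tw

section Split
variable {A A0 F F0 F1 : Type} [AddCommGroup A] [Module ℝ A] [AddCommGroup A0] [Module ℝ A0]
  [NormedAddCommGroup F] [InnerProductSpace ℝ F] [NormedAddCommGroup F0] [InnerProductSpace ℝ F0]
  [NormedAddCommGroup F1] [InnerProductSpace ℝ F1]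

/-- kernel lattice -/
def kerL (L : Submodule ℤ A) (φ : A →ₗ[ℝ] A0) : Submodule ℤ A :=
  L ⊓ LinearMap.ker (φ.restrictScalars ℤ)

theorem mem_kerL {L : Submodule ℤ A} {φ : A →ₗ[ℝ] A0} {y : A} :
    y ∈ kerL L φ ↔ y ∈ L ∧ φ y = 0 := Iff.rfl

theorem map_mem_span {L : Submodule ℤ A} {L0 : Submodule ℤ A0} (φ : A →ₗ[ℝ] A0)
    (hm : ∀ y ∈ L, φ y ∈ L0) {y : A} (hy : y ∈ Submodule.span ℝ (L : Set A)) :
    φ y ∈ Submodule.span ℝ (L0 : Set A0) :=
  (Submodule.span_le (p := (Submodule.span ℝ (L0 : Set A0)).comap φ)).2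
    (fun y hy => Submodule.subset_span (hm y hy)) hy

theorem onto_span {L : Submodule ℤ A} {L0 : Submodule ℤ A0} (φ : A →ₗ[ℝ] A0)
    (ho : ∀ y0 ∈ L0, ∃ y ∈ L, φ y = y0) {y0 : A0} (hy : y0 ∈ Submodule.span ℝ (L0 : Set A0)) :
    ∃ y ∈ Submodule.span ℝ (L : Set A), φ y = y0 :=
  (Submodule.span_le (p := (Submodule.span ℝ (L : Set A)).map φ)).2
    (fun y hy => let ⟨x, hx, e⟩ := ho y hy; ⟨x, Submodule.subset_span hx, e⟩) hy

theorem ker_of_mem_span {L : Submodule ℤ A} {φ : A →ₗ[ℝ] A0} {y : A}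
    (hy : y ∈ Submodule.span ℝ (kerL L φ : Set A)) :
    y ∈ Submodule.span ℝ (L : Set A) ∧ φ y = 0 :=
  ⟨Submodule.span_mono (fun _ h => h.1) hy,
    (Submodule.span_le (p := LinearMap.ker φ)).2 (fun _ h => h.2) hy⟩

/-- the kernel is rational -/
theorem ker_rat {L : Submodule ℤ A} {L0 : Submodule ℤ A0} (h0 : IsLat L0) {φ : A →ₗ[ℝ] A0}
    (hm : ∀ y ∈ L, φ y ∈ L0) (ho : ∀ y0 ∈ L0, ∃ y ∈ L, φ y = y0) {y : A}
    (hy : y ∈ Submodule.span ℝ (L : Set A)) (hφ : φ y = 0) :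
    y ∈ Submodule.span ℝ (kerL L φ : Set A) := by
  obtain ⟨n, v, hv, hi, hg⟩ := h0.exists_basis
  choose u hu hφu using fun i => ho _ (hv i)
  have key : ∀ y ∈ Submodule.span ℝ (L : Set A), ∃ x : Fin n → ℝ,
      y - ∑ i, x i • u i ∈ Submodule.span ℝ (kerL L φ : Set A) := by
    intro y hy
    induction hy using Submodule.span_induction with
    | mem y hy =>
      obtain ⟨z, hz⟩ := hg _ (hm y hy)
      refine ⟨fun i => z i, Submodule.subset_span ?_⟩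
      simp only [Int.cast_smul_eq_zsmul]
      refine mem_kerL.2 ⟨sub_mem hy (Submodule.sum_mem _ fun i _ => Submodule.smul_mem _ _ (hu i)),
        ?_⟩
      simp only [map_sub, map_sum, map_zsmul, hφu, ← hz, sub_self]
    | zero => exact ⟨0, by simp⟩
    | add y z _ _ hy hz =>
      obtain ⟨x, hx⟩ := hy
      obtain ⟨x', hx'⟩ := hz
      refine ⟨x + x', ?_⟩
      convert add_mem hx hx' using 1
      simp only [Pi.add_apply, add_smul, Finset.sum_add_distrib]; abel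
    | smul t y _ hy =>
      obtain ⟨x, hx⟩ := hy
      refine ⟨t • x, ?_⟩
      convert Submodule.smul_mem _ t hx using 1
      simp only [Pi.smul_apply, smul_eq_mul, mul_smul, smul_sub, Finset.smul_sum]
  obtain ⟨x, hx⟩ := key y hy
  have h1 := (ker_of_mem_span hx).2
  simp only [map_sub, map_sum, map_smul, hφu, hφ, zero_sub, neg_eq_zero] at h1
  have h2 := Fintype.linearIndependent_iff.1 hi x h1
  simpa [h2] using hx

/-- block triangular basis -/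
theorem exists_block {L : Submodule ℤ A} {L0 : Submodule ℤ A0} (h0 : IsLat L0) {φ : A →ₗ[ℝ] A0}
    (hm : ∀ y ∈ L, φ y ∈ L0) (ho : ∀ y0 ∈ L0, ∃ y ∈ L, φ y = y0)
    {Q : A →ₗ[ℝ] F} {Q0 : A0 →ₗ[ℝ] F0} {Q1 : A →ₗ[ℝ] F1}
    (hp : ∀ y ∈ Submodule.span ℝ (L : Set A), ‖Q y‖ ^ 2 = ‖Q0 (φ y)‖ ^ 2 + ‖Q1 y‖ ^ 2)
    (hk : ∀ y ∈ Submodule.span ℝ (L : Set A), ∃ k ∈ Submodule.span ℝ (L : Set A),
      φ k = 0 ∧ Q1 k = Q1 y) {K : ℝ} {β1 β0 : Type} [Fintype β1] [Fintype β0]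
    (b1 : TB (kerL L φ) Q1 K β1) (hb1 : ∀ j y, Q1 y = 0 → b1.co j y = 0) (b0 : TB L0 Q0 K β0) :
    ∃ b : TB L Q K (β1 ⊕ β0), b.vol = b1.vol * b0.vol := by
  choose u hu hφu using fun i => ho _ (b0.mem i)
  refine ⟨⟨Sum.elim b1.v u, Sum.elim b1.co fun j => (b0.co j).comp φ,
    Sum.elim (fun j => (∑ i, b0.pos i) + 1 + b1.pos j) b0.pos, ?_, fun y hy => ?_, fun y hy => ?_,
    ?_, ?_, ?_⟩, ?_⟩
  · rintro (j | j)
    exacts [(b1.mem j).1, hu j]
  · obtain ⟨z, hz⟩ := b0.gen _ (hm y hy)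
    obtain ⟨z1, hz1⟩ := b1.gen (y - ∑ i, z i • u i) (mem_kerL.2 ⟨sub_mem hy
      (Submodule.sum_mem _ fun i _ => Submodule.smul_mem _ _ (hu i)), by
        simp only [map_sub, map_sum, map_zsmul, hφu, ← hz, sub_self]⟩)
    refine ⟨Sum.elim z1 z, ?_⟩
    rw [Fintype.sum_sum_type]
    simp only [Sum.elim_inl, Sum.elim_inr]
    rw [← hz1]; abel
  · obtain ⟨k, hk1, hk2, hk3⟩ := hk y hy
    rw [hp y hy, b0.nrm _ (map_mem_span φ hm hy), ← hk3, b1.nrm k (ker_rat h0 hm ho hk1 hk2),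
      Fintype.sum_sum_type, add_comm]
    congr 1
    refine Finset.sum_congr rfl fun j _ => ?_
    have := hb1 j (k - y) (by rw [map_sub, hk3, sub_self])
    rw [map_sub, sub_eq_zero] at this
    rw [this]; rfl
  · rintro (i | i) (j | j) h
    · exact (b1.tri i j h).imp (congrArg _) fun h => by simpa using h
    · exact absurd (by simp [(mem_kerL.1 (b1.mem i)).2]) h
    · right
      have := Finset.single_le_sum (f := b0.pos) (fun _ _ => Nat.zero_le _) (Finset.mem_univ i)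
      simp only [Sum.elim_inl, Sum.elim_inr]
      omega
    · exact (b0.tri i j (by simpa [hφu] using h)).imp (congrArg _) id
  · rintro (j | j)
    · exact b1.ne j
    · simpa [hφu] using b0.ne j
  · rintro (j | j)
    · exact b1.le j
    · simpa [hφu] using b0.le j
  · simp [TB.vol, Fintype.prod_sum_type, hφu, mul_comm]

theorem vol0_split {L : Submodule ℤ A} {L0 : Submodule ℤ A0} (hL : IsLat L) (h0 : IsLat L0)
    {φ : A →ₗ[ℝ] A0} (hm : ∀ y ∈ L, φ y ∈ L0) (ho : ∀ y0 ∈ L0, ∃ y ∈ L, φ y = y0)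
    {Q : A →ₗ[ℝ] F} {Q0 : A0 →ₗ[ℝ] F0} {Q1 : A →ₗ[ℝ] F1}
    (hQ : ∀ x ∈ Submodule.span ℝ (L : Set A), Q x = 0 → x = 0)
    (hQ0 : ∀ x ∈ Submodule.span ℝ (L0 : Set A0), Q0 x = 0 → x = 0)
    (hp : ∀ y ∈ Submodule.span ℝ (L : Set A), ‖Q y‖ ^ 2 = ‖Q0 (φ y)‖ ^ 2 + ‖Q1 y‖ ^ 2)
    (hk : ∀ y ∈ Submodule.span ℝ (L : Set A), ∃ k ∈ Submodule.span ℝ (L : Set A),
      φ k = 0 ∧ Q1 k = Q1 y) :
    vol0 L Q = vol0 (kerL L φ) Q1 * vol0 L0 Q0 ∧
      Module.finrank ℝ (Submodule.span ℝ (L : Set A)) =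
        Module.finrank ℝ (Submodule.span ℝ (kerL L φ : Set A)) +
          Module.finrank ℝ (Submodule.span ℝ (L0 : Set A0)) := by
  obtain ⟨K1, n1, b1, hb1⟩ := exists_TB0 (Q := Q1) (hL.mono (L' := kerL L φ) inf_le_left)
    fun x hx h1 => by
      obtain ⟨h2, h3⟩ := ker_of_mem_span hx
      refine hQ x h2 ?_
      have := hp x h2
      rw [h1, h3, map_zero, norm_zero, norm_zero] at this
      simpa using this
  obtain ⟨K0, n0, b0, -⟩ := exists_TB0 h0 hQ0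
  obtain ⟨b, hb⟩ := exists_block h0 hm ho hp hk (b1.mono (le_max_left K1 K0)) hb1
    (b0.mono (le_max_right K1 K0))
  refine ⟨by rw [← b.vol_eq_vol0, hb, TB.vol_eq_vol0, TB.vol_eq_vol0], ?_⟩
  rw [b.finrank_eq, b1.finrank_eq, b0.finrank_eq, Fintype.card_sum]

/-- transport of covolumes along a map that is bijective on the lattices and isometric -/
theorem vol0_iso {L : Submodule ℤ A} {L0 : Submodule ℤ A0} (hL : IsLat L) (h0 : IsLat L0)
    {φ : A →ₗ[ℝ] A0} (hm : ∀ y ∈ L, φ y ∈ L0) (ho : ∀ y0 ∈ L0, ∃ y ∈ L, φ y = y0)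
    {Q : A →ₗ[ℝ] F} {Q0 : A0 →ₗ[ℝ] F0}
    (hQ : ∀ x ∈ Submodule.span ℝ (L : Set A), Q x = 0 → x = 0)
    (hp : ∀ y ∈ Submodule.span ℝ (L : Set A), ‖Q y‖ = ‖Q0 (φ y)‖) :
    vol0 L Q = vol0 L0 Q0 ∧ Module.finrank ℝ (Submodule.span ℝ (L : Set A)) =
      Module.finrank ℝ (Submodule.span ℝ (L0 : Set A0)) := by
  obtain ⟨K, n, b, -⟩ := exists_TB0 hL hQ
  have hinj : ∀ y ∈ Submodule.span ℝ (L : Set A), φ y = 0 → y = 0 := fun y hy h =>
    hQ y hy (by rw [← norm_eq_zero, hp y hy, h, map_zero, norm_zero])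
  have hQ0 : ∀ x ∈ Submodule.span ℝ (L0 : Set A0), Q0 x = 0 → x = 0 := fun x hx h => by
    obtain ⟨y, hy, rfl⟩ := onto_span φ ho hx
    rw [hQ y hy (by rw [← norm_eq_zero, hp y hy, h, norm_zero]), map_zero]
  obtain ⟨K0, n0, b0, -⟩ := exists_TB0 h0 hQ0
  choose u hu hφu using fun i => ho _ (b0.mem i)
  let b : TB L Q K0 (Fin n0) := ⟨u, fun j => (b0.co j).comp φ, b0.pos, hu, fun y hy => by
      obtain ⟨z, hz⟩ := b0.gen _ (hm y hy)
      refine ⟨z, sub_eq_zero.1 (hinj _ (Submodule.subset_span (sub_mem hy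
        (Submodule.sum_mem _ fun i _ => Submodule.smul_mem _ _ (hu i)))) ?_)⟩
      simp only [map_sub, map_sum, map_zsmul, hφu, ← hz, sub_self],
    fun y hy => by rw [hp y hy, b0.nrm _ (map_mem_span φ hm hy)]; rfl,
    fun i j h => b0.tri i j (by simpa [hφu] using h), fun j => by simpa [hφu] using b0.ne j,
    fun j => by simpa [hφu] using b0.le j⟩
  refine ⟨?_, by rw [b.finrank_eq, b0.finrank_eq]⟩
  rw [← b.vol_eq_vol0, ← b0.vol_eq_vol0]
  simp [TB.vol, b, hφu]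

/-- orthogonal sum of two windows -/
noncomputable def l2 (Q : A →ₗ[ℝ] F) (Q' : A →ₗ[ℝ] F1) : A →ₗ[ℝ] WithLp 2 (F × F1) :=
  (WithLp.linearEquiv 2 ℝ (F × F1)).symm.toLinearMap ∘ₗ Q.prod Q'

theorem norm_l2_sq (Q : A →ₗ[ℝ] F) (Q' : A →ₗ[ℝ] F1) (y : A) :
    ‖l2 Q Q' y‖ ^ 2 = ‖Q y‖ ^ 2 + ‖Q' y‖ ^ 2 := WithLp.prod_norm_sq_eq_of_L2 _

end Split

namespace Sur
variable {s : ℕ} {A F A0 F0 F1 : Type} [CommRing A] [Algebra ℝ A] [NormedAddCommGroup F]
  [InnerProductSpace ℝ F] [CommRing A0] [Algebra ℝ A0] [NormedAddCommGroup F0]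
  [InnerProductSpace ℝ F0] [NormedAddCommGroup F1] [InnerProductSpace ℝ F1]
  {R : Rg s A F} {R0 : Rg s A0 F0} (S : Sur R R0 F1) {ι : Type}

/-- kernel lattice -/
def Lk (l : ℕ) : Submodule ℤ A := kerL (R.L l) S.φ.toLinearMap

/-- rank of the kernel -/
noncomputable def rk1 (l : ℕ) : ℕ := Module.finrank ℝ (Submodule.span ℝ (S.Lk l : Set A))

/-- reciprocal covolume of the kernel -/
noncomputable def vol1 (l : ℕ) : ℝ := vol0 (S.Lk l) (S.Q1 l)

/-- ideal fibre mass -/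
noncomputable def mu1 [Fintype ι] (T : Cell ι) : ℝ :=
  ∏ c, (|T.a c|⁻¹ ^ S.rk1 (T.lev c) * S.vol1 (T.lev c))

theorem map_E {l : ℕ} {y : A} (hy : y ∈ R.E l) : S.φ y ∈ R0.E l :=
  map_mem_span S.φ.toLinearMap (S.maps l) hy

theorem onto_E {l : ℕ} {y0 : A0} (hy : y0 ∈ R0.E l) : ∃ y ∈ R.E l, S.φ y = y0 :=
  onto_span S.φ.toLinearMap (S.onto l) hy

theorem ker_span {l : ℕ} {y : A} (hy : y ∈ R.E l) (h : S.φ y = 0) :
    y ∈ Submodule.span ℝ (S.Lk l : Set A) :=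
  ker_rat (φ := S.φ.toLinearMap) (R0.lat l) (S.maps l) (S.onto l) hy h

theorem split {l : ℕ} (hl : l ≤ s) :
    R.vol l = S.vol1 l * R0.vol l ∧ R.rk l = S.rk1 l + R0.rk l :=
  vol0_split (φ := S.φ.toLinearMap) (R.lat l) (R0.lat l) (S.maps l) (S.onto l) (R.inj l hl)
    (R0.inj l hl) (S.pyth l hl) (S.ker l hl)

theorem norm_le {l : ℕ} (hl : l ≤ s) {y : A} (hy : y ∈ R.E l) :
    ‖R0.Q l (S.φ y)‖ ≤ ‖R.Q l y‖ ∧ ‖S.Q1 l y‖ ≤ ‖R.Q l y‖ := by
  have h := S.pyth l hl y hy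
  exact ⟨abs_le_of_sq_le_sq' (by nlinarith [sq_nonneg ‖S.Q1 l y‖]) (norm_nonneg _) |>.2,
    abs_le_of_sq_le_sq' (by nlinarith [sq_nonneg ‖R0.Q l (S.φ y)‖]) (norm_nonneg _) |>.2⟩

variable [Fintype ι] {T : Cell ι}

theorem mu0_eq (hlev : ∀ c, T.lev c ≤ s) : R.mu0 T = S.mu1 T * R0.mu0 T := by
  unfold Rg.mu0 mu1
  rw [← Finset.prod_mul_distrib]
  refine Finset.prod_congr rfl fun c _ => ?_
  rw [(S.split (hlev c)).1, (S.split (hlev c)).2, pow_add]; ring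

theorem mu1_pos (hlev : ∀ c, T.lev c ≤ s) : 0 < S.mu1 T :=
  (mul_pos_iff_of_pos_right (R0.mu0_pos hlev)).1 (by rw [← S.mu0_eq hlev]; exact R.mu0_pos hlev)

omit [Fintype ι] in
theorem offMem_map {o : Off ι A} (ho : R.OffMem T o) : R0.OffMem T (o.map S.φ) :=
  fun c => ⟨S.map_E (ho c).1, S.map_E (ho c).2⟩

omit [Fintype ι] in
theorem up_pt (o : Off ι A) (w : R.Pt T) (c : ι) :
    R0.up (o.map S.φ) (S.pt w) c = S.φ (R.up o w c) := (map_add _ _ _).symm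

omit [Fintype ι] in
theorem dv_pt (o : Off ι A) (w : R.Pt T) (c : ι) :
    R0.dv T (o.map S.φ) (S.pt w) c = S.φ (R.dv T o w c) := by
  unfold Rg.dv Rg.th
  rw [map_sub, hev_map, S.map_t0]
  congr 2
  funext c
  exact S.up_pt o w c

theorem wt_eq (hlev : ∀ c, T.lev c ≤ s) {o : Off ι A} (ho : R.OffMem T o) (w : R.Pt T) :
    R.wt T o w = R0.wt T (o.map S.φ) (S.pt w) * S.w1 T o w := by
  unfold Rg.wt w1
  rw [← Real.exp_add, ← mul_add, ← Finset.sum_add_distrib]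
  congr 2
  exact Finset.sum_congr rfl fun c _ => by
    rw [S.pyth _ (hlev c) _ (R.dv_mem T hlev ho w c), S.dv_pt]

theorem w1_pos (o : Off ι A) (w : R.Pt T) : 0 < S.w1 T o w := Real.exp_pos _

omit [Fintype ι] in
theorem pt_surj : Function.Surjective (S.pt (T := T)) := fun p => by
  choose y hy e using fun c => S.onto _ _ (p c).2
  exact ⟨fun c => ⟨y c, hy c⟩, funext fun c => Subtype.ext (e c)⟩

variable {V : Type} [NormedAddCommGroup V] [NormedSpace ℝ V] [CompleteSpace V]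

/-- **fibrewise summation** -/
theorem hasSum_fib (hlev : ∀ c, T.lev c ≤ s) {o : Off ι A} (ho : R.OffMem T o) {f : R.Pt T → V}
    (h : Summable fun w => R.wt T o w • f w) :
    HasSum (fun p => R0.wt T (o.map S.φ) p • S.fib T o f p) (∑' w, R.wt T o w • f w) := by
  convert h.hasSum.tsum_fiberwise S.pt using 2 with p
  rw [fib, ← tsum_const_smul'']
  refine tsum_congr fun w => ?_
  have : S.pt w.1 = p := w.2
  rw [S.wt_eq hlev ho, this, mul_smul]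

omit [CompleteSpace V] in
theorem fib_smul_pt (o : Off ι A) (g : R0.Pt T → ℝ) (f : R.Pt T → V) (p : R0.Pt T) :
    S.fib T o (fun w => g (S.pt w) • f w) p = g p • S.fib T o f p := by
  rw [fib, fib, ← tsum_const_smul'']
  refine tsum_congr fun w => ?_
  have : S.pt w.1 = p := w.2
  rw [this, smul_comm]

theorem summable_w1 (hlev : ∀ c, T.lev c ≤ s) {o : Off ι A} (ho : R.OffMem T o) (p : R0.Pt T) :
    Summable fun w : (S.pt (T := T)) ⁻¹' {p} => S.w1 T o w.1 := by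
  have h := ((R.summable_wt hlev ho).subtype (S.pt ⁻¹' {p})).mul_left
    (R0.wt T (o.map S.φ) p)⁻¹
  refine h.congr fun w => ?_
  have : S.pt w.1 = p := w.2
  rw [Function.comp_apply, S.wt_eq hlev ho, this, inv_mul_cancel_left₀ (R0.wt_pos _ _).ne']

theorem Z_eq (o : Off ι A) (p : R0.Pt T) :
    S.Z T o p = ∑' w : (S.pt (T := T)) ⁻¹' {p}, S.w1 T o w.1 := by simp [Z, fib]

theorem Z_pos (hlev : ∀ c, T.lev c ≤ s) {o : Off ι A} (ho : R.OffMem T o) (p : R0.Pt T) :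
    0 < S.Z T o p := by
  obtain ⟨w, hw⟩ := S.pt_surj p
  rw [Z_eq]
  exact (S.summable_w1 hlev ho p).tsum_pos (fun _ => (S.w1_pos _ _).le) ⟨w, hw⟩ (S.w1_pos _ _)

omit [CompleteSpace V] in
theorem fib_pt (hlev : ∀ c, T.lev c ≤ s) {o : Off ι A} (ho : R.OffMem T o) (g : R0.Pt T → V)
    (p : R0.Pt T) : S.fib T o (fun w => g (S.pt w)) p = S.Z T o p • g p := by
  rw [Z_eq, fib, ← (S.summable_w1 hlev ho p).tsum_smul_const]
  refine tsum_congr fun w => ?_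
  have : S.pt w.1 = p := w.2
  rw [this]

omit [CompleteSpace V] in
theorem norm_fib_le (hlev : ∀ c, T.lev c ≤ s) {o : Off ι A} (ho : R.OffMem T o) {f : R.Pt T → V}
    {B : ℝ} (hf : ∀ w, ‖f w‖ ≤ B) (p : R0.Pt T) : ‖S.fib T o f p‖ ≤ S.Z T o p * B := by
  rw [Z_eq, ← tsum_mul_right]
  refine tsum_of_norm_bounded ((S.summable_w1 hlev ho p).mul_right B).hasSum fun w => ?_
  rw [norm_smul, Real.norm_of_nonneg (S.w1_pos _ _).le]
  exact mul_le_mul_of_nonneg_left (hf _) (S.w1_pos _ _).le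

theorem hasSum_Z (hlev : ∀ c, T.lev c ≤ s) {o : Off ι A} (ho : R.OffMem T o) :
    HasSum (fun p => R0.wt T (o.map S.φ) p * S.Z T o p) (R.M T o) := by
  have := S.hasSum_fib hlev ho (f := fun _ => (1 : ℝ)) (by simpa using R.summable_wt hlev ho)
  simpa [Rg.M, Z] using this

end Sur

theorem Rg.summable_smul {s : ℕ} {A F : Type} [CommRing A] [Algebra ℝ A] [NormedAddCommGroup F]
    [InnerProductSpace ℝ F] (R : Rg s A F) {ι : Type} [Fintype ι] {T : Cell ι}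
    (hlev : ∀ c, T.lev c ≤ s) {o : Off ι A} (ho : R.OffMem T o) {V : Type} [NormedAddCommGroup V]
    [NormedSpace ℝ V] [CompleteSpace V] {f : R.Pt T → V} {B : ℝ} (hf : ∀ w, ‖f w‖ ≤ B) :
    Summable fun w => R.wt T o w • f w := by
  refine Summable.of_norm_bounded ((R.summable_wt hlev ho).mul_right B) fun w => ?_
  rw [norm_smul, Real.norm_of_nonneg (R.wt_pos _ _).le]
  exact mul_le_mul_of_nonneg_left (hf _) (R.wt_pos _ _).le

end Crest.Agent.T49.Rng
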