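import Crest.Agent.T49.Samp_57

/-! Box facts for the robust sampler: statistics of `gcd (t - t')` and Taylor data. -/

set_option autoImplicit false

namespace Crest.Agent.T49.Samp

open Finset

section gcd
variable {D : Type*} [Fintype D]

/-- gcd of the coordinates of an integer vector -/
noncomputable def igcd (v : D → ℤ) : ℕ := (Finset.univ.gcd v).natAbs

theorem dvd_igcd {q : ℕ} {v : D → ℤ} : q ∣ igcd v ↔ ∀ i, (q : ℤ) ∣ v i := by
  rw [igcd, ← Int.natCast_dvd_natCast, Int.dvd_natAbs, Finset.dvd_gcd_iff]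
  simp

theorem igcd_eq_zero {v : D → ℤ} : igcd v = 0 ↔ v = 0 := by
  rw [← zero_dvd_iff, dvd_igcd]
  simp [funext_iff]

theorem exists_bezout (v : D → ℤ) : ∃ u : D → ℤ, ∑ i, v i * u i = igcd v := by
  obtain ⟨u, hu⟩ := Finset.gcd_eq_sum_mul Finset.univ v
  rcases Int.natAbs_eq (Finset.univ.gcd v) with h | h
  · exact ⟨u, by rw [← hu, igcd, ← h]⟩
  · refine ⟨fun i => - u i, ?_⟩
    simp only [mul_neg, Finset.sum_neg_distrib]
    rw [← hu, igcd]; linarith

theorem igcd_le {v : D → ℤ} {L : ℕ} (h : ∀ i, |v i| ≤ L) : igcd v ≤ L := by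
  by_cases h0 : v = 0
  · rw [igcd_eq_zero.2 h0]; exact Nat.zero_le _
  · obtain ⟨i, hi⟩ := Function.ne_iff.1 h0
    have h1 := Int.le_of_dvd (abs_pos.2 hi) ((dvd_abs _ _).2 (dvd_igcd.1 dvd_rfl i))
    exact_mod_cast h1.trans (h i)

variable [DecidableEq D]

/-- the cube `lo + [0,L)^D` -/
noncomputable def cub (lo : D → ℤ) (L : ℕ) : Finset (D → ℤ) :=
  Fintype.piFinset fun i => Finset.Ico (lo i) (lo i + L)

theorem mem_cub {lo t : D → ℤ} {L : ℕ} : t ∈ cub lo L ↔ ∀ i, lo i ≤ t i ∧ t i < lo i + L := by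
  simp [cub, Fintype.mem_piFinset]

theorem card_cub (lo : D → ℤ) (L : ℕ) : (cub lo L).card = L ^ Fintype.card D := by
  simp [cub, Fintype.card_piFinset]

/-- uniform weight on a cube of side `L` -/
noncomputable def uw (D : Type*) [Fintype D] (L : ℕ) : ℝ := ((L : ℝ) ^ Fintype.card D)⁻¹

omit [DecidableEq D] in
theorem uw_nonneg (L : ℕ) : 0 ≤ uw D L := by unfold uw; positivity

theorem sum_uw (lo : D → ℤ) {L : ℕ} (hL : 0 < L) : ∑ _t ∈ cub lo L, uw D L = 1 := by
  have : (0 : ℝ) < (L : ℝ) ^ Fintype.card D := by positivity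
  rw [Finset.sum_const, card_cub, nsmul_eq_mul, uw]
  push_cast
  field_simp

/-- probability that all coordinates of `t - t'` satisfy `φ` -/
theorem pair_prob_le (lo : D → ℤ) {L : ℕ} (hL : 0 < L) (φ : ℤ → Prop) [DecidablePred φ] {c : ℝ}
    (h : ∀ a y : ℤ, (((Finset.Ico a (a + L)).filter fun x => φ (x - y)).card : ℝ) ≤ c * L)
    (R : (D → ℤ) → (D → ℤ) → Prop) [∀ t t', Decidable (R t t')]
    (hR : ∀ t t', R t t' → ∀ i, φ (t' i - t i)) :
    ∑ t ∈ cub lo L, ∑ t' ∈ cub lo L, uw D L * uw D L * (if R t t' then 1 else 0)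
      ≤ c ^ Fintype.card D := by
  have hLD : (0 : ℝ) < (L : ℝ) ^ Fintype.card D := by positivity
  have h1 : ∀ t, ∑ t' ∈ cub lo L, uw D L * uw D L * (if R t t' then (1 : ℝ) else 0)
      ≤ uw D L * c ^ Fintype.card D := by
    intro t
    rw [← Finset.mul_sum, Finset.sum_boole, mul_assoc]
    refine mul_le_mul_of_nonneg_left ?_ (uw_nonneg L)
    have h2 : (cub lo L).filter (fun t' => R t t') ⊆ Fintype.piFinset
        fun i => (Finset.Ico (lo i) (lo i + L)).filter fun x => φ (x - t i) := by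
      intro t' ht'
      rw [mem_filter, mem_cub] at ht'
      simp only [Fintype.mem_piFinset, mem_filter, mem_Ico]
      exact fun i => ⟨ht'.1 i, hR t t' ht'.2 i⟩
    have h3 : (((cub lo L).filter fun t' => R t t').card : ℝ) ≤ (c * L) ^ Fintype.card D := by
      refine (Nat.cast_le.2 (Finset.card_le_card h2)).trans ?_
      rw [Fintype.card_piFinset, Nat.cast_prod, ← Finset.card_univ, ← Finset.prod_const]
      exact Finset.prod_le_prod (fun i _ => Nat.cast_nonneg _) fun i _ => h _ _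
    rw [uw, inv_mul_le_iff₀ hLD, mul_comm, ← mul_pow]
    exact h3
  refine (Finset.sum_le_sum fun t _ => h1 t).trans (le_of_eq ?_)
  rw [← Finset.sum_mul, sum_uw lo hL, one_mul]

theorem card_dvd_le {L q : ℕ} (hq : 0 < q) (hqL : q ≤ L) (a y : ℤ) :
    (((Finset.Ico a (a + L)).filter fun x => (q : ℤ) ∣ x - y).card : ℝ) ≤ 2 / q * L := by
  have hqZ : (0 : ℤ) < q := by exact_mod_cast hq
  have hqR : (0 : ℝ) < q := by exact_mod_cast hq
  have h1 : ((Finset.Ico a (a + L)).filter fun x => (q : ℤ) ∣ x - y).card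
      ≤ (Finset.Icc (0 : ℤ) (L / q)).card := by
    refine Finset.card_le_card_of_injOn (fun x => (x - a) / q) (fun x hx => ?_) fun x hx x' hx' h => ?_
    · simp only [coe_filter, mem_Ico, Set.mem_ofPred_eq] at hx
      simp only [coe_Icc, Set.mem_Icc]
      exact ⟨Int.ediv_nonneg (by omega) hqZ.le, Int.ediv_le_ediv hqZ (by omega)⟩
    · simp only [coe_filter, mem_Ico, Set.mem_ofPred_eq] at hx hx'
      have h2 : (q : ℤ) ∣ x - x' := by
        have := hx.2.sub hx'.2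
        rwa [sub_sub_sub_cancel_right] at this
      have h3 := Int.emod_add_mul_ediv (x - a) q
      have h4 := Int.emod_add_mul_ediv (x' - a) q
      have h5 := Int.emod_nonneg (x - a) hqZ.ne'
      have h6 := Int.emod_nonneg (x' - a) hqZ.ne'
      have h7 := Int.emod_lt_of_pos (x - a) hqZ
      have h8 := Int.emod_lt_of_pos (x' - a) hqZ
      simp only at h
      rw [h] at h3
      have h9 : x - x' = 0 := Int.eq_zero_of_abs_lt_dvd h2 (by rw [abs_lt]; constructor <;> omega)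
      omega
  refine (Nat.cast_le.2 h1).trans ?_
  rw [Int.card_Icc]
  have h2 : (((L : ℤ) / q + 1 - 0).toNat : ℤ) = (L : ℤ) / q + 1 := by
    rw [sub_zero, Int.toNat_of_nonneg]
    have := Int.ediv_nonneg (Nat.cast_nonneg L : (0 : ℤ) ≤ L) hqZ.le
    omega
  have h3 : ((((L : ℤ) / q + 1 - 0).toNat : ℕ) : ℝ) = (((L : ℤ) / q : ℤ) : ℝ) + 1 := by
    exact_mod_cast h2
  have h4 : (((L : ℤ) / q : ℤ) : ℝ) * q ≤ L := by
    exact_mod_cast Int.ediv_mul_le (L : ℤ) hqZ.ne'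
  have h5 : (q : ℝ) ≤ L := by exact_mod_cast hqL
  rw [h3, div_mul_eq_mul_div, le_div_iff₀ hqR]
  linarith

theorem card_abs_le (L R : ℕ) (hL : 0 < L) (a y : ℤ) :
    (((Finset.Ico a (a + L)).filter fun x => |x - y| ≤ R).card : ℝ) ≤ (2 * R + 1) / L * L := by
  have hLR : (0 : ℝ) < L := by exact_mod_cast hL
  have h1 : ((Finset.Ico a (a + L)).filter fun x => |x - y| ≤ R) ⊆ Finset.Icc (y - R) (y + R) := by
    intro x hx
    rw [mem_filter, abs_le] at hx
    rw [mem_Icc]; constructor <;> linarith [hx.2.1, hx.2.2]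
  refine (Nat.cast_le.2 (Finset.card_le_card h1)).trans ?_
  rw [Int.card_Icc, div_mul_cancel₀ _ hLR.ne']
  have : (y + R + 1 - (y - R)).toNat = 2 * R + 1 := by omega
  rw [this]; push_cast; exact le_rfl

/-- `P(q ∣ gcd(t' - t)) ≤ (2/q)^D` -/
theorem prob_dvd_le (lo : D → ℤ) {L q : ℕ} (hq : 0 < q) (hqL : q ≤ L) :
    ∑ t ∈ cub lo L, ∑ t' ∈ cub lo L, uw D L * uw D L * (if q ∣ igcd (t' - t) then 1 else 0)
      ≤ (2 / (q : ℝ)) ^ Fintype.card D :=
  pair_prob_le lo (hq.trans_le hqL) (fun x => (q : ℤ) ∣ x) (card_dvd_le hq hqL) _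
    fun _ _ h i => dvd_igcd.1 h i

/-- `P(|t' - t|_∞ ≤ R) ≤ ((2R+1)/L)^D` -/
theorem prob_close_le (lo : D → ℤ) {L : ℕ} (hL : 0 < L) (R : ℕ) :
    ∑ t ∈ cub lo L, ∑ t' ∈ cub lo L, uw D L * uw D L * (if ∀ i, |t' i - t i| ≤ R then 1 else 0)
      ≤ ((2 * R + 1) / (L : ℝ)) ^ Fintype.card D :=
  pair_prob_le lo hL (fun x => |x| ≤ R) (card_abs_le L R hL) _ fun _ _ h => h

omit [DecidableEq D] in
theorem two_div_pow_le (hD : 7 ≤ Fintype.card D) {q : ℕ} (hq : 2 ≤ q) :
    (2 / (q : ℝ)) ^ Fintype.card D ≤ 128 / (q : ℝ) ^ 7 := by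
  have hqR : (2 : ℝ) ≤ q := by exact_mod_cast hq
  refine (pow_le_pow_of_le_one (by positivity) ((div_le_one (by linarith)).2 hqR) hD).trans ?_
  rw [div_pow]; norm_num

/-- the small-gcd constant of a cube of dimension `≥ 7` is at most `12` -/
theorem gcdBd_cub (hD : 7 ≤ Fintype.card D) (lo : D → ℤ) {L Q : ℕ} (hQ : Q ≤ L) :
    GcdBd (cub lo L) (fun _ => uw D L) (fun t t' => igcd (t' - t)) Q 12 := by
  unfold GcdBd
  have h1 : ∀ q ∈ Icc 2 Q, (q : ℝ) * √(q * ∑ t ∈ cub lo L, ∑ t' ∈ cub lo L,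
      uw D L * uw D L * if q ∣ igcd (t' - t) then 1 else 0) ≤ 12 * ((q : ℝ) ^ 2)⁻¹ := by
    intro q hq
    obtain ⟨h2, hqQ⟩ := mem_Icc.1 hq
    have hqR : (0 : ℝ) < q := by exact_mod_cast (by omega : 0 < q)
    have h3 := (prob_dvd_le lo (by omega) (hqQ.trans hQ)).trans (two_div_pow_le hD h2)
    have h4 : √(q * ∑ t ∈ cub lo L, ∑ t' ∈ cub lo L,
        uw D L * uw D L * if q ∣ igcd (t' - t) then 1 else 0) ≤ 12 / (q : ℝ) ^ 3 := by
      rw [Real.sqrt_le_iff]
      refine ⟨by positivity, (mul_le_mul_of_nonneg_left h3 hqR.le).trans ?_⟩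
      rw [div_pow, ← mul_div_assoc, div_le_div_iff₀ (by positivity) (by positivity)]
      have : (0 : ℝ) < (q : ℝ) ^ 7 := by positivity
      nlinarith
    refine (mul_le_mul_of_nonneg_left h4 hqR.le).trans (le_of_eq ?_)
    field_simp
  refine (Finset.sum_le_sum h1).trans ?_
  rw [← Finset.mul_sum]
  rcases Nat.eq_zero_or_pos Q with h0 | h0
  · simp [h0]
  · have h2 := sum_Ioc_inv_sq_le_sub (α := ℝ) one_ne_zero h0
    have h3 : Icc 2 Q = Ioc 1 Q := by ext q; simp only [mem_Icc, mem_Ioc]; omega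
    rw [h3]
    have : (0 : ℝ) ≤ (Q : ℝ)⁻¹ := by positivity
    norm_num at h2
    linarith

/-- pairs with `gcd > Q` have mass at most `128 / Q^6` -/
theorem prob_gcd_gt (hD : 7 ≤ Fintype.card D) (lo : D → ℤ) {L Q : ℕ} (hQ : 1 ≤ Q) :
    ∑ t ∈ cub lo L, ∑ t' ∈ cub lo L, uw D L * uw D L * (if Q < igcd (t' - t) then 1 else 0)
      ≤ 128 / (Q : ℝ) ^ 6 := by
  have hQR : (0 : ℝ) < Q := by exact_mod_cast hQ
  have h1 : ∑ t ∈ cub lo L, ∑ t' ∈ cub lo L, uw D L * uw D L * (if Q < igcd (t' - t) then 1 else 0)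
      ≤ ∑ t ∈ cub lo L, ∑ t' ∈ cub lo L, ∑ q ∈ Ioc Q L,
        uw D L * uw D L * (if q ∣ igcd (t' - t) then (1 : ℝ) else 0) := by
    refine Finset.sum_le_sum fun t ht => Finset.sum_le_sum fun t' ht' => ?_
    rw [← Finset.mul_sum]
    refine mul_le_mul_of_nonneg_left ?_ (mul_nonneg (uw_nonneg L) (uw_nonneg L))
    have h0 : ∀ q ∈ Ioc Q L, (0 : ℝ) ≤ if q ∣ igcd (t' - t) then (1 : ℝ) else 0 := fun q _ => by
      split_ifs <;> norm_num
    split_ifs with h
    · have hm : igcd (t' - t) ∈ Ioc Q L := mem_Ioc.2 ⟨h, igcd_le fun i => by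
        have a1 := mem_cub.1 ht i
        have a2 := mem_cub.1 ht' i
        rw [Pi.sub_apply, abs_le]; constructor <;> omega⟩
      have := Finset.single_le_sum h0 hm
      rwa [if_pos dvd_rfl] at this
    · exact Finset.sum_nonneg h0
  refine h1.trans ?_
  have h2 : ∑ t ∈ cub lo L, ∑ t' ∈ cub lo L, ∑ q ∈ Ioc Q L,
        uw D L * uw D L * (if q ∣ igcd (t' - t) then (1 : ℝ) else 0)
      = ∑ q ∈ Ioc Q L, ∑ t ∈ cub lo L, ∑ t' ∈ cub lo L,
        uw D L * uw D L * (if q ∣ igcd (t' - t) then (1 : ℝ) else 0) := by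
    rw [Finset.sum_comm (s := Ioc Q L)]
    exact Finset.sum_congr rfl fun t _ => Finset.sum_comm
  rw [h2]
  have h3 : ∀ q ∈ Ioc Q L, ∑ t ∈ cub lo L, ∑ t' ∈ cub lo L,
      uw D L * uw D L * (if q ∣ igcd (t' - t) then (1 : ℝ) else 0)
      ≤ 128 / (Q : ℝ) ^ 5 * ((q : ℝ) ^ 2)⁻¹ := by
    intro q hq
    obtain ⟨a1, a2⟩ := mem_Ioc.1 hq
    have hq : (Q : ℝ) ≤ q := by exact_mod_cast a1.le
    have hq0 : (0 : ℝ) < q := hQR.trans_le hq
    refine ((prob_dvd_le lo (by omega) a2).trans (two_div_pow_le hD (by omega))).trans ?_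
    rw [← div_eq_mul_inv, div_div]
    refine div_le_div_of_nonneg_left (by norm_num) (by positivity) ?_
    calc (Q : ℝ) ^ 5 * (q : ℝ) ^ 2 ≤ (q : ℝ) ^ 5 * (q : ℝ) ^ 2 := by gcongr
      _ = _ := by ring
  refine (Finset.sum_le_sum h3).trans ?_
  rw [← Finset.mul_sum]
  rcases le_total Q L with hL | hL
  · have h4 := sum_Ioc_inv_sq_le_sub (α := ℝ) (by omega : Q ≠ 0) hL
    have h5 : (0 : ℝ) ≤ (L : ℝ)⁻¹ := by positivity
    refine (mul_le_mul_of_nonneg_left (h4.trans (sub_le_self _ h5)) (by positivity)).trans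
      (le_of_eq ?_)
    field_simp
  · rw [Finset.Ioc_eq_empty (by omega), Finset.sum_empty, mul_zero]; positivity

open Classical in
/-- the exceptional mass `ν` of `rem_sq_le` / `samp` for cubes: pairs are good if `gcd ≤ Q` and
`|t' - t|_∞ > R` -/
theorem bad_cub_le (hD : 7 ≤ Fintype.card D) (lo : D → ℤ) {L Q : ℕ} (hL : 0 < L) (hQ : 1 ≤ Q)
    (R : ℕ) (good : (D → ℤ) → (D → ℤ) → Prop)
    (hg : ∀ t t', igcd (t' - t) ≤ Q → (∃ i, (R : ℤ) < |t' i - t i|) → good t t') :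
    ∑ t ∈ cub lo L, ∑ t' ∈ cub lo L, (if good t t' then 0 else uw D L * uw D L)
      ≤ 128 / (Q : ℝ) ^ 6 + ((2 * R + 1) / (L : ℝ)) ^ Fintype.card D := by
  refine le_trans ?_ (add_le_add (prob_gcd_gt hD lo hQ (L := L)) (prob_close_le lo hL R))
  rw [← Finset.sum_add_distrib]
  refine Finset.sum_le_sum fun t _ => ?_
  rw [← Finset.sum_add_distrib]
  refine Finset.sum_le_sum fun t' _ => ?_
  have h0 := mul_nonneg (uw_nonneg (D := D) L) (uw_nonneg (D := D) L)
  by_cases h1 : Q < igcd (t' - t)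
  · rw [if_pos h1]
    split_ifs <;> linarith
  · by_cases h2 : ∀ i, |t' i - t i| ≤ R
    · rw [if_neg h1, if_pos h2]
      split_ifs <;> linarith
    · rw [if_neg h1, if_neg h2, if_pos (hg t t' (by omega) (by push Not at h2; exact h2))]
      simp

end gcd

section lin
variable {T n : Type*} {M : n → Type*} [∀ a, Fintype (M a)]

/-- evaluation of Taylor data: the `a`-th coordinate of the point at position `t` is
`∑_j φ t a j * c ⟨a, j⟩` -/
def linOf (φ : T → ∀ a, M a → ℤ) (t : T) : ((Σ a, M a) → ℤ) →+ (n → ℤ) where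
  toFun c a := ∑ j, φ t a j * c ⟨a, j⟩
  map_zero' := by ext a; simp
  map_add' c c' := by ext a; simp [mul_add, Finset.sum_add_distrib]

theorem linOf_apply (φ : T → ∀ a, M a → ℤ) (t : T) (c : (Σ a, M a) → ℤ) (a : n) :
    linOf φ t c a = ∑ j, φ t a j * c ⟨a, j⟩ := rfl

theorem linOf_surj (φ : T → ∀ a, M a → ℤ) (t : T)
    (h : ∀ a, ∃ u : M a → ℤ, ∑ j, φ t a j * u j = 1) : Function.Surjective (linOf φ t) := by
  choose u hu using h
  intro w
  refine ⟨fun x => u x.1 x.2 * w x.1, funext fun a => ?_⟩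
  simp only [linOf_apply, ← mul_assoc]
  rw [← Finset.sum_mul, hu, one_mul]

theorem linOf_pair (φ : T → ∀ a, M a → ℤ) (t t' : T) (g : ℤ)
    (h : ∀ a, ∃ u : M a → ℤ, ∑ j, φ t a j * u j = 0 ∧ ∑ j, φ t' a j * u j = g) (w : n → ℤ) :
    ∃ c, linOf φ t c = 0 ∧ linOf φ t' c = g • w := by
  choose u hu hu' using h
  refine ⟨fun x => u x.1 x.2 * w x.1, funext fun a => ?_, funext fun a => ?_⟩
  · simp only [linOf_apply, ← mul_assoc]
    rw [← Finset.sum_mul, hu, zero_mul]; rfl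
  · simp only [linOf_apply, ← mul_assoc]
    rw [← Finset.sum_mul, hu']; rfl

variable {D : Type*} [Fintype D]

/-- if every level contains the constant monomial and the linear monomials, evaluation at integer
points is onto ... -/
theorem linOf_surj_of_const (φ : T → ∀ a, M a → ℤ) (t : T) (j0 : ∀ a, M a)
    (h0 : ∀ a, φ t a (j0 a) = 1) : Function.Surjective (linOf φ t) := by
  classical
  refine linOf_surj φ t fun a => ⟨Pi.single (j0 a) 1, ?_⟩
  simp [Pi.single_apply, h0]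

/-- ... and two positions are independent up to the gcd of their difference -/
theorem linOf_pair_igcd (φ : T → ∀ a, M a → ℤ) (pos : T → D → ℤ) (t t' : T) (j0 : ∀ a, M a)
    (j1 : ∀ a, D → M a) (h0 : ∀ s a, φ s a (j0 a) = 1) (h1 : ∀ s a i, φ s a (j1 a i) = pos s i)
    (w : n → ℤ) :
    ∃ c, linOf φ t c = 0 ∧ linOf φ t' c = (igcd (pos t' - pos t) : ℤ) • w := by
  classical
  obtain ⟨u, hu⟩ := exists_bezout (pos t' - pos t)
  have key : ∀ s a, ∑ j, φ s a j * (∑ i, u i * ((Pi.single (j1 a i) 1 : M a → ℤ) j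
      - pos t i * (Pi.single (j0 a) 1 : M a → ℤ) j)) = ∑ i, (pos s i - pos t i) * u i := by
    intro s a
    simp only [Finset.mul_sum]
    rw [Finset.sum_comm]
    refine Finset.sum_congr rfl fun i _ => ?_
    have : ∀ j, φ s a j * (u i * ((Pi.single (j1 a i) 1 : M a → ℤ) j
        - pos t i * (Pi.single (j0 a) 1 : M a → ℤ) j))
        = u i * (φ s a j * (Pi.single (j1 a i) 1 : M a → ℤ) j)
          - u i * pos t i * (φ s a j * (Pi.single (j0 a) 1 : M a → ℤ) j) := fun j => by ring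
    simp only [this, Finset.sum_sub_distrib, ← Finset.mul_sum]
    simp [Pi.single_apply, h0, h1]
    ring
  refine linOf_pair φ t t' _ (fun a => ⟨_, (key t a).trans (by simp), (key t' a).trans hu⟩) w

end lin

end Crest.Agent.T49.Samp
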