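import Crest.Agent.T49.SampPE_57

/-! Möbius decomposition by exact conductor and the second moment of the remainder. -/

set_option autoImplicit false

namespace Crest.Agent.T49.Samp

open Finset ArithmeticFunction

/-- `mob φ q = ∑_{d ∣ q} μ(q/d) φ(d)` -/
noncomputable def mob (φ : ℕ → ℝ) (q : ℕ) : ℝ :=
  ∑ x ∈ q.divisorsAntidiagonal, ((moebius x.1 : ℤ) : ℝ) * φ x.2

theorem mob_one (φ : ℕ → ℝ) : mob φ 1 = φ 1 := by simp [mob]

theorem sum_mob (φ : ℕ → ℝ) {n : ℕ} (hn : 0 < n) : ∑ i ∈ n.divisors, mob φ i = φ n :=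
  (sum_eq_iff_sum_mul_moebius_eq (R := ℝ) (f := mob φ) (g := φ)).2 (fun _ _ => rfl) n hn

theorem mob_gcd (φ : ℕ → ℝ) (g : ℕ) {q : ℕ} (hq : 0 < q) :
    mob (fun d => φ (Nat.gcd d g)) q = if q ∣ g then mob φ q else 0 := by
  refine (sum_eq_iff_sum_mul_moebius_eq (R := ℝ) (f := fun c => if c ∣ g then mob φ c else 0)
    (g := fun d => φ (Nat.gcd d g))).1 (fun n hn => ?_) q hq
  rw [← sum_mob φ (Nat.gcd_pos_of_pos_left g hn), ← Finset.sum_filter]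
  refine Finset.sum_congr ?_ fun _ _ => rfl
  ext c
  simp only [mem_filter, Nat.mem_divisors, Nat.dvd_gcd_iff]
  have := (Nat.gcd_pos_of_pos_left g hn).ne'
  have := hn.ne'
  tauto

theorem mob_const (c : ℝ) {q : ℕ} (hq : 2 ≤ q) : mob (fun _ => c) q = 0 := by
  have h := mob_gcd (fun _ => c) 1 (q := q) (by omega)
  rw [if_neg (fun h => by have := Nat.le_of_dvd one_pos h; omega)] at h
  exact h

theorem mob_congr {φ ψ : ℕ → ℝ} {q : ℕ} (h : ∀ d, d ∣ q → φ d = ψ d) : mob φ q = mob ψ q :=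
  Finset.sum_congr rfl fun x hx => by
    rw [h x.2 (Nat.dvd_of_mem_divisors (Nat.snd_mem_divisors_of_mem_antidiagonal hx))]

theorem mob_sub (φ ψ : ℕ → ℝ) (q : ℕ) : mob (fun d => φ d - ψ d) q = mob φ q - mob ψ q := by
  simp [mob, mul_sub, Finset.sum_sub_distrib]

theorem mob_cmul (c : ℝ) (φ : ℕ → ℝ) (q : ℕ) : mob (fun d => c * φ d) q = c * mob φ q := by
  simp only [mob, Finset.mul_sum]
  exact Finset.sum_congr rfl fun x _ => by ring

theorem card_antidiag_le (q : ℕ) : (q.divisorsAntidiagonal.card : ℝ) ≤ q := by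
  have h : q.divisorsAntidiagonal.card = q.divisors.card := by
    rw [← Nat.map_div_right_divisors, card_map]
  rw [h]
  exact_mod_cast Nat.card_divisors_le_self q

theorem abs_mob_le {φ : ℕ → ℝ} {q : ℕ} {β : ℝ} (hβ : 0 ≤ β)
    (h : ∀ d, d ∣ q → 0 < d → |φ d| ≤ β) : |mob φ q| ≤ q * β := by
  refine (Finset.abs_sum_le_sum_abs _ _).trans ?_
  refine (Finset.sum_le_card_nsmul _ _ β fun x hx => ?_).trans ?_
  · have hd := Nat.snd_mem_divisors_of_mem_antidiagonal hx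
    rw [abs_mul]
    have h1 : |((moebius x.1 : ℤ) : ℝ)| ≤ 1 := by exact_mod_cast abs_moebius_le_one
    calc _ ≤ 1 * β := mul_le_mul h1 (h _ (Nat.dvd_of_mem_divisors hd) (Nat.pos_of_mem_divisors hd))
          (abs_nonneg _) zero_le_one
      _ = β := one_mul _
  · rw [nsmul_eq_mul]
    exact mul_le_mul_of_nonneg_right (card_antidiag_le q) hβ

theorem abs_mob_sub_le {φ ψ : ℕ → ℝ} {q : ℕ} {β : ℝ} (hβ : 0 ≤ β)
    (h : ∀ d, d ∣ q → 0 < d → |φ d - ψ d| ≤ β) : |mob φ q - mob ψ q| ≤ q * β := by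
  rw [← mob_sub]; exact abs_mob_le hβ h

theorem PF.mob {Ω : Type*} (P : PF Ω) (u : Ω → ℝ) (F : ℕ → Ω → ℝ) (q : ℕ) :
    P.E (fun x => u x * mob (fun d => F d x) q) = mob (fun d => P.E (fun x => u x * F d x)) q := by
  have : (fun x => u x * Samp.mob (fun d => F d x) q)
      = fun x => ∑ y ∈ q.divisorsAntidiagonal, ((moebius y.1 : ℤ) : ℝ) * (u x * F y.2 x) := by
    ext x; rw [← mob_cmul]; rfl
  rw [this, P.sum]
  exact Finset.sum_congr rfl fun y _ => P.cmul _ _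

theorem sum_mob_gcd (φ : ℕ → ℝ) {g Q : ℕ} (hg : 0 < g) (hgQ : g ≤ Q) :
    ∑ q ∈ Icc 1 Q, mob (fun d => φ (Nat.gcd d g)) q = φ g := by
  rw [← sum_mob φ hg, Finset.sum_congr rfl fun q hq => mob_gcd φ g (mem_Icc.1 hq).1,
    ← Finset.sum_filter]
  refine Finset.sum_congr ?_ fun _ _ => rfl
  ext c
  simp only [mem_filter, mem_Icc, Nat.mem_divisors]
  constructor
  · rintro ⟨-, h⟩; exact ⟨h, hg.ne'⟩
  · rintro ⟨h, -⟩
    exact ⟨⟨Nat.pos_of_dvd_of_pos h hg, (Nat.le_of_dvd hg h).trans hgQ⟩, h⟩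

theorem gcd_mul_gcd (b d g : ℕ) : Nat.gcd (b * Nat.gcd d g) g = Nat.gcd (b * d) g := by
  rw [← Nat.gcd_mul_left, Nat.gcd_assoc, Nat.gcd_eq_right (Dvd.intro_left b rfl)]

theorem sum_Icc_le_sq (a Q : ℕ) (β : ℝ) (hβ : 0 ≤ β) (ha : 1 ≤ a) :
    ∑ q ∈ Icc a Q, (q : ℝ) * β ≤ (Q : ℝ) ^ 2 * β := by
  refine (Finset.sum_le_card_nsmul _ _ ((Q : ℝ) * β) fun q hq => ?_).trans ?_
  · exact mul_le_mul_of_nonneg_right (by exact_mod_cast (mem_Icc.1 hq).2) hβ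
  · rw [nsmul_eq_mul, Nat.card_Icc]
    have : ((Q + 1 - a : ℕ) : ℝ) ≤ Q := by exact_mod_cast (by omega : Q + 1 - a ≤ Q)
    nlinarith [mul_nonneg (Nat.cast_nonneg (α := ℝ) Q) hβ]

/-- the part of `G` of exact conductor `q` relative to the modulus `b` -/
noncomputable def part {X : Type*} (Gd : ℕ → X → ℝ) (b q : ℕ) (x : X) : ℝ :=
  mob (fun d => Gd (b * d) x) q

/-- the remainder `G - ∑_{q ≤ Q} part q` -/
noncomputable def rem {X : Type*} (G : X → ℝ) (Gd : ℕ → X → ℝ) (b Q : ℕ) (x : X) : ℝ :=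
  G x - ∑ q ∈ Icc 1 Q, part Gd b q x

theorem abs_part_le {X : Type*} {Gd : ℕ → X → ℝ} (h : ∀ d x, |Gd d x| ≤ 1) (b q : ℕ) (x : X) :
    |part Gd b q x| ≤ q := by
  simpa [part] using abs_mob_le (φ := fun d => Gd (b * d) x) (q := q) zero_le_one fun d _ _ => h _ _

theorem abs_rem_le {X : Type*} {G : X → ℝ} {Gd : ℕ → X → ℝ} (hG : ∀ x, |G x| ≤ 1)
    (h : ∀ d x, |Gd d x| ≤ 1) (b Q : ℕ) (x : X) : |rem G Gd b Q x| ≤ 1 + (Q : ℝ) ^ 2 := by
  refine (abs_sub _ _).trans (add_le_add (hG x) ?_)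
  refine (Finset.abs_sum_le_sum_abs _ _).trans ?_
  have := sum_Icc_le_sq 1 Q 1 zero_le_one le_rfl
  simp only [mul_one] at this
  exact (Finset.sum_le_sum fun q _ => abs_part_le h b q x).trans this

theorem eq_rem_add {X : Type*} (G : X → ℝ) (Gd : ℕ → X → ℝ) (b : ℕ) {Q : ℕ} (hQ : 1 ≤ Q) (x : X) :
    G x = rem G Gd b Q x + Gd b x + ∑ q ∈ Icc 2 Q, part Gd b q x := by
  have h : Icc 1 Q = insert 1 (Icc 2 Q) := by
    ext q; simp only [mem_Icc, mem_insert]; omega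
  rw [rem, h, Finset.sum_insert (by simp), part, mob_one, mul_one]
  ring

/-- Pair equidistribution of `(e, e')` for the test `G` with its class means `Gd`: given the first
point, the second one is equidistributed on the (fine cell and) class modulo `g`. -/
structure PairET {Ω X : Type*} (P : PF Ω) (e e' : Ω → X) (G : X → ℝ) (Gd : ℕ → X → ℝ)
    (g B : ℕ) (τ : ℝ) : Prop where
  top : ∀ u : X → ℝ, (∀ x, |u x| ≤ 1) →
    |P.E (fun ω => u (e ω) * G (e' ω)) - P.E (fun ω => u (e ω) * Gd g (e' ω))| ≤ τ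
  lev : ∀ u : X → ℝ, (∀ x, |u x| ≤ 1) → ∀ d, 0 < d → d ≤ B →
    |P.E (fun ω => u (e ω) * Gd d (e' ω)) - P.E (fun ω => u (e ω) * Gd (Nat.gcd d g) (e' ω))| ≤ τ

theorem PairET.rem {Ω X : Type*} {P : PF Ω} {e e' : Ω → X} {G : X → ℝ} {Gd : ℕ → X → ℝ}
    {g B : ℕ} {τ : ℝ} (h : PairET P e e' G Gd g B τ) {b Q : ℕ} (hb : 0 < b) (hB : b * Q ≤ B)
    (hg : 0 < g) (hgQ : g ≤ Q) (u : X → ℝ) (hu : ∀ x, |u x| ≤ 1) :
    |P.E (fun ω => u (e ω) * rem G Gd b Q (e' ω))| ≤ (1 + (Q : ℝ) ^ 2) * τ := by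
  have hτ : 0 ≤ τ := (abs_nonneg _).trans (h.top u hu)
  set L : ℕ → ℝ := fun d => P.E (fun ω => u (e ω) * Gd d (e' ω)) with hL
  have h1 : P.E (fun ω => u (e ω) * Samp.rem G Gd b Q (e' ω))
      = P.E (fun ω => u (e ω) * G (e' ω)) - ∑ q ∈ Icc 1 Q, mob (fun d => L (b * d)) q := by
    have : (fun ω => u (e ω) * Samp.rem G Gd b Q (e' ω)) = fun ω => u (e ω) * G (e' ω)
        - ∑ q ∈ Icc 1 Q, u (e ω) * mob (fun d => Gd (b * d) (e' ω)) q := by
      ext ω; rw [Samp.rem, mul_sub, Finset.mul_sum]; rfl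
    rw [this, P.sub, P.sum]
    congr 1
    exact Finset.sum_congr rfl fun q _ => P.mob (fun ω => u (e ω)) (fun d ω => Gd (b * d) (e' ω)) q
  have h2 : ∑ q ∈ Icc 1 Q, mob (fun d => L (Nat.gcd (b * d) g)) q = L g := by
    have := sum_mob_gcd (fun c => L (Nat.gcd (b * c) g)) hg hgQ
    simp only [gcd_mul_gcd] at this
    rw [this, Nat.gcd_eq_right (Dvd.intro_left b rfl)]
  have h3 : |∑ q ∈ Icc 1 Q, mob (fun d => L (b * d)) q - L g| ≤ (Q : ℝ) ^ 2 * τ := by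
    rw [← h2, ← Finset.sum_sub_distrib]
    refine (Finset.abs_sum_le_sum_abs _ _).trans
      ((Finset.sum_le_sum fun q hq => ?_).trans (sum_Icc_le_sq 1 Q τ hτ le_rfl))
    refine abs_mob_sub_le hτ fun d hd hd0 => h.lev u hu _ (Nat.mul_pos hb hd0) ?_
    exact (Nat.mul_le_mul_left b ((Nat.le_of_dvd (mem_Icc.1 hq).1 hd).trans (mem_Icc.1 hq).2)).trans hB
  have h4 := h.top u hu
  rw [h1]
  have h5 : P.E (fun ω => u (e ω) * Gd g (e' ω)) = L g := rfl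
  rw [h5] at h4
  rw [abs_le] at h3 h4 ⊢
  constructor <;> nlinarith [h3.1, h3.2, h4.1, h4.2]

/-- weighted average over the positions `t` of a function of the point `ev t ω` -/
def smp {Ω X T : Type*} (S : Finset T) (p : T → ℝ) (ev : T → Ω → X) (G : X → ℝ) (ω : Ω) : ℝ :=
  ∑ t ∈ S, p t * G (ev t ω)

theorem abs_smp_le {Ω X T : Type*} {S : Finset T} {p : T → ℝ} (hp : ∀ t ∈ S, 0 ≤ p t)
    (hp1 : ∑ t ∈ S, p t = 1) (ev : T → Ω → X) {G : X → ℝ} {C : ℝ} (hG : ∀ x, |G x| ≤ C) (ω : Ω) :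
    |smp S p ev G ω| ≤ C := by
  refine (Finset.abs_sum_le_sum_abs _ _).trans ?_
  calc _ ≤ ∑ t ∈ S, p t * C := Finset.sum_le_sum fun t ht => by
        rw [abs_mul, abs_of_nonneg (hp t ht)]
        exact mul_le_mul_of_nonneg_left (hG _) (hp t ht)
    _ = C := by rw [← Finset.sum_mul, hp1, one_mul]

open Classical in
/-- **(SR)** second moment of the sampled remainder.  `good t t'` holds off a set of pairs of mass
`≤ ν`; for good pairs `1 ≤ g ≤ Q` and the pair is equidistributed. -/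
theorem rem_sq_le {Ω X T : Type*} (P : PF Ω) (hP : P.mass = 1) {S : Finset T} {p : T → ℝ}
    (hp : ∀ t ∈ S, 0 ≤ p t) (hp1 : ∑ t ∈ S, p t = 1) (ev : T → Ω → X) {G : X → ℝ}
    {Gd : ℕ → X → ℝ} (hG : ∀ x, |G x| ≤ 1) (hGd : ∀ d x, |Gd d x| ≤ 1) {b Q B : ℕ} (hb : 0 < b)
    (hB : b * Q ≤ B) {ν τ : ℝ} (hτ : 0 ≤ τ) (good : T → T → Prop)
    (hν : ∑ t ∈ S, ∑ t' ∈ S, (if good t t' then 0 else p t * p t') ≤ ν)
    (hET : ∀ t ∈ S, ∀ t' ∈ S, good t t' →
      ∃ g, 0 < g ∧ g ≤ Q ∧ PairET P (ev t) (ev t') G Gd g B τ) :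
    P.E (fun ω => smp S p ev (rem G Gd b Q) ω ^ 2) ≤ (1 + (Q : ℝ) ^ 2) ^ 2 * (ν + τ) := by
  set K : ℝ := 1 + (Q : ℝ) ^ 2 with hK
  have hK0 : 0 < K := by positivity
  have hR := abs_rem_le hG hGd b Q
  have h1 : (fun ω => smp S p ev (rem G Gd b Q) ω ^ 2) = fun ω => ∑ t ∈ S, ∑ t' ∈ S,
      (p t * p t') * (rem G Gd b Q (ev t ω) * rem G Gd b Q (ev t' ω)) := by
    ext ω
    rw [smp, pow_two, Finset.sum_mul_sum]
    exact Finset.sum_congr rfl fun t _ => Finset.sum_congr rfl fun t' _ => by ring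
  rw [h1, P.sum]
  have h2 : ∀ t ∈ S, P.E (fun ω => ∑ t' ∈ S,
      (p t * p t') * (rem G Gd b Q (ev t ω) * rem G Gd b Q (ev t' ω)))
      ≤ ∑ t' ∈ S, (K ^ 2 * (if good t t' then 0 else p t * p t') + K ^ 2 * τ * (p t * p t')) := by
    intro t ht
    rw [P.sum]
    refine Finset.sum_le_sum fun t' ht' => ?_
    rw [P.cmul]
    have hpp : 0 ≤ p t * p t' := mul_nonneg (hp t ht) (hp t' ht')
    split_ifs with hg
    · obtain ⟨g, hg0, hgQ, hE⟩ := hET t ht t' ht' hg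
      have h3 := hE.rem hb hB hg0 hgQ (fun x => K⁻¹ * rem G Gd b Q x) fun x => by
        rw [abs_mul, abs_of_pos (inv_pos.2 hK0), inv_mul_le_iff₀ hK0, mul_one]; exact hR x
      have h4 : (fun ω => rem G Gd b Q (ev t ω) * rem G Gd b Q (ev t' ω))
          = fun ω => K * (K⁻¹ * rem G Gd b Q (ev t ω) * rem G Gd b Q (ev t' ω)) := by
        ext ω; field_simp
      rw [h4, P.cmul]
      have h5 := (le_abs_self _).trans h3
      have h6 := mul_le_mul_of_nonneg_left h5 hK0.le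
      have h7 := mul_le_mul_of_nonneg_left h6 hpp
      nlinarith
    · have h3 : |P.E (fun ω => rem G Gd b Q (ev t ω) * rem G Gd b Q (ev t' ω))|
          ≤ K ^ 2 * P.mass := P.abs_le_const fun ω => by
        rw [abs_mul, pow_two]
        exact mul_le_mul (hR _) (hR _) (abs_nonneg _) hK0.le
      rw [hP, mul_one] at h3
      have h5 := mul_le_mul_of_nonneg_left ((le_abs_self _).trans h3) hpp
      nlinarith [mul_nonneg (mul_nonneg (sq_nonneg K) hτ) hpp]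
  refine (Finset.sum_le_sum h2).trans ?_
  simp only [Finset.sum_add_distrib, ← Finset.mul_sum]
  rw [← Finset.sum_mul, hp1]
  nlinarith [mul_le_mul_of_nonneg_left hν (sq_nonneg K)]

end Crest.Agent.T49.Samp
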