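import Crest.Agent.T49.SampSpr_57

/-! The periodic part of the robust sampler. -/

set_option autoImplicit false

namespace Crest.Agent.T49.Samp

open Finset

variable {Ω X T N n : Type*} [Fintype N] [DecidableEq N] [Fintype n] [DecidableEq n]

omit [DecidableEq N] in
/-- the frame data are equidistributed modulo every `M ≤ B` -/
def Equi (P : PF Ω) (dat : Ω → N → ℤ) (B : ℕ) (τ : ℝ) : Prop :=
  ∀ M : ℕ, 0 < M → M ≤ B → ∀ r : N → ℤ,
    |P.E (fun ω => cls M r (dat ω)) * (M : ℝ) ^ Fintype.card N - 1| ≤ τ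

omit [Fintype N] [DecidableEq N] in
/-- the purely arithmetic part of the local description: the coordinates of the point at position
`t` are `lin t c`; the class means are given by the periodic, consistent functions `γ t d` -/
structure Arith (S : Finset T) (g : T → T → ℕ) (lin : T → (N → ℤ) →+ (n → ℤ))
    (γ : T → ℕ → (n → ℤ) → ℝ) (B : ℕ) (β τ : ℝ) : Prop where
  surj : ∀ t ∈ S, Function.Surjective (lin t)
  pair : ∀ t ∈ S, ∀ t' ∈ S, ∀ w : n → ℤ, ∃ c, lin t c = 0 ∧ lin t' c = (g t t' : ℤ) • w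
  per : ∀ t ∈ S, ∀ d, 0 < d → d ≤ B → Per d (γ t d)
  bd : ∀ t ∈ S, ∀ d, 0 < d → d ≤ B → ∀ z, |γ t d z| ≤ β
  cons : ∀ t ∈ S, ∀ d e : ℕ, 0 < d → 0 < e → d * e ≤ B → ∀ z,
    |pav e (fun y => γ t (d * e) (z + (d : ℤ) • y)) - γ t d z| ≤ τ

/-- conductor-`q` part (relative to `b`) of the periodic model at the position `t` -/
noncomputable def ppart (lin : T → (N → ℤ) →+ (n → ℤ)) (γ : T → ℕ → (n → ℤ) → ℝ) (b q : ℕ)
    (t : T) (c : N → ℤ) : ℝ := mob (fun d => γ t (b * d) (lin t c)) q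

namespace Arith
variable {S : Finset T} {g : T → T → ℕ} {lin : T → (N → ℤ) →+ (n → ℤ)}
  {γ : T → ℕ → (n → ℤ) → ℝ} {B : ℕ} {β τ : ℝ}

omit [Fintype N] [DecidableEq N] in
theorem per_lin (h : Arith S g lin γ B β τ) {t : T} (ht : t ∈ S) {d : ℕ} (hd : 0 < d)
    (hB : d ≤ B) : Per d (fun c => γ t d (lin t c)) := fun c v => by
  show γ t d (lin t (c + _)) = _
  rw [map_add, map_zsmul, h.per t ht d hd hB]

omit [Fintype N] [DecidableEq N] [Fintype n] [DecidableEq n] in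
theorem _root_.Crest.Agent.T49.Samp.le_of_dvd_aux {b d q B : ℕ} (hq : 0 < q) (hd : d ∣ q)
    (hB : b * q ≤ B) : b * d ≤ B :=
  (Nat.mul_le_mul_left b (Nat.le_of_dvd hq hd)).trans hB

omit [Fintype N] [DecidableEq N] in
theorem per_ppart (h : Arith S g lin γ B β τ) {t : T} (ht : t ∈ S) {b q : ℕ} (hb : 0 < b)
    (hq : 0 < q) (hB : b * q ≤ B) : Per (b * q) (ppart lin γ b q t) := fun c v =>
  mob_congr fun _ hd =>
    ((h.per_lin ht (Nat.mul_pos hb (Nat.pos_of_dvd_of_pos hd hq))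
      (le_of_dvd_aux hq hd hB)).of_dvd (Nat.mul_dvd_mul_left b hd)) c v

omit [Fintype N] [DecidableEq N] in
theorem abs_ppart (h : Arith S g lin γ B β τ) (hβ : 0 ≤ β) {t : T} (ht : t ∈ S) {b q : ℕ}
    (hb : 0 < b) (hq : 0 < q) (hB : b * q ≤ B) (c : N → ℤ) : |ppart lin γ b q t c| ≤ q * β :=
  abs_mob_le hβ fun _ hd hd0 => h.bd t ht _ (Nat.mul_pos hb hd0) (le_of_dvd_aux hq hd hB) _

omit [Fintype N] [DecidableEq N] [Fintype n] [DecidableEq n] in
theorem _root_.Crest.Agent.T49.Samp.Per.pt {b q : ℕ} {f : (N → ℤ) → ℝ} (hf : Per (b * q) f)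
    (r : N → ℤ) : Per q (fun c => f (r + (b : ℤ) • c)) := fun c v => by
  show f (r + (b : ℤ) • (c + _)) = _
  rw [smul_add, ← add_assoc, smul_smul, ← Nat.cast_mul, hf]

/-- mean of the conductor-`q` part on a class modulo `b` -/
theorem pav_ppart (h : Arith S g lin γ B β τ) (hτ : 0 ≤ τ) {t : T} (ht : t ∈ S) {b q : ℕ}
    (hb : 0 < b) (hq : 2 ≤ q) (hB : b * q ≤ B) (r : N → ℤ) :
    |pav q (fun c => ppart lin γ b q t (r + (b : ℤ) • c))| ≤ q * τ := by
  have hq0 : 0 < q := by omega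
  have h1 := pav_mob q (fun _ : N → ℤ => (1 : ℝ))
    (fun d c => γ t (b * d) (lin t (r + (b : ℤ) • c))) q
  simp only [one_mul] at h1
  have h2 : pav q (fun c => ppart lin γ b q t (r + (b : ℤ) • c)) = _ := h1
  rw [h2, ← sub_zero (mob _ q), ← mob_const (γ t b (lin t r)) hq]
  refine abs_mob_sub_le hτ fun d hd hd0 => ?_
  have hBd := le_of_dvd_aux hq0 hd hB
  have h3 := pav_surj hd0 hq0 hd (lin t) (h.surj t ht)
    (f := fun y => γ t (b * d) (lin t r + (b : ℤ) • y))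
    ((h.per t ht _ (Nat.mul_pos hb hd0) hBd).pt _)
  simp only [map_add, map_zsmul]
  rw [h3]
  exact h.cons t ht b d hb hd0 hBd _

/-- decorrelation of two positions -/
theorem pav_pair (h : Arith S g lin γ B β τ) {t t' : T} (ht : t ∈ S) (ht' : t' ∈ S) {b q d : ℕ}
    (hb : 0 < b) (hq : 0 < q) (hd : d ∣ q) (hB : b * q ≤ B) (r : N → ℤ) {u : (N → ℤ) → ℝ}
    (hu : Per q u) (hinv : ∀ c c0, lin t c0 = 0 → u (c + c0) = u c) {U : ℝ} (hU : ∀ c, |u c| ≤ U) :
    |pav q (fun c => u c * γ t' (b * d) (lin t' (r + (b : ℤ) • c)))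
      - pav q (fun c => u c * γ t' (b * Nat.gcd d (g t t')) (lin t' (r + (b : ℤ) • c)))|
      ≤ U * τ := by
  have hd0 : 0 < d := Nat.pos_of_dvd_of_pos hd hq
  have hBd := le_of_dvd_aux hq hd hB
  have hbd : 0 < b * d := Nat.mul_pos hb hd0
  set g0 := g t t'
  set e0 := Nat.gcd d g0 with he0
  have he : 0 < e0 := Nat.gcd_pos_of_pos_left _ hd0
  have hde : e0 * (d / e0) = d := Nat.mul_div_cancel' (Nat.gcd_dvd_left d g0)
  have hf : Per q (fun c => u c * γ t' (b * d) (lin t' (r + (b : ℤ) • c))) := fun c v => by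
    have := (((h.per_lin ht' hbd hBd).of_dvd (Nat.mul_dvd_mul_left b hd)).pt r) c v
    simp only at this ⊢
    rw [hu c v, this]
  have h1 : ∀ w : n → ℤ, pav q (fun c => u c * γ t' (b * d)
      (lin t' (r + (b : ℤ) • c) + ((b * g0 : ℕ) : ℤ) • w))
      = pav q (fun c => u c * γ t' (b * d) (lin t' (r + (b : ℤ) • c))) := by
    intro w
    obtain ⟨c0, h0, h0'⟩ := h.pair t ht t' ht' w
    rw [← pav_shift hq hf c0]
    congr 1; ext c
    rw [hinv c c0 h0, smul_add, ← add_assoc, map_add (lin t') (r + _), map_zsmul, h0', smul_smul,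
      Nat.cast_mul]
  have h2 : pav q (fun c => u c * γ t' (b * d) (lin t' (r + (b : ℤ) • c)))
      = pav q (fun c => u c * pav (d / e0) (fun y => γ t' (b * d)
        (lin t' (r + (b : ℤ) • c) + ((b * e0 : ℕ) : ℤ) • y))) := by
    rw [← pav_const (N := n) hq (pav q fun c => u c * γ t' (b * d) (lin t' (r + (b : ℤ) • c))),
      ← funext h1, ← pav_comm]
    congr 1; ext c
    rw [pav_cmul, pav_gcd g0 hd0 hq hd (h.per t' ht' _ hbd hBd)]
  rw [h2, ← pav_sub]
  refine abs_pav_le hq fun c => ?_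
  rw [← mul_sub, abs_mul]
  refine mul_le_mul (hU c) ?_ (abs_nonneg _) ((abs_nonneg _).trans (hU c))
  have h3 := h.cons t' ht' (b * e0) (d / e0) (Nat.mul_pos hb he)
    (Nat.div_pos (Nat.le_of_dvd hd0 (Nat.gcd_dvd_left d g0)) he)
    (by rw [mul_assoc, hde]; exact hBd) (lin t' (r + (b : ℤ) • c))
  rwa [mul_assoc, hde] at h3

theorem pav_ppart_mul (h : Arith S g lin γ B β τ) (hβ : 0 ≤ β) (hτ : 0 ≤ τ) {t t' : T} (ht : t ∈ S)
    (ht' : t' ∈ S) {b q : ℕ} (hb : 0 < b) (hq : 0 < q) (hB : b * q ≤ B) (r : N → ℤ) :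
    pav q (fun c => ppart lin γ b q t (r + (b : ℤ) • c) * ppart lin γ b q t' (r + (b : ℤ) • c))
      ≤ (q : ℝ) ^ 2 * β ^ 2 * (if q ∣ g t t' then 1 else 0) + (q : ℝ) ^ 2 * β * τ := by
  have hqq : (0 : ℝ) ≤ (q : ℝ) ^ 2 * β * τ := by positivity
  split_ifs with hg
  · refine (le_abs_self _).trans ((abs_pav_le hq (a := (q * β) * (q * β)) fun c => ?_).trans ?_)
    · rw [abs_mul]
      exact mul_le_mul (h.abs_ppart hβ ht hb hq hB _) (h.abs_ppart hβ ht' hb hq hB _)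
        (abs_nonneg _) (by positivity)
    · nlinarith
  · set u : (N → ℤ) → ℝ := fun c => ppart lin γ b q t (r + (b : ℤ) • c) with hu
    have h1 := pav_mob q u (fun d c => γ t' (b * d) (lin t' (r + (b : ℤ) • c))) q
    have h2 : pav q (fun c => ppart lin γ b q t (r + (b : ℤ) • c)
        * ppart lin γ b q t' (r + (b : ℤ) • c)) = _ := h1
    have h3 := mob_gcd (fun d => pav q
      (fun c => u c * γ t' (b * d) (lin t' (r + (b : ℤ) • c)))) (g t t') hq
    rw [if_neg hg] at h3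
    rw [h2, mul_zero, zero_add]
    refine (le_abs_self _).trans ?_
    rw [← sub_zero (mob _ q), ← h3]
    refine (abs_mob_sub_le (β := q * β * τ) (by positivity) fun d hd _ => ?_).trans
      (le_of_eq (by ring))
    refine h.pav_pair ht ht' hb hq hd hB r ((h.per_ppart ht hb hq hB).pt r) (fun c c0 h0 => ?_)
      (fun c => h.abs_ppart hβ ht hb hq hB _)
    simp only [ppart, smul_add, map_add, map_zsmul, h0, smul_zero, add_zero]

end Arith

/-- the core Cauchy–Schwarz estimate for a spread weight against an `bq`-periodic function -/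
theorem Spread.corr_le {P : PF Ω} {dat : Ω → N → ℤ} {a : Ω → ℝ} {b Q B : ℕ} {r : N → ℤ}
    {θ abar τ : ℝ} (hS : Spread P dat a b r Q θ abar) (ha0 : ∀ ω, 0 ≤ a ω) (ha1 : ∀ ω, a ω ≤ 1)
    (hab : 0 ≤ abar) (hθ : 0 ≤ θ) (hE : Equi P dat B τ) (hτ : τ ≤ 1 / 2) {q : ℕ} (hq : 0 < q)
    (hqQ : q ≤ Q) (hB : b * q ≤ B) {Γ : (N → ℤ) → ℝ} (hΓ : Per (b * q) Γ) {U V W : ℝ}
    (hU : ∀ c, |Γ c| ≤ U) (hV : |pav q (fun c => Γ (r + (b : ℤ) • c))| ≤ V) (hW0 : 0 ≤ W)
    (hW : pav q (fun c => Γ (r + (b : ℤ) • c) ^ 2) ≤ W ^ 2) :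
    |P.E (fun ω => cls b r (dat ω) * (a ω * Γ (dat ω)))|
      ≤ abar * P.E (fun ω => cls b r (dat ω)) * (2 * (V + U * τ) + √(3 * θ * q) * W) := by
  have hb := hS.bpos
  have hbq : 0 < b * q := Nat.mul_pos hb hq
  have hba : Bdd a := Bdd.of_01 ha0 ha1
  set mr := P.E (fun ω => cls b r (dat ω)) with hmr
  have hmr0 : 0 < mr := hS.mpos
  let pt : (N → ℤ) → N → ℤ := fun c => r + (b : ℤ) • c
  let m : (N → ℤ) → ℝ := fun c => P.E (fun ω => cls (b * q) (pt c) (dat ω))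
  let A : (N → ℤ) → ℝ := fun c => P.E (fun ω => cls (b * q) (pt c) (dat ω) * a ω)
  set D := Fintype.card N
  have hqD : (0 : ℝ) < (q : ℝ) ^ D := by positivity
  have hbD : (0 : ℝ) < (b : ℝ) ^ D := by positivity
  set κ : ℝ := (((b * q : ℕ) : ℝ) ^ D)⁻¹ with hκ
  have hκ0 : 0 < κ := by positivity
  have hτ0 : 0 ≤ τ := (abs_nonneg _).trans (hE _ hbq hB r)
  have hU0 : 0 ≤ U := (abs_nonneg _).trans (hU r)
  have hV0 : 0 ≤ V := (abs_nonneg _).trans hV
  have hm : ∀ c, |m c - κ| ≤ τ * κ := fun c => by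
    have h1 := hE _ hbq hB (pt c)
    have h2 : m c - κ = (m c * ((b * q : ℕ) : ℝ) ^ D - 1) * κ := by
      rw [hκ]; field_simp
    rw [h2, abs_mul, abs_of_pos hκ0]
    exact mul_le_mul_of_nonneg_right h1 hκ0.le
  have hμ : (q : ℝ) ^ D * κ ≤ 2 * mr := by
    have h1 := (abs_le.1 (hE b hb ((Nat.le_mul_of_pos_right b hq).trans hB) r)).1
    have h2 : (q : ℝ) ^ D * κ = ((b : ℝ) ^ D)⁻¹ := by
      rw [hκ, Nat.cast_mul, mul_pow]; field_simp
    rw [h2, inv_le_iff_one_le_mul₀ hbD]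
    nlinarith
  have hA0 : ∀ c, 0 ≤ A c := fun c => P.nonneg _ ((bdd_cls _ _ dat).mul hba) fun ω =>
    mul_nonneg (cls_nonneg _ _ _) (ha0 ω)
  have hA1 : ∀ c, A c ≤ (1 + θ * q) * abar * m c := fun c => hS.le q hq hqQ _
  have hsum : ∀ (f : (N → ℤ) → ℝ), Per (b * q) f → ∀ w : Ω → ℝ,
      P.E (fun ω => cls b r (dat ω) * (w ω * f (dat ω)))
        = ∑ c ∈ rbox N q, f (pt c) * P.E (fun ω => cls (b * q) (pt c) (dat ω) * w ω) := by
    intro f hf w
    have : (fun ω => cls b r (dat ω) * (w ω * f (dat ω)))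
        = fun ω => ∑ c ∈ rbox N q, f (pt c) * (cls (b * q) (pt c) (dat ω) * w ω) := by
      ext ω
      rw [mul_comm (w ω), ← mul_assoc, cls_mul_eq hb hq r _ hf, Finset.sum_mul]
      exact Finset.sum_congr rfl fun c _ => by ring
    rw [this, P.sum]
    exact Finset.sum_congr rfl fun c _ => P.cmul _ _
  have hsA : ∑ c ∈ rbox N q, A c = abar * mr := by
    have := hsum (fun _ => 1) (fun _ _ => rfl) a
    simp only [mul_one, one_mul] at this
    rw [← hS.mean, this]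
  have hsm : ∑ c ∈ rbox N q, m c = mr := by
    have := hsum (fun _ => 1) (fun _ _ => rfl) (fun _ => 1)
    simp only [mul_one, one_mul] at this
    rw [hmr, this]
  rw [hsum Γ hΓ a]
  have hsplit : ∑ c ∈ rbox N q, Γ (pt c) * A c
      = abar * (κ * ∑ c ∈ rbox N q, Γ (pt c)) + abar * ∑ c ∈ rbox N q, Γ (pt c) * (m c - κ)
        + ∑ c ∈ rbox N q, Γ (pt c) * (A c - abar * m c) := by
    simp only [Finset.mul_sum, ← Finset.sum_add_distrib]
    exact Finset.sum_congr rfl fun c _ => by ring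
  have hI : |κ * ∑ c ∈ rbox N q, Γ (pt c)| ≤ 2 * mr * V := by
    have : κ * ∑ c ∈ rbox N q, Γ (pt c) = ((q : ℝ) ^ D * κ) * pav q (fun c => Γ (pt c)) := by
      rw [pav]; field_simp; rfl
    rw [this, abs_mul, abs_of_pos (mul_pos hqD hκ0)]
    exact mul_le_mul hμ hV (abs_nonneg _) (by positivity)
  have hII : |∑ c ∈ rbox N q, Γ (pt c) * (m c - κ)| ≤ 2 * mr * (U * τ) := by
    refine (Finset.abs_sum_le_sum_abs _ _).trans
      ((Finset.sum_le_card_nsmul _ _ (U * (τ * κ)) fun c _ => ?_).trans ?_)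
    · rw [abs_mul]; exact mul_le_mul (hU _) (hm c) (abs_nonneg _) hU0
    · rw [card_rbox, nsmul_eq_mul]
      push_cast
      nlinarith [mul_le_mul_of_nonneg_right hμ (mul_nonneg hU0 hτ0)]
  have hx : ∑ c ∈ rbox N q, (A c - abar * m c) ^ 2 ≤ 3 / 2 * κ * (θ * q * abar ^ 2 * mr) := by
    have h1 : ∀ c, (A c - abar * m c) ^ 2
        ≤ 3 / 2 * κ * ((θ * q - 1) * abar * A c + abar ^ 2 * m c) := by
      intro c
      have h2 := abs_le.1 (hm c)
      have hmc : 0 < m c := by nlinarith [h2.1]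
      have hmc' : m c ≤ 3 / 2 * κ := by nlinarith [h2.2]
      have h3 : (A c - abar * m c) ^ 2 ≤ m c * ((θ * q - 1) * abar * A c + abar ^ 2 * m c) := by
        nlinarith [mul_nonneg (hA0 c) (sub_nonneg.2 (hA1 c))]
      have h4 : 0 ≤ (θ * q - 1) * abar * A c + abar ^ 2 * m c :=
        nonneg_of_mul_nonneg_right ((sq_nonneg _).trans h3) hmc |> fun h => h
      exact h3.trans (mul_le_mul_of_nonneg_right hmc' h4)
    refine (Finset.sum_le_sum fun c _ => h1 c).trans (le_of_eq ?_)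
    rw [← Finset.mul_sum, Finset.sum_add_distrib, ← Finset.mul_sum, ← Finset.mul_sum, hsA, hsm]
    ring
  have hΓ2 : ∑ c ∈ rbox N q, Γ (pt c) ^ 2 ≤ (q : ℝ) ^ D * W ^ 2 := by
    rw [pav, div_le_iff₀ hqD] at hW
    linarith
  have hIII : |∑ c ∈ rbox N q, Γ (pt c) * (A c - abar * m c)| ≤ abar * mr * (√(3 * θ * q) * W) := by
    refine abs_le_of_sq_le_sq ?_ (by positivity)
    refine (Finset.sum_mul_sq_le_sq_mul_sq _ _ _).trans ?_
    refine (mul_le_mul hΓ2 hx (Finset.sum_nonneg fun _ _ => sq_nonneg _) (by positivity)).trans ?_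
    rw [mul_pow, mul_pow, mul_pow, Real.sq_sqrt (by positivity)]
    have h5 : 0 ≤ W ^ 2 * (θ * q * abar ^ 2 * mr) := by positivity
    nlinarith [mul_le_mul_of_nonneg_right hμ h5]
  change |∑ c ∈ rbox N q, Γ (pt c) * A c| ≤ _
  rw [hsplit]
  refine (abs_add_three _ _ _).trans ?_
  rw [abs_mul abar, abs_mul abar, abs_of_nonneg hab]
  nlinarith [mul_le_mul_of_nonneg_left hI hab, mul_le_mul_of_nonneg_left hII hab]

end Crest.Agent.T49.Samp
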