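import Crest.Agent.T49.SampAvg_57

/-! A dense family of frames is spread on one residue class of the frame data. -/

set_option autoImplicit false

namespace Crest.Agent.T49.Samp

open Finset

variable {Ω N : Type*} [Fintype N] [DecidableEq N]

omit [Fintype N] [DecidableEq N] in
/-- The weight `a` has relative density `abar` on the class `dat ≡ r (mod b)` and relative density
at most `(1 + θ q) abar` on every class modulo `b q`, `q ≤ Q`. -/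
structure Spread (P : PF Ω) (dat : Ω → N → ℤ) (a : Ω → ℝ) (b : ℕ) (r : N → ℤ) (Q : ℕ)
    (θ abar : ℝ) : Prop where
  bpos : 0 < b
  mpos : 0 < P.E (fun ω => cls b r (dat ω))
  mean : P.E (fun ω => cls b r (dat ω) * a ω) = abar * P.E (fun ω => cls b r (dat ω))
  le : ∀ q, 0 < q → q ≤ Q → ∀ r' : N → ℤ, P.E (fun ω => cls (b * q) r' (dat ω) * a ω)
    ≤ (1 + θ * q) * abar * P.E (fun ω => cls (b * q) r' (dat ω))

theorem rpow_le_one_add {q θ : ℝ} (hq : 1 ≤ q) (h0 : 0 ≤ θ) (h1 : θ ≤ 1) : q ^ θ ≤ 1 + θ * q := by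
  have := rpow_one_add_le_one_add_mul_self (s := q - 1) (by linarith) h0 h1
  rw [add_sub_cancel] at this
  nlinarith

/-- **(SPREAD)** -/
theorem exists_spread (P : PF Ω) (hP : P.mass = 1) (dat : Ω → N → ℤ) {a : Ω → ℝ}
    (ha0 : ∀ ω, 0 ≤ a ω) (ha1 : ∀ ω, a ω ≤ 1) {σ θ : ℝ} (hσ : 0 < σ) (hσa : σ ≤ P.E a)
    (hθ : 0 < θ) (hθ1 : θ ≤ 1) {Q0 Q : ℕ} (hQ : 1 ≤ Q) (hQ0 : 1 ≤ σ * (Q0 : ℝ) ^ θ) :
    ∃ (b : ℕ) (r : N → ℤ) (abar : ℝ), b ≤ Q0 ∧ σ ≤ abar ∧ abar ≤ 1 ∧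
      Spread P dat a b r Q θ abar := by
  classical
  have hQ0' : 1 ≤ Q0 := by
    rcases Nat.eq_zero_or_pos Q0 with h | h
    · rw [h, Nat.cast_zero, Real.zero_rpow hθ.ne', mul_zero] at hQ0; linarith
    · exact h
  have hba : Bdd a := Bdd.of_01 ha0 ha1
  let m : ℕ → (N → ℤ) → ℝ := fun b r => P.E (fun ω => cls b r (dat ω))
  let A : ℕ → (N → ℤ) → ℝ := fun b r => P.E (fun ω => cls b r (dat ω) * a ω)
  have hAm : ∀ b r, A b r ≤ m b r := fun b r =>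
    P.mono ((bdd_cls b r dat).mul hba) (bdd_cls b r dat) fun ω => by
      nlinarith [cls_nonneg b r (dat ω), ha1 ω]
  have hm0 : ∀ b r, 0 ≤ m b r := fun b r => P.nonneg _ (bdd_cls b r dat) fun ω => cls_nonneg _ _ _
  let F : Finset (Σ _ : ℕ, N → ℤ) :=
    ((Icc 1 (Q0 * Q)).sigma fun b => rbox N b).filter fun x => 0 < m x.1 x.2
  let Φ : (Σ _ : ℕ, N → ℤ) → ℝ := fun x => A x.1 x.2 / (m x.1 x.2 * (x.1 : ℝ) ^ θ)
  have hm1 : m 1 0 = 1 := by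
    simp only [m, cls_one]; exact hP
  have hA1 : A 1 0 = P.E a := by simp only [A, cls_one, one_mul]
  have h1 : (⟨1, 0⟩ : Σ _ : ℕ, N → ℤ) ∈ F := by
    simp only [F, mem_filter, mem_sigma, mem_Icc, mem_rbox, hm1]
    exact ⟨⟨⟨le_rfl, Nat.mul_pos hQ0' hQ⟩, fun i => by simp⟩, one_pos⟩
  obtain ⟨⟨b, r⟩, hx, hmax⟩ := F.exists_max_image Φ ⟨_, h1⟩
  simp only [F, mem_filter, mem_sigma, mem_Icc] at hx
  obtain ⟨⟨⟨hb1, -⟩, -⟩, hmb⟩ := hx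
  have hbR : (1 : ℝ) ≤ b := by exact_mod_cast hb1
  have hbθ : 0 < (b : ℝ) ^ θ := Real.rpow_pos_of_pos (by linarith) θ
  have hbθ1 : 1 ≤ (b : ℝ) ^ θ := Real.one_le_rpow hbR hθ.le
  have hΦ1 : σ ≤ A b r / (m b r * (b : ℝ) ^ θ) := by
    have := hmax _ h1
    simp only [Φ, hm1, hA1, Nat.cast_one, Real.one_rpow, mul_one, div_one] at this
    exact hσa.trans this
  rw [le_div_iff₀ (mul_pos hmb hbθ)] at hΦ1
  have hbQ : b ≤ Q0 := by
    have h2 : σ * (b : ℝ) ^ θ ≤ 1 := by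
      have : σ * (b : ℝ) ^ θ * m b r ≤ 1 * m b r := by nlinarith [hAm b r]
      exact le_of_mul_le_mul_right this hmb
    have h3 : (b : ℝ) ^ θ ≤ (Q0 : ℝ) ^ θ := le_of_mul_le_mul_left (h2.trans hQ0) hσ
    exact_mod_cast (Real.rpow_le_rpow_iff (by linarith) (Nat.cast_nonneg Q0) hθ).1 h3
  have hab : σ ≤ A b r / m b r := by
    rw [le_div_iff₀ hmb]
    nlinarith [mul_pos hσ hmb]
  refine ⟨b, r, A b r / m b r, hbQ, hab, (div_le_one hmb).2 (hAm b r), hb1, hmb,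
    (div_mul_cancel₀ _ hmb.ne').symm, fun q hq hqQ r' => ?_⟩
  have hbq : 0 < b * q := Nat.mul_pos hb1 hq
  have hc : ∀ c, cls (b * q) r' c = cls (b * q) (red (b * q) r') c := cls_congr (cong_red _ _)
  simp only [hc]
  change A (b * q) (red (b * q) r') ≤ (1 + θ * q) * (A b r / m b r) * m (b * q) (red (b * q) r')
  set r1 := red (b * q) r'
  have hqR : (1 : ℝ) ≤ q := by exact_mod_cast hq
  rcases (hm0 (b * q) r1).eq_or_lt with h0 | h0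
  · rw [← h0, mul_zero]; exact (hAm _ _).trans h0.ge
  · have hmem : (⟨b * q, r1⟩ : Σ _ : ℕ, N → ℤ) ∈ F := by
      simp only [F, mem_filter, mem_sigma, mem_Icc]
      exact ⟨⟨⟨hbq, Nat.mul_le_mul hbQ hqQ⟩, red_mem hbq _⟩, h0⟩
    have h2 := hmax _ hmem
    simp only [Φ] at h2
    have hqθ : 0 < (q : ℝ) ^ θ := Real.rpow_pos_of_pos (by linarith) θ
    rw [Nat.cast_mul, Real.mul_rpow (by linarith) (by linarith),
      div_le_iff₀ (mul_pos h0 (mul_pos hbθ hqθ))] at h2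
    have h3 : A b r / (m b r * (b : ℝ) ^ θ) * (m (b * q) r1 * ((b : ℝ) ^ θ * (q : ℝ) ^ θ))
        = (q : ℝ) ^ θ * (A b r / m b r) * m (b * q) r1 := by
      field_simp
    rw [h3] at h2
    refine h2.trans (mul_le_mul_of_nonneg_right (mul_le_mul_of_nonneg_right
      (rpow_le_one_add hqR hθ.le hθ1) (hσ.le.trans hab)) h0.le)

/-- the size condition of `exists_spread` in exponential form -/
theorem one_le_mul_rpow {σ θ K : ℝ} {Q0 : ℕ} (hθ : 0 < θ) (hσ : Real.exp (-K) ≤ σ)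
    (hQ : Real.exp (K / θ) ≤ Q0) : 1 ≤ σ * (Q0 : ℝ) ^ θ := by
  have h1 : Real.exp K ≤ (Q0 : ℝ) ^ θ := by
    have := Real.rpow_le_rpow (Real.exp_pos _).le hQ hθ.le
    rwa [← Real.exp_mul, div_mul_cancel₀ _ hθ.ne'] at this
  calc (1 : ℝ) = Real.exp (-K) * Real.exp K := by rw [← Real.exp_add]; simp
    _ ≤ _ := mul_le_mul hσ h1 (Real.exp_pos _).le ((Real.exp_pos _).le.trans hσ)

/-- **(PIECE)** delete the frames on which one of finitely many `L²`-small functions is large, choose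
a fine cell `k` and a residue class on which the remaining family is dense and spread. -/
theorem exists_piece (P : PF Ω) {K : Type*} (Pk : K → PF Ω) (hPk : ∀ k, (Pk k).mass = 1)
    (hmix : ∀ f : Ω → ℝ, (∀ ω, 0 ≤ f ω) → (∀ ω, f ω ≤ 1) → ∃ k, P.E f ≤ 2 * (Pk k).E f)
    (dat : K → Ω → N → ℤ) {a : Ω → ℝ} (ha0 : ∀ ω, 0 ≤ a ω) (ha1 : ∀ ω, a ω ≤ 1) {σ θ ε ζ : ℝ}
    (hσ : 0 < σ) (hσa : σ ≤ P.E a) (hθ : 0 < θ) (hθ1 : θ ≤ 1) (hε : 0 < ε) {Q0 Q : ℕ} (hQ : 1 ≤ Q)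
    (hQ0 : 1 ≤ σ / 4 * (Q0 : ℝ) ^ θ) {J : Type*} (I : Finset J) (ρ : J → Ω → ℝ)
    (hρ : ∀ j ∈ I, Bdd (ρ j)) (hζ : ∀ j ∈ I, P.E (fun ω => ρ j ω ^ 2) ≤ ζ)
    (hI : 2 * (I.card * ζ) ≤ σ * ε ^ 2) :
    ∃ (a' : Ω → ℝ) (k : K) (b : ℕ) (r : N → ℤ) (abar : ℝ), (∀ ω, 0 ≤ a' ω) ∧ (∀ ω, a' ω ≤ a ω) ∧
      (∀ ω, a' ω ≠ 0 → a' ω = a ω ∧ ∀ j ∈ I, |ρ j ω| ≤ ε) ∧ b ≤ Q0 ∧ σ / 4 ≤ abar ∧ abar ≤ 1 ∧
      Spread (Pk k) (dat k) a' b r Q θ abar := by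
  classical
  let a' : Ω → ℝ := fun ω => if ∀ j ∈ I, |ρ j ω| ≤ ε then a ω else 0
  have h0 : ∀ ω, 0 ≤ a' ω := fun ω => by simp only [a']; split_ifs; exacts [ha0 ω, le_rfl]
  have h1 : ∀ ω, a' ω ≤ a ω := fun ω => by simp only [a']; split_ifs; exacts [le_rfl, ha0 ω]
  have h1' : ∀ ω, a' ω ≤ 1 := fun ω => (h1 ω).trans (ha1 ω)
  have hind : ∀ j, Bdd fun ω => if ε < |ρ j ω| then (1 : ℝ) else 0 := fun j =>
    Bdd.of_01 (fun x => by split_ifs <;> norm_num) (fun x => by split_ifs <;> norm_num)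
  have h2 : P.E a ≤ P.E (fun ω => a' ω + ∑ j ∈ I, if ε < |ρ j ω| then (1 : ℝ) else 0) := by
    refine P.mono (Bdd.of_01 ha0 ha1) ((Bdd.of_01 h0 h1').add (Bdd.sum I _ fun j _ => hind j))
      fun ω => ?_
    have hs : ∀ j ∈ I, (0 : ℝ) ≤ if ε < |ρ j ω| then (1 : ℝ) else 0 := fun j _ => by
      split_ifs <;> norm_num
    by_cases h : ∀ j ∈ I, |ρ j ω| ≤ ε
    · simp only [a', if_pos h]
      linarith [Finset.sum_nonneg hs]
    · simp only [a', if_neg h]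
      push Not at h
      obtain ⟨j, hj, hlt⟩ := h
      have := Finset.single_le_sum hs hj
      rw [if_pos hlt] at this
      linarith [ha1 ω]
  rw [P.add, P.sum] at h2
  have h3 : ∑ j ∈ I, P.E (fun ω => if ε < |ρ j ω| then (1 : ℝ) else 0) ≤ I.card * (ζ / ε ^ 2) := by
    rw [← nsmul_eq_mul]
    exact Finset.sum_le_card_nsmul _ _ _ fun j hj => (P.cheb (hρ j hj) hε).trans
      (div_le_div_of_nonneg_right (hζ j hj) (sq_nonneg _))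
  have h4 : I.card * (ζ / ε ^ 2) ≤ σ / 2 := by
    rw [← mul_div_assoc, div_le_iff₀ (by positivity)]; linarith
  obtain ⟨k, hk⟩ := hmix a' h0 h1'
  obtain ⟨b, r, abar, hb, hab, hab1, hS⟩ := exists_spread (Pk k) (hPk k) (dat k) h0 h1'
    (σ := σ / 4) (by positivity) (by linarith) hθ hθ1 hQ hQ0
  refine ⟨a', k, b, r, abar, h0, h1, fun ω hω => ?_, hb, hab, hab1, hS⟩
  by_cases h : ∀ j ∈ I, |ρ j ω| ≤ ε
  · exact ⟨if_pos h, h⟩
  · exact absurd (if_neg h) hω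

end Crest.Agent.T49.Samp
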