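import Crest.Agent.T49.SampSP_57

/-! **Robust sampler**: on a spread piece of a dense family of frames, the sampled average of a test
function equals the average of its class means up to `O(√θ β)`. -/

set_option autoImplicit false

namespace Crest.Agent.T49.Samp

open Finset

variable {Ω X T N n : Type*} [Fintype N] [DecidableEq N] [Fintype n] [DecidableEq n]

omit [Fintype N] [DecidableEq N] [Fintype n] [DecidableEq n] in
/-- in the fine frame cell, the class mean `Gd d` at the point `ev t ω` is (in `L¹`) a function of the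
residue of the data -/
def Appr (P : PF Ω) (dat : Ω → N → ℤ) (S : Finset T) (ev : T → Ω → X) (Gd : ℕ → X → ℝ)
    (lin : T → (N → ℤ) →+ (n → ℤ)) (γ : T → ℕ → (n → ℤ) → ℝ) (B : ℕ) (τ₂ : ℝ) : Prop :=
  ∀ t ∈ S, ∀ d, 0 < d → d ≤ B →
    P.E (fun ω => |Gd d (ev t ω) - γ t d (lin t (dat ω))|) ≤ τ₂

omit [Fintype N] [DecidableEq N] [Fintype n] [DecidableEq n] in
/-- the small-gcd constant: `∑_{2 ≤ q ≤ Q} q √(q P(q ∣ g)) ≤ C` -/
def GcdBd (S : Finset T) (p : T → ℝ) (g : T → T → ℕ) (Q : ℕ) (C : ℝ) : Prop :=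
  ∑ q ∈ Icc 2 Q, (q : ℝ) * √(q * ∑ t ∈ S, ∑ t' ∈ S, p t * p t' * if q ∣ g t t' then 1 else 0) ≤ C

section
variable {P : PF Ω} {dat : Ω → N → ℤ} {a : Ω → ℝ} {b Q B : ℕ} {r : N → ℤ} {θ abar β τ τ₂ : ℝ}
  {S : Finset T} {p : T → ℝ} {g : T → T → ℕ} {lin : T → (N → ℤ) →+ (n → ℤ)}
  {γ : T → ℕ → (n → ℤ) → ℝ} {ev : T → Ω → X} {G : X → ℝ} {Gd : ℕ → X → ℝ}

omit [Fintype N] [DecidableEq N] [Fintype n] [DecidableEq n] in
theorem abs_wsum_le (hp : ∀ t ∈ S, 0 ≤ p t) (hp1 : ∑ t ∈ S, p t = 1) {F : T → ℝ} {C : ℝ}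
    (hF : ∀ t ∈ S, |F t| ≤ C) : |∑ t ∈ S, p t * F t| ≤ C := by
  refine (Finset.abs_sum_le_sum_abs _ _).trans ?_
  calc _ ≤ ∑ t ∈ S, p t * C := Finset.sum_le_sum fun t ht => by
        rw [abs_mul, abs_of_nonneg (hp t ht)]
        exact mul_le_mul_of_nonneg_left (hF t ht) (hp t ht)
    _ = C := by rw [← Finset.sum_mul, hp1, one_mul]

omit [Fintype N] [DecidableEq N] in
theorem appr_lev (hA : Arith S g lin γ B β τ) (hAp : Appr P dat S ev Gd lin γ B τ₂)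
    (hGd : ∀ d x, |Gd d x| ≤ 1) {w : Ω → ℝ} (hw : ∀ ω, |w ω| ≤ 1) {t : T} (ht : t ∈ S) {d : ℕ}
    (hd : 0 < d) (hB : d ≤ B) :
    |P.E (fun ω => w ω * Gd d (ev t ω)) - P.E (fun ω => w ω * γ t d (lin t (dat ω)))| ≤ τ₂ := by
  rw [← P.sub]
  refine (P.abs_le_of (((Bdd.of_le 1 fun ω => hGd d (ev t ω)).sub
    (Bdd.of_le β fun ω => hA.bd t ht d hd hB _)).abs) fun ω => ?_).trans (hAp t ht d hd hB)
  rw [← mul_sub, abs_mul]
  exact mul_le_of_le_one_left (abs_nonneg _) (hw ω)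

theorem part_corr_le (hS : Spread P dat a b r Q θ abar) (ha0 : ∀ ω, 0 ≤ a ω) (ha1 : ∀ ω, a ω ≤ 1)
    (hab : 0 ≤ abar) (hθ : 0 ≤ θ) (hθ1 : θ ≤ 1) (hE : Equi P dat B τ) (hτ : τ ≤ 1 / 2)
    (hp : ∀ t ∈ S, 0 ≤ p t) (hp1 : ∑ t ∈ S, p t = 1) (hA : Arith S g lin γ B β τ) (hβ : 0 ≤ β)
    (hβ1 : β ≤ 1) (hAp : Appr P dat S ev Gd lin γ B τ₂) (hτ₂ : 0 ≤ τ₂) (hGd : ∀ d x, |Gd d x| ≤ 1)
    {q : ℕ} (hq : 2 ≤ q) (hqQ : q ≤ Q) (hB : b * q ≤ B) :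
    |P.E (fun ω => cls b r (dat ω) * (a ω * smp S p ev (part Gd b q) ω))|
      ≤ abar * P.E (fun ω => cls b r (dat ω)) * (√(3 * θ) * β * ((q : ℝ) *
        √(q * ∑ t ∈ S, ∑ t' ∈ S, p t * p t' * if q ∣ g t t' then 1 else 0))
          + 6 * (q : ℝ) ^ 2 * √τ) + q * τ₂ := by
  have hb := hS.bpos
  have hq0 : 0 < q := by omega
  have hqR : (2 : ℝ) ≤ q := by exact_mod_cast hq
  have hτ0 : 0 ≤ τ := (abs_nonneg _).trans (hE _ (Nat.mul_pos hb hq0) hB r)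
  set Pq : ℝ := ∑ t ∈ S, ∑ t' ∈ S, p t * p t' * if q ∣ g t t' then 1 else 0 with hPq
  have hPq0 : 0 ≤ Pq := Finset.sum_nonneg fun t ht => Finset.sum_nonneg fun t' ht' =>
    mul_nonneg (mul_nonneg (hp t ht) (hp t' ht')) (by split_ifs <;> norm_num)
  let Γ : (N → ℤ) → ℝ := fun c => ∑ t ∈ S, p t * ppart lin γ b q t c
  have hΓ : Per (b * q) Γ := fun c v =>
    Finset.sum_congr rfl fun t ht => by rw [hA.per_ppart ht hb hq0 hB c v]
  have hU : ∀ c, |Γ c| ≤ q * β := fun c =>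
    abs_wsum_le hp hp1 fun t ht => hA.abs_ppart hβ ht hb hq0 hB c
  have hV : |pav q (fun c => Γ (r + (b : ℤ) • c))| ≤ q * τ := by
    simp only [Γ]
    rw [pav_sum]
    simp only [pav_cmul]
    exact abs_wsum_le hp hp1 fun t ht => hA.pav_ppart hτ0 ht hb hq hB r
  have hW : pav q (fun c => Γ (r + (b : ℤ) • c) ^ 2) ≤ (q * (β * √Pq + √τ)) ^ 2 := by
    have h1 : (fun c => Γ (r + (b : ℤ) • c) ^ 2) = fun c => ∑ t ∈ S, ∑ t' ∈ S, (p t * p t') *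
        (ppart lin γ b q t (r + (b : ℤ) • c) * ppart lin γ b q t' (r + (b : ℤ) • c)) := by
      ext c
      simp only [Γ]
      rw [pow_two, Finset.sum_mul_sum]
      exact Finset.sum_congr rfl fun t _ => Finset.sum_congr rfl fun t' _ => by ring
    rw [h1, pav_sum]
    simp only [pav_sum, pav_cmul]
    have h2 : ∑ t ∈ S, ∑ t' ∈ S, p t * p t' * pav q (fun c =>
        ppart lin γ b q t (r + (b : ℤ) • c) * ppart lin γ b q t' (r + (b : ℤ) • c))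
        ≤ ∑ t ∈ S, ∑ t' ∈ S, ((q : ℝ) ^ 2 * β ^ 2 * (p t * p t' * if q ∣ g t t' then 1 else 0)
          + (q : ℝ) ^ 2 * β * τ * (p t * p t')) :=
      Finset.sum_le_sum fun t ht => Finset.sum_le_sum fun t' ht' =>
        (mul_le_mul_of_nonneg_left (hA.pav_ppart_mul hβ hτ0 ht ht' hb hq0 hB r)
          (mul_nonneg (hp t ht) (hp t' ht'))).trans (le_of_eq (by ring))
    refine h2.trans ?_
    simp only [Finset.sum_add_distrib, ← Finset.mul_sum]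
    rw [← Finset.sum_mul, hp1, ← hPq, mul_pow, add_sq, mul_pow, Real.sq_sqrt hPq0,
      Real.sq_sqrt hτ0]
    have h3 : 0 ≤ 2 * (β * √Pq) * √τ := by positivity
    have h4 : β * τ ≤ τ := mul_le_of_le_one_left hτ0 hβ1
    nlinarith [sq_nonneg (q : ℝ), mul_nonneg (sq_nonneg (q : ℝ)) h3,
      mul_le_mul_of_nonneg_left h4 (sq_nonneg (q : ℝ))]
  have h1 := hS.corr_le ha0 ha1 hab hθ hE hτ hq0 hqQ hB hΓ hU hV (by positivity) hW
  have hw : ∀ ω, |cls b r (dat ω) * a ω| ≤ 1 := fun ω => by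
    rw [abs_of_nonneg (mul_nonneg (cls_nonneg _ _ _) (ha0 ω))]
    exact mul_le_one₀ (cls_le_one _ _ _) (ha0 ω) (ha1 ω)
  have h2 : |P.E (fun ω => cls b r (dat ω) * (a ω * smp S p ev (part Gd b q) ω))
      - P.E (fun ω => cls b r (dat ω) * (a ω * Γ (dat ω)))| ≤ q * τ₂ := by
    have e1 : (fun ω => cls b r (dat ω) * (a ω * smp S p ev (part Gd b q) ω)) = fun ω =>
        ∑ t ∈ S, p t * (cls b r (dat ω) * a ω * mob (fun d => Gd (b * d) (ev t ω)) q) := by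
      ext ω
      simp only [smp, part, Finset.mul_sum]
      exact Finset.sum_congr rfl fun t _ => by ring
    have e2 : (fun ω => cls b r (dat ω) * (a ω * Γ (dat ω))) = fun ω =>
        ∑ t ∈ S, p t * (cls b r (dat ω) * a ω * mob (fun d => γ t (b * d) (lin t (dat ω))) q) := by
      ext ω
      simp only [Γ, ppart, Finset.mul_sum]
      exact Finset.sum_congr rfl fun t _ => by ring
    rw [e1, e2, P.sum, P.sum, ← Finset.sum_sub_distrib]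
    simp only [P.cmul, ← mul_sub]
    refine abs_wsum_le hp hp1 fun t ht => ?_
    rw [P.mob (fun ω => cls b r (dat ω) * a ω) (fun d ω => Gd (b * d) (ev t ω)),
      P.mob (fun ω => cls b r (dat ω) * a ω) (fun d ω => γ t (b * d) (lin t (dat ω)))]
    exact abs_mob_sub_le hτ₂ fun d hd hd0 =>
      appr_lev hA hAp hGd hw ht (Nat.mul_pos hb hd0) (le_of_dvd_aux hq0 hd hB)
  have h3 : 2 * (q * τ + q * β * τ) + √(3 * θ * q) * (q * (β * √Pq + √τ))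
      ≤ √(3 * θ) * β * ((q : ℝ) * √(q * Pq)) + 6 * (q : ℝ) ^ 2 * √τ := by
    have e1 : √(3 * θ * q) * √Pq = √(3 * θ) * √(q * Pq) := by
      rw [Real.sqrt_mul (by positivity), Real.sqrt_mul (by positivity : (0 : ℝ) ≤ q), mul_assoc]
    have e2 : √(3 * θ * q) ≤ 2 * q := by
      rw [Real.sqrt_le_iff]
      exact ⟨by positivity, by nlinarith⟩
    have e3 : τ ≤ √τ := by
      have := Real.sq_sqrt hτ0
      have h5 : √τ ≤ 1 := by rw [Real.sqrt_le_iff]; exact ⟨zero_le_one, by linarith⟩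
      nlinarith [Real.sqrt_nonneg τ]
    have e4 : β * τ ≤ τ := mul_le_of_le_one_left hτ0 hβ1
    have e5 : √(3 * θ * q) * (q * (β * √Pq + √τ))
        = √(3 * θ) * β * ((q : ℝ) * √(q * Pq)) + √(3 * θ * q) * (q * √τ) := by
      linear_combination (q * β) * e1
    have e6 : √(3 * θ * q) * (q * √τ) ≤ 2 * q * (q * √τ) :=
      mul_le_mul_of_nonneg_right e2 (by positivity)
    have e7 : (q : ℝ) * τ ≤ q * (q * √τ) :=
      mul_le_mul_of_nonneg_left (by nlinarith [Real.sqrt_nonneg τ]) (by positivity)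
    have e8 : (q : ℝ) * (β * τ) ≤ q * τ := mul_le_mul_of_nonneg_left e4 (by positivity)
    rw [e5]
    nlinarith
  have h4 := mul_le_mul_of_nonneg_left h3 (mul_nonneg hab hS.mpos.le)
  have h5 := abs_sub_abs_le_abs_sub
    (P.E (fun ω => cls b r (dat ω) * (a ω * smp S p ev (part Gd b q) ω)))
    (P.E (fun ω => cls b r (dat ω) * (a ω * Γ (dat ω))))
  linarith

/-- **(SAMP, two-sided, on one spread piece)** -/
theorem piece_bound (hS : Spread P dat a b r Q θ abar) (ha0 : ∀ ω, 0 ≤ a ω) (ha1 : ∀ ω, a ω ≤ 1)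
    (hab : 0 ≤ abar) (hθ : 0 ≤ θ) (hθ1 : θ ≤ 1) (hE : Equi P dat B τ) (hτ : τ ≤ 1 / 2)
    (hp : ∀ t ∈ S, 0 ≤ p t) (hp1 : ∑ t ∈ S, p t = 1) (hA : Arith S g lin γ B β τ) (hβ : 0 ≤ β)
    (hβ1 : β ≤ 1) (hAp : Appr P dat S ev Gd lin γ B τ₂) (hτ₂ : 0 ≤ τ₂) (hG : ∀ x, |G x| ≤ 1)
    (hGd : ∀ d x, |Gd d x| ≤ 1) (hQ : 1 ≤ Q) (hB : b * Q ≤ B) {C ε : ℝ} (hC : GcdBd S p g Q C)
    (hε : ∀ ω, a ω ≠ 0 → |smp S p ev (rem G Gd b Q) ω| ≤ ε) :
    |P.E (fun ω => cls b r (dat ω) * (a ω * smp S p ev G ω))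
        - abar * P.E (fun ω => cls b r (dat ω)) * ∑ t ∈ S, p t * γ t b (lin t r)|
      ≤ abar * P.E (fun ω => cls b r (dat ω)) * (ε + √(3 * θ) * β * C + 6 * (Q : ℝ) ^ 3 * √τ)
        + (1 + (Q : ℝ) ^ 2) * τ₂ := by
  have hb := hS.bpos
  have hbB : b ≤ B := (Nat.le_mul_of_pos_right b hQ).trans hB
  have hba : Bdd a := Bdd.of_01 ha0 ha1
  have _ := hG
  set mr := P.E (fun ω => cls b r (dat ω)) with hmr
  have hm0 : 0 ≤ abar * mr := mul_nonneg hab hS.mpos.le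
  have hw : ∀ ω, |cls b r (dat ω) * a ω| ≤ 1 := fun ω => by
    rw [abs_of_nonneg (mul_nonneg (cls_nonneg _ _ _) (ha0 ω))]
    exact mul_le_one₀ (cls_le_one _ _ _) (ha0 ω) (ha1 ω)
  have e0 : (fun ω => cls b r (dat ω) * (a ω * smp S p ev G ω)) = fun ω =>
      (cls b r (dat ω) * (a ω * smp S p ev (rem G Gd b Q) ω)
        + ∑ t ∈ S, p t * (cls b r (dat ω) * a ω * Gd b (ev t ω)))
        + ∑ q ∈ Icc 2 Q, cls b r (dat ω) * (a ω * smp S p ev (part Gd b q) ω) := by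
    ext ω
    have : smp S p ev G ω = smp S p ev (rem G Gd b Q) ω + ∑ t ∈ S, p t * Gd b (ev t ω)
        + ∑ q ∈ Icc 2 Q, smp S p ev (part Gd b q) ω := by
      simp only [smp]
      rw [Finset.sum_comm, ← Finset.sum_add_distrib, ← Finset.sum_add_distrib]
      refine Finset.sum_congr rfl fun t _ => ?_
      rw [eq_rem_add G Gd b hQ (ev t ω), ← Finset.mul_sum]
      simp only [rem]
      ring
    rw [this, mul_add, mul_add, mul_add, mul_add]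
    simp only [Finset.mul_sum]
    congr 2
    exact Finset.sum_congr rfl fun t _ => by ring
  rw [e0, P.add, P.add, P.sum, P.sum]
  have h1 : |P.E (fun ω => cls b r (dat ω) * (a ω * smp S p ev (rem G Gd b Q) ω))|
      ≤ abar * mr * ε := by
    rw [← hS.mean, ← P.mulc]
    refine P.abs_le_of (((bdd_cls b r dat).mul hba).mul (Bdd.const ε)) fun ω => ?_
    rw [← mul_assoc, abs_mul, abs_of_nonneg (mul_nonneg (cls_nonneg _ _ _) (ha0 ω))]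
    by_cases h : a ω = 0
    · simp [h]
    · exact mul_le_mul_of_nonneg_left (hε ω h) (mul_nonneg (cls_nonneg _ _ _) (ha0 ω))
  have h2 : |∑ t ∈ S, P.E (fun ω => p t * (cls b r (dat ω) * a ω * Gd b (ev t ω)))
      - abar * mr * ∑ t ∈ S, p t * γ t b (lin t r)| ≤ τ₂ := by
    rw [Finset.mul_sum, ← Finset.sum_sub_distrib]
    have : ∀ t ∈ S, P.E (fun ω => p t * (cls b r (dat ω) * a ω * Gd b (ev t ω)))
        - abar * mr * (p t * γ t b (lin t r))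
        = p t * (P.E (fun ω => cls b r (dat ω) * a ω * Gd b (ev t ω))
          - P.E (fun ω => cls b r (dat ω) * a ω * γ t b (lin t (dat ω)))) := by
      intro t ht
      have e : (fun ω => cls b r (dat ω) * a ω * γ t b (lin t (dat ω)))
          = fun ω => cls b r (dat ω) * a ω * γ t b (lin t r) := by
        ext ω
        by_cases h : Cong b (dat ω) r
        · rw [(hA.per_lin ht hb hbB).congr h]
        · simp [cls, h]
      rw [P.cmul, e, P.mulc, hS.mean]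
      ring
    rw [Finset.sum_congr rfl this]
    exact abs_wsum_le hp hp1 fun t ht => appr_lev hA hAp hGd hw ht hb hbB
  have h3 : |∑ q ∈ Icc 2 Q, P.E (fun ω => cls b r (dat ω) * (a ω * smp S p ev (part Gd b q) ω))|
      ≤ abar * mr * (√(3 * θ) * β * C + 6 * (Q : ℝ) ^ 3 * √τ) + (Q : ℝ) ^ 2 * τ₂ := by
    refine (Finset.abs_sum_le_sum_abs _ _).trans ((Finset.sum_le_sum fun q hq =>
      part_corr_le hS ha0 ha1 hab hθ hθ1 hE hτ hp hp1 hA hβ hβ1 hAp hτ₂ hGd (mem_Icc.1 hq).1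
        (mem_Icc.1 hq).2 ((Nat.mul_le_mul_left b (mem_Icc.1 hq).2).trans hB)).trans ?_)
    rw [Finset.sum_add_distrib, ← Finset.mul_sum, Finset.sum_add_distrib, ← Finset.mul_sum]
    refine add_le_add (mul_le_mul_of_nonneg_left (add_le_add
      (mul_le_mul_of_nonneg_left hC (by positivity)) ?_) hm0) (sum_Icc_le_sq 2 Q τ₂ hτ₂ (by norm_num))
    have h4 := sum_Icc_le_sq 2 Q (6 * Q * √τ) (by positivity) (by norm_num)
    refine le_trans (Finset.sum_le_sum fun q hq => ?_) (h4.trans (le_of_eq (by ring)))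
    have h5 : (q : ℝ) ≤ Q := by exact_mod_cast (mem_Icc.1 hq).2
    have h6 : (0 : ℝ) ≤ q * √τ := by positivity
    nlinarith [mul_le_mul_of_nonneg_right h5 h6]
  rw [abs_le] at h1 h2 h3 ⊢
  constructor <;> nlinarith [h1.1, h1.2, h2.1, h2.2, h3.1, h3.2]

omit [DecidableEq N] in
/-- mass of a residue class from below -/
theorem Equi.mass_ge (hE : Equi P dat B τ) (hτ : τ ≤ 1 / 2) {b Q0 : ℕ} (hb : 0 < b) (hbB : b ≤ B)
    (hbQ : b ≤ Q0) (r : N → ℤ) :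
    1 ≤ 2 * (Q0 : ℝ) ^ Fintype.card N * P.E (fun ω => cls b r (dat ω)) := by
  have h1 := (abs_le.1 (hE b hb hbB r)).1
  have h2 : (b : ℝ) ^ Fintype.card N ≤ (Q0 : ℝ) ^ Fintype.card N :=
    pow_le_pow_left₀ (Nat.cast_nonneg b) (by exact_mod_cast hbQ) _
  have h3 : 0 ≤ P.E (fun ω => cls b r (dat ω)) :=
    P.nonneg _ (bdd_cls b r dat) fun ω => cls_nonneg _ _ _
  nlinarith [mul_le_mul_of_nonneg_left h2 h3]

/-- lower form: if every frame of the piece sees an average `≥ δ`, so do the class means -/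
theorem piece_lower (hS : Spread P dat a b r Q θ abar) (ha0 : ∀ ω, 0 ≤ a ω) (ha1 : ∀ ω, a ω ≤ 1)
    {σ : ℝ} (hσ : 0 < σ) (hab : σ ≤ abar) (hθ : 0 ≤ θ) (hθ1 : θ ≤ 1) (hE : Equi P dat B τ)
    (hτ : τ ≤ 1 / 2) (hp : ∀ t ∈ S, 0 ≤ p t) (hp1 : ∑ t ∈ S, p t = 1)
    (hA : Arith S g lin γ B β τ) (hβ : 0 ≤ β) (hβ1 : β ≤ 1) (hAp : Appr P dat S ev Gd lin γ B τ₂)
    (hτ₂ : 0 ≤ τ₂) (hG : ∀ x, |G x| ≤ 1) (hGd : ∀ d x, |Gd d x| ≤ 1) (hQ : 1 ≤ Q)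
    (hB : b * Q ≤ B) {Q0 : ℕ} (hbQ : b ≤ Q0) {C ε δ : ℝ} (hC : GcdBd S p g Q C)
    (hε : ∀ ω, a ω ≠ 0 → |smp S p ev (rem G Gd b Q) ω| ≤ ε)
    (hδ : ∀ ω, a ω ≠ 0 → δ ≤ smp S p ev G ω) :
    δ - (ε + √(3 * θ) * β * C + 6 * (Q : ℝ) ^ 3 * √τ
      + 2 * (Q0 : ℝ) ^ Fintype.card N * (1 + (Q : ℝ) ^ 2) * τ₂ / σ)
      ≤ ∑ t ∈ S, p t * γ t b (lin t r) := by
  have hab0 : 0 < abar := hσ.trans_le hab
  have h1 := (abs_le.1 (piece_bound hS ha0 ha1 hab0.le hθ hθ1 hE hτ hp hp1 hA hβ hβ1 hAp hτ₂ hG hGd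
    hQ hB hC hε)).2
  have hba : Bdd a := Bdd.of_01 ha0 ha1
  have h2 : abar * P.E (fun ω => cls b r (dat ω)) * δ
      ≤ P.E (fun ω => cls b r (dat ω) * (a ω * smp S p ev G ω)) := by
    rw [← hS.mean, ← P.mulc]
    refine P.mono (((bdd_cls b r dat).mul hba).mul (Bdd.const δ)) ((bdd_cls b r dat).mul
      (hba.mul (Bdd.of_le 1 (abs_smp_le hp hp1 ev hG)))) fun ω => ?_
    rw [← mul_assoc]
    by_cases h : a ω = 0
    · simp [h]
    · exact mul_le_mul_of_nonneg_left (hδ ω h) (mul_nonneg (cls_nonneg _ _ _) (ha0 ω))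
  have h3 := hE.mass_ge hτ hS.bpos ((Nat.le_mul_of_pos_right b hQ).trans hB) hbQ r
  set mr := P.E (fun ω => cls b r (dat ω))
  have hm : 0 < abar * mr := mul_pos hab0 hS.mpos
  have h4 : (1 + (Q : ℝ) ^ 2) * τ₂ ≤ abar * mr *
      (2 * (Q0 : ℝ) ^ Fintype.card N * (1 + (Q : ℝ) ^ 2) * τ₂ / σ) := by
    rw [← mul_div_assoc, le_div_iff₀ hσ]
    have h5 : 0 ≤ (1 + (Q : ℝ) ^ 2) * τ₂ := by positivity
    have h6 : σ ≤ abar * (2 * (Q0 : ℝ) ^ Fintype.card N * mr) := by nlinarith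
    nlinarith [mul_le_mul_of_nonneg_left h6 h5]
  refine le_of_mul_le_mul_left ?_ hm
  nlinarith

end

open Classical in
/-- **ROBUST SAMPLER.**  `P` = law of the frames, `Pk k` = fine frame cells, `a` = a family of mass
`≥ σ`, every frame of which sees an average `≥ δ` of the test `G b` (for every modulus `b`; the test may
depend on `b`).  Then in some fine cell `k` and class `r` modulo some `b ≤ Q0` the class means have
average `≥ δ - errors`. -/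
theorem samp (P : PF Ω) (hP : P.mass = 1) {K : Type*} (Pk : K → PF Ω) (hPk : ∀ k, (Pk k).mass = 1)
    (hmix : ∀ f : Ω → ℝ, (∀ ω, 0 ≤ f ω) → (∀ ω, f ω ≤ 1) → ∃ k, P.E f ≤ 2 * (Pk k).E f)
    (dat : K → Ω → N → ℤ) {a : Ω → ℝ} (ha0 : ∀ ω, 0 ≤ a ω) (ha1 : ∀ ω, a ω ≤ 1)
    {σ θ ε δ β τ τ₁ τ₂ ν C : ℝ} (hσ : 0 < σ) (hσa : σ ≤ P.E a) (hθ : 0 < θ) (hθ1 : θ ≤ 1)
    (hε : 0 < ε) {Q0 Q B : ℕ} (hQ : 1 ≤ Q) (hQ0 : 1 ≤ σ / 4 * (Q0 : ℝ) ^ θ) (hB : Q0 * Q ≤ B)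
    {S : Finset T} {p : T → ℝ} (hp : ∀ t ∈ S, 0 ≤ p t) (hp1 : ∑ t ∈ S, p t = 1)
    (ev : T → Ω → X) (G : ℕ → X → ℝ) (Gd : ℕ → ℕ → X → ℝ) (hG : ∀ b x, |G b x| ≤ 1)
    (hGd : ∀ b d x, |Gd b d x| ≤ 1) (hτ₁ : 0 ≤ τ₁) (good : T → T → Prop)
    (hν : ∑ t ∈ S, ∑ t' ∈ S, (if good t t' then 0 else p t * p t') ≤ ν)
    (hET : ∀ b, 0 < b → b ≤ Q0 → ∀ t ∈ S, ∀ t' ∈ S, good t t' →
      ∃ g, 0 < g ∧ g ≤ Q ∧ PairET P (ev t) (ev t') (G b) (Gd b) g B τ₁)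
    (hsmall : 2 * (Q0 * ((1 + (Q : ℝ) ^ 2) ^ 2 * (ν + τ₁))) ≤ σ * ε ^ 2)
    (hE : ∀ k, Equi (Pk k) (dat k) B τ) (hτ : τ ≤ 1 / 2) (g : T → T → ℕ) (hC : GcdBd S p g Q C)
    (lin : K → T → (N → ℤ) →+ (n → ℤ)) (γ : K → ℕ → T → ℕ → (n → ℤ) → ℝ) (hβ : 0 ≤ β)
    (hβ1 : β ≤ 1) (hτ₂ : 0 ≤ τ₂)
    (hA : ∀ k b, 0 < b → b ≤ Q0 → Arith S g (lin k) (γ k b) B β τ)
    (hAp : ∀ k b, 0 < b → b ≤ Q0 → Appr (Pk k) (dat k) S ev (Gd b) (lin k) (γ k b) B τ₂)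
    (hδ : ∀ b, 0 < b → b ≤ Q0 → ∀ ω, a ω ≠ 0 → δ ≤ smp S p ev (G b) ω) :
    ∃ (k : K) (b : ℕ) (r : N → ℤ), 0 < b ∧ b ≤ Q0 ∧
      δ - (ε + √(3 * θ) * β * C + 6 * (Q : ℝ) ^ 3 * √τ
        + 8 * (Q0 : ℝ) ^ Fintype.card N * (1 + (Q : ℝ) ^ 2) * τ₂ / σ)
      ≤ ∑ t ∈ S, p t * γ k b t b (lin k t r) := by
  obtain ⟨a', k, b, r, abar, h0, h1, h2, hb, hab, -, hS⟩ := exists_piece P Pk hPk hmix dat ha0 ha1
    hσ hσa hθ hθ1 hε hQ hQ0 (Icc 1 Q0) (fun b => smp S p ev (rem (G b) (Gd b) b Q))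
    (ζ := (1 + (Q : ℝ) ^ 2) ^ 2 * (ν + τ₁))
    (fun b _ => Bdd.of_le _ (abs_smp_le hp hp1 ev (abs_rem_le (hG b) (hGd b) b Q)))
    (fun b hb => rem_sq_le P hP hp hp1 ev (hG b) (hGd b) (mem_Icc.1 hb).1
      ((Nat.mul_le_mul_right Q (mem_Icc.1 hb).2).trans hB) hτ₁ good hν
      (hET b (mem_Icc.1 hb).1 (mem_Icc.1 hb).2))
    (by simpa using hsmall)
  have hb0 := hS.bpos
  refine ⟨k, b, r, hb0, hb, ?_⟩
  have h3 := piece_lower hS h0 (fun ω => (h1 ω).trans (ha1 ω)) (σ := σ / 4) (by positivity) hab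
    hθ.le hθ1 (hE k) hτ hp hp1 (hA k b hb0 hb) hβ hβ1 (hAp k b hb0 hb) hτ₂ (hG b) (hGd b) hQ
    ((Nat.mul_le_mul_right Q hb).trans hB) hb hC
    (fun ω hω => (h2 ω hω).2 b (mem_Icc.2 ⟨hb0, hb⟩))
    (fun ω hω => hδ b hb0 hb ω (by rw [← (h2 ω hω).1]; exact hω))
  have e : 2 * (Q0 : ℝ) ^ Fintype.card N * (1 + (Q : ℝ) ^ 2) * τ₂ / (σ / 4)
      = 8 * (Q0 : ℝ) ^ Fintype.card N * (1 + (Q : ℝ) ^ 2) * τ₂ / σ := by
    field_simp; ring
  rwa [e] at h3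

end Crest.Agent.T49.Samp
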