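import Mathlib

/-!
# Row 49 (helper66): the `L^∞` almost periodicity lemma of Croot and Sisask
(by an exponential moment)
-/

set_option autoImplicit false
set_option linter.unusedSectionVars false

noncomputable section

namespace Crest.Agent.T49.San

open Finset Real
open scoped Pointwise

theorem exp_avg_le {α : Type*} {s : Finset α} (hs : s.Nonempty) (f : α → ℝ) :
    exp ((∑ i ∈ s, f i) / #s) ≤ (∑ i ∈ s, exp (f i)) / #s := by
  have hc : (0 : ℝ) < #s := by exact_mod_cast hs.card_pos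
  set u := (∑ i ∈ s, f i) / #s with hu
  have h1 : ∀ i ∈ s, exp u * (1 + (f i - u)) ≤ exp (f i) := fun i _ => by
    have h2 := add_one_le_exp (f i - u)
    calc exp u * (1 + (f i - u)) ≤ exp u * exp (f i - u) := by gcongr; linarith
      _ = exp (f i) := by rw [← exp_add]; congr 1; ring
  have h3 := sum_le_sum h1
  rw [← mul_sum, sum_add_distrib, sum_sub_distrib, sum_const, sum_const, nsmul_eq_mul,
    nsmul_eq_mul, mul_one] at h3
  have h4 : (∑ i ∈ s, f i) = #s * u := by rw [hu]; field_simp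
  rw [h4, sub_self, add_zero] at h3
  rwa [le_div_iff₀ hc]

theorem exp_le_quad {x : ℝ} (hx : |x| ≤ 1) : exp x ≤ 1 + x + x ^ 2 := by
  have := (abs_le.1 (abs_exp_sub_one_sub_id_le hx)).2
  linarith

variable {G : Type*} [AddCommGroup G] [DecidableEq G]

/-- the indicator function -/
def ind (L : Finset G) (z : G) : ℝ := if z ∈ L then 1 else 0

theorem ind_nonneg (L : Finset G) (z : G) : 0 ≤ ind L z := by
  unfold ind; split_ifs <;> norm_num

theorem ind_le_one (L : Finset G) (z : G) : ind L z ≤ 1 := by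
  unfold ind; split_ifs <;> norm_num

theorem ind_sq (L : Finset G) (z : G) : ind L z ^ 2 = ind L z := by
  unfold ind; split_ifs <;> norm_num

/-- `μ_A * 1_L` -/
def cv (A L : Finset G) (z : G) : ℝ := (∑ a ∈ A, ind L (z - a)) / #A

/-- `μ_A * μ_M * 1_L` -/
def cv3 (A M L : Finset G) (x : G) : ℝ := (∑ y ∈ M, cv A L (x - y)) / #M

theorem cv_nonneg (A L : Finset G) (z : G) : 0 ≤ cv A L z :=
  div_nonneg (sum_nonneg fun _ _ => ind_nonneg _ _) (Nat.cast_nonneg _)

theorem cv_le_one (A L : Finset G) (z : G) : cv A L z ≤ 1 := by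
  refine div_le_one_of_le₀ ?_ (Nat.cast_nonneg _)
  simpa using sum_le_sum (s := A) fun a _ => ind_le_one L (z - a)

theorem sum_ind_le (Z L : Finset G) (a : G) : ∑ z ∈ Z, ind L (z - a) ≤ #L := by
  unfold ind
  rw [sum_boole]
  exact_mod_cast card_le_card_of_injOn (fun z => z - a) (fun z hz => (mem_filter.1 hz).2)
    fun _ _ _ _ h => sub_left_injective h

theorem sum_cv_le {A : Finset G} (hA : A.Nonempty) (Z L : Finset G) :
    ∑ z ∈ Z, cv A L z ≤ #L := by
  have hc : (0 : ℝ) < #A := by exact_mod_cast hA.card_pos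
  unfold cv
  rw [← sum_div, sum_comm, div_le_iff₀ hc, mul_comm]
  simpa using sum_le_sum (s := A) fun a _ => sum_ind_le Z L a

/-- the empirical version of `cv` -/
def emp {m : ℕ} (a : Fin m → G) (L : Finset G) (z : G) : ℝ := (∑ j, ind L (z - a j)) / m

theorem moment {A : Finset G} (hA : A.Nonempty) (L : Finset G) {m : ℕ} (hm : 0 < m) {l : ℝ}
    (hl : l ^ 2 ≤ m) (z : G) :
    ∑ a ∈ Fintype.piFinset fun _ : Fin m => A, exp (l * (emp a L z - cv A L z)) ≤
      (#A : ℝ) ^ m * (1 + 2 * cv A L z) := by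
  have hc : (0 : ℝ) < #A := by exact_mod_cast hA.card_pos
  have hm' : (1 : ℝ) ≤ m := by exact_mod_cast hm
  set g := cv A L z with hg
  have g0 : 0 ≤ g := cv_nonneg _ _ _
  have g1 : g ≤ 1 := cv_le_one _ _ _
  set c := l / m with hcd
  have hc1 : |c| ≤ 1 := by
    rw [hcd, abs_div, abs_of_pos (by linarith : (0 : ℝ) < m), div_le_one (by linarith)]
    nlinarith [sq_abs l, abs_nonneg l, sq_nonneg (|l| - 1)]
  have e1 : ∀ a : Fin m → G, exp (l * (emp a L z - g)) =
      ∏ j, exp (c * (ind L (z - a j) - g)) := fun a => by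
    rw [← exp_sum, ← mul_sum, sum_sub_distrib, emp, hcd]
    simp only [sum_const, card_univ, Fintype.card_fin, nsmul_eq_mul]
    congr 1
    field_simp
  simp only [e1]
  rw [← prod_univ_sum (fun _ : Fin m => A) fun _ a => exp (c * (ind L (z - a) - g)),
    prod_const, card_univ, Fintype.card_fin]
  have hs : ∑ a ∈ A, ind L (z - a) = #A * g := by rw [hg, cv]; field_simp
  have h1 : ∑ a ∈ A, exp (c * (ind L (z - a) - g)) ≤ #A * exp (c ^ 2 * g) := by
    have h2 : ∀ a ∈ A, exp (c * (ind L (z - a) - g)) ≤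
        (1 - c * g + c ^ 2 * g ^ 2) + (c + c ^ 2 * (1 - 2 * g)) * ind L (z - a) := fun a _ => by
      have i0 := ind_nonneg L (z - a)
      have i1 := ind_le_one L (z - a)
      refine (exp_le_quad ?_).trans (le_of_eq ?_)
      · rw [abs_mul]
        exact mul_le_one₀ hc1 (abs_nonneg _) (abs_le.2 ⟨by linarith, by linarith⟩)
      · linear_combination c ^ 2 * ind_sq L (z - a)
    refine (sum_le_sum h2).trans ?_
    rw [sum_add_distrib, sum_const, nsmul_eq_mul, ← mul_sum, hs]
    have h3 := add_one_le_exp (c ^ 2 * g)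
    have h4 : 0 ≤ c ^ 2 * g ^ 2 := by positivity
    nlinarith
  refine (pow_le_pow_left₀ (sum_nonneg fun _ _ => (exp_pos _).le) h1 m).trans ?_
  rw [mul_pow, ← exp_nat_mul]
  gcongr
  have h5 : (m : ℝ) * (c ^ 2 * g) ≤ g := by
    have h6 : (m : ℝ) * c ^ 2 ≤ 1 := by
      rw [hcd, div_pow, ← mul_div_assoc, div_le_one (by positivity)]
      nlinarith
    nlinarith
  refine (exp_le_exp.2 h5).trans ((exp_le_quad (abs_le.2 ⟨by linarith, g1⟩)).trans ?_)
  nlinarith

/-- most samples approximate the triple convolution uniformly -/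
theorem exists_good {A M : Finset G} (hA : A.Nonempty) (hM : M.Nonempty) (L : Finset G) {K' ε : ℝ}
    (hL : (#L : ℝ) ≤ K' * #M) (hε : 0 < ε) {m : ℕ} (hm : (log (8 * K' + 2) / ε) ^ 2 ≤ m) :
    ∃ Y ⊆ Fintype.piFinset fun _ : Fin m => A, (#A : ℝ) ^ m ≤ 2 * #Y ∧
      ∀ a ∈ Y, ∀ x, |(∑ y ∈ M, emp a L (x - y)) / #M - cv3 A M L x| ≤ ε := by
  have hc : (0 : ℝ) < #A := by exact_mod_cast hA.card_pos
  have hcM : (0 : ℝ) < #M := by exact_mod_cast hM.card_pos
  have hK : 0 ≤ K' := by
    by_contra h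
    have : K' * #M < 0 := mul_neg_of_neg_of_pos (not_le.1 h) hcM
    linarith [Nat.cast_nonneg (α := ℝ) #L]
  set l := log (8 * K' + 2) / ε with hl
  have l0 : 0 < l := div_pos (log_pos (by linarith)) hε
  have hm0 : 0 < m := by
    have : (0 : ℝ) < m := lt_of_lt_of_le (by positivity) hm
    exact_mod_cast this
  set P := Fintype.piFinset fun _ : Fin m => A with hP
  set ψ : (Fin m → G) → G → ℝ := fun a z =>
    exp (l * (emp a L z - cv A L z)) + exp (-l * (emp a L z - cv A L z)) - 2 with hψ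
  have ψ0 : ∀ a z, 0 ≤ ψ a z := fun a z => by
    have h1 := add_one_le_exp (l * (emp a L z - cv A L z))
    have h2 := add_one_le_exp (-l * (emp a L z - cv A L z))
    simp only [hψ]; linarith
  have ψz : ∀ a ∈ P, ∀ z, z ∉ L + A → ψ a z = 0 := fun a ha z hz => by
    have h1 : ∀ b ∈ A, ind L (z - b) = 0 := fun b hb =>
      if_neg fun h => hz (by simpa using add_mem_add h hb)
    have h2 : emp a L z = 0 := by
      rw [emp, sum_eq_zero fun j _ => h1 _ (Fintype.mem_piFinset.1 ha j), zero_div]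
    have h3 : cv A L z = 0 := by rw [cv, sum_eq_zero h1, zero_div]
    simp only [hψ, h2, h3]; norm_num
  have hPc : (#P : ℝ) = (#A : ℝ) ^ m := by simp [hP]
  have hsum : ∑ a ∈ P, ∑ z ∈ L + A, ψ a z ≤ (#A : ℝ) ^ m * (4 * #L) := by
    rw [sum_comm]
    have h1 : ∀ z ∈ L + A, ∑ a ∈ P, ψ a z ≤ (#A : ℝ) ^ m * (4 * cv A L z) := fun z _ => by
      have h2 := moment hA L hm0 hm z
      have h3 := moment hA L hm0 (l := -l) (by rwa [neg_sq]) z
      simp only [hψ]
      rw [sum_sub_distrib, sum_add_distrib, sum_const, nsmul_eq_mul, hPc]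
      linarith
    refine (sum_le_sum h1).trans ?_
    rw [← mul_sum, ← mul_sum]
    gcongr
    exact sum_cv_le hA _ _
  refine ⟨P.filter fun a => ∑ z ∈ L + A, ψ a z ≤ 8 * #L, filter_subset _ _, ?_, ?_⟩
  · by_cases hL0 : (#L : ℝ) = 0
    · have h1 : L = ∅ := by simpa using hL0
      subst h1
      simp only [empty_add, sum_empty, card_empty, Nat.cast_zero, mul_zero, le_refl, filter_true]
      rw [hPc]; linarith [pow_pos hc m]
    have hL1 : (0 : ℝ) < #L := lt_of_le_of_ne (Nat.cast_nonneg _) (Ne.symm hL0)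
    have h1 : (#(P.filter fun a => ¬ ∑ z ∈ L + A, ψ a z ≤ 8 * #L) : ℝ) * (8 * #L) ≤
        ∑ a ∈ P, ∑ z ∈ L + A, ψ a z := by
      refine le_trans ?_ (sum_le_sum_of_subset_of_nonneg
        (filter_subset (fun a => ¬ ∑ z ∈ L + A, ψ a z ≤ 8 * #L) P)
        fun a _ _ => sum_nonneg fun z _ => ψ0 a z)
      rw [← nsmul_eq_mul]
      exact card_nsmul_le_sum _ _ _ fun a ha => (not_le.1 (mem_filter.1 ha).2).le
    have h2 : (#(P.filter fun a => ∑ z ∈ L + A, ψ a z ≤ 8 * #L) : ℝ) +
        #(P.filter fun a => ¬ ∑ z ∈ L + A, ψ a z ≤ 8 * #L) = #P := by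
      exact_mod_cast card_filter_add_card_filter_not _
    nlinarith
  · intro a ha x
    obtain ⟨haP, ha⟩ := mem_filter.1 ha
    have h1 : ∑ y ∈ M, ψ a (x - y) ≤ 8 * #L := by
      refine le_trans ?_ ha
      rw [← sum_image (s := M) (g := fun y => x - y) (f := ψ a)
        fun _ _ _ _ h => sub_right_injective h]
      rw [← sum_filter_of_ne (p := fun z => z ∈ L + A)
        fun z _ hz => by_contra fun h => hz (ψz a haP z h)]
      exact sum_le_sum_of_subset_of_nonneg (fun z hz => (mem_filter.1 hz).2) fun z _ _ => ψ0 a z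
    have key : ∀ σ : ℝ, (∀ z, exp (σ * l * (emp a L z - cv A L z)) ≤ ψ a z + 2) →
        σ * ((∑ y ∈ M, emp a L (x - y)) / #M - cv3 A M L x) ≤ ε := fun σ hσ => by
      have h2 := exp_avg_le hM fun y => σ * l * (emp a L (x - y) - cv A L (x - y))
      have h3 : (∑ y ∈ M, exp (σ * l * (emp a L (x - y) - cv A L (x - y)))) / #M ≤
          8 * K' + 2 := by
        rw [div_le_iff₀ hcM]
        refine (sum_le_sum fun y _ => hσ (x - y)).trans ?_
        rw [sum_add_distrib, sum_const, nsmul_eq_mul]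
        nlinarith
      have h4 := (le_log_iff_exp_le (by linarith)).2 (h2.trans h3)
      rw [← mul_sum, sum_sub_distrib] at h4
      have h5 : log (8 * K' + 2) = l * ε := by rw [hl]; field_simp
      rw [h5] at h4
      refine le_of_mul_le_mul_left (le_of_eq_of_le ?_ h4) l0
      rw [cv3]; ring
    refine abs_le.2 ⟨?_, ?_⟩
    · have := key (-1) fun z => by
        have := exp_pos (l * (emp a L z - cv A L z))
        simp only [hψ, neg_mul, one_mul] at this ⊢; linarith
      linarith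
    · have := key 1 fun z => by
        have := exp_pos (-l * (emp a L z - cv A L z))
        simp only [hψ, one_mul] at this ⊢; linarith
      linarith

/-- **Croot–Sisask**, `L^∞` form -/
theorem croot_sisask {A M S : Finset G} (hA : A.Nonempty) (hM : M.Nonempty) (L : Finset G)
    {K K' ε : ℝ} (hK : (#(A + S) : ℝ) ≤ K * #A) (hL : (#L : ℝ) ≤ K' * #M) (hε : 0 < ε) {m : ℕ}
    (hm : (log (8 * K' + 2) / ε) ^ 2 ≤ m) (hS : S.Nonempty) :
    ∃ T ⊆ S, (#S : ℝ) ≤ 2 * K ^ m * #T ∧
      ∀ s ∈ T, ∀ s' ∈ T, ∀ x, |cv3 A M L (x + (s - s')) - cv3 A M L x| ≤ 2 * ε := by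
  obtain ⟨Y, hYP, hYc, hY⟩ := exists_good hA hM L hL hε hm
  have hc : (0 : ℝ) < #A := by exact_mod_cast hA.card_pos
  set B := Fintype.piFinset fun _ : Fin m => A + S with hB
  have hBn : B.Nonempty := Fintype.piFinset_nonempty.2 fun _ => hA.add hS
  have hBc : (#B : ℝ) ≤ K ^ m * (#A : ℝ) ^ m := by
    rw [← mul_pow]
    simpa [hB] using pow_le_pow_left₀ (Nat.cast_nonneg _) hK m
  have h1 : ∑ _b ∈ B, #S * #Y ≤ ∑ b ∈ B, #B * #(S.filter fun s => (fun j => b j - s) ∈ Y) := by
    rw [sum_const, ← mul_sum, smul_eq_mul]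
    refine Nat.mul_le_mul_left _ ?_
    simp only [card_filter]
    rw [sum_comm, ← smul_eq_mul]
    refine card_nsmul_le_sum _ _ _ fun s hs => ?_
    rw [← card_filter]
    refine card_le_card_of_injOn (fun a j => a j + s) (fun a ha => ?_) fun a _ a' _ h => ?_
    · simp only [coe_filter, Set.mem_ofPred_eq, add_sub_cancel_right]
      exact ⟨Fintype.mem_piFinset.2 fun j =>
        add_mem_add (Fintype.mem_piFinset.1 (hYP ha) j) hs, ha⟩
    · funext j
      exact add_right_cancel (congrFun h j)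
  obtain ⟨b, -, hb⟩ := exists_le_of_sum_le hBn h1
  refine ⟨S.filter fun s => (fun j => b j - s) ∈ Y, filter_subset _ _, ?_, ?_⟩
  · have h2 : (#S : ℝ) * #Y ≤ #B * #(S.filter fun s => (fun j => b j - s) ∈ Y) := by
      exact_mod_cast hb
    refine le_of_mul_le_mul_right ?_ (pow_pos hc m)
    have h3 : (0 : ℝ) ≤ #S := Nat.cast_nonneg _
    have h4 : (0 : ℝ) ≤ #(S.filter fun s => (fun j => b j - s) ∈ Y) := Nat.cast_nonneg _
    nlinarith
  · intro s hs s' hs' x
    have h2 := hY _ (mem_filter.1 hs).2 x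
    have h3 := hY _ (mem_filter.1 hs').2 (x + (s - s'))
    have e : ∀ y, emp (fun j => b j - s') L (x + (s - s') - y) =
        emp (fun j => b j - s) L (x - y) := fun y => by
      unfold emp
      congr 1
      refine sum_congr rfl fun j _ => ?_
      rw [show x + (s - s') - y - (b j - s') = x - y - (b j - s) by abel]
    simp only [e] at h3
    rw [abs_le] at h2 h3 ⊢
    constructor <;> linarith [h2.1, h2.2, h3.1, h3.2]

end Crest.Agent.T49.San
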