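import Mathlib

/-!
# Row 49 (helper66): Chang's theorem, local form (relative to a weight `β`)
-/

set_option autoImplicit false
set_option linter.unusedSectionVars false

noncomputable section

namespace Crest.Agent.T49.San

open Finset Real

theorem exp_wavg_le {α : Type*} {s : Finset α} {w : α → ℝ} (hw : ∀ i ∈ s, 0 ≤ w i)
    (hs : 0 < ∑ i ∈ s, w i) (f : α → ℝ) :
    exp ((∑ i ∈ s, w i * f i) / ∑ i ∈ s, w i) * ∑ i ∈ s, w i ≤ ∑ i ∈ s, w i * exp (f i) := by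
  set u := (∑ i ∈ s, w i * f i) / ∑ i ∈ s, w i with hu
  have h1 : ∀ i ∈ s, exp u * (w i + (w i * f i - u * w i)) ≤ w i * exp (f i) := fun i hi => by
    have h2 := add_one_le_exp (f i - u)
    have h3 : exp u * (1 + (f i - u)) ≤ exp (f i) :=
      calc exp u * (1 + (f i - u)) ≤ exp u * exp (f i - u) := by gcongr; linarith
        _ = exp (f i) := by rw [← exp_add]; congr 1; ring
    have h4 := mul_le_mul_of_nonneg_left h3 (hw i hi)
    linarith
  have h3 := sum_le_sum h1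
  rw [← mul_sum, sum_add_distrib, sum_sub_distrib, ← mul_sum] at h3
  have h4 : (∑ i ∈ s, w i * f i) = u * ∑ i ∈ s, w i := by rw [hu]; field_simp
  rwa [h4, sub_self, add_zero] at h3

theorem exp_sub_sq_le {v : ℝ} (hv : |v| ≤ 1 / 2) : exp (v - 2 * v ^ 2) ≤ 1 + v := by
  obtain ⟨h1, h2⟩ := abs_le.1 hv
  have h3 := add_one_le_exp (-(v - 2 * v ^ 2))
  have h4 : exp (v - 2 * v ^ 2) * exp (-(v - 2 * v ^ 2)) = 1 := by rw [← exp_add]; simp
  have h5 := exp_pos (v - 2 * v ^ 2)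
  have h6 : 1 ≤ (1 + v) * (-(v - 2 * v ^ 2) + 1) := by nlinarith [sq_nonneg v]
  have h7 : 0 < -(v - 2 * v ^ 2) + 1 := by nlinarith [sq_nonneg v]
  refine le_of_mul_le_mul_right ?_ h7
  nlinarith

/-- the signs -/
def sg : Finset ℤ := {-1, 0, 1}

theorem one_add_re {u : ℂ} (hu : ‖u‖ = 1) (c : ℝ) :
    ((1 + c * u.re : ℝ) : ℂ) = ∑ j ∈ sg, (if j = 0 then 1 else (c / 2 : ℂ)) * u ^ j := by
  have h1 : u⁻¹ = (starRingEnd ℂ) u := Complex.inv_eq_conj hu
  have h2 := Complex.add_conj u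
  simp only [sg]
  rw [sum_insert (by decide), sum_insert (by decide), sum_singleton]
  simp only [zpow_neg, zpow_one, zpow_zero, h1]
  norm_num
  push_cast at h2
  linear_combination (-c / 2 : ℂ) * h2

variable {α : Type*}

/-- **Chang's inequality** for an independent family -/
theorem chang_bound {S : Finset α} {β f : α → ℝ} (hf0 : ∀ s ∈ S, 0 ≤ f s)
    (hfβ : ∀ s ∈ S, f s ≤ β s) (hpos : 0 < ∑ s ∈ S, f s) {D δ θ : ℝ}
    (hD : ∑ s ∈ S, β s ≤ D * ∑ s ∈ S, f s) (hδ : 0 < δ) {n : ℕ} (χ : Fin n → α → ℂ)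
    (hχ : ∀ i s, ‖χ i s‖ = 1) (hspec : ∀ i, δ * ∑ s ∈ S, f s ≤ ‖∑ s ∈ S, f s * χ i s‖)
    (hθ : 3 ^ n * θ ≤ 1) (hθ0 : 0 ≤ θ)
    (hind : ∀ ε ∈ Fintype.piFinset fun _ : Fin n => sg, ε ≠ 0 →
      ‖∑ s ∈ S, β s * ∏ i, χ i s ^ ε i‖ ≤ θ * ∑ s ∈ S, β s) :
    n * δ ^ 2 ≤ 8 * log (2 * D) := by
  have hβ0 : ∀ s ∈ S, 0 ≤ β s := fun s hs => (hf0 s hs).trans (hfβ s hs)
  have hβ : 0 < ∑ s ∈ S, β s := hpos.trans_le (sum_le_sum hfβ)
  have hD1 : 1 ≤ D := by
    have := (sum_le_sum hfβ).trans hD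
    nlinarith
  rcases Nat.eq_zero_or_pos n with rfl | hn
  · have := log_nonneg (show 1 ≤ 2 * D by linarith)
    simp only [CharP.cast_eq_zero, zero_mul]; linarith
  have hδ1 : δ ≤ 1 := by
    have h1 := (hspec ⟨0, hn⟩).trans (norm_sum_le _ _)
    rw [sum_congr rfl fun s hs => show ‖(f s : ℂ) * χ ⟨0, hn⟩ s‖ = f s by
      rw [norm_mul, hχ, mul_one, Complex.norm_real, norm_of_nonneg (hf0 s hs)]] at h1
    nlinarith
  have hω : ∀ i, ∃ ω : ℂ, ‖ω‖ = 1 ∧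
      (ω * ∑ s ∈ S, f s * χ i s).re = ‖∑ s ∈ S, f s * χ i s‖ := fun i => by
    obtain ⟨ω, h1, h2⟩ := Complex.exists_norm_mul_eq_self (∑ s ∈ S, f s * χ i s)
    refine ⟨ω⁻¹, by rw [norm_inv, h1, inv_one], ?_⟩
    have h3 : ω ≠ 0 := fun h => by simp [h] at h1
    conv_lhs => rw [← h2]
    rw [← mul_assoc, inv_mul_cancel₀ h3, one_mul, Complex.ofReal_re]
  choose ω hω1 hω2 using hω
  set c := δ / 4 with hc
  set u : Fin n → α → ℝ := fun i s => (ω i * χ i s).re with hu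
  have hu1 : ∀ i s, ‖ω i * χ i s‖ = 1 := fun i s => by rw [norm_mul, hω1, hχ, mul_one]
  have hu2 : ∀ i s, |u i s| ≤ 1 := fun i s => (Complex.abs_re_le_norm _).trans (hu1 i s).le
  have hcu : ∀ i s, |c * u i s| ≤ 1 / 2 := fun i s => by
    rw [abs_mul, abs_of_pos (by positivity : 0 < c)]
    nlinarith [hu2 i s, abs_nonneg (u i s)]
  -- upper bound
  have up : ∑ s ∈ S, β s * ∏ i, (1 + c * u i s) ≤ 2 * ∑ s ∈ S, β s := by
    have e1 : ((∑ s ∈ S, β s * ∏ i, (1 + c * u i s) : ℝ) : ℂ) =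
        ∑ ε ∈ Fintype.piFinset fun _ : Fin n => sg,
          (∏ i, (if ε i = 0 then 1 else (c / 2 : ℂ)) * ω i ^ ε i) *
            ∑ s ∈ S, β s * ∏ i, χ i s ^ ε i := by
      rw [Complex.ofReal_sum]
      simp only [mul_sum]
      rw [sum_comm]
      refine sum_congr rfl fun s _ => ?_
      rw [Complex.ofReal_mul, Complex.ofReal_prod]
      simp only [hu, one_add_re (hu1 _ s)]
      rw [prod_univ_sum, mul_sum]
      refine sum_congr rfl fun ε _ => ?_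
      rw [mul_left_comm, ← prod_mul_distrib]
      congr 1
      refine prod_congr rfl fun i _ => ?_
      rw [mul_zpow, mul_assoc]
    refine (le_abs_self _).trans ?_
    rw [← Real.norm_eq_abs, ← Complex.norm_real, e1]
    refine (norm_sum_le _ _).trans ?_
    have h0 : (0 : Fin n → ℤ) ∈ Fintype.piFinset fun _ : Fin n => sg :=
      Fintype.mem_piFinset.2 fun _ => by simp [sg]
    have hco : ∀ ε : Fin n → ℤ,
        ‖∏ i, (if ε i = 0 then 1 else (c / 2 : ℂ)) * ω i ^ ε i‖ ≤ 1 := fun ε => by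
      rw [norm_prod]
      refine prod_le_one (fun _ _ => norm_nonneg _) fun i _ => ?_
      rw [norm_mul, norm_zpow, hω1, one_zpow, mul_one]
      split_ifs
      · simp
      · rw [norm_div, Complex.norm_real, norm_of_nonneg (by positivity)]
        simp only [Complex.norm_ofNat]
        linarith
    rw [← add_sum_erase _ _ h0]
    have h1 : ‖(∏ i, (if (0 : Fin n → ℤ) i = 0 then 1 else (c / 2 : ℂ)) * ω i ^ (0 : Fin n → ℤ) i) *
        ∑ s ∈ S, β s * ∏ i, χ i s ^ (0 : Fin n → ℤ) i‖ = ∑ s ∈ S, β s := by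
      simp only [Pi.zero_apply, if_true, zpow_zero, mul_one, prod_const_one, one_mul]
      rw [← Complex.ofReal_sum, Complex.norm_real, norm_of_nonneg hβ.le]
    have h2 : ∑ ε ∈ (Fintype.piFinset fun _ : Fin n => sg).erase 0,
        ‖(∏ i, (if ε i = 0 then 1 else (c / 2 : ℂ)) * ω i ^ ε i) *
          ∑ s ∈ S, β s * ∏ i, χ i s ^ ε i‖ ≤ 3 ^ n * (θ * ∑ s ∈ S, β s) := by
      refine (sum_le_card_nsmul _ _ (θ * ∑ s ∈ S, β s) fun ε hε => ?_).trans ?_
      · rw [norm_mul]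
        have := hind ε (mem_of_mem_erase hε) (ne_of_mem_erase hε)
        exact (mul_le_of_le_one_left (norm_nonneg _) (hco ε)).trans this
      · rw [nsmul_eq_mul]
        gcongr
        have : #((Fintype.piFinset fun _ : Fin n => sg).erase 0) ≤ 3 ^ n :=
          card_erase_le.trans (by simp [sg])
        exact_mod_cast this
    rw [h1]
    nlinarith
  -- lower bound
  have lo : exp (n * δ ^ 2 / 8) * ∑ s ∈ S, f s ≤ ∑ s ∈ S, β s * ∏ i, (1 + c * u i s) := by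
    have h1 := exp_wavg_le hf0 hpos fun s => ∑ i, (c * u i s - 2 * c ^ 2)
    have h2 : n * δ ^ 2 / 8 ≤ (∑ s ∈ S, f s * ∑ i, (c * u i s - 2 * c ^ 2)) / ∑ s ∈ S, f s := by
      rw [le_div_iff₀ hpos]
      simp only [mul_sum]
      rw [sum_comm]
      have h3 : ∀ i ∈ (univ : Finset (Fin n)), δ ^ 2 / 8 * ∑ s ∈ S, f s ≤
          ∑ s ∈ S, f s * (c * u i s - 2 * c ^ 2) := fun i _ => by
        have h4 : ∑ s ∈ S, f s * u i s = ‖∑ s ∈ S, f s * χ i s‖ := by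
          rw [← hω2, mul_sum, Complex.re_sum]
          refine sum_congr rfl fun s _ => ?_
          rw [mul_left_comm, Complex.re_ofReal_mul]
        have h5 : ∑ s ∈ S, f s * (c * u i s - 2 * c ^ 2) =
            c * ∑ s ∈ S, f s * u i s - 2 * c ^ 2 * ∑ s ∈ S, f s := by
          rw [mul_sum, mul_sum, ← sum_sub_distrib]
          exact sum_congr rfl fun s _ => by ring
        rw [h5, h4, hc]
        nlinarith [hspec i]
      have h6 := sum_le_sum h3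
      rw [sum_const, card_univ, Fintype.card_fin, nsmul_eq_mul] at h6
      rw [← mul_sum]
      linarith
    refine le_trans (by gcongr) (h1.trans (sum_le_sum fun s hs => ?_))
    have h7 : exp (∑ i, (c * u i s - 2 * c ^ 2)) ≤ ∏ i, (1 + c * u i s) := by
      rw [exp_sum]
      refine prod_le_prod (fun _ _ => (exp_pos _).le) fun i _ => ?_
      refine le_trans (exp_le_exp.2 ?_) (exp_sub_sq_le (hcu i s))
      have := hu2 i s
      have h8 : u i s ^ 2 ≤ 1 := by nlinarith [sq_abs (u i s), abs_nonneg (u i s)]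
      nlinarith [sq_nonneg c]
    exact mul_le_mul (hfβ s hs) h7 (exp_pos _).le (hβ0 s hs)
  have h9 : exp (n * δ ^ 2 / 8) ≤ 2 * D := by
    refine le_of_mul_le_mul_right ?_ hpos
    nlinarith
  have := (le_log_iff_exp_le (by linarith)).2 h9
  linarith

/-- **Chang's theorem, local form**: the large spectrum of `f ≤ β` is spanned by few of its
elements up to the (very) large spectrum of `β` -/
theorem chang {S : Finset α} {β f : α → ℝ} (hf0 : ∀ s ∈ S, 0 ≤ f s)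
    (hfβ : ∀ s ∈ S, f s ≤ β s) (hpos : 0 < ∑ s ∈ S, f s) {D δ : ℝ}
    (hD : ∑ s ∈ S, β s ≤ D * ∑ s ∈ S, f s) (hδ : 0 < δ) {Ω : Type*} (χ : Ω → α → ℂ)
    (hχ : ∀ ω s, ‖χ ω s‖ = 1) {N : ℕ} (hN : 8 * log (2 * D) ≤ N * δ ^ 2) :
    ∃ n ≤ N, ∃ l : Fin n → Ω, (∀ i, δ * ∑ s ∈ S, f s ≤ ‖∑ s ∈ S, f s * χ (l i) s‖) ∧
      ∀ ω, δ * ∑ s ∈ S, f s ≤ ‖∑ s ∈ S, f s * χ ω s‖ → ∃ e : ℤ, (e = 1 ∨ e = -1) ∧
        ∃ ε : Fin n → ℤ, (∀ i, ε i ∈ sg) ∧
          ∑ s ∈ S, β s ≤ 3 ^ (N + 1) * ‖∑ s ∈ S, β s * (χ ω s ^ e * ∏ i, χ (l i) s ^ ε i)‖ := by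
  classical
  set θ : ℝ := (3 ^ (N + 1))⁻¹ with hθ
  let P : ℕ → Prop := fun n => ∃ l : Fin n → Ω,
    (∀ i, δ * ∑ s ∈ S, f s ≤ ‖∑ s ∈ S, f s * χ (l i) s‖) ∧
    ∀ ε ∈ Fintype.piFinset fun _ : Fin n => sg, ε ≠ 0 →
      ‖∑ s ∈ S, β s * ∏ i, χ (l i) s ^ ε i‖ ≤ θ * ∑ s ∈ S, β s
  have P0 : P 0 := ⟨Fin.elim0, fun i => i.elim0, fun ε _ h => (h (Subsingleton.elim _ _)).elim⟩
  have PN : ¬ P (N + 1) := fun ⟨l, h1, h2⟩ => by
    have := chang_bound hf0 hfβ hpos hD hδ (fun i => χ (l i)) (fun i => hχ _) h1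
      (by rw [hθ, mul_inv_cancel₀ (by positivity)]) (by positivity) h2
    push_cast at this
    nlinarith [pow_pos hδ 2]
  have hex : ∃ n, ¬ P (n + 1) := ⟨N, PN⟩
  have hP : P (Nat.find hex) := by
    rcases h : Nat.find hex with _ | k
    · exact P0
    · exact not_not.1 (Nat.find_min hex (by omega))
  obtain ⟨n, hnN, ⟨l, hl1, hl2⟩, h1⟩ : ∃ n ≤ N, P n ∧ ¬ P (n + 1) :=
    ⟨_, Nat.find_min' hex PN, hP, Nat.find_spec hex⟩
  refine ⟨n, hnN, l, hl1, fun ω hω => ?_⟩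
  simp only [P, not_exists, not_and, not_forall, not_le] at h1
  obtain ⟨ε, hε, hε0, h2⟩ := h1 (Fin.cons ω l) (Fin.forall_fin_succ.2 ⟨hω, hl1⟩)
  have hε' := Fintype.mem_piFinset.1 hε
  simp only [Fin.prod_univ_succ, Fin.cons_zero, Fin.cons_succ] at h2
  refine ⟨ε 0, ?_, fun i => ε i.succ, fun i => hε' _, ?_⟩
  · have h3 := hε' 0
    simp only [sg, mem_insert, mem_singleton] at h3
    rcases h3 with h3 | h3 | h3
    · exact Or.inr h3
    · exfalso
      simp only [h3, zpow_zero, one_mul] at h2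
      refine h2.not_ge (hl2 (fun i => ε i.succ) (Fintype.mem_piFinset.2 fun i => hε' _) ?_)
      intro h4
      refine hε0 (funext (Fin.forall_fin_succ.2 ⟨h3, fun i => congrFun h4 i⟩))
    · exact Or.inl h3
  · rw [hθ, inv_mul_lt_iff₀ (by positivity)] at h2
    exact h2.le

variable {G : Type*} [AddCommGroup G] [DecidableEq G]

theorem norm_sum_shift_le (S : Finset G) (t : G) {g : G → ℂ} (hg : ∀ z, ‖g z‖ ≤ 1) :
    ‖∑ s ∈ S, g (s + t) - ∑ s ∈ S, g s‖ ≤ 2 * #(S.filter fun s => s + t ∉ S) := by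
  set S' := S.image fun s => s + t with hS'
  have hinj : ∀ x ∈ S, ∀ y ∈ S, x + t = y + t → x = y := fun _ _ _ _ h => add_right_cancel h
  have hc : #S' = #S := card_image_of_injOn hinj
  have h1 : #(S' \ S) ≤ #(S.filter fun s => s + t ∉ S) := by
    refine card_le_card_of_injOn (fun z => z - t) (fun z hz => ?_) fun _ _ _ _ h =>
      sub_left_injective h
    obtain ⟨h2, h3⟩ := mem_sdiff.1 hz
    obtain ⟨s, hs, rfl⟩ := mem_image.1 h2
    simpa using ⟨hs, h3⟩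
  have h2 : #(S \ S') = #(S' \ S) := (card_sdiff_comm hc).symm
  have h3 : ∀ X : Finset G, ‖∑ z ∈ X, g z‖ ≤ #X := fun X =>
    (norm_sum_le _ _).trans (by simpa using sum_le_sum (s := X) fun z _ => hg z)
  rw [← sum_image (f := g) hinj, ← hS', ← sum_sdiff_sub_sum_sdiff]
  refine (norm_sub_le _ _).trans ?_
  have h4 := h3 (S' \ S)
  have h5 := h3 (S \ S')
  have h6 : (#(S' \ S) : ℝ) ≤ #(S.filter fun s => s + t ∉ S) := by exact_mod_cast h1
  rw [h2] at h5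
  linarith

theorem norm_prod_sub_one_le {ι : Type*} (s : Finset ι) {u : ι → ℂ} (hu : ∀ i, ‖u i‖ = 1) :
    ‖∏ i ∈ s, u i - 1‖ ≤ ∑ i ∈ s, ‖u i - 1‖ := by
  classical
  induction s using Finset.induction_on with
  | empty => simp
  | insert a s ha ih =>
    rw [prod_insert ha, sum_insert ha,
      show u a * ∏ i ∈ s, u i - 1 = (u a - 1) + u a * (∏ i ∈ s, u i - 1) by ring]
    refine (norm_add_le _ _).trans ?_
    rw [norm_mul, hu, one_mul]
    linarith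

theorem norm_zpow_sub_one_le {u : ℂ} (hu : ‖u‖ = 1) {e : ℤ} (he : e ∈ sg) :
    ‖u ^ e - 1‖ ≤ ‖u - 1‖ := by
  have h0 : u ≠ 0 := fun h => by simp [h] at hu
  simp only [sg, mem_insert, mem_singleton] at he
  rcases he with rfl | rfl | rfl
  · rw [zpow_neg, zpow_one, show u⁻¹ - 1 = -u⁻¹ * (u - 1) by field_simp; ring, norm_mul,
      norm_neg, norm_inv, hu, inv_one, one_mul]
  · simp
  · simp

/-- **Chang's theorem, annihilator form** -/
theorem chang_ann {S T : Finset G} (hT : T ⊆ S) (hTn : T.Nonempty) {D δ : ℝ}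
    (hD : (#S : ℝ) ≤ D * #T) (hδ : 0 < δ) {Ω : Type*} (χ : Ω → AddChar G ℂ)
    (hχ : ∀ ω s, ‖χ ω s‖ = 1) {N : ℕ} (hN : 8 * log (2 * D) ≤ N * δ ^ 2) :
    ∃ n ≤ N, ∃ l : Fin n → Ω, ∀ ω, δ * #T ≤ ‖∑ s ∈ T, χ ω s‖ → ∀ (t : G) (κ ρ : ℝ),
      (#(S.filter fun s => s + t ∉ S) : ℝ) ≤ κ * #S → 0 ≤ ρ → (∀ i, ‖χ (l i) t - 1‖ ≤ ρ) →
      ‖χ ω t - 1‖ ≤ 2 * 3 ^ (N + 1) * κ + N * ρ := by
  have e1 : ∑ s ∈ S, (if s ∈ T then (1 : ℝ) else 0) = #T := by
    rw [sum_boole, filter_mem_eq_inter, inter_eq_right.2 hT]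
  have e2 : ∀ ω, ∑ s ∈ S, ((if s ∈ T then (1 : ℝ) else 0 : ℝ) : ℂ) * χ ω s = ∑ s ∈ T, χ ω s :=
    fun ω => by
      rw [← sum_subset hT fun s _ hs => by simp [hs]]
      exact sum_congr rfl fun s hs => by simp [hs]
  have hTc : (0 : ℝ) < #T := by exact_mod_cast hTn.card_pos
  have hSc : (0 : ℝ) < #S := by exact_mod_cast (hTn.mono hT).card_pos
  obtain ⟨n, hn, l, -, h⟩ := chang (S := S) (β := fun _ => 1)
    (f := fun s => if s ∈ T then 1 else 0) (fun s _ => by positivity)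
    (fun s _ => by split_ifs <;> norm_num) (by rwa [e1]) (D := D) (by simpa [e1] using hD) hδ
    (fun ω => χ ω) hχ hN
  refine ⟨n, hn, l, fun ω hω t κ ρ hκ hρ0 hρ => ?_⟩
  obtain ⟨e, he, ε, hε, h1⟩ := h ω (by rwa [e1, e2])
  simp only [sum_const, nsmul_eq_mul, mul_one, Complex.ofReal_one, one_mul] at h1
  set g : G → ℂ := fun s => χ ω s ^ e * ∏ i, χ (l i) s ^ ε i with hg
  have g1 : ∀ z, ‖g z‖ = 1 := fun z => by
    simp only [hg, norm_mul, norm_prod, norm_zpow, hχ, one_zpow, prod_const_one, mul_one]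
  have gm : ∀ s, g (s + t) = g t * g s := fun s => by
    simp only [hg, AddChar.map_add_eq_mul, mul_zpow, prod_mul_distrib]; ring
  have h2 := norm_sum_shift_le S t fun z => (g1 z).le
  simp only [gm] at h2
  rw [← mul_sum, ← sub_one_mul, norm_mul] at h2
  have h3 : ‖g t - 1‖ ≤ 2 * 3 ^ (N + 1) * κ := by
    refine le_of_mul_le_mul_right ?_ hSc
    have h4 : (0 : ℝ) < 3 ^ (N + 1) := by positivity
    calc ‖g t - 1‖ * #S ≤ ‖g t - 1‖ * (3 ^ (N + 1) * ‖∑ s ∈ S, g s‖) := by gcongr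
      _ = 3 ^ (N + 1) * (‖g t - 1‖ * ‖∑ s ∈ S, g s‖) := by ring
      _ ≤ 3 ^ (N + 1) * (2 * (κ * #S)) :=
          mul_le_mul_of_nonneg_left (h2.trans (by linarith)) h4.le
      _ = _ := by ring
  have h5 : ‖∏ i, χ (l i) t ^ ε i - 1‖ ≤ N * ρ := by
    refine (norm_prod_sub_one_le _ fun i => by rw [norm_zpow, hχ, one_zpow]).trans ?_
    refine (sum_le_card_nsmul _ _ ρ fun i _ =>
      (norm_zpow_sub_one_le (hχ _ _) (hε i)).trans (hρ i)).trans ?_
    rw [card_univ, Fintype.card_fin, nsmul_eq_mul]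
    gcongr
  have h6 : ‖χ ω t ^ e - 1‖ ≤ 2 * 3 ^ (N + 1) * κ + N * ρ := by
    rw [show χ ω t ^ e - 1 = (g t - 1) - χ ω t ^ e * (∏ i, χ (l i) t ^ ε i - 1) by
      simp only [hg]; ring]
    refine (norm_sub_le _ _).trans ?_
    rw [norm_mul, norm_zpow, hχ, one_zpow, one_mul]
    linarith
  rcases he with rfl | rfl
  · simpa using h6
  · have h7 := norm_zpow_sub_one_le (u := χ ω t ^ (-1 : ℤ)) (by rw [norm_zpow, hχ, one_zpow])
      (e := -1) (by simp [sg])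
    rw [← zpow_mul] at h7
    simpa using h7.trans h6

end Crest.Agent.T49.San
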