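import Crest.Agent.T49.San_66

/-!
# Row 49 (helper66): weighted almost periodicity, packaged forms, characters of lattices
-/

set_option autoImplicit false
set_option linter.unusedSectionVars false

noncomputable section

namespace Crest.Agent.T49.San

open Finset Real
open scoped Pointwise

variable {G : Type*} [AddCommGroup G] [DecidableEq G]

/-- `F` has local Fourier expansions of `ℓ¹`-norm at most `K'` -/
def FourL1 (F : G → ℝ) (K' : ℝ) : Prop :=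
  ∀ W : Finset G, ∃ D : Finset G, ∀ (N : ℕ) (χ : Fin N → AddChar G ℂ), Orth χ D →
    ∃ c : Fin N → ℂ, ∑ ω, ‖c ω‖ ≤ K' ∧ ∀ w ∈ W, (F w : ℂ) = ∑ ω, c ω * χ ω w

/-- bootstrapping a dense set of almost periods to a Bohr set -/
theorem ap_core {𝒞 : Set (AddChar G ℂ)} (hG : Sep G 𝒞) {F : G → ℝ} {K K' ε : ℝ}
    (hF : FourL1 F K') {S T : Finset G} (hS : S.Nonempty) (X : Finset G) (hTS : T ⊆ S)
    (hTc : (#S : ℝ) ≤ 2 * K * #T)
    (hT : ∀ s ∈ T, ∀ s' ∈ T, ∀ x, |F (x + (s - s')) - F x| ≤ 2 * ε)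
    (k : ℕ) {N : ℕ} (hN : 32 * log (4 * K) ≤ N) :
    ∃ n ≤ N, ∃ l : Fin n → AddChar G ℂ, (∀ i, l i ∈ 𝒞) ∧ (∀ i z, ‖l i z‖ = 1) ∧
      ∀ x ∈ X, ∀ t, x + t ∈ X → ∀ κ ρ : ℝ, (#(S.filter fun s => s + t ∉ S) : ℝ) ≤ κ * #S →
        0 ≤ ρ → (∀ i, ‖l i t - 1‖ ≤ ρ) → |F (x + t) - F x| ≤
          4 * k * ε + K' * (2 * 3 ^ (N + 1) * κ + N * ρ + 2 / 4 ^ k) := by
  have hSc : (0 : ℝ) < #S := by exact_mod_cast hS.card_pos
  have hTn : T.Nonempty := by
    rw [nonempty_iff_ne_empty]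
    rintro rfl
    simp only [card_empty, Nat.cast_zero, mul_zero] at hTc
    linarith
  have hT0 : (0 : ℝ) < #T := by exact_mod_cast hTn.card_pos
  set U := Fintype.piFinset fun _ : Fin k => T ×ˢ T with hU
  set d : (Fin k → G × G) → G := fun u => ∑ i, ((u i).1 - (u i).2) with hd
  obtain ⟨D, hD⟩ := hF ((X ×ˢ U).image fun q => q.1 + d q.2)
  obtain ⟨N', χ, hχ, h⟩ := hG D
  obtain ⟨c, hc, hFc⟩ := hD N' χ h
  obtain ⟨n, hn, l, hl⟩ := chang_ann hTS hTn hTc (δ := 1 / 2) (by norm_num) χ h.unit (N := N)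
    (by rw [show 2 * (2 * K) = 4 * K by ring]; linarith)
  refine ⟨n, hn, fun i => χ (l i), fun i => hχ _, fun i => h.unit _, ?_⟩
  intro x hx t hxt κ ρ hκ hρ0 hρ
  have hκ0 : 0 ≤ κ := by
    by_contra h0
    have := mul_neg_of_neg_of_pos (not_le.1 h0) hSc
    linarith [Nat.cast_nonneg (α := ℝ) #(S.filter fun s => s + t ∉ S)]
  set ν := 2 * 3 ^ (N + 1) * κ + N * ρ with hν
  have hν0 : 0 ≤ ν := by positivity
  have hUc : (#U : ℝ) = ((#T : ℝ) ^ 2) ^ k := by simp [hU, sq]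
  have hU0 : (0 : ℝ) < #U := by rw [hUc]; positivity
  have e1 : ∀ w ∈ X, ∀ u ∈ U, (F (w + d u) : ℂ) = ∑ ω, c ω * χ ω (w + d u) := fun w hw u hu =>
    hFc _ (mem_image.2 ⟨(w, u), mem_product.2 ⟨hw, hu⟩, rfl⟩)
  have e2 : ∀ ω, ∑ u ∈ U, χ ω (d u) = (((‖∑ s ∈ T, χ ω s‖ ^ 2) ^ k : ℝ) : ℂ) := fun ω => by
    simp only [hd, map_sum_char]
    rw [← prod_univ_sum (fun _ : Fin k => T ×ˢ T) fun _ p => χ ω (p.1 - p.2), prod_const,
      card_univ, Fintype.card_fin, sum_product' (f := fun a b => χ ω (a - b)),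
      sum_sum_sub (h.unit ω) T fun s => s, ← Complex.ofReal_pow]
  have e3 : ((∑ u ∈ U, (F (x + t + d u) - F (x + d u)) : ℝ) : ℂ) =
      ∑ ω, c ω * χ ω x *
        ((χ ω t - 1) * (((‖∑ s ∈ T, χ ω s‖ ^ 2) ^ k : ℝ) : ℂ)) := by
    rw [Complex.ofReal_sum, sum_congr rfl fun u hu => by
      rw [Complex.ofReal_sub, e1 _ hxt u hu, e1 _ hx u hu, ← sum_sub_distrib], sum_comm]
    refine sum_congr rfl fun ω _ => ?_
    rw [← e2, mul_sum, mul_sum]
    refine sum_congr rfl fun u _ => ?_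
    simp only [AddChar.map_add_eq_mul]
    ring
  have b1 : ∀ ω, ‖(χ ω t - 1) * (((‖∑ s ∈ T, χ ω s‖ ^ 2) ^ k : ℝ) : ℂ)‖ ≤
      (ν + 2 / 4 ^ k) * #U := fun ω => by
    rw [norm_mul, Complex.norm_real, norm_of_nonneg (by positivity), hUc]
    by_cases hω : 1 / 2 * (#T : ℝ) ≤ ‖∑ s ∈ T, χ ω s‖
    · have h1 := hl ω hω t κ ρ hκ hρ0 hρ
      have h2 := norm_sum_char_le (h.unit ω) T fun s => s
      have h3 : (0 : ℝ) ≤ 2 / 4 ^ k := by positivity
      gcongr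
      linarith
    · have h1 : ‖χ ω t - 1‖ ≤ 2 := (norm_sub_le _ _).trans (by rw [h.unit, norm_one]; norm_num)
      have h2 : (‖∑ s ∈ T, χ ω s‖ ^ 2) ^ k ≤ ((1 / 2 * (#T : ℝ)) ^ 2) ^ k := by
        gcongr
        exact (not_le.1 hω).le
      calc _ ≤ 2 * ((1 / 2 * (#T : ℝ)) ^ 2) ^ k := by gcongr
        _ = 2 / 4 ^ k * ((#T : ℝ) ^ 2) ^ k := by
          rw [mul_pow, mul_pow, show (1 / 2 : ℝ) ^ 2 = 4⁻¹ by norm_num, inv_pow]; ring
        _ ≤ _ := by gcongr; linarith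
  have b2 : |∑ u ∈ U, (F (x + t + d u) - F (x + d u))| ≤
      K' * ((ν + 2 / 4 ^ k) * #U) := by
    rw [← Real.norm_eq_abs, ← Complex.norm_real, e3]
    refine (norm_sum_le _ _).trans ((sum_le_sum (g := fun ω =>
      ‖c ω‖ * ((ν + 2 / 4 ^ k) * #U)) fun ω _ => ?_).trans ?_)
    · rw [norm_mul, norm_mul, h.unit, mul_one]
      gcongr
      exact b1 ω
    · rw [← sum_mul]
      gcongr
  have b3 : ∀ u ∈ U, ∀ w, |F (w + d u) - F w| ≤ k * (2 * ε) := fun u hu w =>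
    abs_iter (P := T ×ˢ T) (fun p hp => hT _ (mem_product.1 hp).1 _ (mem_product.1 hp).2) u
      (Fintype.mem_piFinset.1 hu) w
  have b4 : |∑ u ∈ U, ((F (x + t) - F x) -
      (F (x + t + d u) - F (x + d u)))| ≤ #U * (4 * k * ε) := by
    refine (abs_sum_le_sum_abs _ _).trans ?_
    rw [← nsmul_eq_mul]
    refine sum_le_card_nsmul _ _ _ fun u hu => ?_
    have h1 := abs_le.1 (b3 u hu (x + t))
    have h2 := abs_le.1 (b3 u hu x)
    rw [abs_le]
    constructor <;> linarith [h1.1, h1.2, h2.1, h2.2]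
  rw [sum_sub_distrib, sum_const, nsmul_eq_mul] at b4
  refine le_of_mul_le_mul_left ?_ hU0
  rw [← abs_of_pos hU0, ← abs_mul, abs_of_pos hU0]
  rw [abs_le] at b2 b4 ⊢
  constructor <;> nlinarith [b2.1, b2.2, b4.1, b4.2]


/-- `α * f` -/
def wcv (A : Finset G) (α f : G → ℝ) (z : G) : ℝ := ∑ a ∈ A, α a * f (z - a)

/-- `α * μ * f` -/
def wcv3 (A : Finset G) (α : G → ℝ) (M : Finset G) (μ f : G → ℝ) (x : G) : ℝ :=
  ∑ y ∈ M, μ y * wcv A α f (x - y)

/-- probability weights on a finite set -/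
structure Pr (A : Finset G) (α : G → ℝ) : Prop where
  nonneg : ∀ a ∈ A, 0 ≤ α a
  sum_eq : ∑ a ∈ A, α a = 1

/-- a `[0, 1]`-valued function supported on `L` -/
structure Fn (L : Finset G) (f : G → ℝ) : Prop where
  nonneg : ∀ z, 0 ≤ f z
  le_one : ∀ z, f z ≤ 1
  supp : ∀ z, z ∉ L → f z = 0

variable {A M L S : Finset G} {α μ f : G → ℝ}

theorem Pr.nonempty (h : Pr A α) : A.Nonempty := by
  rw [nonempty_iff_ne_empty]
  rintro rfl
  simpa using h.sum_eq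

theorem wcv_nonneg (hα : Pr A α) (hf : Fn L f) (z : G) : 0 ≤ wcv A α f z :=
  sum_nonneg fun a ha => mul_nonneg (hα.nonneg a ha) (hf.nonneg _)

theorem wcv_le_one (hα : Pr A α) (hf : Fn L f) (z : G) : wcv A α f z ≤ 1 :=
  (sum_le_sum fun a ha => mul_le_of_le_one_right (hα.nonneg a ha) (hf.le_one _)).trans_eq hα.sum_eq

theorem sum_inj_le {ψ : G → ℝ} (h0 : ∀ z, 0 ≤ ψ z) (hz : ∀ z, z ∉ L → ψ z = 0) (Z : Finset G)
    {φ : G → G} (hφ : Function.Injective φ) : ∑ z ∈ Z, ψ (φ z) ≤ ∑ z ∈ L, ψ z := by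
  rw [← sum_image (s := Z) (g := φ) (f := ψ) hφ.injOn,
    ← sum_filter_of_ne (p := fun z => z ∈ L) fun z _ h => by_contra fun h' => h (hz z h')]
  exact sum_le_sum_of_subset_of_nonneg (fun z hz => (mem_filter.1 hz).2) fun z _ _ => h0 z

theorem sum_wcv_le (hα : Pr A α) (hf : Fn L f) (Z : Finset G) :
    ∑ z ∈ Z, wcv A α f z ≤ ∑ z ∈ L, f z := by
  unfold wcv
  rw [sum_comm]
  simp only [← mul_sum]
  refine (sum_le_sum fun a ha => mul_le_mul_of_nonneg_left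
    (sum_inj_le hf.nonneg hf.supp Z (φ := fun z => z - a) sub_left_injective)
    (hα.nonneg a ha)).trans ?_
  rw [← sum_mul, hα.sum_eq, one_mul]

/-- the empirical version of `wcv` -/
def wemp {m : ℕ} (a : Fin m → G) (f : G → ℝ) (z : G) : ℝ := (∑ j, f (z - a j)) / m

theorem wmoment (hα : Pr A α) (hf : Fn L f) {m : ℕ} (hm : 0 < m) {l : ℝ}
    (hl : l ^ 2 ≤ m) (z : G) :
    ∑ a ∈ Fintype.piFinset fun _ : Fin m => A,
      (∏ j, α (a j)) * exp (l * (wemp a f z - wcv A α f z)) ≤ 1 + 2 * wcv A α f z := by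
  have hm' : (1 : ℝ) ≤ m := by exact_mod_cast hm
  set g := wcv A α f z with hg
  have g0 : 0 ≤ g := wcv_nonneg hα hf _
  have g1 : g ≤ 1 := wcv_le_one hα hf _
  set c := l / m with hcd
  have hc1 : |c| ≤ 1 := by
    rw [hcd, abs_div, abs_of_pos (by linarith : (0 : ℝ) < m), div_le_one (by linarith)]
    nlinarith [sq_abs l, abs_nonneg l, sq_nonneg (|l| - 1)]
  have e1 : ∀ a : Fin m → G, (∏ j, α (a j)) * exp (l * (wemp a f z - g)) =
      ∏ j, (α (a j) * exp (c * (f (z - a j) - g))) := fun a => by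
    rw [prod_mul_distrib, ← exp_sum, ← mul_sum, sum_sub_distrib, wemp, hcd]
    simp only [sum_const, card_univ, Fintype.card_fin, nsmul_eq_mul]
    congr 2
    field_simp
  simp only [e1]
  rw [← prod_univ_sum (fun _ : Fin m => A) fun _ a => α a * exp (c * (f (z - a) - g)),
    prod_const, card_univ, Fintype.card_fin]
  have h1 : ∑ a ∈ A, α a * exp (c * (f (z - a) - g)) ≤ exp (c ^ 2 * g) := by
    have h2 : ∀ a ∈ A, α a * exp (c * (f (z - a) - g)) ≤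
        (1 - c * g + c ^ 2 * g ^ 2) * α a + (c + c ^ 2 * (1 - 2 * g)) * (α a * f (z - a)) :=
      fun a ha => by
      have i0 := hf.nonneg (z - a)
      have i1 := hf.le_one (z - a)
      have h3 : exp (c * (f (z - a) - g)) ≤
          (1 - c * g + c ^ 2 * g ^ 2) + (c + c ^ 2 * (1 - 2 * g)) * f (z - a) := by
        refine (exp_le_quad ?_).trans ?_
        · rw [abs_mul]
          exact mul_le_one₀ hc1 (abs_nonneg _) (abs_le.2 ⟨by linarith, by linarith⟩)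
        · have h4 : 0 ≤ c ^ 2 * (f (z - a) * (1 - f (z - a))) :=
            mul_nonneg (sq_nonneg c) (mul_nonneg i0 (by linarith))
          nlinarith
      have h5 := mul_le_mul_of_nonneg_left h3 (hα.nonneg a ha)
      linarith
    refine (sum_le_sum h2).trans ?_
    rw [sum_add_distrib, ← mul_sum, ← mul_sum, hα.sum_eq]
    change _ + _ * g ≤ _
    have h3 := add_one_le_exp (c ^ 2 * g)
    have h4 : 0 ≤ c ^ 2 * g ^ 2 := by positivity
    nlinarith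
  refine (pow_le_pow_left₀ (sum_nonneg fun a ha =>
    mul_nonneg (hα.nonneg a ha) (exp_pos _).le) h1 m).trans ?_
  rw [← exp_nat_mul]
  have h5 : (m : ℝ) * (c ^ 2 * g) ≤ g := by
    have h6 : (m : ℝ) * c ^ 2 ≤ 1 := by
      rw [hcd, div_pow, ← mul_div_assoc, div_le_one (by positivity)]
      nlinarith
    nlinarith
  refine (exp_le_exp.2 h5).trans ((exp_le_quad (abs_le.2 ⟨by linarith, g1⟩)).trans ?_)
  nlinarith

theorem wexists_good (hα : Pr A α) (hμ : Pr M μ) (hf : Fn L f) {K' ε : ℝ}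
    (hL : ∀ y ∈ M, μ y * ∑ z ∈ L, f z ≤ K') (hε : 0 < ε) {m : ℕ}
    (hm : (log (8 * K' + 2) / ε) ^ 2 ≤ m) :
    ∃ Y ⊆ Fintype.piFinset fun _ : Fin m => A, 1 ≤ 2 * ∑ a ∈ Y, ∏ j, α (a j) ∧
      ∀ a ∈ Y, ∀ x, |∑ y ∈ M, μ y * wemp a f (x - y) - wcv3 A α M μ f x| ≤ ε := by
  set V := ∑ z ∈ L, f z with hV
  have hV0 : 0 ≤ V := sum_nonneg fun z _ => hf.nonneg z
  obtain ⟨y₀, hy₀⟩ := hμ.nonempty
  have hK : 0 ≤ K' := (mul_nonneg (hμ.nonneg _ hy₀) hV0).trans (hL _ hy₀)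
  set l := log (8 * K' + 2) / ε with hl
  have l0 : 0 < l := div_pos (log_pos (by linarith)) hε
  have hm0 : 0 < m := by
    have : (0 : ℝ) < m := lt_of_lt_of_le (by positivity) hm
    exact_mod_cast this
  set P := Fintype.piFinset fun _ : Fin m => A with hP
  set ψ : (Fin m → G) → G → ℝ := fun a z =>
    exp (l * (wemp a f z - wcv A α f z)) + exp (-l * (wemp a f z - wcv A α f z)) - 2 with hψ
  have ψ0 : ∀ a z, 0 ≤ ψ a z := fun a z => by
    have h1 := add_one_le_exp (l * (wemp a f z - wcv A α f z))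
    have h2 := add_one_le_exp (-l * (wemp a f z - wcv A α f z))
    simp only [hψ]; linarith
  have ψz : ∀ a ∈ P, ∀ z, z ∉ L + A → ψ a z = 0 := fun a ha z hz => by
    have h1 : ∀ b ∈ A, f (z - b) = 0 := fun b hb =>
      hf.supp _ fun h => hz (by simpa using add_mem_add h hb)
    have h2 : wemp a f z = 0 := by
      rw [wemp, sum_eq_zero fun j _ => h1 _ (Fintype.mem_piFinset.1 ha j), zero_div]
    have h3 : wcv A α f z = 0 := sum_eq_zero fun b hb => by rw [h1 b hb, mul_zero]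
    simp only [hψ, h2, h3]; norm_num
  have w0 : ∀ a ∈ P, 0 ≤ ∏ j, α (a j) := fun a ha =>
    prod_nonneg fun j _ => hα.nonneg _ (Fintype.mem_piFinset.1 ha j)
  have hPc : ∑ a ∈ P, ∏ j, α (a j) = 1 := by
    rw [hP, ← prod_univ_sum (fun _ : Fin m => A) fun _ a => α a, hα.sum_eq, prod_const_one]
  have hsum : ∑ a ∈ P, (∏ j, α (a j)) * ∑ z ∈ L + A, ψ a z ≤ 4 * V := by
    simp only [mul_sum]
    rw [sum_comm]
    have h1 : ∀ z ∈ L + A, ∑ a ∈ P, (∏ j, α (a j)) * ψ a z ≤ 4 * wcv A α f z := fun z _ => by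
      have h2 := wmoment hα hf hm0 hm z
      have h3 := wmoment hα hf hm0 (l := -l) (by rwa [neg_sq]) z
      simp only [hψ, mul_sub, mul_add] at h2 h3 ⊢
      rw [sum_sub_distrib, sum_add_distrib, ← sum_mul, hPc]
      linarith
    refine (sum_le_sum h1).trans ?_
    rw [← mul_sum]
    gcongr
    exact sum_wcv_le hα hf _
  refine ⟨P.filter fun a => ∑ z ∈ L + A, ψ a z ≤ 8 * V, filter_subset _ _, ?_, ?_⟩
  · have h2 := sum_filter_add_sum_filter_not P (fun a => ∑ z ∈ L + A, ψ a z ≤ 8 * V)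
      fun a => ∏ j, α (a j)
    have h1 : ∑ a ∈ P.filter fun a => ¬ ∑ z ∈ L + A, ψ a z ≤ 8 * V,
        (∏ j, α (a j)) * ∑ z ∈ L + A, ψ a z ≤ 4 * V :=
      (sum_le_sum_of_subset_of_nonneg (filter_subset _ P)
        fun a ha _ => mul_nonneg (w0 a ha) (sum_nonneg fun z _ => ψ0 a z)).trans hsum
    by_contra hcon
    have h3 : ∑ a ∈ P.filter fun a => ¬ ∑ z ∈ L + A, ψ a z ≤ 8 * V, (∏ j, α (a j)) * (8 * V) <
        ∑ a ∈ P.filter fun a => ¬ ∑ z ∈ L + A, ψ a z ≤ 8 * V,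
          (∏ j, α (a j)) * ∑ z ∈ L + A, ψ a z := by
      refine sum_lt_sum (fun a ha => mul_le_mul_of_nonneg_left (not_le.1 (mem_filter.1 ha).2).le
        (w0 a (mem_filter.1 ha).1)) ?_
      obtain ⟨a, ha, h4⟩ := exists_lt_of_sum_lt (s := P.filter fun a =>
        ¬ ∑ z ∈ L + A, ψ a z ≤ 8 * V) (f := fun _ => (0 : ℝ)) (g := fun a => ∏ j, α (a j))
        (by rw [sum_const_zero]; linarith)
      exact ⟨a, ha, mul_lt_mul_of_pos_left (not_le.1 (mem_filter.1 ha).2) h4⟩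
    rw [← sum_mul] at h3
    nlinarith
  · intro a ha x
    obtain ⟨haP, ha⟩ := mem_filter.1 ha
    have h1 : ∑ y ∈ M, ψ a (x - y) ≤ 8 * V :=
      (sum_inj_le (ψ0 a) (ψz a haP) M (φ := fun y => x - y) sub_right_injective).trans ha
    have h1' : ∑ y ∈ M, μ y * ψ a (x - y) ≤ 8 * K' := by
      rcases hV0.eq_or_lt with h0 | h0
      · rw [← h0, mul_zero] at h1
        have h2 := (sum_eq_zero_iff_of_nonneg fun y _ => ψ0 a (x - y)).1
          (h1.antisymm (sum_nonneg fun y _ => ψ0 a (x - y)))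
        rw [sum_eq_zero fun y hy => by rw [h2 y hy, mul_zero]]
        positivity
      · refine le_of_mul_le_mul_right ?_ h0
        rw [sum_mul]
        refine (sum_le_sum (g := fun y => K' * ψ a (x - y)) fun y hy => ?_).trans ?_
        · nlinarith [mul_le_mul_of_nonneg_right (hL y hy) (ψ0 a (x - y))]
        · rw [← mul_sum]
          nlinarith
    have key : ∀ σ : ℝ, (∀ z, exp (σ * l * (wemp a f z - wcv A α f z)) ≤ ψ a z + 2) →
        σ * (∑ y ∈ M, μ y * wemp a f (x - y) - wcv3 A α M μ f x) ≤ ε := fun σ hσ => by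
      have h2 := exp_wavg_le hμ.nonneg (by rw [hμ.sum_eq]; exact one_pos)
        fun y => σ * l * (wemp a f (x - y) - wcv A α f (x - y))
      rw [hμ.sum_eq, div_one, mul_one] at h2
      have h3 : ∑ y ∈ M, μ y * exp (σ * l * (wemp a f (x - y) - wcv A α f (x - y))) ≤
          8 * K' + 2 := by
        refine (sum_le_sum fun y hy =>
          mul_le_mul_of_nonneg_left (hσ (x - y)) (hμ.nonneg y hy)).trans ?_
        simp only [mul_add]
        rw [sum_add_distrib, ← sum_mul, hμ.sum_eq]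
        linarith
      have h4 := (le_log_iff_exp_le (by linarith)).2 (h2.trans h3)
      have h5 : log (8 * K' + 2) = l * ε := by rw [hl]; field_simp
      rw [h5] at h4
      refine le_of_mul_le_mul_left (le_of_eq_of_le ?_ h4) l0
      rw [wcv3, ← sum_sub_distrib, mul_sum, mul_sum]
      exact sum_congr rfl fun y _ => by ring
    refine abs_le.2 ⟨?_, ?_⟩
    · have := key (-1) fun z => by
        have := exp_pos (l * (wemp a f z - wcv A α f z))
        simp only [hψ, neg_mul, one_mul] at this ⊢; linarith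
      linarith
    · have := key 1 fun z => by
        have := exp_pos (-l * (wemp a f z - wcv A α f z))
        simp only [hψ, one_mul] at this ⊢; linarith
      linarith

/-- **Croot–Sisask**, weighted `L^∞` form -/
theorem wcroot_sisask (hα : Pr A α) (hμ : Pr M μ) (hf : Fn L f) {K K' ε : ℝ}
    (hK : ∀ a ∈ A, α a * #(A + S) ≤ K) (hL : ∀ y ∈ M, μ y * ∑ z ∈ L, f z ≤ K') (hε : 0 < ε)
    {m : ℕ} (hm : (log (8 * K' + 2) / ε) ^ 2 ≤ m) (hS : S.Nonempty) :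
    ∃ T ⊆ S, (#S : ℝ) ≤ 2 * K ^ m * #T ∧ ∀ s ∈ T, ∀ s' ∈ T, ∀ x,
      |wcv3 A α M μ f (x + (s - s')) - wcv3 A α M μ f x| ≤ 2 * ε := by
  obtain ⟨Y, hYP, hYc, hY⟩ := wexists_good hα hμ hf hL hε hm
  have hA := hα.nonempty
  set B := Fintype.piFinset fun _ : Fin m => A + S with hB
  have hBn : B.Nonempty := Fintype.piFinset_nonempty.2 fun _ => hA.add hS
  have hBc : (#B : ℝ) ≤ 2 * K ^ m * #Y := by
    have h1 : (#B : ℝ) = ∏ _j : Fin m, (#(A + S) : ℝ) := by simp [hB]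
    have h2 : ∀ a ∈ Y, (∏ j, α (a j)) * #B ≤ K ^ m := fun a ha => by
      have h3 := Fintype.mem_piFinset.1 (hYP ha)
      rw [h1, ← prod_mul_distrib]
      simpa using prod_le_prod (s := univ) (g := fun _ : Fin m => K)
        (fun j _ => mul_nonneg (hα.nonneg _ (h3 j)) (Nat.cast_nonneg #(A + S)))
        fun j _ => hK _ (h3 j)
    have h4 := sum_le_card_nsmul _ _ _ h2
    rw [← sum_mul, nsmul_eq_mul] at h4
    nlinarith [Nat.cast_nonneg (α := ℝ) #B]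
  have hY0 : (0 : ℝ) < #Y := by
    have : Y.Nonempty := by
      rw [nonempty_iff_ne_empty]
      rintro rfl
      norm_num at hYc
    exact_mod_cast this.card_pos
  have h1 : ∑ _b ∈ B, #S * #Y ≤ ∑ b ∈ B, #B * #(S.filter fun s => (fun j => b j - s) ∈ Y) := by
    rw [sum_const, ← mul_sum, smul_eq_mul]
    refine Nat.mul_le_mul_left _ ?_
    simp only [card_filter]
    rw [sum_comm, ← smul_eq_mul]
    refine card_nsmul_le_sum _ _ _ fun s hs => ?_
    rw [← card_filter]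
    refine card_le_card_of_injOn (fun a j => a j + s) (fun a ha => ?_) fun a _ a' _ h => ?_
    · simp only [coe_filter, Set.mem_ofPred_eq, add_sub_cancel_right]
      exact ⟨Fintype.mem_piFinset.2 fun j =>
        add_mem_add (Fintype.mem_piFinset.1 (hYP ha) j) hs, ha⟩
    · funext j
      exact add_right_cancel (congrFun h j)
  obtain ⟨b, -, hb⟩ := exists_le_of_sum_le hBn h1
  refine ⟨S.filter fun s => (fun j => b j - s) ∈ Y, filter_subset _ _, ?_, ?_⟩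
  · have h2 : (#S : ℝ) * #Y ≤ #B * #(S.filter fun s => (fun j => b j - s) ∈ Y) := by
      exact_mod_cast hb
    refine le_of_mul_le_mul_right ?_ hY0
    have h4 : (0 : ℝ) ≤ #(S.filter fun s => (fun j => b j - s) ∈ Y) := Nat.cast_nonneg _
    nlinarith
  · intro s hs s' hs' x
    have h2 := hY _ (mem_filter.1 hs).2 x
    have h3 := hY _ (mem_filter.1 hs').2 (x + (s - s'))
    have e : ∀ y, wemp (fun j => b j - s') f (x + (s - s') - y) =
        wemp (fun j => b j - s) f (x - y) := fun y => by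
      unfold wemp
      congr 1
      refine sum_congr rfl fun j _ => ?_
      rw [show x + (s - s') - y - (b j - s') = x - y - (b j - s) by abel]
    simp only [e] at h3
    rw [abs_le] at h2 h3 ⊢
    constructor <;> linarith [h2.1, h2.2, h3.1, h3.2]

theorem sum_sum_sub' {ψ : AddChar G ℂ} (h : ∀ z, ‖ψ z‖ = 1) {ι : Type*} (s : Finset ι)
    (φ : ι → G) (u : ι → ℂ) : ∑ i ∈ s, ∑ j ∈ s, u i * (starRingEnd ℂ) (u j) * ψ (φ i - φ j) =
      ((‖∑ i ∈ s, u i * ψ (φ i)‖ ^ 2 : ℝ) : ℂ) := by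
  rw [← Complex.normSq_eq_norm_sq, ← Complex.mul_conj, map_sum, sum_mul_sum]
  refine sum_congr rfl fun i _ => sum_congr rfl fun j _ => ?_
  rw [sub_eq_add_neg, AddChar.map_add_eq_mul, map_neg_eq_conj h, map_mul]
  ring

/-- Parseval, with coefficients -/
theorem Orth.parseval' {N : ℕ} {χ : Fin N → AddChar G ℂ} {D : Finset G} (h : Orth χ D)
    {ι : Type*} {s : Finset ι} {φ : ι → G}
    (hφ : Set.InjOn φ s) (hD : ∀ i ∈ s, ∀ j ∈ s, φ i - φ j ∈ D) (u : ι → ℂ) :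
    ∑ ω, ‖∑ i ∈ s, u i * χ ω (φ i)‖ ^ 2 = N * ∑ i ∈ s, ‖u i‖ ^ 2 := by
  classical
  have h1 : ((∑ ω, ‖∑ i ∈ s, u i * χ ω (φ i)‖ ^ 2 : ℝ) : ℂ) =
      ((N * ∑ i ∈ s, ‖u i‖ ^ 2 : ℝ) : ℂ) := by
    rw [Complex.ofReal_sum]
    simp only [← sum_sum_sub' (h.unit _)]
    rw [sum_comm, mul_sum, Complex.ofReal_sum]
    refine sum_congr rfl fun i hi => ?_
    rw [sum_comm, sum_eq_single_of_mem i hi fun j hj hne => ?_]
    · rw [Complex.mul_conj, Complex.normSq_eq_norm_sq]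
      simp
    · rw [← mul_sum,
        h.sum_eq _ (hD i hi j hj) fun h0 => hne (hφ hi hj (sub_eq_zero.1 h0)).symm, mul_zero]
  exact_mod_cast h1

theorem fourL1_wcv3 (hα : Pr A α) (hμ : Pr M μ) (hf : Fn L f) {K' : ℝ}
    (hL : ∀ y ∈ M, μ y * ∑ z ∈ L, f z ≤ K') (hK : 1 ≤ K') : FourL1 (wcv3 A α M μ f) K' := by
  intro W
  refine ⟨((W ×ˢ A ×ˢ M).image fun q => q.1 - q.2.2 - q.2.1) - L ∪
    ((M ×ˢ M).image (fun q => -q.1 - -q.2) ∪ (L ×ˢ L).image fun q => -q.1 - -q.2),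
    fun N χ h => ⟨fun ω => (∑ a ∈ A, α a * χ ω (-a)) * (∑ y ∈ M, μ y * χ ω (-y)) *
      (∑ l ∈ L, f l * χ ω (-l)) / N, ?_, fun w hw => ?_⟩⟩
  · have hN : (0 : ℝ) < N := by exact_mod_cast h.pos
    have h1 := h.parseval' (s := M) (φ := fun y => -y) neg_injective.injOn (fun y hy y' hy' =>
      mem_union_right _ (mem_union_left _ (mem_image.2 ⟨(y, y'), mem_product.2 ⟨hy, hy'⟩, rfl⟩)))
      fun y => μ y
    have h2 := h.parseval' (s := L) (φ := fun y => -y) neg_injective.injOn (fun y hy y' hy' =>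
      mem_union_right _ (mem_union_right _ (mem_image.2 ⟨(y, y'), mem_product.2 ⟨hy, hy'⟩, rfl⟩)))
      fun y => f y
    have h3 := sum_mul_sq_le_sq_mul_sq univ (fun ω => ‖∑ y ∈ M, μ y * χ ω (-y)‖)
      fun ω => ‖∑ l ∈ L, f l * χ ω (-l)‖
    rw [h1, h2] at h3
    have h4 : ∑ l ∈ L, ‖(f l : ℂ)‖ ^ 2 ≤ ∑ l ∈ L, f l := sum_le_sum fun l _ => by
      rw [Complex.norm_real, norm_of_nonneg (hf.nonneg l)]
      nlinarith [hf.nonneg l, hf.le_one l]
    have h5 : (∑ y ∈ M, ‖(μ y : ℂ)‖ ^ 2) * ∑ l ∈ L, f l ≤ K' := by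
      rw [sum_mul]
      refine (sum_le_sum (g := fun y => K' * μ y) fun y hy => ?_).trans ?_
      · rw [Complex.norm_real, norm_of_nonneg (hμ.nonneg y hy)]
        nlinarith [mul_le_mul_of_nonneg_right (hL y hy) (hμ.nonneg y hy)]
      · rw [← mul_sum, hμ.sum_eq, mul_one]
    have h6 : ∑ ω, ‖∑ y ∈ M, μ y * χ ω (-y)‖ * ‖∑ l ∈ L, f l * χ ω (-l)‖ ≤ N * K' := by
      refine abs_le_of_sq_le_sq' (h3.trans ?_) (by positivity) |>.2
      have h7 : 0 ≤ ∑ y ∈ M, ‖(μ y : ℂ)‖ ^ 2 := by positivity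
      calc _ = (N : ℝ) ^ 2 * ((∑ y ∈ M, ‖(μ y : ℂ)‖ ^ 2) * ∑ l ∈ L, ‖(f l : ℂ)‖ ^ 2) := by ring
        _ ≤ (N : ℝ) ^ 2 * ((∑ y ∈ M, ‖(μ y : ℂ)‖ ^ 2) * ∑ l ∈ L, f l) := by gcongr
        _ ≤ (N : ℝ) ^ 2 * K' ^ 2 := by gcongr; nlinarith
        _ = _ := by ring
    refine (sum_le_sum (g := fun ω => ‖∑ y ∈ M, μ y * χ ω (-y)‖ * ‖∑ l ∈ L, f l * χ ω (-l)‖ / N)
      fun ω _ => ?_).trans ?_
    · have h8 : ‖∑ a ∈ A, α a * χ ω (-a)‖ ≤ 1 := by
        refine (norm_sum_le _ _).trans (le_of_eq ?_)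
        rw [← hα.sum_eq]
        refine sum_congr rfl fun a ha => ?_
        rw [norm_mul, h.unit, mul_one, Complex.norm_real, norm_of_nonneg (hα.nonneg a ha)]
      rw [norm_div, norm_mul, norm_mul, Complex.norm_natCast, mul_assoc]
      exact div_le_div_of_nonneg_right (mul_le_of_le_one_left (by positivity) h8) hN.le
    · rw [← sum_div, div_le_iff₀ hN, mul_comm]
      exact h6
  · have hN : (N : ℂ) ≠ 0 := by exact_mod_cast h.pos.ne'
    have h1 : ∀ a ∈ A, ∀ y ∈ M, (f (w - y - a) : ℂ) =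
        (∑ ω, ∑ l ∈ L, f l * χ ω (w - y - a - l)) / N := fun a ha y hy => by
      rw [sum_comm, sum_congr rfl fun l hl => by
        rw [← mul_sum, h.ite (mem_union_left _ (sub_mem_sub (mem_image.2 ⟨(w, a, y),
          mem_product.2 ⟨hw, mem_product.2 ⟨ha, hy⟩⟩, rfl⟩) hl))], eq_div_iff hN]
      simp only [sub_eq_zero, mul_ite, mul_zero, sum_ite_eq]
      split_ifs with h0
      · rfl
      · rw [hf.supp _ h0]; simp
    have h2 : (wcv3 A α M μ f w : ℂ) =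
        (∑ y ∈ M, ∑ a ∈ A, ∑ ω, ∑ l ∈ L, μ y * (α a * (f l * χ ω (w - y - a - l)))) / N := by
      simp only [wcv3, wcv]
      push_cast
      rw [sum_congr rfl fun y hy => by rw [sum_congr rfl fun a ha => by rw [h1 a ha y hy]]]
      simp only [← mul_sum, ← mul_div_assoc, ← sum_div]
    rw [h2]
    simp only [div_mul_eq_mul_div]
    rw [← sum_div]
    congr 1
    rw [sum_congr rfl fun y _ => sum_comm, sum_comm]
    refine sum_congr rfl fun ω _ => ?_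
    rw [sum_comm, sum_mul_sum, sum_mul, sum_mul]
    refine sum_congr rfl fun a _ => ?_
    rw [sum_mul, sum_mul]
    refine sum_congr rfl fun y _ => ?_
    rw [mul_sum, sum_mul]
    refine sum_congr rfl fun l _ => ?_
    rw [show w - y - a - l = -a + -y + -l + w by abel]
    simp only [AddChar.map_add_eq_mul]
    ring

/-- **almost periods along Bohr sets**, weighted local form -/
theorem walmost_periods {𝒞 : Set (AddChar G ℂ)} (hG : Sep G 𝒞) (hα : Pr A α) (hμ : Pr M μ)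
    (hf : Fn L f) (hS : S.Nonempty) (X : Finset G) {K K' ε : ℝ}
    (hK : ∀ a ∈ A, α a * #(A + S) ≤ K) (hL : ∀ y ∈ M, μ y * ∑ z ∈ L, f z ≤ K') (hK' : 1 ≤ K')
    (hε : 0 < ε) (k : ℕ) {m N : ℕ} (hm : (log (8 * K' + 2) / ε) ^ 2 ≤ m)
    (hN : 32 * log (4 * K ^ m) ≤ N) :
    ∃ n ≤ N, ∃ l : Fin n → AddChar G ℂ, (∀ i, l i ∈ 𝒞) ∧ (∀ i z, ‖l i z‖ = 1) ∧
      ∀ x ∈ X, ∀ t, x + t ∈ X → ∀ κ ρ : ℝ, (#(S.filter fun s => s + t ∉ S) : ℝ) ≤ κ * #S →
        0 ≤ ρ → (∀ i, ‖l i t - 1‖ ≤ ρ) → |wcv3 A α M μ f (x + t) - wcv3 A α M μ f x| ≤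
          4 * k * ε + K' * (2 * 3 ^ (N + 1) * κ + N * ρ + 2 / 4 ^ k) := by
  obtain ⟨T, hTS, hTc, hT⟩ := wcroot_sisask hα hμ hf hK hL hε hm hS
  exact ap_core hG (fourL1_wcv3 hα hμ hf hL hK') hS X hTS hTc hT k hN

/-- **almost periods along Bohr sets**, with real parameters: `K, K' ≤ exp w`, error `ε ≥ exp (-w)`,
at most `N ≥ 2 ^ 22 w ^ 5 / ε ^ 2` characters -/
theorem wapb {𝒞 : Set (AddChar G ℂ)} (hG : Sep G 𝒞) (hα : Pr A α) (hμ : Pr M μ)
    (hf : Fn L f) (hS : S.Nonempty) (X : Finset G) {w ε : ℝ} (hw : 1 ≤ w)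
    (hK : ∀ a ∈ A, α a * #(A + S) ≤ exp w) (hL : ∀ y ∈ M, μ y * ∑ z ∈ L, f z ≤ exp w)
    (hε : exp (-w) ≤ ε) (hε1 : ε ≤ 1) {N : ℕ} (hN : 2 ^ 22 * w ^ 5 / ε ^ 2 ≤ N) :
    ∃ n ≤ N, ∃ l : Fin n → AddChar G ℂ, (∀ i, l i ∈ 𝒞) ∧ (∀ i z, ‖l i z‖ = 1) ∧
      ∀ x ∈ X, ∀ t, x + t ∈ X → ∀ κ ρ : ℝ, (#(S.filter fun s => s + t ∉ S) : ℝ) ≤ κ * #S →
        0 ≤ ρ → (∀ i, ‖l i t - 1‖ ≤ ρ) → |wcv3 A α M μ f (x + t) - wcv3 A α M μ f x| ≤
          ε / 2 + exp w * (2 * 3 ^ (N + 1) * κ + N * ρ) := by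
  have hε0 : 0 < ε := (exp_pos _).trans_le hε
  have hew : 1 ≤ exp w := one_le_exp (by linarith)
  obtain ⟨k, hk1, hk2⟩ : ∃ k : ℕ, 2 * w + 2 ≤ k ∧ k ≤ 5 * w :=
    ⟨⌈2 * w + 2⌉₊, Nat.le_ceil _, by linarith [Nat.ceil_lt_add_one (show 0 ≤ 2 * w + 2 by linarith)]⟩
  have hk0 : (0 : ℝ) < k := by linarith
  have hlog : log (8 * exp w + 2) ≤ 4 * w := by
    rw [log_le_iff_le_exp (by positivity), show 4 * w = 3 * w + w by ring, exp_add]
    have h1 : (10 : ℝ) ≤ exp (3 * w) := by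
      have h2 := add_one_le_exp w
      rw [show 3 * w = w + w + w by ring, exp_add, exp_add]
      have h3 : exp 1 ≤ exp w := exp_le_exp.2 hw
      have h4 := exp_one_gt_d9
      have h5 : 7 ≤ exp w * exp w := by nlinarith
      nlinarith
    nlinarith
  have hlog0 : 0 ≤ log (8 * exp w + 2) := log_nonneg (by linarith)
  have hw5 : 1 ≤ w ^ 4 / ε ^ 2 := by
    rw [le_div_iff₀ (by positivity)]
    nlinarith [one_le_pow₀ (n := 4) hw, pow_le_one₀ (n := 2) hε0.le hε1]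
  obtain ⟨m, hm1, hm2⟩ : ∃ m : ℕ, (log (8 * exp w + 2) / (ε / (16 * k))) ^ 2 ≤ m ∧
      m ≤ 102401 * (w ^ 4 / ε ^ 2) := by
    refine ⟨⌈_⌉₊, Nat.le_ceil _, (Nat.ceil_lt_add_one (by positivity)).le.trans ?_⟩
    have h1 : (log (8 * exp w + 2) / (ε / (16 * k))) ^ 2 ≤ (4 * w / (ε / (16 * (5 * w)))) ^ 2 := by
      gcongr
    have h2 : (4 * w / (ε / (16 * (5 * w)))) ^ 2 = 102400 * (w ^ 4 / ε ^ 2) := by
      field_simp; norm_num
    linarith
  obtain ⟨n, hn, l, h1, h2, h3⟩ := walmost_periods hG hα hμ hf hS X hK hL hew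
    (ε := ε / (16 * k)) (by positivity) k hm1 (N := N) (by
      rw [log_mul (by norm_num) (by positivity), log_pow, log_exp]
      have h4 : log 4 ≤ 2 := by
        rw [show (4 : ℝ) = 2 ^ 2 by norm_num, log_pow]
        push_cast; linarith [log_two_lt_d9]
      have h5 : (m : ℝ) * w ≤ 102401 * (w ^ 4 / ε ^ 2) * w := by gcongr
      have h6 : 2 ^ 22 * w ^ 5 / ε ^ 2 = 2 ^ 22 * (w ^ 4 / ε ^ 2 * w) := by ring
      have h7 : 1 ≤ w ^ 4 / ε ^ 2 * w := by nlinarith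
      nlinarith)
  refine ⟨n, hn, l, h1, h2, fun x hx t ht κ ρ hκ hρ0 hρ =>
    (h3 x hx t ht κ ρ hκ hρ0 hρ).trans ?_⟩
  have h4 : 4 * k * (ε / (16 * k)) = ε / 4 := by field_simp; norm_num
  have h5 : exp w * (2 / 4 ^ k) ≤ ε / 4 := by
    have h6 : exp (k : ℝ) ≤ 4 ^ k := by
      rw [← mul_one (k : ℝ), exp_nat_mul]
      gcongr
      linarith [exp_one_lt_d9]
    have h7 : 8 * exp w * exp w ≤ 4 ^ k := by
      obtain ⟨j, rfl⟩ : ∃ j, k = j + 2 := ⟨k - 2, by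
        have : (2 : ℝ) ≤ k := by linarith
        have : 2 ≤ k := by exact_mod_cast this
        omega⟩
      have h8 : exp (j : ℝ) ≤ 4 ^ j := by
        rw [← mul_one (j : ℝ), exp_nat_mul]
        gcongr
        linarith [exp_one_lt_d9]
      have h9 : exp w * exp w ≤ exp (j : ℝ) := by
        rw [← exp_add]
        push_cast at hk1
        exact exp_le_exp.2 (by linarith)
      rw [pow_add]
      nlinarith [exp_pos (j : ℝ)]
    have h8 : exp (-w) * exp w = 1 := by rw [← exp_add]; simp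
    rw [← mul_div_assoc, div_le_div_iff₀ (by positivity) (by norm_num)]
    have h9 : exp (-w) * (8 * exp w * exp w) ≤ ε * 4 ^ k := by gcongr
    nlinarith
  rw [h4, mul_add]
  linarith

theorem pr_unif (hA : A.Nonempty) : Pr A fun _ => (#A : ℝ)⁻¹ :=
  ⟨fun _ _ => by positivity, by
    rw [sum_const, nsmul_eq_mul, mul_inv_cancel₀ (by exact_mod_cast hA.card_pos.ne')]⟩

theorem fn_ind (L : Finset G) : Fn L (ind L) := ⟨ind_nonneg L, ind_le_one L, fun _ h => if_neg h⟩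

theorem wcv3_unif (A M L : Finset G) (x : G) :
    wcv3 A (fun _ => (#A : ℝ)⁻¹) M (fun _ => (#M : ℝ)⁻¹) (ind L) x = cv3 A M L x := by
  simp only [wcv3, wcv, cv3, cv, ← mul_sum, div_eq_inv_mul]

/-! ### characters of lattices -/

/-- the character `x ↦ e(θ · x)` of `ℤ^ι` -/
def lch {ι : Type*} [Fintype ι] (θ : ι → ℝ) : AddChar (ι → ℤ) ℂ where
  toFun x := Complex.exp (2 * π * Complex.I * (∑ i, θ i * x i : ℝ))
  map_zero_eq_one' := by simp
  map_add_eq_mul' x y := by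
    rw [← Complex.exp_add]
    congr 1
    simp only [Pi.add_apply, Int.cast_add, mul_add, sum_add_distrib, Complex.ofReal_add]

theorem lch_apply {ι : Type*} [Fintype ι] (θ : ι → ℝ) (x : ι → ℤ) :
    lch θ x = Complex.exp (2 * π * Complex.I * (∑ i, θ i * x i : ℝ)) := rfl

theorem norm_lch {ι : Type*} [Fintype ι] (θ : ι → ℝ) (x : ι → ℤ) : ‖lch θ x‖ = 1 := by
  rw [lch_apply, show 2 * π * Complex.I * (∑ i, θ i * x i : ℝ) =
    ((2 * π * ∑ i, θ i * x i : ℝ) : ℂ) * Complex.I by push_cast; ring,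
    Complex.norm_exp_ofReal_mul_I]

theorem norm_lch_sub_one_le {ι : Type*} [Fintype ι] (θ : ι → ℝ) (x : ι → ℤ) (z : ℤ) :
    ‖lch θ x - 1‖ ≤ 2 * π * |∑ i, θ i * x i - z| := by
  have h1 : lch θ x = Complex.exp (Complex.I * (2 * π * (∑ i, θ i * x i - z) : ℝ)) := by
    rw [lch_apply, ← mul_one (Complex.exp (Complex.I * _)), ← Complex.exp_int_mul_two_pi_mul_I z,
      ← Complex.exp_add]
    congr 1
    push_cast
    ring
  rw [h1]
  refine (Real.norm_exp_I_mul_ofReal_sub_one_le).trans (le_of_eq ?_)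
  rw [Real.norm_eq_abs, abs_mul, abs_of_pos (by positivity)]

theorem sep_lattice {ι : Type*} [Fintype ι] [DecidableEq ι] :
    Sep (ι → ℤ) (Set.range lch) := fun D => by
  obtain ⟨Q, hQ0, hQ⟩ : ∃ Q : ℕ, 0 < Q ∧ ∀ z ∈ D, ∀ i, (z i).natAbs < Q :=
    ⟨D.sup (fun z => univ.sup fun i => (z i).natAbs) + 1, Nat.succ_pos _, fun z hz i =>
      Nat.lt_succ_of_le ((le_sup (f := fun i => (z i).natAbs) (mem_univ i)).trans
        (le_sup (f := fun z : ι → ℤ => univ.sup fun i => (z i).natAbs) hz))⟩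
  have : NeZero Q := ⟨hQ0.ne'⟩
  let e := (Fintype.equivFin (ι → Fin Q)).symm
  refine ⟨_, fun ω => lch fun i => ((e ω i : ℕ) : ℝ) / Q, fun _ => ⟨_, rfl⟩,
    fun _ _ => norm_lch _ _, Fintype.card_pos, fun z hz hz0 => ?_⟩
  rw [e.sum_comp fun a : ι → Fin Q => lch (fun i => ((a i : ℕ) : ℝ) / Q) z]
  have h1 : ∀ a : ι → Fin Q, lch (fun i => ((a i : ℕ) : ℝ) / Q) z =
      ∏ i, Complex.exp (2 * π * Complex.I * (z i / Q)) ^ (a i : ℕ) := fun a => by
    simp only [lch_apply, ← Complex.exp_nat_mul, ← Complex.exp_sum]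
    congr 1
    push_cast
    rw [mul_sum]
    exact sum_congr rfl fun i _ => by ring
  simp only [h1]
  rw [← Fintype.piFinset_univ, ← prod_univ_sum (fun _ : ι => (univ : Finset (Fin Q)))
    fun i (j : Fin Q) => Complex.exp (2 * π * Complex.I * (z i / Q)) ^ (j : ℕ)]
  obtain ⟨i, hi⟩ := Function.ne_iff.1 hz0
  refine prod_eq_zero (mem_univ i) ?_
  have hQ' : (Q : ℂ) ≠ 0 := by exact_mod_cast hQ0.ne'
  have h2 : Complex.exp (2 * π * Complex.I * (z i / Q)) ≠ 1 := by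
    rw [Ne, Complex.exp_eq_one_iff]
    rintro ⟨n, hn⟩
    have h3 : (z i : ℂ) = n * Q := by
      have h4 := Complex.two_pi_I_ne_zero
      field_simp at hn
      rw [hn]; ring
    have h5 : z i = n * Q := by exact_mod_cast h3
    have h6 := hQ z hz i
    rw [h5, Int.natAbs_mul, Int.natAbs_natCast] at h6
    have h7 : n.natAbs = 0 := by
      by_contra h8
      nlinarith [Nat.pos_of_ne_zero h8]
    exact hi (by rw [h5, Int.natAbs_eq_zero.1 h7, zero_mul]; rfl)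
  rw [Fin.sum_univ_eq_sum_range (fun j => Complex.exp (2 * π * Complex.I * (z i / Q)) ^ j),
    geom_sum_eq h2, ← Complex.exp_nat_mul,
    show (Q : ℂ) * (2 * π * Complex.I * (z i / Q)) = z i * (2 * π * Complex.I) by field_simp,
    Complex.exp_int_mul_two_pi_mul_I, sub_self, zero_div]

end Crest.Agent.T49.San
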