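import Crest.Agent.T49.SanCS_66
import Crest.Agent.T49.SanCh_66

/-!
# Row 49 (helper66): almost periods along Bohr sets and the (local, popular)
Bogolyubov–Ruzsa lemma with the quasi-polynomial bounds of Sanders
-/

set_option autoImplicit false
set_option linter.unusedSectionVars false

noncomputable section

namespace Crest.Agent.T49.San

open Finset Real
open scoped Pointwise

variable {G : Type*} [AddCommGroup G] [DecidableEq G]

/-- a finite family of unitary characters which is orthogonal on `D` -/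
structure Orth {N : ℕ} (χ : Fin N → AddChar G ℂ) (D : Finset G) : Prop where
  unit : ∀ ω z, ‖χ ω z‖ = 1
  pos : 0 < N
  sum_eq : ∀ z ∈ D, z ≠ 0 → ∑ ω, χ ω z = 0

/-- `G` has enough characters in the class `𝒞` -/
def Sep (G : Type*) [AddCommGroup G] (𝒞 : Set (AddChar G ℂ)) : Prop :=
  ∀ D : Finset G, ∃ (N : ℕ) (χ : Fin N → AddChar G ℂ), (∀ ω, χ ω ∈ 𝒞) ∧ Orth χ D

theorem sep_finite [Finite G] : Sep G Set.univ := fun D => by
  have := Fintype.ofFinite G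
  let e := (Fintype.equivFin (AddChar G ℂ)).symm
  refine ⟨_, e, fun _ => trivial, fun ω z => AddChar.norm_apply _ _, Fintype.card_pos,
    fun z _ hz => ?_⟩
  rw [e.sum_comp fun ψ => ψ z, AddChar.sum_apply_eq_ite, if_neg hz]

theorem map_neg_eq_conj {ψ : AddChar G ℂ} (h : ∀ z, ‖ψ z‖ = 1) (z : G) :
    ψ (-z) = (starRingEnd ℂ) (ψ z) := by
  rw [AddChar.map_neg_eq_inv, Complex.inv_eq_conj (h z)]

theorem sum_sum_sub {ψ : AddChar G ℂ} (h : ∀ z, ‖ψ z‖ = 1) {ι : Type*} (s : Finset ι)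
    (φ : ι → G) : ∑ i ∈ s, ∑ j ∈ s, ψ (φ i - φ j) = ((‖∑ i ∈ s, ψ (φ i)‖ ^ 2 : ℝ) : ℂ) := by
  rw [← Complex.normSq_eq_norm_sq, ← Complex.mul_conj, map_sum, sum_mul_sum]
  refine sum_congr rfl fun i _ => sum_congr rfl fun j _ => ?_
  rw [sub_eq_add_neg, AddChar.map_add_eq_mul, map_neg_eq_conj h]

variable {N : ℕ} {χ : Fin N → AddChar G ℂ} {D : Finset G}

theorem Orth.ite (h : Orth χ D) {z : G} (hz : z ∈ D) :
    ∑ ω, χ ω z = if z = 0 then (N : ℂ) else 0 := by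
  split_ifs with h0
  · simp [h0]
  · exact h.sum_eq z hz h0

/-- Parseval -/
theorem Orth.parseval (h : Orth χ D) {ι : Type*} {s : Finset ι} {φ : ι → G}
    (hφ : Set.InjOn φ s) (hD : ∀ i ∈ s, ∀ j ∈ s, φ i - φ j ∈ D) :
    ∑ ω, ‖∑ i ∈ s, χ ω (φ i)‖ ^ 2 = N * #s := by
  classical
  have h1 : ((∑ ω, ‖∑ i ∈ s, χ ω (φ i)‖ ^ 2 : ℝ) : ℂ) = N * #s := by
    rw [Complex.ofReal_sum]
    simp only [← sum_sum_sub (h.unit _)]
    rw [sum_comm, mul_comm, ← nsmul_eq_mul, ← sum_const]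
    refine sum_congr rfl fun i hi => ?_
    rw [sum_comm, sum_eq_single_of_mem i hi fun j hj hne => ?_]
    · simp
    · exact h.sum_eq _ (hD i hi j hj) fun h0 => hne (hφ hi hj (sub_eq_zero.1 h0)).symm
  exact_mod_cast h1

/-- the Fourier coefficients of the triple convolution -/
def coef (χ : Fin N → AddChar G ℂ) (A M L : Finset G) (ω : Fin N) : ℂ :=
  (∑ a ∈ A, χ ω (-a)) * (∑ y ∈ M, χ ω (-y)) * (∑ l ∈ L, χ ω (-l)) / (N * #A * #M)

theorem Orth.cv3_eq (h : Orth χ D) {A M L : Finset G} {w : G}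
    (hD : ∀ a ∈ A, ∀ y ∈ M, ∀ l ∈ L, w - y - a - l ∈ D) :
    (cv3 A M L w : ℂ) = ∑ ω, coef χ A M L ω * χ ω w := by
  have hN : (N : ℂ) ≠ 0 := by exact_mod_cast h.pos.ne'
  have h1 : ∀ a ∈ A, ∀ y ∈ M, (ind L (w - y - a) : ℂ) =
      (∑ ω, ∑ l ∈ L, χ ω (w - y - a - l)) / N := fun a ha y hy => by
    rw [sum_comm, sum_congr rfl fun l hl => h.ite (hD a ha y hy l hl), eq_div_iff hN]
    simp only [sub_eq_zero, sum_ite_eq, ind]
    split_ifs <;> simp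
  have h2 : (cv3 A M L w : ℂ) =
      (∑ y ∈ M, ∑ a ∈ A, ∑ ω, ∑ l ∈ L, χ ω (w - y - a - l)) / (N * #A * #M) := by
    simp only [cv3, cv]
    push_cast
    rw [sum_congr rfl fun y hy => by rw [sum_congr rfl fun a ha => h1 a ha y hy]]
    simp only [← sum_div]
    rw [div_div, div_div, mul_assoc]
  rw [h2]
  simp only [coef, div_mul_eq_mul_div]
  rw [← sum_div]
  congr 1
  rw [sum_congr rfl fun y _ => sum_comm, sum_comm]
  refine sum_congr rfl fun ω _ => ?_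
  rw [sum_comm, sum_mul_sum, sum_mul, sum_mul]
  refine sum_congr rfl fun a _ => ?_
  rw [sum_mul, sum_mul]
  refine sum_congr rfl fun y _ => ?_
  rw [mul_sum, sum_mul]
  refine sum_congr rfl fun l _ => ?_
  simp only [← AddChar.map_add_eq_mul]
  congr 1
  abel

theorem norm_sum_char_le {ψ : AddChar G ℂ} (h : ∀ z, ‖ψ z‖ = 1) {ι : Type*} (s : Finset ι)
    (φ : ι → G) : ‖∑ i ∈ s, ψ (φ i)‖ ≤ #s :=
  (norm_sum_le _ _).trans (by simp [h])

theorem Orth.sum_coef_le (h : Orth χ D) {A M L : Finset G} (hA : A.Nonempty) (hM : M.Nonempty)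
    (hDM : ∀ y ∈ M, ∀ y' ∈ M, -y - -y' ∈ D) (hDL : ∀ y ∈ L, ∀ y' ∈ L, -y - -y' ∈ D) {K' : ℝ}
    (hL : (#L : ℝ) ≤ K' * #M) (hK : 1 ≤ K') : ∑ ω, ‖coef χ A M L ω‖ ≤ K' := by
  have hc : (0 : ℝ) < #A := by exact_mod_cast hA.card_pos
  have hcM : (0 : ℝ) < #M := by exact_mod_cast hM.card_pos
  have hN : (0 : ℝ) < N := by exact_mod_cast h.pos
  have h1 := h.parseval (φ := fun y => -y) (neg_injective.injOn) hDM
  have h2 := h.parseval (φ := fun y => -y) (neg_injective.injOn) hDL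
  have h3 : ∀ ω ∈ (univ : Finset (Fin N)), ‖coef χ A M L ω‖ ≤
      (‖∑ y ∈ M, χ ω (-y)‖ ^ 2 + ‖∑ l ∈ L, χ ω (-l)‖ ^ 2) / (2 * N * #M) := fun ω _ => by
    rw [coef, norm_div, norm_mul, norm_mul, norm_mul, norm_mul, Complex.norm_natCast,
      Complex.norm_natCast, Complex.norm_natCast, div_le_div_iff₀ (by positivity) (by positivity)]
    have h4 := norm_sum_char_le (h.unit ω) A fun a => -a
    have h5 := two_mul_le_add_sq ‖∑ y ∈ M, χ ω (-y)‖ ‖∑ l ∈ L, χ ω (-l)‖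
    calc _ = ‖∑ a ∈ A, χ ω (-a)‖ * (2 * ‖∑ y ∈ M, χ ω (-y)‖ * ‖∑ l ∈ L, χ ω (-l)‖) *
          (N * #M) := by ring
      _ ≤ #A * (‖∑ y ∈ M, χ ω (-y)‖ ^ 2 + ‖∑ l ∈ L, χ ω (-l)‖ ^ 2) * (N * #M) := by gcongr
      _ = _ := by ring
  refine (sum_le_sum h3).trans ?_
  rw [← sum_div, sum_add_distrib, h1, h2, div_le_iff₀ (by positivity)]
  nlinarith [mul_le_mul_of_nonneg_left hL hN.le, mul_le_mul_of_nonneg_left hK (mul_pos hN hcM).le]

theorem abs_iter {F : G → ℝ} {P : Finset (G × G)} {η : ℝ}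
    (h : ∀ p ∈ P, ∀ x, |F (x + (p.1 - p.2)) - F x| ≤ η) {k : ℕ} (u : Fin k → G × G)
    (hu : ∀ i, u i ∈ P) (x : G) : |F (x + ∑ i, ((u i).1 - (u i).2)) - F x| ≤ k * η := by
  induction k generalizing x with
  | zero => simp
  | succ k ih =>
    rw [Fin.sum_univ_succ, ← add_assoc]
    have h1 := ih (fun i => u i.succ) (fun i => hu _) (x + ((u 0).1 - (u 0).2))
    have h2 := h _ (hu 0) x
    rw [abs_le] at h1 h2 ⊢
    push_cast
    constructor <;> linarith [h1.1, h1.2, h2.1, h2.2]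

theorem map_sum_char (ψ : AddChar G ℂ) {ι : Type*} (s : Finset ι) (φ : ι → G) :
    ψ (∑ i ∈ s, φ i) = ∏ i ∈ s, ψ (φ i) := by
  classical
  induction s using Finset.induction_on with
  | empty => simp
  | insert a s ha ih => rw [sum_insert ha, prod_insert ha, AddChar.map_add_eq_mul, ih]

/-- **almost periods along Bohr sets** (Sanders, Schoen–Sisask), local form -/
theorem almost_periods {𝒞 : Set (AddChar G ℂ)} (hG : Sep G 𝒞) {A M S : Finset G}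
    (hA : A.Nonempty) (hM : M.Nonempty) (hS : S.Nonempty) (L X : Finset G) {K K' ε : ℝ}
    (hK : (#(A + S) : ℝ) ≤ K * #A) (hL : (#L : ℝ) ≤ K' * #M) (hK' : 1 ≤ K') (hε : 0 < ε)
    (k : ℕ) {m N : ℕ} (hm : (log (8 * K' + 2) / ε) ^ 2 ≤ m) (hN : 32 * log (4 * K ^ m) ≤ N) :
    ∃ n ≤ N, ∃ l : Fin n → AddChar G ℂ, (∀ i, l i ∈ 𝒞) ∧ (∀ i z, ‖l i z‖ = 1) ∧
      ∀ x ∈ X, ∀ t, x + t ∈ X → ∀ κ ρ : ℝ, (#(S.filter fun s => s + t ∉ S) : ℝ) ≤ κ * #S →
        0 ≤ ρ → (∀ i, ‖l i t - 1‖ ≤ ρ) → |cv3 A M L (x + t) - cv3 A M L x| ≤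
          4 * k * ε + K' * (2 * 3 ^ (N + 1) * κ + N * ρ + 2 / 4 ^ k) := by
  obtain ⟨T, hTS, hTc, hT⟩ := croot_sisask hA hM L hK hL hε hm hS
  have hSc : (0 : ℝ) < #S := by exact_mod_cast hS.card_pos
  have hTn : T.Nonempty := by
    rw [nonempty_iff_ne_empty]
    rintro rfl
    simp only [card_empty, Nat.cast_zero, mul_zero] at hTc
    linarith
  have hT0 : (0 : ℝ) < #T := by exact_mod_cast hTn.card_pos
  set U := Fintype.piFinset fun _ : Fin k => T ×ˢ T with hU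
  set d : (Fin k → G × G) → G := fun u => ∑ i, ((u i).1 - (u i).2) with hd
  obtain ⟨N', χ, hχ, h⟩ := hG (((X ×ˢ U) ×ˢ A ×ˢ M ×ˢ L).image
    (fun q => q.1.1 + d q.1.2 - q.2.2.1 - q.2.1 - q.2.2.2) ∪
    ((M ×ˢ M).image (fun q => -q.1 - -q.2) ∪ (L ×ˢ L).image fun q => -q.1 - -q.2))
  obtain ⟨n, hn, l, hl⟩ := chang_ann hTS hTn hTc (δ := 1 / 2) (by norm_num) χ h.unit (N := N)
    (by rw [show 2 * (2 * K ^ m) = 4 * K ^ m by ring]; linarith)
  refine ⟨n, hn, fun i => χ (l i), fun i => hχ _, fun i => h.unit _, ?_⟩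
  intro x hx t hxt κ ρ hκ hρ0 hρ
  have hκ0 : 0 ≤ κ := by
    by_contra h0
    have := mul_neg_of_neg_of_pos (not_le.1 h0) hSc
    linarith [Nat.cast_nonneg (α := ℝ) #(S.filter fun s => s + t ∉ S)]
  set ν := 2 * 3 ^ (N + 1) * κ + N * ρ with hν
  have hν0 : 0 ≤ ν := by positivity
  have hUc : (#U : ℝ) = ((#T : ℝ) ^ 2) ^ k := by simp [hU, sq]
  have hU0 : (0 : ℝ) < #U := by rw [hUc]; positivity
  have e1 : ∀ w ∈ X, ∀ u ∈ U, (cv3 A M L (w + d u) : ℂ) =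
      ∑ ω, coef χ A M L ω * χ ω (w + d u) := fun w hw u hu =>
    h.cv3_eq fun a ha y hy l hl => mem_union_left _ (mem_image.2 ⟨((w, u), a, y, l),
      mem_product.2 ⟨mem_product.2 ⟨hw, hu⟩, mem_product.2 ⟨ha, mem_product.2 ⟨hy, hl⟩⟩⟩, rfl⟩)
  have e2 : ∀ ω, ∑ u ∈ U, χ ω (d u) = (((‖∑ s ∈ T, χ ω s‖ ^ 2) ^ k : ℝ) : ℂ) := fun ω => by
    simp only [hd, map_sum_char]
    rw [← prod_univ_sum (fun _ : Fin k => T ×ˢ T) fun _ p => χ ω (p.1 - p.2), prod_const,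
      card_univ, Fintype.card_fin, sum_product' (f := fun a b => χ ω (a - b)),
      sum_sum_sub (h.unit ω) T fun s => s, ← Complex.ofReal_pow]
  have e3 : ((∑ u ∈ U, (cv3 A M L (x + t + d u) - cv3 A M L (x + d u)) : ℝ) : ℂ) =
      ∑ ω, coef χ A M L ω * χ ω x *
        ((χ ω t - 1) * (((‖∑ s ∈ T, χ ω s‖ ^ 2) ^ k : ℝ) : ℂ)) := by
    rw [Complex.ofReal_sum, sum_congr rfl fun u hu => by
      rw [Complex.ofReal_sub, e1 _ hxt u hu, e1 _ hx u hu, ← sum_sub_distrib], sum_comm]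
    refine sum_congr rfl fun ω _ => ?_
    rw [← e2, mul_sum, mul_sum]
    refine sum_congr rfl fun u _ => ?_
    simp only [AddChar.map_add_eq_mul]
    ring
  have b1 : ∀ ω, ‖(χ ω t - 1) * (((‖∑ s ∈ T, χ ω s‖ ^ 2) ^ k : ℝ) : ℂ)‖ ≤
      (ν + 2 / 4 ^ k) * #U := fun ω => by
    rw [norm_mul, Complex.norm_real, norm_of_nonneg (by positivity), hUc]
    by_cases hω : 1 / 2 * (#T : ℝ) ≤ ‖∑ s ∈ T, χ ω s‖
    · have h1 := hl ω hω t κ ρ hκ hρ0 hρ
      have h2 := norm_sum_char_le (h.unit ω) T fun s => s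
      have h3 : (0 : ℝ) ≤ 2 / 4 ^ k := by positivity
      gcongr
      linarith
    · have h1 : ‖χ ω t - 1‖ ≤ 2 := (norm_sub_le _ _).trans (by rw [h.unit, norm_one]; norm_num)
      have h2 : (‖∑ s ∈ T, χ ω s‖ ^ 2) ^ k ≤ ((1 / 2 * (#T : ℝ)) ^ 2) ^ k := by
        gcongr
        exact (not_le.1 hω).le
      calc _ ≤ 2 * ((1 / 2 * (#T : ℝ)) ^ 2) ^ k := by gcongr
        _ = 2 / 4 ^ k * ((#T : ℝ) ^ 2) ^ k := by
          rw [mul_pow, mul_pow, show (1 / 2 : ℝ) ^ 2 = 4⁻¹ by norm_num, inv_pow]; ring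
        _ ≤ _ := by gcongr; linarith
  have b2 : |∑ u ∈ U, (cv3 A M L (x + t + d u) - cv3 A M L (x + d u))| ≤
      K' * ((ν + 2 / 4 ^ k) * #U) := by
    rw [← Real.norm_eq_abs, ← Complex.norm_real, e3]
    refine (norm_sum_le _ _).trans ((sum_le_sum (g := fun ω =>
      ‖coef χ A M L ω‖ * ((ν + 2 / 4 ^ k) * #U)) fun ω _ => ?_).trans ?_)
    · rw [norm_mul, norm_mul, h.unit, mul_one]
      gcongr
      exact b1 ω
    · rw [← sum_mul]
      gcongr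
      exact h.sum_coef_le hA hM (fun y hy y' hy' => mem_union_right _ (mem_union_left _
        (mem_image.2 ⟨(y, y'), mem_product.2 ⟨hy, hy'⟩, rfl⟩))) (fun y hy y' hy' =>
        mem_union_right _ (mem_union_right _
        (mem_image.2 ⟨(y, y'), mem_product.2 ⟨hy, hy'⟩, rfl⟩))) hL hK'
  have b3 : ∀ u ∈ U, ∀ w, |cv3 A M L (w + d u) - cv3 A M L w| ≤ k * (2 * ε) := fun u hu w =>
    abs_iter (P := T ×ˢ T) (fun p hp => hT _ (mem_product.1 hp).1 _ (mem_product.1 hp).2) u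
      (Fintype.mem_piFinset.1 hu) w
  have b4 : |∑ u ∈ U, ((cv3 A M L (x + t) - cv3 A M L x) -
      (cv3 A M L (x + t + d u) - cv3 A M L (x + d u)))| ≤ #U * (4 * k * ε) := by
    refine (abs_sum_le_sum_abs _ _).trans ?_
    rw [← nsmul_eq_mul]
    refine sum_le_card_nsmul _ _ _ fun u hu => ?_
    have h1 := abs_le.1 (b3 u hu (x + t))
    have h2 := abs_le.1 (b3 u hu x)
    rw [abs_le]
    constructor <;> linarith [h1.1, h1.2, h2.1, h2.2]
  rw [sum_sub_distrib, sum_const, nsmul_eq_mul] at b4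
  refine le_of_mul_le_mul_left ?_ hU0
  rw [← abs_of_pos hU0, ← abs_mul, abs_of_pos hU0]
  rw [abs_le] at b2 b4 ⊢
  constructor <;> nlinarith [b2.1, b2.2, b4.1, b4.2]

/-- the number of representations `t = (a' - b') - (a - b)` -/
def rep (A B : Finset G) (t : G) : ℕ :=
  #(((A ×ˢ B) ×ˢ A ×ˢ B).filter fun q => t + (q.1.1 - q.1.2) = q.2.1 - q.2.2)

theorem cv3_neg (A B L : Finset G) (x : G) : cv3 B (-A) L x =
    (#((A ×ˢ B).filter fun p => x + (p.1 - p.2) ∈ L) : ℝ) / (#A * #B) := by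
  rw [cv3, card_neg, sum_neg_index]
  simp only [cv]
  rw [← sum_div, div_div, mul_comm, card_filter, sum_product]
  push_cast
  congr 1
  refine sum_congr rfl fun a _ => sum_congr rfl fun b _ => ?_
  rw [ind, sub_neg_eq_add, add_sub_assoc]

/-- the rank bound -/
def rk (w : ℕ) : ℕ := 2 ^ 24 * w ^ 5

/-- **popular Bogolyubov–Ruzsa lemma with the bounds of Sanders, local form** -/
theorem sanders {𝒞 : Set (AddChar G ℂ)} (hG : Sep G 𝒞) {A B S : Finset G}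
    (hA : A.Nonempty) (hB : B.Nonempty) (hS : S.Nonempty) {w : ℕ} (hw : 1 ≤ w)
    (hK : #(B + S) ≤ 2 ^ w * #B) (hL : #(A - B) ≤ 2 ^ w * #A) :
    ∃ n ≤ rk w, ∃ l : Fin n → AddChar G ℂ, (∀ i, l i ∈ 𝒞) ∧ (∀ i z, ‖l i z‖ = 1) ∧
      ∀ (t : G) (κ ρ : ℝ), (#(S.filter fun s => s + t ∉ S) : ℝ) ≤ κ * #S →
        0 ≤ ρ → (∀ i, ‖l i t - 1‖ ≤ ρ) → 2 ^ w * (2 * 3 ^ (rk w + 1) * κ + rk w * ρ) ≤ 1 / 16 →
        #A ^ 2 * #B ^ 2 ≤ 8 * #(A - B) * rep A B t := by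
  set r : G → ℕ := fun z => #((A ×ˢ B).filter fun p => p.1 - p.2 = z) with hr
  set L := (A - B).filter fun z => #A * #B ≤ 2 * #(A - B) * r z with hLd
  have hc : (0 : ℝ) < #A := by exact_mod_cast hA.card_pos
  have hcB : (0 : ℝ) < #B := by exact_mod_cast hB.card_pos
  have hw' : (1 : ℝ) ≤ w := by exact_mod_cast hw
  have h2w : (1 : ℝ) ≤ 2 ^ w := one_le_pow₀ (by norm_num)
  have hl2 : log 2 ≤ 1 := by linarith [log_two_lt_d9]
  obtain ⟨n, hn, l, hl1, hl2, hl⟩ := almost_periods hG hB hA.neg hS L (insert 0 (S - S))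
    (K := 2 ^ w) (K' := 2 ^ w) (ε := 1 / (32 * (w + 3))) (by exact_mod_cast hK)
    (by
      rw [card_neg]
      exact_mod_cast (card_filter_le _ _).trans hL) h2w (by positivity) (w + 3)
    (m := (32 * (w + 3) * (w + 4)) ^ 2) (N := rk w)
    (by
      push_cast
      have h1 : log (8 * 2 ^ w + 2) ≤ w + 4 := by
        have h2 : log (8 * 2 ^ w + 2) ≤ log (2 ^ (w + 4)) :=
          log_le_log (by positivity) (by rw [pow_add]; linarith)
        rw [log_pow] at h2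
        push_cast at h2
        nlinarith
      have h3 : 0 ≤ log (8 * 2 ^ w + 2) := log_nonneg (by linarith)
      rw [div_div_eq_mul_div, div_one, mul_comm]
      gcongr)
    (by
      rw [← pow_mul, show (4 : ℝ) = 2 ^ 2 by norm_num, ← pow_add, log_pow, rk]
      push_cast
      have h1 : (w : ℝ) * (32 * (w + 3) * (w + 4)) ^ 2 ≤ w * (32 * (4 * w) * (5 * w)) ^ 2 := by
        gcongr <;> linarith
      have h2 : (1 : ℝ) ≤ w ^ 5 := one_le_pow₀ hw'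
      have h3 : (2 + w * (32 * (w + 3) * (w + 4)) ^ 2 : ℝ) * log 2 ≤
          2 + w * (32 * (w + 3) * (w + 4)) ^ 2 := mul_le_of_le_one_right (by positivity) hl2
      nlinarith)
  refine ⟨n, hn, l, hl1, hl2, fun t κ ρ hκ hρ0 hρ hs => ?_⟩
  have hSc : (0 : ℝ) < #S := by exact_mod_cast hS.card_pos
  have ht : t ∈ S - S := by
    by_contra ht
    have h0 : ∀ s ∈ S, s + t ∉ S := fun s hs h => ht (by simpa using sub_mem_sub h hs)
    rw [filter_true_of_mem h0] at hκ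
    have h1 : 1 ≤ κ := by nlinarith
    have h2 : (1 : ℝ) ≤ 3 ^ (rk w + 1) := one_le_pow₀ (by norm_num)
    have h3 : 0 ≤ rk w * ρ := by positivity
    have h4 : 1 ≤ 2 * 3 ^ (rk w + 1) * κ + rk w * ρ := by nlinarith
    nlinarith
  have h1 := hl 0 (mem_insert_self _ _) t (by rw [zero_add]; exact mem_insert_of_mem ht) κ ρ hκ
    hρ0 hρ
  have h2 : (2 : ℝ) ^ w * (2 / 4 ^ (w + 3)) ≤ 1 / 16 := by
    have h3 : (2 : ℝ) ^ w ≤ 4 ^ w := by gcongr; norm_num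
    rw [← mul_div_assoc, div_le_iff₀ (by positivity), pow_add]
    nlinarith
  have h3 : (4 * ((w + 3 : ℕ) : ℝ)) * (1 / (32 * (w + 3))) = 1 / 8 := by
    push_cast; field_simp; norm_num
  rw [h3, mul_add, zero_add, cv3_neg, cv3_neg] at h1
  -- the value at `0`
  have h4 : #A * #B ≤ 2 * #((A ×ˢ B).filter fun p => 0 + (p.1 - p.2) ∈ L) := by
    have h5 := card_filter_add_card_filter_not (s := A ×ˢ B) fun p => 0 + (p.1 - p.2) ∈ L
    rw [card_product] at h5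
    have h6 : #((A ×ˢ B).filter fun p => ¬ 0 + (p.1 - p.2) ∈ L) ≤ ∑ z ∈ (A - B) \ L, r z := by
      refine le_trans (card_le_card ?_) (card_biUnion_le (s := (A - B) \ L)
        (t := fun z => (A ×ˢ B).filter fun p => p.1 - p.2 = z))
      intro p hp
      obtain ⟨h7, h8⟩ := mem_filter.1 hp
      rw [zero_add] at h8
      exact mem_biUnion.2 ⟨_, mem_sdiff.2
        ⟨sub_mem_sub (mem_product.1 h7).1 (mem_product.1 h7).2, h8⟩, mem_filter.2 ⟨h7, rfl⟩⟩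
    have h7 : 2 * #(A - B) * ∑ z ∈ (A - B) \ L, r z ≤ #(A - B) * (#A * #B) := by
      rw [mul_sum]
      refine (sum_le_card_nsmul _ _ (#A * #B) fun z hz => ?_).trans ?_
      · obtain ⟨h8, h9⟩ := mem_sdiff.1 hz
        exact (not_le.1 fun h => h9 (mem_filter.2 ⟨h8, h⟩)).le
      · exact Nat.mul_le_mul_right _ (card_le_card sdiff_subset)
    have h8 : 2 * ∑ z ∈ (A - B) \ L, r z ≤ #A * #B :=
      Nat.le_of_mul_le_mul_left (by linarith) (hA.sub hB).card_pos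
    omega
  have h5 : #A * #B ≤ 4 * #((A ×ˢ B).filter fun p => t + (p.1 - p.2) ∈ L) := by
    have h6 : (#A : ℝ) * #B ≤ 2 * #((A ×ˢ B).filter fun p => 0 + (p.1 - p.2) ∈ L) := by
      exact_mod_cast h4
    have h7 := (abs_le.1 h1).1
    rw [← sub_div, le_div_iff₀ (by positivity)] at h7
    have h8 : (#A : ℝ) * #B ≤ 4 * #((A ×ˢ B).filter fun p => t + (p.1 - p.2) ∈ L) := by
      nlinarith [mul_pos hc hcB]
    exact_mod_cast h8
  have h6 : ∑ p ∈ (A ×ˢ B).filter fun p => t + (p.1 - p.2) ∈ L, r (t + (p.1 - p.2)) ≤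
      rep A B t := by
    rw [rep, card_filter, sum_product]
    refine le_trans (le_of_eq (sum_congr rfl fun p _ => ?_))
      (sum_le_sum_of_subset (filter_subset _ _))
    simp only [hr, card_filter, eq_comm]
  have h7 : #((A ×ˢ B).filter fun p => t + (p.1 - p.2) ∈ L) * (#A * #B) ≤
      2 * #(A - B) * rep A B t := by
    refine le_trans ?_ (Nat.mul_le_mul_left _ h6)
    rw [mul_sum, ← smul_eq_mul]
    exact card_nsmul_le_sum _ _ _ fun p hp => (mem_filter.1 (mem_filter.1 hp).2).2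
  calc #A ^ 2 * #B ^ 2 = (#A * #B) * (#A * #B) := by ring
    _ ≤ (4 * #((A ×ˢ B).filter fun p => t + (p.1 - p.2) ∈ L)) * (#A * #B) := by gcongr
    _ ≤ _ := by nlinarith

end Crest.Agent.T49.San
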