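import Crest.Agent.T49.NilCnt_14

/-!
# Row 49 (helper65): weighted pigeonhole principles and weighted greedy covering
-/

set_option autoImplicit false

noncomputable section

namespace Crest.Agent.T49.Sg

open Finset Crest.Agent.T49.Nil

/-- weighted pigeonhole with exponential densities -/
theorem wpigeon {α β : Type*} {p : α → Prop} {a₀ b₀ X : ℝ} (h : Cnt p (Real.exp b₀))
    {Z : Finset β} (w : β → ℝ) (hw : ∀ z, 0 ≤ w z) (hX : 0 < X)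
    (hZ : Real.exp (-a₀) * X ≤ ∑ z ∈ Z, w z) (r : β → α → Prop)
    (hr : ∀ z ∈ Z, ∃ a, p a ∧ r z a) :
    ∃ a, p a ∧ ∃ Z' ⊆ Z, Real.exp (-(a₀ + b₀)) * X ≤ ∑ z ∈ Z', w z ∧ ∀ z ∈ Z', r z a := by
  have hne : Z.Nonempty := by
    by_contra h0
    rw [not_nonempty_iff_eq_empty.1 h0, sum_empty] at hZ
    exact absurd hZ (not_le.2 (by positivity))
  obtain ⟨a, ha, Z', h1, -, h2, h3⟩ := h.pigeon_wt hne w (fun z _ => hw z) r hr
  refine ⟨a, ha, Z', h1, ?_, h3⟩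
  have h4 := hZ.trans h2
  rw [neg_add, add_comm, Real.exp_add, mul_assoc, Real.exp_neg b₀,
    inv_mul_le_iff₀ (Real.exp_pos _)]
  exact h4

open Classical in
/-- weighted greedy covering -/
theorem wgreedy {A T : Type*} (w : A → ℝ) (hw : ∀ a, 0 ≤ w a) (Q : T → Prop) (G : T → A → Prop)
    {θ ε : ℝ} (n : ℕ) : ∀ Z : Finset A,
    (∀ Z' ⊆ Z, θ ≤ ∑ a ∈ Z', w a →
      ∃ t, Q t ∧ ∃ Z'' ⊆ Z', ε ≤ ∑ a ∈ Z'', w a ∧ ∀ a ∈ Z'', G t a) →
    ∑ a ∈ Z, w a < n * ε →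
    ∃ L : Finset T, #L ≤ n ∧ (∀ t ∈ L, Q t) ∧
      ∑ a ∈ Z.filter (fun a => ¬ ∃ t ∈ L, G t a), w a < θ := by
  induction n with
  | zero =>
    intro Z _ hn
    exact absurd hn (not_lt.2 (by simpa using sum_nonneg fun a _ => hw a))
  | succ n ih =>
    intro Z h hn
    by_cases h0 : ∑ a ∈ Z, w a < θ
    · exact ⟨∅, by simp, by simp,
        lt_of_le_of_lt (sum_le_sum_of_subset_of_nonneg (filter_subset _ _) fun a _ _ => hw a) h0⟩
    obtain ⟨t, ht, Z'', h1, h2, h3⟩ := h Z Subset.rfl (not_lt.1 h0)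
    have h4 : ∑ a ∈ Z \ Z'', w a < n * ε := by
      have := sum_sdiff (f := w) h1
      push_cast at hn
      linarith
    obtain ⟨L, h5, h6, h7⟩ := ih (Z \ Z'') (fun Z' hZ' => h Z' (hZ'.trans sdiff_subset)) h4
    refine ⟨insert t L, (card_insert_le _ _).trans (by omega), fun t' ht' => ?_,
      lt_of_le_of_lt (sum_le_sum_of_subset_of_nonneg (fun a ha => ?_) fun a _ _ => hw a) h7⟩
    · rcases mem_insert.1 ht' with rfl | h8
      exacts [ht, h6 _ h8]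
    · obtain ⟨h8, h9⟩ := mem_filter.1 ha
      refine mem_filter.2 ⟨mem_sdiff.2 ⟨h8, fun h10 => h9 ⟨t, mem_insert_self _ _, h3 a h10⟩⟩, ?_⟩
      rintro ⟨t', h10, h11⟩
      exact h9 ⟨t', mem_insert_of_mem h10, h11⟩

/-- weighted greedy covering for every index, then the pigeonhole principle for tuples -/
theorem wtuple {A T κ : Type*} [Fintype κ] (w : A → ℝ) (hw : ∀ a, 0 ≤ w a) (Q : κ → T → Prop)
    (G : T → A → Prop) {θ ε : ℝ} (Z : Finset A) (hZ : 0 < ∑ a ∈ Z, w a)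
    (hθ : 2 * (Fintype.card κ : ℝ) * θ ≤ ∑ a ∈ Z, w a)
    (h : ∀ i, ∀ Z' ⊆ Z, θ ≤ ∑ a ∈ Z', w a →
      ∃ t, Q i t ∧ ∃ Z'' ⊆ Z', ε ≤ ∑ a ∈ Z'', w a ∧ ∀ a ∈ Z'', G t a)
    {n : ℕ} (hn : ∑ a ∈ Z, w a < n * ε) :
    ∃ t : κ → T, (∀ i, Q i (t i)) ∧ ∃ Z' ⊆ Z,
      ∑ a ∈ Z, w a ≤ 2 * (n : ℝ) ^ Fintype.card κ * ∑ a ∈ Z', w a ∧
      ∀ a ∈ Z', ∀ i, G (t i) a := by
  classical
  choose L hL1 hL2 hL3 using fun i => wgreedy w hw (Q i) G n Z (h i) hn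
  set Z1 := Z.filter fun a => ∀ i, ∃ t ∈ L i, G t a with hZ1
  have h1 : ∑ a ∈ Z, w a ≤ 2 * ∑ a ∈ Z1, w a := by
    have h2 := sum_filter_add_sum_filter_not Z (fun a => ∀ i, ∃ t ∈ L i, G t a) w
    have h3 : ∑ a ∈ Z.filter (fun a => ¬ ∀ i, ∃ t ∈ L i, G t a), w a ≤
        ∑ i, ∑ a ∈ Z.filter (fun a => ¬ ∃ t ∈ L i, G t a), w a := by
      simp only [sum_filter]
      rw [sum_comm]
      refine sum_le_sum fun a _ => ?_
      have h4 : ∀ i ∈ (univ : Finset κ), 0 ≤ if ¬ ∃ t ∈ L i, G t a then w a else 0 :=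
        fun i _ => by split_ifs; exacts [le_rfl, hw a]
      split_ifs with h5
      · exact sum_nonneg h4
      · obtain ⟨i, hi⟩ := not_forall.1 h5
        refine le_trans ?_ (single_le_sum h4 (mem_univ i))
        rw [if_pos hi]
    have h4 : ∑ i, ∑ a ∈ Z.filter (fun a => ¬ ∃ t ∈ L i, G t a), w a ≤ Fintype.card κ * θ := by
      refine (sum_le_card_nsmul _ _ θ fun i _ => ?_).trans (by rw [nsmul_eq_mul, card_univ])
      convert (hL3 i).le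
    linarith
  have hne : Z1.Nonempty := by
    by_contra h0
    rw [not_nonempty_iff_eq_empty.1 h0, sum_empty] at h1
    linarith
  have hc : Cnt (fun t : κ → T => ∀ i, t i ∈ L i) ((n : ℝ) ^ Fintype.card κ) :=
    Cnt.pi fun i => (Cnt.of_finset (L i)).le (by exact_mod_cast hL1 i)
  obtain ⟨t, ht, Z', h2, -, h3, h4⟩ := hc.pigeon_wt hne w (fun a _ => hw a)
    (fun a t => ∀ i, G (t i) a) fun a ha => by
      choose t h5 h6 using (mem_filter.1 ha).2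
      exact ⟨t, h5, h6⟩
  exact ⟨t, fun i => hL2 i _ (ht i), Z', h2.trans (filter_subset _ _), by linarith, h4⟩

/-- the exponential form of `wtuple` -/
theorem wtuple_exp {A T κ : Type*} [Fintype κ] (w : A → ℝ) (hw : ∀ a, 0 ≤ w a)
    (Q : κ → T → Prop) (G : T → A → Prop) {x y u X : ℝ} (hX : 0 < X) (Z : Finset A)
    (hκ : (Fintype.card κ : ℝ) ≤ x) (hy : 0 ≤ y) (hu : 0 ≤ u)
    (hZ : Real.exp (-x) * X ≤ ∑ a ∈ Z, w a) (hZ' : ∑ a ∈ Z, w a ≤ Real.exp u * X)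
    (h : ∀ i, ∀ Z' ⊆ Z, Real.exp (-(3 * x)) * X ≤ ∑ a ∈ Z', w a →
      ∃ t, Q i t ∧ ∃ Z'' ⊆ Z', Real.exp (-y) * X ≤ ∑ a ∈ Z'', w a ∧ ∀ a ∈ Z'', G t a) :
    ∃ t : κ → T, (∀ i, Q i (t i)) ∧ ∃ Z' ⊆ Z,
      Real.exp (-(x + 1 + x * (u + y + 1))) * X ≤ ∑ a ∈ Z', w a ∧ ∀ a ∈ Z', ∀ i, G (t i) a := by
  have e2 : (2 : ℝ) ≤ Real.exp 1 := by linarith [Real.add_one_le_exp (1 : ℝ)]
  have h0 : 0 < ∑ a ∈ Z, w a := lt_of_lt_of_le (by positivity) hZ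
  have h1 : 2 * (Fintype.card κ : ℝ) * (Real.exp (-(3 * x)) * X) ≤ ∑ a ∈ Z, w a := by
    refine le_trans ?_ hZ
    rw [← mul_assoc]
    refine mul_le_mul_of_nonneg_right ?_ hX.le
    have h2 : 2 * x ≤ Real.exp (2 * x) := by linarith [Real.add_one_le_exp (2 * x)]
    calc _ ≤ Real.exp (2 * x) * Real.exp (-(3 * x)) := by gcongr; linarith
      _ = _ := by rw [← Real.exp_add]; congr 1; ring
  have h2 : ∑ a ∈ Z, w a < (⌊Real.exp (u + y)⌋₊ + 1 : ℕ) * (Real.exp (-y) * X) := by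
    refine lt_of_le_of_lt hZ' ?_
    rw [← mul_assoc]
    refine mul_lt_mul_of_pos_right ?_ hX
    have h3 : Real.exp u = Real.exp (u + y) * Real.exp (-y) := by
      rw [← Real.exp_add]; congr 1; ring
    rw [h3]
    push_cast
    exact mul_lt_mul_of_pos_right (Nat.lt_floor_add_one _) (Real.exp_pos _)
  obtain ⟨t, ht, Z', h3, h4, h5⟩ := wtuple w hw Q G Z h0 h1 h h2
  refine ⟨t, ht, Z', h3, ?_, h5⟩
  have h6 : ((⌊Real.exp (u + y)⌋₊ + 1 : ℕ) : ℝ) ≤ Real.exp (u + y + 1) := by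
    have h7 : (⌊Real.exp (u + y)⌋₊ : ℝ) ≤ Real.exp (u + y) := Nat.floor_le (Real.exp_pos _).le
    have h8 : 1 ≤ Real.exp (u + y) := Real.one_le_exp (by linarith)
    rw [Real.exp_add (u + y)]
    push_cast
    nlinarith
  have h7 : ((⌊Real.exp (u + y)⌋₊ + 1 : ℕ) : ℝ) ^ Fintype.card κ ≤
      Real.exp (x * (u + y + 1)) := by
    refine (pow_le_pow_left₀ (by positivity) h6 _).trans ?_
    rw [← Real.exp_nat_mul]
    exact Real.exp_le_exp.2 (mul_le_mul_of_nonneg_right hκ (by linarith))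
  have h8 : 0 ≤ ∑ a ∈ Z', w a := sum_nonneg fun a _ => hw a
  have h9 : Real.exp (-x) * X ≤ Real.exp 1 * Real.exp (x * (u + y + 1)) * ∑ a ∈ Z', w a :=
    hZ.trans (h4.trans (by gcongr))
  refine le_of_mul_le_mul_left (le_trans (le_of_eq ?_) h9)
    (show 0 < Real.exp 1 * Real.exp (x * (u + y + 1)) by positivity)
  rw [← mul_assoc, ← Real.exp_add, ← Real.exp_add]
  congr 2
  ring

end Crest.Agent.T49.Sg
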