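import Crest.Agent.T49.Sg_65
import Crest.Agent.T49.Fr_26
import Crest.Agent.T49.TwAsmA_2

/-!
# Row 49 (helper65): the loop of (D): all the stages, in the form of `Fr_26`
-/

set_option autoImplicit false

noncomputable section

namespace Crest.Agent.T49.Sg

open Finset Crest.Agent.T49.Nil Crest.Agent.T49.Nil.ND Crest.Agent.T49.GI
open Crest.Agent.T49.Gl (Frm fq fw fmu fm pos)
open Crest.Agent.T49.Tw (Cell)
open Crest.Agent.T49.Fr (Par Glue1)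

variable {ι : Type} [Fintype ι] {T : Cell ι}

theorem St.mono {D S j : ℕ} {H0 : (ι → ℤ) → ℝ} {σ R R' : ℝ} {L d dg : ℕ} (hσ : 0 < σ)
    (h : St T D S j H0 σ L R d dg) (hR : R ≤ R') : St T D S j H0 σ L R' d dg := by
  obtain ⟨κ, _, N, κg, _, Ng, gg, Φ, Z, F, P, h1, h2, h3, h4, h5, h6, h7, h8⟩ := h
  have e1 := Real.exp_le_exp.2 hR
  have e2 := Real.exp_le_exp.2 (neg_le_neg hR)
  exact ⟨κ, _, N, κg, _, Ng, gg, Φ, Z, F, P, h1, h2.mono e1, h3, h4.mono e1, h5, h6.mono e1,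
    (mul_le_mul_of_nonneg_right e2 (fmu_pos T D hσ).le).trans h7, fun V hV =>
    ⟨(h8 V hV).1.mono e1, (h8 V hV).2.1,
      (mul_le_mul_of_nonneg_right e2 (by positivity)).trans (h8 V hV).2.2⟩⟩

theorem St0.mono {D S : ℕ} {H0 : (ι → ℤ) → ℝ} {σ R R' : ℝ} {L dg : ℕ} (hσ : 0 < σ)
    (h : St0 T D S H0 σ L R dg) (hR : R ≤ R') : St0 T D S H0 σ L R' dg := by
  obtain ⟨κg, _, Ng, gg, Φ, Z, h3, h4, h5, h6, h7, h8⟩ := h
  have e1 := Real.exp_le_exp.2 hR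
  have e2 := Real.exp_le_exp.2 (neg_le_neg hR)
  exact ⟨κg, _, Ng, gg, Φ, Z, h3, h4.mono e1, h5, h6.mono e1,
    (mul_le_mul_of_nonneg_right e2 (fmu_pos T D hσ).le).trans h7, fun V hV =>
      (mul_le_mul_of_nonneg_right e2 (by positivity)).trans (h8 V hV)⟩

/-- a window of degree `0` is constant -/
theorem St.st0 {D S : ℕ} {H0 : (ι → ℤ) → ℝ} {σ R : ℝ} {L d dg : ℕ}
    (h : St T D S 0 H0 σ L R d dg) : St0 T D S H0 σ L R dg := by
  obtain ⟨κ, _, N, κg, _, Ng, gg, Φ, Z, F, P, -, -, h3, h4, h5, h6, h7, h8⟩ := h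
  refine ⟨κg, _, Ng, gg, Φ, Z, h3, h4, h5, h6, h7, fun V hV => ?_⟩
  obtain ⟨w, -, hs⟩ := h8 V hV
  have hc : ∀ x, F V x = F V 0 := fun x => by
    have := w.nfn.inv x (mem_FA_one x) 0
    rw [Bch.star_zero] at this
    exact_mod_cast this
  simp only [hc, ← mul_sum] at hs
  have h0 : 0 ≤ Real.exp (-R) * (L : ℝ) ^ D := by positivity
  obtain ⟨m0, m1⟩ := w.mem 0
  by_contra hlt
  rw [not_le] at hlt
  rcases le_total 0 (∑ t ∈ pos D L, Φ (Ng.evZ (V.pt t) gg) * H0 (V.pt t)) with hp | hp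
  · nlinarith
  · have := mul_nonpos_of_nonneg_of_nonpos m0 hp
    have e : Real.exp (-R) * (L : ℝ) ^ D = 0 := le_antisymm (hs.trans this) h0
    rcases mul_eq_zero.1 e with e | e
    · exact absurd e (Real.exp_pos _).ne'
    · have hL : #(pos D L) = 0 := by
        rw [card_pos]; exact_mod_cast e
      rw [card_eq_zero.1 hL, sum_empty] at hlt
      linarith

/-- the standing hypotheses at a later stage -/
theorem par_next {s C C' : ℕ} {τ : ℕ → ℝ} {σ σ' R R' : ℝ} {L L' : ℕ} (h : Par T s C τ σ L R)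
    (hC : C' ≤ C) (hC1 : 1 ≤ C) (hR : R ≤ R') (h1 : σ' * L' ≤ 1) (h2 : Real.exp (-R') ≤ σ' * L')
    (h3 : Real.exp (R' ^ C') ≤ L') (h4 : L' ≤ L) : Par T s C' τ σ' L' R' := by
  have hR2 := h.two
  have a0 : (1 : ℝ) ≤ R' ^ C' := one_le_pow₀ (by linarith)
  have a1 : (0 : ℝ) < L' := (Real.exp_pos _).trans_le h3
  have a2 : 1 ≤ Real.log L' := a0.trans ((Real.le_log_iff_exp_le a1).2 h3)
  have a3 : Real.log L' ≤ Real.log L := Real.log_le_log a1 (by exact_mod_cast h4)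
  have a4 : Real.log L' ^ C' ≤ τ (s + 1) :=
    ((pow_le_pow_left₀ (by linarith) a3 _).trans (pow_le_pow_right₀ (by linarith) hC)).trans h.L_le
  refine ⟨h.lev, ?_, by linarith, h.card.trans hR, ?_, h1, h2, h3, a4⟩
  · exact Tw.Asm.reg_mono h.reg hC hC1 (le_trans (by positivity) a4)
  · exact (mul_pos_iff_of_pos_right a1).1 ((Real.exp_pos _).trans_le h2)

/-- the stages `j, j - 1, …, 1` -/
theorem loop_j {s D : ℕ} (hs : 1 ≤ s) (hG : ∀ j, 1 ≤ j → j ≤ s → Glue1 s D j)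
    (hB : Fr.BulkStmt) : ∀ j, j ≤ s → ∃ E : ℕ, ∀ C1 : ℕ, ∃ C : ℕ, ∀ (ι : Type) [Fintype ι] (T : Cell ι)
    (τ : ℕ → ℝ) (σ : ℝ) (L : ℕ) (R : ℝ) (H0 : (ι → ℤ) → ℝ) (d dg : ℕ), Par T s C τ σ L R →
    (d : ℝ) ≤ R → (∀ y, |H0 y| ≤ 1) → St T D s j H0 σ L R d dg →
    ∃ (σ' : ℝ) (L' dg' : ℕ) (R' : ℝ), R ≤ R' ∧ R' ≤ R ^ C ∧ σ ≤ σ' ∧ L' ≤ L ∧
      Par T s C1 τ σ' L' R' ∧ dg' ≤ dg + (d + 2) ^ E ∧ St0 T D s H0 σ' L' R' dg' := by
  intro j
  induction j with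
  | zero =>
    refine fun _ => ⟨0, fun C1 => ⟨C1 + 1, fun ι _ T τ σ L R H0 d dg h _ _ hS =>
      ⟨σ, L, dg, R, le_rfl, le_self_pow₀ (by linarith [h.two]) (by omega), le_rfl, le_rfl,
        par_next h (by omega) (by omega) le_rfl h.σ_le h.le_σ ?_ le_rfl, by omega, hS.st0⟩⟩⟩
    exact (Real.exp_le_exp.2 (Qp.pw_mono h.two (by omega))).trans h.L_ge
  | succ j ih =>
    intro hj
    obtain ⟨Ej, ih⟩ := ih (by omega)
    refine ⟨2 * Ej + 3, fun C1 => ?_⟩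
    obtain ⟨Cj, ih⟩ := ih C1
    obtain ⟨CG, hG⟩ := hG (j + 1) (by omega) hj
    obtain ⟨CB, hB⟩ := hB s D
    obtain ⟨CS, hS⟩ := stageStmt s s D CG hs
    obtain ⟨C', hC⟩ : ∃ C : ℕ, ∀ R : ℝ, 2 ≤ R →
        (R ^ (CB + 1)) ^ CS ≤ R ^ C ∧ ((R ^ (CB + 1)) ^ CS) ^ CG ≤ R ^ C ∧
        (R + R ^ 2 + (R ^ (CB + 1)) ^ CS) ^ Cj + (R ^ (CB + 1)) ^ CS ≤ R ^ C := by qp
    refine ⟨C' + CG + CB + Cj + 1, fun ι _ T τ σ L R H0 d dg h hd hH hSt => ?_⟩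
    have hR := h.two
    obtain ⟨c1, c2, c3⟩ := hC R hR
    have p0 : R ^ C' ≤ R ^ (C' + CG + CB + Cj + 1) := Qp.pw_mono hR (by omega)
    have p1 : R ≤ R ^ (CB + 1) := le_self_pow₀ (by linarith) (by omega)
    have p2 : R ^ CB ≤ R ^ (CB + 1) := Qp.pw_mono hR (by omega)
    have p3 : 0 ≤ (R ^ (CB + 1)) ^ CS := by positivity
    have hL := h.L_ge
    obtain ⟨q, L', q1, q2, q3, q4, hSt'⟩ := hS (R ^ (CB + 1)) (by linarith) ι T j H0 σ L d dg h.lev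
      (h.card.trans p1) (hd.trans p1) hH h.σ_pos h.σ_le
      ((Real.exp_le_exp.2 (c1.trans p0)).trans hL)
      ((hB ι T τ σ L R (par_next h (by omega) (by omega) le_rfl h.σ_le h.le_σ
        ((Real.exp_le_exp.2 (Qp.pw_mono hR (by omega))).trans hL) le_rfl)).mono h.σ_pos p2)
      (fun R1 r1 r2 => hG ι T τ σ L R1 (par_next h (by omega) (by omega) (p1.trans r1) h.σ_le
        ((Real.exp_le_exp.2 (by linarith)).trans h.le_σ)
        ((Real.exp_le_exp.2 (((pow_le_pow_left₀ (by linarith) r2 _).trans c2).trans p0)).trans hL)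
        le_rfl)) (hSt.mono h.σ_pos p1)
    have q1' : (1 : ℝ) ≤ q := by exact_mod_cast q1
    have q4' : (q : ℝ) * L' ≤ L := by exact_mod_cast q4
    have hσ := h.σ_pos
    have l1 : L' ≤ L := le_trans (Nat.le_mul_of_pos_left _ q1) q4
    have s1 : σ ≤ q * σ := le_mul_of_one_le_left hσ.le q1'
    have hP : Par T s Cj τ (q * σ) L' (R + R ^ 2 + (R ^ (CB + 1)) ^ CS) := by
      refine par_next h (by omega) (by omega) (by nlinarith) ?_ ?_ ?_ l1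
      · calc q * σ * L' = σ * (q * L') := by ring
          _ ≤ σ * L := mul_le_mul_of_nonneg_left q4' hσ.le
          _ ≤ 1 := h.σ_le
      · calc Real.exp (-(R + R ^ 2 + (R ^ (CB + 1)) ^ CS))
            ≤ Real.exp (-(R ^ (CB + 1)) ^ CS) * Real.exp (-R) := by
              rw [← Real.exp_add]; exact Real.exp_le_exp.2 (by nlinarith)
          _ ≤ Real.exp (-(R ^ (CB + 1)) ^ CS) * (σ * L) :=
              mul_le_mul_of_nonneg_left h.le_σ (Real.exp_pos _).le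
          _ = σ * (Real.exp (-(R ^ (CB + 1)) ^ CS) * L) := by ring
          _ ≤ q * σ * L' := mul_le_mul s1 q3 (by positivity) (by positivity)
      · refine le_trans ?_ q3
        refine le_trans ?_ (mul_le_mul_of_nonneg_left hL (Real.exp_pos _).le)
        rw [← Real.exp_add]
        exact Real.exp_le_exp.2 (by linarith)
    obtain ⟨σ', L'', dg', R', r1, r2, r3, r4, r5, r6, r7⟩ := ih ι T τ (q * σ) L' _ H0 _ _ hP
      (by push_cast; nlinarith [pow_le_pow_left₀ (Nat.cast_nonneg d) hd 2]) hH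
      (hSt'.mono hP.σ_pos (by nlinarith))
    refine ⟨σ', L'', dg', R', by nlinarith, by linarith, s1.trans r3, r4.trans l1, r5,
      r6.trans ?_, r7⟩
    have e1 : (d + d ^ 2 + 2) ^ Ej ≤ (d + 2) ^ (2 * Ej + 2) :=
      (Nat.pow_le_pow_left (show _ ≤ (d + 2) ^ 2 by nlinarith) _).trans (by
        rw [← pow_mul]; exact Nat.pow_le_pow_right (by omega) (by omega))
    have e2 : d ^ 2 ≤ (d + 2) ^ (2 * Ej + 2) :=
      (Nat.pow_le_pow_left (by omega) _).trans (Nat.pow_le_pow_right (by omega) (by omega))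
    have e3 : (d + 2) ^ (2 * Ej + 3) = (d + 2) ^ (2 * Ej + 2) * (d + 2) := pow_succ _ _
    nlinarith [Nat.zero_le ((d + 2) ^ (2 * Ej + 2) * d)]

/-- **LOOP**: from the state of degree `s` to the hypotheses of `Fr.End` (any exponent `C1`);
the number `dg` of new atoms depends on `d` only -/
theorem loop {s D : ℕ} (hs : 1 ≤ s) (hG : ∀ j, 1 ≤ j → j ≤ s → Glue1 s D j)
    (hB : Fr.BulkStmt) (C1 : ℕ) : ∃ C : ℕ, ∀ (ι : Type) [Fintype ι] (T : Cell ι)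
    (τ : ℕ → ℝ) (σ : ℝ) (L : ℕ) (R : ℝ) (H0 : (ι → ℤ) → ℝ) (d : ℕ), Par T s C τ σ L R →
    (d : ℝ) ≤ R → (∀ y, |H0 y| ≤ 1) → St T D s s H0 σ L R d 0 →
    ∃ (σ' : ℝ) (L' dg : ℕ) (R' : ℝ), R ≤ R' ∧ R' ≤ R ^ C ∧ σ ≤ σ' ∧ L' ≤ L ∧
      Par T s C1 τ σ' L' R' ∧ (dg : ℝ) ≤ R' ∧ dg ≤ (d + 2) ^ C ∧ St0 T D s H0 σ' L' R' dg := by
  obtain ⟨E, h1⟩ := loop_j hs hG hB s le_rfl
  obtain ⟨C, h1⟩ := h1 ((2 * E + 1) * C1 + C1 + 1)
  refine ⟨C * (2 * E + 1) + C + E + 1, fun ι _ T τ σ L R H0 d h hd hH hS => ?_⟩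
  have hR := h.two
  obtain ⟨σ', L', dg, R', r1, r2, r3, r4, r5, r6, r7⟩ := h1 ι T τ σ L R H0 d 0
    (par_next h (by omega) (by omega) le_rfl h.σ_le h.le_σ
      ((Real.exp_le_exp.2 (Qp.pw_mono hR (by omega))).trans h.L_ge) le_rfl) hd hH hS
  have hR' := r5.two
  have p1 : R' ≤ R' ^ (2 * E + 1) := le_self_pow₀ (by linarith) (by omega)
  rw [zero_add] at r6
  refine ⟨σ', L', dg, R' ^ (2 * E + 1), r1.trans p1, ?_, r3, r4,
    par_next r5 (by omega) (by omega) p1 r5.σ_le ((Real.exp_le_exp.2 (by linarith)).trans r5.le_σ)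
      ((Real.exp_le_exp.2 ?_).trans r5.L_ge) le_rfl, ?_,
    r6.trans (Nat.pow_le_pow_right (by omega) (by omega)), r7.mono r5.σ_pos p1⟩
  · refine (pow_le_pow_left₀ (by linarith) r2 _).trans ?_
    rw [← pow_mul]
    exact Qp.pw_mono hR (by omega)
  · rw [← pow_mul]
    exact Qp.pw_mono hR' (by omega)
  · calc (dg : ℝ) ≤ ((d : ℝ) + 2) ^ E := by exact_mod_cast r6
      _ ≤ (R' ^ 2) ^ E := pow_le_pow_left₀ (by positivity) (by nlinarith) _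
      _ ≤ R' ^ (2 * E + 1) := by rw [← pow_mul]; exact Qp.pw_mono hR' (by omega)

end Crest.Agent.T49.Sg
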