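import Crest.Agent.T49.SgSub_65
import Crest.Agent.T49.SgA_65
import Crest.Agent.T49.DlLoc_51
import Crest.Agent.T49.DlPrune_27

/-!
# Row 49 (helper65): the stage of (D)
-/

set_option autoImplicit false

noncomputable section

namespace Crest.Agent.T49.Sg

open Finset MvPolynomial Crest.Agent.T49.Nil Crest.Agent.T49.Nil.ND Crest.Agent.T49.GI
open Crest.Agent.T49.Gl (Frm fq fw fmu fm pos)
open Crest.Agent.T49.Dl (Wd)
open Crest.Agent.T49.Tw (Cell)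
open Crest.Agent.T49.Bch (star)

variable {ι : Type}

/-- a template: a partner datum, a global map into it and a relation -/
structure Tm {κ : Type} [Fintype κ] (N : ND κ) (ι : Type) where
  κb : Type
  ft : Fintype κb
  Nb : @ND κb ft
  gb : @ND.PS κb ft Nb ι
  Hh : ℕ → Submodule ℝ (@pd κ κb _ ft N Nb).L

instance {κ : Type} [Fintype κ] {N : ND κ} (t : Tm N ι) : Fintype t.κb := t.ft

theorem Gw.mono {κ : Type} [Fintype κ] {N : ND κ} {S : ℕ} {M M' : ℝ} {Φ : N.L → ℝ}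
    (h : Gw N S M Φ) (hM : M ≤ M') : Gw N S M' Φ := ⟨h.mem, h.lip.mono hM⟩

theorem card_pos (D L : ℕ) : #(pos D L) = L ^ D := by
  simp [pos, Fintype.card_piFinset]

theorem evZ_subst_rl {κ : Type} [Fintype κ] (N : ND κ) {D : ℕ} {lev : ι → ℕ} (V : Frm D lev)
    (g : N.PS ι) (t : Fin D → ℤ) : N.evZ t (N.subst V.rl g) = N.evZ (V.pt t) g := by
  rw [ND.evZ, ev_subst, ND.evZ]
  congr 2
  exact funext (rl_eval V t)

theorem evZ_dn_pmk {J : Type} [Fintype J] {κ : J → Type} [∀ a, Fintype (κ a)]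
    (N : ∀ a, ND (κ a)) (Q : ℕ) {D : ℕ} {lev : ι → ℕ} (V : Frm D lev) (g : ∀ a, (N a).PS ι)
    (t : Fin D → ℤ) :
    (Win.scl (ND.pi N) Q).evZ t (Win.dn (ND.pi N) Q (pmk fun a => (N a).subst V.rl (g a))) =
      (Win.scl (ND.pi N) Q).evZ (V.pt t) (Win.dn (ND.pi N) Q (pmk g)) := by
  rw [← evZ_subst_rl]
  congr 1
  refine pts_ext fun k => ?_
  change (Q : ℝ)⁻¹ • bind₁ V.rl (g k.1 k.2) = bind₁ V.rl ((Q : ℝ)⁻¹ • g k.1 k.2)
  rw [map_smul]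

theorem dn_pmk_mem_wcf {J : Type} [Fintype J] {κ : J → Type} [∀ a, Fintype (κ a)]
    {N : ∀ a, ND (κ a)} (Q : ℕ) {lev : ι → ℕ} {g : ∀ a, (N a).PS ι}
    (hg : ∀ a, g a ∈ Gf.wcf lev (N a).F) :
    Win.dn (ND.pi N) Q (pmk g) ∈ Gf.wcf lev (Win.scl (ND.pi N) Q).F := fun α k hk => by
  change ((Q : ℝ)⁻¹ • g k.1 k.2).coeff α = 0
  rw [coeff_smul, show (g k.1 k.2).coeff α = 0 from hg k.1 α k.2 hk, smul_zero]

theorem pair_mem_wcf {κ κ' : Type} [Fintype κ] [Fintype κ'] {N : ND κ} {N' : ND κ'}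
    {lev : ι → ℕ} {g : N.PS ι} {g' : N'.PS ι} (hg : g ∈ Gf.wcf lev N.F)
    (hg' : g' ∈ Gf.wcf lev N'.F) : pair g g' ∈ Gf.wcf lev (pd N N').F := fun α => by
  rw [cv_pair]
  exact pair_mem_FA (hg α) (hg' α)

variable [Fintype ι]

/-- first half of the stage: pruning, templates, one denominator -/
theorem stage_a (C0 : ℕ) : ∃ C : ℕ, ∀ R : ℝ, 2 ≤ R → ∀ (ι : Type) [Fintype ι] (T : Cell ι)
    (D S j : ℕ) (H : (ι → ℤ) → ℝ) (σ : ℝ) (L : ℕ) (κ : Type) [Fintype κ] (N : ND κ)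
    (Z : Finset (Frm D T.lev)) (F : Frm D T.lev → N.L → ℝ) (P : Frm D T.lev → N.PS (Fin D)),
    (∀ y, |H y| ≤ 1) → 0 < σ → Bulk T D σ R →
    (∀ R1, R ≤ R1 → R1 ≤ R ^ C → Glue T D S j σ L R1 (R1 ^ C0)) →
    (Fintype.card κ : ℝ) ≤ R → N.Good S (Real.exp R) →
    Real.exp (-R) * fmu T D σ ≤ fm T σ Z →
    (∀ V ∈ Z, Wd N S j (Real.exp R) (F V) ∧ P V ∈ N.poly (Fin D) ∧
      Real.exp (-R) * (L : ℝ) ^ D ≤ ∑ t ∈ pos D L, F V (N.evZ t (P V)) * H (V.pt t)) →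
    ∃ (t : κ → Tm N ι) (q : ℕ) (Z' : Finset (Frm D T.lev)) (F' : Frm D T.lev → N.L → ℝ),
      (∀ i, Fintype.card (t i).κb ≤ Fintype.card κ ∧ (t i).Nb.Good S (Real.exp (R ^ C)) ∧
        (t i).gb ∈ Gf.wcf T.lev (t i).Nb.F ∧ (pd N (t i).Nb).GrSub (t i).Hh ∧
        ∀ n, (pd N (t i).Nb).RatS (Real.exp (R ^ C)) ((t i).Hh n)) ∧
      1 ≤ q ∧ (q : ℝ) ≤ Real.exp (R ^ C) ∧ Real.exp (-R ^ C) * fmu T D σ ≤ fm T σ Z' ∧
      ∀ V ∈ Z', Wd N S j (Real.exp (R ^ C)) (F' V) ∧ P V ∈ N.poly (Fin D) ∧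
        (∀ x, (∀ i, pair x 0 ∈ (t i).Hh j) → ∀ y, F' V (star S x y) = F' V y) ∧
        (∀ i, (pd N (t i).Nb).FactQ S L (Real.exp (R ^ C)) q (t i).Hh
          (pair (P V) ((t i).Nb.subst V.rl (t i).gb))) ∧
        Real.exp (-R ^ C) * (L : ℝ) ^ D ≤ ∑ u ∈ pos D L, F' V (N.evZ u (P V)) * H (V.pt u) := by
  classical
  obtain ⟨C1, h1⟩ := Dl.pruneStmt
  obtain ⟨C, hC⟩ : ∃ C : ℕ, ∀ R : ℝ, 2 ≤ R →
      3 * (R + (R ^ (C1 + 1)) ^ 4) ≤ R ^ C ∧ (3 * (R + (R ^ (C1 + 1)) ^ 4)) ^ C0 ≤ R ^ C ∧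
      R * (3 * (R + (R ^ (C1 + 1)) ^ 4)) ^ C0 ≤ R ^ C ∧ R ^ C1 ≤ R ^ C ∧ R + 1 ≤ R ^ C ∧
      (R + (R ^ (C1 + 1)) ^ 4) + 1 + (R + (R ^ (C1 + 1)) ^ 4) *
        (R + (3 * (R + (R ^ (C1 + 1)) ^ 4)) ^ C0 + 1) +
        R * (3 * (R + (R ^ (C1 + 1)) ^ 4)) ^ C0 ≤ R ^ C := by qp
  refine ⟨C, fun R hR ι _ T D S j H σ L κ _ N Z F P hH hσ hB hG hκ hN hZ hF => ?_⟩
  obtain ⟨c1, c2, c3, c4, c5, c6⟩ := hC R hR
  have hμ := fmu_pos T D hσ
  have hw : ∀ V : Frm D T.lev, 0 ≤ fw T σ V := fun V => (fw_pos T σ V).le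
  have p1 : R ^ C1 ≤ R ^ (C1 + 1) := Qp.pw_mono hR (by omega)
  have p2 : R ≤ R ^ (C1 + 1) := le_self_pow₀ (by linarith) (by omega)
  have p3 : R ^ (C1 + 1) ≤ (R ^ (C1 + 1)) ^ 4 := le_self_pow₀ (by linarith) (by omega)
  -- pruning
  have a1 : ∀ V ∈ Z, ∃ (η : κ → κ → ℤ) (G : κ → N.L → ℂ) (F' : N.L → ℝ),
      (∀ i, N.NChar S j (Real.exp (R ^ C1)) (η i) (G i)) ∧
      (∀ i, Real.exp (-R ^ C1) * (L : ℝ) ^ D ≤
        ‖∑ u ∈ pos D L, G i (N.evZ u (P V)) * (H (V.pt u) : ℂ)‖) ∧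
      Wd N S j (Real.exp (R ^ C1)) F' ∧
      (∀ x ∈ N.F j, (∀ i, N.fn (η i) x = 0) → ∀ y, F' (star S x y) = F' y) ∧
      Real.exp (-R) / 2 * (L : ℝ) ^ D ≤ ∑ u ∈ pos D L, F' (N.evZ u (P V)) * H (V.pt u) :=
    fun V hV => h1 R hR κ N S j (F V) _ (pos D L) (fun u => N.evZ u (P V))
      (fun u => H (V.pt u)) _ hκ hN.wt_le (hF V hV).1
      ((sum_le_card_nsmul _ _ 1 fun u _ => hH _).trans (by simp [card_pos])) (hF V hV).2.2
  choose! η G F' a1 a2 a3 a4 a5 using a1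
  -- one tuple of frequencies
  obtain ⟨η0, -, Z1, b1, b2, b3⟩ := wpigeon (cnt_mat_exp κ κ (hR.trans p2) (hκ.trans p2)
    (hκ.trans p2)) (fw T σ) hw hμ hZ (fun V e => η V = e) fun V hV =>
      ⟨η V, fun i k => ((a1 V hV i).η_le k).trans (Real.exp_le_exp.2 p1), rfl⟩
  set x : ℝ := R + (R ^ (C1 + 1)) ^ 4 with hx
  have x1 : R ≤ x := by linarith
  have x2 : R ^ C1 ≤ 3 * x := by linarith
  have hy : 0 ≤ (3 * x) ^ C0 := by positivity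
  -- templates
  obtain ⟨t, d1, Z2, d2, d3, d4⟩ := wtuple_exp (fw T σ) hw
    (fun i (t : Tm N ι) => Fintype.card t.κb ≤ Fintype.card κ ∧
      t.Nb.Good S (Real.exp ((3 * x) ^ C0)) ∧ t.gb ∈ Gf.wcf T.lev t.Nb.F ∧
      (pd N t.Nb).GrSub t.Hh ∧ (∀ n, (pd N t.Nb).RatS (Real.exp ((3 * x) ^ C0)) (t.Hh n)) ∧
      ∀ z : N.L, pair z 0 ∈ t.Hh j → N.fn (η0 i) z = 0)
    (fun t V => (pd N t.Nb).Fact S L (Real.exp ((3 * x) ^ C0)) t.Hh
      (pair (P V) (t.Nb.subst V.rl t.gb))) hμ Z1 (hκ.trans x1) hy (by linarith) b2 (hB.fm_le Z1)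
    fun i Z' hZ' hm => by
      obtain ⟨κb, _, Nb, gb, Hh, Z'', e1, e2, e3, e4, e5, e6, e7, e8, e9⟩ :=
        hG (3 * x) (by linarith) c1 κ N (η0 i) Z' (fun V => G V i) P H (by linarith)
          (hN.mono (Real.exp_le_exp.2 (by linarith))) hH hm fun V hV => by
            have hV1 := hZ' hV
            have hV2 := b1 hV1
            refine ⟨?_, (hF V hV2).2.1, le_trans ?_ (a2 V hV2 i)⟩
            · rw [← b3 V hV1]
              exact (a1 V hV2 i).mono (Real.exp_le_exp.2 x2)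
            · exact mul_le_mul_of_nonneg_right (Real.exp_le_exp.2 (by linarith)) (by positivity)
      exact ⟨⟨κb, _, Nb, gb, Hh⟩, ⟨e1, e2, e3, e4, e5, e6⟩, Z'', e7, e8, e9⟩
  -- one denominator
  obtain ⟨q, ⟨f1, f2⟩, Z3, f3, f4, f5⟩ := wpigeon
    (cnt_nat (Real.exp_pos (R * (3 * x) ^ C0)).le) (fw T σ) hw hμ d3
    (fun V q => ∀ i, (pd N (t i).Nb).FactQ S L (Real.exp ((3 * x) ^ C0)) q (t i).Hh
      (pair (P V) ((t i).Nb.subst V.rl (t i).gb))) fun V hV => by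
      choose q g1 g2 g3 using d4 V hV
      refine ⟨∏ i, q i, ⟨one_le_prod' fun i _ => g1 i, ?_⟩,
        fun i => (g3 i).mono le_rfl (dvd_prod_of_mem q (mem_univ i))⟩
      rw [Nat.cast_prod]
      refine (prod_le_prod (fun i _ => Nat.cast_nonneg _) fun i _ => g2 i).trans ?_
      rw [prod_const, ← Real.exp_nat_mul, card_univ]
      exact Real.exp_le_exp.2 (mul_le_mul_of_nonneg_right hκ hy)
  have e2 := Real.exp_le_exp.2 c2
  refine ⟨t, q, Z3, F', fun i => ⟨(d1 i).1, (d1 i).2.1.mono e2, (d1 i).2.2.1, (d1 i).2.2.2.1,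
    fun n => ((d1 i).2.2.2.2.1 n).mono e2⟩, f1, f2.trans (Real.exp_le_exp.2 c3),
    le_trans (mul_le_mul_of_nonneg_right (Real.exp_le_exp.2 (by linarith)) hμ.le) f4,
    fun V hV => ?_⟩
  have hV1 := d2 (f3 hV)
  have hV2 := b1 hV1
  refine ⟨(a3 V hV2).mono (Real.exp_le_exp.2 c4), (hF V hV2).2.1, fun z hz => ?_,
    fun i => (f5 V hV i).mono e2 dvd_rfl, le_trans ?_ (a5 V hV2)⟩
  · refine a4 V hV2 z (fun k hk => ?_) fun i => ?_
    · exact (d1 k).2.2.2.1.le j (hz k) (Sum.inl k) hk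
    · rw [b3 V hV1]
      exact (d1 i).2.2.2.2.2 z (hz i)
  · refine mul_le_mul_of_nonneg_right ?_ (by positivity)
    have e3 : (2 : ℝ) ≤ Real.exp 1 := by linarith [Real.add_one_le_exp (1 : ℝ)]
    rw [le_div_iff₀ (by norm_num : (0 : ℝ) < 2)]
    calc _ ≤ Real.exp (-R ^ C) * Real.exp 1 := by gcongr
      _ ≤ _ := by rw [← Real.exp_add]; exact Real.exp_le_exp.2 (by linarith)

theorem stageStmt : StageStmt := by
  classical
  intro s S D C0 hS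
  obtain ⟨C1, h1⟩ := stage_a C0
  obtain ⟨C2, h2⟩ := Dl.locStage hS D
  obtain ⟨C3, h3⟩ := subStmt s D
  obtain ⟨C, hC⟩ : ∃ C : ℕ, ∀ R : ℝ, 2 ≤ R → R ^ C1 ≤ R ^ C ∧
      (R ^ C1 + R + R ^ 2) ^ C2 + 1 ≤ R ^ C ∧ R + (R ^ C1 + R + R ^ 2) ^ C2 + 1 ≤ R ^ C ∧
      (R + R ^ C1 + 2 * (R ^ C1 + R + R ^ 2) ^ C2) ^ C3 ≤ R ^ C := by qp
  refine ⟨C, fun R hR ι _ T j H0 σ L d dg hs hι hd hH0 hσ hσL hL hB hG hSt => ?_⟩
  obtain ⟨c1, c2, c3, c4⟩ := hC R hR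
  obtain ⟨κ, _, N, κg, _, Ng, gg, Φ, Z, F, P, s1, s2, s3, s4, s5, s6, s7, s8⟩ := hSt
  have hμ := fmu_pos T D hσ
  have hκ : (Fintype.card κ : ℝ) ≤ R := le_trans (by exact_mod_cast s1) hd
  have hH : ∀ y, |Φ (Ng.evZ y gg) * H0 y| ≤ 1 := fun y => by
    rw [abs_mul, abs_of_nonneg (s6.mem _).1]
    exact mul_le_one₀ (s6.mem _).2 (abs_nonneg _) (hH0 y)
  obtain ⟨t, q, Z1, F1, a1, a2, a3, a4, a5⟩ := h1 R hR ι T D S (j + 1)
    (fun y => Φ (Ng.evZ y gg) * H0 y) σ L κ N Z F P hH hσ hB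
    (fun R1 e1 e2 => hG R1 e1 (e2.trans c1)) hκ s2 s7 s8
  have hc : Fintype.card (Σ i, (t i).κb) ≤ d ^ 2 := by
    rw [Fintype.card_sigma, sq]
    exact (sum_le_card_nsmul _ _ d fun i _ => (a1 i).1.trans s1).trans
      (by simpa using Nat.mul_le_mul_right d s1)
  have hc' : (Fintype.card (Σ i, (t i).κb) : ℝ) ≤ R ^ 2 :=
    le_trans (by exact_mod_cast hc) (pow_le_pow_left₀ (Nat.cast_nonneg d) hd 2)
  have p1 : 0 ≤ R ^ C1 := by positivity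
  have p2 : 0 ≤ R ^ 2 := by positivity
  set x : ℝ := R ^ C1 + R + R ^ 2 with hx
  have e1 : Real.exp (R ^ C1) ≤ Real.exp x := Real.exp_le_exp.2 (by linarith)
  have e2 : Real.exp (x ^ C2) ≤ Real.exp (R ^ C) := Real.exp_le_exp.2 (by linarith)
  have p3 : 0 ≤ x ^ C2 := by positivity
  obtain ⟨Q, J, r, q', l, χ, N', Y, -, -, b3, b4, b5, b6, b7, b8, b9, b10, b11, b12, b13, b14⟩ :=
    h2 x (by linarith) κ κ (Fin D) (fun i => (t i).κb) N (fun i => (t i).Nb) (fun i => (t i).Hh)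
      j q L (by linarith) (s2.mono (Real.exp_le_exp.2 (by linarith)))
      (fun i => (a1 i).2.1.mono e1) (fun i => (a1 i).2.2.2.1)
      (fun i n => ((a1 i).2.2.2.2 n).mono e1) a2 (a3.trans e1) (by simp) (e2.trans hL)
  rw [Fintype.card_fin] at b14
  have hcnt : Cnt (fun p : Fin J × (Fin D → ℤ) => True ∧ p.2 ∈ Y) (Real.exp (2 * x ^ C2)) := by
    refine ((Cnt.of_fintype fun _ : Fin J => True).prod (Cnt.of_finset Y)).le ?_
    rw [Fintype.card_fin, two_mul, Real.exp_add]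
    exact mul_le_mul b4 b12 (Nat.cast_nonneg _) (Real.exp_pos _).le
  obtain ⟨⟨b, y⟩, ⟨-, hy⟩, Z2, d1, d2, d3⟩ := wpigeon hcnt (fw T σ)
    (fun V => (fw_pos T σ V).le) hμ a4
    (fun V p => ∃ P' ∈ N'.poly (Fin D), ∃ F' : N'.L → ℝ, Wd N' S j (Real.exp (x ^ C2)) F' ∧
      Real.exp (-x ^ C2) * (l : ℝ) ^ D ≤ ∑ u ∈ pos D l, F' (N'.evZ u P') *
        ((Φ (Ng.evZ ((sub V p.2 q').pt u) gg) *
          χ p.1 ((Win.scl (ND.pi fun i => (t i).Nb) Q).evZ ((sub V p.2 q').pt u)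
            (Win.dn (ND.pi fun i => (t i).Nb) Q (pmk fun i => (t i).gb)))) *
          H0 ((sub V p.2 q').pt u))) fun V hV => by
      obtain ⟨g1, g2, g3, g4, g5⟩ := a5 V hV
      obtain ⟨b, y, hy, P', g6, F', g7, g8⟩ := b14 (F1 V) (P V)
        (fun i => (t i).Nb.subst V.rl (t i).gb) (fun u => Φ (Ng.evZ (V.pt u) gg) * H0 (V.pt u))
        (g1.mono e1) g2 g3 (fun i => (g4 i).mono e1 dvd_rfl) (fun u => hH _)
        (le_trans (mul_le_mul_of_nonneg_right (Real.exp_le_exp.2 (by linarith))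
          (by positivity)) g5)
      refine ⟨(b, y), ⟨trivial, hy⟩, P', g6, F', g7, g8.trans (le_of_eq ?_)⟩
      refine sum_congr rfl fun u _ => ?_
      have e3 : sp y q' u = y + (q' : ℤ) • u := rfl
      rw [sub_pt, e3, evZ_dn_pmk]
      ring
  have hl : 1 ≤ l := by
    have e3 : (1 : ℝ) ≤ Real.exp (-x ^ C2) * L := by
      rw [Real.exp_neg, le_inv_mul_iff₀ (Real.exp_pos _), mul_one]
      exact e2.trans hL
    exact_mod_cast e3.trans b10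
  have hy0 : y ∈ pos D L := by
    have := b13 y hy 0 (Dl.D51.mem_bx.2 fun v => ⟨le_rfl, by simp only [Pi.zero_apply]; omega⟩)
    rwa [smul_zero, add_zero] at this
  have f1 := h3 (R + R ^ C1 + 2 * x ^ C2) (by linarith) ι T σ L q' y Z2 hs (by linarith) hσ hσL hy0
    b8 (b9.trans (Real.exp_le_exp.2 (by linarith))) (hB.mono hσ (by linarith))
    (le_trans (mul_le_mul_of_nonneg_right (Real.exp_le_exp.2 (by linarith)) hμ.le) d2)
  have f2 : ∀ V' ∈ Z2.image fun V => sub V y q', ∃ (F' : N'.L → ℝ) (P' : N'.PS (Fin D)),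
      Wd N' S j (Real.exp (R ^ C)) F' ∧ P' ∈ N'.poly (Fin D) ∧
      Real.exp (-R ^ C) * (l : ℝ) ^ D ≤ ∑ u ∈ pos D l, F' (N'.evZ u P') *
        ((Φ (Ng.evZ (V'.pt u) gg) * χ b ((Win.scl (ND.pi fun i => (t i).Nb) Q).evZ (V'.pt u)
            (Win.dn (ND.pi fun i => (t i).Nb) Q (pmk fun i => (t i).gb)))) * H0 (V'.pt u)) := by
    intro V' hV'
    obtain ⟨V, hV, rfl⟩ := mem_image.1 hV'
    obtain ⟨P', g1, F', g2, g3⟩ := d3 V hV
    exact ⟨F', P', g2.mono e2, g1, le_trans (mul_le_mul_of_nonneg_right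
      (Real.exp_le_exp.2 (by linarith)) (by positivity)) g3⟩
  choose! F' P' f2 using f2
  have hq0 : (0 : ℝ) < q' := by positivity
  have e3 : Real.exp R ≤ Real.exp (R ^ C) := Real.exp_le_exp.2 (by linarith)
  refine ⟨q', l, b8, b9.trans e2, le_trans (mul_le_mul_of_nonneg_right
    (Real.exp_le_exp.2 (by linarith)) (Nat.cast_nonneg _)) b10, b11, Fin r, inferInstance, N',
    κg ⊕ (Σ i, (t i).κb), inferInstance, pd Ng (Win.scl (ND.pi fun i => (t i).Nb) Q),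
    pair gg (Win.dn (ND.pi fun i => (t i).Nb) Q (pmk fun i => (t i).gb)),
    fun z => Φ (fst _ _ ℝ z) * χ b (snd _ _ ℝ z), Z2.image fun V => sub V y q', F', P', ?_,
    b7.mono e2, ?_, good_pd (s4.mono e3) (b3.mono e2) (Real.exp_pos _).le,
    pair_mem_wcf s5 (dn_pmk_mem_wcf Q fun i => (a1 i).2.2.1), ⟨fun z => ?_, ?_⟩,
    le_trans (mul_le_mul_of_nonneg_right (Real.exp_le_exp.2 (by linarith))
      (fmu_pos T D (mul_pos hq0 hσ)).le) f1, fun V hV => f2 V hV⟩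
  · rw [Fintype.card_fin]; omega
  · rw [Fintype.card_sum]; omega
  · exact ⟨mul_nonneg (s6.mem _).1 ((b5 b).mem _).1,
      mul_le_one₀ (s6.mem _).2 ((b5 b).mem _).1 ((b5 b).mem _).2⟩
  · have e4 := lipFn_pd (Real.exp_pos _).le (Real.exp_pos _).le s6.lip (b5 b).nfn.toLipFn
    simp only [Complex.ofReal_mul]
    refine e4.mono ?_
    have e5 : Real.exp R ≤ Real.exp (R + x ^ C2) := Real.exp_le_exp.2 (by linarith)
    have e6 : Real.exp (x ^ C2) ≤ Real.exp (R + x ^ C2) := Real.exp_le_exp.2 (by linarith)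
    have e7 : (2 : ℝ) ≤ Real.exp 1 := by linarith [Real.add_one_le_exp (1 : ℝ)]
    calc _ ≤ Real.exp (R + x ^ C2) * Real.exp 1 := by nlinarith [Real.exp_pos (R + x ^ C2)]
      _ ≤ _ := by rw [← Real.exp_add]; exact Real.exp_le_exp.2 c3

end Crest.Agent.T49.Sg
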