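import Crest.Agent.T49.StEq_57

/-!
# Row 49 (helper57): the sampler on equidistributed spaces of points and frames
-/

set_option autoImplicit false

noncomputable section

namespace Crest.Agent.T49.Samp

open Finset Real

variable {X Ω T ι ι' n N : Type*} [Fintype ι] [Fintype ι'] [Fintype n] [DecidableEq n] [Fintype N]
  [DecidableEq N]

/-- given the point `e ω`, the point `e' ω` is spread over a window of precision `≤ qs` and a class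
modulo `g` -/
def PairHyp (θ : X → ι → ℝ) (ρ : X → n → ℤ) (E : (Ω → ℝ) → ℝ) (e e' : Ω → X) (g : ℕ)
    (qs τ : ℝ) : Prop :=
  ∃ q : ι → ℝ, Adm qs q ∧ ∀ (R : X → ℝ) (ε : ℝ), (∀ x, |R x| ≤ 1) →
    (∀ c r, |lm θ ρ q c g r R| ≤ ε) → ∀ u : X → ℝ, (∀ x, |u x| ≤ 1) →
      E (fun ω => u (e ω) * R (e' ω)) ^ 2 ≤ ε + τ

variable {θ : X → ι → ℝ} {ρ : X → n → ℤ} {μ K η : ℝ} {B : ℕ}

omit [Fintype n] [DecidableEq n] in
theorem PairHyp.half {P : PF Ω} {e e' : Ω → X} {q : ι → ℝ} {g : ℕ} {τ ε : ℝ}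
    (h : ∀ (R : X → ℝ) (ε : ℝ), (∀ x, |R x| ≤ 1) → (∀ c r, |lm θ ρ q c g r R| ≤ ε) →
      ∀ u : X → ℝ, (∀ x, |u x| ≤ 1) → P.E (fun ω => u (e ω) * R (e' ω)) ^ 2 ≤ ε + τ)
    {f f' : X → ℝ} (hf : ∀ x, |f x| ≤ 1) (hf' : ∀ x, |f' x| ≤ 1)
    (hε : ∀ c r, |lm θ ρ q c g r fun x => f x - f' x| ≤ 2 * ε) (u : X → ℝ) (hu : ∀ x, |u x| ≤ 1) :
    |P.E (fun ω => u (e ω) * f (e' ω)) - P.E (fun ω => u (e ω) * f' (e' ω))| ≤ 2 * √(ε + τ) := by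
  have h1 := h (fun x => 1 / 2 * (f x - f' x)) ε (fun x => by
    rw [abs_mul, abs_of_pos (by norm_num : (0 : ℝ) < 1 / 2)]
    linarith [abs_sub (f x) (f' x), hf x, hf' x]) (fun c r => by
    rw [lm, av_cmul, abs_mul, abs_of_pos (by norm_num : (0 : ℝ) < 1 / 2)]
    have := hε c r
    rw [lm] at this
    linarith) u hu
  have h2 : P.E (fun ω => u (e ω) * f (e' ω)) - P.E (fun ω => u (e ω) * f' (e' ω)) =
      2 * P.E (fun ω => u (e ω) * (1 / 2 * (f (e' ω) - f' (e' ω)))) := by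
    rw [← PF.sub, ← PF.cmul]
    exact congrArg P.E (funext fun ω => by ring)
  rw [h2, abs_mul, abs_two]
  exact mul_le_mul_of_nonneg_left (abs_le_sqrt h1) zero_le_two

omit [DecidableEq n] in
theorem PairHyp.pairET {P : PF Ω} {e e' : Ω → X} {g : ℕ} {qs τ κ s : ℝ} {B0 : ℕ}
    (h : PairHyp θ ρ P.E e e' g qs τ) (hX : EQ θ ρ μ K B η) (hg : 0 < g) (hB0 : 1 ≤ B0)
    (hB : B0 * g ≤ B) (hκ : 0 < κ) (hK : qs + κ ≤ K) (hs0 : 0 ≤ s) (hs1 : s ≤ 1) (hs : qs ≤ s * κ)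
    (hη : 0 ≤ η) {ψ : X → ℝ} (hψ : ∀ x, |ψ x| ≤ 1) :
    PairET P e e' ψ (fun d x => lm θ ρ (fun _ => κ) (θ x) d (ρ x) ψ) g B0
      (2 * √(8 * η + Fintype.card ι * s + τ)) := by
  obtain ⟨q, hq, h⟩ := h
  have q0 : ∀ i, 0 < q i := fun i => (hq i).1
  have hqK : ∀ i, q i + κ ≤ K := fun i => by linarith [(hq i).2]
  have aκ : Adm K fun _ : ι => κ := fun i => ⟨hκ, by linarith [hqK i, q0 i]⟩
  have hgB : g ≤ B := (Nat.le_mul_of_pos_left g hB0).trans hB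
  have hns : 0 ≤ Fintype.card ι * s := by positivity
  refine ⟨fun u hu => ?_, fun u hu d hd hdB => ?_⟩
  · refine PairHyp.half h hψ (fun x => (hX.wt aκ hg hgB (θ x) (ρ x)).abs_av_le hψ)
      (fun c r => ?_) u hu
    refine (hX.top q0 (fun _ => hκ) hqK hg hgB hs1 (fun i => (hq i).2.trans hs) hs0 hψ).trans ?_
    linarith
  · have hdg : d * g ≤ B := (Nat.mul_le_mul_right g hdB).trans hB
    have hdB' : d ≤ B := (Nat.le_mul_of_pos_right d hg).trans hdg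
    refine PairHyp.half h (fun x => (hX.wt aκ hd hdB' (θ x) (ρ x)).abs_av_le hψ)
      (fun x => (hX.wt aκ (Nat.gcd_pos_of_pos_left g hd) ((Nat.gcd_le_left g hd).trans hdB')
        (θ x) (ρ x)).abs_av_le hψ) (fun c r => ?_) u hu
    refine (hX.lev q0 (fun _ => hκ) hqK hd hg hdg hψ).trans ?_
    linarith

variable {Θ : Ω → ι' → ℝ} {dat : Ω → N → ℤ} {μ' K' : ℝ} {B' : ℕ}

omit [DecidableEq n] [DecidableEq N] in
/-- on a fine window of frames the local means at the point `e ω` only depend on its class -/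
theorem appr_of (hX : EQ θ ρ μ K B η) (hΩ : EQ Θ dat μ' K' B' η) (hB' : 1 ≤ B') {κ κ' s Λ W : ℝ}
    (hκ : 0 < κ) (hK : 2 * κ ≤ K) (hκ' : 0 < κ') (hK' : κ' ≤ K') (hs0 : 0 < s) (hs1 : s ≤ 1)
    (hΛ : 0 ≤ Λ) (hW : W * (κ * Λ) ≤ κ' * s ^ 2) (e : Ω → X)
    (he : ∀ ω ω', ∑ i, (θ (e ω) i - θ (e ω') i) ^ 2 ≤ Λ * ∑ j, (Θ ω j - Θ ω' j) ^ 2) {d : ℕ}
    (hd : 0 < d) (hdB : d ≤ B) {ψ : X → ℝ} (hψ : ∀ x, |ψ x| ≤ 1) (ω' : Ω) :
    lm Θ dat (fun _ => κ') (Θ ω') 1 0 (fun ω => |lm θ ρ (fun _ => κ) (θ (e ω)) d (ρ (e ω)) ψ -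
      lm θ ρ (fun _ => κ) (θ (e ω')) d (ρ (e ω)) ψ|) ≤
      4 * (2 * η + (Fintype.card ι + 7) * s) + 4 * 2 ^ Fintype.card ι' * exp (-π * (W / 2)) := by
  classical
  have a1 : Adm K fun _ : ι => κ := fun _ => ⟨hκ, by linarith⟩
  have a2 : Adm K fun _ : ι => 2 * κ := fun _ => ⟨by linarith, hK⟩
  have a3 : Adm K' fun _ : ι' => κ' := fun _ => ⟨hκ', hK'⟩
  have hw := hΩ.wt a3 one_pos hB' (Θ ω') 0
  have hη := hΩ.nonneg a3 hB'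
  set F : Ω → ℝ := fun ω => if ∑ j, κ' * (Θ ω j - Θ ω' j) ^ 2 ≤ W then 0 else 1 with hF
  have F1 : ∀ ω, |F ω| ≤ 1 := fun ω => by rw [hF]; dsimp only; split_ifs <;> simp
  have h1 := hΩ.tail (c := Θ ω') (r := 0) a3 one_pos hB' F1 fun ω hω => if_pos hω
  set A := 4 * (2 * η + (Fintype.card ι + 7) * s) with hA
  have A0 : 0 ≤ A := by positivity
  have b2 : ∀ ω, |lm θ ρ (fun _ => κ) (θ (e ω)) d (ρ (e ω)) ψ -
      lm θ ρ (fun _ => κ) (θ (e ω')) d (ρ (e ω)) ψ| ≤ 2 := fun ω => by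
    have i1 := (hX.wt a1 hd hdB (θ (e ω)) (ρ (e ω))).abs_av_le hψ
    have i2 := (hX.wt a1 hd hdB (θ (e ω')) (ρ (e ω))).abs_av_le hψ
    unfold lm
    linarith [abs_sub (av (cw θ ρ (fun _ => κ) (θ (e ω)) d (ρ (e ω))) ψ)
      (av (cw θ ρ (fun _ => κ) (θ (e ω')) d (ρ (e ω))) ψ)]
  have h2 := hw.av_mono (g := fun ω => 2 * F ω + A) (Bdd.of_le 2 fun ω => by
    rw [abs_abs]; exact b2 ω) (((Bdd.const 2).mul (Bdd.of_le 1 F1)).add (Bdd.const A)) fun ω => by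
    by_cases hω : ∑ j, κ' * (Θ ω j - Θ ω' j) ^ 2 ≤ W
    · rw [hF]
      dsimp only
      rw [if_pos hω, mul_zero, zero_add]
      refine (hX.shift (δ := s ^ 2) a2 hd hdB hs0 hs1 ?_ hψ).trans (le_of_eq ?_)
      · rw [← mul_sum] at hω ⊢
        have i1 := mul_le_mul_of_nonneg_left (he ω ω') hκ.le
        have i2 := mul_le_mul_of_nonneg_right hω (mul_nonneg hκ.le hΛ)
        refine le_of_mul_le_mul_left ?_ hκ'
        nlinarith [mul_le_mul_of_nonneg_left i1 hκ'.le]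
      · rw [hA]; field_simp; ring
    · rw [hF]
      dsimp only
      rw [if_neg hω]
      linarith [b2 ω]
  rw [hw.aff F F1] at h2
  rw [lm] at h1 ⊢
  linarith

/-- **the sampler on windows** -/
theorem sampWin {Q0 Q : ℕ} (hX : EQ θ ρ μ K (Q0 * Q * Q) η) (hΩ : EQ Θ dat μ' K' (Q0 * Q) η)
    {κ κ' qs s s' Λ W τ0 σ ϑ ε δ β ν C : ℝ} (hκ : 0 < κ) (hK : 2 * κ ≤ K) (hκ' : 2 ≤ κ')
    (hK' : κ' + 2 ≤ K') (hs0 : 0 ≤ s) (hs1 : s ≤ 1) (hs : qs ≤ s * κ) (hs0' : 0 < s')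
    (hs1' : s' ≤ 1) (hΛ : 0 ≤ Λ) (hW : W * (κ * Λ) ≤ κ' * s' ^ 2) (hQ : 1 ≤ Q) (hQ0' : 1 ≤ Q0)
    {S : Finset T} {p : T → ℝ} (hp : ∀ t ∈ S, 0 ≤ p t) (hp1 : ∑ t ∈ S, p t = 1)
    (ev : T → Ω → X) (lin : T → (N → ℤ) →+ (n → ℤ)) (g : T → T → ℕ)
    (hev : ∀ t ∈ S, ∀ ω ω',
      ∑ i, (θ (ev t ω) i - θ (ev t ω') i) ^ 2 ≤ Λ * ∑ j, (Θ ω j - Θ ω' j) ^ 2)
    (hlin : ∀ t ω, ρ (ev t ω) = lin t (dat ω)) (hsurj : ∀ t ∈ S, Function.Surjective (lin t))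
    (hpair : ∀ t ∈ S, ∀ t' ∈ S, ∀ w : n → ℤ, ∃ c, lin t c = 0 ∧ lin t' c = (g t t' : ℤ) • w)
    (hC : GcdBd S p g Q C) (good : T → T → Prop) [∀ t t', Decidable (good t t')]
    (hν : ∑ t ∈ S, ∑ t' ∈ S, (if good t t' then 0 else p t * p t') ≤ ν)
    (hgood : ∀ t ∈ S, ∀ t' ∈ S, good t t' → 0 < g t t' ∧ g t t' ≤ Q ∧
      PairHyp θ ρ (lm Θ dat (fun _ => 1) 0 1 0) (ev t) (ev t') (g t t') qs τ0)
    {a : Ω → ℝ} (ha0 : ∀ ω, 0 ≤ a ω) (ha1 : ∀ ω, a ω ≤ 1) (hσ : 0 < σ)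
    (hσa : σ ≤ lm Θ dat (fun _ => 1) 0 1 0 a) (hϑ : 0 < ϑ) (hϑ1 : ϑ ≤ 1) (hε : 0 < ε)
    (hQ0 : 1 ≤ σ / 4 * (Q0 : ℝ) ^ ϑ)
    (hsmall : 2 * (Q0 * ((1 + (Q : ℝ) ^ 2) ^ 2 *
      (ν + 2 * √(8 * η + Fintype.card ι * s + τ0)))) ≤ σ * ε ^ 2)
    {ψ : X → ℝ} (hψ : ∀ x, |ψ x| ≤ 1) (hβ0 : 0 ≤ β) (hβ1 : β ≤ 1)
    (hβ : ∀ c d r, 0 < d → d ≤ Q0 * Q → |lm θ ρ (fun _ => κ) c d r ψ| ≤ β)
    (hδ : ∀ ω, a ω ≠ 0 → δ ≤ smp S p ev ψ ω) :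
    ∃ (c : ι → ℝ) (b : ℕ) (r : n → ℤ), 0 < b ∧ b ≤ Q0 ∧
      δ - (ε + √(3 * ϑ) * β * C + 6 * (Q : ℝ) ^ 3 * √(4 * η) +
        8 * (Q0 : ℝ) ^ Fintype.card N * (1 + (Q : ℝ) ^ 2) *
          (4 * (2 * η + (Fintype.card ι + 7) * s') +
            4 * 2 ^ Fintype.card ι' * exp (-π * (W / 2))) / σ) ≤
        lm θ ρ (fun _ => κ) c b r ψ := by
  classical
  have hB1 : 1 ≤ Q0 * Q := Nat.mul_pos hQ0' hQ
  have hBB : Q0 * Q ≤ Q0 * Q * Q := Nat.le_mul_of_pos_right _ hQ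
  have a0 : Adm K' fun _ : ι' => (1 : ℝ) := fun _ => ⟨one_pos, by linarith⟩
  have a1 : Adm K fun _ : ι => κ := fun _ => ⟨hκ, by linarith⟩
  have a3 : Adm K' fun _ : ι' => κ' := fun _ => ⟨by linarith, by linarith⟩
  have hη := hΩ.nonneg a3 hB1
  have hP := hΩ.wt a0 one_pos hB1 0 0
  have hPk := fun ω' => hΩ.wt a3 one_pos hB1 (Θ ω') 0
  set Gd : ℕ → X → ℝ := fun d x =>
    if 0 < d ∧ d ≤ Q0 * Q * Q then lm θ ρ (fun _ => κ) (θ x) d (ρ x) ψ else 0 with hGd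
  have Gd1 : ∀ d x, |Gd d x| ≤ 1 := fun d x => by
    rw [hGd]
    dsimp only
    split_ifs with h
    · exact (hX.wt a1 h.1 h.2 _ _).abs_av_le hψ
    · simp
  have GdE : ∀ {d}, 0 < d → d ≤ Q0 * Q * Q →
      Gd d = fun x => lm θ ρ (fun _ => κ) (θ x) d (ρ x) ψ := fun h1 h2 =>
    funext fun x => if_pos ⟨h1, h2⟩
  obtain ⟨ω', b, r, hb, hbQ, h⟩ := samp hP.pf hP.pf_mass (fun ω' => (hPk ω').pf)
    (fun ω' => (hPk ω').pf_mass) (fun f f0 f1 => by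
      obtain ⟨x, hx⟩ := hΩ.mix (c := 0) (r := 0) hB1 hκ' hK' f0 f1
      exact ⟨x, by rwa [hP.pf_E (Bdd.of_01 f0 f1), (hPk x).pf_E (Bdd.of_01 f0 f1)]⟩)
    (fun _ => dat) ha0 ha1 (β := β) (τ := 4 * η) (δ := δ) (C := C)
    (τ₂ := 4 * (2 * η + (Fintype.card ι + 7) * s') + 4 * 2 ^ Fintype.card ι' * exp (-π * (W / 2)))
    hσ (by rwa [hP.pf_E (Bdd.of_01 ha0 ha1)]) hϑ hϑ1 hε hQ hQ0 le_rfl hp hp1 ev (fun _ => ψ)
    (fun _ => Gd) (fun _ => hψ) (fun _ => Gd1) (by positivity) good (by convert hν)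
    (fun _ _ _ t ht t' ht' hg => by
      obtain ⟨g0, gQ, q, hq, h⟩ := hgood t ht t' ht' hg
      have gB : Q0 * Q * g t t' ≤ Q0 * Q * Q := Nat.mul_le_mul_left _ gQ
      have h1 := PairHyp.pairET (P := hP.pf) (e := ev t) (e' := ev t') (τ := τ0)
        ⟨q, hq, fun R ε' R1 hR u hu => by
          rw [hP.pf_E (((Bdd.of_le 1 hu).comp _).mul ((Bdd.of_le 1 R1).comp _))]
          exact h R ε' R1 hR u hu⟩ hX g0 hB1 gB hκ
        (by nlinarith) hs0 hs1 hs hη hψ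
      refine ⟨g t t', g0, gQ, fun u hu => ?_, fun u hu d hd hdB => ?_⟩
      · rw [GdE g0 ((Nat.le_mul_of_pos_left _ hB1).trans gB)]
        exact h1.top u hu
      · rw [GdE hd (hdB.trans hBB),
          GdE (Nat.gcd_pos_of_pos_left _ hd) ((Nat.gcd_le_left _ hd).trans (hdB.trans hBB))]
        exact h1.lev u hu d hd hdB)
    hsmall (fun ω' M hM hMB r => (hΩ.equi a3 hB1 (Θ ω') M hM hMB r).trans (by linarith))
    (by linarith [hΩ.small]) g hC (fun _ => lin)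
    (fun ω' _ t d z => lm θ ρ (fun _ => κ) (θ (ev t ω')) d z ψ) hβ0 hβ1 (by positivity)
    (fun ω' _ _ _ => ⟨hsurj, hpair, fun t _ d _ _ => per_of_congr fun c r h => lm_congr h,
      fun t _ d hd hdB z => hβ _ d z hd hdB,
      fun t _ d e hd he hB z => hX.cons a1 hd he (hB.trans hBB) z hψ⟩)
    (fun ω' _ _ _ t ht d hd hdB => by
      have h1 := appr_of hX hΩ hB1 hκ hK (by linarith) (by linarith) hs0' hs1' hΛ hW (ev t)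
        (hev t ht) hd (hdB.trans hBB) hψ ω'
      rw [GdE hd (hdB.trans hBB), (hPk ω').pf_E]
      · simp only [hlin] at h1 ⊢
        exact h1
      · exact (Bdd.sub (Bdd.of_le 1 fun ω => (hX.wt a1 hd (hdB.trans hBB) _ _).abs_av_le hψ)
          (Bdd.of_le 1 fun ω => (hX.wt a1 hd (hdB.trans hBB) _ _).abs_av_le hψ)).abs)
    (fun _ _ _ => hδ)
  by_contra hc
  push Not at hc
  refine absurd h (not_le.2 ?_)
  obtain ⟨t0, ht0, hp0⟩ : ∃ t ∈ S, 0 < p t := by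
    by_contra h0
    push Not at h0
    linarith [sum_nonpos h0]
  refine (sum_lt_sum (fun t ht => mul_le_mul_of_nonneg_left (hc _ b _ hb hbQ).le (hp t ht))
    ⟨t0, ht0, mul_lt_mul_of_pos_left (hc _ b _ hb hbQ) hp0⟩).trans_le ?_
  rw [← sum_mul, hp1, one_mul]

end Crest.Agent.T49.Samp
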