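import Crest.Agent.T49.StPair_57
import Crest.Agent.T49.SampBox_57
import Crest.Agent.T49.FmPC_17

/-!
# Row 49 (helper57): frames with scales and multipliers as a pattern
-/

set_option autoImplicit false

noncomputable section

namespace Crest.Agent.T49.Samp

open Tw Rng Gl Fm Finset MvPolynomial

variable {D : ℕ} {s l : ℕ} {sc : (Fin D →₀ ℕ) → ℝ} {g : (Fin D →₀ ℕ) → ℤ} {p : Pl (Fin D)}

theorem prod_mem_span_prod {A γ : Type} [CommRing A] [Algebra ℝ A] [Fintype γ] (v : γ → A)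
    {a : Fin l → A} (h : ∀ i, a i ∈ Submodule.span ℝ (Set.range v)) :
    ∏ i, a i ∈ Submodule.span ℝ (Set.range fun u : Fin l → γ => ∏ i, v (u i)) := by
  classical
  choose c hc using fun i => (Submodule.mem_span_range_iff_exists_fun ℝ).1 (h i)
  simp only [← hc]
  rw [prod_univ_sum]
  refine Submodule.sum_mem _ fun u _ => ?_
  simp only [Algebra.smul_def, prod_mul_distrib, ← map_prod]
  rw [← Algebra.smul_def]
  exact Submodule.smul_mem _ _ (Submodule.subset_span ⟨u, rfl⟩)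

theorem coeff_eq_zero_of_deg (h : DegLe (fun _ => 1) p l) {α : Fin D →₀ ℕ} (hα : α ∉ mi D l) :
    coeff α p = 0 := by
  by_contra h0
  exact hα (mem_mi.2 (degLe_one_iff.1 h α (mem_support_iff.2 h0)))

theorem eq_sum_mi (h : DegLe (fun _ => 1) p l) :
    p = ∑ α : {α // α ∈ mi D l}, monomial α.1 (coeff α.1 p) := by
  rw [sum_coe_sort (mi D l) fun α => monomial α (coeff α p)]
  conv_lhs => rw [p.as_sum]
  exact sum_subset (fun α hα => mem_mi.2 (degLe_one_iff.1 h α hα)) fun α _ hα => by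
    rw [notMem_support_iff.1 hα, map_zero]

theorem degLe_mono' {α : Fin D →₀ ℕ} (hα : α ∈ mi D l) (a : ℝ) :
    DegLe (fun _ => 1) (monomial α a : Pl (Fin D)) l :=
  degLe_one_iff.2 fun _ hm => (mem_singleton.1 (support_monomial_subset hm)).symm ▸ mem_mi.1 hα

/-- polynomials of degree `≤ l` with coefficients in `g α ℤ` -/
def frL (g : (Fin D →₀ ℕ) → ℤ) (l : ℕ) : Submodule ℤ (Pl (Fin D)) where
  carrier := {p | DegLe (fun _ => 1) p l ∧ ∀ α, ∃ z : ℤ, coeff α p = g α * z}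
  zero_mem' := ⟨degLe_zero _, fun _ => ⟨0, by simp⟩⟩
  add_mem' h h' := ⟨h.1.add h'.1, fun α => by
    obtain ⟨z, hz⟩ := h.2 α
    obtain ⟨z', hz'⟩ := h'.2 α
    exact ⟨z + z', by rw [coeff_add, hz, hz']; push_cast; ring⟩⟩
  smul_mem' n p h := ⟨by rw [← Int.cast_smul_eq_zsmul ℝ]; exact h.1.smul _, fun α => by
    obtain ⟨z, hz⟩ := h.2 α
    exact ⟨n * z, by rw [coeff_smul, hz, zsmul_eq_mul]; push_cast; ring⟩⟩

theorem mono_mem_frL {α : Fin D →₀ ℕ} (hα : α ∈ mi D l) :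
    (monomial α (g α : ℝ) : Pl (Fin D)) ∈ frL g l := by
  classical
  refine ⟨degLe_mono' hα _, fun β => ?_⟩
  rw [coeff_monomial]
  split_ifs with h
  exacts [⟨1, by simp [h]⟩, ⟨0, by simp⟩]

theorem frL_gen (h : p ∈ frL g l) : ∃ z : {α // α ∈ mi D l} → ℤ,
    p = ∑ α, z α • (monomial α.1 (g α.1 : ℝ) : Pl (Fin D)) := by
  choose z hz using h.2
  refine ⟨fun α => z α.1, (eq_sum_mi h.1).trans (sum_congr rfl fun α _ => ?_)⟩
  rw [hz, smul_monomial, zsmul_eq_mul, mul_comm]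

theorem mem_frE (hg : ∀ α, 0 < g α) :
    p ∈ Submodule.span ℝ (frL g l : Set (Pl (Fin D))) ↔ DegLe (fun _ => 1) p l := by
  refine ⟨fun h => ?_, fun h => ?_⟩
  · induction h using Submodule.span_induction with
    | mem x hx => exact hx.1
    | zero => exact degLe_zero _
    | add x y _ _ hx hy => exact hx.add hy
    | smul a x _ hx => exact hx.smul a
  · rw [eq_sum_mi h]
    refine Submodule.sum_mem _ fun α _ => ?_
    have h0 : (g α.1 : ℝ) ≠ 0 := by exact_mod_cast (hg α.1).ne'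
    have := Submodule.smul_mem _ (coeff α.1 p / g α.1)
      (Submodule.subset_span (R := ℝ) (s := (frL g l : Set (Pl (Fin D)))) (mono_mem_frL α.2))
    rwa [smul_monomial, smul_eq_mul, div_mul_cancel₀ _ h0] at this

theorem isInt_of_frL (h : p ∈ frL g l) : IsInt p := fun α =>
  let ⟨z, hz⟩ := h.2 α; ⟨g α * z, by rw [hz]; push_cast; ring⟩

theorem mem_frL_of {M : ℤ} (hM : ∀ α ∈ mi D l, g α ∣ M) (h : DegLe (fun _ => 1) p l)
    (hi : IsInt p) : C (M : ℝ) * p ∈ frL g l := by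
  refine ⟨h.C_mul _, fun α => ?_⟩
  rw [coeff_C_mul]
  by_cases hα : α ∈ mi D l
  · obtain ⟨k, rfl⟩ := hM α hα
    obtain ⟨n, hn⟩ := hi α
    exact ⟨k * n, by rw [hn]; push_cast; ring⟩
  · exact ⟨0, by simp [coeff_eq_zero_of_deg h hα]⟩

theorem mem_frL_lin (h1 : ∀ α, α.degree ≤ 1 → g α = 1) {k : ℕ} (hk : k ≤ 1) (hl : k ≤ l)
    (h : DegLe (fun _ => 1) p k) (hi : IsInt p) : p ∈ frL g l := by
  have := mem_frL_of (g := g) (M := 1) (fun α hα => by rw [h1 α ((mem_mi.1 hα).trans hk)]) h hi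
  rw [Int.cast_one, C_1, one_mul] at this
  exact ⟨h.mono hl, this.2⟩

/-- scaled coefficients -/
def frQ (s : ℕ) (sc : (Fin D →₀ ℕ) → ℝ) :
    Pl (Fin D) →ₗ[ℝ] EuclideanSpace ℝ {α // α ∈ mi D s} :=
  (WithLp.linearEquiv 2 ℝ _).symm.toLinearMap ∘ₗ LinearMap.pi fun α => (sc α.1)⁻¹ • lcoeff ℝ α.1

theorem norm_frQ (p : Pl (Fin D)) :
    ‖frQ s sc p‖ ^ 2 = ∑ α ∈ mi D s, (coeff α p / sc α) ^ 2 := by
  rw [EuclideanSpace.real_norm_sq_eq, ← sum_coe_sort (mi D s)]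
  exact sum_congr rfl fun α _ => by simp [frQ, div_eq_inv_mul]

theorem norm_frQ' (hl : l ≤ s) (h : DegLe (fun _ => 1) p l) :
    ‖frQ s sc p‖ ^ 2 = ∑ α ∈ mi D l, (coeff α p / sc α) ^ 2 := by
  rw [norm_frQ]
  exact (sum_subset (mi_mono hl) fun α _ hα => by simp [coeff_eq_zero_of_deg h hα]).symm

theorem norm_frQ_mono (hsc : ∀ α, 0 < sc α) (α : Fin D →₀ ℕ) (a : ℝ) :
    ‖frQ s sc (monomial α a)‖ ≤ |a| * (sc α)⁻¹ := by
  classical
  refine abs_le_of_sq_le_sq' ?_ (mul_nonneg (abs_nonneg _) (inv_pos.2 (hsc α)).le) |>.2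
  rw [norm_frQ, mul_pow, sq_abs, ← mul_pow, ← div_eq_mul_inv]
  simp only [coeff_monomial, ite_div, zero_div, ite_pow, zero_pow two_ne_zero, sum_ite_eq]
  split_ifs
  exacts [le_rfl, sq_nonneg _]

theorem norm_frQ_le (hsc : ∀ α, 0 < sc α) {U : ℝ} (hU : ∀ α ∈ mi D l, (sc α)⁻¹ ≤ U)
    (h : DegLe (fun _ => 1) p l) : ‖frQ s sc p‖ ≤ nrm p * U := by
  conv_lhs => rw [p.as_sum, map_sum]
  rw [nrm, sum_mul]
  exact (norm_sum_le _ _).trans (sum_le_sum fun α hα => (norm_frQ_mono hsc α _).trans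
    (mul_le_mul_of_nonneg_left (hU α (mem_mi.2 (degLe_one_iff.1 h α hα))) (abs_nonneg _)))

/-- **the pattern of frames** -/
def frP (s : ℕ) (hsc : ∀ α, 0 < sc α) (hg : ∀ α, 0 < g α) :
    Rg s (Pl (Fin D)) (EuclideanSpace ℝ {α // α ∈ mi D s}) where
  L := frL g
  t0 := 1
  Q _ := frQ s sc
  lat l := by
    classical
    refine isLat_of_gen (Fintype.linearIndependent_iff.2 fun c hc α => ?_) fun _ => frL_gen
    have h1 := congrArg (coeff α.1) hc
    rw [coeff_sum, sum_eq_single α (fun β _ hβ => by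
      rw [coeff_smul, coeff_monomial, if_neg fun h => hβ (Subtype.ext h), smul_zero]) (by simp),
      coeff_smul, coeff_monomial, if_pos rfl] at h1
    exact (mul_eq_zero.1 h1).resolve_right (by exact_mod_cast (hg α.1).ne')
  one_mem := (mem_frE hg).2 (degLe_one _)
  t0_mem := (mem_frE hg).2 (degLe_one _)
  mul_mem _ _ _ _ hx _ hy := (mem_frE hg).2 (((mem_frE hg).1 hx).mul ((mem_frE hg).1 hy))
  inj l hl p hp h := by
    have h1 := (mem_frE hg).1 hp
    have h2 := norm_frQ' (sc := sc) hl h1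
    rw [h, norm_zero, zero_pow two_ne_zero, eq_comm,
      sum_eq_zero_iff_of_nonneg fun _ _ => sq_nonneg _] at h2
    rw [eq_sum_mi h1]
    refine sum_eq_zero fun α _ => ?_
    rw [(div_eq_zero_iff.1 (pow_eq_zero_iff two_ne_zero |>.1 (h2 α.1 α.2))).resolve_right
      (hsc α.1).ne', map_zero]

/-- the monomial basis -/
def frTB (hsc : ∀ α, 0 < sc α) (hg : ∀ α, 0 < g α) (hl : l ≤ s) :
    TB (frL g l) (frQ s sc) (∑ α ∈ mi D s, |(sc α)⁻¹ * g α|) {α // α ∈ mi D l} where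
  v α := monomial α.1 (g α.1 : ℝ)
  co α := (sc α.1)⁻¹ • lcoeff ℝ α.1
  pos _ := 0
  mem α := mono_mem_frL α.2
  gen _ := frL_gen
  nrm y hy := by
    rw [norm_frQ' hl ((mem_frE hg).1 hy), ← sum_coe_sort (mi D l)]
    exact sum_congr rfl fun α _ => by simp [div_eq_inv_mul]
  tri i j h := by
    classical
    by_contra h1
    exact h (by simp [coeff_monomial, show i.1 ≠ j.1 from fun h2 => h1 (Or.inl (Subtype.ext h2))])
  ne j := by simp [(hsc j.1).ne', (hg j.1).ne']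
  le j := by
    refine le_trans (by simp) (single_le_sum (f := fun α => |(sc α)⁻¹ * g α|)
      (fun _ _ => abs_nonneg _) (mi_mono hl j.2))

/-- evaluation at a position -/
def evt (t : Fin D → ℤ) : Pl (Fin D) →ₐ[ℝ] ℝ := aeval fun i => (t i : ℝ)

theorem evt_map (t : Fin D → ℤ) (W : MvPolynomial (Fin D) ℤ) :
    evt t (map (Int.castRingHom ℝ) W) = (eval t W : ℤ) := by
  induction W using MvPolynomial.induction_on with
  | C a => simp [evt]
  | add p q hp hq => simp only [map_add, hp, hq, Int.cast_add]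
  | mul_X p i hp => rw [map_mul, map_mul, hp]; simp [evt]

theorem dvd_eval_sub {k : ℤ} {t t' : Fin D → ℤ} (h : ∀ i, k ∣ t' i - t i)
    (W : MvPolynomial (Fin D) ℤ) : k ∣ eval t' W - eval t W := by
  induction W using MvPolynomial.induction_on with
  | C a => simp
  | add p q hp hq => rw [map_add, map_add, add_sub_add_comm]; exact dvd_add hp hq
  | mul_X p i hp =>
    rw [map_mul, map_mul, eval_X, eval_X, show eval t' p * t' i - eval t p * t i =
      (eval t' p - eval t p) * t' i + eval t p * (t' i - t i) by ring]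
    exact dvd_add (hp.mul_right _) ((h i).mul_left _)

/-- the centred variable -/
def xc (t : Fin D → ℤ) (i : Fin D) : Pl (Fin D) := X i - C (t i : ℝ)

theorem evt_xc (t t' : Fin D → ℤ) (i : Fin D) : evt t' (xc t i) = ((t' - t) i : ℤ) := by
  simp [evt, xc]

theorem evt_C (t : Fin D → ℤ) (a : ℝ) : evt t (C a) = a := by simp [evt]

theorem xc_deg (t : Fin D → ℤ) (i : Fin D) : DegLe (fun _ => 1) (xc t i) 1 :=
  (degLe_X i).sub (degLe_C _ _)

theorem xc_int (t : Fin D → ℤ) (i : Fin D) : IsInt (xc t i) := (isInt_X i).sub (isInt_C_int _)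

/-- linear generators adapted to two positions -/
def gn (t t' : Fin D → ℤ) (i : Fin D) : Option (Option (Fin D)) → Pl (Fin D)
  | none => -xc t' i
  | some none => xc t i
  | some (some j) => C (((t' - t) i : ℤ) : ℝ) * xc t j - C (((t' - t) j : ℤ) : ℝ) * xc t i

theorem gn_spec {t t' : Fin D → ℤ} {L : ℝ} (ht : ∀ i, |(t i : ℝ)| ≤ L) (ht' : ∀ i, |(t' i : ℝ)| ≤ L)
    (i : Fin D) (j : Option (Option (Fin D))) :
    DegLe (fun _ => 1) (gn t t' i j) 1 ∧ IsInt (gn t t' i j) ∧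
      nrm (gn t t' i j) ≤ 4 * (1 + L) ^ 2 := by
  have L0 : 0 ≤ L := (abs_nonneg _).trans (ht i)
  have n1 : ∀ {u : Fin D → ℤ}, (∀ i, |(u i : ℝ)| ≤ L) → ∀ j, nrm (xc u j) ≤ 1 + L :=
    fun hu j => (nrm_sub_le _ _).trans (by rw [nrm_X, nrm_C]; linarith [hu j])
  have n2 : ∀ j, |(((t' - t) j : ℤ) : ℝ)| ≤ 2 * (1 + L) := fun j => by
    rw [Pi.sub_apply, Int.cast_sub]
    linarith [abs_sub (t' j : ℝ) (t j), ht j, ht' j]
  rcases j with _ | _ | j
  · exact ⟨(xc_deg _ _).neg, (xc_int _ _).neg, by rw [gn, nrm_neg]; nlinarith [n1 ht' i]⟩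
  · exact ⟨xc_deg _ _, xc_int _ _, by rw [gn]; nlinarith [n1 ht i]⟩
  · refine ⟨((xc_deg _ _).C_mul _).sub ((xc_deg _ _).C_mul _),
      ((xc_int _ _).int_mul _).sub ((xc_int _ _).int_mul _), (nrm_sub_le _ _).trans ?_⟩
    rw [nrm_C_mul, nrm_C_mul]
    nlinarith [mul_le_mul (n2 i) (n1 ht j) (nrm_nonneg _) (by positivity),
      mul_le_mul (n2 j) (n1 ht i) (nrm_nonneg _) (by positivity)]

theorem span_of_lin {γ : Type} [Fintype γ] (v : γ → Pl (Fin D))
    (h1 : 1 ∈ Submodule.span ℝ (Set.range v)) (hX : ∀ j, X j ∈ Submodule.span ℝ (Set.range v))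
    (hp : DegLe (fun _ => 1) p l) :
    p ∈ Submodule.span ℝ (Set.range fun u : Fin l → γ => ∏ i, v (u i)) := by
  rw [eq_sum_mi hp]
  refine Submodule.sum_mem _ fun α _ => ?_
  obtain ⟨u, hu⟩ := exists_prod_gen l α.1 (mem_mi.1 α.2)
  have e : (monomial α.1 (coeff α.1 p) : Pl (Fin D)) = coeff α.1 p • ∏ i, gen ℝ D (u i) := by
    rw [hu, smul_monomial, smul_eq_mul, mul_one]
  rw [e]
  refine Submodule.smul_mem _ _ (prod_mem_span_prod _ fun k => ?_)
  rcases u k with _ | j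
  exacts [h1, hX j]

theorem gn_span {M : ℤ} (hM : M ≠ 0) {t t' : Fin D → ℤ} {i : Fin D} (hi : (t' - t) i ≠ 0) :
    1 ∈ Submodule.span ℝ (Set.range fun j => C (M : ℝ) * gn t t' i j) ∧
      ∀ j, X j ∈ Submodule.span ℝ (Set.range fun j => C (M : ℝ) * gn t t' i j) := by
  have M0 : (M : ℝ) ≠ 0 := by exact_mod_cast hM
  have h0 : (((t' - t) i : ℤ) : ℝ) ≠ 0 := by exact_mod_cast hi
  obtain ⟨N, hN⟩ : ∃ N, N = Submodule.span ℝ (Set.range fun j => C (M : ℝ) * gn t t' i j) :=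
    ⟨_, rfl⟩
  have n0 : ∀ j, gn t t' i j ∈ N := fun j => by
    have h1 : C (M : ℝ) * gn t t' i j ∈ N := by rw [hN]; exact Submodule.subset_span ⟨j, rfl⟩
    have := N.smul_mem (M : ℝ)⁻¹ h1
    rwa [smul_eq_C_mul, ← mul_assoc, ← map_mul, inv_mul_cancel₀ M0, C_1, one_mul] at this
  have n1 : (1 : Pl (Fin D)) ∈ N := by
    have := N.smul_mem (((t' - t) i : ℤ) : ℝ)⁻¹ (add_mem (n0 none) (n0 (some none)))
    rwa [show gn t t' i none + gn t t' i (some none) = C (((t' - t) i : ℤ) : ℝ) by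
      simp only [gn, xc, Pi.sub_apply, Int.cast_sub, map_sub]; ring, smul_eq_C_mul, ← map_mul,
      inv_mul_cancel₀ h0, C_1] at this
  rw [← hN]
  refine ⟨n1, fun j => ?_⟩
  have := add_mem (N.smul_mem (((t' - t) i : ℤ) : ℝ)⁻¹ (add_mem (n0 (some (some j)))
    (N.smul_mem (((t' - t) j : ℤ) : ℝ) (n0 (some none))))) (N.smul_mem (t j : ℝ) n1)
  rwa [gn, gn, smul_eq_C_mul, smul_eq_C_mul, smul_eq_C_mul, sub_add_cancel, ← mul_assoc,
    ← map_mul, inv_mul_cancel₀ h0, C_1, one_mul, mul_one, xc, sub_add_cancel] at this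

/-- generators of the pattern of frames -/
def frG (hsc : ∀ α, 0 < sc α) (hg : ∀ α, 0 < g α) {M : ℤ} (hM0 : 0 < M)
    (hM : ∀ α ∈ mi D s, g α ∣ M) {U L : ℝ} (hU : ∀ α ∈ mi D s, (sc α)⁻¹ ≤ U) {t t' : Fin D → ℤ}
    (ht : ∀ i, |(t i : ℝ)| ≤ L) (ht' : ∀ i, |(t' i : ℝ)| ≤ L) {i : Fin D} (hi : (t' - t) i ≠ 0) :
    (frP s hsc hg).Gens (Option (Option (Fin D))) ((M * (4 * (1 + L) ^ 2)) ^ s * U) where
  g j := C (M : ℝ) * gn t t' i j
  mem l h1 hl u := by
    rw [prod_mul_distrib, prod_const, card_univ, Fintype.card_fin, ← map_pow, ← Int.cast_pow]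
    exact mem_frL_of (fun α hα => (hM α (mi_mono hl hα)).trans (dvd_pow_self M (by omega)))
      (by simpa using degLe_prod (s := univ) fun k _ => (gn_spec ht ht' i (u k)).1)
      (isInt_prod fun k _ => (gn_spec ht ht' i (u k)).2.1)
  nrm l h1 hl u := by
    have L0 : 0 ≤ L := (abs_nonneg _).trans (ht i)
    have M1 : (1 : ℝ) ≤ M := by exact_mod_cast hM0
    refine (norm_frQ_le (l := l) hsc (fun α hα => hU α (mi_mono hl hα)) (by
      simpa using degLe_prod (s := univ) fun k _ => (gn_spec ht ht' i (u k)).1.C_mul (M : ℝ))).trans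
      (mul_le_mul_of_nonneg_right ((nrm_prod_le _ _).trans ?_)
        ((inv_pos.2 (hsc 0)).le.trans (hU 0 (zero_mem_mi _ _))))
    refine (prod_le_prod (g := fun _ => M * (4 * (1 + L) ^ 2)) (fun _ _ => nrm_nonneg _)
      fun k _ => ?_).trans ?_
    · rw [nrm_C_mul, abs_of_pos (by linarith)]
      exact mul_le_mul_of_nonneg_left (gn_spec ht ht' i (u k)).2.2 (by linarith)
    · rw [prod_const, card_univ, Fintype.card_fin]
      exact pow_le_pow_right₀ (one_le_mul_of_one_le_of_one_le M1 (by nlinarith)) hl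
  span l _ _ p hp := span_of_lin (l := l) (p := p) (fun j => C (M : ℝ) * gn t t' i j)
    (gn_span hM0.ne' hi).1 (gn_span hM0.ne' hi).2 ((mem_frE (l := l) hg).1 hp)

variable {ι : Type} [Fintype ι] {T : Cell ι}

theorem pairHyp_frP (hsc : ∀ α, 0 < sc α) (hg : ∀ α, 0 < g α) (h1 : ∀ α, α.degree ≤ 1 → g α = 1)
    {M : ℤ} (hM0 : 0 < M) (hM : ∀ α ∈ mi D s, g α ∣ M) {U L : ℝ} (hU1 : 1 ≤ U)
    (hU : ∀ α ∈ mi D s, (sc α)⁻¹ ≤ U) {t t' : Fin D → ℤ} (ht : ∀ i, |(t i : ℝ)| ≤ L)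
    (ht' : ∀ i, |(t' i : ℝ)| ≤ L) {i : Fin D} (hi : (t' - t) i ≠ 0) {V : ℝ}
    (hV : (sc (Finsupp.single i 1))⁻¹ + L * (sc 0)⁻¹ ≤ V * |(((t' - t) i : ℤ) : ℝ)|)
    (hlev : ∀ c, T.lev c ≤ s) {x η : ℝ}
    (hx : loss s (2 * (D + 2)) (2 * ((M * (4 * (1 + L) ^ 2)) ^ s * U)) ≤ x) (hA : T.AllPC x η)
    (hη : 0 < η) (hη1 : η ≤ 1 / 16) :
    PairHyp (thf T) id (av ((frP s hsc hg).wt T (Off.zero ι _))) (ipt (evt t)) (ipt (evt t'))
      (igcd (t' - t)) (V ^ 2) (5 * √η) := by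
  have M1 : (1 : ℝ) ≤ M := by exact_mod_cast hM0
  have L0 : 0 ≤ L := (abs_nonneg _).trans (ht i)
  have h0 : (((t' - t) i : ℤ) : ℝ) ≠ 0 := by exact_mod_cast hi
  refine pairHyp_rg (frP s hsc hg) rfl (frG hsc hg hM0 hM hU ht ht' hi) (evt t) (evt t')
    (j0 := none) (ja := some none) ?_ ?_ ?_ ?_ (fun l y hy => ?_)
    (Nat.pos_of_ne_zero fun h => hi (congrFun (igcd_eq_zero.1 h) i)) (fun l y hy h => ?_)
    (fun l => mem_frL_lin h1 zero_le_one (Nat.zero_le l) (degLe_one _) isInt_one)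
    (fun l hl => ?_) (fun l hl _ => ?_) hlev
    (one_le_mul_of_one_le_of_one_le (one_le_pow₀ (one_le_mul_of_one_le_of_one_le M1
      (by nlinarith))) hU1) (by simpa [add_assoc] using hx) hA hη hη1
  · rintro (_ | _ | j) hj
    · exact absurd rfl hj
    all_goals simp [frG, gn, evt_xc]
  · have : t i - t' i ≠ 0 := fun h => hi (by rw [Pi.sub_apply]; omega)
    simpa [frG, gn, evt_xc, evt_C, hM0.ne', ← Int.cast_sub] using this
  · rintro (_ | _ | j) hj
    · simp [frG, gn, evt_xc]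
    · exact absurd rfl hj
    · simp only [frG, gn, map_mul, map_sub, evt_xc, evt_C]
      ring
  · simp only [frG, gn, map_mul, evt_xc, evt_C]
    exact mul_ne_zero (by linarith) h0
  · obtain ⟨W, rfl⟩ := isInt_iff.1 (isInt_of_frL hy)
    exact ⟨⟨_, evt_map t W⟩, _, evt_map t' W⟩
  · obtain ⟨W, rfl⟩ := isInt_iff.1 (isInt_of_frL hy)
    obtain ⟨n, hn⟩ := dvd_eval_sub (dvd_igcd.1 (dvd_refl (igcd (t' - t)))) W
    rw [evt_map, Int.cast_eq_zero] at h
    rw [h, sub_zero] at hn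
    exact ⟨n, by rw [evt_map, hn]; push_cast; ring⟩
  · obtain ⟨u, hu⟩ := exists_bezout (t' - t)
    refine ⟨∑ j, C (u j : ℝ) * xc t j, mem_frL_lin h1 le_rfl hl
      (degLe_sum fun j _ => (xc_deg t j).C_mul _) (isInt_sum fun j _ => (xc_int t j).int_mul _),
      by simp [evt_xc], ?_⟩
    simp only [map_sum, map_mul, evt_xc, evt_C]
    rw [← Int.cast_natCast, ← hu]
    push_cast
    exact sum_congr rfl fun j _ => mul_comm _ _
  · refine ⟨(((t' - t) i : ℤ) : ℝ)⁻¹ • xc t i, (mem_frE hg).2 (((xc_deg t i).smul _).mono hl),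
      by simp [evt_xc], by rw [map_smul, evt_xc, smul_eq_mul, inv_mul_cancel₀ h0], ?_⟩
    refine pow_le_pow_left₀ (norm_nonneg _) ?_ 2
    rw [map_smul, norm_smul, Real.norm_eq_abs, abs_inv, inv_mul_le_iff₀ (abs_pos.2 h0), mul_comm]
    refine le_trans ?_ hV
    show ‖frQ s sc (xc t i)‖ ≤ _
    rw [xc, map_sub]
    refine (norm_sub_le _ _).trans (add_le_add ?_ ((norm_frQ_mono hsc 0 _).trans
      (mul_le_mul_of_nonneg_right (ht i) (inv_pos.2 (hsc 0)).le)))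
    exact (norm_frQ_mono hsc (Finsupp.single i 1) 1).trans (by simp)

omit [Fintype ι] in
theorem PairHyp.equiv {X Ω Ω' κ n : Type*} [Fintype κ] {θ : X → κ → ℝ} {ρ : X → n → ℤ}
    {w : Ω → ℝ} {e e' : Ω → X} {k : ℕ} {qs τ : ℝ} (h : PairHyp θ ρ (av w) e e' k qs τ)
    (E : Ω' ≃ Ω) : PairHyp θ ρ (av (w ∘ E)) (e ∘ E) (e' ∘ E) k qs τ := by
  obtain ⟨q, hq, h⟩ := h
  refine ⟨q, hq, fun R ε h1 h2 u hu => le_of_eq_of_le ?_ (h R ε h1 h2 u hu)⟩
  rw [av, av, ← E.tsum_eq w, ← E.tsum_eq fun y => w y * (u (e y) * R (e' y))]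
  rfl

theorem lm_std (T : Cell ι) : lm (thf T) id (fun _ => 1) 0 1 0 = av T.wgt := by
  funext f
  rw [lm]
  congr 1
  funext z
  simp [cw_one, gw, thf, Tri.wgt]

/-- the point of the frame with coordinates `z` at the position `t` -/
def fpt (S : Sh ι D) (lev : ι → ℕ) (t : Fin D → ℤ) (z : FI D lev → ℤ) (c : ι) : ℤ :=
  eval t (S.fr z c)

/-- **the pair law for frames** -/
theorem pairHyp_fc (S : Sh ι D) (hr : S.r = 0) (hc : S.cen = 0) (hsc : ∀ α, 0 < sc α)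
    (hg : ∀ α, 0 < g α) (hS : ∀ c, ∀ α ∈ mi D (T.lev c), S.sc c α = sc α ∧ S.g c α = g α)
    (hlev : ∀ c, T.lev c ≤ s) {t t' : Fin D → ℤ} {k : ℕ} {qs τ : ℝ}
    (h : PairHyp (thf T) id (av ((frP s hsc hg).wt T (Off.zero ι _))) (ipt (evt t)) (ipt (evt t'))
      k qs τ) :
    PairHyp (thf T) id (lm (thf (S.fc T)) id (fun _ => 1) 0 1 0) (fpt S T.lev t) (fpt S T.lev t')
      k qs τ := by
  set E := (frP s hsc hg).ptE T fun c => frTB hsc hg (hlev c)
  have e1 : ∀ z c, (E z c : Pl (Fin D)) = rl (S.fr z) c := fun z c => by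
    refine ((frTB hsc hg (hlev c)).eqv_apply _).trans ?_
    rw [rl, Sh.fr, hr, Pi.zero_apply, zero_add, map_sum]
    refine sum_congr rfl fun α _ => ?_
    rw [map_monomial, (hS c α.1 α.2).2]
    show z ⟨c, α⟩ • (monomial α.1 (g α.1 : ℝ) : Pl (Fin D)) = _
    rw [smul_monomial, zsmul_eq_mul, mul_comm]
    simp
  have e2 : ∀ t, ipt (evt t) ∘ E = fpt S T.lev t := fun t => _root_.funext fun z =>
    _root_.funext fun c => by
      show ⌊evt t (E z c)⌋ = _
      rw [e1, rl, evt_map, Int.floor_intCast, fpt]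
  have e3 : (frP s hsc hg).wt T (Off.zero ι _) ∘ E = (S.fc T).wgt := _root_.funext fun z => by
    rw [Sh.fc_wgt, Sh.wt, Sh.qf, Function.comp, Rg.wt]
    congr 2
    refine sum_congr rfl fun c _ => ?_
    have e4 : (frP s hsc hg).dv T (Off.zero ι _) (E z) c = bind₁ (rl (S.fr z)) (T.th c) := by
      refine (sub_zero _).trans ((hev_one _ _ (degLe_th T c)).trans ?_)
      exact congrArg (fun w => aeval w (T.th c)) (_root_.funext fun c' => (zero_add _).trans (e1 z c'))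
    refine (norm_frQ' (hlev c) ((mem_frE hg).1
      ((frP s hsc hg).dv_mem T hlev (Rg.offMem_zero _) (E z) c))).trans ?_
    rw [e4, hc, Pi.zero_apply, sub_zero]
    exact sum_congr rfl fun α hα => by rw [(hS c α hα).1]
  have := h.equiv E
  rwa [e2, e2, e3, ← lm_std] at this

/-- the windows of the points are controlled by the windows of the frames -/
theorem thf_fpt (S : Sh ι D) (hr : S.r = 0) (hlev : ∀ c, T.lev c ≤ s) {L : ℝ}
    (hL : ∀ c α, S.sc c α * L ^ α.degree ≤ 1) {t : Fin D → ℤ} (ht : ∀ i, |(t i : ℝ)| ≤ L)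
    (z z' : FI D T.lev → ℤ) :
    ∑ c, (thf T (fpt S T.lev t z) c - thf T (fpt S T.lev t z') c) ^ 2 ≤
      (s + 1) ^ D * ∑ x, (thf (S.fc T) z x - thf (S.fc T) z' x) ^ 2 := by
  rw [Fintype.sum_sigma, mul_sum]
  refine sum_le_sum fun c _ => ?_
  have d1 : ∀ z : FI D T.lev → ℤ, DegLe (fun _ => 1) (bind₁ (rl (S.fr z)) (T.th c)) (T.lev c) :=
    fun z => degLe_one_iff.2 fun m hm => mem_mi.1
      (support_bind_th T ⟨S.fr z, fr_deg S (fun c => by simp [hr]) z⟩ c hm)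
  have e1 : ∀ z, thf T (fpt S T.lev t z) c = evt t (bind₁ (rl (S.fr z)) (T.th c)) := fun z =>
    (ev_bind_of (z := t) (fun c' => evt_map t _) _).symm
  rw [e1, e1, ← map_sub, eq_sum_mi ((d1 z).sub (d1 z')), map_sum]
  have e2 : ∀ α : {α // α ∈ mi D (T.lev c)},
      evt t (monomial α.1 (coeff α.1 (bind₁ (rl (S.fr z)) (T.th c) - bind₁ (rl (S.fr z')) (T.th c))))
        = (S.sc c α.1 * ∏ i, (t i : ℝ) ^ α.1 i) *
          (thf (S.fc T) z ⟨c, α⟩ - thf (S.fc T) z' ⟨c, α⟩) := fun α => by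
    have := (S.sc_pos c α.1).ne'
    rw [thf, thf, Sh.ev_fc_th, Sh.ev_fc_th, evt, aeval_monomial, Finsupp.prod_fintype _ _ (by simp)]
    simp only [coeff_sub, Algebra.algebraMap_self, RingHom.id_apply]
    field_simp
    ring
  simp only [e2]
  refine (sum_mul_sq_le_sq_mul_sq _ _ _).trans (mul_le_mul_of_nonneg_right ?_
    (sum_nonneg fun _ _ => sq_nonneg _))
  refine (sum_le_card_nsmul _ _ 1 fun α _ => (sq_le_one_iff_abs_le_one _).2 ?_).trans ?_
  · rw [abs_mul, abs_of_pos (S.sc_pos _ _), abs_prod]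
    refine le_trans (mul_le_mul_of_nonneg_left ?_ (S.sc_pos _ _).le) (hL c α.1)
    rw [Finsupp.degree_eq_sum, ← prod_pow_eq_pow_sum]
    exact prod_le_prod (fun _ _ => abs_nonneg _) fun i _ => by
      rw [abs_pow]; exact pow_le_pow_left₀ (abs_nonneg _) (ht i) _
  · rw [card_univ, Fintype.card_coe, nsmul_eq_mul, mul_one]
    exact_mod_cast (card_mi_le D _).trans (Nat.pow_le_pow_left (Nat.succ_le_succ (hlev c)) D)

/-- the coefficients of the linear form `z ↦ fpt t z` -/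
def fco (S : Sh ι D) (lev : ι → ℕ) (t : Fin D → ℤ) (c : ι) (α : {α // α ∈ mi D (lev c)}) : ℤ :=
  S.g c α.1 * ∏ i, t i ^ α.1 i

omit [Fintype ι] in
theorem fpt_eq (S : Sh ι D) (hr : S.r = 0) (lev : ι → ℕ) (t : Fin D → ℤ) (z : FI D lev → ℤ) :
    fpt S lev t z = linOf (fco S lev) t z := by
  funext c
  rw [fpt, Sh.fr, hr, Pi.zero_apply, zero_add, map_sum, linOf_apply]
  refine sum_congr rfl fun α _ => ?_
  rw [eval_monomial, Finsupp.prod_fintype _ _ (by simp), fco]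
  ring

end Crest.Agent.T49.Samp
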