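import Crest.Agent.T49.StAbs_57
import Crest.Agent.T49.StCell_57
import Crest.Agent.T49.RngGen_63

/-!
# Row 49 (helper57): the law of a second point of a pattern given the first one
-/

set_option autoImplicit false

noncomputable section

namespace Crest.Agent.T49.Samp

open Tw Rng Finset MvPolynomial
open scoped InnerProductSpace

section
variable {s : ℕ} {A F A0 F0 F1 : Type} [CommRing A] [Algebra ℝ A] [NormedAddCommGroup F]
  [InnerProductSpace ℝ F] [CommRing A0] [Algebra ℝ A0] [NormedAddCommGroup F0]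
  [InnerProductSpace ℝ F0] [NormedAddCommGroup F1] [InnerProductSpace ℝ F1] {γ ι : Type} {K : ℝ}

/-- criterion for a kernel generated in degree one -/
theorem kgen_of {R : Rg s A F} {R0 : Rg s A0 F0} (S : Sur R R0 F1) (G : R.Gens γ K) {κ : γ → Prop}
    (h0 : ∀ j, κ j → S.φ (G.g j) = 0) (W : ℕ → Submodule ℝ A)
    (hW : ∀ l, ∀ u : Fin l → γ, (∀ i, ¬ κ (u i)) → ∏ i, G.g (u i) ∈ W l)
    (hi : ∀ l, 1 ≤ l → ∀ y ∈ W l, S.φ y = 0 → y = 0) : S.KGen G κ := by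
  refine ⟨h0, fun l h1 hl y hy hφ => ?_⟩
  set U := Submodule.span ℝ {x | ∃ u : Fin l → γ, (∃ i, κ (u i)) ∧ x = ∏ i, G.g (u i)}
  have hU : ∀ x ∈ U, S.φ x = 0 := fun x hx =>
    (Submodule.span_le (p := LinearMap.ker S.φ.toLinearMap)).2 (by
      rintro _ ⟨u, ⟨i, hi⟩, rfl⟩
      show S.φ _ = 0
      rw [map_prod]
      exact prod_eq_zero (mem_univ i) (h0 _ hi)) hx
  have h2 : y ∈ U ⊔ W l := by
    refine Submodule.span_le.2 ?_ (G.span l h1 hl hy)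
    rintro _ ⟨u, rfl⟩
    by_cases hu : ∃ i, κ (u i)
    · exact Submodule.mem_sup_left (Submodule.subset_span ⟨u, hu, rfl⟩)
    · exact Submodule.mem_sup_right (hW l u fun i hi => hu ⟨i, hi⟩)
  obtain ⟨a, ha, b, hb, rfl⟩ := Submodule.mem_sup.1 h2
  rw [map_add, hU a ha, zero_add] at hφ
  rwa [hi l h1 b hb hφ, add_zero]

theorem eq_zero_of_span_pow (φ : A →ₐ[ℝ] ℝ) {a : A} (ha : φ a ≠ 0) {l : ℕ} {y : A}
    (hy : y ∈ Submodule.span ℝ {a ^ l}) (h : φ y = 0) : y = 0 := by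
  obtain ⟨c, rfl⟩ := Submodule.mem_span_singleton.1 hy
  rw [map_smul, map_pow, smul_eq_mul] at h
  rw [(mul_eq_zero.1 h).resolve_right (pow_ne_zero _ ha), zero_smul]

theorem isLat_int {L : Submodule ℤ ℝ} (h : ∀ y ∈ L, ∃ n : ℤ, y = n) : IsLat L :=
  isLat_of_gen (β := Unit) (v := fun _ => (1 : ℝ)) (linearIndependent_unique_iff.2 one_ne_zero)
    fun y hy => let ⟨n, hn⟩ := h y hy; ⟨fun _ => n, by simp [hn]⟩

/-- the integer point of a pattern along a character -/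
def ipt {R : Rg s A F} {T : Cell ι} (φ : A →ₐ[ℝ] ℝ) (w : R.Pt T) (c : ι) : ℤ := ⌊φ (w c)⌋

theorem norm_sq_pair (Q : ℝ × ℝ →ₗ[ℝ] F) (h : Q (0, 1) ≠ 0) (a b : ℝ) :
    ‖Q (a, b)‖ ^ 2 = (‖Q (1, 0)‖ ^ 2 - ⟪Q (1, 0), Q (0, 1)⟫_ℝ ^ 2 / ‖Q (0, 1)‖ ^ 2) * a ^ 2 +
      ‖Q (0, 1)‖ ^ 2 * (b - -(⟪Q (1, 0), Q (0, 1)⟫_ℝ / ‖Q (0, 1)‖ ^ 2 * a)) ^ 2 := by
  have e : Q (a, b) = a • Q (1, 0) + b • Q (0, 1) := by
    rw [← map_smul, ← map_smul, ← map_add]
    simp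
  have h1 : ‖Q (0, 1)‖ ≠ 0 := norm_ne_zero_iff.2 h
  rw [e, norm_add_sq_real, norm_smul, norm_smul, real_inner_smul_left, real_inner_smul_right,
    mul_pow, mul_pow, Real.norm_eq_abs, Real.norm_eq_abs, sq_abs, sq_abs]
  field_simp
  ring

variable [Fintype ι]

theorem wt_cw (T : Cell ι) {q : ι → ℝ} (hq : ∀ i, 0 < q i) (c : ι → ℝ) (d : ℕ) (r : ι → ℤ) :
    Wt (cw (thf T) id q c d r) := by
  have hs : Summable (cw (thf T) id q c d r) := Summable.of_nonneg_of_le cw_nonneg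
    (fun _ => mul_le_of_le_one_left (gw_pos _ _ _ _).le (cls_le_one _ _ _)) (summable_gw T hq c)
  refine ⟨cw_nonneg, hs, hs.tsum_pos cw_nonneg r ?_⟩
  rw [cw, id, cls, if_pos (Cong.refl d r), one_mul]
  exact gw_pos _ _ _ _

/-- patterns of pairs of points in the same class -/
theorem pair_sum (P : Rg s (ℝ × ℝ) F) (ht : P.t0 = 1) {T : Cell ι} (hlev : ∀ c, T.lev c ≤ s)
    {g : ℕ} (hg : 0 < g)
    (hL : ∀ c y, y ∈ P.L (T.lev c) ↔ ∃ m n : ℤ, y = ((m : ℝ), ((m + g * n : ℤ) : ℝ)))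
    (hq : ∀ c, P.Q (T.lev c) (0, 1) ≠ 0) {f : (ι → ℤ) → ℝ} (hf : ∀ x, |f x| ≤ 1) {ε : ℝ}
    (hε : ∀ c r, |lm (thf T) id (fun c => ‖P.Q (T.lev c) (0, 1)‖ ^ 2) c g r f| ≤ ε) :
    |∑' p : P.Pt T, P.wt T (Off.zero ι _) p *
      (f (ipt (AlgHom.fst ℝ ℝ ℝ) p) * f (ipt (AlgHom.snd ℝ ℝ ℝ) p))| ≤ ε * P.M T (Off.zero ι _) := by
  set q : ι → ℝ := fun c => ‖P.Q (T.lev c) (0, 1)‖ ^ 2 with hqd
  have q0 : ∀ c, 0 < q c := fun c => pow_pos (norm_pos_iff.2 (hq c)) 2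
  have g0 : (g : ℤ) ≠ 0 := by exact_mod_cast hg.ne'
  let E : (ι → ℤ) × (ι → ℤ) ≃ P.Pt T := Equiv.ofBijective
    (fun x c => ⟨((x.1 c : ℝ), ((x.1 c + g * x.2 c : ℤ) : ℝ)), (hL c _).2 ⟨_, _, rfl⟩⟩) (by
      constructor
      · intro x x' h
        have h1 := fun c => Prod.ext_iff.1 (congrArg Subtype.val (congrFun h c))
        have h2 : ∀ c, x.1 c = x'.1 c := fun c => Int.cast_injective (α := ℝ) (h1 c).1
        refine Prod.ext (funext h2) (funext fun c => ?_)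
        have h3 : x.1 c + g * x.2 c = x'.1 c + g * x'.2 c := Int.cast_injective (α := ℝ) (h1 c).2
        rw [h2 c] at h3
        exact mul_left_cancel₀ g0 (add_left_cancel h3)
      · intro p
        choose m n h using fun c => (hL c _).1 (p c).2
        exact ⟨(m, n), funext fun c => Subtype.ext (h c).symm⟩)
  have e1 : ∀ x, ipt (AlgHom.fst ℝ ℝ ℝ) (E x) = x.1 := fun x => funext fun c => Int.floor_intCast _
  have e2 : ∀ x, ipt (AlgHom.snd ℝ ℝ ℝ) (E x) = x.1 + (g : ℤ) • x.2 := fun x =>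
    funext fun c => Int.floor_intCast _
  set cen : (ι → ℤ) → ι → ℝ := fun x c =>
    -(⟪P.Q (T.lev c) (1, 0), P.Q (T.lev c) (0, 1)⟫_ℝ / q c * thf T x c) with hcen
  set a : (ι → ℤ) → ℝ := fun x => Real.exp (-Real.pi * ∑ c, (‖P.Q (T.lev c) (1, 0)‖ ^ 2 -
    ⟪P.Q (T.lev c) (1, 0), P.Q (T.lev c) (0, 1)⟫_ℝ ^ 2 / q c) * thf T x c ^ 2) with ha
  have e3 : ∀ x, P.wt T (Off.zero ι _) (E x) =
      a x.1 * gw (thf T) q (cen x.1) (x.1 + (g : ℤ) • x.2) := fun x => by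
    rw [ha, gw, ← Real.exp_add, ← mul_add, ← sum_add_distrib, Rg.wt]
    congr 2
    refine sum_congr rfl fun c _ => ?_
    have e4 : P.dv T (Off.zero ι _) (E x) c = (thf T x.1 c, thf T (x.1 + (g : ℤ) • x.2) c) := by
      rw [Rg.dv, Rg.th, ht, hev_one _ _ (degLe_th T c)]
      refine (sub_zero _).trans (Prod.ext ?_ ?_)
      · refine (comp_aeval_apply _ (AlgHom.fst ℝ ℝ ℝ) _).trans ?_
        exact congrArg (fun w => aeval w (T.th c)) (funext fun c' => zero_add _)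
      · refine (comp_aeval_apply _ (AlgHom.snd ℝ ℝ ℝ) _).trans ?_
        exact congrArg (fun w => aeval w (T.th c)) (funext fun c' => zero_add _)
    rw [e4, norm_sq_pair _ (hq c)]
  have s1 : Summable fun x => P.wt T (Off.zero ι _) (E x) :=
    E.summable_iff.2 (P.summable_wt hlev P.offMem_zero)
  have b1 : ∀ x : (ι → ℤ) × (ι → ℤ), |f x.1 * f (x.1 + (g : ℤ) • x.2)| ≤ 1 := fun x => by
    rw [abs_mul]; exact mul_le_one₀ (hf _) (abs_nonneg _) (hf _)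
  have s2 := summable_mul_bdd s1 (fun x => (P.wt_pos _ _).le) (Bdd.of_le 1 b1)
  rw [Rg.M, ← E.tsum_eq, ← E.tsum_eq]
  simp only [e1, e2]
  rw [s2.tsum_prod, s1.tsum_prod, ← tsum_mul_left]
  have key : ∀ x, |∑' y, P.wt T (Off.zero ι _) (E (x, y)) * (f x * f (x + (g : ℤ) • y))| ≤
      ε * ∑' y, P.wt T (Off.zero ι _) (E (x, y)) := fun x => by
    have hw := wt_cw T q0 (cen x) g x
    have i1 : ∑' y, P.wt T (Off.zero ι _) (E (x, y)) =
        a x * ∑' z, cw (thf T) id q (cen x) g x z := by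
      simp only [e3, cw, id]
      rw [tsum_mul_left, tsum_cls hg]
    have i2 : ∑' y, P.wt T (Off.zero ι _) (E (x, y)) * (f x * f (x + (g : ℤ) • y)) =
        f x * lm (thf T) id q (cen x) g x f * (a x * ∑' z, cw (thf T) id q (cen x) g x z) := by
      rw [lm, av, mul_mul_mul_comm, div_mul_cancel₀ _ hw.pos.ne']
      simp only [e3, cw, id, mul_assoc]
      rw [tsum_cls hg x fun z => gw (thf T) q (cen x) z * f z, ← tsum_mul_left, ← tsum_mul_left]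
      exact tsum_congr fun y => by ring
    have p0 : 0 < a x * ∑' z, cw (thf T) id q (cen x) g x z := mul_pos (Real.exp_pos _) hw.pos
    rw [i1, i2, abs_mul, abs_of_pos p0, abs_mul]
    exact mul_le_mul_of_nonneg_right
      ((mul_le_of_le_one_left (abs_nonneg _) (hf x)).trans (hε _ _)) p0.le
  refine abs_le.2 ⟨?_, s2.prod.tsum_le_tsum (fun x => (abs_le.1 (key x)).2) (s1.prod.mul_left ε)⟩
  rw [← tsum_neg]
  exact (s1.prod.mul_left ε).neg.tsum_le_tsum (fun x => (abs_le.1 (key x)).1) s2.prod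

theorem pair_num {N a b M m0 m1 ε η : ℝ} (h0 : 0 < m0) (h1 : 0 < m1) (hη : 0 < η)
    (hη1 : η ≤ 1 / 16) (hε : 0 ≤ ε) (hε1 : ε ≤ 1) (hN : N ^ 2 ≤ a * b) (a0 : 0 ≤ a)
    (ha : a ≤ (1 + η) * m0) (hb : b ≤ (ε * (1 + η) + 3 * √η) * (m1 * m1 * m0))
    (hM : (1 - η) * (m1 * m0) ≤ M) : (N / M) ^ 2 ≤ ε + 5 * √η := by
  have s0 := Real.sqrt_nonneg η
  have s1 : √η ≤ 1 / 4 := Real.sqrt_le_iff.2 ⟨by norm_num, by linarith⟩
  have s2 : η ≤ √η / 4 := by nlinarith [Real.sq_sqrt hη.le]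
  have p1 : 0 < (1 - η) * (m1 * m0) := mul_pos (by linarith) (mul_pos h1 h0)
  have i1 : N ^ 2 ≤ (1 + η) * m0 * ((ε * (1 + η) + 3 * √η) * (m1 * m1 * m0)) :=
    hN.trans ((mul_le_mul_of_nonneg_left hb a0).trans
      (mul_le_mul_of_nonneg_right ha (by positivity)))
  have i2 : (1 + η) * (ε * (1 + η) + 3 * √η) ≤ (ε + 5 * √η) * (1 - η) ^ 2 := by
    nlinarith [mul_nonneg hε hη.le, mul_nonneg s0 hη.le, mul_nonneg (mul_nonneg s0 hη.le) hη.le,
      mul_le_mul_of_nonneg_right hε1 hη.le, mul_le_mul_of_nonneg_left hη1 s0]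
  rw [div_pow, div_le_iff₀ (pow_pos (p1.trans_le hM) 2)]
  refine i1.trans (le_trans ?_ (mul_le_mul_of_nonneg_left (pow_le_pow_left₀ p1.le hM 2)
    (by positivity)))
  nlinarith [mul_le_mul_of_nonneg_right i2 (sq_nonneg (m1 * m0))]

/-- **two characters of a pattern** -/
theorem pairHyp_rg [Fintype γ] (R : Rg s A F) (ht : R.t0 = 1) (G : R.Gens γ K)
    (φ φ' : A →ₐ[ℝ] ℝ) {j0 ja : γ} (h0 : ∀ j, j ≠ j0 → φ (G.g j) = 0)
    (h0' : φ (G.g j0) ≠ 0) (ha : ∀ j, j ≠ ja → φ' (G.g j) = 0) (ha' : φ' (G.g ja) ≠ 0)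
    (hint : ∀ l, ∀ y ∈ R.L l, (∃ n : ℤ, φ y = n) ∧ ∃ n : ℤ, φ' y = n) {g : ℕ} (hg : 0 < g)
    (hcong : ∀ l, ∀ y ∈ R.L l, φ y = 0 → ∃ n : ℤ, φ' y = g * n) (hone : ∀ l, (1 : A) ∈ R.L l)
    (hp : ∀ l, 1 ≤ l → ∃ p ∈ R.L l, φ p = 0 ∧ φ' p = g) {qs : ℝ}
    (hq : ∀ l, 1 ≤ l → l ≤ s → ∃ p ∈ R.E l, φ p = 0 ∧ φ' p = 1 ∧ ‖R.Q l p‖ ^ 2 ≤ qs)
    {T : Cell ι} (hlev : ∀ c, T.lev c ≤ s) (hK : 1 ≤ K) {x η : ℝ}
    (hx : loss s (2 * Fintype.card γ) (2 * K) ≤ x) (hA : T.AllPC x η) (hη : 0 < η)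
    (hη1 : η ≤ 1 / 16) :
    PairHyp (thf T) id (av (R.wt T (Off.zero ι A))) (ipt φ) (ipt φ') g qs (5 * √η) := by
  classical
  have hl1 : ∀ l, IsLat (R.imL φ l) := fun l => isLat_int fun y hy => by
    obtain ⟨y', hy', rfl⟩ := (R.mem_imL φ).1 hy
    exact (hint l y' hy').1
  obtain ⟨R0, S, rfl⟩ : ∃ (R0 : Rg s ℝ F) (S : Sur R R0 F), S.φ = φ := ⟨_, R.quotSur φ hl1, rfl⟩
  have k1 : S.KGen G (· ≠ j0) := kgen_of S G h0 (fun l => Submodule.span ℝ {G.g j0 ^ l})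
    (fun l u hu => Submodule.subset_span (by
      simp only [not_not.1 (hu _), prod_const, card_univ, Fintype.card_fin, Set.mem_singleton_iff]))
    fun l _ y hy h => eq_zero_of_span_pow S.φ h0' hy h
  have hZ : IsLat (Submodule.span ℤ {(1 : ℝ)}) := isLat_int fun y hy => by
    obtain ⟨n, rfl⟩ := Submodule.mem_span_singleton.1 hy
    exact ⟨n, by simp⟩
  have hl2 : ∀ l, IsLat ((S.fibRg S).imL (φ'.prodMap φ') l) := fun l =>
    (hZ.prod hZ).mono fun y hy => by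
      obtain ⟨y', hy', rfl⟩ := ((S.fibRg S).mem_imL _).1 hy
      obtain ⟨n, hn⟩ := (hint l _ hy'.1).2
      obtain ⟨n', hn'⟩ := (hint l _ hy'.2.1).2
      exact ⟨Submodule.mem_span_singleton.2 ⟨n, (zsmul_one n).trans hn.symm⟩,
        Submodule.mem_span_singleton.2 ⟨n', (zsmul_one n').trans hn'.symm⟩⟩
  obtain ⟨P, S2, e2⟩ : ∃ (P : Rg s (ℝ × ℝ) (WithLp 2 (F × F)))
      (S2 : Sur (S.fibRg S) P (WithLp 2 (F × F))), ∀ y, S2.φ y = (φ' y.1, φ' y.2) :=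
    ⟨_, (S.fibRg S).quotSur _ hl2, fun _ => rfl⟩
  have g1 : ∀ j, ((S.sqGens G k1).g j).2 = G.g (j.elim id id) ∧
      (((S.sqGens G k1).g j).1 = 0 ∨ ((S.sqGens G k1).g j).1 = G.g (j.elim id id)) := by
    rintro (j | j)
    · exact ⟨rfl, Or.inr rfl⟩
    · refine ⟨rfl, ?_⟩
      by_cases h : j ≠ j0
      · exact Or.inl (congrArg G.og (if_pos h))
      · exact Or.inr (congrArg G.og (if_neg h))
  have k2 : S2.KGen (S.sqGens G k1) fun j => j.elim id id ≠ ja := by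
    refine kgen_of S2 _ (fun j hj => (e2 _).trans (Prod.ext ?_ ?_))
      (fun l => (Submodule.span ℝ {G.g ja ^ l}).prod (Submodule.span ℝ {G.g ja ^ l}))
      (fun l u hu => ⟨?_, ?_⟩) fun l _ y hy h => Prod.ext
        (eq_zero_of_span_pow φ' ha' hy.1 (congrArg Prod.fst ((e2 _).symm.trans h)))
        (eq_zero_of_span_pow φ' ha' hy.2 (congrArg Prod.snd ((e2 _).symm.trans h)))
    · show φ' _ = 0
      rcases (g1 j).2 with h | h <;> rw [h]
      exacts [map_zero _, ha _ hj]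
    · show φ' _ = 0
      rw [(g1 j).1]
      exact ha _ hj
    · rw [Prod.fst_prod]
      by_cases h : ∃ i, ((S.sqGens G k1).g (u i)).1 = 0
      · obtain ⟨i, hi⟩ := h
        rw [prod_eq_zero (mem_univ i) hi]
        exact zero_mem _
      · refine Submodule.subset_span ?_
        rw [prod_congr rfl fun i _ => ((g1 (u i)).2.resolve_left fun h' => h ⟨i, h'⟩).trans
          (congrArg G.g (not_not.1 (hu i)))]
        simp
    · rw [Prod.snd_prod]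
      refine Submodule.subset_span ?_
      rw [prod_congr rfl fun i _ => (g1 (u i)).1.trans (congrArg G.g (not_not.1 (hu i)))]
      simp
  have eK : |K| + |K| = 2 * K := by rw [abs_of_nonneg (by linarith)]; ring
  obtain ⟨d1, d2, d3⟩ := S2.good3 (S.sqGens G k1) k2 hlev (by linarith)
    (by rwa [eK, Fintype.card_sum, ← two_mul]) (Or.inl hA)
  have d4 := G.good hlev hK (by omega) (by linarith) hx (Or.inl hA)
  have d5 := (S.gens G).good hlev hK (by omega) (by linarith) hx (Or.inl hA)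
  have hL : ∀ c y, y ∈ P.L (T.lev c) ↔ ∃ m n : ℤ, y = ((m : ℝ), ((m + g * n : ℤ) : ℝ)) := by
    intro c y
    refine ⟨fun hy => ?_, ?_⟩
    · obtain ⟨y', hy', rfl⟩ := S2.onto _ y hy
      obtain ⟨m, hm⟩ := (hint _ _ hy'.1).2
      obtain ⟨n, hn⟩ := hcong _ _ (sub_mem hy'.2.1 hy'.1) (by
        rw [map_sub, sub_eq_zero]; exact hy'.2.2.symm)
      refine ⟨m, n, (e2 _).trans (Prod.ext hm ?_)⟩
      show φ' y'.2 = _
      rw [map_sub, hm] at hn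
      push_cast
      linarith
    · rintro ⟨m, n, rfl⟩
      obtain ⟨p, p1, p2, p3⟩ := hp _ (T.lev_pos c)
      have := S2.maps (T.lev c) (m • 1, m • 1 + n • p) ⟨Submodule.smul_mem _ _ (hone _),
        add_mem (Submodule.smul_mem _ _ (hone _)) (Submodule.smul_mem _ _ p1), by simp [p2]⟩
      rw [e2] at this
      simpa [p3, mul_comm] using this
  have hq' : ∀ c, P.Q (T.lev c) (0, 1) ≠ 0 ∧ ‖P.Q (T.lev c) (0, 1)‖ ^ 2 ≤ qs := fun c => by
    obtain ⟨p, p1, p2, p3, p4⟩ := hq _ (T.lev_pos c) (hlev c)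
    have m1 : ((0, p) : A × A) ∈ (S.fibRg S).E (T.lev c) :=
      (S.mem_fibRg_E S).2 ⟨zero_mem _, p1, (map_zero _).trans p2.symm⟩
    have e : S2.φ (0, p) = (0, 1) := (e2 _).trans (Prod.ext (map_zero φ') p3)
    refine ⟨fun h => ?_, ?_⟩
    · simpa using P.inj _ (hlev c) _ (e ▸ S2.map_E m1) h
    · have i1 := pow_le_pow_left₀ (norm_nonneg _) (S2.norm_le (hlev c) m1).1 2
      rw [e, S.norm_fibRg S, map_zero, norm_zero] at i1
      have i2 := pow_le_pow_left₀ (norm_nonneg _) (S.norm_le (hlev c) p1).2 2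
      linarith
  refine ⟨fun c => ‖P.Q (T.lev c) (0, 1)‖ ^ 2,
    fun c => ⟨pow_pos (norm_pos_iff.2 (hq' c).1) 2, (hq' c).2⟩, fun f ε hf hε u hu => ?_⟩
  have o1 := R.offMem_zero (T := T)
  have hw : Wt (R.wt T (Off.zero ι A)) :=
    ⟨fun w => (R.wt_pos _ w).le, R.summable_wt hlev o1, R.M_pos hlev o1⟩
  have s0 := Real.sqrt_nonneg η
  have ε0 : 0 ≤ ε := (abs_nonneg _).trans (hε 0 0)
  by_cases hε1 : 1 < ε
  · have := hw.abs_av_le (f := fun w => u (ipt S.φ w) * f (ipt φ' w)) fun w => by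
      rw [abs_mul]; exact mul_le_one₀ (hu _) (abs_nonneg _) (hf _)
    nlinarith [sq_le_one_iff_abs_le_one _ |>.2 this]
  have o2 := S.offMem_pair S o1 o1 rfl
  have eo : ((Off.zero ι A).pair (Off.zero ι A)).map S2.φ = Off.zero ι _ := by
    unfold Off.map Off.pair Off.zero
    congr 1 <;> exact _root_.funext fun _ => map_zero S2.φ
  have c1 := S.cs (𝕜 := ℝ) hlev o1 (f := fun w => f (ipt φ' w))
    (g := fun p => u (ipt (AlgHom.id ℝ ℝ) p)) (fun w => hf _) fun p => hu _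
  have c2 := S2.push hlev hη (by linarith) d1 d2 d3 o2 (B := 1)
    (g := fun p => f (ipt (AlgHom.fst ℝ ℝ ℝ) p) * f (ipt (AlgHom.snd ℝ ℝ ℝ) p)) fun p => by
      rw [norm_mul]; exact mul_le_one₀ (hf _) (norm_nonneg _) (hf _)
  have c3 := pair_sum P (S2.map_t0.symm.trans
    ((congrArg S2.φ (Prod.ext ht ht)).trans (map_one S2.φ))) hlev hg hL
    (fun c => (hq' c).1) hf hε
  have c4 := d2.le hlev P.offMem_zero
  have c5 := S2.mu0_eq hlev
  have c6 := S.fibRg_mu0 S hlev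
  have c7 := S2.mu1_pos hlev
  have o3 := S.offMem_map o1
  rw [eo, mul_one, Real.norm_eq_abs] at c2
  simp only [smul_eq_mul, Real.norm_eq_abs, sq_abs, RCLike.re_to_real, conj_trivial] at c1 c2
  refine pair_num (R0.mu0_pos hlev) (S.mu1_pos hlev) hη hη1 ε0 (not_lt.1 hε1)
    (le_of_eq_of_le ?_ c1) (tsum_nonneg fun p => mul_nonneg (Rg.wt_pos _ _ _).le (sq_nonneg _))
    (le_trans ?_ (d5.le hlev o3)) ?_ (S.mu0_eq hlev ▸ d4.ge hlev o1)
  · exact congrArg (· ^ 2) (tsum_congr fun w => congrArg _ (mul_comm _ _))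
  · have s1 := R0.summable_wt hlev o3
    have b1 : ∀ p : R0.Pt T, u (ipt (AlgHom.id ℝ ℝ) p) ^ 2 ≤ 1 := fun p =>
      (sq_le_one_iff_abs_le_one _).2 (hu _)
    exact (summable_mul_bdd s1 (fun p => (Rg.wt_pos _ _ _).le)
      (Bdd.of_01 (fun p => sq_nonneg _) b1)).tsum_le_tsum
      (fun p => mul_le_of_le_one_right (Rg.wt_pos _ _ _).le (b1 p)) s1
  · rw [← c6]
    have i1 := mul_le_mul_of_nonneg_left ((le_abs_self _).trans
      (c3.trans (mul_le_mul_of_nonneg_left c4 ε0))) c7.le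
    have i2 := (abs_le.1 c2).2
    refine le_of_eq_of_le (b := ∑' W, (S.fibRg S).wt T ((Off.zero ι A).pair (Off.zero ι A)) W *
      (f (ipt (AlgHom.fst ℝ ℝ ℝ) (S2.pt W)) * f (ipt (AlgHom.snd ℝ ℝ ℝ) (S2.pt W))))
      (tsum_congr fun W => by unfold ipt Sur.pt; simp only [e2]; rfl) ?_
    rw [c5] at i2 ⊢
    nlinarith

end

end Crest.Agent.T49.Samp
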