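import Crest.Agent.T49.Lin_10

/-!
Row 49 (helper10).  One stage of the cube machine: `FTZ → Lin → Win → Stage`.
-/

set_option autoImplicit false

noncomputable section

namespace Crest.Agent.T49.Ginc

open Finset Crest.Agent.T49.Gow Crest.Agent.T49.Tor Crest.Agent.T49.Rat
open scoped ComplexConjugate

theorem pigeon_sum {α : Type*} (T : Finset α) (f : α → ℝ) {τ : ℝ} (hτ : 0 < τ)
    (h : τ ≤ ∑ a ∈ T, f a) : ∃ a ∈ T, τ ≤ #T * f a := by
  have hne : T.Nonempty := by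
    rcases T.eq_empty_or_nonempty with rfl | h1
    · simp at h; linarith
    · exact h1
  refine exists_le_of_sum_le hne ?_
  rw [sum_const, nsmul_eq_mul, ← mul_sum]
  exact mul_le_mul_of_nonneg_left h (by positivity)

theorem pigeon_fib {α β : Type*} [DecidableEq β] (H : Finset α) (T : Finset β) (f : α → β)
    (hf : ∀ a ∈ H, f a ∈ T) {τ : ℝ} (hτ : 0 < τ) (h : τ ≤ #H) :
    ∃ t ∈ T, τ ≤ #T * #(H.filter fun a => f a = t) := by
  refine pigeon_sum T _ hτ (h.trans (le_of_eq ?_))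
  exact_mod_cast card_eq_sum_card_fiberwise hf

theorem card_small_subsets {α : Type*} [DecidableEq α] (J : Finset α) (n : ℕ) {a : ℝ} (ha : 0 ≤ a)
    (hJ : (#J : ℝ) ≤ Real.exp a) :
    (#(J.powerset.filter fun s => #s ≤ n) : ℝ) ≤ Real.exp (n * (a + 1)) := by
  have h1 : J.powerset.filter (fun s => #s ≤ n) ⊆
      (range (n + 1)).biUnion fun i => powersetCard i J := fun s hs => by
    obtain ⟨h2, h3⟩ := mem_filter.1 hs
    exact mem_biUnion.2 ⟨#s, mem_range.2 (by omega), mem_powersetCard.2 ⟨mem_powerset.1 h2, rfl⟩⟩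
  have h2 : (#(J.powerset.filter fun s => #s ≤ n) : ℝ) ≤ ∑ i ∈ range (n + 1), Real.exp a ^ n := by
    refine (Nat.cast_le.2 ((card_le_card h1).trans card_biUnion_le)).trans ?_
    push_cast
    refine sum_le_sum fun i hi => ?_
    rw [card_powersetCard]
    have h3 : ((#J).choose i : ℝ) ≤ (#J : ℝ) ^ i := by exact_mod_cast Nat.choose_le_pow _ _
    exact h3.trans ((pow_le_pow_left₀ (by positivity) hJ i).trans
      (pow_le_pow_right₀ (Real.one_le_exp ha) (by have := mem_range.1 hi; omega)))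
  refine h2.trans ?_
  rw [sum_const, card_range, nsmul_eq_mul, mul_add, mul_one, Real.exp_add, Real.exp_nat_mul,
    mul_comm]
  refine mul_le_mul_of_nonneg_left ?_ (by positivity)
  push_cast
  exact Real.add_one_le_exp _

variable {ι : Type} [Fintype ι] [DecidableEq ι]

omit [Fintype ι] [DecidableEq ι] in
theorem cub_update {r : ℕ} (B : (Fin r → Bool) → (ι → ℤ) → ℝ) (F : (ι → ℤ) → ℝ)
    (h : Fin r → ι → ℤ) (u : ι → ℤ) : cub (Function.update B (top r) F) h u =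
      F (vtx u h (top r)) * ∏ w ∈ univ.erase (top r), B w (vtx u h w) := by
  rw [cub, ← mul_prod_erase _ _ (mem_univ (top r)), Function.update_self]
  congr 1
  exact prod_congr rfl fun w hw => by rw [Function.update_of_ne (ne_of_mem_erase hw)]

omit [Fintype ι] [DecidableEq ι] in
theorem cub_cons {r : ℕ} (B : (Fin (r + 1) → Bool) → (ι → ℤ) → ℝ) (F : (ι → ℤ) → ℝ) (k : ι → ℤ)
    (h : Fin r → ι → ℤ) (v : ι → ℤ) :
    cub (Function.update B (top (r + 1)) F) (Fin.cons k h) v =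
      cub (fun w => B (Fin.cons false w)) h v *
        cub (Function.update (fun w => B (Fin.cons true w)) (top r) F) h (v + k) := by
  simp only [cub, prod_cube_succ, vtx_cons_true, vtx_cons_false, ← prod_mul_distrib]
  refine prod_congr rfl fun w _ => ?_
  have h1 : (Fin.cons false w : Fin (r + 1) → Bool) ≠ top (r + 1) := fun h => by
    simpa [top] using congrFun h 0
  have h2 : vtx v h w + k = vtx (v + k) h w := by simp only [vtx]; abel
  rw [Function.update_of_ne h1, h2, mul_comm]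
  congr 1
  rcases eq_or_ne w (top r) with rfl | hw
  · have : (Fin.cons true (top r) : Fin (r + 1) → Bool) = top (r + 1) := by
      funext i; refine Fin.cases rfl (fun _ => rfl) i
    rw [this, Function.update_self, Function.update_self]
  · have : (Fin.cons true w : Fin (r + 1) → Bool) ≠ top (r + 1) := fun h => hw (by
      funext i; simpa [top] using congrFun h i.succ)
    rw [Function.update_of_ne this, Function.update_of_ne hw]

omit [Fintype ι] [DecidableEq ι] in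
theorem in01_cub {r : ℕ} {B : (Fin r → Bool) → (ι → ℤ) → ℝ} (hB : ∀ w, In01 (B w))
    (h : Fin r → ι → ℤ) : In01 (cub B h) := fun _ =>
  ⟨prod_nonneg fun w _ => (hB w _).1, prod_le_one (fun w _ => (hB w _).1) fun w _ => (hB w _).2⟩

theorem cub_eq_zero {N r : ℕ} {B : (Fin r → Bool) → (ι → ℤ) → ℝ} (hB : ∀ w, Wt N (B w))
    {h : Fin r → ι → ℤ} {u : ι → ℤ} {w : Fin r → Bool} (hw : vtx u h w ∉ box ι N) :
    cub B h u = 0 := prod_eq_zero (mem_univ w) ((hB w).2 _ hw)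

theorem wt_cub {N r : ℕ} {B : (Fin r → Bool) → (ι → ℤ) → ℝ} (hB : ∀ w, Wt N (B w))
    (h : Fin r → ι → ℤ) : Wt N (cub B h) :=
  ⟨in01_cub (fun w => (hB w).1) h, fun u hu =>
    cub_eq_zero hB (w := fun _ => false) (by rwa [vtx_false])⟩

theorem wt_update {N r : ℕ} {B : (Fin r → Bool) → (ι → ℤ) → ℝ} (hB : ∀ w, Wt N (B w))
    {F : (ι → ℤ) → ℝ} (hF : Wt N F) (w₀ w : Fin r → Bool) : Wt N (Function.update B w₀ F w) := by
  rcases eq_or_ne w w₀ with rfl | hw
  · rwa [Function.update_self]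
  · rw [Function.update_of_ne hw]; exact hB w

theorem Wt.mul {N : ℕ} {χ F : (ι → ℤ) → ℝ} (hχ : In01 χ) (hF : Wt N F) :
    Wt N fun x => χ x * F x :=
  ⟨fun x => ⟨mul_nonneg (hχ x).1 (hF.1 x).1, mul_le_one₀ (hχ x).2 (hF.1 x).1 (hF.1 x).2⟩,
    fun x hx => by simp [hF.2 x hx]⟩

theorem Expl.mono {N r : ℕ} {m m' : ℝ} {J J' : Finset ((ι → ℤ) → ℂ)} {h : Fin r → ι → ℤ}
    {θ : ι → ℝ} (hE : Expl N m J h θ) (hm : m ≤ m') (hJ : J ⊆ J') : Expl N m' J' h θ := by
  obtain ⟨ψ, h1, h2⟩ := hE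
  exact ⟨ψ, fun w => hJ (h1 w), le_trans (mul_le_mul_of_nonneg_right
    (Real.exp_le_exp.2 (by linarith)) (by positivity)) h2⟩

/-- popular fibres -/
theorem popular_fibres {N r : ℕ} {m : ℝ} (n : (Fin r → ι → ℤ) → ℝ)
    (hn : ∀ h, n h ≤ (#(box ι N) : ℝ) ^ 2)
    (h : Real.exp (-m) * (#(box ι N) : ℝ) ^ (r + 2) ≤ ∑ h ∈ Hs ι N r, n h) :
    Real.exp (-(m + 1)) * (#(box ι N) : ℝ) ^ r ≤
      #((Hs ι N r).filter fun h => Real.exp (-(m + 1)) * (#(box ι N) : ℝ) ^ 2 ≤ n h) := by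
  set σ : ℝ := (#(box ι N) : ℝ) with hσ
  have hσ0 : 0 < σ := card_box_pos N
  set p := fun h => Real.exp (-(m + 1)) * σ ^ 2 ≤ n h with hp
  rw [← sum_filter_add_sum_filter_not _ p] at h
  have h1 : ∑ h ∈ (Hs ι N r).filter p, n h ≤ #((Hs ι N r).filter p) * σ ^ 2 := by
    rw [← nsmul_eq_mul]; exact sum_le_card_nsmul _ _ _ fun h _ => hn h
  have h2 : ∑ h ∈ (Hs ι N r).filter (fun h => ¬ p h), n h ≤
      σ ^ r * (Real.exp (-(m + 1)) * σ ^ 2) := by
    refine (sum_le_card_nsmul _ _ _ fun h hh => (not_le.1 (mem_filter.1 hh).2).le).trans ?_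
    rw [nsmul_eq_mul]
    refine mul_le_mul_of_nonneg_right (le_trans ?_ (card_Hs N r).le) (by positivity)
    exact_mod_cast card_le_card (filter_subset _ _)
  have h3 : 2 * Real.exp (-(m + 1)) ≤ Real.exp (-m) := by
    have h4 : Real.exp (-m) = Real.exp 1 * Real.exp (-(m + 1)) := by
      rw [← Real.exp_add]; congr 1; ring
    have := Real.add_one_le_exp (1 : ℝ)
    rw [h4]; exact mul_le_mul_of_nonneg_right (by linarith) (by positivity)
  have h5 := mul_le_mul_of_nonneg_right h3 (show 0 ≤ σ ^ (r + 2) by positivity)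
  refine le_of_mul_le_mul_right ?_ (show 0 < σ ^ 2 by positivity)
  rw [pow_add] at h h5
  nlinarith

/-- inserting a partition of unity at all vertices -/
theorem insert_pou {N r A : ℕ} {χ : Fin A → (ι → ℤ) → ℝ} (hχ : ∀ a, In01 (χ a))
    (h1 : ∀ x ∈ box ι N, ∑ a, χ a x = 1) (h : Fin r → ι → ℤ) (u : ι → ℤ) {κ G ε : ℝ} (hε : 0 ≤ ε)
    (hG : |G| ≤ 1) (hG0 : ∀ w, vtx u h w ∉ box ι N → G = 0) (E : ((Fin r → Bool) → Fin A) → ℝ)
    (hE : ∀ a : (Fin r → Bool) → Fin A,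
      (∀ w, vtx u h w ∈ box ι N ∧ χ (a w) (vtx u h w) ≠ 0) → |κ - E a| ≤ ε) :
    κ * G - ε ≤ ∑ a : (Fin r → Bool) → Fin A, E a * (cub (fun w => χ (a w)) h u * G) := by
  by_cases hv : ∀ w, vtx u h w ∈ box ι N
  swap
  · push Not at hv
    obtain ⟨w, hw⟩ := hv
    simp [hG0 w hw, hε]
  have h2 : ∑ a : (Fin r → Bool) → Fin A, cub (fun w => χ (a w)) h u = 1 := by
    have := Finset.prod_univ_sum (fun _ : Fin r → Bool => (univ : Finset (Fin A)))
      fun w a => χ a (vtx u h w)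
    rw [Fintype.piFinset_univ] at this
    simp only [cub]
    rw [← this]
    exact prod_eq_one fun w _ => h1 _ (hv w)
  calc κ * G - ε = ∑ a : (Fin r → Bool) → Fin A, cub (fun w => χ (a w)) h u * (κ * G - ε) := by
        rw [← sum_mul, h2, one_mul]
    _ ≤ _ := sum_le_sum fun a _ => by
        rw [mul_left_comm]
        rcases eq_or_ne (cub (fun w => χ (a w)) h u) 0 with h0 | h0
        · simp [h0]
        refine mul_le_mul_of_nonneg_left ?_ (in01_cub (fun w => hχ (a w)) h u).1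
        have h3 := hE a fun w => ⟨hv w, prod_ne_zero_iff.1 h0 w (mem_univ w)⟩
        have h4 : |(κ - E a) * G| ≤ ε := by
          rw [abs_mul]; exact (mul_le_of_le_one_right (abs_nonneg _) hG).trans h3
        have := le_abs_self ((κ - E a) * G)
        linarith

set_option maxHeartbeats 3000000 in
theorem stage {Nil : Cls ι} {S : WinSys (ι → ℤ)} (hM : Mono Nil)
    (hS : ∀ j m m', m ≤ m' → S.W j m ⊆ S.W j m') {r : ℕ} (hF : FTZ ι) (hL : Lin Nil r)
    (hW : Win Nil S (r + 1) r) : Stage S r := by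
  classical
  obtain ⟨CF, hF⟩ := hF
  obtain ⟨CL, hL⟩ := hL
  obtain ⟨CW, hW⟩ := hW
  let μ₁ : ℝ → ℝ := fun m => (m + 1) ^ CF
  let μ₂ : ℝ → ℝ := fun m => (μ₁ m + m + 3) ^ CL
  let m₃ : ℝ → ℝ := fun m => μ₁ m * 2 ^ r + μ₂ m + 3 * μ₁ m + 2
  let μ₃ : ℝ → ℝ := fun m => m₃ m ^ CW
  obtain ⟨C, -, hb⟩ := PB.exists_le (f := fun m =>
    m + 2 + μ₁ m * 2 ^ r * (μ₂ m + 1 + 1) + μ₃ m + μ₁ m + 1 + 2 ^ r * μ₃ m + μ₂ m)
    (by simp only [μ₃, m₃, μ₂, μ₁]; fun_prop)
  refine ⟨C, fun m N P Q hm hNl hP hQ ⟨E, B, hE, hB, hst⟩ => ?_⟩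
  have hb := hb m hm
  have p₁ : 0 ≤ μ₁ m := by positivity
  have p₂ : 0 ≤ μ₂ m := by positivity
  have p₃ : 0 ≤ μ₃ m := by positivity
  have p₄ : 0 ≤ μ₁ m * 2 ^ r := by positivity
  have p₅ : 0 ≤ μ₁ m * 2 ^ r * (μ₂ m + 1 + 1) := by positivity
  have p₆ : 0 ≤ 2 ^ r * μ₃ m := by positivity
  set σ : ℝ := (#(box ι N) : ℝ) with hσ
  have hσ0 : 0 < σ := card_box_pos N
  let BP := Function.update (fun w => B (Fin.cons true w)) (top r) P
  let BQ := Function.update (fun w => B (Fin.cons true w)) (top r) Q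
  have hBP : ∀ w, Wt N (BP w) := wt_update (fun w => hB _) hP _
  have hBQ : ∀ w, Wt N (BQ w) := wt_update (fun w => hB _) hQ _
  let X := fun h => cub (fun w => B (Fin.cons false w)) h
  have hX : ∀ h, In01 (X h) := in01_cub fun w => (hB _).1
  let n : (Fin r → ι → ℤ) → ℝ := fun h => ∑ x ∈ box ι N, ∑ y ∈ box ι N,
    X h x * E (Fin.cons y h) * (cub BP h (x + y) - cub BQ h (x + y))
  have hn : ∀ h, n h ≤ σ ^ 2 := fun h => by
    refine (sum_le_card_nsmul _ _ σ fun x _ => (sum_le_card_nsmul _ _ 1 fun y _ => ?_).trans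
      (by simp [hσ])).trans (by rw [nsmul_eq_mul, sq])
    have a1 := (wt_cub hBP h).1 (x + y)
    have a2 := (wt_cub hBQ h).1 (x + y)
    have a3 : X h x * E (Fin.cons y h) ≤ 1 := mul_le_one₀ (hX h x).2 (hE _).1 (hE _).2
    have a4 : 0 ≤ X h x * E (Fin.cons y h) := mul_nonneg (hX h x).1 (hE _).1
    nlinarith
  have hH₀ := popular_fibres (m := m) n hn (by
    refine hst.trans (le_of_eq ?_)
    rw [Hs, sum_piFinset_succ, sum_comm]
    refine sum_congr rfl fun h _ => ?_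
    simp only [n]
    rw [sum_comm]
    refine sum_congr rfl fun y _ => ?_
    rw [mul_sum]
    refine sum_congr rfl fun x _ => ?_
    rw [cub_cons, cub_cons]; ring)
  set H₀ := (Hs ι N r).filter fun h => Real.exp (-(m + 1)) * (#(box ι N) : ℝ) ^ 2 ≤ n h with hH₀d
  choose! Λ ρ u₀ hΛ hρ hsig hinc using fun h (hh : h ∈ H₀) =>
    hF (m + 1) N (X h) (fun y => E (Fin.cons y h)) (cub BP h) (cub BQ h) (by linarith) (hX h)
      (fun _ => hE _) (wt_cub hBP h).1 (wt_cub hBQ h).1 (wt_cub hBP h).2 (wt_cub hBQ h).2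
      (mem_filter.1 hh).2
  have hN₂ : Real.exp ((μ₁ m + m + 3) ^ CL) ≤ N :=
    (Real.exp_le_exp.2 (show μ₂ m ≤ m ^ C by linarith)).trans hNl
  obtain ⟨JP, bP, hJP, hJPN, hbP, hEP⟩ := hL (μ₁ m + m + 3) N BP (by linarith) hN₂ hBP
  obtain ⟨JQ, bQ, hJQ, hJQN, hbQ, hEQ⟩ := hL (μ₁ m + m + 3) N BQ (by linarith) hN₂ hBQ
  set H₁ := H₀ \ (bP ∪ bQ) with hH₁d
  have hH₁ : Real.exp (-(m + 2)) * σ ^ r ≤ #H₁ := by
    have a1 : (#H₀ : ℝ) ≤ #H₁ + (#bP + #bQ) := by
      have := (card_le_card_sdiff_add_card (s := H₀) (t := bP ∪ bQ)).trans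
        (Nat.add_le_add_left (card_union_le bP bQ) _)
      exact_mod_cast this
    have a2 : Real.exp (-(μ₁ m + m + 3)) ≤ Real.exp (-(m + 3)) := Real.exp_le_exp.2 (by linarith)
    have a3 := mul_le_mul_of_nonneg_right a2 (show 0 ≤ σ ^ r by positivity)
    have a4 : Real.exp (-(m + 1)) = Real.exp 1 * Real.exp 1 * Real.exp (-(m + 3)) := by
      rw [← Real.exp_add, ← Real.exp_add]; congr 1; ring
    have a5 : Real.exp (-(m + 2)) = Real.exp 1 * Real.exp (-(m + 3)) := by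
      rw [← Real.exp_add]; congr 1; ring
    have a6 := Real.add_one_le_exp (1 : ℝ)
    have a7 : 0 ≤ Real.exp (-(m + 3)) * σ ^ r := by positivity
    have a8 : Real.exp 1 + 2 ≤ Real.exp 1 * Real.exp 1 := by nlinarith
    have a9 := mul_le_mul_of_nonneg_right a8 a7
    rw [a4] at hH₀
    rw [a5]
    nlinarith
  have hH₁₀ : H₁ ⊆ H₀ := sdiff_subset
  have hex : ∀ h ∈ H₁, ∀ θ ∈ Λ h, Expl N (μ₂ m) (JP ∪ JQ) h θ := fun h hh θ hθ => by
    obtain ⟨a1, a2⟩ := mem_sdiff.1 hh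
    have a3 : Real.exp (-(μ₁ m + m + 3)) * σ ≤ Real.exp (-(m + 1) ^ CF) * σ :=
      mul_le_mul_of_nonneg_right (Real.exp_le_exp.2 (by simp only [μ₁] at *; linarith)) hσ0.le
    rcases hsig h a1 θ hθ with a4 | a4
    · exact (hEP h (mem_filter.1 a1).1 (fun a => a2 (mem_union_left _ a)) θ (a3.trans a4)).mono
        le_rfl subset_union_left
    · exact (hEQ h (mem_filter.1 a1).1 (fun a => a2 (mem_union_right _ a)) θ (a3.trans a4)).mono
        le_rfl subset_union_right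
  choose! ψ hψJ hψ using hex
  let Jh := fun h => (Λ h).biUnion fun θ => univ.image (ψ h θ)
  have hJc : (#(JP ∪ JQ) : ℝ) ≤ Real.exp (μ₂ m + 1) := by
    have a1 : (#(JP ∪ JQ) : ℝ) ≤ #JP + #JQ := by exact_mod_cast card_union_le _ _
    have a2 := Real.add_one_le_exp (1 : ℝ)
    have a3 := Real.exp_pos (μ₂ m)
    rw [Real.exp_add]
    simp only [μ₂] at *
    nlinarith
  obtain ⟨J₀, hJ₀, hH₂⟩ := pigeon_fib H₁
    ((JP ∪ JQ).powerset.filter fun s => #s ≤ ⌊μ₁ m * 2 ^ r⌋₊) Jh (fun h hh => by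
      refine mem_filter.2 ⟨mem_powerset.2 fun x hx => ?_, Nat.le_floor ?_⟩
      · obtain ⟨θ, hθ, hx⟩ := mem_biUnion.1 hx
        obtain ⟨w, -, rfl⟩ := mem_image.1 hx
        exact hψJ h hh θ hθ w
      · refine (Nat.cast_le.2 (card_biUnion_le.trans (sum_le_card_nsmul _ _ (2 ^ r)
          fun θ _ => card_image_le.trans (by simp)))).trans ?_
        rw [smul_eq_mul]; push_cast
        exact mul_le_mul_of_nonneg_right (hΛ h (hH₁₀ hh)) (by positivity))
    (by positivity) hH₁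
  set H₂ := H₁.filter fun h => Jh h = J₀ with hH₂d
  have hH₂' : Real.exp (-(m + 2)) * σ ^ r ≤ Real.exp (μ₁ m * 2 ^ r * (μ₂ m + 1 + 1)) * #H₂ := by
    refine hH₂.trans (mul_le_mul_of_nonneg_right ((card_small_subsets _ _ (by positivity)
      hJc).trans (Real.exp_le_exp.2 ?_)) (by positivity))
    exact mul_le_mul_of_nonneg_right (Nat.floor_le p₄) (by positivity)
  obtain ⟨hJ₀s, hJ₀c⟩ := mem_filter.1 hJ₀
  obtain ⟨nQ, A, χ, hnQ, hA, hχ, hχ1, hwin⟩ := hW (m₃ m) N J₀ (by simp only [m₃]; linarith)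
    ((Real.exp_le_exp.2 (show μ₃ m ≤ m ^ C by linarith)).trans hNl)
    (by
      have := (Nat.cast_le (α := ℝ).2 hJ₀c).trans (Nat.floor_le p₄)
      simp only [m₃]; linarith)
    (fun x hx => by
      rcases mem_union.1 (mem_powerset.1 hJ₀s hx) with a | a
      · exact hM _ _ _ _ (hJPN x a) (show μ₂ m ≤ m₃ m by simp only [m₃]; linarith)
      · exact hM _ _ _ _ (hJQN x a) (show μ₂ m ≤ m₃ m by simp only [m₃]; linarith))
  have hq := fun h (hh : h ∈ H₂) => hwin h (Λ h)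
    ((hΛ h (hH₁₀ (mem_filter.1 hh).1)).trans (show μ₁ m ≤ m₃ m by simp only [m₃]; linarith))
    fun θ hθ => Expl.mono (m := μ₂ m) (J := J₀) ⟨ψ h θ, fun w => by
      rw [← (mem_filter.1 hh).2]
      exact mem_biUnion.2 ⟨θ, hθ, mem_image_of_mem _ (mem_univ w)⟩,
      hψ h (mem_filter.1 hh).1 θ hθ⟩ (by simp only [m₃]; linarith) Subset.rfl
  have hH₂0 : (0 : ℝ) < #H₂ := by
    by_contra a
    have a1 : (#H₂ : ℝ) = 0 := le_antisymm (not_lt.1 a) (by positivity)
    rw [a1, mul_zero] at hH₂'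
    exact absurd hH₂' (not_le.2 (by positivity))
  obtain ⟨h₀, hh₀⟩ : H₂.Nonempty := card_pos.1 (by exact_mod_cast hH₂0)
  have : Nonempty (Fin nQ) := ⟨(hq h₀ hh₀).choose⟩
  choose! qh hqh using hq
  obtain ⟨q, -, hH₃⟩ := pigeon_fib H₂ univ qh (fun _ _ => mem_univ _) hH₂0 le_rfl
  set H₃ := H₂.filter fun h => qh h = q with hH₃d
  rw [card_univ, Fintype.card_fin] at hH₃
  have hH₃₀ : H₃ ⊆ H₀ := fun h hh => hH₁₀ (mem_filter.1 (mem_filter.1 hh).1).1
  have hχ01 : ∀ a, In01 (χ q a) := fun a => S.bdd (hχ q a)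
  have hρ0 : ∀ h ∈ H₀, 0 < ρ h := fun h hh => (Real.exp_pos _).trans_le (hρ h hh)
  let good := fun (a : (Fin r → Bool) → Fin A) (h : Fin r → ι → ℤ) (y : ι → ℤ) =>
    ∀ w, vtx y h w ∈ box ι N ∧ χ q (a w) (vtx y h w) ≠ 0
  let E' := fun (a : (Fin r → Bool) → Fin A) (h : Fin r → ι → ℤ) =>
    if h ∈ H₃ then (if hy : ∃ y, good a h y then ker (Λ h) (ρ h) (hy.choose - u₀ h) else 0) else 0
  let G := fun h u => cub BP h u - (1 - 1 / m) * cub BQ h u
  have hl0 : 0 ≤ 1 - 1 / m := by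
    rw [sub_nonneg, div_le_one (by linarith)]; linarith
  have hl1 : 1 - 1 / m ≤ 1 := by
    have : 0 ≤ 1 / m := by positivity
    linarith
  have key : ∀ h ∈ H₃, Real.exp (-μ₁ m) / 2 * σ ≤ ∑ a : (Fin r → Bool) → Fin A,
      E' a h * ∑ u ∈ box ι N, cub (fun w => χ q (a w)) h u * G h u := fun h hh => by
    have hh0 := hH₃₀ hh
    have a1 : Real.exp (-μ₁ m) * σ ≤ ∑ u ∈ box ι N, ker (Λ h) (ρ h) (u - u₀ h) * G h u := by
      refine (hinc h hh0).trans (sum_le_sum fun u _ => mul_le_mul_of_nonneg_left ?_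
        (ker_in01 _ (hρ0 h hh0) _).1)
      have a2 : 1 / (m + 1) ≤ 1 / m := one_div_le_one_div_of_le (by linarith) (by linarith)
      have a3 := ((wt_cub hBQ h).1 u).1
      simp only [G]; nlinarith
    have a2 : ∀ u ∈ box ι N, ker (Λ h) (ρ h) (u - u₀ h) * G h u - Real.exp (-μ₁ m) / 2 ≤
        ∑ a : (Fin r → Bool) → Fin A, E' a h * (cub (fun w => χ q (a w)) h u * G h u) :=
      fun u _ => insert_pou hχ01 (hχ1 q) h u (by positivity)
        (by
          have b1 := (wt_cub hBP h).1 u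
          have b2 := (wt_cub hBQ h).1 u
          have b3 := mul_nonneg hl0 b2.1
          have b4 := mul_le_one₀ hl1 b2.1 b2.2
          simp only [G]
          rw [abs_le]; constructor <;> linarith [b1.1, b1.2])
        (fun w hw => by simp only [G]; rw [cub_eq_zero hBP hw, cub_eq_zero hBQ hw]; ring)
        (fun a => E' a h) fun a ha => by
          have hy : ∃ y, good a h y := ⟨u, ha⟩
          have b1 := hqh h (mem_filter.1 hh).1
          rw [(mem_filter.1 hh).2] at b1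
          simp only [E', if_pos hh, dif_pos hy]
          refine (ker_lip (Λ h) (hρ0 h hh0) _ _ _ (b1 a u _ ha hy.choose_spec)).trans ?_
          have b2 : (#(Λ h) : ℝ) ≤ Real.exp (μ₁ m) :=
            (hΛ h hh0).trans (by have := Real.add_one_le_exp (μ₁ m); simp only [μ₁] at *; linarith)
          have b3 : Real.exp (-m₃ m) / ρ h ≤ Real.exp (-m₃ m) / Real.exp (-μ₁ m) :=
            div_le_div_of_nonneg_left (by positivity) (by positivity) (hρ h hh0)
          refine (mul_le_mul b2 b3 (by have := hρ0 h hh0; positivity) (by positivity)).trans ?_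
          rw [← Real.exp_sub, ← Real.exp_add, le_div_iff₀ (by norm_num)]
          have b4 : Real.exp (μ₁ m + (-m₃ m - -μ₁ m)) * Real.exp 1 ≤ Real.exp (-μ₁ m) := by
            rw [← Real.exp_add]; exact Real.exp_le_exp.2 (by simp only [m₃]; linarith)
          have b5 := Real.add_one_le_exp (1 : ℝ)
          have b6 := Real.exp_pos (μ₁ m + (-m₃ m - -μ₁ m))
          nlinarith
    have a3 := sum_le_sum a2
    rw [sum_sub_distrib, sum_const, nsmul_eq_mul, ← hσ, sum_comm] at a3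
    simp only [mul_sum]
    linarith
  have hH₃0 : (0 : ℝ) < #H₃ := by
    by_contra a
    have a1 : (#H₃ : ℝ) = 0 := le_antisymm (not_lt.1 a) (by positivity)
    rw [a1, mul_zero] at hH₃
    linarith
  have tot := card_nsmul_le_sum _ _ _ key
  rw [nsmul_eq_mul, sum_comm] at tot
  obtain ⟨a, -, ha⟩ := pigeon_sum _ _ (by positivity) tot
  refine ⟨χ q (a (top r)), hS _ _ _ (show μ₃ m ≤ m ^ C by linarith) (hχ q _), E' a,
    fun w x => χ q (a w) x * B (Fin.cons true w) x, fun h => ?_,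
    fun w => Wt.mul (hχ01 _) (hB _), ?_⟩
  · simp only [E']
    split_ifs with a1 a2
    · exact ker_in01 _ (hρ0 h (hH₃₀ a1)) _
    · simp
    · simp
  have e₁ : ∑ h ∈ Hs ι N r, E' a h * ∑ v ∈ box ι N,
      (cub (Function.update (fun w x => χ q (a w) x * B (Fin.cons true w) x) (top r)
        fun x => χ q (a (top r)) x * P x) h v -
      cub (Function.update (fun w x => χ q (a w) x * B (Fin.cons true w) x) (top r)
        fun x => χ q (a (top r)) x * ((1 - 1 / m) * Q x)) h v) =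
      ∑ h ∈ H₃, E' a h * ∑ u ∈ box ι N, cub (fun w => χ q (a w)) h u * G h u := by
    symm
    refine sum_subset_zero_on_sdiff (hH₃₀.trans (filter_subset _ _))
      (fun h hh => by simp only [E', if_neg (mem_sdiff.1 hh).2, zero_mul]) fun h _ => ?_
    congr 1
    refine sum_congr rfl fun u _ => ?_
    simp only [G, BP, BQ, cub_update, prod_mul_distrib]
    rw [cub, ← mul_prod_erase _ _ (mem_univ (top r))]
    ring
  rw [e₁]
  have c1 : (#(univ : Finset ((Fin r → Bool) → Fin A)) : ℝ) ≤ Real.exp (2 ^ r * μ₃ m) := by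
    rw [card_univ, Fintype.card_fun, Fintype.card_fin, card_cube]
    push_cast
    refine (pow_le_pow_left₀ (by positivity) hA _).trans (le_of_eq ?_)
    rw [← Real.exp_nat_mul]; push_cast; rfl
  set Z := ∑ h ∈ H₃, E' a h * ∑ u ∈ box ι N, cub (fun w => χ q (a w)) h u * G h u with hZ
  have c0 : 0 < (#H₃ : ℝ) * (Real.exp (-μ₁ m) / 2 * σ) := by positivity
  have hZ0 : 0 ≤ Z := by
    by_contra a1
    have := mul_nonpos_of_nonneg_of_nonpos
      (show (0 : ℝ) ≤ #(univ : Finset ((Fin r → Bool) → Fin A)) by positivity) (not_le.1 a1).le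
    linarith
  have c2 := ha.trans (mul_le_mul_of_nonneg_right c1 hZ0)
  have c3 : (#H₂ : ℝ) ≤ Real.exp (μ₃ m) * #H₃ :=
    hH₃.trans (mul_le_mul_of_nonneg_right hnQ hH₃0.le)
  have c4 := hH₂'.trans (mul_le_mul_of_nonneg_left c3 (by positivity))
  have c5 : Real.exp (-μ₁ m - 1) ≤ Real.exp (-μ₁ m) / 2 := by
    rw [Real.exp_sub]
    refine div_le_div_of_nonneg_left (by positivity) (by norm_num) ?_
    have := Real.add_one_le_exp (1 : ℝ); linarith
  have c6 : (#H₃ : ℝ) * (Real.exp (-μ₁ m - 1) * σ) ≤ Real.exp (2 ^ r * μ₃ m) * Z :=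
    le_trans (by gcongr) c2
  refine le_of_mul_le_mul_left ?_ (show 0 < Real.exp (μ₁ m * 2 ^ r * (μ₂ m + 1 + 1)) *
    Real.exp (μ₃ m) * Real.exp (2 ^ r * μ₃ m) by positivity)
  calc _ = Real.exp (μ₁ m * 2 ^ r * (μ₂ m + 1 + 1) + μ₃ m + 2 ^ r * μ₃ m + -m ^ C) *
        σ ^ (r + 1) := by simp only [Real.exp_add]; ring
    _ ≤ Real.exp (-(m + 2) + (-μ₁ m - 1)) * σ ^ (r + 1) :=
        mul_le_mul_of_nonneg_right (Real.exp_le_exp.2 (by linarith)) (by positivity)
    _ = Real.exp (-(m + 2)) * σ ^ r * (Real.exp (-μ₁ m - 1) * σ) := by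
        rw [Real.exp_add]; ring
    _ ≤ Real.exp (μ₁ m * 2 ^ r * (μ₂ m + 1 + 1)) * (Real.exp (μ₃ m) * #H₃) *
        (Real.exp (-μ₁ m - 1) * σ) := mul_le_mul_of_nonneg_right c4 (by positivity)
    _ = Real.exp (μ₁ m * 2 ^ r * (μ₂ m + 1 + 1)) * Real.exp (μ₃ m) *
        (#H₃ * (Real.exp (-μ₁ m - 1) * σ)) := by ring
    _ ≤ _ := by
        rw [mul_assoc (_ * _)]
        exact mul_le_mul_of_nonneg_left c6 (by positivity)

end Crest.Agent.T49.Ginc
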