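import Crest.Agent.T49.FmDef_17
import Crest.Agent.T49.Nd_50
import Crest.Agent.T49.MxCell_53
import Crest.Agent.T49.RatDef_50

/-!
# Row 49 (helper50): START, part A: linear position maps, degenerate frames, selection of frames
-/

set_option autoImplicit false

noncomputable section

namespace Crest.Agent.T49.S50

open Finset MvPolynomial
open Crest.Agent.T49.Tw Crest.Agent.T49.Gl Crest.Agent.T49.Fm

theorem wt_single {σ : Type} (w : σ → ℕ) (c : σ) :
    Finsupp.weight w (Finsupp.single c 1) = w c := by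
  simp [Finsupp.weight_apply]

theorem mon_cases {σ : Type} {w : σ → ℕ} (hw : ∀ i, 0 < w i) {m : σ →₀ ℕ}
    (hm : Finsupp.weight w m ≤ 1) : m = 0 ∨ ∃ j, m = Finsupp.single j 1 := by
  rcases eq_or_ne m 0 with h | h
  · exact Or.inl h
  obtain ⟨c, hc⟩ := Finsupp.support_nonempty_iff.2 h
  obtain ⟨m', rfl⟩ : ∃ m', m = Finsupp.single c 1 + m' :=
    ⟨m - Finsupp.single c 1, (add_tsub_cancel_of_le (Finsupp.single_le_iff.2
      (Nat.one_le_iff_ne_zero.2 (Finsupp.mem_support_iff.1 hc)))).symm⟩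
  rw [map_add, wt_single] at hm
  rcases eq_or_ne m' 0 with rfl | hne
  · exact Or.inr ⟨c, by simp⟩
  · obtain ⟨c', hc'⟩ := Finsupp.support_nonempty_iff.2 hne
    have := weight_pos_le w m' hc'
    have := hw c'
    have := hw c
    omega

/-- a polynomial of weighted degree `≤ 1` is affine -/
theorem eq_lin {σ R : Type} [Fintype σ] [CommRing R] {w : σ → ℕ} (hw : ∀ i, 0 < w i)
    {f : MvPolynomial σ R} (hf : ∀ m ∈ f.support, Finsupp.weight w m ≤ 1) :
    f = C (coeff 0 f) + ∑ i, C (coeff (Finsupp.single i 1) f) * X i := by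
  classical
  ext m
  rw [coeff_add, coeff_C, coeff_sum]
  simp only [coeff_C_mul, coeff_X']
  by_cases h0 : m = 0
  · subst h0
    rw [if_pos rfl, sum_eq_zero, add_zero]
    intro i _
    rw [if_neg (by simp), mul_zero]
  rw [if_neg (Ne.symm h0), zero_add]
  by_cases h1 : ∃ j, m = Finsupp.single j 1
  · obtain ⟨j, rfl⟩ := h1
    rw [sum_eq_single j]
    · simp
    · intro i _ hi
      rw [if_neg (fun h => hi (Finsupp.single_left_injective one_ne_zero h)), mul_zero]
    · simp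
  · rw [sum_eq_zero fun i _ => by rw [if_neg fun h => h1 ⟨i, h.symm⟩, mul_zero]]
    by_contra h
    rcases mon_cases hw (hf m (mem_support_iff.2 h)) with h2 | h2
    exacts [h0 h2, h1 h2]

variable {ι : Type} [Fintype ι] {D : ℕ}

/-- a non-constant integer position map of level one -/
theorem exists_lin (T : Cell ι) {p : Pl ι} (hI : IsInt p) (hd : DegLe T.lev p 1)
    (h0 : T.top 1 p ≠ 0) : ∃ (p0 : ℤ) (π : ι → ℤ), π ≠ 0 ∧ (∀ c, T.lev c ≠ 1 → π c = 0) ∧
      ∀ z, ⌊ev z p⌋ = p0 + ∑ c, π c * z c := by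
  choose n hn using hI
  have h := eq_lin T.lev_pos hd
  refine ⟨n 0, fun c => n (Finsupp.single c 1), fun hπ => h0 ?_, fun c hc => ?_, fun z => ?_⟩
  · have h2 : ∀ c, coeff (Finsupp.single c 1) p = 0 := fun c => by
      rw [hn, show n (Finsupp.single c 1) = 0 from congrFun hπ c, Int.cast_zero]
    rw [h]
    simp only [h2, C_0, zero_mul, sum_const_zero, add_zero]
    exact Cell.top_C_pos _ one_pos _
  · have h2 : coeff (Finsupp.single c 1) p = 0 := by
      by_contra h3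
      have h4 := hd _ (mem_support_iff.2 h3)
      rw [wt_single] at h4
      have := T.lev_pos c
      omega
    rw [hn] at h2
    exact_mod_cast h2
  · have h2 : ev z p = ((n 0 + ∑ c, n (Finsupp.single c 1) * z c : ℤ) : ℝ) := by
      conv_lhs => rw [h]
      simp [ev, hn]
    rw [h2, Int.floor_intCast]

/-- slope of the position along a frame -/
def slp {lev : ι → ℕ} (π : ι → ℤ) (V : Frm D lev) (d : Fin D → ℤ) : ℤ :=
  ∑ c, π c * ∑ i, coeff (Finsupp.single i 1) (V.W c) * d i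

theorem lin_pt {lev : ι → ℕ} {π : ι → ℤ} (hπ : ∀ c, lev c ≠ 1 → π c = 0) (V : Frm D lev)
    (t : Fin D → ℤ) : ∑ c, π c * V.pt t c = ∑ c, π c * coeff 0 (V.W c) + slp π V t := by
  rw [slp, ← sum_add_distrib]
  refine sum_congr rfl fun c _ => ?_
  by_cases hc : lev c = 1
  · have h := eq_lin (w := fun _ : Fin D => 1) (fun _ => one_pos) (f := V.W c) fun m hm => by
      have := degree_le_of_totalDegree (V.deg c) hm
      rwa [hc, Finsupp.degree_eq_weight_one] at this
    rw [← mul_add, Frm.pt]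
    congr 1
    conv_lhs => rw [h]
    simp
  · simp [hπ c hc]

theorem slp_add_smul {lev : ι → ℕ} (π : ι → ℤ) (V : Frm D lev) (a d : Fin D → ℤ) (i : ℕ) :
    slp π V (a + i • d) = slp π V a + i * slp π V d := by
  simp only [slp, Pi.add_apply, nsmul_eq_mul, mul_add, sum_add_distrib, mul_sum, Pi.mul_apply,
    Pi.natCast_apply]
  congr 1
  exact sum_congr rfl fun c _ => sum_congr rfl fun j _ => by ring

/-- a frame along which the position is not injective -/
def Bad {lev : ι → ℕ} (π : ι → ℤ) (L : ℕ) (V : Frm D lev) : Prop :=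
  ∃ d : Fin D → ℤ, d ≠ 0 ∧ (∀ i, |d i| < L) ∧ slp π V d = 0

theorem mem_pos {L : ℕ} {t : Fin D → ℤ} : t ∈ pos D L ↔ ∀ i, 0 ≤ t i ∧ t i < L := by
  simp [pos]

theorem card_pos' (D L : ℕ) : (#(pos D L) : ℝ) = (L : ℝ) ^ D := by
  simp [pos]

open Classical in
theorem apfree {lev : ι → ℕ} {π : ι → ℤ} (hπ : ∀ c, lev c ≠ 1 → π c = 0) (p0 : ℤ) {A : Set ℤ}
    {k L : ℕ} (hk : 2 ≤ k) (hA : ∀ a d : ℤ, d ≠ 0 → ∃ i : ℕ, i < k ∧ a + i * d ∉ A)
    {V : Frm D lev} (hV : ¬ Bad π L V) :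
    Rat.APFreeZ k ((pos D L).filter fun t => p0 + ∑ c, π c * V.pt t c ∈ A) := by
  intro a d hd
  by_cases h0 : a ∈ pos D L
  swap
  · exact ⟨0, by omega, fun h => h0 (by simpa using (mem_filter.1 h).1)⟩
  by_cases h1 : a + d ∈ pos D L
  swap
  · exact ⟨1, by omega, fun h => h1 (by simpa using (mem_filter.1 h).1)⟩
  have h2 : slp π V d ≠ 0 := fun h => hV ⟨d, hd, fun i => by
    have h3 := mem_pos.1 h0 i
    have h4 := mem_pos.1 h1 i
    rw [Pi.add_apply] at h4
    rw [abs_lt]; omega, h⟩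
  obtain ⟨i, hi, h3⟩ := hA (p0 + (∑ c, π c * coeff 0 (V.W c) + slp π V a)) _ h2
  refine ⟨i, hi, fun h => h3 ?_⟩
  have h4 := (mem_filter.1 h).2
  rw [lin_pt hπ, slp_add_smul] at h4
  convert h4 using 1
  ring

/-- the hyperplane of frames killed by the direction `d` -/
def hl (lev : ι → ℕ) (π : ι → ℤ) (d : Fin D → ℤ) (x : FI D lev) : ℤ :=
  π x.1 * ∑ i, if x.2.1 = Finsupp.single i 1 then d i else 0

theorem single_mem_mi {l : ℕ} (hl : 0 < l) (i : Fin D) : Finsupp.single i 1 ∈ mi D l :=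
  mem_mi.2 (by rw [Finsupp.degree_single]; exact hl)

theorem sum_hl {lev : ι → ℕ} (h0 : ∀ c, 0 < lev c) (π : ι → ℤ) (d : Fin D → ℤ)
    (z : FI D lev → ℤ) : ∑ x, hl lev π d x * z x = slp π (frE D lev z) d := by
  have hz : ∀ x : FI D lev, z x = coeff x.2.1 ((frE D lev z).W x.1) := fun x => by
    rw [← frE_symm, Equiv.symm_apply_apply]
  rw [Fintype.sum_sigma, slp]
  refine sum_congr rfl fun c _ => ?_
  simp only [hl, mul_assoc]
  rw [← mul_sum]
  congr 1
  simp only [sum_mul]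
  rw [sum_comm]
  refine sum_congr rfl fun i _ => ?_
  rw [sum_eq_single ⟨Finsupp.single i 1, single_mem_mi (h0 c) i⟩]
  · rw [if_pos rfl, hz, mul_comm]
  · intro b _ hb
    rw [if_neg fun h => hb (Subtype.ext h), zero_mul]
  · simp

theorem hl_ne {lev : ι → ℕ} (h0 : ∀ c, 0 < lev c) {π : ι → ℤ} (hπ : π ≠ 0) {d : Fin D → ℤ}
    (hd : d ≠ 0) : hl lev π d ≠ 0 := by
  obtain ⟨c, hc⟩ := Function.ne_iff.1 hπ
  obtain ⟨i, hi⟩ := Function.ne_iff.1 hd
  refine Function.ne_iff.2 ⟨⟨c, Finsupp.single i 1, single_mem_mi (h0 c) i⟩, ?_⟩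
  refine mul_ne_zero hc ?_
  rw [sum_eq_single i]
  · rw [if_pos rfl]; exact hi
  · intro j _ hj
    exact if_neg fun h => hj (Finsupp.single_left_injective one_ne_zero h).symm
  · simp

theorem summable_fw (T : Cell ι) (D : ℕ) {σ : ℝ} (hσ : 0 < σ) :
    Summable fun V : Frm D T.lev => fw T σ V := by
  rw [← (frE D T.lev).summable_iff]
  exact (nfc T D hσ).summable_wgt.congr fun z => nfc_wgt T hσ z

theorem summable_ite {X : Type*} {w : X → ℝ} (h0 : ∀ x, 0 ≤ w x) (hw : Summable w) (Q : X → Prop)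
    [DecidablePred Q] : Summable fun x => if Q x then w x else 0 :=
  Summable.of_nonneg_of_le (fun z => by split_ifs; exacts [h0 z, le_rfl])
    (fun z => by split_ifs; exacts [le_rfl, h0 z]) hw

open Classical in
/-- the degenerate frames have small mass -/
theorem bad_le (T : Cell ι) {s L p : ℕ} {σ x η : ℝ} (hσ : 0 < σ) (hs : ∀ c, T.lev c ≤ s)
    (h : (nfc T D hσ).AllPC x η) (hη : η ≤ 1) (hp : p.Prime)
    (hx : 1 + (s + 1) ^ 2 * Real.log p ≤ x) {π : ι → ℤ} (hπ : π ≠ 0)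
    (hπ1 : ∀ c, T.lev c ≠ 1 → π c = 0) :
    ∑' V : Frm D T.lev, (if Bad π L V then fw T σ V else 0) ≤
      (2 * L : ℝ) ^ D * (2 * fmu T D σ / p) := by
  have hw := summable_fw T D hσ
  have h0 : ∀ V : Frm D T.lev, 0 ≤ fw T σ V := fun V => (fw_pos T σ V).le
  have hmu := fmu_pos T D hσ
  have hp0 : (0 : ℝ) < p := by exact_mod_cast hp.pos
  let B : Finset (Fin D → ℤ) := (Fintype.piFinset fun _ => Ico (-(L : ℤ)) L).erase 0
  have hB : (#B : ℝ) ≤ (2 * L : ℝ) ^ D := by
    have h1 : #B ≤ (2 * L) ^ D := by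
      refine card_erase_le.trans (le_of_eq ?_)
      rw [Fintype.card_piFinset, prod_const, card_univ, Fintype.card_fin, Int.card_Ico]
      congr 1
      omega
    exact_mod_cast h1
  have h1 : ∀ d ∈ B, ∑' V : Frm D T.lev, (if slp π V d = 0 then fw T σ V else 0) ≤
      2 * fmu T D σ / p := fun d hd => by
    have h2 := Cell.hyper_le (T := nfc T D hσ) (s := s) (fun x => hs x.1) h hp hx
      (hl_ne T.lev_pos hπ (ne_of_mem_erase hd))
      (fun x hx => by rw [hl, hπ1 x.1 hx, zero_mul]) 0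
    rw [nfc_mu] at h2
    rw [← (frE D T.lev).tsum_eq]
    refine le_trans (le_of_eq (tsum_congr fun z => ?_)) (h2.trans ?_)
    · rw [sum_hl T.lev_pos, nfc_wgt]
    · gcongr; linarith
  calc _ ≤ ∑' V : Frm D T.lev, ∑ d ∈ B, (if slp π V d = 0 then fw T σ V else 0) := by
        refine (summable_ite h0 hw _).tsum_le_tsum (fun V => ?_)
          (summable_sum fun d _ => summable_ite h0 hw _)
        have h3 : ∀ d ∈ B, 0 ≤ if slp π V d = 0 then fw T σ V else 0 := fun d _ => by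
          split_ifs; exacts [h0 V, le_rfl]
        split_ifs with hb
        · obtain ⟨d, hd, hd1, hd2⟩ := hb
          refine le_trans (le_of_eq ?_) (single_le_sum h3 (a := d) (mem_erase.2 ⟨hd, ?_⟩))
          · rw [if_pos hd2]
          · refine Fintype.mem_piFinset.2 fun i => mem_Ico.2 ?_
            have := abs_lt.1 (hd1 i)
            omega
        · exact sum_nonneg h3
    _ = ∑ d ∈ B, ∑' V : Frm D T.lev, (if slp π V d = 0 then fw T σ V else 0) :=
        Summable.tsum_finsetSum fun d _ => summable_ite h0 hw _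
    _ ≤ #B • (2 * fmu T D σ / p) := sum_le_card_nsmul _ _ _ h1
    _ ≤ _ := by rw [nsmul_eq_mul]; gcongr

open Classical in
/-- a finite family of good points that carries a definite mass -/
theorem select {X : Type*} {w g : X → ℝ} (h0 : ∀ x, 0 ≤ w x) (hw : Summable w)
    (hg : ∀ x, |g x| ≤ 1) (bad : X → Prop) {δ : ℝ} (hδ : 0 < δ) (h1 : 3 * δ ≤ ∑' x, w x * g x)
    (h2 : ∑' x, (if bad x then w x else 0) ≤ δ) :
    ∃ Z : Finset X, δ ≤ ∑ x ∈ Z, w x ∧ ∀ x ∈ Z, 0 ≤ g x ∧ ¬ bad x := by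
  have s1 := summable_ite h0 hw fun x => 0 ≤ g x ∧ ¬ bad x
  have s2 := summable_ite h0 hw bad
  have s3 : Summable fun x => w x * g x := by
    refine Summable.of_norm_bounded hw fun x => ?_
    rw [norm_mul, Real.norm_of_nonneg (h0 x)]
    exact mul_le_of_le_one_right (h0 x) (hg x)
  have h3 : ∑' x, w x * g x ≤ ∑' x, (if 0 ≤ g x ∧ ¬ bad x then w x else 0) +
      ∑' x, (if bad x then w x else 0) := by
    rw [← s1.tsum_add s2]
    refine s3.tsum_le_tsum (fun x => ?_) (s1.add s2)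
    have h4 := mul_le_of_le_one_right (h0 x) (abs_le.1 (hg x)).2
    by_cases hb : bad x
    · simpa [hb] using h4
    · by_cases hx : 0 ≤ g x
      · simpa [hb, hx] using h4
      · simpa [hb, hx] using mul_nonpos_of_nonneg_of_nonpos (h0 x) (not_le.1 hx).le
  have h4 : δ < ∑' x, (if 0 ≤ g x ∧ ¬ bad x then w x else 0) := by linarith
  obtain ⟨Z, hZ⟩ := (s1.hasSum.eventually (lt_mem_nhds h4)).exists
  refine ⟨Z.filter fun x => 0 ≤ g x ∧ ¬ bad x, ?_, fun x hx => (mem_filter.1 hx).2⟩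
  rw [sum_filter]
  exact hZ.le

end Crest.Agent.T49.S50
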