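import Crest.Agent.T49.SampBox_57

/-! Robust sampler for UNBOUNDED (normalised) tests `G`, `|G| ≤ Γ`: only the class means `Gd` are
bounded by one; the remainder is controlled by pair moments of the majorant `Γ`. -/

set_option autoImplicit false

namespace Crest.Agent.T49.Samp

open Finset

theorem bdd_smp {Ω X T : Type*} (S : Finset T) (p : T → ℝ) (ev : T → Ω → X) {G : X → ℝ}
    (hG : Bdd G) : Bdd (smp S p ev G) :=
  Bdd.sum S (fun t ω => p t * G (ev t ω)) fun t _ => (Bdd.const (p t)).mul (hG.comp (ev t))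

theorem abs_remW_le {X : Type*} {G Γ : X → ℝ} {Gd : ℕ → X → ℝ} (hΓ : ∀ x, 0 ≤ Γ x)
    (hG : ∀ x, |G x| ≤ Γ x) (h : ∀ d x, |Gd d x| ≤ 1) (b Q : ℕ) (x : X) :
    |rem G Gd b Q x| ≤ (1 + (Q : ℝ) ^ 2) * (1 + Γ x) := by
  have h1 : |∑ q ∈ Icc 1 Q, part Gd b q x| ≤ (Q : ℝ) ^ 2 := by
    refine (Finset.abs_sum_le_sum_abs _ _).trans ?_
    have := sum_Icc_le_sq 1 Q 1 zero_le_one le_rfl
    simp only [mul_one] at this
    exact (Finset.sum_le_sum fun q _ => abs_part_le h b q x).trans this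
  refine (abs_sub _ _).trans ((add_le_add (hG x) h1).trans ?_)
  nlinarith [hΓ x, sq_nonneg (Q : ℝ), mul_nonneg (sq_nonneg (Q : ℝ)) (hΓ x)]

theorem bdd_remW {X : Type*} {G : X → ℝ} {Gd : ℕ → X → ℝ} (hG : Bdd G)
    (h : ∀ d x, |Gd d x| ≤ 1) (b Q : ℕ) : Bdd (rem G Gd b Q) :=
  hG.sub (Bdd.sum _ (fun q x => part Gd b q x) fun q _ => Bdd.of_le q (abs_part_le h b q))

/-- the law reweighted by `1 + Γ` at the point `e ω` -/
noncomputable def PF.wt {Ω X : Type*} (P : PF Ω) (e : Ω → X) (Γ : X → ℝ) (hb : Bdd Γ)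
    (h0 : ∀ x, 0 ≤ Γ x) : PF Ω :=
  P.restr (fun ω => 1 + Γ (e ω)) ((Bdd.const 1).add (hb.comp e)) fun ω => add_nonneg zero_le_one (h0 (e ω))

@[simp] theorem PF.wt_E {Ω X : Type*} (P : PF Ω) (e : Ω → X) (Γ : X → ℝ) (hb : Bdd Γ)
    (h0 : ∀ x, 0 ≤ Γ x) (f : Ω → ℝ) :
    (P.wt e Γ hb h0).E f = P.E (fun ω => (1 + Γ (e ω)) * f ω) := rfl

/-- `PairET` for the reweighted law from `PairET` for `P` and for `P` restricted by `Γ ∘ e` -/
theorem PairET.wt {Ω X : Type*} {P : PF Ω} {e e' : Ω → X} {G Γ : X → ℝ} {Gd : ℕ → X → ℝ}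
    {g B : ℕ} {τ τ' : ℝ} (hb : Bdd Γ) (h0 : ∀ x, 0 ≤ Γ x) (h : PairET P e e' G Gd g B τ)
    (h' : PairET (P.restr (fun ω => Γ (e ω)) (hb.comp e) fun ω => h0 _) e e' G Gd g B τ') :
    PairET (P.wt e Γ hb h0) e e' G Gd g B (τ + τ') := by
  have key : ∀ f : Ω → ℝ, (P.wt e Γ hb h0).E f
      = P.E f + (P.restr (fun ω => Γ (e ω)) (hb.comp e) fun ω => h0 _).E f := by
    intro f
    rw [PF.wt_E, PF.restr_E, ← P.add]
    congr 1; ext ω; ring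
  refine ⟨fun u hu => ?_, fun u hu d hd hB => ?_⟩
  · have h1 := h.top u hu
    have h2 := h'.top u hu
    rw [key, key]
    rw [abs_le] at h1 h2 ⊢
    constructor <;> linarith [h1.1, h1.2, h2.1, h2.2]
  · have h1 := h.lev u hu d hd hB
    have h2 := h'.lev u hu d hd hB
    rw [key, key]
    rw [abs_le] at h1 h2 ⊢
    constructor <;> linarith [h1.1, h1.2, h2.1, h2.2]

open Classical in
/-- **(SR')** second moment of the sampled remainder of a test `|G| ≤ Γ`: bad pairs are paid by the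
pair moment of `1 + Γ`, good pairs by equidistribution under the law reweighted by `1 + Γ`. -/
theorem rem_sq_leW {Ω X T : Type*} (P : PF Ω) {S : Finset T} {p : T → ℝ}
    (hp : ∀ t ∈ S, 0 ≤ p t) (hp1 : ∑ t ∈ S, p t = 1) (ev : T → Ω → X) {G Γ : X → ℝ}
    {Gd : ℕ → X → ℝ} (hΓb : Bdd Γ) (hΓ : ∀ x, 0 ≤ Γ x) (hG : ∀ x, |G x| ≤ Γ x)
    (hGd : ∀ d x, |Gd d x| ≤ 1) {b Q B : ℕ} (hb : 0 < b)
    (hB : b * Q ≤ B) {ν τ : ℝ} (hτ : 0 ≤ τ) (good : T → T → Prop)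
    (hν : ∑ t ∈ S, ∑ t' ∈ S, (if good t t' then 0 else
      p t * p t' * P.E (fun ω => (1 + Γ (ev t ω)) * (1 + Γ (ev t' ω)))) ≤ ν)
    (hET : ∀ t ∈ S, ∀ t' ∈ S, good t t' →
      ∃ g, 0 < g ∧ g ≤ Q ∧ PairET (P.wt (ev t) Γ hΓb hΓ) (ev t) (ev t') G Gd g B τ) :
    P.E (fun ω => smp S p ev (rem G Gd b Q) ω ^ 2) ≤ (1 + (Q : ℝ) ^ 2) ^ 2 * (ν + τ) := by
  set K : ℝ := 1 + (Q : ℝ) ^ 2 with hK
  have hK0 : 0 < K := by positivity
  have hR := abs_remW_le hΓ hG hGd b Q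
  have h1 : (fun ω => smp S p ev (rem G Gd b Q) ω ^ 2) = fun ω => ∑ t ∈ S, ∑ t' ∈ S,
      (p t * p t') * (rem G Gd b Q (ev t ω) * rem G Gd b Q (ev t' ω)) := by
    ext ω
    rw [smp, pow_two, Finset.sum_mul_sum]
    exact Finset.sum_congr rfl fun t _ => Finset.sum_congr rfl fun t' _ => by ring
  rw [h1, P.sum]
  have h2 : ∀ t ∈ S, P.E (fun ω => ∑ t' ∈ S,
      (p t * p t') * (rem G Gd b Q (ev t ω) * rem G Gd b Q (ev t' ω)))
      ≤ ∑ t' ∈ S, (K ^ 2 * (if good t t' then 0 else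
        p t * p t' * P.E (fun ω => (1 + Γ (ev t ω)) * (1 + Γ (ev t' ω))))
          + K ^ 2 * τ * (p t * p t')) := by
    intro t ht
    rw [P.sum]
    refine Finset.sum_le_sum fun t' ht' => ?_
    rw [P.cmul]
    have hpp : 0 ≤ p t * p t' := mul_nonneg (hp t ht) (hp t' ht')
    split_ifs with hg
    · obtain ⟨g, hg0, hgQ, hE⟩ := hET t ht t' ht' hg
      have hpos : ∀ x, 0 < K * (1 + Γ x) := fun x => mul_pos hK0 (by linarith [hΓ x])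
      have h3 := hE.rem hb hB hg0 hgQ (fun x => (K * (1 + Γ x))⁻¹ * rem G Gd b Q x) fun x => by
        rw [abs_mul, abs_of_pos (inv_pos.2 (hpos x)), inv_mul_le_iff₀ (hpos x), mul_one]
        exact hR x
      rw [PF.wt_E] at h3
      have h4 : (fun ω => rem G Gd b Q (ev t ω) * rem G Gd b Q (ev t' ω))
          = fun ω => K * ((1 + Γ (ev t ω)) * ((K * (1 + Γ (ev t ω)))⁻¹ * rem G Gd b Q (ev t ω)
            * rem G Gd b Q (ev t' ω))) := by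
        ext ω
        have : 1 + Γ (ev t ω) ≠ 0 := by linarith [hΓ (ev t ω)]
        field_simp
      rw [h4, P.cmul]
      have h5 := (le_abs_self _).trans h3
      have h6 := mul_le_mul_of_nonneg_left h5 hK0.le
      have h7 := mul_le_mul_of_nonneg_left h6 hpp
      nlinarith
    · have hb1 : ∀ s, Bdd (fun ω => 1 + Γ (ev s ω)) := fun s => (Bdd.const 1).add (hΓb.comp _)
      have h3 : |P.E (fun ω => rem G Gd b Q (ev t ω) * rem G Gd b Q (ev t' ω))|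
          ≤ P.E (fun ω => K ^ 2 * ((1 + Γ (ev t ω)) * (1 + Γ (ev t' ω)))) :=
        P.abs_le_of ((Bdd.const _).mul ((hb1 t).mul (hb1 t'))) fun ω => by
          rw [abs_mul]
          have := mul_le_mul (hR (ev t ω)) (hR (ev t' ω)) (abs_nonneg _)
            ((abs_nonneg _).trans (hR (ev t ω)))
          refine this.trans (le_of_eq (by ring))
      rw [P.cmul] at h3
      have h5 := mul_le_mul_of_nonneg_left ((le_abs_self _).trans h3) hpp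
      nlinarith [mul_nonneg (mul_nonneg (sq_nonneg K) hτ) hpp]
  refine (Finset.sum_le_sum h2).trans ?_
  simp only [Finset.sum_add_distrib, ← Finset.mul_sum]
  rw [← Finset.sum_mul, hp1]
  nlinarith [mul_le_mul_of_nonneg_left hν (sq_nonneg K)]

/-- second moment of the sampled majorant from pair moments -/
theorem smp_sq_eq {Ω X T : Type*} (P : PF Ω) (S : Finset T) (p : T → ℝ) (ev : T → Ω → X)
    (Γ : X → ℝ) : P.E (fun ω => smp S p ev Γ ω ^ 2)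
      = ∑ t ∈ S, ∑ t' ∈ S, p t * p t' * P.E (fun ω => Γ (ev t ω) * Γ (ev t' ω)) := by
  have h1 : (fun ω => smp S p ev Γ ω ^ 2) = fun ω => ∑ t ∈ S, ∑ t' ∈ S,
      (p t * p t') * (Γ (ev t ω) * Γ (ev t' ω)) := by
    ext ω
    rw [smp, pow_two, Finset.sum_mul_sum]
    exact Finset.sum_congr rfl fun t _ => Finset.sum_congr rfl fun t' _ => by ring
  rw [h1, P.sum]
  refine Finset.sum_congr rfl fun t _ => ?_
  rw [P.sum]
  exact Finset.sum_congr rfl fun t' _ => P.cmul _ _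

open Classical in
/-- **(PZ)** a positive first moment and a bounded second moment of a majorant give a dense
subfamily every member of which is good by itself -/
theorem exists_good {Ω : Type*} (P : PF Ω) (hP : P.mass ≤ 1) {a F Y : Ω → ℝ} (ha0 : ∀ ω, 0 ≤ a ω)
    (ha1 : ∀ ω, a ω ≤ 1) (hY : Bdd Y) (hFY : ∀ ω, |F ω| ≤ Y ω) {s C : ℝ} (hs : 0 < s)
    (h1 : s ≤ P.E (fun ω => a ω * F ω)) (h2 : P.E (fun ω => Y ω ^ 2) ≤ C) :
    ∃ a' : Ω → ℝ, (∀ ω, 0 ≤ a' ω) ∧ (∀ ω, a' ω ≤ a ω) ∧ (∀ ω, a' ω ≠ 0 → s / 2 ≤ F ω) ∧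
      s ^ 2 ≤ 4 * C * P.E a' := by
  have hF : Bdd F := by
    obtain ⟨M, hM⟩ := hY
    exact ⟨M, fun ω => (hFY ω).trans ((le_abs_self _).trans (hM ω))⟩
  have hba : Bdd a := Bdd.of_01 ha0 ha1
  let a' : Ω → ℝ := fun ω => if s / 2 ≤ F ω then a ω else 0
  have h0 : ∀ ω, 0 ≤ a' ω := fun ω => by simp only [a']; split_ifs; exacts [ha0 ω, le_rfl]
  have hle : ∀ ω, a' ω ≤ a ω := fun ω => by simp only [a']; split_ifs; exacts [le_rfl, ha0 ω]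
  have hb' : Bdd a' := Bdd.of_01 h0 fun ω => (hle ω).trans (ha1 ω)
  refine ⟨a', h0, hle, fun ω h => ?_, ?_⟩
  · by_contra hn
    exact h (by simp only [a']; rw [if_neg hn])
  have h3 : P.E (fun ω => a ω * F ω) ≤ P.E (fun ω => a' ω * Y ω + s / 2) := by
    refine P.mono (hba.mul hF) ((hb'.mul hY).add (Bdd.const _)) fun ω => ?_
    simp only [a']
    split_ifs with h
    · have := mul_le_mul_of_nonneg_left ((le_abs_self _).trans (hFY ω)) (ha0 ω)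
      linarith
    · push Not at h
      have : a ω * F ω ≤ a ω * (s / 2) := mul_le_mul_of_nonneg_left h.le (ha0 ω)
      nlinarith [ha1 ω, ha0 ω]
  rw [P.add, P.const] at h3
  have h4 : s / 2 ≤ P.E (fun ω => a' ω * Y ω) := by nlinarith
  have h5 := P.cs hb' hY
  have h6 : P.E (fun ω => a' ω ^ 2) ≤ P.E a' :=
    P.mono hb'.sq hb' fun ω => by nlinarith [h0 ω, (hle ω).trans (ha1 ω)]
  have h7 : 0 ≤ P.E (fun ω => Y ω ^ 2) := P.nonneg _ hY.sq fun ω => sq_nonneg _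
  have h8 : 0 ≤ P.E a' := P.nonneg _ hb' h0
  have h9 : (s / 2) ^ 2 ≤ P.E (fun ω => a' ω * Y ω) ^ 2 := pow_le_pow_left₀ (by positivity) h4 2
  have h10 : P.E (fun ω => a' ω ^ 2) * P.E (fun ω => Y ω ^ 2) ≤ P.E a' * C :=
    mul_le_mul h6 h2 h7 h8
  nlinarith

variable {Ω X T N n : Type*} [Fintype N] [DecidableEq N] [Fintype n] [DecidableEq n]

section
variable {P : PF Ω} {dat : Ω → N → ℤ} {a : Ω → ℝ} {b Q B : ℕ} {r : N → ℤ} {θ abar β τ τ₂ : ℝ}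
  {S : Finset T} {p : T → ℝ} {g : T → T → ℕ} {lin : T → (N → ℤ) →+ (n → ℤ)}
  {γ : T → ℕ → (n → ℤ) → ℝ} {ev : T → Ω → X} {G : X → ℝ} {Gd : ℕ → X → ℝ}

/-- **(SAMP, two-sided, on one spread piece)** -/
theorem piece_boundW (hS : Spread P dat a b r Q θ abar) (ha0 : ∀ ω, 0 ≤ a ω) (ha1 : ∀ ω, a ω ≤ 1)
    (hab : 0 ≤ abar) (hθ : 0 ≤ θ) (hθ1 : θ ≤ 1) (hE : Equi P dat B τ) (hτ : τ ≤ 1 / 2)
    (hp : ∀ t ∈ S, 0 ≤ p t) (hp1 : ∑ t ∈ S, p t = 1) (hA : Arith S g lin γ B β τ) (hβ : 0 ≤ β)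
    (hβ1 : β ≤ 1) (hAp : Appr P dat S ev Gd lin γ B τ₂) (hτ₂ : 0 ≤ τ₂)
    (hGd : ∀ d x, |Gd d x| ≤ 1) (hQ : 1 ≤ Q) (hB : b * Q ≤ B) {C ε : ℝ} (hC : GcdBd S p g Q C)
    (hε : ∀ ω, a ω ≠ 0 → |smp S p ev (rem G Gd b Q) ω| ≤ ε) :
    |P.E (fun ω => cls b r (dat ω) * (a ω * smp S p ev G ω))
        - abar * P.E (fun ω => cls b r (dat ω)) * ∑ t ∈ S, p t * γ t b (lin t r)|
      ≤ abar * P.E (fun ω => cls b r (dat ω)) * (ε + √(3 * θ) * β * C + 6 * (Q : ℝ) ^ 3 * √τ)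
        + (1 + (Q : ℝ) ^ 2) * τ₂ := by
  have hb := hS.bpos
  have hbB : b ≤ B := (Nat.le_mul_of_pos_right b hQ).trans hB
  have hba : Bdd a := Bdd.of_01 ha0 ha1
  set mr := P.E (fun ω => cls b r (dat ω)) with hmr
  have hm0 : 0 ≤ abar * mr := mul_nonneg hab hS.mpos.le
  have hw : ∀ ω, |cls b r (dat ω) * a ω| ≤ 1 := fun ω => by
    rw [abs_of_nonneg (mul_nonneg (cls_nonneg _ _ _) (ha0 ω))]
    exact mul_le_one₀ (cls_le_one _ _ _) (ha0 ω) (ha1 ω)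
  have e0 : (fun ω => cls b r (dat ω) * (a ω * smp S p ev G ω)) = fun ω =>
      (cls b r (dat ω) * (a ω * smp S p ev (rem G Gd b Q) ω)
        + ∑ t ∈ S, p t * (cls b r (dat ω) * a ω * Gd b (ev t ω)))
        + ∑ q ∈ Icc 2 Q, cls b r (dat ω) * (a ω * smp S p ev (part Gd b q) ω) := by
    ext ω
    have : smp S p ev G ω = smp S p ev (rem G Gd b Q) ω + ∑ t ∈ S, p t * Gd b (ev t ω)
        + ∑ q ∈ Icc 2 Q, smp S p ev (part Gd b q) ω := by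
      simp only [smp]
      rw [Finset.sum_comm, ← Finset.sum_add_distrib, ← Finset.sum_add_distrib]
      refine Finset.sum_congr rfl fun t _ => ?_
      rw [eq_rem_add G Gd b hQ (ev t ω), ← Finset.mul_sum]
      simp only [rem]
      ring
    rw [this, mul_add, mul_add, mul_add, mul_add]
    simp only [Finset.mul_sum]
    congr 2
    exact Finset.sum_congr rfl fun t _ => by ring
  rw [e0, P.add, P.add, P.sum, P.sum]
  have h1 : |P.E (fun ω => cls b r (dat ω) * (a ω * smp S p ev (rem G Gd b Q) ω))|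
      ≤ abar * mr * ε := by
    rw [← hS.mean, ← P.mulc]
    refine P.abs_le_of (((bdd_cls b r dat).mul hba).mul (Bdd.const ε)) fun ω => ?_
    rw [← mul_assoc, abs_mul, abs_of_nonneg (mul_nonneg (cls_nonneg _ _ _) (ha0 ω))]
    by_cases h : a ω = 0
    · simp [h]
    · exact mul_le_mul_of_nonneg_left (hε ω h) (mul_nonneg (cls_nonneg _ _ _) (ha0 ω))
  have h2 : |∑ t ∈ S, P.E (fun ω => p t * (cls b r (dat ω) * a ω * Gd b (ev t ω)))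
      - abar * mr * ∑ t ∈ S, p t * γ t b (lin t r)| ≤ τ₂ := by
    rw [Finset.mul_sum, ← Finset.sum_sub_distrib]
    have : ∀ t ∈ S, P.E (fun ω => p t * (cls b r (dat ω) * a ω * Gd b (ev t ω)))
        - abar * mr * (p t * γ t b (lin t r))
        = p t * (P.E (fun ω => cls b r (dat ω) * a ω * Gd b (ev t ω))
          - P.E (fun ω => cls b r (dat ω) * a ω * γ t b (lin t (dat ω)))) := by
      intro t ht
      have e : (fun ω => cls b r (dat ω) * a ω * γ t b (lin t (dat ω)))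
          = fun ω => cls b r (dat ω) * a ω * γ t b (lin t r) := by
        ext ω
        by_cases h : Cong b (dat ω) r
        · rw [(hA.per_lin ht hb hbB).congr h]
        · simp [cls, h]
      rw [P.cmul, e, P.mulc, hS.mean]
      ring
    rw [Finset.sum_congr rfl this]
    exact abs_wsum_le hp hp1 fun t ht => appr_lev hA hAp hGd hw ht hb hbB
  have h3 : |∑ q ∈ Icc 2 Q, P.E (fun ω => cls b r (dat ω) * (a ω * smp S p ev (part Gd b q) ω))|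
      ≤ abar * mr * (√(3 * θ) * β * C + 6 * (Q : ℝ) ^ 3 * √τ) + (Q : ℝ) ^ 2 * τ₂ := by
    refine (Finset.abs_sum_le_sum_abs _ _).trans ((Finset.sum_le_sum fun q hq =>
      part_corr_le hS ha0 ha1 hab hθ hθ1 hE hτ hp hp1 hA hβ hβ1 hAp hτ₂ hGd (mem_Icc.1 hq).1
        (mem_Icc.1 hq).2 ((Nat.mul_le_mul_left b (mem_Icc.1 hq).2).trans hB)).trans ?_)
    rw [Finset.sum_add_distrib, ← Finset.mul_sum, Finset.sum_add_distrib, ← Finset.mul_sum]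
    refine add_le_add (mul_le_mul_of_nonneg_left (add_le_add
      (mul_le_mul_of_nonneg_left hC (by positivity)) ?_) hm0) (sum_Icc_le_sq 2 Q τ₂ hτ₂ (by norm_num))
    have h4 := sum_Icc_le_sq 2 Q (6 * Q * √τ) (by positivity) (by norm_num)
    refine le_trans (Finset.sum_le_sum fun q hq => ?_) (h4.trans (le_of_eq (by ring)))
    have h5 : (q : ℝ) ≤ Q := by exact_mod_cast (mem_Icc.1 hq).2
    have h6 : (0 : ℝ) ≤ q * √τ := by positivity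
    nlinarith [mul_le_mul_of_nonneg_right h5 h6]
  rw [abs_le] at h1 h2 h3 ⊢
  constructor <;> nlinarith [h1.1, h1.2, h2.1, h2.2, h3.1, h3.2]

/-- lower form: if every frame of the piece sees an average `≥ δ`, so do the class means -/
theorem piece_lowerW (hS : Spread P dat a b r Q θ abar) (ha0 : ∀ ω, 0 ≤ a ω) (ha1 : ∀ ω, a ω ≤ 1)
    {σ : ℝ} (hσ : 0 < σ) (hab : σ ≤ abar) (hθ : 0 ≤ θ) (hθ1 : θ ≤ 1) (hE : Equi P dat B τ)
    (hτ : τ ≤ 1 / 2) (hp : ∀ t ∈ S, 0 ≤ p t) (hp1 : ∑ t ∈ S, p t = 1)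
    (hA : Arith S g lin γ B β τ) (hβ : 0 ≤ β) (hβ1 : β ≤ 1) (hAp : Appr P dat S ev Gd lin γ B τ₂)
    (hτ₂ : 0 ≤ τ₂) (hG : Bdd G) (hGd : ∀ d x, |Gd d x| ≤ 1) (hQ : 1 ≤ Q)
    (hB : b * Q ≤ B) {Q0 : ℕ} (hbQ : b ≤ Q0) {C ε δ : ℝ} (hC : GcdBd S p g Q C)
    (hε : ∀ ω, a ω ≠ 0 → |smp S p ev (rem G Gd b Q) ω| ≤ ε)
    (hδ : ∀ ω, a ω ≠ 0 → δ ≤ smp S p ev G ω) :
    δ - (ε + √(3 * θ) * β * C + 6 * (Q : ℝ) ^ 3 * √τ
      + 2 * (Q0 : ℝ) ^ Fintype.card N * (1 + (Q : ℝ) ^ 2) * τ₂ / σ)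
      ≤ ∑ t ∈ S, p t * γ t b (lin t r) := by
  have hab0 : 0 < abar := hσ.trans_le hab
  have h1 := (abs_le.1 (piece_boundW hS ha0 ha1 hab0.le hθ hθ1 hE hτ hp hp1 hA hβ hβ1 hAp hτ₂ hGd
    hQ hB hC hε)).2
  have hba : Bdd a := Bdd.of_01 ha0 ha1
  have h2 : abar * P.E (fun ω => cls b r (dat ω)) * δ
      ≤ P.E (fun ω => cls b r (dat ω) * (a ω * smp S p ev G ω)) := by
    rw [← hS.mean, ← P.mulc]
    refine P.mono (((bdd_cls b r dat).mul hba).mul (Bdd.const δ)) ((bdd_cls b r dat).mul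
      (hba.mul (bdd_smp S p ev hG))) fun ω => ?_
    rw [← mul_assoc]
    by_cases h : a ω = 0
    · simp [h]
    · exact mul_le_mul_of_nonneg_left (hδ ω h) (mul_nonneg (cls_nonneg _ _ _) (ha0 ω))
  have h3 := hE.mass_ge hτ hS.bpos ((Nat.le_mul_of_pos_right b hQ).trans hB) hbQ r
  set mr := P.E (fun ω => cls b r (dat ω))
  have hm : 0 < abar * mr := mul_pos hab0 hS.mpos
  have h4 : (1 + (Q : ℝ) ^ 2) * τ₂ ≤ abar * mr *
      (2 * (Q0 : ℝ) ^ Fintype.card N * (1 + (Q : ℝ) ^ 2) * τ₂ / σ) := by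
    rw [← mul_div_assoc, le_div_iff₀ hσ]
    have h5 : 0 ≤ (1 + (Q : ℝ) ^ 2) * τ₂ := by positivity
    have h6 : σ ≤ abar * (2 * (Q0 : ℝ) ^ Fintype.card N * mr) := by nlinarith
    nlinarith [mul_le_mul_of_nonneg_left h6 h5]
  refine le_of_mul_le_mul_left ?_ hm
  nlinarith

end

open Classical in
/-- **ROBUST SAMPLER, unbounded tests.**  As `samp`, but the test `G b` is only bounded by some
constant; the second moment `ζ` of the sampled remainder is a hypothesis (use `rem_sq_leW`). -/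
theorem sampW (P : PF Ω) {K : Type*} (Pk : K → PF Ω) (hPk : ∀ k, (Pk k).mass = 1)
    (hmix : ∀ f : Ω → ℝ, (∀ ω, 0 ≤ f ω) → (∀ ω, f ω ≤ 1) → ∃ k, P.E f ≤ 2 * (Pk k).E f)
    (dat : K → Ω → N → ℤ) {a : Ω → ℝ} (ha0 : ∀ ω, 0 ≤ a ω) (ha1 : ∀ ω, a ω ≤ 1)
    {σ θ ε δ β τ τ₂ ζ C : ℝ} (hσ : 0 < σ) (hσa : σ ≤ P.E a) (hθ : 0 < θ) (hθ1 : θ ≤ 1)
    (hε : 0 < ε) {Q0 Q B : ℕ} (hQ : 1 ≤ Q) (hQ0 : 1 ≤ σ / 4 * (Q0 : ℝ) ^ θ) (hB : Q0 * Q ≤ B)
    {S : Finset T} {p : T → ℝ} (hp : ∀ t ∈ S, 0 ≤ p t) (hp1 : ∑ t ∈ S, p t = 1)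
    (ev : T → Ω → X) (G : ℕ → X → ℝ) (Gd : ℕ → ℕ → X → ℝ) (hG : ∀ b, Bdd (G b))
    (hGd : ∀ b d x, |Gd b d x| ≤ 1)
    (hζ : ∀ b, 0 < b → b ≤ Q0 →
      P.E (fun ω => smp S p ev (rem (G b) (Gd b) b Q) ω ^ 2) ≤ ζ)
    (hsmall : 2 * (Q0 * ζ) ≤ σ * ε ^ 2)
    (hE : ∀ k, Equi (Pk k) (dat k) B τ) (hτ : τ ≤ 1 / 2) (g : T → T → ℕ) (hC : GcdBd S p g Q C)
    (lin : K → T → (N → ℤ) →+ (n → ℤ)) (γ : K → ℕ → T → ℕ → (n → ℤ) → ℝ) (hβ : 0 ≤ β)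
    (hβ1 : β ≤ 1) (hτ₂ : 0 ≤ τ₂)
    (hA : ∀ k b, 0 < b → b ≤ Q0 → Arith S g (lin k) (γ k b) B β τ)
    (hAp : ∀ k b, 0 < b → b ≤ Q0 → Appr (Pk k) (dat k) S ev (Gd b) (lin k) (γ k b) B τ₂)
    (hδ : ∀ b, 0 < b → b ≤ Q0 → ∀ ω, a ω ≠ 0 → δ ≤ smp S p ev (G b) ω) :
    ∃ (k : K) (b : ℕ) (r : N → ℤ), 0 < b ∧ b ≤ Q0 ∧
      δ - (ε + √(3 * θ) * β * C + 6 * (Q : ℝ) ^ 3 * √τ
        + 8 * (Q0 : ℝ) ^ Fintype.card N * (1 + (Q : ℝ) ^ 2) * τ₂ / σ)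
      ≤ ∑ t ∈ S, p t * γ k b t b (lin k t r) := by
  obtain ⟨a', k, b, r, abar, h0, h1, h2, hb, hab, -, hS⟩ := exists_piece P Pk hPk hmix dat ha0 ha1
    hσ hσa hθ hθ1 hε hQ hQ0 (Icc 1 Q0) (fun b => smp S p ev (rem (G b) (Gd b) b Q)) (ζ := ζ)
    (fun b _ => bdd_smp S p ev (bdd_remW (hG b) (hGd b) b Q))
    (fun b hb => hζ b (mem_Icc.1 hb).1 (mem_Icc.1 hb).2)
    (by simpa using hsmall)
  have hb0 := hS.bpos
  refine ⟨k, b, r, hb0, hb, ?_⟩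
  have h3 := piece_lowerW hS h0 (fun ω => (h1 ω).trans (ha1 ω)) (σ := σ / 4) (by positivity) hab
    hθ.le hθ1 (hE k) hτ hp hp1 (hA k b hb0 hb) hβ hβ1 (hAp k b hb0 hb) hτ₂ (hG b) (hGd b) hQ
    ((Nat.mul_le_mul_right Q hb).trans hB) hb hC
    (fun ω hω => (h2 ω hω).2 b (mem_Icc.2 ⟨hb0, hb⟩))
    (fun ω hω => hδ b hb0 hb ω (by rw [← (h2 ω hω).1]; exact hω))
  have e : 2 * (Q0 : ℝ) ^ Fintype.card N * (1 + (Q : ℝ) ^ 2) * τ₂ / (σ / 4)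
      = 8 * (Q0 : ℝ) ^ Fintype.card N * (1 + (Q : ℝ) ^ 2) * τ₂ / σ := by
    field_simp; ring
  rwa [e] at h3

end Crest.Agent.T49.Samp
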