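import Crest.Agent.T49.SyAlgA_29
import Crest.Agent.T49.BrClos_14
import Crest.Agent.T49.BrPush_54
import Crest.Agent.T49.BrUniq_32

/-!
# Row 49 (helper29): the algebra of the symmetry argument (`AlgStmt`)
-/

set_option autoImplicit false

noncomputable section

namespace Crest.Agent.T49.Sy

open Finset MvPolynomial
open Crest.Agent.T49.Tw Crest.Agent.T49.Nil Crest.Agent.T49.Nil.ND
open Crest.Agent.T49.Bch (star)
open Crest.Agent.T49.GI (Gd GR GMap pw pr tup pwη Bigr Graded hp pw_lie toPw fn_pwη pushStmt)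
open Crest.Agent.T49.Br (Cs Mor Hm Uo NearR GS closRStmt pushRStmt pullRStmt rmap_of_gmap gd_mono
  gr_mono gmap_mono)
open Crest.Agent.T49.Ri

namespace A29

variable {κ σ : Type} [Fintype κ] {A : ND κ} {hd : κ → Bool}

section sel

variable {J J' : Type} [Fintype J] [DecidableEq J] [Fintype J'] [DecidableEq J']

/-- selection of components -/
def dsel (A : ND κ) (R : Type) [CommRing R] [Algebra ℝ R] (r : J' → J) :
    (du (pw A J)).pts R →ₗ⁅ℝ⁆ (du (pw A J')).pts R where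
  toFun x p := x (p.1, r p.2.1, p.2.2)
  map_add' _ _ := rfl
  map_smul' _ _ := rfl
  map_lie' {x y} := by
    let φ : (pw A J).pts R →ₗ⁅ℝ⁆ (pw A J').pts R := toPw fun j => pr A R (r j)
    refine du_ext ?_ ?_
    · rw [dc_lie_false]
      exact (congrArg φ (dc_lie_false x y)).trans (φ.map_lie _ _)
    · rw [dc_lie_true]
      refine (congrArg φ (dc_lie_true x y)).trans ?_
      rw [map_add, LieHom.map_lie, LieHom.map_lie]
      rfl

theorem dsel_apply {R : Type} [CommRing R] [Algebra ℝ R] (r : J' → J) (x : (du (pw A J)).pts R)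
    (p : Bool × J' × κ) : dsel A R r x p = x (p.1, r p.2.1, p.2.2) := rfl

theorem bc_dsel (r : J' → J) (x : (du (pw A J)).PS σ) :
    bc (dsel A ℝ r) (Pl σ) x = dsel A (Pl σ) r x :=
  ps_ext fun α => by rw [bc_eq, cv_bcl]; rfl

theorem gmap_dsel (r : J' → J) {m : ℝ} (hm : 0 ≤ m) :
    GMap (du (pw A J)) (du (pw A J')) m (dsel A ℝ r).toLinearMap := by
  classical
  have key : ∀ (i : Bool × J × κ) (p : Bool × J' × κ),
      (dsel A ℝ r).toLinearMap ((du (pw A J)).e i) p =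
        if (p.1, r p.2.1, p.2.2) = i then 1 else 0 :=
    fun i p => (e_apply (N := du (pw A J)) i (p.1, r p.2.1, p.2.2)).trans (by congr)
  refine ⟨fun i k => ?_, fun i k hk => ?_⟩
  · rw [key]
    split_ifs
    · exact ⟨1, by simp, by simpa using hm⟩
    · exact ⟨0, by simp, by simpa using (Real.exp_pos m).le⟩
  · rw [key] at hk
    split_ifs at hk with h
    · rw [← h]; rfl
    · exact absurd rfl hk

end sel

theorem gmap_id {g : ND κ} {m : ℝ} (hm : 0 ≤ m) :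
    GMap g g m (LieHom.id : g.L →ₗ⁅ℝ⁆ g.L).toLinearMap := by
  classical
  refine ⟨fun i k => ?_, fun i k hk => ?_⟩
  · change ∃ z : ℤ, g.e i k = _ ∧ _
    rw [e_apply]
    split_ifs
    · exact ⟨1, by simp, by simpa using hm⟩
    · exact ⟨0, by simp, by simpa using (Real.exp_pos m).le⟩
  · change g.e i k ≠ 0 at hk
    rw [e_apply] at hk
    split_ifs at hk with h
    · rw [h]
    · exact absurd rfl hk

theorem bc_id {g : ND κ} (x : g.PS σ) : bc (LieHom.id : g.L →ₗ⁅ℝ⁆ g.L) (Pl σ) x = x :=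
  ps_ext fun α => by rw [bc_eq, cv_bcl]; rfl

theorem nearR_self {g : ND κ} {c : Cs σ} {S : ℕ} {m : ℝ} (hm : 0 ≤ m) (hS : ∀ k, g.wt k ≤ S)
    {U : Submodule ℝ g.L} {x : g.PS σ} (hx : x ∈ Hm c.lev g) (hU : x ∈ Uo σ U) :
    NearR c g S m U x := by
  have := ND.nil hS (Pl σ)
  exact ⟨0, x, 0, Br.C14.smR_zero c g m, hx, hU, Br.C14.rtR_zero _ g hm, by simp⟩

theorem gs_mS (hA : Bigr A hd) {m : ℝ} (hm : 0 ≤ m) : GS (du (pw A (Fin 2))) m (mS A hd) := by
  refine ⟨⟨fun n x hx k hk => ?_, Gon.isRat_coord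
    (fun p : Bool × Fin 2 × κ => ¬ (p.1 = false ∧ p.2.1 = 1 ∧ hd p.2.2 = true))
    (Real.one_le_exp hm) _ fun x => ⟨fun hx p hp => ?_, fun hx k hk => ?_⟩⟩,
    fun x hx y hy k hk => ?_⟩
  · by_cases h : A.wt k = n
    · exact (Gon.prj_pos (p := fun i => (du (pw A (Fin 2))).wt i = n) (i := (false, 1, k)) x
        h).trans (hx k hk)
    · exact Gon.prj_neg (p := fun i => (du (pw A (Fin 2))).wt i = n) (i := (false, 1, k)) x h
  · obtain ⟨e, a, k⟩ := p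
    obtain ⟨rfl, rfl, h⟩ := not_not.1 hp
    exact hx k h
  · exact hx _ (not_not.2 ⟨rfl, rfl, hk⟩)
  · refine (congrFun (dc_lie_false x y) (1, k)).trans ?_
    rw [pw_lie]
    refine sum_eq_zero fun i _ => sum_eq_zero fun j _ => ?_
    by_cases hc : A.c i j k = 0
    · simp [hc]
    have := hA.add i j k hc
    rw [hk] at this
    cases hi : hd i
    · cases hj : hd j
      · simp [hi, hj] at this
      · simp [hy j hj]
    · simp [hx i hi]

/-! ### the jet data of the symmetry argument -/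

variable {J : Type}

/-- the points of the pattern, the Euler lift and the tangent point -/
def jd (ν ν' μ μ' : J → ℤ) : JD (J ⊕ Fin 2) where
  n0 := Sum.elim ν fun _ => 1
  n1 := Sum.elim ν' ![1, 0]
  b0 l := Sum.elim (fun j => μ j ^ l - ν j ^ l) ![l, 0]
  b1 l := Sum.elim (fun j => μ j ^ (l - 1) * μ' j - ν j ^ (l - 1) * ν' j) ![l, 1]

variable {ν ν' μ μ' : J → ℤ}

theorem U_m0 {w : ℕ} {b : Bool} {u : J ⊕ Fin 2 → ℝ} (h : u ∈ (jd ν ν' μ μ').U false w b.toNat) :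
    u (.inr 1) = if b then 0 else u (.inr 0) := by
  cases b
  · refine JD.U_le (W := LinearMap.eqLocus (LinearMap.proj (Sum.inr 1)) (LinearMap.proj (Sum.inr 0)))
      (by simp) (fun z hz => ?_) h
    rcases hz with ⟨-, -, rfl⟩ | ⟨_, _, _, _, h, -⟩ | ⟨_, h, -⟩ | ⟨_, _, _, h, -⟩ | ⟨_, _, _, h, -⟩
    · simp [jd]
    all_goals simp at h
  · refine JD.U_le (W := LinearMap.ker (LinearMap.proj (Sum.inr 1))) (by simp) (fun z hz => ?_) h
    rcases hz with ⟨-, h, -⟩ | ⟨_, _, _, _, -, -, rfl⟩ | ⟨_, h, -⟩ | ⟨_, _, _, h, -⟩ |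
      ⟨_, _, _, h, -⟩
    · simp at h
    · simp [jd]
    all_goals simp at h

theorem U_kill [Fintype J] {s : ℕ} {sg : J → ℤ} {κ0 : ℤ} (hK : Kid s sg ν ν' μ μ' κ0)
    {u : J ⊕ Fin 2 → ℝ} (h : u ∈ (jd ν ν' μ μ').U true s 1) :
    ∑ j, (sg j : ℝ) * u (.inl j) = κ0 * (u (.inr 0) - s * u (.inr 1)) := by
  refine JD.U_le (W := LinearMap.eqLocus
    (∑ j, (sg j : ℝ) • LinearMap.proj (R := ℝ) (φ := fun _ : J ⊕ Fin 2 => ℝ) (Sum.inl j))
    ((κ0 : ℝ) • (LinearMap.proj (Sum.inr 0) - (s : ℝ) • LinearMap.proj (Sum.inr 1))))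
    le_rfl (fun z hz => ?_) h |>.trans ?_ |> Eq.trans ?_
  · simp
  · rw [LinearMap.mem_eqLocus]
    simp only [LinearMap.sum_apply, LinearMap.smul_apply, LinearMap.sub_apply,
      LinearMap.proj_apply, smul_eq_mul]
    rcases hz with ⟨h, -⟩ | ⟨_, _, _, h, -⟩ | ⟨_, _, h, -⟩ | ⟨i, l, hl, -, -, hs, rfl⟩ |
      ⟨i, l, hl, -, -, hs, rfl⟩
    · simp at h
    · simp at h
    · simp at h
    · have h1 := hK.1 l hl (by omega)
      rw [show s - l - 1 = i by omega] at h1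
      have h2 := congrArg (Int.cast : ℤ → ℝ) h1
      push_cast at h2
      simp only [jd, Pi.mul_apply, Pi.pow_apply, Sum.elim_inl, Sum.elim_inr]
      push_cast
      rw [h2]
      simp [mul_comm]
    · have h1 := hK.2 l hl (by omega)
      rw [show s - l = i by omega] at h1
      have h2 := congrArg (Int.cast : ℤ → ℝ) h1
      push_cast at h2
      simp only [jd, Pi.mul_apply, Pi.pow_apply, Sum.elim_inl, Sum.elim_inr]
      push_cast
      rw [h2]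
      simp [mul_comm]
  · simp

section W

variable [Fintype σ] {lev : σ → ℕ}

theorem je_theta (e : Bool) (f : Pl (σ ⊕ σ)) : (jd ν ν' μ μ').je lev e (.inr 0) f =
    if e then dirD (aeval (eul lev) f) else rename Sum.inl (aeval (eul lev) f) := by
  have h0 : (jd ν ν' μ μ').s0 lev (.inr 0) = fun v => rename Sum.inl (eul lev v) := by
    funext v; cases v <;> simp [JD.s0, jd, eul]
  have h1 : (jd ν ν' μ μ').s1 lev (.inr 0) = fun v => dirD (eul lev v) := by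
    funext v
    cases v with
    | inl v => simp [JD.s1, jd, eul, dirD_X]
    | inr v =>
      change C _ * X _ = dirD (C _ * X _)
      rw [dirD_mul, dirD_C, dirD_X, zero_mul, add_zero, rename_C]
      simp [jd]
  cases e
  · rw [JD.je, h0]
    exact (comp_aeval_apply (eul lev) (rename Sum.inl) f).symm
  · rw [JD.je, h0, h1]
    exact (dirD_aeval _ f).symm

theorem je_tan (e : Bool) {f : Pl (σ ⊕ σ)} {w d : ℕ}
    (hw : IsWeightedHomogeneous (Sum.elim lev lev) f w)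
    (hd : IsWeightedHomogeneous (Sum.elim (fun _ => 0) fun _ => 1) f d) :
    (jd ν ν' μ μ').je lev e (.inr 1) f = if d = e.toNat then f else 0 := by
  let s0 := (jd ν ν' μ μ').s0 lev (.inr 1)
  let s1 := (jd ν ν' μ μ').s1 lev (.inr 1)
  let M : ℕ → ℕ → Submodule ℝ (Pl (σ ⊕ σ)) := fun _ d =>
    { carrier := {f | aeval s0 f = (if d = 0 then f else 0) ∧ jt s0 s1 f = if d = 1 then f else 0}
      add_mem' := fun hf hg => ⟨by rw [map_add, hf.1, hg.1]; split_ifs <;> simp,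
        by rw [jt_add, hf.2, hg.2]; split_ifs <;> simp⟩
      zero_mem' := ⟨by simp, by simpa using jt_C s0 s1 0⟩
      smul_mem' := fun r _ hf => ⟨by rw [map_smul, hf.1]; split_ifs <;> simp,
        by rw [jt_smul, hf.2]; split_ifs <;> simp⟩ }
  have key : f ∈ M w d := by
    refine bih_mem M ⟨by simp, by simpa using jt_C s0 s1 1⟩ (fun v => ⟨?_, ?_⟩)
      (fun a b a' b' f hf g hg => ⟨?_, ?_⟩) hw hd
    · cases v <;> simp [s0, JD.s0, jd]
    · rw [jt_X]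
      cases v <;> simp [s1, JD.s1, jd]
    · rw [map_mul, hf.1, hg.1]
      by_cases h1 : b = 0 <;> by_cases h2 : b' = 0 <;> simp [h1, h2]
    · rw [jt_mul, hf.1, hg.1, hf.2, hg.2]
      rcases b with _ | _ | b <;> rcases b' with _ | _ | b' <;> simp <;> omega
  cases e
  exacts [key.1, key.2]

variable [Fintype J] [DecidableEq J]

theorem dsel_inr {x : A.PS (σ ⊕ σ)} (hx : BiH A hd lev x) :
    dsel A _ Sum.inr ((jd ν ν' μ μ').W A lev x) = W2 A hd lev x := by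
  refine pts_ext fun ⟨e, a, k⟩ => ?_
  change (jd ν ν' μ μ').je lev e (.inr a) (x k) = _
  fin_cases a
  · refine (je_theta e _).trans ?_
    cases e <;> rfl
  · refine (je_tan e (hx k).1 (hx k).2).trans ?_
    cases e <;> cases h : hd k <;> simp [W2, dmk, phP, h]

theorem dsel_inl {τ : Type} [Fintype τ] {bs tp : J → σ → Pl τ}
    {r : τ ⊕ τ → Pl (σ ⊕ σ)}
    (h : ∀ j v, aeval r (rename Sum.inl (bs j v)) = C ((ν j : ℝ) ^ lev v) * X (Sum.inl v) ∧
      aeval r (dirD (bs j v)) = C ((ν j : ℝ) ^ (lev v - 1) * ν' j) * X (Sum.inr v) ∧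
      aeval r (rename Sum.inl (tp j v)) = C ((μ j : ℝ) ^ lev v) * X (Sum.inl v) ∧
      aeval r (dirD (tp j v)) = C ((μ j : ℝ) ^ (lev v - 1) * μ' j) * X (Sum.inr v))
    (x : A.PS (σ ⊕ σ)) :
    dsel A _ Sum.inl ((jd ν ν' μ μ').W A lev x) = (du (pw A J)).subst r
      (tang (pw A J) (tup fun j => A.subst (Sum.elim (bs j) (tp j - bs j)) x)) := by
  refine pts_ext fun ⟨e, j, k⟩ => ?_
  have h0 : (jd ν ν' μ μ').s0 lev (.inl j) =
      fun v => aeval r (rename Sum.inl (Sum.elim (bs j) (tp j - bs j) v)) := by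
    funext v
    cases v with
    | inl v => exact (h j v).1.symm
    | inr v =>
      rw [Sum.elim_inr, Pi.sub_apply, map_sub, map_sub, (h j v).1, (h j v).2.2.1, ← sub_mul,
        ← map_sub]
      simp [JD.s0, jd]
  have h1 : (jd ν ν' μ μ').s1 lev (.inl j) =
      fun v => aeval r (dirD (Sum.elim (bs j) (tp j - bs j) v)) := by
    funext v
    cases v with
    | inl v => exact (h j v).2.1.symm
    | inr v =>
      rw [Sum.elim_inr, Pi.sub_apply, dirD_sub, map_sub, (h j v).2.1, (h j v).2.2.2, ← sub_mul,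
        ← map_sub]
      simp [JD.s1, jd]
  change (jd ν ν' μ μ').je lev e (.inl j) (x k) = _
  rw [JD.je, h0, h1]
  cases e
  · change _ = aeval r (rename Sum.inl (aeval (Sum.elim (bs j) (tp j - bs j)) (x k)))
    rw [comp_aeval_apply _ (rename Sum.inl), comp_aeval_apply]
    rfl
  · change _ = aeval r (dirD (aeval (Sum.elim (bs j) (tp j - bs j)) (x k)))
    rw [dirD_aeval, aeval_jt]
    rfl

end W

theorem jd_bound {s : ℕ} {m : ℝ} (hm : 2 ≤ m)
    (h : ∀ j, |(ν j : ℝ)| ≤ m ∧ |(ν' j : ℝ)| ≤ m ∧ |(μ j : ℝ)| ≤ m ∧ |(μ' j : ℝ)| ≤ m) :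
    (∀ a, |((jd ν ν' μ μ').n0 a : ℝ)| ≤ 2 * m ^ (s + 1) + s ∧
      |((jd ν ν' μ μ').n1 a : ℝ)| ≤ 2 * m ^ (s + 1) + s) ∧
    ∀ l, l ≤ s → ∀ a, |((jd ν ν' μ μ').b0 l a : ℝ)| ≤ 2 * m ^ (s + 1) + s ∧
      |((jd ν ν' μ μ').b1 l a : ℝ)| ≤ 2 * m ^ (s + 1) + s := by
  have hs : (0 : ℝ) ≤ s := Nat.cast_nonneg s
  have h1 : m ≤ m ^ (s + 1) := le_self_pow₀ (by linarith) (by omega)
  have hp : ∀ {y : ℝ} {i : ℕ}, |y| ≤ m → i ≤ s → |y ^ i| ≤ m ^ s := fun hy hi => by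
    rw [abs_pow]
    exact (pow_le_pow_left₀ (abs_nonneg _) hy _).trans (pow_le_pow_right₀ (by linarith) hi)
  have hq : ∀ {y z : ℝ} {i : ℕ}, |y| ≤ m → |z| ≤ m → i ≤ s → |y ^ i * z| ≤ m ^ (s + 1) :=
    fun hy hz hi => by
      rw [abs_mul, pow_succ]
      exact mul_le_mul (hp hy hi) hz (abs_nonneg _) (by positivity)
  have h2 : m ^ s ≤ m ^ (s + 1) := pow_le_pow_right₀ (by linarith) (by omega)
  refine ⟨fun a => ?_, fun l hl a => ?_⟩
  · rcases a with j | a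
    · exact ⟨(h j).1.trans (by linarith), (h j).2.1.trans (by linarith)⟩
    · fin_cases a <;> simp [jd] <;> first | linarith | (constructor <;> linarith)
  · have hl' : (l : ℝ) ≤ s := by exact_mod_cast hl
    rcases a with j | a
    · simp only [jd, Sum.elim_inl]
      push_cast
      refine ⟨(abs_sub _ _).trans ?_, (abs_sub _ _).trans ?_⟩
      · linarith [hp (h j).1 hl, hp (h j).2.2.1 hl]
      · linarith [hq (i := l - 1) (h j).1 (h j).2.1 (by omega),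
          hq (i := l - 1) (h j).2.2.1 (h j).2.2.2 (by omega)]
    · fin_cases a <;> simp [jd] <;> first | linarith | (constructor <;> linarith)

end A29

open A29 in
theorem alg_of (hJet : JetStmt) (hMatch : MatchStmt) : AlgStmt := by
  classical
  intro s
  obtain ⟨Cj, hCj, hJet⟩ := hJet s
  obtain ⟨Cm, hCm, hMatch⟩ := hMatch s
  obtain ⟨Cc, hCc, hClos⟩ := closRStmt.2.2 s
  obtain ⟨Cp, hCp, hPull⟩ := pullRStmt closRStmt pushRStmt s
  obtain ⟨Cq, hCq, hPushR⟩ := pushRStmt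
  obtain ⟨Ck, hCk, hPush⟩ := pushStmt
  obtain ⟨C1, hC1, hb⟩ : ∃ C : ℕ, 3 ≤ C ∧ ∀ m : ℝ, 2 ≤ m →
      (2 * m ^ (s + 1) + s) ^ s ≤ Real.exp (m ^ C) := by
    have : ∀ᶠ C : ℕ in Filter.atTop, ∀ m : ℝ, 2 ≤ m →
      (2 * m ^ (s + 1) + s) ^ s ≤ Real.exp (m ^ C) := by qp
    exact ((Filter.eventually_ge_atTop 3).and this).exists
  -- one exponent that dominates all the others
  obtain ⟨K, hK⟩ : ∃ K : ℕ, C1 ≤ K ∧ Cj ≤ K ∧ Cm ≤ K ∧ Cc ≤ K ∧ Cp ≤ K ∧ Cq ≤ K ∧ Ck ≤ K :=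
    ⟨C1 + Cj + Cm + Cc + Cp + Cq + Ck, by omega⟩
  refine ⟨K ^ 8, Nat.one_le_pow _ _ (by omega), fun m hm ι σ κ J _ _ _ _ _ A hd η c cP x sg ν ν' μ
    μ' κ0 bs tp r U hA hB hJ hη hη' hx hND hν hκ hKid hr hjet hU hUη hN => ?_⟩
  let M : ℕ → ℝ := fun i => m ^ K ^ i
  have hM2 : ∀ i, 2 ≤ M i := fun i =>
    hm.trans (le_self_pow₀ (by linarith) (pow_ne_zero _ (by omega)))
  have hM0 : ∀ i, 0 ≤ M i := fun i => by linarith [hM2 i]
  have hMs : ∀ i {C : ℕ}, C ≤ K → M i ^ C ≤ M (i + 1) := fun i C hC => by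
    show (m ^ K ^ i) ^ C ≤ m ^ K ^ (i + 1)
    rw [← pow_mul, pow_succ]
    exact Qp.pw_mono hm (Nat.mul_le_mul_left _ hC)
  have hMm : ∀ {i j}, i ≤ j → M i ≤ M j := fun h =>
    Qp.pw_mono hm (Nat.pow_le_pow_right (by omega) h)
  have hm1 : m ≤ M 1 := le_self_pow₀ (by linarith) (pow_ne_zero _ (by omega))
  have h3 : m ^ 3 ≤ M 1 := Qp.pw_mono hm (by rw [pow_one]; omega)
  have hND' : ∀ i, i ≤ 7 → ∀ {C : ℕ}, C ≤ K → (tanC c).ND s (Real.exp (M i ^ C)) :=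
    fun i hi C hC => hND.mono (Real.exp_le_exp.2 ((hMs i hC).trans (hMm (j := 8) (by omega))))
  have gdJ : ∀ (I : Type) [Fintype I] [DecidableEq I], (Fintype.card I : ℝ) ≤ m + 2 →
      Gd (pw A I) s (M 1) := fun I _ _ hI =>
    GI.Gour32.gd_pw hA I hm1 (le_trans (by
      have h1 := mul_le_mul_of_nonneg_right hI (by linarith : (0 : ℝ) ≤ m)
      have h2 : 0 ≤ (m - 2) * (m * m) := mul_nonneg (by linarith) (by positivity)
      have h3 : 0 ≤ (m - 2) * m := mul_nonneg (by linarith) (by linarith)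
      nlinarith) h3)
  have gdD : ∀ (I : Type) [Fintype I] [DecidableEq I], (Fintype.card I : ℝ) ≤ m + 2 →
      Gd (du (pw A I)) s (M 2) := fun I _ _ hI =>
    gd_mono (hJet (M 1) (hM2 1) _ ι (pw A I) c ⊥ 0 (gdJ I hI)).1 (hMs 1 hK.2.1)
  have g1 := gdD J (by linarith)
  have g2 := gdD (Fin 2) (by simp; linarith)
  have g0 := gdD (J ⊕ Fin 2) (by simp; linarith)
  set 𝒥 := jd ν ν' μ μ' with h𝒥
  set W := 𝒥.W A c.lev x with hW
  have hWb : BiH (du (pw A (J ⊕ Fin 2))) Prod.fst c.lev W := JD.W_bih hx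
  have hWh : W ∈ Hm (tanC c).lev (du (pw A (J ⊕ Fin 2))) := fun p => (hWb p).1
  -- the jets along the pattern
  obtain ⟨-, j1, j2⟩ := hJet (M 1) (hM2 1) _ σ (pw A J) cP U _ (gdJ J (by linarith))
  have hU1 : GS (du (pw A J)) (M 1) (duS U) := j1 (hU.mono hm1)
  have n1 := j2 (hN.mono hm1 le_rfl)
  have n2 := (hClos (M 2) (hM2 2) _ _ (du (pw A J)) (tanC cP) g1).2.2.2 _ (tanC c) r
    (hr.mono (Real.exp_le_exp.2 (hm1.trans (hMm (by omega))))) |>.2.2.2 _ _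
    (n1.mono (hMs 1 hK.2.1) le_rfl)
  rw [← dsel_inl hjet, ← bc_dsel] at n2
  -- first pull back
  have n3 := hPull (M 3) (hM2 3) _ _ Unit _ (du (pw A (J ⊕ Fin 2))) (du (pw A J)) (tanC c)
    (fun _ => dsel A ℝ Sum.inl) (fun _ => duS U) W (gd_mono g0 (hMm (by omega)))
    (gd_mono g1 (hMm (by omega))) (by simp; linarith [hM2 3]) (hND' 3 (by omega) hK.2.2.2.2.1)
    (fun _ => gmap_dsel _ (hM0 3)) (fun _ => hU1.mono (hMm (by omega))) hWh
    fun _ => n2.mono (hMs 2 hK.2.2.2.1) le_rfl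
  rw [iInf_const] at n3
  set U1 := (duS U).comap (dsel A ℝ (Sum.inl : J → J ⊕ Fin 2)).toLinearMap with hU1d
  have gU1 : GS (du (pw A (J ⊕ Fin 2))) (M 3) U1 :=
    ⟨gr_mono (((hPush (M 2) (hM2 2) _ _ _ _ g0.dim g1.dim).1 _ (gmap_dsel _ (hM0 2))).2.1 _
      (gr_mono hU1.toGR (hMm (by omega)))) (hMs 2 hK.2.2.2.2.2.2), fun a ha b hb => by
      rw [Submodule.mem_comap, LieHom.coe_toLinearMap, LieHom.map_lie]
      exact hU1.lie _ ha _ hb⟩
  obtain ⟨b1, b2⟩ := jd_bound (s := s) hm hν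
  have gG : GS (du (pw A (J ⊕ Fin 2))) (M 1) (𝒥.gp A hd) :=
    JD.gp_gs hB hA.wt_le (by
      have := Qp.one_le_pw hm (s + 1)
      have : (0 : ℝ) ≤ s := Nat.cast_nonneg s
      linarith) b1 b2
      ((hb m hm).trans (Real.exp_le_exp.2 (Qp.pw_mono hm (by rw [pow_one]; omega))))
  -- intersection
  have n4 := hPull (M 4) (hM2 4) _ _ Bool _ (du (pw A (J ⊕ Fin 2))) (du (pw A (J ⊕ Fin 2)))
    (tanC c) (fun _ => LieHom.id) (fun b => if b then U1 else 𝒥.gp A hd) W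
    (gd_mono g0 (hMm (by omega))) (gd_mono g0 (hMm (by omega))) (by simp; linarith [hM2 4])
    (hND' 4 (by omega) hK.2.2.2.2.1) (fun _ => gmap_id (hM0 4))
    (fun b => by
      cases b
      exacts [gG.mono (hMm (by omega)), gU1.mono (hMm (by omega))]) hWh
    fun b => by
      rw [bc_id]
      cases b
      exacts [nearR_self (hM0 4) g0.wt_le hWh (JD.W_mem c.pos hx),
        n3.mono (hMs 3 hK.2.2.2.2.1) le_rfl]
  have n5 : NearR (tanC c) _ s (M 5) (𝒥.gp A hd ⊓ U1) W :=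
    n4.mono (hMs 4 hK.2.2.2.2.1) (le_inf (iInf_le_of_le false le_rfl) (iInf_le_of_le true le_rfl))
  have gI : GR (du (pw A (J ⊕ Fin 2))) (M 4) (𝒥.gp A hd ⊓ U1) :=
    gr_mono ((hPush (M 3) (hM2 3) _ _ _ (du (pw A (J ⊕ Fin 2))) (g0.dim.trans (hMm (by omega)))
      (g0.dim.trans (hMm (by omega)))).2.2.2.1 _ _ (gr_mono gG.toGR (hMm (by omega))) gU1.toGR).1
      (hMs 3 hK.2.2.2.2.2.2)
  -- push forward to the last two components
  set 𝔟 := (𝒥.gp A hd ⊓ U1).map (dsel A ℝ (Sum.inr : Fin 2 → J ⊕ Fin 2)).toLinearMap with h𝔟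
  have n6 := (hPushR (M 5) (hM2 5) _ _ _ _ (g0.dim.trans (hMm (by omega)))
    (g2.dim.trans (hMm (by omega)))).2.1 _ (tanC c) (dsel A ℝ Sum.inr) s _ W
    (rmap_of_gmap (gmap_dsel _ (hM0 5)) (hM0 5)) n5
  rw [bc_dsel, hW, dsel_inr hx] at n6
  have g𝔟 : GS (du (pw A (Fin 2))) (M 6) 𝔟 :=
    ⟨gr_mono (((hPush (M 4) (hM2 4) _ _ _ _ (g0.dim.trans (hMm (by omega)))
      (g2.dim.trans (hMm (by omega)))).1 _ (gmap_dsel _ (hM0 4))).1 _ gI)
      ((hMs 4 hK.2.2.2.2.2.2).trans (hMm (by omega))), by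
      rintro _ ⟨a, ha, rfl⟩ _ ⟨b, hb, rfl⟩
      exact ⟨⁅a, b⁆, ⟨gG.lie _ ha.1 _ hb.1, gU1.lie _ ha.2 _ hb.2⟩, LieHom.map_lie _ _ _⟩⟩
  have heg : ∀ w ∈ 𝔟, dmk (dc _ ℝ false w) 0 ∈ 𝔟 := by
    rintro _ ⟨a, ha, rfl⟩
    refine ⟨dmk (dc _ ℝ false a) 0, ⟨fun e k => ?_, ha.2.1, zero_mem U⟩,
      pts_ext fun ⟨e, _, _⟩ => by cases e <;> rfl⟩
    cases e
    exacts [ha.1 false k, zero_mem _]
  have hm0 : ∀ w ∈ 𝔟, ∀ k, w (false, 1, k) = if hd k then 0 else w (false, 0, k) := by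
    rintro _ ⟨a, ha, rfl⟩ k
    exact U_m0 (ha.1 false k)
  have hWb2 : BiH (du (pw A (Fin 2))) Prod.fst c.lev (W2 A hd c.lev x) := by
    rw [← dsel_inr (ν := ν) (ν' := ν') (μ := μ) (μ' := μ') hx]
    exact fun p => hWb (p.1, .inr p.2.1, p.2.2)
  refine ⟨𝔟, ⟨g𝔟.mono (hMm (j := 8) (by omega)), heg, hm0, ?_⟩, ?_⟩
  · rintro _ ⟨a, ha, rfl⟩
    have h1 := hUη _ ha.2.2
    rw [fn_pwη] at h1
    have h2 : ∀ k, ∑ j, (sg j : ℝ) * ((η k : ℝ) * a (true, .inl j, k)) =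
        κ0 * (η k * a (true, .inr 0, k) - s * (η k * a (true, .inr 1, k))) := fun k => by
      by_cases hk : η k = 0
      · simp [hk]
      have h4 := ha.1 true k
      have h5 : A.wt k = s := by_contra fun h => hk (hη k h)
      have h6 : hd k = true := by_contra fun h => hk (hη' k (by simpa using h))
      rw [h5, h6] at h4
      have h7 := U_kill hKid h4
      simp only [mul_left_comm _ (η k : ℝ), ← mul_sum]
      rw [h7]; ring
    have h3 : (κ0 : ℝ) * (∑ k, (η k : ℝ) * a (true, .inr 0, k) -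
        s * ∑ k, (η k : ℝ) * a (true, .inr 1, k)) = 0 := by
      rw [mul_sum, ← sum_sub_distrib, mul_sum, ← sum_congr rfl fun k _ => h2 k, sum_comm, ← h1]
      exact sum_congr rfl fun j _ => by rw [fn_apply, mul_sum]; rfl
    exact sub_eq_zero.1 ((mul_eq_zero.1 h3).resolve_left (by exact_mod_cast hκ))
  · obtain ⟨E, y, Γ, q, a1, a2, a3, a4, a5, a6, a7, a8, a9, a10⟩ :=
      hMatch (M 6) (hM2 6) _ ι (pw A (Fin 2)) c 𝔟 (mS A hd) _ (gd_mono g2 (hMm (by omega)))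
      (hND' 6 (by omega) hK.2.2.1) g𝔟 (gs_mS hB (hM0 6))
      (fun w hw k hk => by rw [hm0 w hw k, if_pos hk]) heg hWb2
      (fun α k hk => by simp [W2, dmk, phP, hk]) (n6.mono (hMs 5 hK.2.2.2.2.2.1) le_rfl)
    have hle : Real.exp (M 6 ^ Cm) ≤ Real.exp (m ^ K ^ 8) :=
      Real.exp_le_exp.2 ((hMs 6 hK.2.2.1).trans (hMm (j := 8) (by omega)))
    exact ⟨E, y, Γ, q, a1, a2, fun p => (a3 p).trans hle, a4, a5, a6, a7, a8, a9.trans hle, a10⟩

end Crest.Agent.T49.Sy
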