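import Crest.Agent.T49.RiDU_67
import Crest.Agent.T49.RiSymDef_29
import Crest.Agent.T49.RiApi_81

/-!
# Row 49 (helper67): the Cauchy-Schwarz chain of the symmetry step
-/

set_option autoImplicit false

noncomputable section

namespace Crest.Agent.T49.Sy

open Finset
open Crest.Agent.T49.Hk
open Crest.Agent.T49.Box (cz sb cz_neg cz_mul norm_cz cz_one SF sgnF)
open scoped ComplexConjugate Classical

namespace C67

/-- box Cauchy-Schwarz when only related pairs `y, y'` have a common neighbour -/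
theorem box_cs' {X Y : Type*} {a : X → ℂ} {b : Y → ℂ} {w : X → ℝ} {v : Y → ℝ} {K : X → Y → ℂ}
    (hw : Summable w) (hv : Summable v) (ha : ∀ x, ‖a x‖ ≤ w x) (hb : ∀ y, ‖b y‖ ≤ v y)
    (hK : ∀ x y, ‖K x y‖ ≤ 1) (r : Y × Y → Prop)
    (hr : ∀ x p, ¬ r p → K x p.1 * conj (K x p.2) = 0) :
    ‖∑' p : X × Y, a p.1 * b p.2 * K p.1 p.2‖ ^ 4 ≤ (∑' x, w x) ^ 2 *
      (∑' p : Y × Y, if r p then v p.1 * v p.2 else 0) *
      ‖∑' q : (X × X) × (Y × Y), (w q.1.1 * w q.1.2 * v q.2.1 * v q.2.2 : ℝ) *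
        (K q.1.1 q.2.1 * conj (K q.1.1 q.2.2) * conj (K q.1.2 q.2.1) * K q.1.2 q.2.2)‖ := by
  have h0 : ∀ x, 0 ≤ w x := fun x => (norm_nonneg _).trans (ha x)
  have hv0 : ∀ y, 0 ≤ v y := fun y => (norm_nonneg _).trans (hb y)
  have hbK : ∀ x y, ‖b y * K x y‖ ≤ v y := fun x y => by
    rw [norm_mul]; exact (mul_le_of_le_one_right (norm_nonneg _) (hK x y)).trans (hb y)
  have hKK : ∀ x y y', ‖(w x : ℂ) * (K x y * conj (K x y'))‖ ≤ w x := fun x y y' => by
    simp only [norm_mul, Complex.norm_real, Real.norm_of_nonneg (h0 _), Complex.norm_conj]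
    exact mul_le_of_le_one_right (h0 x) (mul_le_one₀ (hK _ _) (norm_nonneg _) (hK _ _))
  have hvv := hv.mul_of_nonneg hv hv0 hv0
  have e1 : ∑' p : X × Y, a p.1 * b p.2 * K p.1 p.2 = ∑' x, a x * ∑' y, b y * K x y := by
    rw [Summable.tsum_prod]
    · simp only [mul_assoc, tsum_mul_left]
    · refine .of_norm_bounded (hw.mul_of_nonneg hv h0 hv0) fun p => ?_
      rw [mul_assoc, norm_mul]
      exact mul_le_mul (ha _) (hbK _ _) (norm_nonneg _) (h0 _)
  have h1 := cs_step hw hv ha hbK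
  have e2 : ∀ p : Y × Y, ∑' x, (w x : ℂ) * (b p.1 * K x p.1 * conj (b p.2 * K x p.2)) =
      (if r p then b p.1 * conj (b p.2) else 0) *
        ∑' x, w x * (K x p.1 * conj (K x p.2)) := fun p => by
    rw [← tsum_mul_left]
    refine tsum_congr fun x => ?_
    rw [map_mul]
    split_ifs with h
    · ring
    · linear_combination (w x * b p.1 * conj (b p.2)) * hr x p h
  simp only [e2] at h1
  have h2 := cs_step (a := fun p : Y × Y => if r p then b p.1 * conj (b p.2) else 0)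
    (w := fun p => if r p then v p.1 * v p.2 else 0)
    (K := fun p x => w x * (K x p.1 * conj (K x p.2)))
    (hvv.of_nonneg_of_le (fun p => by split_ifs <;> simp [mul_nonneg (hv0 _) (hv0 _)])
      fun p => by split_ifs <;> simp [mul_nonneg (hv0 _) (hv0 _)]) hw (fun p => by
      split_ifs
      · rw [norm_mul, Complex.norm_conj]
        exact mul_le_mul (hb _) (hb _) (norm_nonneg _) (hv0 _)
      · simp) fun p x => hKK x _ _
  rw [e1, show 4 = 2 * 2 from rfl, pow_mul]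
  refine (pow_le_pow_left₀ (sq_nonneg _) h1 2).trans ?_
  rw [mul_pow, mul_assoc]
  refine mul_le_mul_of_nonneg_left (h2.trans_eq ?_) (sq_nonneg _)
  rw [Summable.tsum_prod (β := X × X) (γ := Y × Y)]
  · congr 2
    refine tsum_congr fun p => tsum_congr fun q => ?_
    simp only [map_mul, Complex.conj_ofReal, Complex.conj_conj]
    split_ifs with h
    · push_cast
      ring
    · rw [hr _ q h]
      simp
  · refine .of_norm_bounded ((hw.mul_of_nonneg hw h0 h0).mul_of_nonneg hvv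
      (fun _ => mul_nonneg (h0 _) (h0 _)) fun _ => mul_nonneg (hv0 _) (hv0 _)) fun q => ?_
    rw [norm_mul, Complex.norm_real, Real.norm_of_nonneg
      (mul_nonneg (mul_nonneg (mul_nonneg (h0 _) (h0 _)) (hv0 _)) (hv0 _)), ← mul_assoc]
    refine mul_le_of_le_one_right
      (mul_nonneg (mul_nonneg (mul_nonneg (h0 _) (h0 _)) (hv0 _)) (hv0 _)) ?_
    simp only [norm_mul, Complex.norm_conj]
    exact mul_le_one₀ (mul_le_one₀ (mul_le_one₀ (hK _ _) (norm_nonneg _) (hK _ _))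
      (norm_nonneg _) (hK _ _)) (norm_nonneg _) (hK _ _)

variable {G : Type} [AddCommGroup G] {F : ℕ → AddSubgroup G} {t : ℕ}

/-- the four `(t+1)`-cubes of a pattern -/
def pk (hF : Antitone F) (z : Pat8 F t) (s i : Bool) : Cu F (Fin (t + 1)) :=
  ⟨fun ω => z.1 (s, i, xor s (ω (fe t none)), fun j => ω (fe t (some j))), by
    refine (mem_Cu_ins (fe t)).2 ⟨?_, ?_⟩
    · convert add_mem (Cu_sh_le hF 1 (z.2.2.1 s i (xor s false))) z.2.1 using 1
      funext w; simp
    · convert sub_mem (z.2.2.1 s i (xor s true)) (z.2.2.1 s i (xor s false)) using 1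
      funext w; simp⟩

theorem pk_ins (hF : Antitone F) (z : Pat8 F t) (s i n : Bool) (w : Fin t → Bool) :
    (pk hF z s i).1 (ins (fe t) n w) = z.1 (s, i, xor s n, w) := by simp [pk]

theorem cl2_pk (hF : Antitone F) (z : Pat8 F t) (s i : Bool) :
    cl2 F (fe t) (pk hF z s i) = cl2 F (fe t) (pk hF z false false) := by
  refine (cl2_eq _).2 ⟨by simpa [pk_ins] using z.2.2.1 s i s, ?_⟩
  convert z.2.2.2 s i using 1
  funext w
  cases s <;> simp [pk_ins] <;> abel

theorem exists_pk (hF : Antitone F) (R : Bool → Bool → Cu F (Fin (t + 1)))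
    (h : ∀ s i, cl2 F (fe t) (R s i) = cl2 F (fe t) (R false false)) :
    ∃ z : Pat8 F t, ∀ s i, pk hF z s i = R s i := by
  refine ⟨⟨fun v => (R v.1 v.2.1).1 (ins (fe t) (xor v.1 v.2.2.1) v.2.2.2),
    face_false_mem _ (R false false).2, fun s i n => ?_, fun s i => ?_⟩, fun s i => ?_⟩
  · have h1 := ((cl2_eq _).1 (h s i)).1
    dsimp only
    cases xor s n
    · exact h1
    · convert add_mem ((mem_Cu_ins (fe t)).1 (R s i).2).2 h1 using 1
      funext w; simp
  · convert ((cl2_eq _).1 (h s i)).2 using 1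
    funext w
    cases s <;> simp <;> abel
  · ext ω
    obtain ⟨n, w, rfl⟩ := exists_ins (fe t) ω
    rw [pk_ins]
    cases s <;> simp

/-- the kernel on pairs of `(t+1)`-cubes `P = (A, D)`, `Q = (C, B)` -/
def K0 (M : G → G → ℂ) (P Q : (Fin (t + 1) → Bool) → G) : ℂ :=
  (∏ w, cz (sg w) (M (Q (ins (fe t) true w)) (P (ins (fe t) true w)))) *
    conj (∏ w, cz (sg w) (M (P (ins (fe t) false w)) (Q (ins (fe t) false w))))

omit [AddCommGroup G] in
theorem norm_K0_le {M : G → G → ℂ} (hM : ∀ z z', ‖M z z'‖ ≤ 1) (P Q : (Fin (t + 1) → Bool) → G) :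
    ‖K0 M P Q‖ ≤ 1 := by
  simp only [K0, norm_mul, Complex.norm_conj, norm_prod, norm_cz]
  exact mul_le_one₀ (prod_le_one (fun _ _ => norm_nonneg _) fun _ _ => hM _ _)
    (prod_nonneg fun _ _ => norm_nonneg _) (prod_le_one (fun _ _ => norm_nonneg _) fun _ _ => hM _ _)

theorem tsum_diag {V : Type*} [AddCommMonoid V] [TopologicalSpace V] (hF : Antitone F)
    (φ : Cu F (Fin (t + 1)) × Cu F (Fin (t + 1)) → V)
    {_ : ∀ p : Cu F (Fin (t + 1)) × Cu F (Fin (t + 1)),
      Decidable (cl2 F (fe t) p.1 = cl2 F (fe t) p.2)} :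
    (∑' p, if cl2 F (fe t) p.1 = cl2 F (fe t) p.2 then φ p else 0) =
      ∑' A : Cu F (Fin (t + 2)), φ (diagE hF (fe (t + 1)) (fe t) A).1 := by
  rw [(diagE hF (fe (t + 1)) (fe t)).tsum_eq fun p => φ p.1]
  exact ((tsum_subtype {p : Cu F (Fin (t + 1)) × Cu F (Fin (t + 1)) |
    cl2 F (fe t) p.1 = cl2 F (fe t) p.2} φ).trans (tsum_congr fun p => by
      by_cases h : cl2 F (fe t) p.1 = cl2 F (fe t) p.2 <;> simp [h])).symm

theorem tsum_pat (hF : Antitone F) (w : G → ℝ) (M : G → G → ℂ)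
    (K : Cu F (Fin (t + 1)) → Cu F (Fin (t + 1)) → ℂ)
    (hK : ∀ P Q, K P Q = if cl2 F (fe t) P = cl2 F (fe t) Q then K0 M P.1 Q.1 else 0) :
    ∑' q : (Cu F (Fin (t + 1)) × Cu F (Fin (t + 1))) × (Cu F (Fin (t + 1)) × Cu F (Fin (t + 1))),
      (((∏ ω, w (q.1.1.1 ω)) * (∏ ω, w (q.1.2.1 ω)) * (∏ ω, w (q.2.1.1 ω)) *
        (∏ ω, w (q.2.2.1 ω)) : ℝ) : ℂ) *
        (K q.1.1 q.2.1 * conj (K q.1.1 q.2.2) * conj (K q.1.2 q.2.1) * K q.1.2 q.2.2) =
      conj (box8 F t w M) := by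
  have hi : Function.Injective fun z : Pat8 F t => ((pk hF z false false, pk hF z false true),
      (pk hF z true false, pk hF z true true)) := fun z z' h => by
    simp only [Prod.mk.injEq] at h
    have h1 : ∀ s i, pk hF z s i = pk hF z' s i := fun s i => by
      cases s <;> cases i <;> tauto
    ext ⟨s, i, n, w⟩
    have h2 := pk_ins hF z s i (xor s n) w
    rw [h1, pk_ins] at h2
    simpa using h2.symm
  rw [← hi.tsum_eq, box8, Complex.conj_tsum]
  · refine tsum_congr fun z => ?_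
    simp only [hK, cl2_pk, if_true, K0, pk_ins, prod_ins (fe t), Fintype.prod_prod_type,
      Fintype.prod_bool, sgnF, bsV, tpV, map_mul, Complex.conj_ofReal, Complex.conj_conj,
      sg_eq_sw, map_prod]
    simp [sb, cz_neg]
    ring
  · rintro ⟨⟨P₀, P₁⟩, Q₀, Q₁⟩ hq
    have h1 := right_ne_zero_of_mul hq
    have h2 : ∀ P Q, K P Q ≠ 0 → cl2 F (fe t) P = cl2 F (fe t) Q := fun P Q h => by
      by_contra h'
      exact h (by rw [hK, if_neg h'])
    have k1 := h2 _ _ (left_ne_zero_of_mul (left_ne_zero_of_mul (left_ne_zero_of_mul h1)))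
    have k2 := h2 _ _ ((map_ne_zero _).1
      (right_ne_zero_of_mul (left_ne_zero_of_mul (left_ne_zero_of_mul h1))))
    have k3 := h2 _ _ ((map_ne_zero _).1 (right_ne_zero_of_mul (left_ne_zero_of_mul h1)))
    obtain ⟨z, hz⟩ := exists_pk hF (fun s i => if s then (if i then Q₁ else Q₀) else
      if i then P₁ else P₀) fun s i => by
        cases s <;> cases i
        exacts [rfl, k3.trans k1.symm, k1.symm, k2.symm]
    exact ⟨z, by simp [hz]⟩

end C67

open C67

theorem chainStmt : ChainStmt := by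
  intro G G' H _ _ F F' x y o t w f b M s hF P hw hf hb hM
  have h0 : ∀ z, 0 ≤ w z := fun z => (norm_nonneg _).trans (hf z)
  set Φ : ((Fin (t + 2) → Bool) → G) → ℂ := fun A => ∏ ω, cz (sg ω)
    (f (A (ins (fe (t + 1)) true ω)) * b (A (ins (fe (t + 1)) false ω)) *
      M (A (ins (fe (t + 1)) false ω)) (A (ins (fe (t + 1)) true ω))) with hΦ
  have h1 : ∀ a c, ‖f a * b c * M c a‖ ≤ w a * w c := fun a c => by
    rw [norm_mul, norm_mul]
    exact (mul_le_of_le_one_right (by positivity) (hM _ _)).trans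
      (mul_le_mul (hf _) (hb _) (norm_nonneg _) (h0 _))
  have h2 : Summable fun A : Cu F (Fin (t + 2)) => Φ A := by
    refine .of_norm_bounded (summable_cu (w := fun _ => w) (fun _ => h0) (fun _ => hw) _) fun A => ?_
    rw [prod_ins (fe (t + 1)), ← prod_mul_distrib, hΦ, norm_prod]
    exact prod_le_prod (fun _ _ => norm_nonneg _) fun ω _ => by rw [norm_cz]; exact h1 _ _
  have hw' : Summable fun a => ‖(w a : ℂ)‖ := by simpa [abs_of_nonneg (h0 _)] using hw
  have h3 : HasSum (fun h => ((UK F' (t + 1) fun c =>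
      f (y c + o h) * b (x c) * M (x c) (y c + o h) : ℝ) : ℂ)) (∑' A : Cu F (Fin (t + 2)), Φ A) := by
    have k1 := (P.cuE hF (fe (t + 1))).hasSum_iff.2 h2.hasSum
    refine k1.prod_fiberwise fun h => ?_
    have k2 := (k1.summable.prod_factor h).hasSum
    rw [← gip_eq_UK (P.anti hF) t ((P.summable hw' hw' (o h)).of_nonneg_of_le
      (fun _ => norm_nonneg _) fun c => (h1 _ _).trans_eq (by simp [abs_of_nonneg (h0 _)]))]
    simp only [Function.comp_def, Pair.cuE_apply, hΦ, Pair.cb_true, Pair.cb_false] at k2 ⊢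
    exact k2
  have h4 := sum_le_hasSum s (fun _ _ => UK_nonneg _ _) (Complex.hasSum_re h3)
  refine (pow_le_pow_left₀ (sum_nonneg fun _ _ => UK_nonneg _ _)
    (h4.trans (Complex.re_le_norm _)) 4).trans ?_
  have hW := summable_cu (w := fun _ : Fin (t + 1) → Bool => w) (fun _ => h0) (fun _ => hw)
    (Cu F (Fin (t + 1)))
  have h5 := box_cs' (a := fun P : Cu F (Fin (t + 1)) =>
      vp (fun ω => if ω (fe t none) then f else b) P.1)
    (b := fun Q : Cu F (Fin (t + 1)) => vp (fun ω => if ω (fe t none) then b else f) Q.1)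
    (K := fun P Q => if cl2 F (fe t) P = cl2 F (fe t) Q then K0 M P.1 Q.1 else 0) hW hW
    (fun P => (norm_vp _ _).trans_le (prod_le_prod (fun _ _ => norm_nonneg _) fun ω _ => by
      split_ifs; exacts [hf _, hb _]))
    (fun P => (norm_vp _ _).trans_le (prod_le_prod (fun _ _ => norm_nonneg _) fun ω _ => by
      split_ifs; exacts [hb _, hf _]))
    (fun P Q => by split_ifs; exacts [norm_K0_le hM _ _, by simp])
    (fun p => cl2 F (fe t) p.1 = cl2 F (fe t) p.2) fun P p hp => by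
      split_ifs with k1 k2
      exacts [absurd (k1.symm.trans k2) hp, by simp, by simp, by simp]
  rw [tsum_pat hF w M _ fun _ _ => rfl, Complex.norm_conj] at h5
  simp only [mul_ite, mul_zero] at h5
  refine le_of_eq_of_le ?_ (h5.trans_eq ?_)
  · congr 2
    refine Eq.trans (tsum_congr fun A => ?_) (tsum_diag hF _).symm
    simp only [hΦ, vp, K0, prod_ins (fe t), diagE, Equiv.coe_fn_mk, ins_none, sg_ins_true,
      sg_ins_false, cz_neg, cz_mul, prod_mul_distrib, map_prod, if_true,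
      Bool.false_eq_true, if_false, Bool.not_true, Bool.not_false]
    ring
  · congr 2
    refine (tsum_diag hF _).trans (tsum_congr fun A => ?_)
    simp only [prod_ins (fe (t + 1)), prod_ins (fe t), diagE, Equiv.coe_fn_mk, ins_none,
      Bool.not_true, Bool.not_false]
    ring

open Crest.Agent.T49.Tw Crest.Agent.T49.Ri Crest.Agent.T49.Ri.D67 in
theorem box_of67 (hMp : MpStmt) (hH : HerStmt) (hD : DerStmt) (hZ : ZmStmt) : BoxStmt := by
  intro l t
  obtain ⟨D₁, C₁, hC₁, hZ₁⟩ := hZ l (t + 1)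
  obtain ⟨D₂, C₂, hC₂, hZ₂⟩ := hZ l (t + 2)
  obtain ⟨D₃, C₃, hC₃, hD⟩ := hD l t
  obtain ⟨D₄, C₄, hC₄, hH⟩ := A81.pair_ok hH l D₃ C₃
  obtain ⟨C₅, h₅⟩ : ∃ C : ℕ, ∀ m n : ℝ, 2 ≤ m → 0 ≤ n → n ≤ m → Real.exp (-m ^ C) ≤
      (Real.exp (-(m + 1)) * (Real.exp (-(Real.pi * n * (1 : ℕ) * (m + 1) ^ 2)) ^ 2 ^ (t + 1) *
        Real.exp (-(2 * m) ^ C₃))) ^ 4 / 8 := by
    qp
  refine ⟨D₁ + D₂ + D₄, C₁ + C₂ + C₄ + C₅, by omega, fun ι _ T m hO f b M H hf hb hM hH' hU => ?_⟩
  have hm := hO.two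
  have hP := hMp ι T 1
  have he : 1 + Real.exp (-m) ≤ 2 := by linarith [Real.exp_le_one_iff.2 (show -m ≤ 0 by linarith)]
  have hK1 := muK_pos T (t + 1)
  have hK2 := muK_pos T (t + 2)
  have hz1 := (le_of_ratio hK1 (hZ₁ ι T m (hO.mono (by omega) le_rfl
    (Qp.pw_mono hm (by omega)) (by positivity)))).trans (mul_le_mul_of_nonneg_right he hK1.le)
  have hz2 := (le_of_ratio hK2 (hZ₂ ι T m (hO.mono (by omega) le_rfl
    (Qp.pw_mono hm (by omega)) (by positivity)))).trans (mul_le_mul_of_nonneg_right he hK2.le)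
  obtain ⟨H', hs, hd, hO'⟩ := hH ι T m (hO.mono (by omega) le_rfl (Qp.pw_mono hm (by omega))
    (by positivity)) H hH'
  have h1 := chainStmt _ _ _ _ _ _ _ _ t T.wgt _ _ M H' lvl_anti (pair T) T.summable_wgt
    (norm_wgt_mul_le T hf) (norm_wgt_mul_le T hb) hM
  simp only [yH_add, xH_apply] at h1
  have h2 : ∀ h, (UK (lvl (T.mlev (Fin 1))) (t + 1) fun p => T.wgt (y1 T h p) * f (y1 T h p) *
      (T.wgt (y0 T p) * b (y0 T p)) * M (y0 T p) (y1 T h p)) = g1 T h ^ 2 ^ (t + 1) *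
      UK (lvl (T.mlev (Fin 1))) (t + 1) fun p =>
        (pc T h).wgt p * (f (y1 T h p) * b (y0 T p) * M (y0 T p) (y1 T h p)) := fun h => by
    have := UK_smul (F := lvl (T.mlev (Fin 1))) (t + 1) (g1 T h : ℂ)
      fun p => (pc T h).wgt p * (f (y1 T h p) * b (y0 T p) * M (y0 T p) (y1 T h p))
    rw [Complex.norm_real, Real.norm_of_nonneg (g1_pos h).le] at this
    rw [← this]
    congr 1
    funext p
    rw [← mul_assoc (g1 T h : ℂ), ← Complex.ofReal_mul, ← wgt_pair hP]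
    push_cast
    ring
  simp only [h2] at h1
  set g := Real.exp (-(Real.pi * Fintype.card ι * (1 : ℕ) * (m + 1) ^ 2)) ^ 2 ^ (t + 1) with hg
  have h3 : ∀ h ∈ H', Real.exp (-(2 * m) ^ C₃) * muK (pc T 0) (t + 1) ≤
      UK (lvl (T.mlev (Fin 1))) (t + 1) fun p =>
        (pc T h).wgt p * (f (y1 T h p) * b (y0 T p) * M (y0 T p) (y1 T h p)) := fun h hh => by
    obtain ⟨ψ, k1, k2⟩ := hU h (hs hh)
    simpa only [BigU, muK_pc, pc_lev] using hD _ (pc T h) (2 * m) _ (hO' h hh) (fun p => by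
      rw [norm_mul, norm_mul]
      exact mul_le_one₀ (mul_le_one₀ (hf _) (norm_nonneg _) (hb _)) (norm_nonneg _) (hM _ _))
      ⟨ψ, A81.nil_mono k1 le_rfl (by linarith), A81.cor_mono k2 (by linarith)⟩
  have h4 : Real.exp (-(m + 1)) * (g * Real.exp (-(2 * m) ^ C₃)) * muK T (t + 2) ≤
      ∑ h ∈ H', g1 T h ^ 2 ^ (t + 1) * UK (lvl (T.mlev (Fin 1))) (t + 1) fun p =>
        (pc T h).wgt p * (f (y1 T h p) * b (y0 T p) * M (y0 T p) (y1 T h p)) := by
    have k1 := muK_pos (pc T 0) (t + 1)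
    refine le_trans ?_ (card_nsmul_le_sum H' _
      (g * (Real.exp (-(2 * m) ^ C₃) * muK (pc T 0) (t + 1))) fun h hh => mul_le_mul
        (pow_le_pow_left₀ (by positivity) (hP.gam_ge _ _ fun _ => hd.1 h hh) _)
        (h3 h hh) (by positivity) (pow_nonneg (g1_pos h).le _))
    rw [nsmul_eq_mul, muK_succ 0]
    calc _ = Real.exp (-(m + 1)) * muG T t *
          (g * (Real.exp (-(2 * m) ^ C₃) * muK (pc T 0) (t + 1))) := by ring
      _ ≤ _ := mul_le_mul_of_nonneg_right ((mul_le_mul_of_nonneg_left (muG_le T t)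
        (by positivity)).trans hd.2) (by positivity)
  have h5 := (pow_le_pow_left₀ (by positivity) h4 4).trans (h1.trans
    (mul_le_mul_of_nonneg_right (mul_le_mul (pow_le_pow_left₀ (Zm_nonneg T.wgt_nonneg) hz1 2) hz2
      (Zm_nonneg T.wgt_nonneg) (by positivity)) (norm_nonneg _)))
  have h6 := (Qp.exp_neg_pw_mono hm (show C₅ ≤ C₁ + C₂ + C₄ + C₅ by omega)).trans
    (h₅ m _ hm (Nat.cast_nonneg _) hO.card)
  rw [muP]
  refine (mul_le_mul_of_nonneg_right h6 (by positivity)).trans (le_of_mul_le_mul_left ?_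
    (show 0 < (2 * muK T (t + 1)) ^ 2 * (2 * muK T (t + 2)) by positivity))
  refine le_of_eq_of_le ?_ h5
  rw [← hg]
  field_simp
  ring

end Crest.Agent.T49.Sy
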