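import Crest.Agent.T49.RiSymDef_29
import Crest.Agent.T49.RiA_54
import Crest.Agent.T49.LrConv_84

/-!
# Row 49 (helper31): localisation costs a cheap phase (`Sy.CheapStmt`)
-/

set_option autoImplicit false

noncomputable section

namespace Crest.Agent.T49.Sy

open Finset MvPolynomial
open Crest.Agent.T49.Tw Crest.Agent.T49.Ri Crest.Agent.T49.Tor

theorem Ch31.tail_num {m : ℝ} (hm : 2 ≤ m) {n : ℕ} (hn : (n : ℝ) ≤ m) :
    2 * (2 * √2 ^ n * Real.exp (-(Real.pi * m ^ 2 / 2))) ≤ Real.exp (-m) / 4 := by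
  have h1 : √2 ^ n ≤ Real.exp (0.36 * m) := by
    calc √2 ^ n ≤ Real.exp 0.36 ^ n := by
          gcongr
          have := Real.quadratic_le_exp_of_nonneg (x := 0.36) (by norm_num)
          exact (Real.sqrt_le_left (by positivity)).2 (by nlinarith)
      _ = Real.exp (0.36 * n) := by rw [← Real.exp_nat_mul, mul_comm]
      _ ≤ _ := Real.exp_le_exp.2 (by linarith)
  have h2 : (16 : ℝ) ≤ Real.exp 3 := by
    have h3 := Real.exp_one_gt_d9
    have h4 : Real.exp 3 = Real.exp 1 ^ 3 := by rw [← Real.exp_nat_mul]; norm_num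
    have h5 : (2.7 : ℝ) ^ 3 ≤ Real.exp 1 ^ 3 := by gcongr; linarith
    rw [h4]; linarith [show (16 : ℝ) ≤ 2.7 ^ 3 by norm_num]
  have h3 : Real.exp 3 * (Real.exp (0.36 * m) * Real.exp (-(Real.pi * m ^ 2 / 2))) ≤
      Real.exp (-m) := by
    rw [← Real.exp_add, ← Real.exp_add]
    refine Real.exp_le_exp.2 ?_
    have := Real.pi_gt_d2
    nlinarith [mul_nonneg (sub_nonneg.2 this.le) (sq_nonneg m)]
  have h4 : √2 ^ n * Real.exp (-(Real.pi * m ^ 2 / 2)) ≤
      Real.exp (0.36 * m) * Real.exp (-(Real.pi * m ^ 2 / 2)) := by gcongr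
  have h5 := mul_le_mul_of_nonneg_right h2
    (show 0 ≤ Real.exp (0.36 * m) * Real.exp (-(Real.pi * m ^ 2 / 2)) by positivity)
  linarith

theorem cheapStmt (hMs : MsStmt) : CheapStmt := by
  classical
  intro l
  obtain ⟨D, C1, hC1, hMs⟩ := hMs l
  obtain ⟨C2, hC2⟩ : ∃ C2 : ℕ, ∀ (m : ℝ) (d Q : ℕ), 2 ≤ m → (d : ℝ) ≤ 2 * m →
      (Q : ℝ) ≤ 128 * m * Real.exp m ^ 2 + 1 →
      ((Q : ℝ) ^ d * (d * Q * d) * (8 * Real.exp m)) ^ 2 ≤ Real.exp (m ^ C2) := by qp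
  obtain ⟨C, hC0, hC⟩ : ∃ C : ℕ, C1 ≤ C ∧ ∀ (m : ℝ) (d Q K : ℕ), 2 ≤ m → (d : ℝ) ≤ 2 * m →
      (Q : ℝ) ≤ 128 * m * Real.exp m ^ 2 + 1 →
      (K : ℝ) ≤ Real.exp (m ^ C2) + 1 → 0 < (Q : ℝ) ^ d * (2 * K + 1) ^ d →
      m ≤ m ^ C ∧ (K : ℝ) ≤ Real.exp (m ^ C) ∧
      Real.exp (-m ^ C) ≤ Real.exp (-m) / 2 / ((Q : ℝ) ^ d * (2 * K + 1) ^ d) := by
    have : ∀ᶠ C : ℕ in Filter.atTop, ∀ (m : ℝ) (d Q K : ℕ), 2 ≤ m → (d : ℝ) ≤ 2 * m →
      (Q : ℝ) ≤ 128 * m * Real.exp m ^ 2 + 1 →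
      (K : ℝ) ≤ Real.exp (m ^ C2) + 1 → 0 < (Q : ℝ) ^ d * (2 * K + 1) ^ d →
      m ≤ m ^ C ∧ (K : ℝ) ≤ Real.exp (m ^ C) ∧
      Real.exp (-m ^ C) ≤ Real.exp (-m) / 2 / ((Q : ℝ) ^ d * (2 * K + 1) ^ d) := by qp
    exact ((Filter.eventually_ge_atTop C1).and this).exists
  refine ⟨D, C, hC1.trans hC0, fun ι _ T m hT a Φ G q hq1 hq2 ha hΦ hG hcl hb => ?_⟩
  have hm := hT.two
  obtain ⟨hM, -, htl⟩ := hMs ι T m (hT.mono le_rfl le_rfl
    (pow_le_pow_right₀ (by linarith) hC0) (by positivity))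
  have hM2 := M_le_two_mu hM (by linarith)
  have hμ := T.mu_pos
  set Q := ⌈128 * m * Real.exp m ^ 2⌉₊ with hQ
  set K := ⌈Real.exp (m ^ C2)⌉₊ with hK
  have he : 1 ≤ Real.exp m := Real.one_le_exp (by linarith)
  have hQ1 : 128 * m * Real.exp m ^ 2 ≤ Q := Nat.le_ceil _
  have hQ2 : 2 * q ≤ Q := by
    have : (2 : ℝ) * q ≤ Q := by
      refine le_trans ?_ hQ1
      nlinarith [mul_le_mul_of_nonneg_left he (show 0 ≤ Real.exp m by linarith)]
    exact_mod_cast this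
  have hQ0 : (0 : ℝ) < Q := by exact_mod_cast (by omega : 0 < Q)
  have hK1 : Real.exp (m ^ C2) ≤ K := Nat.le_ceil _
  have hK0 : 0 < K := Nat.ceil_pos.2 (Real.exp_pos _)
  have hQ3 : (Q : ℝ) ≤ 128 * m * Real.exp m ^ 2 + 1 := (Nat.ceil_lt_add_one (by positivity)).le
  have hK3 : (K : ℝ) ≤ Real.exp (m ^ C2) + 1 := (Nat.ceil_lt_add_one (by positivity)).le
  have hd : (Fintype.card (ι ⊕ ι) : ℝ) ≤ 2 * m := by
    rw [Fintype.card_sum]; push_cast; linarith [hT.card]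
  obtain ⟨c1, c2, c4⟩ := hC m _ Q K hm hd hQ3 hK3 (by positivity)
  have c5 := hC2 m _ Q hm hd hQ3
  have hee : Real.exp (-m) * Real.exp m = 1 := by rw [← Real.exp_add]; simp
  obtain ⟨y0, hy0, ξ, hξ, h1⟩ := Lr.exists_char (κ := ι ⊕ ι) T.wgt_nonneg T.summable_wgt
    (u := fun z => if ∀ c, |ev z (T.th c)| ≤ m then 0 else T.wgt z)
    (fun z => by split_ifs; exacts [le_rfl, T.wgt_nonneg z]) (summable_tail T m)
    (fun y => Sum.elim (fun c => ev y (T.th c) / (4 * m)) fun c => (y c : ℝ) / q)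
    (fun y => ∀ c, |ev y (T.th c)| ≤ m) (fun y hy => by rw [if_neg hy]) ha hΦ
    (fun y0 _ y => hG y0 y) (Q := Q) (by omega) hK0
    (ε := Real.exp m * (8 * m / Q)) (δ := Real.exp (-m) * T.mu) (by positivity) (by positivity)
    (fun y0 y hy0 hy hc => hcl y0 y _ (by positivity) hy0 hy (fun c => by
      have h1 := hc (Sum.inl c)
      simp only [Sum.elim_inl] at h1
      have h2 : |ev y (T.th c) - ev y0 (T.th c)| ≤ 2 * m :=
        (abs_sub _ _).trans (by linarith [hy c, hy0 c])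
      have h3 : |ev y (T.th c) / (4 * m) - ev y0 (T.th c) / (4 * m)| =
          |ev y (T.th c) - ev y0 (T.th c)| / (4 * m) := by
        rw [← sub_div, abs_div, abs_of_pos (by positivity : 0 < 4 * m)]
      rw [nz_eq_abs (by rw [h3, div_le_iff₀ (by positivity)]; linarith), h3, ← mul_div_assoc,
        div_lt_iff₀ (by positivity)] at h1
      rw [le_div_iff₀ hQ0]
      linarith) fun c => Lr.dvd_of_nz hq1 hQ2 (hc (Sum.inr c)))
    (by
      have e1 : Real.exp m * (8 * m / Q) ≤ Real.exp (-m) / 16 := by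
        rw [← mul_div_assoc, div_le_div_iff₀ hQ0 (by norm_num)]
        calc Real.exp m * (8 * m) * 16 = Real.exp (-m) * (128 * m * Real.exp m ^ 2) := by
              linear_combination (-(128 * m * Real.exp m)) * hee
          _ ≤ _ := by gcongr
      have e2 : (Q : ℝ) ^ Fintype.card (ι ⊕ ι) * (Fintype.card (ι ⊕ ι) * Q * Fintype.card (ι ⊕ ι) /
          (2 * √K)) ≤ Real.exp (-m) / 16 := by
        have e3 := Real.le_sqrt_of_sq_le (c5.trans hK1)
        rw [← mul_div_assoc, div_le_div_iff₀ (by have : (0 : ℝ) < K := by exact_mod_cast hK0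
                                                 positivity) (by norm_num)]
        calc _ = Real.exp (-m) * (2 * ((Q : ℝ) ^ Fintype.card (ι ⊕ ι) *
              (Fintype.card (ι ⊕ ι) * Q * Fintype.card (ι ⊕ ι)) * (8 * Real.exp m))) := by
              linear_combination (-(16 * (Q : ℝ) ^ Fintype.card (ι ⊕ ι) * (Fintype.card (ι ⊕ ι) * Q *
                Fintype.card (ι ⊕ ι)))) * hee
          _ ≤ _ := by gcongr
      have e4 := mul_le_mul (add_le_add e1 e2) hM2 T.M_nonneg (by positivity)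
      have e5 := htl m (by linarith)
      have e6 := mul_le_mul_of_nonneg_right (Ch31.tail_num hm hT.card) hμ.le
      unfold Tri.M at e4
      linarith) hb
  refine ⟨y0, fun z => e (dot ξ (Sum.elim (fun c => ev z (T.th c) / (4 * m))
    fun c => (z c : ℝ) / q)), hy0, ⟨fun c => ξ (Sum.inl c) / (4 * m), fun c => ξ (Sum.inr c), q, ?_,
    hq1, hq2.trans (Real.exp_le_exp.2 c1), fun z => ?_⟩, le_trans ?_ h1⟩
  · refine le_trans ((sum_le_card_nsmul _ _ (K / (4 * m) : ℝ) fun c _ => ?_).trans ?_) c2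
    · rw [abs_div, abs_of_pos (by positivity : 0 < 4 * m)]
      gcongr
      exact_mod_cast mem_cube.1 hξ _
    · rw [nsmul_eq_mul, card_univ, ← mul_div_assoc, div_le_iff₀ (by positivity)]
      nlinarith [hT.card, show (0 : ℝ) ≤ K by positivity]
  · rw [ee_eq_e]
    simp only [dot, Fintype.sum_sum_type, Sum.elim_inl, Sum.elim_inr, sum_div]
    congr 2 <;> exact sum_congr rfl fun c _ => by ring
  · refine (mul_le_mul_of_nonneg_right c4 hμ.le).trans (le_of_eq ?_)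
    ring

end Crest.Agent.T49.Sy
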