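import Crest.Agent.T49.RiSymDef_29
import Crest.Agent.T49.LrA_84
import Crest.Agent.T49.GiAdapt_61

/-!
# Row 49 (helper84): `Sy.CpFStmt`
-/

set_option autoImplicit false
set_option linter.unusedSectionVars false

noncomputable section

namespace Crest.Agent.T49.Sy

open Finset MvPolynomial
open Crest.Agent.T49.Nil Crest.Agent.T49.Nil.ND Crest.Agent.T49.Win Crest.Agent.T49.Lr
open Crest.Agent.T49.Bch (star Ad cb)
open Crest.Agent.T49.GI (CoId On SFil)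

/-- the function `x ↦ F (u φ(x) v)` -/
theorem lipFn_conj84 {ι ι' : Type} [Fintype ι] [Fintype ι'] {N : ND ι} {N' : ND ι'} {S : ℕ}
    (hS : 1 ≤ S) {B MF R K : ℝ} (hG : N.Good S B) (hB : 0 ≤ B) {F : N.L → ℂ}
    (hF : N.LipFn S MF F) (hMF : 0 ≤ MF) {φ : N'.L →ₗ⁅ℝ⁆ N.L} {q : ℕ} (hq : 1 ≤ q)
    (hn : ∀ x, ‖φ x‖ ≤ R * ‖x‖) (hdeep : ∀ x, IsInt x → InL (dep S q) (φ x)) (hK1 : kB ι B ≤ K)
    {u v : N.L} (hu : ‖u‖ ≤ K) (hv : InL (q : ℝ)⁻¹ v) :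
    N'.LipFn S (MF * (cb S * K ^ (2 * S)) * R) fun x => F (star S u (star S (φ x) v)) := by
  have := hG.nil ℝ
  let G := nG hB hG.c_le
  have hK : 1 ≤ K := (one_le_kB hB).trans hK1
  refine ⟨fun x => hF.bdd _, fun x l hl => ?_, fun Z x => ?_⟩
  · have h1 : InL (1 : ℕ) (star S (-v) (star S (φ l) (- -v))) :=
      conj_inL hS hq hv.neg hv.neg (by rw [sub_self]; exact InL.zero _)
        (by simpa using hdeep l hl)
    have h2 := hF.per (star S u (star S (φ x) v)) _ (InL.isInt (by simpa using h1))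
    simp only [Bch.map_star, ← h2, Bch.star_assoc, Bch.star_neg_star]
  · rw [Bch.map_star, Bch.star_assoc, ← Bch.star_assoc S u,
      Bch.star_eq_Ad_star S u (φ Z), Bch.star_assoc]
    refine (hF.lip _ _).trans ?_
    have h1 : ‖Ad S u (φ Z)‖ ≤ cb S * K ^ (2 * S) * (R * ‖Z‖) := G.Ad_le S hK1 hK hu (hn Z)
    calc _ ≤ MF * (cb S * K ^ (2 * S) * (R * ‖Z‖)) := mul_le_mul_of_nonneg_left h1 hMF
      _ = _ := by ring

theorem cpFStmt : CpFStmt := by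
  intro S t hS
  obtain ⟨C1, -, hA⟩ := GI.adaptStmt S
  obtain ⟨C, hC1, hC⟩ : ∃ C : ℕ, 1 ≤ C ∧ ∀ (m c K : ℝ) (d r q Q e : ℕ), 2 ≤ m → (d : ℝ) ≤ m →
      (r : ℝ) ≤ m → (q : ℝ) ≤ Real.exp m → (e : ℝ) ≤ m → c = ((d : ℝ) ^ 2 * Real.exp m + 1) →
      (Q : ℝ) = (bden S * q ^ S) ^ 2 → K = c + (S + 1 : ℝ) ^ e * (Real.exp m * Real.exp m ^ S) →
      bden S * Q * Real.exp (m ^ C1) ≤ Real.exp (m ^ C) ∧ (Q : ℝ) ≤ Real.exp (m ^ C) ∧
      Real.exp m * (cb S * K ^ (2 * S)) * (r * Real.exp (m ^ C1) * (bden S * Q)) ≤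
        Real.exp (m ^ C) ∧
      Real.exp m * (cb S * K ^ (2 * S) * ((S + 1 : ℝ) ^ e * (S * (Real.exp m * Real.exp m ^ S)))) ≤
        Real.exp (m ^ C) := by
    have : ∀ᶠ C : ℕ in Filter.atTop, ∀ (m c K : ℝ) (d r q Q e : ℕ), 2 ≤ m → (d : ℝ) ≤ m →
      (r : ℝ) ≤ m → (q : ℝ) ≤ Real.exp m → (e : ℝ) ≤ m → c = ((d : ℝ) ^ 2 * Real.exp m + 1) →
      (Q : ℝ) = (bden S * q ^ S) ^ 2 → K = c + (S + 1 : ℝ) ^ e * (Real.exp m * Real.exp m ^ S) →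
      bden S * Q * Real.exp (m ^ C1) ≤ Real.exp (m ^ C) ∧ (Q : ℝ) ≤ Real.exp (m ^ C) ∧
      Real.exp m * (cb S * K ^ (2 * S)) * (r * Real.exp (m ^ C1) * (bden S * Q)) ≤
        Real.exp (m ^ C) ∧
      Real.exp m * (cb S * K ^ (2 * S) * ((S + 1 : ℝ) ^ e * (S * (Real.exp m * Real.exp m ^ S)))) ≤
        Real.exp (m ^ C) := by qp
    exact ((Filter.eventually_ge_atTop 1).and this).exists
  refine ⟨C, hC1, fun m hm κ _ N V 𝔨 q hκ hG hV hq1 hq2 => ?_⟩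
  obtain ⟨r, N0, κ', φ0, a1, a2, a3, a4, a5, a6, a7⟩ := hA m hm κ N V 𝔨 ⟨hG.wt_le, hκ, hG.c_le⟩ hV
  have he : 1 ≤ Real.exp m := Real.one_le_exp (by linarith)
  have hdep := dep_pos S hq1
  have hQ : 1 ≤ bden S * dep S q := Nat.mul_pos (bden_pos S) hdep
  have hQ0 : ((bden S * dep S q : ℕ) : ℝ) ≠ 0 := by positivity
  have hQe : (dep S q : ℝ) = (bden S * q ^ S) ^ 2 := by unfold dep; push_cast; rfl
  let φ : (scl N0 (bden S * dep S q)).L →ₗ⁅ℝ⁆ N.L := φ0.comp (up N0 _ ℝ)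
  obtain ⟨ψ, hψ⟩ := φ.toLinearMap.exists_leftInverse_of_injective
    (LinearMap.ker_eq_bot.2 (a4.comp (up_injective hQ)))
  have hψ' : ∀ w, ψ (φ w) = w := fun w => LinearMap.congr_fun hψ w
  have hup : ∀ (w : (scl N0 (bden S * dep S q)).L) k, up N0 _ ℝ w k = 0 ↔ w k = 0 := fun w k => by
    rw [up_apply, smul_eq_mul, mul_eq_zero, or_iff_right hQ0]
  have hVφ : ∀ b, 1 ≤ b → ∀ x ∈ V b, ∃ w ∈ (scl N0 (bden S * dep S q)).F b, φ w = x :=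
    fun b hb x hx => by
      rw [← a5 b hb] at hx
      obtain ⟨w, hw, rfl⟩ := hx
      refine ⟨dn N0 _ w, fun k hk => (hup _ k).1 ?_, ?_⟩
      · rw [up_dn hQ]; exact hw k hk
      · exact congrArg φ0 (up_dn hQ w)
  have hφψ : ∀ x ∈ V 1, φ (ψ x) = x := fun x hx => by
    obtain ⟨w, -, rfl⟩ := hVφ 1 le_rfl x hx
    rw [hψ']
  have hOn : ∀ w, φ w ∈ 𝔨 ↔ On (scl N0 (bden S * dep S q)) κ' w := fun w =>
    (a7 _).trans (forall_congr' fun k => imp_congr_right fun _ => hup w k)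
  obtain ⟨b1, b2, -⟩ := hC m _ _ _ r q _ 0 hm hκ a1 hq2 (by push_cast; linarith) rfl hQe rfl
  refine ⟨r, scl N0 (bden S * dep S q), κ', ψ, dep S q, a1,
    (good_scl a2 hQ (dvd_mul_right _ _)).mono (by push_cast; exact b1),
    fun i j k h => a6 i j k (right_ne_zero_of_mul h), hdep, b2, fun b x hx => ?_,
    fun x hx => (hOn _).1 (by rwa [hφψ x (hV.le hx)]),
    fun σ τ _ _ ϑ η F E P Γ hτ hF hη hE hsm hΓ hP => ?_⟩
  · rcases b with _ | b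
    · exact mem_FA_zero _
    · obtain ⟨w, hw, rfl⟩ := hVφ _ (by omega) x hx
      rwa [hψ']
  obtain ⟨-, -, b3, b4⟩ := hC m (kB κ (Real.exp m)) _ _ r q _ _ hm hκ a1 hq2 hτ rfl hQe rfl
  have hsm' := sm_scale hG.wt_le hE he hsm
  set K := kB κ (Real.exp m) + (S + 1 : ℝ) ^ Fintype.card τ * (Real.exp m * Real.exp m ^ S) with hK
  have hk1 := one_le_kB (ι := κ) (by linarith : 0 ≤ Real.exp m)
  have hK1 : kB κ (Real.exp m) ≤ K := le_add_of_nonneg_right (by positivity)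
  have hεb : ∀ y : σ → ℤ, (∀ c, |Tw.ev y (ϑ c)| ≤ Real.exp m) →
      ‖N.ev (fun c => Tw.ev y (ϑ c)) E‖ ≤ K := fun y hy =>
    (norm_ev_le hG.wt_le hE hsm' hy).trans (le_add_of_nonneg_left (by linarith))
  have hγL := evZ_inL hq1 hΓ
  have hPg : ∀ y, φ ((scl N0 (bden S * dep S q)).evZ y (bcl ψ _ P)) = N.evZ y P := fun y => by
    rw [← evZ_bc67]
    congr 1
    exact ps_ext fun α => by rw [St.cv_bc, cv_bcl, hφψ _ (hP α)]
  have := hG.nil ℝ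
  refine ⟨fun y0 x => F (star S (N.ev (fun c => Tw.ev y0 (ϑ c)) E) (star S (φ x) (N.evZ y0 Γ))),
    fun y0 hy0 => ⟨(lipFn_conj84 hS hG (by linarith) hF.toLipFn (by linarith) hq1 (fun x => ?_)
      (fun x hx => ?_) hK1 (hεb y0 hy0) (hγL y0)).mono b3, fun Z hZ hZκ x => ?_,
      fun y ρ hρ hy hyy hq => ?_⟩⟩
  · refine (a3.norm_le67 (Real.exp_pos _).le (up N0 _ ℝ x)).trans (le_of_eq ?_)
    rw [norm_up, Fintype.card_fin]
    push_cast; ring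
  · exact (InL.map (f := φ0.toLinearMap) (fun x hx => a3.isInt67 hx)
      (inL_up (InL.of_isInt hx))).of_eq (bden S) (by push_cast; ring)
  · obtain ⟨h1, h2⟩ := hη (φ Z) (a5 (t + 1) (by omega) ▸ Submodule.mem_map_of_mem
      (show up N0 _ ℝ Z ∈ N0.F (t + 1) from fun k hk => (hup Z k).2 (hZ k hk))) ((hOn Z).2 hZκ)
    have h3 : Ad S (N.ev (fun c => Tw.ev y0 (ϑ c)) E) (φ Z) - φ Z ∈ N.F (S + 1) :=
      Bch.Ad_sub_mem S _ (fun _ hm => FA_anti (Nat.le_succ _) (lie_mem_FA_succ _ hm))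
        (lie_mem_FA_succ _ h1)
    have h4 := sub_eq_zero.1 (eq_zero_of_mem_FA hG.wt_le h3)
    beta_reduce
    rw [Bch.map_star, Bch.star_assoc, ← Bch.star_assoc S (N.ev _ E),
      Bch.star_eq_Ad_star S (N.ev _ E) (φ Z), Bch.star_assoc, h4, hF.vert _ h1, h2]
    simp
  have h1 : InL (1 : ℕ) (star S (-N.evZ y0 Γ) (star S 0 (- -N.evZ y Γ))) :=
    conj_inL hS hq1 (hγL y0).neg (hγL y).neg (by
      rw [neg_sub_neg]
      exact (evZ_sub_inL hq1 hΓ hq).of_eq 1 (by push_cast; ring)) (InL.zero _)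
  have h2 := hF.per (star S (N.ev (fun c => Tw.ev y (ϑ c)) E) (star S (N.evZ y P) (N.evZ y0 Γ))) _
    (InL.isInt (by simpa using h1))
  simp only [Bch.star_assoc, Bch.star_neg_star] at h2
  beta_reduce
  rw [Bch.map_star, Bch.map_star, evZ_subst, hPg, h2,
    ← Bch.star_neg_star' S (N.ev (fun c => Tw.ev y (ϑ c)) E) (N.ev (fun c => Tw.ev y0 (ϑ c)) E),
    Bch.star_assoc]
  refine (hF.lip _ _).trans ?_
  have h3 : ‖star S (N.ev (fun c => Tw.ev y (ϑ c)) E) (-N.ev (fun c => Tw.ev y0 (ϑ c)) E)‖ ≤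
      cb S * K ^ (2 * S) * ((S + 1 : ℝ) ^ Fintype.card τ * (S * (Real.exp m * Real.exp m ^ S)) * ρ) :=
    (nG (by linarith) hG.c_le).star_neg_le S hK1 (hk1.trans hK1) (hεb y0 hy0) (hεb y hy)
      (norm_ev_sub_le hG.wt_le hE (by linarith) hρ hsm' hy hy0 fun c =>
        (hyy c).trans (le_mul_of_one_le_right hρ he))
  refine (mul_le_mul_of_nonneg_left h3 (by linarith)).trans
    (le_trans (le_of_eq (by ring)) (mul_le_mul_of_nonneg_right b4 hρ))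

end Crest.Agent.T49.Sy
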