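import Crest.Agent.T49.RiSymDef_29
import Crest.Agent.T49.RiA_54
import Crest.Agent.T49.RiApi_81
import Crest.Agent.T49.RiMpP_14
import Crest.Agent.T49.GiVec_46
import Crest.Agent.T49.NilPw_67
import Crest.Agent.T49.NilCnt_14
import Crest.Agent.T49.Qp_85

/-!
# Row 49 (helper53): the integration step `StC → StE`
-/

set_option autoImplicit false

noncomputable section

namespace Crest.Agent.T49.Sy

open Finset MvPolynomial
open Crest.Agent.T49.Tw Crest.Agent.T49.Nil Crest.Agent.T49.Nil.ND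
open Crest.Agent.T49.Bch (star)
open Crest.Agent.T49.Gf (wcf)
open Crest.Agent.T49.GI (CoId On Freq pw pr tup Bigr SFil)
open Crest.Agent.T49.Br (Cs Uo)
open Crest.Agent.T49.Ri
open scoped ComplexConjugate

namespace I53

variable {ι κ : Type} [Fintype κ]

/-! ### windows -/

theorem abs_le_of_div {x R : ℝ} (h : |x / √2| ≤ R) : |x| ≤ 2 * R := by
  have h2 : (0 : ℝ) < √2 := by positivity
  have h3 : √2 ≤ (2 : ℝ) := Real.sqrt_le_iff.2 ⟨by norm_num, by norm_num⟩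
  rw [abs_div, abs_of_pos h2, div_le_iff₀ h2] at h
  have h0 : 0 ≤ R := by
    by_contra h1
    have := abs_nonneg x
    nlinarith [not_le.1 h1]
  nlinarith

theorem ev_y1P (T : Cell ι) (h : T.L1 → ℤ) (p : PI T → ℤ) (c : ι) :
    ev p (y1P T h c) = y1 T h p c := by
  rw [y1P, ← Mp.P1_eq, Mp.ev_ptP, Mp.pt_y1]

theorem ev_thP_inl (T : Cell ι) (h : T.L1 → ℤ) (p : PI T → ℤ) (c : ι) :
    ev p (thP T h (Sum.inl c)) = ev (y0 T p) (T.th c) := Mp.ev_rename_inl T p _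

theorem ev_thP_inr (T : Cell ι) (h : T.L1 → ℤ) (p : PI T → ℤ) (c : ι) :
    ev p (thP T h (Sum.inr c)) = ev (y1 T h p) (T.th c) - ev (y0 T p) (T.th c) := by
  rw [thP, Sum.elim_inr, ev_sub, Mp.ev_rename_inl]
  congr 1
  exact ev_bind_of_eq (ev_y1P T h p) _

theorem thP_win {T : Cell ι} {h : T.L1 → ℤ} {m R : ℝ} (hh : InB T m h) (hm : 0 ≤ m)
    {p : PI T → ℤ} (hp : ∀ v, |ev p ((pc T h).th v)| ≤ R) (v : ι ⊕ ι) :
    |ev p (thP T h v)| ≤ 2 * R + m := by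
  have key : ∀ c, |ev (y0 T p) (T.th c)| ≤ 2 * R + m ∧
      |ev (y1 T h p) (T.th c) - ev (y0 T p) (T.th c)| ≤ 2 * R + m := fun c => by
    have h1 := hp (Sum.inl c)
    have h0 : 0 ≤ R := (abs_nonneg _).trans h1
    rw [Mp.ev_pc_th_inl] at h1
    have h1 := abs_le.1 (abs_le_of_div h1)
    by_cases hc : T.lev c = 1
    · have h2 := Mp.ev_th_y1_L1 T h p ⟨c, hc⟩
      have h3 := abs_le.1 (hh ⟨c, hc⟩)
      simp only at h2
      constructor <;> rw [abs_le] <;> constructor <;> linarith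
    · have h2 := hp (Sum.inr (0, ⟨c, hc⟩))
      rw [Mp.ev_pc_th_inr] at h2
      have h2 := abs_le.1 (abs_le_of_div h2)
      simp only at h2
      constructor <;> rw [abs_le] <;> constructor <;> linarith
  rcases v with c | c
  · rw [ev_thP_inl]; exact (key c).1
  · rw [ev_thP_inr]; exact (key c).2

theorem thP_close {T : Cell ι} {h : T.L1 → ℤ} {ρ : ℝ} {p p₀ : PI T → ℤ}
    (hp : ∀ v, |ev p ((pc T h).th v) - ev p₀ ((pc T h).th v)| ≤ ρ) (v : ι ⊕ ι) :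
    |ev p (thP T h v) - ev p₀ (thP T h v)| ≤ 2 * ρ := by
  have key : ∀ c, |ev (y0 T p) (T.th c) - ev (y0 T p₀) (T.th c)| ≤ 2 * ρ ∧
      |ev (y1 T h p) (T.th c) - ev (y0 T p) (T.th c) -
        (ev (y1 T h p₀) (T.th c) - ev (y0 T p₀) (T.th c))| ≤ 2 * ρ := fun c => by
    have h1 := hp (Sum.inl c)
    have h0 : 0 ≤ ρ := (abs_nonneg _).trans h1
    rw [Mp.ev_pc_th_inl, Mp.ev_pc_th_inl, ← sub_div] at h1
    have h1 := abs_le.1 (abs_le_of_div h1)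
    by_cases hc : T.lev c = 1
    · have h2 := Mp.ev_th_y1_L1 T h p ⟨c, hc⟩
      have h3 := Mp.ev_th_y1_L1 T h p₀ ⟨c, hc⟩
      simp only at h2 h3
      constructor <;> rw [abs_le] <;> constructor <;> linarith
    · have h2 := hp (Sum.inr (0, ⟨c, hc⟩))
      rw [Mp.ev_pc_th_inr, Mp.ev_pc_th_inr, ← sub_div] at h2
      have h2 := abs_le.1 (abs_le_of_div h2)
      simp only at h2
      constructor <;> rw [abs_le] <;> constructor <;> linarith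
  rcases v with c | c
  · rw [ev_thP_inl, ev_thP_inl]; exact (key c).1
  · rw [ev_thP_inr, ev_thP_inr]; exact (key c).2

/-! ### algebra -/

theorem eul_wcf {A : ND κ} {hd : κ → Bool} {lev : ι → ℕ} {x : A.PS (ι ⊕ ι)}
    (h : BiH A hd lev x) : A.subst (eul lev) x ∈ wcf lev A.F := by
  intro α k hk
  by_contra h0
  refine hk.ne' (hom_bind' (w := Sum.elim lev lev) (w' := lev) (g := eul lev) ?_ (h k).1 h0)
  rintro (c | c)
  · exact isWeightedHomogeneous_X ℝ lev c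
  · exact (isWeightedHomogeneous_X ℝ lev c).C_mul _

theorem sfil_mono {N : ND κ} {S : ℕ} {m m' : ℝ} {V : ℕ → Submodule ℝ N.L}
    {𝔨 : Submodule ℝ N.L} (h : SFil N S m V 𝔨) (hm : m ≤ m') : SFil N S m' V 𝔨 :=
  ⟨fun b => (h.rat b).mono (ex_le hm), h.ratk.mono (ex_le hm), h.zero,
    h.anti, h.lie, h.bot, h.le, h.ideal⟩

theorem sfil_le_one {N : ND κ} {S : ℕ} {m : ℝ} {V : ℕ → Submodule ℝ N.L}
    {𝔨 : Submodule ℝ N.L} (h : SFil N S m V 𝔨) (n : ℕ) : V n ≤ V 1 := by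
  induction n with
  | zero => exact h.zero.le
  | succ n ih =>
    rcases n with _ | n
    · exact le_rfl
    · exact (h.anti _).trans ih

theorem bcl_off {κ' σ : Type} [Fintype κ'] {N : ND κ} {N' : ND κ'} {ν : κ' → Prop}
    {ψ : N.L →ₗ[ℝ] N'.L} {𝔨 : Submodule ℝ N.L} (hψ : ∀ x ∈ 𝔨, On N' ν (ψ x))
    {P : N.PS (ι ⊕ σ)} {P₀ : N.PS ι} (h : P - N.subst (fun c => X (Sum.inl c)) P₀ ∈ Uo _ 𝔨)
    (k : κ') (hk : ¬ ν k) : bcl ψ _ P k = rename Sum.inl (bcl ψ _ P₀ k) := by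
  have h1 : bcl ψ _ (P - N.subst (fun c => X (Sum.inl c)) P₀) k = 0 :=
    MvPolynomial.ext _ _ fun α => by
      rw [← cv_apply, cv_bcl, coeff_zero]
      exact hψ _ (h α) k hk
  rw [map_sub, ND.subst, ← map_bcl, ND.sub_apply, sub_eq_zero] at h1
  rw [h1, rename_eq_bind]
  rfl

theorem nChar3 {A : ND κ} {S : ℕ} {M : ℝ} (hM : 0 ≤ M) {η η' : κ → ℤ} {F G : A.L → ℂ}
    (hF : A.NChar S S M η F) (hG : A.NChar S S M η' G) :
    ∃ η₃ : Fin 3 × κ → ℤ, (pw A (Fin 3)).NChar S S (3 * M) η₃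
      (fun z => conj (G (pr A ℝ 1 z)) * F (pr A ℝ 2 z)) ∧
      ∀ Z, (pw A (Fin 3)).fn η₃ Z = A.fn η (pr A ℝ 2 Z) - A.fn η' (pr A ℝ 1 Z) := by
  have h0 : A.NChar S S M 0 fun _ => 1 :=
    ⟨lipFn_const hM (by simp), fun _ _ => rfl, fun _ => by simpa using hM, fun Z _ x => by
      rw [fn_zero67]; simp⟩
  have h := nChar_pw (J := Fin 3) (η := ![0, -η', η]) (F := ![fun _ => 1, fun y => conj (G y), F])
    hM fun a => by
      fin_cases a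
      exacts [h0, hG.conj, hF]
  refine ⟨_, by simpa [Fin.prod_univ_three] using h, fun Z => ?_⟩
  rw [fn_pw, Fin.sum_univ_three]
  show A.fn 0 _ + A.fn (-η') _ + A.fn η _ = _
  rw [fn_zero67, fn_neg67]
  ring

theorem five_pow_le (K : ℕ) : ∃ n : ℕ, ∀ x : ℝ, 2 ^ n ≤ x → 5 * x ^ K ≤ Real.exp x := by
  refine ⟨5 * (K + 1).factorial, fun x hx => ?_⟩
  have h1 : ((5 * (K + 1).factorial : ℕ) : ℝ) ≤ x :=
    le_trans (by exact_mod_cast (Nat.lt_two_pow_self).le) hx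
  have h0 : 0 ≤ x := (Nat.cast_nonneg _).trans h1
  refine le_trans ?_ (Real.pow_div_factorial_le_exp x h0 (K + 1))
  rw [le_div_iff₀ (by positivity), pow_succ]
  push_cast at h1
  nlinarith [pow_nonneg h0 K]

/-! ### the states -/

/-- pointwise form on the windows of the pair cells -/
def St1 (t : ℕ) : Pr := fun m ι _ T f =>
  ∃ (Θ φ b : (ι → ℤ) → ℂ) (H : Finset (T.L1 → ℤ)) (r : ℕ) (N : ND (Fin r)) (ν : Fin r → Prop)
    (q : ℕ) (P₀ : N.PS ι), IsNilW T.lev (t + 2) m Θ ∧ Chp T m φ ∧ (∀ z, ‖b z‖ ≤ 1) ∧ Dense T m H ∧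
    (r : ℝ) ≤ m ∧ N.Good (t + 2) (Real.exp m) ∧ CoId N ν ∧ 1 ≤ q ∧ (q : ℝ) ≤ Real.exp m ∧
    ∀ h ∈ H, ∃ (ψ Φ : (PI T → ℤ) → ℂ) (P : N.PS (PI T)) (F : (PI T → ℤ) → N.L → ℂ),
      IsNilW (T.mlev (Fin 1)) t m ψ ∧ (∀ p, ‖Φ p‖ ≤ 1) ∧ P ∈ wcf (T.mlev (Fin 1)) N.F ∧
      (∀ k, ¬ ν k → P k = rename Sum.inl (P₀ k)) ∧
      Cor (pc T h) m (fun p => f (y1 T h p) * φ (y1 T h p) * Θ (y1 T h p) * b (y0 T p) * ψ p) Φ ∧
      ∀ p₀, (∀ v, |ev p₀ ((pc T h).th v)| ≤ 2 * m) → N.LipFn (t + 2) (Real.exp m) (F p₀) ∧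
        (∀ Z ∈ N.F (t + 1), On N ν Z → ∀ z, F p₀ (star (t + 2) Z z) = F p₀ z) ∧
        ∀ (p : PI T → ℤ) (ρ : ℝ), 0 ≤ ρ → (∀ v, |ev p ((pc T h).th v)| ≤ 2 * m) →
          (∀ v, |ev p ((pc T h).th v) - ev p₀ ((pc T h).th v)| ≤ ρ) →
          (∀ c, (q : ℤ) ∣ p c - p₀ c) → ‖Φ p - F p₀ (N.evZ p P)‖ ≤ Real.exp m * ρ

/-- the derivatives correlate with degree `t` up to cheap phases of the pair cells -/
def St2 (t : ℕ) : Pr := fun m ι _ T f =>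
  ∃ (Θ φ b : (ι → ℤ) → ℂ) (H : Finset (T.L1 → ℤ)), IsNilW T.lev (t + 2) m Θ ∧ Chp T m φ ∧
    (∀ z, ‖b z‖ ≤ 1) ∧ Dense T m H ∧ ∀ h ∈ H, CorNil t m (pc T h)
      fun p => f (y1 T h p) * φ (y1 T h p) * Θ (y1 T h p) * b (y0 T p)

theorem imp1 (hL : LiftStmt) (hCp : CpFStmt) (l t : ℕ) : Imp l (StC t) (St1 t) := by
  obtain ⟨C₁, hC₁, hVec⟩ := GI.vecStmt (t + 2) (t + 2)
  obtain ⟨C₂, hC₂, hL⟩ := hL t
  obtain ⟨C₃, hC₃, hCp⟩ := hCp (t + 2) t (by omega)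
  obtain ⟨C₄, hC₄⟩ : ∃ C : ℕ, ∀ m : ℝ, 2 ≤ m → 3 * m + 3 * m ^ C₁ ≤ m ^ C ∧ m ^ C₂ ≤ m ^ C := by qp
  obtain ⟨n, hn⟩ := five_pow_le (C₃ + 1)
  refine ⟨0, (C₄ + n + 1) * (C₃ + 1), Nat.mul_pos (by omega) (by omega),
    fun ι _ T m f hok hf hS => ?_⟩
  have hm := hok.two
  obtain ⟨κ, _, A, hd, η, x, F, φ, b, H, hB, hdiv, 𝔟, hsym, hnear⟩ := hS
  rw [pow_mul]
  set M := m ^ (C₄ + n + 1) with hM
  have a1 : m ≤ m ^ C₁ := le_self_pow₀ (by linarith) (by omega)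
  have a0 : m ^ C₄ ≤ M := Qp.pw_mono hm (by omega)
  have a2 : 3 * m + 3 * m ^ C₁ ≤ M := (hC₄ m hm).1.trans a0
  have a3 : m ^ C₂ ≤ M := (hC₄ m hm).2.trans a0
  have hM2 : 2 ≤ M := by linarith
  have a4 : M ≤ M ^ C₃ := le_self_pow₀ (by linarith) (by omega)
  have a5 : 2 * M ^ C₃ ≤ M ^ (C₃ + 1) := by rw [pow_succ]; nlinarith
  have a6 : 5 * M ^ (C₃ + 1) ≤ Real.exp M := hn M
    ((pow_le_pow_left₀ (by norm_num) hm n).trans (Qp.pw_mono hm (by omega)))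
  set M₃ := M ^ C₃ with hM₃
  set M' := M ^ (C₃ + 1) with hM'
  choose η' hη' using hdiv
  have ht : ((t : ℤ) + 2) ≠ 0 := by omega
  have hfr' : Freq A (t + 2) m η' := by
    refine ⟨fun k hk => ?_, fun k => le_trans ?_ (hB.chr.η_le k)⟩
    · have := hB.chr.supp k hk
      rw [hη' k] at this
      exact (mul_eq_zero.1 this).resolve_left ht
    · rw [hη' k]
      push_cast
      rw [abs_mul]
      refine le_mul_of_one_le_left (abs_nonneg _) ?_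
      rw [abs_of_nonneg (by positivity)]
      linarith [(Nat.cast_nonneg t : (0 : ℝ) ≤ t)]
  obtain ⟨J, G, hJ, hG, hG1⟩ := hVec m hm κ A η' hB.dim hB.good hfr'
  obtain ⟨V, 𝔨, q, P₀, hSF, hkill, hq1, hq, hfac⟩ := hL m hm ι κ T A hd η η' x 𝔟 hB.dim hB.good
    hB.bigr hB.chr.supp hB.top hη' hB.bih hsym hnear
  obtain ⟨r, N', ν, ψ, q', hr, hN', hν, hq'1, hq', hψV, hψk, hcp⟩ := hCp M hM2 (Fin 3 × κ)
    (pw A (Fin 3)) V 𝔨 q (by rw [Fintype.card_prod, Fintype.card_fin]; push_cast; linarith [hB.dim])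
    ((good_pw hB.good (Real.exp_pos _).le _).mono (ex_le (by linarith))) (sfil_mono hSF a3) hq1
    (hq.trans (ex_le a3))
  choose! ψ₀ hψ₀ hcor using hB.cor
  set Y := A.subst (eul T.lev) x with hY
  have hab : ∀ h ∈ H, ∀ p, ‖f (y1 T h p) * φ (y1 T h p) * b (y0 T p) *
      sqW A F x (Sum.elim (y0 T p) (dy T h p)) * ψ₀ h p‖ ≤ 1 := fun h hh =>
    bdd_mul (bdd_mul (bdd_mul (bdd_mul (fun _ => hf _) fun _ => hB.chp.bdd _) fun _ => hB.bdd _)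
      fun _ => hB.chr.bdd _) (hψ₀ h hh).bdd
  obtain ⟨j, -, H₁, hH₁, hden₁, hl⟩ := ((Cnt.of_fintype fun _ : Fin J => True).le
    (by rwa [Fintype.card_fin])).pigeon_exp (mu1_pos T) hB.dense.2
    (fun h j => Cor (pc T h) (m + m ^ C₁)
      (fun p => f (y1 T h p) * φ (y1 T h p) * b (y0 T p) *
        sqW A F x (Sum.elim (y0 T p) (dy T h p)) * ψ₀ h p)
      fun p => sqW A (G j) Y (y1 T h p) * conj (sqW A (G j) Y (y1 T h p))) fun h hh => by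
        obtain ⟨j, -, hj⟩ := Cor.sum (T := pc T h) (m := m) (K := 1) (k := m ^ C₁) univ
          (a := fun p => f (y1 T h p) * φ (y1 T h p) * b (y0 T p) *
            sqW A F x (Sum.elim (y0 T p) (dy T h p)) * ψ₀ h p)
          (f := fun j p => sqW A (G j) Y (y1 T h p) * conj (sqW A (G j) Y (y1 T h p)))
          ((hcor h hh).congr fun p => by
            rw [show ∑ j, sqW A (G j) Y (y1 T h p) * conj (sqW A (G j) Y (y1 T h p)) = 1 from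
              hG1 _, mul_one])
          (fun j _ => bdd_mul (hab h hh) (bdd_mul (fun _ => (hG j).bdd _) fun _ => by
            rw [RCLike.norm_conj]; exact (hG j).bdd _)) (by simpa using hJ)
        exact ⟨j, trivial, hj⟩
  obtain ⟨η₃, hF₃, hη₃⟩ := nChar3 (Real.exp_pos _).le (hB.chr.mono (ex_le a1)) (hG j)
  have he3 : 3 * Real.exp (m ^ C₁) ≤ Real.exp M := by
    refine le_trans ?_ (ex_le (show m + m ^ C₁ ≤ M by linarith))
    rw [Real.exp_add]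
    exact mul_le_mul_of_nonneg_right (by linarith [Real.add_one_le_exp m]) (Real.exp_pos _).le
  refine ⟨sqW A (G j) Y, φ, b, H₁, r, N', ν, q', bcl ψ _ P₀,
    isNilW_of (hB.dim.trans (by linarith)) (hB.good.mono (ex_le (by linarith)))
      ((hG j).toLipFn.mono (ex_le (by linarith))) (eul_wcf hB.bih), hB.chp.mono (by linarith),
    hB.bdd, Ri.Dense.mono (m := m + m ^ C₁)
      ⟨fun h hh => (hB.dense.1 h (hH₁ hh)).mono (by linarith), hden₁⟩ (by linarith),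
    by linarith, hN'.mono (ex_le (by linarith)), hν, hq'1, hq'.trans (ex_le (by linarith)),
    fun h hh => ?_⟩
  obtain ⟨E, P, Γ, hE, hEs, hΓ, hP, hP₀, hP3⟩ := hfac h
  obtain ⟨F', hF'⟩ := hcp (PI T) (ι ⊕ ι) (thP T h) η₃ _ E P Γ
    (by rw [Fintype.card_sum]; push_cast; linarith [hok.card]) (hF₃.mono he3)
    (fun Z h1 h2 => ⟨(hkill Z h1 h2).1, by rw [hη₃, (hkill Z h1 h2).2, sub_self]⟩) hE
    (hEs.mono (ex_le a3)) hΓ fun α => sfil_le_one hSF _ (hP α)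
  have hwin : ∀ p, (∀ v, |ev p ((pc T h).th v)| ≤ 2 * M') →
      ∀ v, |ev p (thP T h v)| ≤ Real.exp M := fun p hp v =>
    (thP_win (hB.dense.1 h (hH₁ hh)) (by linarith) hp v).trans (by linarith)
  refine ⟨ψ₀ h, fun p => conj (sqW A (G j) Y (y1 T h p)) *
      sqW A F x (Sum.elim (y0 T p) (dy T h p)), bcl ψ _ P, F',
    (hψ₀ h (hH₁ hh)).mono (by linarith),
    bdd_mul (fun _ => by rw [RCLike.norm_conj]; exact (hG j).bdd _) fun _ => hB.chr.bdd _,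
    fun α => by rw [cv_bcl]; exact hψV _ _ (hP α), bcl_off hψk hP₀,
    ((hl h hh).congr fun p => by ring).mono (by linarith), fun p₀ hp₀ => ?_⟩
  obtain ⟨b1, b2, b3⟩ := hF' p₀ (hwin p₀ hp₀)
  refine ⟨b1.mono (ex_le (by linarith)), b2, fun p ρ hρ hp hc hdv => ?_⟩
  have b4 := b3 p (2 * ρ) (by linarith) (hwin p hp) (thP_close hc) hdv
  rw [← hP3] at b4
  have e1 := sqW_subst A (G j) Y (ev_y1P T h p)
  have e2 := sqW_subst A F x (Mp.ev_fixh T h p)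
  beta_reduce
  rw [← e1, ← e2]
  refine b4.trans ?_
  rw [← mul_assoc]
  refine mul_le_mul_of_nonneg_right (le_trans ?_ (ex_le (show 1 + M₃ ≤ M' by linarith))) hρ
  rw [Real.exp_add, mul_comm]
  exact mul_le_mul_of_nonneg_right (by linarith [Real.add_one_le_exp 1]) (Real.exp_pos _).le

theorem imp2 (hCh : CheapStmt) (hH : HerStmt) (hF : FibCStmt) (l t : ℕ) :
    Imp l (St1 t) (St2 t) := by
  classical
  obtain ⟨D₁, C₁, hC₁, hCh⟩ := hCh l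
  obtain ⟨D₂, C₂, hC₂, hH⟩ := A81.pair_ok hH l D₁ C₁
  obtain ⟨D₃, C₃, hC₃, hF⟩ := hF l (t + 2) t
  obtain ⟨C, hC⟩ : ∃ C : ℕ, ∀ m : ℝ, 2 ≤ m → m ^ C₂ ≤ m ^ C ∧
      3 * ((2 * m) ^ C₁) ^ C₃ ≤ m ^ C := by qp
  refine ⟨D₂ + D₃, C + 1, by omega, fun ι _ T m f hok hf hS => ?_⟩
  have hm := hok.two
  obtain ⟨Θ, φ, b, H, r, N, ν, q, P₀, hΘ, hφ, hb, hden, hr, hN, hν, hq1, hq, hall⟩ := hS
  have a0 : m ^ C ≤ m ^ (C + 1) := Qp.pw_mono hm (by omega)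
  obtain ⟨a1, a2⟩ := hC m hm
  have a3 : 2 * m ≤ (2 * m) ^ C₁ := le_self_pow₀ (by linarith) (by omega)
  set m₁ := (2 * m) ^ C₁ with hm₁
  have a4 : m₁ ≤ m₁ ^ C₃ := le_self_pow₀ (by linarith) (by omega)
  set m₂ := m₁ ^ C₃ with hm₂
  obtain ⟨H₁, hH₁, hden₁, hok₁⟩ := hH ι T m
    (hok.mono (by omega) le_rfl (by linarith) (by positivity)) H hden
  choose! ψ Φ P F hψ hΦ hP hoff hcor hloc using hall
  have hab : ∀ h ∈ H, ∀ p,
      ‖f (y1 T h p) * φ (y1 T h p) * Θ (y1 T h p) * b (y0 T p) * ψ h p‖ ≤ 1 := fun h hh =>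
    bdd_mul (bdd_mul (bdd_mul (bdd_mul (fun _ => hf _) fun _ => hφ.bdd _) fun _ => hΘ.bdd _)
      fun _ => hb _) (hψ h hh).bdd
  have key : ∀ h ∈ H₁, ∃ p₀ χ, (∀ v, |ev p₀ ((pc T h).th v)| ≤ 2 * m) ∧ Chp (pc T h) m₁ χ ∧
      Cor (pc T h) m₁
        (fun p => f (y1 T h p) * φ (y1 T h p) * Θ (y1 T h p) * b (y0 T p) * ψ h p * χ p)
        (sqW N (F h p₀) (P h)) := fun h hh => by
    have hh' := hH₁ hh
    obtain ⟨p₀, χ, c1, c2, c3⟩ := hCh _ (pc T h) (2 * m) (hok₁ h hh) _ (Φ h)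
      (fun p₀ p => if ∀ v, |ev p₀ ((pc T h).th v)| ≤ 2 * m then F h p₀ (N.evZ p (P h)) else 0) q
      hq1 (hq.trans (ex_le (by linarith))) (hab h hh') (hΦ h hh')
      (fun p₀ p => by
        split_ifs with h0
        · exact (hloc h hh' p₀ h0).1.bdd _
        · simp)
      (fun p₀ p ρ hρ h0 h1 h2 h3 => by
        rw [if_pos h0]
        exact ((hloc h hh' p₀ h0).2.2 p ρ hρ h1 h2 h3).trans
          (mul_le_mul_of_nonneg_right (ex_le (by linarith)) hρ))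
      ((hcor h hh').mono (by linarith))
    exact ⟨p₀, χ, c1, c2, c3.congr fun p => by rw [if_pos c1]; rfl⟩
  choose! p₀ χ hp₀ hχ hc using key
  obtain ⟨b', φ', H₂, hb', hφ', hH₂, hden₂, hfin⟩ := hF ι T m₁
    (hok.mono (by omega) (by linarith) (by linarith) (by positivity)) (Fin r) N ν H₁
    (fun h => F h (p₀ h)) P P₀
    (fun h p => f (y1 T h p) * φ (y1 T h p) * Θ (y1 T h p) * b (y0 T p) * ψ h p * χ h p)
    (by rw [Fintype.card_fin]; linarith) (hN.mono (ex_le (by linarith))) hν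
    (hden₁.mono (by linarith)) fun h hh =>
      ⟨(hloc h (hH₁ hh) _ (hp₀ h hh)).1.mono (ex_le (by linarith)),
        (hloc h (hH₁ hh) _ (hp₀ h hh)).2.1, hP h (hH₁ hh), hoff h (hH₁ hh),
        bdd_mul (hab h (hH₁ hh)) (hχ h hh).bdd, hc h hh⟩
  refine ⟨Θ, fun z => φ z * φ' z, fun z => b z * b' z, H₂, hΘ.mono (by linarith),
    (hφ.mul hφ').mono (by linarith), bdd_mul hb hb',
    hden₁.sub hH₂ hden₂ (by linarith) (by linarith), fun h hh => ?_⟩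
  obtain ⟨ψ', d1, d2⟩ := hfin h hh
  exact ⟨fun p => ψ h p * ψ' p, χ h, ((hψ h (hH₁ (hH₂ hh))).mul d1).mono (by linarith),
    (hχ h (hH₂ hh)).mono (by linarith), (d2.congr fun p => by ring).mono (by linarith)⟩

theorem imp3 (hS : SplitStmt) (l t : ℕ) : Imp l (St2 t) (StE t) := by
  obtain ⟨D, C₁, hC₁, hS⟩ := hS l t
  obtain ⟨C, hC⟩ : ∃ C : ℕ, ∀ m : ℝ, 2 ≤ m → 3 * m ^ C₁ ≤ m ^ C := by qp
  refine ⟨D, C + 1, by omega, fun ι _ T m f hok hf hX => ?_⟩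
  have hm := hok.two
  obtain ⟨Θ, φ, b, H, hΘ, hφ, hb, hden, hall⟩ := hX
  have a0 : 3 * m ^ C₁ ≤ m ^ (C + 1) := (hC m hm).trans (Qp.pw_mono hm (by omega))
  have a1 : m ≤ m ^ C₁ := le_self_pow₀ (by linarith) (by omega)
  obtain ⟨b', φ', H', hb', hφ', hH', hden', hfin⟩ := hS ι T m
    (hok.mono le_rfl le_rfl (by linarith) (by positivity)) H
    (fun h p => f (y1 T h p) * φ (y1 T h p) * Θ (y1 T h p) * b (y0 T p)) hden fun h hh =>
      ⟨bdd_mul (bdd_mul (bdd_mul (fun _ => hf _) fun _ => hφ.bdd _) fun _ => hΘ.bdd _)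
        fun _ => hb _, hall h hh⟩
  refine ⟨Θ, fun z => φ z * φ' z, fun z => b z * b' z, H', hΘ.mono (by linarith),
    (hφ.mul hφ').mono (by linarith), bdd_mul hb hb',
    hden.sub hH' hden' (by linarith) (by linarith), fun h hh => ?_⟩
  obtain ⟨ψ, d1, d2⟩ := hfin h hh
  exact ⟨ψ, d1.mono (by linarith), (d2.congr fun p => by ring).mono (by linarith)⟩

end I53

/-- **the integration step** -/
theorem int_of (hL : LiftStmt) (hCp : CpFStmt) (hCh : CheapStmt) (_hMp : MpStmt) (hH : HerStmt)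
    (hF : FibCStmt) (hS : SplitStmt) : IntStmt :=
  fun l t => (I53.imp1 hL hCp l t).trans <| (I53.imp2 hCh hH hF l t).trans (I53.imp3 hS l t)

end Crest.Agent.T49.Sy
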