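import Crest.Agent.T49.SyAlgA_29
import Crest.Agent.T49.BrClos_14

/-!
# Row 49 (helper3): `Sy.JetStmt`
-/

set_option autoImplicit false

noncomputable section

namespace Crest.Agent.T49.Sy

open Finset MvPolynomial
open Crest.Agent.T49.Tw Crest.Agent.T49.Nil Crest.Agent.T49.Nil.ND
open Crest.Agent.T49.GI (Gd GR)
open Crest.Agent.T49.Br (Cs Hm Uo NearR GS cw)

namespace J3

variable {σ κ : Type} [Fintype σ] [Fintype κ] {g : ND κ}

/-- `dirD` as a linear map -/
def dL (σ : Type) [Fintype σ] : Pl σ →ₗ[ℝ] Pl (σ ⊕ σ) where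
  toFun := dirD
  map_add' := A29.dirD_add
  map_smul' := A29.dirD_smul

theorem dirD_int_mul (z : ℤ) (f : Pl σ) : dirD ((z : Pl σ) * f) = (z : Pl (σ ⊕ σ)) * dirD f := by
  rw [← map_intCast (C : ℝ →+* Pl σ), A29.dirD_mul, A29.dirD_C]
  simp

/-- the first jet is a homomorphism of Lie algebras -/
def tangL (g : ND κ) (σ : Type) [Fintype σ] : g.PS σ →ₗ⁅ℝ⁆ (du g).PS (σ ⊕ σ) where
  toFun := tang g
  map_add' x y := du_ext (pts_ext fun k => map_add (rename Sum.inl) (x k) (y k))
    (pts_ext fun k => A29.dirD_add (x k) (y k))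
  map_smul' r x := du_ext (pts_ext fun k => map_smul (rename Sum.inl) r (x k))
    (pts_ext fun k => A29.dirD_smul r (x k))
  map_lie' {x y} := by
    refine du_ext ?_ ?_
    · rw [dc_lie_false]
      refine pts_ext fun k => ?_
      simp only [tang, dc_dmk_false]
      simp [lie_apply]
    · rw [dc_lie_true]
      refine pts_ext fun k => ?_
      have h : dirD (⁅x, y⁆ k) = ∑ i, ∑ j, dirD ((g.c i j k : Pl σ) * x i * y j) := by
        rw [lie_apply]
        exact (map_sum (dL σ) _ _).trans (sum_congr rfl fun i _ => map_sum (dL σ) _ _)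
      simp only [tang, dc_dmk_true, dc_dmk_false, ND.add_apply, h]
      simp only [lie_apply, ← sum_add_distrib]
      refine sum_congr rfl fun i _ => sum_congr rfl fun j _ => ?_
      rw [mul_assoc, dirD_int_mul, A29.dirD_mul]
      ring

theorem tang_hm {lev : σ → ℕ} {x : g.PS σ} (hx : x ∈ Hm lev g) :
    tang g x ∈ Hm (Sum.elim lev lev) (du g) := by
  rintro ⟨e, k⟩
  cases e
  exacts [rename_inl_hom (hx k), dirD_hom (hx k)]

theorem nrm_dirD {w : σ → ℕ} (hw : ∀ c, 0 < w c) {f : Pl σ} {d : ℕ}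
    (hf : IsWeightedHomogeneous w f d) : nrm (dirD f) ≤ d * nrm f := by
  classical
  conv_lhs => rw [f.as_sum]
  refine (congrArg nrm (map_sum (dL σ) _ _)).trans_le ((nrm_sum_le _ _).trans ?_)
  rw [nrm, mul_sum]
  refine sum_le_sum fun m hm => (nrm_sum_le _ _).trans ?_
  rw [← hf (mem_support_iff.1 hm), Finsupp.weight_apply, Finsupp.sum_fintype _ _ (by simp)]
  push_cast
  rw [sum_mul]
  refine sum_le_sum fun c _ => (nrm_mul_le _ _).trans ?_
  rw [nrm_X, mul_one]
  refine (nrm_rename_le _ _).trans ?_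
  rw [pderiv_monomial, nrm_monomial, abs_mul, mul_comm, Nat.abs_cast]
  refine mul_le_mul_of_nonneg_right ?_ (abs_nonneg _)
  exact_mod_cast Nat.le_mul_of_pos_right _ (hw c)

theorem isInt_dirD {f : Pl σ} (hf : Tw.IsInt f) : Tw.IsInt (dirD f) :=
  isInt_sum fun c _ => (Tw.IsInt.rename (f := pderiv c f) (fun m => by
    obtain ⟨n, hn⟩ := hf (m + Finsupp.single c 1)
    exact ⟨n * (m c + 1), by rw [coeff_pderiv, hn]; push_cast; rfl⟩) _).mul (isInt_X _)

theorem tang_subst (c : Cs σ) (e : g.PS σ) :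
    tang g (g.subst c.th e) = (du g).subst (tanC c).th (tang g e) := by
  refine pts_ext ?_
  rintro ⟨b, k⟩
  cases b
  · exact (comp_aeval_apply c.th (rename Sum.inl) (e k)).trans
      (A29.aeval_rename_inl _ (fun v => dirD (c.th v)) (e k)).symm
  · exact A29.dirD_aeval c.th (e k)

theorem gs_duS {m : ℝ} {U : Submodule ℝ g.L} (h : GS g m U) : GS (du g) m (duS U) := by
  refine ⟨⟨fun n x hx => ⟨?_, ?_⟩, fun x hx => ?_⟩, fun x hx y hy => ⟨?_, ?_⟩⟩
  · exact h.gr n _ hx.1
  · exact h.gr n _ hx.2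
  · have key : ∀ b : Bool, ∀ y ∈ U, (fun p : Bool × κ => if p.1 = b then y p.2 else 0) ∈
        Submodule.span ℝ {v : Bool × κ → ℝ | v ∈ duS U ∧
          ∃ z : Bool × κ → ℤ, (∀ i, |(z i : ℝ)| ≤ Real.exp m) ∧ v = Gon.cst z} := by
      intro b y hy
      have hy' := h.rat hy
      clear hy
      induction hy' using Submodule.span_induction with
      | mem v hv =>
        obtain ⟨h1, z, h2, rfl⟩ := hv
        refine Submodule.subset_span ⟨?_, fun p => if p.1 = b then z p.2 else 0, fun p => ?_, ?_⟩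
        · cases b
          exacts [⟨h1, U.zero_mem⟩, ⟨U.zero_mem, h1⟩]
        · dsimp only
          split_ifs
          exacts [h2 _, by simpa using (Real.exp_pos m).le]
        · funext p
          simp only [Gon.cst]
          split_ifs <;> simp
      | zero => convert Submodule.zero_mem _ using 1; funext p; simp
      | add v v' _ _ h1 h2 =>
        convert add_mem h1 h2 using 1
        funext p
        simp only [Pi.add_apply]
        split_ifs <;> simp
      | smul r v _ h1 =>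
        convert Submodule.smul_mem _ r h1 using 1
        funext p
        simp only [Pi.smul_apply]
        split_ifs <;> simp
    convert add_mem (key false _ hx.1) (key true _ hx.2) using 1
    funext ⟨b, k⟩
    cases b <;> simp
  · show dc g ℝ false ⁅x, y⁆ ∈ U
    rw [dc_lie_false]
    exact h.lie _ hx.1 _ hy.1
  · show dc g ℝ true ⁅x, y⁆ ∈ U
    rw [dc_lie_true]
    exact add_mem (h.lie _ hx.1 _ hy.2) (h.lie _ hx.2 _ hy.1)

end J3

open J3 in
theorem jetStmt : JetStmt := by
  intro S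
  refine ⟨S + 2, by omega, fun m hm κ σ _ _ g c U x hg => ?_⟩
  have h2 : (2 : ℝ) ^ (S + 1) ≤ m ^ (S + 1) := pow_le_pow_left₀ (by norm_num) hm _
  have h3 : ((S + 1 : ℕ) : ℝ) + 1 ≤ 2 ^ (S + 1) := by exact_mod_cast Nat.lt_two_pow_self
  have h4 : (S + 2) * m ≤ m ^ (S + 2) := by
    rw [pow_succ]
    push_cast at h3
    exact mul_le_mul_of_nonneg_right (by linarith) (by linarith)
  have hS : (0 : ℝ) ≤ S := Nat.cast_nonneg _
  have h5 : m + S ≤ m ^ (S + 2) := by nlinarith
  have h6 : Real.exp m ≤ Real.exp (m ^ (S + 2)) := Real.exp_le_exp.2 (by linarith)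
  refine ⟨⟨⟨fun k => hg.wt_le _, ?_, fun i j k => ?_⟩, graded_du hg.gr⟩, gs_duS, ?_⟩
  · rw [Fintype.card_prod, Fintype.card_bool]
    push_cast
    nlinarith [hg.dim]
  · rw [du_c]
    split_ifs
    exacts [(hg.c_le _ _ _).trans h6, by simpa using (Real.exp_pos _).le]
  · rintro ⟨_, y, γ, ⟨e, e1, e2, rfl⟩, y1, y2, ⟨g1, q, q1, q2, q3⟩, rfl⟩
    refine ⟨_, tang g y, tang g γ, ⟨tang g e, tang_hm e1, ?_, tang_subst c e⟩, tang_hm y1,
      fun α => ⟨?_, ?_⟩, ⟨tang_hm g1, q, q1, q2.trans h6, ?_⟩, ?_⟩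
    · rintro ⟨b, k⟩
      cases b
      · exact ((nrm_rename_le _ _).trans (e2 k)).trans h6
      · refine (nrm_dirD c.pos (e1 k)).trans (le_trans ?_ (Real.exp_le_exp.2 h5))
        rw [Real.exp_add, mul_comm]
        refine mul_le_mul (e2 k) ?_ (Nat.cast_nonneg _) (Real.exp_pos _).le
        exact le_trans (Nat.cast_le.2 (hg.wt_le k)) (by linarith [Real.add_one_le_exp (S : ℝ)])
    · exact Br.C14.cw_mem_Uo (rename Sum.inl : Pl σ →ₐ[ℝ] Pl (σ ⊕ σ)).toLinearMap y2 α
    · exact Br.C14.cw_mem_Uo (dL σ) y2 α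
    · rw [Gf.ratP_iff] at q3 ⊢
      rintro ⟨b, k⟩
      cases b
      · simpa [tang, dmk] using (q3 k).rename (Sum.inl : σ → σ ⊕ σ)
      · have := isInt_dirD (q3 k)
        rw [A29.dirD_mul, A29.dirD_C, zero_mul, add_zero, rename_C] at this
        exact this
    · exact (Bch.map_star S (tangL g σ) _ _).trans
        (congrArg _ (Bch.map_star S (tangL g σ) _ _))

end Crest.Agent.T49.Sy
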