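import Crest.Agent.T49.SyLiftDef_40
import Crest.Agent.T49.NilPw_67

/-!
# Row 49 (helper27): `Sy.L40.FiltStmt`
-/

set_option autoImplicit false

noncomputable section

namespace Crest.Agent.T49.Sy.L40

open Finset
open Crest.Agent.T49.Nil Crest.Agent.T49.Nil.ND
open Crest.Agent.T49.GI (pw pr tup Bigr Graded SFil)
open Crest.Agent.T49.GI.Filt27

namespace F27

variable {κ : Type} [Fintype κ] {A : ND κ} {hd : κ → Bool} {𝔟 : Submodule ℝ (G2 A).L}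

theorem ratS_Fw (A : ND κ) (ω : κ → ℕ) (j : ℕ) {H : ℝ} (hH : 1 ≤ H) : A.RatS H (Fw A ω j) :=
  Gon.isRat_coord (ι := κ) (fun k => ¬ ω k < j) hH _ fun x => by
    simp only [not_not]; exact Iff.rfl

theorem SI.add' {H : ℝ} {a b : ℝ} (ha : ∃ z : ℤ, a = z ∧ |(z : ℝ)| ≤ H)
    (hb : ∃ z : ℤ, b = z ∧ |(z : ℝ)| ≤ H) : ∃ z : ℤ, a + b = z ∧ |(z : ℝ)| ≤ 2 * H := by
  obtain ⟨x, rfl, hx⟩ := ha
  obtain ⟨y, rfl, hy⟩ := hb
  refine ⟨x + y, by push_cast; rfl, ?_⟩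
  push_cast
  linarith [abs_add_le (x : ℝ) y]

theorem SI.two {H : ℝ} {a : ℝ} (ha : ∃ z : ℤ, a = z ∧ |(z : ℝ)| ≤ H) :
    ∃ z : ℤ, a = z ∧ |(z : ℝ)| ≤ 2 * H := by
  obtain ⟨x, rfl, hx⟩ := ha
  exact ⟨x, rfl, by linarith [abs_nonneg (x : ℝ)]⟩

/-- the shear `(x₀, x₁, x₂) ↦ (x₀, x₀ + x₁, x₂)` -/
def shr (A : ND κ) : (N3 A).L →ₗ[ℝ] (N3 A).L where
  toFun x := tup ![pr A ℝ 0 x, pr A ℝ 0 x + pr A ℝ 1 x, pr A ℝ 2 x]
  map_add' x y := n3_ext rfl (by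
    change pr A ℝ 0 (x + y) + pr A ℝ 1 (x + y) = pr A ℝ 0 x + pr A ℝ 1 x + (pr A ℝ 0 y + pr A ℝ 1 y)
    rw [map_add, map_add]; abel) rfl
  map_smul' r x := n3_ext rfl (by
    change pr A ℝ 0 (r • x) + pr A ℝ 1 (r • x) = r • (pr A ℝ 0 x + pr A ℝ 1 x)
    rw [map_smul, map_smul, smul_add]) rfl

theorem ratS_V0 (A : ND κ) (hd : κ → Bool) (j : ℕ) {H : ℝ} (hH : 1 ≤ H) :
    (N3 A).RatS (2 * H) (V0 A hd j) := by
  let U : Fin 3 → Submodule ℝ A.L := ![A.F j, A.F (j + 1), Fw A (fun k => A.wt k - (hd k).toNat) j]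
  have hU : (N3 A).RatS H (pwS U) := ratS_pwS (by linarith) fun a => by
    fin_cases a
    exacts [ratS_F A hH _, ratS_F A hH _, ratS_Fw A _ _ hH]
  have e : V0 A hd j = (pwS U).map (shr A) := by
    ext x
    constructor
    · intro hx
      obtain ⟨h0, h1, h2⟩ := mem_V0.1 hx
      refine ⟨tup ![pr A ℝ 0 x, pr A ℝ 1 x - pr A ℝ 0 x, pr A ℝ 2 x], mem_pwS.2 fun a => ?_,
        n3_ext rfl (add_sub_cancel _ _) rfl⟩
      fin_cases a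
      exacts [h0, h1, h2]
    · rintro ⟨y, hy, rfl⟩
      have h := mem_pwS.1 hy
      refine mem_V0.2 ⟨h 0, ?_, h 2⟩
      change pr A ℝ 0 y + pr A ℝ 1 y - pr A ℝ 0 y ∈ _
      rw [add_sub_cancel_left]
      exact h 1
  rw [e]
  refine ratS_map hU _ fun v hv p => ?_
  obtain ⟨a, k⟩ := p
  fin_cases a
  exacts [SI.two (hv (0, k)), SI.add' (hv (0, k)) (hv (1, k)), SI.two (hv (2, k))]

theorem ratS_VB {H : ℝ} (hH : 1 ≤ H) (h : (G2 A).RatS H 𝔟) (j : ℕ) :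
    (N3 A).RatS (2 * Gon.bl (Fintype.card (Bool × Fin 2 × κ))
      (Gon.bl (Fintype.card (Bool × Fin 2 × κ)) H)) (VB A hd 𝔟 j) := by
  refine ratS_sup (ratS_map (ratS_inf h (ratS_Fw _ _ _ hH) hH) _ fun v hv p => ?_)
    (ratS_V0 A hd _ (Gon.one_le_bl _ (Gon.one_le_bl _ hH)))
  obtain ⟨a, k⟩ := p
  fin_cases a
  exacts [SI.two (hv (false, 0, k)), SI.add' (hv (false, 0, k)) (hv (true, 0, k)),
    SI.add' (hv (false, 1, k)) (hv (true, 1, k))]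

theorem mem_VB {j : ℕ} {x : (N3 A).L} (hx : x ∈ VB A hd 𝔟 j) :
    ∃ w ∈ 𝔟, w ∈ D2 A j ∧ ∃ v ∈ V0 A hd (j + 1), x = lam A ℝ w + v := by
  obtain ⟨_, ⟨w, hw, rfl⟩, v, hv, rfl⟩ := Submodule.mem_sup.1 hx
  exact ⟨w, hw.1, hw.2, v, hv, rfl⟩

theorem VB_anti : Antitone (VB A hd 𝔟) := fun _ _ h =>
  sup_le_sup (Submodule.map_mono (inf_le_inf_left _ (Fw_anti _ _ h))) (V0_anti (by omega))

theorem lie_VB (hb : Bigr A hd) (hl : ∀ x ∈ 𝔟, ∀ y ∈ 𝔟, ⁅x, y⁆ ∈ 𝔟) (hm : ∀ w ∈ 𝔟, w ∈ mS A hd)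
    (i j : ℕ) (x : (N3 A).L) (hx : x ∈ VB A hd 𝔟 i) (y : (N3 A).L) (hy : y ∈ VB A hd 𝔟 j) :
    ⁅x, y⁆ ∈ VB A hd 𝔟 (i + j) := by
  obtain ⟨w, h1, h2, v, h3, rfl⟩ := mem_VB hx
  obtain ⟨w', g1, g2, v', g3, rfl⟩ := mem_VB hy
  have e : ⁅lam A ℝ w + v, lam A ℝ w' + v'⁆ = lam A ℝ ⁅w, w'⁆ +
      ((⁅lam A ℝ w, lam A ℝ w'⁆ - lam A ℝ ⁅w, w'⁆) + (⁅lam A ℝ w, v'⁆ +
        (⁅v, lam A ℝ w'⁆ + ⁅v, v'⁆))) := by
    simp only [add_lie, lie_add]; abel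
  rw [e]
  refine add_mem (Submodule.mem_sup_left ⟨_, ⟨hl _ h1 _ g1, lie_D2 hb.1 _ _ _ h2 _ g2⟩, rfl⟩)
    (Submodule.mem_sup_right (add_mem (lam_lie h2 g2) (add_mem ?_ (add_mem ?_ ?_))))
  · exact lie_V0 hb i (j + 1) _ (lam_mem_V0 h2 (hm _ h1)) _ g3
  · exact V0_anti (by omega) (lie_V0 hb _ _ _ h3 _ (lam_mem_V0 g2 (hm _ g1)))
  · exact V0_anti (by omega) (lie_V0 hb _ _ _ h3 _ g3)

end F27

open F27 in
theorem filtStmt : FiltStmt := by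
  intro t
  obtain ⟨C, hC⟩ : ∃ C : ℕ, ∀ (m : ℝ) (d e : ℕ), 2 ≤ m → (d : ℝ) ≤ 4 * m → (e : ℝ) ≤ 4 * m →
      Gon.bl e (Gon.bl e (2 * Gon.bl d (Gon.bl d (Real.exp m)))) ≤ Real.exp (m ^ C) := by
    unfold Gon.bl; qp
  refine ⟨C + 1, by omega, ?_⟩
  intro m hm κ _ A hd η η' 𝔟 hκ hS hb hη0 hη h𝔟
  have he : 1 ≤ Real.exp m := Real.one_le_exp (by linarith)
  have h0 : (0 : ℝ) ≤ Fintype.card κ := Nat.cast_nonneg _
  have hbl := (hC m (Fintype.card (Bool × Fin 2 × κ)) (Fintype.card (Fin 3 × κ)) hm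
    (by simp only [Fintype.card_prod, Fintype.card_bool, Fintype.card_fin]; push_cast; linarith)
    (by simp only [Fintype.card_prod, Fintype.card_fin]; push_cast; linarith)).trans
    (Real.exp_le_exp.2 (Qp.pw_mono hm (Nat.le_succ C)))
  have h1 : 1 ≤ 2 * Gon.bl (Fintype.card (Bool × Fin 2 × κ))
      (Gon.bl (Fintype.card (Bool × Fin 2 × κ)) (Real.exp m)) := by
    linarith [Gon.one_le_bl (Fintype.card (Bool × Fin 2 × κ))
      (Gon.one_le_bl (Fintype.card (Bool × Fin 2 × κ)) he)]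
  have hV := ratS_VB (hd := hd) he h𝔟.gs.rat
  have hVk : ∀ j, (N3 A).RatS (Real.exp (m ^ (C + 1))) (VB A hd 𝔟 j ⊓ k0 A) := fun j =>
    (ratS_inf (hV j) (ratS_k0 A h1) h1).mono hbl
  have hmS : ∀ w ∈ 𝔟, w ∈ mS A hd := fun w hw k hk => by rw [h𝔟.m0 w hw k, if_pos hk]
  have hl := lie_VB hb h𝔟.gs.lie hmS
  refine ⟨VB_anti, hl, ⟨fun b => (hV _).mono (le_trans ?_ hbl), hVk 1, rfl,
    fun b => VB_anti (by omega), fun a b ha hb' y hy z hz => ?_, ?_, inf_le_left,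
    fun y hy z hz => ⟨VB_anti (by omega) (hl _ _ y hy z hz.1), lie_mem_k0 y hz.2⟩⟩, hVk 0,
    fun Z hZ hZ' => ?_⟩
  · exact (Gon.le_bl _ h1).trans (Gon.le_bl _ (Gon.one_le_bl _ h1))
  · rw [max_eq_left ha] at hy
    rw [max_eq_left hb'] at hz
    rw [max_eq_left (by omega)]
    exact hl a b y hy z hz
  · refine eq_bot_iff.2 fun y hy => ?_
    obtain ⟨w, -, g1, v, g2, rfl⟩ := mem_VB hy
    obtain ⟨g3, g4, g5⟩ := mem_V0.1 g2
    have e1 : w = 0 := pts_ext fun p => g1 p (by have := hS p.2.2; dsimp only; omega)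
    have e2 : pr A ℝ 0 v = 0 := eq_zero_of_mem_FA hS (FA_anti (by omega) g3)
    have e3 : pr A ℝ 1 v - pr A ℝ 0 v = 0 := eq_zero_of_mem_FA hS (FA_anti (by omega) g4)
    rw [e2, sub_zero] at e3
    have e4 : v = 0 := n3_ext e2 e3 (pts_ext fun k => g5 k (by have := hS k; dsimp only; omega))
    rw [e1, e4, map_zero, add_zero]
    exact zero_mem _
  · obtain ⟨w, g0, g1, v, g2, rfl⟩ := mem_VB hZ
    obtain ⟨g3, g4, g5⟩ := mem_V0.1 g2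
    have e0 : en A ℝ false 0 w + pr A ℝ 0 v = 0 := mem_k0.1 hZ'
    have e3 : pr A ℝ 1 v - pr A ℝ 0 v = 0 := eq_zero_of_mem_FA hS g4
    have e1 : pr A ℝ 1 (lam A ℝ w + v) = en A ℝ true 0 w := by
      rw [map_add, pr_lam1, sub_eq_zero.1 e3, add_right_comm, e0, zero_add]
    have e2 : pr A ℝ 2 (lam A ℝ w + v) = en A ℝ true 1 w + (en A ℝ false 1 w + pr A ℝ 2 v) := by
      rw [map_add, pr_lam2]; abel
    have e4 : en A ℝ false 0 w ∈ A.F (t + 2) := by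
      rw [eq_neg_of_add_eq_zero_left e0]; exact neg_mem g3
    have e5 : ∀ k, hd k = true ∨ A.wt k < t + 2 → (en A ℝ false 1 w + pr A ℝ 2 v) k = 0 := by
      intro k hk
      have f1 : en A ℝ false 1 w k = 0 := by
        rw [en_apply, h𝔟.m0 w g0 k]
        split_ifs with h
        · rfl
        · exact e4 k (hk.resolve_left h)
      have f2 : pr A ℝ 2 v k = 0 := g5 k (by
        have := hS k
        rcases hk with h | h
        · simp only [h, Bool.toNat_true]; omega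
        · dsimp only; omega)
      rw [ND.add_apply, f1, f2, add_zero]
    refine ⟨mem_pw_FA.2 fun a => ?_, ?_⟩
    · fin_cases a
      · exact (mem_k0.1 hZ').symm ▸ zero_mem _
      · exact e1.symm ▸ en_true_mem g1 0
      · exact e2.symm ▸ add_mem (en_true_mem g1 1) fun k hk => e5 k (Or.inr hk)
    · have f1 : A.fn η (en A ℝ false 1 w + pr A ℝ 2 v) = 0 := by
        rw [fn_apply]
        refine sum_eq_zero fun k _ => ?_
        cases h : hd k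
        · rw [hη0 k h]; simp
        · rw [e5 k (Or.inl h), mul_zero]
      have f2 : A.fn η (en A ℝ true 0 w) = ((t + 2 : ℕ) : ℝ) * A.fn η (en A ℝ true 1 w) :=
        h𝔟.kill w g0
      have f3 : A.fn η (en A ℝ true 0 w) = ((t + 2 : ℕ) : ℝ) * A.fn η' (en A ℝ true 0 w) := by
        simp only [fn_apply, hη, mul_sum]
        push_cast
        exact sum_congr rfl fun k _ => by ring
      rw [e1, e2, map_add, f1, add_zero]
      exact mul_left_cancel₀ (by positivity) (f2.symm.trans f3)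

end Crest.Agent.T49.Sy.L40
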