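import Crest.Agent.T49.SyLift_40
import Crest.Agent.T49.SyFilt_27

/-! # Row 49 (helper40): `LiftStmt` -/

namespace Crest.Agent.T49.Sy

theorem liftStmt : LiftStmt := L40.lift_of L40.filtStmt

end Crest.Agent.T49.Sy
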