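import Crest.Agent.T49.SyAlgA_29
import Crest.Agent.T49.BrClos_14
import Crest.Agent.T49.BrPush_54
import Crest.Agent.T49.BrUniq_32
import Crest.Agent.T49.GiPull_61

/-!
# Row 49 (helper29): matched factors (`MatchStmt`)
-/

set_option autoImplicit false

noncomputable section

namespace Crest.Agent.T49.Sy

open Finset MvPolynomial
open Crest.Agent.T49.Tw Crest.Agent.T49.Nil Crest.Agent.T49.Nil.ND
open Crest.Agent.T49.Bch (star)
open Crest.Agent.T49.GI (Gd GR)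
open Crest.Agent.T49.Br (Cs Hm Uo NearR SmR RtR GS cw closRStmt pushRStmt uniqRStmt gd_mono
  gr_mono)
open Crest.Agent.T49.Ri

namespace M29

variable {κ σ : Type} [Fintype κ] {g : ND κ}

theorem whc_hom {w : σ → ℕ} {f : Pl σ} {a : ℕ} (hf : IsWeightedHomogeneous w f a) (n : ℕ) :
    weightedHomogeneousComponent w n f = if a = n then f else 0 := by
  split_ifs with h
  exacts [whc_of_hom (h ▸ hf), whc_of_hom_ne hf h]

theorem whc_mul01 (w : σ → ℕ) (f f' : Pl σ) :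
    weightedHomogeneousComponent w 0 (f * f') =
      weightedHomogeneousComponent w 0 f * weightedHomogeneousComponent w 0 f' ∧
    weightedHomogeneousComponent w 1 (f * f') =
      weightedHomogeneousComponent w 0 f * weightedHomogeneousComponent w 1 f' +
      weightedHomogeneousComponent w 1 f * weightedHomogeneousComponent w 0 f' := by
  induction f using MvPolynomial.induction_on' with
  | add p q hp hq =>
    simp only [add_mul, map_add, hp.1, hp.2, hq.1, hq.2, true_and]; ring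
  | monomial α a =>
    induction f' using MvPolynomial.induction_on' with
    | add p q hp hq =>
      simp only [mul_add, map_add, hp.1, hp.2, hq.1, hq.2, true_and]; ring
    | monomial β b =>
      have h1 := isWeightedHomogeneous_monomial w α a rfl
      have h2 := isWeightedHomogeneous_monomial w β b rfl
      simp only [whc_hom h1, whc_hom h2, whc_hom (h1.mul h2)]
      generalize Finsupp.weight w α = i, Finsupp.weight w β = j
      rcases i with _ | _ | i <;> rcases j with _ | _ | j <;> simp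
      all_goals omega

/-- the component of degree `n` of every coordinate -/
def wc (g : ND κ) (w : σ → ℕ) (n : ℕ) : g.PS σ →ₗ[ℝ] g.PS σ :=
  cw g (weightedHomogeneousComponent w n)

theorem wc_apply (w : σ → ℕ) (n : ℕ) (x : g.PS σ) (k : κ) :
    wc g w n x k = weightedHomogeneousComponent w n (x k) := rfl

theorem wc_lie (w : σ → ℕ) (x y : g.PS σ) : wc g w 0 ⁅x, y⁆ = ⁅wc g w 0 x, wc g w 0 y⁆ ∧
    wc g w 1 ⁅x, y⁆ = ⁅wc g w 0 x, wc g w 1 y⁆ + ⁅wc g w 1 x, wc g w 0 y⁆ := by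
  refine ⟨pts_ext fun k => ?_, pts_ext fun k => ?_⟩
  · simp only [wc_apply, lie_apply, map_sum, mul_assoc, ← map_intCast (C : ℝ →+* Pl σ),
      whc_C_mul']
    simp only [(whc_mul01 w _ _).1]
  · change _ = ⁅wc g w 0 x, wc g w 1 y⁆ k + ⁅wc g w 1 x, wc g w 0 y⁆ k
    simp only [wc_apply, lie_apply, map_sum, mul_assoc, ← map_intCast (C : ℝ →+* Pl σ),
      whc_C_mul']
    simp only [(whc_mul01 w _ _).2, mul_add, sum_add_distrib]

/-- the degree in the direction variables -/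
abbrev wD (σ : Type) : σ ⊕ σ → ℕ := Sum.elim (fun _ => 0) fun _ => 1

/-- keep, of the coefficient of `ε ^ e`, the component of degree `n e` (nothing unless `b e`) -/
def ms (g : ND κ) (b : Bool → Bool) (n : Bool → ℕ) :
    (du g).PS (σ ⊕ σ) →ₗ[ℝ] (du g).PS (σ ⊕ σ) where
  toFun x p := if b p.1 then weightedHomogeneousComponent (wD σ) (n p.1) (x p) else 0
  map_add' x y := pts_ext fun p => by
    change ite _ (weightedHomogeneousComponent _ _ (x p + y p)) _ = ite _ _ _ + ite _ _ _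
    split_ifs <;> simp
  map_smul' r x := pts_ext fun p => by
    change ite _ (weightedHomogeneousComponent _ _ (r • x p)) _ = r • ite _ _ _
    split_ifs <;> simp

variable {b : Bool → Bool} {n : Bool → ℕ}

theorem ms_apply (x : (du g).PS (σ ⊕ σ)) (p : Bool × κ) : ms g b n x p =
    if b p.1 then weightedHomogeneousComponent (wD σ) (n p.1) (x p) else 0 := rfl

theorem coeff_ms (x : (du g).PS (σ ⊕ σ)) (p : Bool × κ) (α : σ ⊕ σ →₀ ℕ) :
    coeff α (ms g b n x p) =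
      if b p.1 = true ∧ Finsupp.weight (wD σ) α = n p.1 then coeff α (x p) else 0 := by
  classical
  rw [ms_apply]
  by_cases h : b p.1 = true
  · simp [h, coeff_weightedHomogeneousComponent]
  · simp [h]

theorem dc_ms (e : Bool) (x : (du g).PS (σ ⊕ σ)) :
    dc g _ e (ms g b n x) = if b e then wc g (wD σ) (n e) (dc g _ e x) else 0 := by
  refine pts_ext fun k => ?_
  rw [dc_apply, ms_apply]
  split_ifs <;> rfl

theorem ms_hm {lev : σ ⊕ σ → ℕ} {x : (du g).PS (σ ⊕ σ)} (hx : x ∈ Hm lev (du g)) :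
    ms g b n x ∈ Hm lev (du g) := fun p α hα => by
  rw [coeff_ms] at hα
  split_ifs at hα
  exacts [hx p hα, absurd rfl hα]

theorem ms_uo {U : Submodule ℝ (du g).L} (hU : ∀ w ∈ U, dmk (dc g ℝ false w) 0 ∈ U)
    {x : (du g).PS (σ ⊕ σ)} (hx : x ∈ Uo _ U) : ms g b n x ∈ Uo _ U := fun α => by
  let a : Bool → ℝ := fun e => if b e = true ∧ Finsupp.weight (wD σ) α = n e then 1 else 0
  have : (du g).cv α (ms g b n x) = a false • dmk (dc g ℝ false ((du g).cv α x)) 0 +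
      a true • ((du g).cv α x - dmk (dc g ℝ false ((du g).cv α x)) 0) := by
    refine pts_ext fun ⟨e, k⟩ => ?_
    rw [cv_apply, coeff_ms]
    cases e
    · change _ = a false * coeff α (x (false, k)) +
        a true * (coeff α (x (false, k)) - coeff α (x (false, k)))
      simp [a]
    · change _ = a false * 0 + a true * (coeff α (x (true, k)) - 0)
      simp [a]
  rw [this]
  exact add_mem (U.smul_mem _ (hU _ (hx α))) (U.smul_mem _ (sub_mem (hx α) (hU _ (hx α))))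

theorem ms_rtR {lev : σ ⊕ σ → ℕ} {m : ℝ} {x : (du g).PS (σ ⊕ σ)} (hx : RtR lev (du g) m x) :
    RtR lev (du g) m (ms g b n x) := by
  obtain ⟨h0, q, h1, h2, h3⟩ := hx
  refine ⟨ms_hm h0, q, h1, h2, fun α => den_iff.2 fun p => ?_⟩
  rw [cv_apply, coeff_ms]
  split_ifs
  exacts [den_iff.1 (h3 α) p, ⟨0, by simp⟩]

theorem nrm_ms {x : (du g).PS (σ ⊕ σ)} (p : Bool × κ) : nrm (ms g b n x p) ≤ nrm (x p) := by
  rw [ms_apply]
  split_ifs
  · exact nrm_whc_le _ _ _
  · rw [nrm_zero]; exact nrm_nonneg _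

variable [Fintype σ] {c : Cs σ}

theorem ms_subst (x : (du g).PS (σ ⊕ σ)) :
    ms g b n ((du g).subst (tanC c).th x) = (du g).subst (tanC c).th (ms g b n x) := by
  refine pts_ext fun p => ?_
  change _ = bind₁ _ (ms g b n x p)
  rw [ms_apply, ms_apply]
  split_ifs
  · refine whc_bind_hom (fun v => ?_) _ _
    cases v with
    | inl v =>
      exact rename_inl_hom (w := fun _ => 0) fun α _ => by simp [Finsupp.weight_apply]
    | inr v => exact A29.dirD_deg _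
  · rw [map_zero]

theorem ms_smR {m : ℝ} {x : (du g).PS (σ ⊕ σ)} (hx : SmR (tanC c) (du g) m x) :
    SmR (tanC c) (du g) m (ms g b n x) := by
  obtain ⟨e, h0, h1, rfl⟩ := hx
  exact ⟨_, ms_hm h0, fun p => (nrm_ms p).trans (h1 p), ms_subst e⟩

omit [Fintype σ]

/-- `D ↦ 0` -/
abbrev z1 (g : ND κ) : (du g).PS (σ ⊕ σ) →ₗ[ℝ] (du g).PS (σ ⊕ σ) := ms g (fun _ => true) fun _ => 0

/-- `D ↦ 0`, `ε ↦ 0` -/
abbrev z0 (g : ND κ) : (du g).PS (σ ⊕ σ) →ₗ[ℝ] (du g).PS (σ ⊕ σ) := ms g not fun _ => 0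

/-- the matched part -/
abbrev mt (g : ND κ) : (du g).PS (σ ⊕ σ) →ₗ[ℝ] (du g).PS (σ ⊕ σ) :=
  ms g (fun _ => true) Bool.toNat

theorem z1_lie (x y : (du g).PS (σ ⊕ σ)) : z1 g ⁅x, y⁆ = ⁅z1 g x, z1 g y⁆ :=
  du_ext (by simp [dc_ms, dc_lie_false, (wc_lie _ _ _).1])
    (by simp [dc_ms, dc_lie_true, (wc_lie _ _ _).1])

theorem z0_lie (x y : (du g).PS (σ ⊕ σ)) : z0 g ⁅x, y⁆ = ⁅z0 g x, z0 g y⁆ :=
  du_ext (by simp [dc_ms, dc_lie_false, (wc_lie _ _ _).1]) (by simp [dc_ms, dc_lie_true])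

theorem mt_lie {x y : (du g).PS (σ ⊕ σ)} (hx : z1 g x = z0 g x) (hy : z1 g y = z0 g y) :
    mt g ⁅x, y⁆ = ⁅mt g x, mt g y⁆ := by
  have h1 := congrArg (dc g _ true) hx
  have h2 := congrArg (dc g _ true) hy
  simp only [dc_ms, if_true, Bool.not_true, Bool.false_eq_true, if_false] at h1 h2
  exact du_ext (by simp [dc_ms, dc_lie_false, (wc_lie _ _ _).1])
    (by simp [dc_ms, dc_lie_true, (wc_lie _ _ _).2, h1, h2])

theorem z1_star (S : ℕ) (x y : (du g).PS (σ ⊕ σ)) : z1 g (star S x y) = star S (z1 g x) (z1 g y) :=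
  GI.P61.map_star_on S ⊤ (fun _ _ _ _ => trivial) _ (fun a _ b _ => z1_lie a b) trivial trivial

theorem z0_star (S : ℕ) (x y : (du g).PS (σ ⊕ σ)) : z0 g (star S x y) = star S (z0 g x) (z0 g y) :=
  GI.P61.map_star_on S ⊤ (fun _ _ _ _ => trivial) _ (fun a _ b _ => z0_lie a b) trivial trivial

theorem mt_star (S : ℕ) {x y : (du g).PS (σ ⊕ σ)} (hx : z1 g x = z0 g x) (hy : z1 g y = z0 g y) :
    mt g (star S x y) = star S (mt g x) (mt g y) :=
  GI.P61.map_star_on S (LinearMap.eqLocus (z1 g) (z0 g))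
    (fun a ha b hb => by rw [LinearMap.mem_eqLocus] at *; rw [z1_lie, z0_lie, ha, hb]) _
    (fun _ ha _ hb => mt_lie ha hb) hx hy

theorem zz (x : (du g).PS (σ ⊕ σ)) : z1 g (z1 g x) = z1 g x ∧ z1 g (z0 g x) = z0 g x ∧
    z0 g (z1 g x) = z0 g x ∧ z0 g (z0 g x) = z0 g x := by
  refine ⟨?_, ?_, ?_, ?_⟩ <;> refine pts_ext fun ⟨e, k⟩ => MvPolynomial.ext _ _ fun α => ?_ <;>
    simp only [coeff_ms] <;> cases e <;> simp <;> tauto

theorem mt_bih {lev : σ → ℕ} {x : (du g).PS (σ ⊕ σ)} (hx : x ∈ Hm (Sum.elim lev lev) (du g)) :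
    BiH (du g) Prod.fst lev (mt g x) := fun p =>
  ⟨ms_hm hx p, weightedHomogeneousComponent_isWeightedHomogeneous _ _⟩

theorem bih_eq {lev : σ → ℕ} {x : (du g).PS (σ ⊕ σ)} (hx : BiH (du g) Prod.fst lev x) :
    mt g x = x ∧ z1 g x = z0 g x := by
  refine ⟨pts_ext fun p => whc_of_hom (hx p).2, pts_ext fun ⟨e, k⟩ => ?_⟩
  cases e
  · rfl
  · exact whc_of_hom_ne (hx (true, k)).2 (by simp)

end M29

open M29 in
theorem matchStmt : MatchStmt := by
  intro S
  obtain ⟨Cc, hCc, hClos⟩ := closRStmt.2.2 S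
  obtain ⟨Cu, hCu, hUniq⟩ := uniqRStmt pushRStmt S
  refine ⟨Cc * Cc * Cu, Nat.mul_pos (Nat.mul_pos hCc hCc) hCu,
    fun m hm κ σ _ _ g c U U' W hg hND hU hU' hle hπ hW hWU ⟨ε, y, γ, hε, hy, hyU, hγ, hx⟩ => ?_⟩
  have := ND.nil hg.wt_le (Pl (σ ⊕ σ))
  have u1 : ∀ {x : ℝ} {C : ℕ}, 2 ≤ x → 1 ≤ C → x ≤ x ^ C := fun h h' =>
    le_self_pow₀ (by linarith) (by omega)
  have m1 : 2 ≤ m ^ Cc := hm.trans (u1 hm hCc)
  have m2 : 2 ≤ (m ^ Cc) ^ Cc := m1.trans (u1 m1 hCc)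
  have e3 : ((m ^ Cc) ^ Cc) ^ Cu = m ^ (Cc * Cc * Cu) := by rw [← pow_mul, ← pow_mul, mul_assoc]
  have l2 : m ≤ (m ^ Cc) ^ Cc := (u1 hm hCc).trans (u1 m1 hCc)
  have l3 : (m ^ Cc) ^ Cc ≤ m ^ (Cc * Cc * Cu) := e3 ▸ u1 m2 hCu
  have uq := fun V (hV : GS (du g) m V) => hUniq _ m2 _ _ (du g) (tanC c) V (gd_mono hg l2)
    (e3 ▸ hND) (gr_mono hV.toGR l2)
  obtain ⟨c1, c2, -⟩ := hClos m hm _ _ (du g) (tanC c) hg
  obtain ⟨d1, d2, -⟩ := hClos _ m1 _ _ (du g) (tanC c) (gd_mono hg (u1 hm hCc))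
  -- the corrections
  set a := star S (-z0 g ε) (z1 g ε) with ha
  set b := star S (z1 g γ) (-z0 g γ) with hb
  have sa : SmR (tanC c) (du g) (m ^ Cc) a :=
    (c1 _ _ (Br.C14.smR_neg (ms_smR hε)) (ms_smR hε)).1
  have rb : RtR (tanC c).lev (du g) (m ^ Cc) b :=
    (c2 _ _ (ms_rtR hγ) (Br.C14.rtR_neg (ms_rtR hγ))).1
  have hz : star S a (star S (z1 g y) b) = z0 g y := by
    have h1 := (bih_eq hW).2
    rw [hx, z1_star, z1_star, z0_star, z0_star] at h1
    rw [ha, hb, Bch.star_assoc, ← Bch.star_assoc S (z1 g y), ← Bch.star_assoc S (z1 g ε), h1,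
      ← Bch.star_assoc, Bch.neg_star_star, Bch.star_star_neg]
  obtain ⟨aU, bU⟩ := (uq U hU).2.2 hU.lie _ a b (ms_hm hy) (ms_uo hπ hyU) (sa.mono (u1 m1 hCc))
    (rb.mono (u1 m1 hCc)) (hz ▸ ms_uo hπ hyU)
  have za : z1 g a = a ∧ z0 g a = 0 := by
    simp only [ha, z1_star, z0_star, map_neg, zz, Bch.neg_star_self, and_self]
  have zb : z1 g b = b ∧ z0 g b = 0 := by
    simp only [hb, z1_star, z0_star, map_neg, zz, Bch.star_neg_self, and_self]
  -- the corrected factors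
  have s1 := (d1 _ _ (hε.mono (u1 hm hCc)) (Br.C14.smR_neg sa)).1
  have r1 := (d2 _ _ (Br.C14.rtR_neg rb) (hγ.mono (u1 hm hCc))).1
  have y1 : star S a (star S y b) ∈ Hm (tanC c).lev (du g) :=
    Br.C14.star_mem_Hm hg.gr S (Br.C14.smR_hm sa) (Br.C14.star_mem_Hm hg.gr S hy rb.1)
  have y2 : star S a (star S y b) ∈ Uo _ U :=
    Br.C14.star_mem_Uo S hU.lie aU (Br.C14.star_mem_Uo S hU.lie hyU bU)
  have q1 : z1 g (star S ε (-a)) = z0 g (star S ε (-a)) := by
    rw [z1_star, z0_star, map_neg, map_neg, za.1, za.2, neg_zero, Bch.star_zero, ha, Bch.neg_star,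
      Bch.star_neg_star, neg_neg]
  have q2 : z1 g (star S a (star S y b)) = z0 g (star S a (star S y b)) := by
    rw [z1_star S a, z1_star S y, z0_star S a, z0_star S y, za.1, za.2, zb.1, zb.2, hz,
      Bch.zero_star, Bch.star_zero]
  have q3 : z1 g (star S (-b) γ) = z0 g (star S (-b) γ) := by
    rw [z1_star, z0_star, map_neg, map_neg, zb.1, zb.2, neg_zero, Bch.zero_star, hb, Bch.neg_star,
      Bch.star_neg_star', neg_neg]
  have hW' : W = star S (mt g (star S ε (-a)))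
      (star S (mt g (star S a (star S y b))) (mt g (star S (-b) γ))) := by
    rw [← mt_star S q2 q3, ← mt_star S q1 (by rw [z1_star S _ (star S (-b) γ),
      z0_star S _ (star S (-b) γ), q2, q3]), ← (bih_eq hW).1, hx]
    simp only [Bch.star_assoc, Bch.neg_star_star, Bch.star_neg_star]
  obtain ⟨eU, gU⟩ := (uq U' hU').2.2 hU'.lie _ _ _ (ms_hm y1) (fun α => hle (ms_uo hπ y2 α))
    (ms_smR s1) (ms_rtR r1) (hW' ▸ hWU)
  obtain ⟨e, e1, e2, e4⟩ := s1
  obtain ⟨r2, q, hq1, hq2, hq3⟩ := ms_rtR (b := fun _ => true) (n := Bool.toNat) r1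
  rw [e4, ms_subst] at eU hW'
  exact ⟨mt g e, _, _, q, mt_bih e1, (uq U' hU').1 _ (ms_hm e1) eU,
    fun p => ((nrm_ms p).trans (e2 p)).trans (Real.exp_le_exp.2 l3), mt_bih y1, ms_uo hπ y2,
    mt_bih r1.1, gU, hq1, hq2.trans (Real.exp_le_exp.2 l3), hq3, hW'⟩

end Crest.Agent.T49.Sy
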