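import Crest.Agent.T49.SyPatA_3

/-!
# Row 49 (helper3): `Sy.PatStmt`
-/

set_option autoImplicit false

noncomputable section

namespace Crest.Agent.T49.Sy.P3

open Finset MvPolynomial
open Crest.Agent.T49.Tw
open Crest.Agent.T49.Box (SF)
open Crest.Agent.T49.Hk Crest.Agent.T49.Rng
open Crest.Agent.T49.Br (Cs Mor)
open Crest.Agent.T49.Ri (muK)

section jets

variable {σ ι : Type} [Fintype σ] [Fintype ι]

theorem dirD_add (f g : Pl σ) : dirD (f + g) = dirD f + dirD g := by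
  simp [dirD, add_mul, sum_add_distrib]

theorem dirD_C (a : ℝ) : dirD (C a : Pl σ) = 0 := by simp [dirD]

theorem dirD_X (c : σ) : dirD (X c : Pl σ) = X (Sum.inr c) := by
  classical
  rw [dirD, sum_eq_single c (fun c' _ h => by simp [pderiv_X_of_ne h.symm]) (by simp)]
  simp

theorem dirD_mul (f g : Pl σ) :
    dirD (f * g) = rename Sum.inl f * dirD g + rename Sum.inl g * dirD f := by
  simp only [dirD, mul_sum, ← sum_add_distrib]
  refine sum_congr rfl fun c _ => ?_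
  simp only [Derivation.leibniz, smul_eq_mul, map_add, map_mul]
  ring

theorem dirD_C_mul (a : ℝ) (f : Pl σ) : dirD (C a * f) = C a * dirD f := by
  simp [dirD_mul, dirD_C]

theorem dirD_sum {α : Type} (s : Finset α) (f : α → Pl σ) :
    dirD (∑ i ∈ s, f i) = ∑ i ∈ s, dirD (f i) := by
  simp only [dirD, map_sum, sum_mul]
  exact sum_comm

/-- the chain rule -/
theorem dirD_aeval (g : ι → Pl σ) (f : Pl ι) :
    dirD (aeval g f) = ∑ c, rename Sum.inl (aeval g (pderiv c f)) * dirD (g c) := by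
  classical
  induction f using MvPolynomial.induction_on with
  | C a => simp [dirD_C]
  | add f f' h h' => simp only [map_add, dirD_add, h, h', add_mul, sum_add_distrib]
  | mul_X f c h =>
    rw [map_mul, aeval_X, dirD_mul, h]
    simp only [Derivation.leibniz, smul_eq_mul, map_add, map_mul, add_mul, sum_add_distrib,
      mul_sum, aeval_X]
    congr 1
    · rw [sum_eq_single c (fun c' _ h => by simp [pderiv_X_of_ne h.symm]) (by simp)]
      simp
    · exact sum_congr rfl fun c' _ => by ring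

omit [Fintype σ] [Fintype ι] in
theorem dil_inl {lev : ι → ℕ} {g : ι → Pl σ} {r : σ ⊕ σ → Pl (ι ⊕ ι)} {a : ℝ}
    (h : ∀ c, aeval r (rename Sum.inl (g c)) = C (a ^ lev c) * X (Sum.inl c)) {f : Pl ι} {d : ℕ}
    (hf : IsWeightedHomogeneous lev f d) :
    aeval r (rename Sum.inl (aeval g f)) = C (a ^ d) * rename Sum.inl f := by
  have e : ((aeval r).comp ((rename Sum.inl).comp (aeval g)) : Pl ι →ₐ[ℝ] Pl (ι ⊕ ι)) =
      (rename Sum.inl).comp (aeval fun c => (C (a ^ lev c) * X c : Pl ι)) :=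
    MvPolynomial.algHom_ext fun c => by simpa using h c
  have := AlgHom.congr_fun e f
  simp only [AlgHom.comp_apply] at this
  rw [this, aeval_dil lev a hf]
  simp [map_id]

theorem dil_inr {lev : ι → ℕ} (hpos : ∀ c, 0 < lev c) {g : ι → Pl σ} {r : σ ⊕ σ → Pl (ι ⊕ ι)}
    {a b : ℝ} (h : ∀ c, aeval r (rename Sum.inl (g c)) = C (a ^ lev c) * X (Sum.inl c))
    (h' : ∀ c, aeval r (dirD (g c)) = C (a ^ (lev c - 1) * b) * X (Sum.inr c)) {f : Pl ι} {d : ℕ}
    (hf : IsWeightedHomogeneous lev f d) :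
    aeval r (dirD (aeval g f)) = C (a ^ (d - 1) * b) * dirD f := by
  rw [dirD_aeval, map_sum, dirD, mul_sum]
  refine sum_congr rfl fun c _ => ?_
  by_cases h0 : pderiv c f = 0
  · simp [h0]
  · obtain ⟨α, hα⟩ := ne_zero_iff.1 h0
    rw [coeff_pderiv] at hα
    have h1 := hf (left_ne_zero_of_mul hα)
    rw [map_add, Finsupp.weight_single, one_smul] at h1
    rw [map_mul, dil_inl h (hf.pderiv h1), h',
      show d - 1 = Finsupp.weight lev α + (lev c - 1) by have := hpos c; omega]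
    simp only [pow_add, map_mul]
    ring

end jets

/-- a functional on functions acts vertex by vertex -/
theorem coP_vert {V σ ι : Type} [Fintype V] [DecidableEq V] (φ : (V → ℝ) →ₗ[ℝ] ℝ)
    (W : ι → MvPolynomial σ (V → ℝ)) (f : Pl ι) :
    coP φ (aeval W f) = ∑ v, C (φ (Pi.single v 1)) *
      aeval (fun c => map (Pi.evalRingHom (fun _ => ℝ) v) (W c)) f := by
  have e : ∀ v, aeval (fun c => map (Pi.evalRingHom (fun _ : V => ℝ) v) (W c)) f =
      map (Pi.evalRingHom (fun _ : V => ℝ) v) (aeval W f) := fun v => by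
    induction f using MvPolynomial.induction_on with
    | C a => simp
    | add f f' h h' => simp only [map_add, h, h']
    | mul_X f c h => simp only [map_mul, h, aeval_X]
  ext m
  simp only [e, coeff_coP, coeff_sum, coeff_C_mul, coeff_map]
  conv_lhs => rw [pi_eq_sum_univ' (coeff m (aeval W f)), map_sum]
  exact sum_congr rfl fun v _ => by rw [map_smul, smul_eq_mul, mul_comm]; rfl

theorem lin_vert {V : Type} [Fintype V] [DecidableEq V] (φ : (V → ℝ) →ₗ[ℝ] ℝ) (y : V → ℝ) :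
    ∑ v, φ (Pi.single v 1) * y v = φ y := by
  conv_rhs => rw [pi_eq_sum_univ' y, map_sum]
  exact sum_congr rfl fun v _ => by rw [map_smul, smul_eq_mul, mul_comm]

theorem exists_bd (l : ℕ) (f : ℕ → ℝ) : ∃ K : ℕ, ∀ n ≤ l, f n ≤ K := by
  obtain ⟨K, hK⟩ := exists_nat_ge (∑ n ∈ range (l + 1), |f n|)
  exact ⟨K, fun n hn => (le_abs_self _).trans ((single_le_sum (f := fun n => |f n|)
    (fun _ _ => abs_nonneg _) (mem_range.2 (Nat.lt_succ_of_le hn))).trans hK)⟩

/-- the number of parameters of level `n` of a cube -/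
def NK (s n : ℕ) : ℕ := ∑ β : Fin s → Bool, if wt β ≤ n then 1 else 0

/-- the constant in `muK` -/
def cK (s n : ℕ) : ℝ := ∏ β : Fin s → Bool, if wt β ≤ n then (√2 ^ s / 2 ^ wt β)⁻¹ else 1

theorem cK_pos (s n : ℕ) : 0 < cK s n := prod_pos fun β _ => by split_ifs <;> positivity

theorem muK_eq {ι : Type} [Fintype ι] (T : Cell ι) (s : ℕ) :
    muK T s = ∏ c, cK s (T.lev c) * |T.a c|⁻¹ ^ NK s (T.lev c) := by
  refine prod_congr rfl fun c _ => ?_
  rw [cK, NK, ← prod_pow_eq_pow_sum, ← prod_mul_distrib]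
  exact prod_congr rfl fun β _ => by split_ifs <;> simp [mul_comm]

theorem sum_wt_succ (s : ℕ) (φ : ℕ → ℕ) :
    ∑ β : Fin (s + 1) → Bool, φ (wt β) = ∑ β : Fin s → Bool, (φ (wt β) + φ (wt β + 1)) := by
  rw [sum_ins (fe s)]
  simp [wt_ins, sum_add_distrib, add_comm]

theorem rk_add (s t n : ℕ) : (rg s t).rk n + NK (t + 1) n * 2 = NK (t + 2) n * 3 := by
  rw [rk_eq, NK, NK, sum_wt_succ (t + 1) fun i => if i ≤ n then 1 else 0,
    sum_wt_succ t fun i => (if i ≤ n then 1 else 0) + if i + 1 ≤ n then 1 else 0,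
    sum_wt_succ t fun i => if i ≤ n then 1 else 0, sum_mul, sum_mul, ← sum_add_distrib]
  refine sum_congr rfl fun β _ => ?_
  split_ifs <;> omega

theorem mu0_le (l t : ℕ) : ∃ K : ℕ, ∀ (ι : Type) [Fintype ι] (T : Cell ι), (∀ c, T.lev c ≤ l) →
    (rg l t).mu0 T ≤ K ^ Fintype.card ι * muP T t := by
  obtain ⟨K, hK⟩ := exists_bd l fun n => (rg l t).vol n * cK (t + 1) n ^ 2 / cK (t + 2) n ^ 3
  refine ⟨K, fun ι _ T hl => ?_⟩
  rw [muP, muK_eq, muK_eq, ← prod_pow, ← prod_pow, ← prod_div_distrib, ← card_univ, ← prod_const,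
    ← prod_mul_distrib]
  refine prod_le_prod (fun c _ => mul_nonneg (by positivity) ((rg l t).vol_pos (hl c)).le)
    fun c _ => ?_
  have h1 := cK_pos (t + 1) (T.lev c)
  have h2 := cK_pos (t + 2) (T.lev c)
  have h3 : 0 < |T.a c|⁻¹ := inv_pos.2 (abs_pos.2 (T.a_ne c))
  have h4 := hK _ (hl c)
  rw [div_le_iff₀ (by positivity)] at h4
  rw [mul_pow, mul_pow, ← pow_mul, ← pow_mul, ← rk_add l, pow_add, ← mul_div_assoc,
    le_div_iff₀ (by positivity)]
  have h5 := mul_le_mul_of_nonneg_right h4 (show 0 ≤ |T.a c|⁻¹ ^ (rg l t).rk (T.lev c) *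
    |T.a c|⁻¹ ^ (NK (t + 1) (T.lev c) * 2) by positivity)
  linarith

/-- points of the ring are patterns -/
def toPt (s t : ℕ) {ι : Type} (T : Cell ι) : Pat8 (lvl T.lev) t ≃ (rg s t).Pt T :=
  Equiv.ofBijective (fun z c => ⟨fun v => (z.1 v c : ℝ), mem_Pat8_lvl.1 z.2 c⟩) (by
    constructor
    · intro z z' h
      refine Subtype.ext (funext fun v => funext fun c => ?_)
      have h1 : (z.1 v c : ℝ) = z'.1 v c := congrFun (congrArg Subtype.val (congrFun h c)) v
      exact_mod_cast h1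
    · intro w
      choose u _ hu using fun c => (w c).2
      have e : ∀ c, (fun v => ((ex (u c) v : ℤ) : ℝ)) = (w c).1 := fun c =>
        funext fun v => by rw [hu c, sum_BR]
      exact ⟨⟨fun v c => ex (u c) v, mem_Pat8_lvl.2 fun c => by rw [e]; exact (w c).2⟩,
        funext fun c => Subtype.ext (e c)⟩)

theorem toPt_symm (s t : ℕ) {ι : Type} (T : Cell ι) (w : (rg s t).Pt T) (v : SF t) (c : ι) :
    ((((toPt s t T).symm w).1 v c : ℤ) : ℝ) = (w c).1 v :=
  congrFun (congrArg Subtype.val (congrFun ((toPt s t T).apply_symm_apply w) c)) v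

theorem wt_toPt (s t : ℕ) {ι : Type} [Fintype ι] (T : Cell ι) (w : (rg s t).Pt T) :
    (rg s t).wt T (Off.zero _ _) w = ∏ v, T.wgt (((toPt s t T).symm w).1 v) := by
  unfold Rg.wt Tri.wgt
  rw [← Real.exp_sum, ← mul_sum, sum_comm]
  congr 2
  refine sum_congr rfl fun c _ => ?_
  rw [nrm_Q]
  refine sum_congr rfl fun v _ => ?_
  congr 1
  have h : (rg s t).dv T (Off.zero _ _) w c = aeval (fun c => (w c).1) (T.th c) := by
    rw [← hev_one T.lev _ (degLe_th T c)]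
    simp [Rg.dv, Rg.th, Off.zero, rg]
    congr 1
    funext c'
    simp [Rg.up]
  rw [h]
  have := comp_aeval_apply (f := fun c => (w c).1) (Pi.evalAlgHom ℝ (fun _ : SF t => ℝ) v)
    (T.th c)
  simp only [Pi.evalAlgHom_apply] at this
  rw [this, ev]
  simp only [toPt_symm]
  rfl

end Crest.Agent.T49.Sy.P3

namespace Crest.Agent.T49.Sy

open Finset MvPolynomial
open Crest.Agent.T49.Tw
open Crest.Agent.T49.Box (SF)
open Crest.Agent.T49.Rng P3

theorem patStmt : PatStmt := by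
  classical
  intro l t
  obtain ⟨K₀, hK₀, ⟨G⟩⟩ := exists_gens l t
  obtain ⟨K₁, hK₁⟩ := exists_nat_ge
    ((((Fintype.card (GI t) + 1 : ℕ) : ℝ) ^ l + l + Real.log K₀ + 2) ^ 6)
  obtain ⟨K₂, hK₂⟩ := mu0_le l t
  set y1 : ℕ → SF t → ℝ := fun n => (fun v => (l1 v : ℝ)) ^ n with hy1
  set y2 : ℕ → SF t → ℝ := fun n => (fun v => (l1 v : ℝ)) ^ (n - 1) * fun v => (l2 v : ℝ) with hy2
  obtain ⟨K₃, hK₃⟩ := exists_bd l fun n => ‖(rg l t).Q n (y1 n)‖ + ‖(rg l t).Q n (y2 n)‖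
  refine ⟨K₁ + K₂ + K₃ + 1, by omega, fun ι _ T hl => ?_⟩
  have e1 : (K₁ : ℝ) ≤ (K₁ + K₂ + K₃ + 1 : ℕ) := by exact_mod_cast by omega
  have e2 : (K₂ : ℝ) ≤ (K₁ + K₂ + K₃ + 1 : ℕ) := by exact_mod_cast by omega
  have e3 : (K₃ : ℝ) ≤ (K₁ + K₂ + K₃ + 1 : ℕ) := by exact_mod_cast by omega
  obtain ⟨K', n, tb, hpc⟩ := G.exists_pc hl hK₀ le_rfl (hK₁.trans e1)
  have m1 : ∀ c, y1 (T.lev c) ∈ (rg l t).L (T.lev c) := fun c => LL_pow l1_mem _
  have m2 : ∀ c, y2 (T.lev c) ∈ (rg l t).L (T.lev c) := fun c => by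
    have := LL_mul (LL_pow (l1_mem (t := t)) (T.lev c - 1)) l2_mem
    rwa [Nat.sub_add_cancel (T.lev_pos c)] at this
  choose n1 hn1 using fun c => (tb c).gen _ (m1 c)
  choose n2 hn2 using fun c => (tb c).gen _ (m2 c)
  set P := (rg l t).cell T tb (Off.zero _ _) with hP
  set pv : SF t → ι → Pl (Σ c, Fin (n c)) :=
    fun v c => ∑ j, C ((tb c).v j v) * X ⟨c, j⟩ with hpv
  set r : (Σ c, Fin (n c)) ⊕ (Σ c, Fin (n c)) → Pl (ι ⊕ ι) :=
    Sum.elim (fun x => C (n1 x.1 x.2 : ℝ) * X (Sum.inl x.1))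
      fun x => C (n2 x.1 x.2 : ℝ) * X (Sum.inr x.1) with hr
  have hlin : ∀ (c : ι) (z : Fin (n c) → ℤ) (v : SF t) (x : Pl (ι ⊕ ι)),
      ∑ j, C ((tb c).v j v) * (C (z j : ℝ) * x) = C ((∑ j, z j • (tb c).v j) v) * x := by
    intro c z v x
    simp only [Finset.sum_apply, zsmul_eq_mul, map_sum, sum_mul, Pi.mul_apply, Pi.intCast_apply,
      map_mul]
    exact sum_congr rfl fun j _ => by ring
  have j1 : ∀ v c, aeval r (rename Sum.inl (pv v c)) =
      C ((l1 v : ℝ) ^ T.lev c) * X (Sum.inl c) := fun v c => by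
    simp only [hpv, hr, map_sum, map_mul, rename_C, rename_X, aeval_C, aeval_X, Sum.elim_inl,
      algebraMap_eq]
    rw [hlin, ← hn1]; rfl
  have j2 : ∀ v c, aeval r (dirD (pv v c)) =
      C ((l1 v : ℝ) ^ (T.lev c - 1) * l2 v) * X (Sum.inr c) := fun v c => by
    simp only [hpv, hr, dirD_sum, dirD_C_mul, dirD_X, map_sum, aeval_C, aeval_X,
      Sum.elim_inr, algebraMap_eq, map_mul (aeval _)]
    rw [hlin, ← hn2]; rfl
  have ht : ∀ x, P.tth x = ∑ v, C ((tb x.1).co x.2 (Pi.single v 1)) * aeval (pv v) (T.tth x.1) := by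
    intro x
    rw [hP, Rg.cell_tth, coP_vert]
    refine sum_congr rfl fun v _ => ?_
    congr 3
    funext c
    simp [Rg.W0, hpv]
  have hn : ∀ (x : Σ c, Fin (n c)) (y : SF t → ℝ) (c : ι ⊕ ι), y ∈ (rg l t).L (T.lev x.1) →
      ‖(rg l t).Q (T.lev x.1) y‖ ≤ K₃ →
      nrm (C ((tb x.1).co x.2 y) * X c : Pl (ι ⊕ ι)) ≤ (K₁ + K₂ + K₃ + 1 : ℕ) := by
    intro x y c hy h
    rw [nrm_C_mul, nrm_X, mul_one]
    exact (((tb x.1).abs_co_le (Submodule.subset_span hy) _).trans h).trans e3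
  refine ⟨_, inferInstance, P, Sigma.fst, pv, ((rg l t).ptE T tb).trans (toPt l t T).symm, r,
    (hpc _).1, ?_, fun v c => ?_, fun p v c => ?_, fun p => ?_, ⟨?_, ?_, ?_⟩,
    fun v c => ⟨j1 v c, j2 v c⟩⟩
  · rw [hP, Rg.cell_mu, Rg.mu_eq]
    refine (hK₂ ι T hl).trans (mul_le_mul_of_nonneg_right (by gcongr) ?_)
    unfold muP
    rw [muK_eq, muK_eq]
    exact div_nonneg (pow_nonneg (prod_nonneg fun c _ =>
      mul_nonneg (cK_pos _ _).le (by positivity)) _) (sq_nonneg _)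
  · exact IsWeightedHomogeneous.sum _ _ _ fun j _ =>
      (isWeightedHomogeneous_X ℝ P.lev ⟨c, j⟩).C_mul _
  · rw [Equiv.trans_apply, toPt_symm]
    show (∑ j, p ⟨c, j⟩ • (tb c).v j) v = _
    simp [hpv, ev_sum, mul_comm]
  · rw [hP, Rg.cell_wgt _ _ _ hl (rg l t).offMem_zero, wt_toPt]; rfl
  · rintro (x | x) <;> exact (isInt_X _).int_mul _
  · rintro (x | x)
    · exact (isWeightedHomogeneous_X ℝ (Sum.elim T.lev T.lev) (Sum.inl x.1)).C_mul _
    · exact (isWeightedHomogeneous_X ℝ (Sum.elim T.lev T.lev) (Sum.inr x.1)).C_mul _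
  · rintro (x | x)
    · refine ⟨C ((tb x.1).co x.2 (y1 (T.lev x.1))) * X (Sum.inl x.1),
        (isWeightedHomogeneous_X ℝ (Sum.elim T.lev T.lev) (Sum.inl x.1)).C_mul _,
        hn x _ _ (m1 _) ((le_add_of_nonneg_right (norm_nonneg _)).trans (hK₃ _ (hl _))), ?_⟩
      show aeval r (rename Sum.inl (P.tth x)) = _
      rw [ht, map_sum, map_sum, map_mul, aeval_C, aeval_X, ← lin_vert, map_sum, sum_mul]
      refine sum_congr rfl fun v _ => ?_
      rw [map_mul, map_mul, dil_inl (j1 v) (T.tth_hom x.1), rename_C, aeval_C, map_mul, mul_assoc]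
      rfl
    · refine ⟨C ((tb x.1).co x.2 (y2 (T.lev x.1))) * X (Sum.inr x.1),
        (isWeightedHomogeneous_X ℝ (Sum.elim T.lev T.lev) (Sum.inr x.1)).C_mul _,
        hn x _ _ (m2 _) ((le_add_of_nonneg_left (norm_nonneg _)).trans (hK₃ _ (hl _))), ?_⟩
      show aeval r (dirD (P.tth x)) = _
      rw [ht, dirD_sum, map_sum, map_mul, aeval_C, aeval_X, ← lin_vert, map_sum, sum_mul]
      refine sum_congr rfl fun v _ => ?_
      rw [dirD_C_mul, map_mul, dil_inr T.lev_pos (j1 v) (j2 v) (T.tth_hom x.1), aeval_C,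
        map_mul (algebraMap ℝ (Pl (ι ⊕ ι))), mul_assoc]
      rfl

end Crest.Agent.T49.Sy
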