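import Crest.Agent.T49.RiSymDef_29
import Crest.Agent.T49.RiMs_54
import Crest.Agent.T49.NilPw_67
import Crest.Agent.T49.Qp_85

/-!
# Row 49 (helper52): the symmetry step `StB1 ⇒ StC`
-/

set_option autoImplicit false

noncomputable section

namespace Crest.Agent.T49.Sy

open Finset MvPolynomial
open Crest.Agent.T49.Tw Crest.Agent.T49.Nil Crest.Agent.T49.Nil.ND
open Crest.Agent.T49.Gf (wcf)
open Crest.Agent.T49.GI (Gd GR pw pr tup pwη Bigr Graded)
open Crest.Agent.T49.Br (Cs Mor Hm NearR GS)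
open Crest.Agent.T49.Ri
open Crest.Agent.T49.Box (cz SF sgnF)

namespace S52

variable {κ : Type} [Fintype κ] {σ τ : Type} {m m' : ℝ}

theorem symSub_mono {A : ND κ} {hd : κ → Bool} {η : κ → ℤ} {s : ℕ}
    {𝔟 : Submodule ℝ (du (pw A (Fin 2))).L} (h : SymSub A hd η s m 𝔟) (hm : m ≤ m') :
    SymSub A hd η s m' 𝔟 :=
  ⟨⟨⟨h.gs.gr, h.gs.rat.mono (ex_le hm)⟩, h.gs.lie⟩, h.eg, h.m0, h.kill⟩

theorem nearM_mono [Fintype σ] {c : Cs σ} {g : ND κ} {S : ℕ} {U U' : Submodule ℝ (du g).L}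
    {W : (du g).PS (σ ⊕ σ)} (h : NearM c g S m U U' W) (hm : m ≤ m') : NearM c g S m' U U' W := by
  obtain ⟨E, y, Γ, q, h1, h2, h3, h4, h5, h6, h7, h8, h9, h10⟩ := h
  exact ⟨E, y, Γ, q, h1, h2, fun p => (h3 p).trans (ex_le hm), h4, h5, h6, h7, h8,
    h9.trans (ex_le hm), h10⟩

theorem mor_mono {c : Cs σ} {c' : Cs τ} {K K' : ℝ} {r : σ → Pl τ} (h : Mor c c' K r)
    (hK : K ≤ K') : Mor c c' K' r :=
  ⟨h.int, h.hom, fun v => by
    obtain ⟨e, h1, h2, h3⟩ := h.th v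
    exact ⟨e, h1, h2.trans hK, h3⟩⟩

theorem card_SF (t : ℕ) : Fintype.card (SF t) = 8 * 2 ^ t := by
  simp [SF, Fintype.card_prod]; ring

theorem wt_le {t : ℕ} (w : Fin t → Bool) : Hk.wt w ≤ t := by
  simpa [Hk.wt] using sum_le_card_nsmul univ (fun i => (w i).toNat) 1 fun i _ => Bool.toNat_le _

theorem abs_l1 {t : ℕ} (v : SF t) : |(l1 v : ℝ)| ≤ t + 1 := by
  have h : (Hk.wt v.2.2.2 : ℝ) ≤ t := by exact_mod_cast wt_le _
  have h0 : (0 : ℝ) ≤ Hk.wt v.2.2.2 := Nat.cast_nonneg _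
  rw [l1, abs_le]
  split_ifs <;> push_cast <;> constructor <;> linarith

theorem abs_l2 {t : ℕ} (v : SF t) : |(l2 v : ℝ)| ≤ 1 := by
  rw [l2]
  split_ifs <;> simp

end S52

open S52

theorem symStep_of (hBox : BoxStmt) (hPat : PatStmt) (hKid : KidStmt) (hTan : TanStmt)
    (hAlg : AlgStmt) (hLt : LtStmt) : SymStepStmt := by
  classical
  intro l t
  obtain ⟨D1, C1, hC1, hBox⟩ := hBox l t
  obtain ⟨K, hK, hPat⟩ := hPat l t
  obtain ⟨D2, C2, hC2, hLt⟩ := hLt l (t + 2) (t + 2) (by omega)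
  obtain ⟨D3, C3, hC3, hTan⟩ := hTan l (t + 2)
  obtain ⟨C0, hC0, hAlg⟩ := hAlg (t + 2)
  obtain ⟨a, ha⟩ : ∃ C : ℕ, ∀ m : ℝ, 2 ≤ m →
      m ≤ m ^ C ∧ 8 * 2 ^ t * m ≤ m ^ C ∧ 8 * 2 ^ t * Real.exp m ≤ Real.exp (m ^ C) ∧
      m ^ C1 + K * m ≤ m ^ C ∧ (t : ℝ) + 1 ≤ m ^ C := by qp
  obtain ⟨Cf, hCf⟩ : ∃ C : ℕ, ∀ m : ℝ, 2 ≤ m →
      m ≤ m ^ C ∧ m ^ C1 ≤ m ^ C ∧ (m ^ a) ^ C2 + 2 * K ≤ m ^ C ∧ ((m ^ a) ^ C2) ^ C0 ≤ m ^ C ∧
        (((m ^ a) ^ C2) ^ C0) ^ C3 ≤ m ^ C := by qp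
  have hCf1 : 1 ≤ Cf := by
    by_contra h
    have := (hCf 2 le_rfl).1
    rw [show Cf = 0 by omega] at this
    norm_num at this
  refine ⟨D1 + (2 * D2 + 2) + D3, Cf, hCf1, fun ι _ T m f hok hf hX => ?_⟩
  obtain ⟨κ, _, A, hd, η, x, F, φ, b, H, hB, hdv⟩ := hX
  have hm := hok.two
  obtain ⟨f1, f2, f3, f4, f5⟩ := hCf m hm
  obtain ⟨a1, a2, a3, a4, a5⟩ := ha m hm
  have hle : ∀ {y : ℝ} {c : ℕ}, 2 ≤ y → 1 ≤ c → y ≤ y ^ c := fun hy hc =>
    le_self_pow₀ (by linarith) (by omega)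
  set m1 := m ^ a with hm1
  have h21 : 2 ≤ m1 := hm.trans a1
  set m2 := m1 ^ C2 with hm2
  have h12 : m1 ≤ m2 := hle h21 hC2
  have h22 : 2 ≤ m2 := h21.trans h12
  have h23 : m2 ≤ m2 ^ C0 := hle h22 hC0
  have hK0 : (1 : ℝ) ≤ K := by exact_mod_cast hK
  have hC1m : 0 ≤ m ^ C1 := by positivity
  have h2t : (1 : ℝ) ≤ 2 ^ t := one_le_pow₀ one_le_two
  -- the biased pattern
  have hb8 := hBox ι T m (hok.mono (by omega) le_rfl f2 (by positivity)) (fun z => f z * φ z) b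
    (fun z z' => sqW A F x (Sum.elim z (z' - z))) H (bdd_mul hf hB.chp.bdd) hB.bdd
    (fun _ _ => hB.chr.bdd _) hB.dense fun h hh => by
      obtain ⟨ψ, h1, h2⟩ := hB.cor h hh
      refine ⟨ψ, h1, h2.congr fun p => ?_⟩
      rw [show y1 T h p - y0 T p = dy T h p from add_sub_cancel_left _ _]
  obtain ⟨σ, _, P, π, pv, e, r, hPC, hmu, hhom, hev, hw, hMor, hjet⟩ := hPat ι T hok.lev_le
  let PJ : (pw A (SF t)).PS σ :=
    tup fun j => A.subst (Sum.elim (pv (bsV j)) (pv (tpV j) - pv (bsV j))) x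
  have hPJ : PJ ∈ Hm P.lev (pw A (SF t)) := fun p => by
    have h := hom_bind' (w' := P.lev) (w := Sum.elim T.lev T.lev)
      (g := Sum.elim (pv (bsV p.1)) (pv (tpV p.1) - pv (bsV p.1)))
      (fun c => by
        rcases c with c | c
        · exact hhom _ c
        · exact (weightedHomogeneousSubmodule ℝ P.lev (T.lev c)).sub_mem (hhom _ c) (hhom _ c))
      (hB.bih p.2).1
    exact h
  have hgr : Graded (pw A (SF t)) := hB.bigr.gr.pw _
  have hcard : (Fintype.card (SF t × κ) : ℝ) ≤ m1 := by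
    rw [Fintype.card_prod, card_SF]
    push_cast
    exact le_trans (mul_le_mul_of_nonneg_left hB.dim (by positivity)) a2
  have hgood : (pw A (SF t)).Good (t + 2) (Real.exp m1) :=
    good_pw (hB.good.mono (ex_le a1)) (Real.exp_pos _).le _
  have hchr := (nChar_pw_cz (g := A) (J := SF t) (F := fun _ => F) (Real.exp_pos m).le sgnF
    fun _ => hB.chr).mono (M' := Real.exp m1) (by rw [card_SF]; push_cast; exact a3)
  have hKm : (K : ℝ) * Fintype.card ι ≤ K * m := mul_le_mul_of_nonneg_left hok.card (by linarith)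
  have hokP : Ok P l D2 m1 m2 :=
    ⟨h21, hPC.card.trans (by linarith), hok.gm.pc hPC (by omega) h22 f3⟩
  have hcor : Cor P m1 (fun _ => 1)
      (sqW (pw A (SF t)) (fun y => ∏ j, cz (sgnF j) (F (pr A ℝ j y))) PJ) := by
    have h1 : box8 (Hk.lvl T.lev) t T.wgt (fun z z' => sqW A F x (Sum.elim z (z' - z))) =
        ∑' p, (P.wgt p : ℂ) *
          (1 * sqW (pw A (SF t)) (fun y => ∏ j, cz (sgnF j) (F (pr A ℝ j y))) PJ p) := by
      rw [box8, ← e.tsum_eq]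
      refine tsum_congr fun p => ?_
      have key : ∀ j, sqW A F (A.subst (Sum.elim (pv (bsV j)) (pv (tpV j) - pv (bsV j))) x) p =
          sqW A F x (Sum.elim ((e p).1 (bsV j)) ((e p).1 (tpV j) - (e p).1 (bsV j))) := fun j =>
        sqW_subst A F x fun c => by
          rcases c with c | c
          · exact (hev p _ c).symm
          · simp only [Sum.elim_inr, Pi.sub_apply, Int.cast_sub, hev, Tw.ev, map_sub]
      simp only [← key]
      rw [← hw p, one_mul]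
      rfl
    have h2 : (K : ℝ) ^ Fintype.card ι ≤ Real.exp (K * m) :=
      calc (K : ℝ) ^ Fintype.card ι ≤ Real.exp K ^ Fintype.card ι :=
            pow_le_pow_left₀ (by linarith) (by linarith [Real.add_one_le_exp (K : ℝ)]) _
        _ = Real.exp (K * Fintype.card ι) := by rw [← Real.exp_nat_mul, mul_comm]
        _ ≤ _ := ex_le hKm
    have h3 : 0 ≤ muP T t := div_nonneg (pow_pos (muK_pos T _) _).le (pow_pos (muK_pos T _) _).le
    rw [Cor, ← h1]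
    refine le_trans ?_ hb8
    calc Real.exp (-m1) * P.mu ≤ Real.exp (-m1) * (Real.exp (K * m) * muP T t) :=
          mul_le_mul_of_nonneg_left (hmu.trans (mul_le_mul_of_nonneg_right h2 h3))
            (Real.exp_pos _).le
      _ = Real.exp (-m1 + K * m) * muP T t := by rw [Real.exp_add, mul_assoc]
      _ ≤ _ := mul_le_mul_of_nonneg_right (ex_le (by linarith)) h3
  -- equidistribution on the pattern cell
  obtain ⟨𝔥, g1, g2, g3⟩ := hLt σ P m1 hokP (SF t × κ) (pw A (SF t)) (pw A (SF t)) _ _ PJ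
    (fun _ => 1) hgr.grOf hcard hgood hchr
    (fun α k hk => by
      by_contra h0
      exact hk.ne' (hPJ k h0))
    (chp_one P (by linarith)) hcor
  rw [show symW P.lev (pw A (SF t)) (pw A (SF t)) PJ = PJ from
    pts_ext fun k => weightedHomogeneousComponent_eq_self (hPJ k)] at g3
  -- the algebra
  have hm2 : m ≤ m2 := a1.trans h12
  have ht2 : (t : ℝ) + 1 ≤ m2 := a5.trans h12
  obtain ⟨𝔟, s1, s2⟩ := hAlg m2 h22 ι σ κ (SF t) A hd η (Cs.ofCell T) (Cs.ofCell P) x _ _ _ _ _ _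
    (fun j => pv (bsV j)) (fun j => pv (tpV j)) r 𝔥.toSubmodule
    ⟨⟨hB.good.wt_le, hB.dim.trans hm2, fun i j k => (hB.good.c_le i j k).trans (ex_le hm2)⟩,
      hB.bigr.gr⟩ hB.bigr
    (by
      rw [card_SF]
      push_cast
      nlinarith)
    hB.chr.supp hB.top hB.bih
    (hTan ι T _ (hok.mono (by omega) (hm2.trans h23) f5 (by positivity)))
    (fun j => ⟨(abs_l1 _).trans ht2, (abs_l2 _).trans (by linarith), (abs_l1 _).trans ht2,
      (abs_l2 _).trans (by linarith)⟩)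
    (by exact_mod_cast t.factorial_ne_zero) (hKid t)
    (mor_mono hMor (by nlinarith [Real.add_one_le_exp m2]))
    (fun j v => ⟨(hjet _ v).1, (hjet _ v).2, (hjet _ v).1, (hjet _ v).2⟩)
    ⟨g1, fun _ hx _ hy => 𝔥.lie_mem hx hy⟩ g2 g3
  exact ⟨κ, inferInstance, A, hd, η, x, F, φ, b, H, hB.mono f1, hdv, 𝔟, symSub_mono s1 f4,
    nearM_mono s2 f4⟩

end Crest.Agent.T49.Sy
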