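import Crest.Agent.T49.RiSymDef_29
import Crest.Agent.T49.GiStep6_65
import Crest.Agent.T49.RiHerA_85
import Crest.Agent.T49.RiMs_54
import Crest.Agent.T49.RiMp_98

/-!
# Row 49 (helper14): `KID` (sign identities of the pattern), `RESC` (divisible frequency),
`TAN` (no short integer form on the tangent structure)
-/

set_option autoImplicit false

noncomputable section

namespace Crest.Agent.T49.Sy

open Finset MvPolynomial
open Crest.Agent.T49.Tw Crest.Agent.T49.Nil Crest.Agent.T49.Nil.ND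
open Crest.Agent.T49.GI (dil Graded)
open Crest.Agent.T49.Ri
open Crest.Agent.T49.Box (SF sgnF sw)
open Crest.Agent.T49.Br (Cs)

namespace K14

theorem sum_sw : ∀ (n : ℕ) (p : ℤ → ℤ) (x : ℤ),
    ∑ u : Fin n → Bool, ((sw u : ℤˣ) : ℤ) * p (x + Hk.wt u) = ((fwdDiff (1 : ℤ))^[n] p) x
  | 0, p, x => by simp [sw, Hk.wt]
  | n + 1, p, x => by
    rw [Function.iterate_succ_apply, ← sum_sw n, ← (Fin.consEquiv fun _ => Bool).sum_comp,
      Fintype.sum_prod_type, Fintype.sum_bool, ← sum_add_distrib]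
    refine sum_congr rfl fun u _ => ?_
    simp only [Fin.consEquiv, Equiv.coe_fn_mk, sw, Hk.wt, Fin.prod_univ_succ, Fin.sum_univ_succ,
      Fin.cons_zero, Fin.cons_succ, fwdDiff, Box.sb]
    simp only [Bool.not_true, Bool.false_eq_true, if_false, one_mul, if_true, Bool.not_false,
      Units.val_mul, Units.val_neg, Units.val_one, Bool.toNat_true, Bool.toNat_false, zero_add,
      Nat.cast_add, Nat.cast_one]
    rw [show x + (1 + ((∑ i, (u i).toNat : ℕ) : ℤ)) = x + ((∑ i, (u i).toNat : ℕ) : ℤ) + 1 by ring]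
    ring

/-- the `t`-th difference of `W ^ b * (W + r) ^ n` at `0` -/
def lam (t : ℕ) (r : ℤ) (b n : ℕ) : ℤ :=
  ∑ u : Fin t → Bool, ((sw u : ℤˣ) : ℤ) * ((Hk.wt u : ℤ) ^ b * ((Hk.wt u : ℤ) + r) ^ n)

theorem lam_zero (t : ℕ) (r : ℤ) (b : ℕ) :
    lam t r b 0 = ((fwdDiff (1 : ℤ))^[t] fun x : ℤ => x ^ b) 0 := by
  rw [← sum_sw]
  simp [lam]

theorem lam_succ (t : ℕ) (r : ℤ) (b n : ℕ) :
    lam t r b (n + 1) = lam t r (b + 1) n + r * lam t r b n := by
  simp only [lam, mul_sum, ← sum_add_distrib]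
  exact sum_congr rfl fun u _ => by ring

theorem lam_lt (t : ℕ) (r : ℤ) : ∀ n b, b + n < t → lam t r b n = 0
  | 0, b, h => by rw [lam_zero, fwdDiff_iter_pow_eq_zero_of_lt (by omega)]; rfl
  | n + 1, b, h => by
    rw [lam_succ, lam_lt t r n _ (by omega), lam_lt t r n _ (by omega)]; simp

theorem lam_eq (t : ℕ) (r : ℤ) : ∀ n b, b + n = t → lam t r b n = t.factorial
  | 0, b, h => by
    obtain rfl : b = t := h
    rw [lam_zero, fwdDiff_iter_eq_factorial]; rfl
  | n + 1, b, h => by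
    rw [lam_succ, lam_eq t r n _ (by omega), lam_lt t r n _ (by omega)]; simp

theorem lam_gt (t : ℕ) (r : ℤ) : ∀ n b, b + n = t + 1 →
    lam t r b n = lam t 0 (t + 1) 0 + n * r * t.factorial
  | 0, b, h => by
    obtain rfl : b = t + 1 := h
    simp [lam]
  | n + 1, b, h => by
    rw [lam_succ, lam_gt t r n _ (by omega), lam_eq t r n _ (by omega)]; push_cast; ring

theorem nChar_dil {κ : Type} [Fintype κ] {A : ND κ} {S R : ℕ} {M : ℝ} {η : κ → ℤ} {F : A.L → ℂ}
    (hS : ∀ k, A.wt k ≤ S) (hgr : Graded A) (hM : 0 ≤ M) (hF : A.NChar S S M η F) (hR : 1 ≤ R) :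
    A.NChar S S (M * (R : ℝ) ^ S) (fun k => (R : ℤ) ^ S * η k) fun z => F (dil A R z) := by
  have hR1 : (1 : ℝ) ≤ R := by exact_mod_cast hR
  refine ⟨⟨fun z => hF.bdd _, fun z u hu => ?_, fun Z z => ?_⟩, fun k hk => ?_, fun k => ?_,
    fun Z hZ z => ?_⟩
  · rw [GI.S6.dil_star hgr]
    refine hF.per _ _ fun k => ?_
    obtain ⟨n, hn⟩ := hu k
    exact ⟨(R : ℤ) ^ A.wt k * n, by rw [dil, hn]; push_cast; ring⟩
  · rw [GI.S6.dil_star hgr, mul_assoc]
    exact (hF.lip _ _).trans (mul_le_mul_of_nonneg_left (GI.S6.norm_dil_le hS hR1 Z) hM)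
  · simp [hF.supp k hk]
  · push_cast
    rw [abs_mul, abs_of_nonneg (by positivity), mul_comm]
    exact mul_le_mul_of_nonneg_right (hF.η_le k) (by positivity)
  · have hZ' : dil A R Z ∈ A.F S := fun k hk => by rw [dil, hZ k hk, mul_zero]
    rw [GI.S6.dil_star hgr, hF.vert _ hZ', GI.S6.fn_dil hF.supp]

/-- `ND` descends along an injective renaming with a change of scales -/
theorem nd_of_scale {σ τ : Type} {c : Cs σ} {c' : Cs τ} {F : σ → τ} (hF : Function.Injective F)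
    (hl : ∀ v, c'.lev (F v) = c.lev v) (s : σ → ℝ) (hs : ∀ v, s v ≠ 0) {K Q : ℝ} (hK : 1 ≤ K)
    (hsK : ∀ v, |s v| ≤ K) (hth : ∀ v, rename F (c.th v) = C (s v) * c'.th (F v)) {S : ℕ}
    (hQ : 0 ≤ Q) (h : c'.ND S (Q * K ^ S)) : c.ND S Q := by
  intro d h1 h2 e he hn hi
  have e1 : ∀ {υ : Type} (r : σ → Pl τ) (r' : τ → Pl υ),
      aeval r' (aeval r e) = aeval (fun v => aeval r' (r v)) e := fun r r' => by
    rw [← AlgHom.comp_apply, comp_aeval]
  have h3 := h d h1 h2 (aeval (fun v => (C (s v) * X (F v) : Pl τ)) e)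
    (hom_bind' (fun v => hom_C_mul (hl v ▸ isWeightedHomogeneous_X ℝ c'.lev (F v)) _) he)
    ((nrm_bind_le_of_pos c.pos (fun v => by rw [nrm_C_mul, nrm_X, mul_one]; exact hsK v) hK
      (DegLe.of_hom he)).trans (mul_le_mul hn (pow_le_pow_right₀ hK h2) (by positivity) hQ)) (by
      have e2 : rename F (aeval c.th e) = aeval (fun v => rename F (c.th v)) e := by
        rw [← AlgHom.comp_apply, comp_aeval]
      rw [e1]
      simp only [map_mul, aeval_C, aeval_X, algebraMap_eq, ← hth]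
      rw [← e2]
      exact hi.rename F)
  classical
  have h4 := congrArg (aeval fun w : τ =>
    (if hw : ∃ v, F v = w then C (s hw.choose)⁻¹ * X hw.choose else 0 : Pl σ)) h3
  rw [e1, map_zero] at h4
  refine Eq.trans ?_ h4
  refine (aeval_X_left_apply e).symm.trans (congrArg (fun r => aeval r e) (funext fun v => ?_))
  have hw : ∃ v', F v' = F v := ⟨v, rfl⟩
  rw [map_mul, aeval_C, aeval_X, dif_pos hw, hF hw.choose_spec, algebraMap_eq, ← mul_assoc,
    ← map_mul, mul_inv_cancel₀ (hs v), C_1, one_mul]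

end K14

open K14

/-- **KID** -/
theorem kidStmt : KidStmt := by
  intro t
  refine ⟨fun l h1 h2 => ?_, fun l h1 h2 => ?_⟩
  · have e1 := lam_gt t (-1) l (t + 2 - l - 1) (by omega)
    have e2 := lam_gt t 0 l (t + 2 - l - 1) (by omega)
    have e : ∑ j : SF t, ((sgnF j : ℤˣ) : ℤ) * (l1 (bsV j) ^ (t + 2 - l - 1) * l2 (bsV j) *
        (l1 (tpV j) ^ l - l1 (bsV j) ^ l)) =
        lam t 0 (t + 2 - l - 1) l - lam t (-1) (t + 2 - l - 1) l := by
      simp only [Fintype.sum_prod_type, Fintype.sum_bool, lam, ← sum_add_distrib,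
        ← sum_sub_distrib]
      refine sum_congr rfl fun u _ => ?_
      simp [sgnF, Box.sb, l1, l2, bsV, tpV]
      ring
    rw [e, e1, e2]
    ring
  · have e1 := lam_gt t 1 (t + 2 - l) (l - 1) (by omega)
    have e2 := lam_gt t 0 (t + 2 - l) (l - 1) (by omega)
    have e : ∑ j : SF t, ((sgnF j : ℤˣ) : ℤ) * (l1 (bsV j) ^ (t + 2 - l) *
        (l1 (tpV j) ^ (l - 1) * l2 (tpV j) - l1 (bsV j) ^ (l - 1) * l2 (bsV j))) =
        lam t 0 (l - 1) (t + 2 - l) - lam t 1 (l - 1) (t + 2 - l) := by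
      simp only [Fintype.sum_prod_type, Fintype.sum_bool, lam, ← sum_add_distrib,
        ← sum_sub_distrib]
      refine sum_congr rfl fun u _ => ?_
      simp [sgnF, Box.sb, l1, l2, bsV, tpV]
      ring
    rw [e, e1, e2, Nat.cast_sub h2]
    push_cast
    ring

/-- **RESC** -/
theorem rescStmt : RescStmt := by
  intro l t
  obtain ⟨a, ha⟩ : ∃ C : ℕ, ∀ m : ℝ, 2 ≤ m →
      Real.exp m * ((t + 2 : ℕ) : ℝ) ^ (t + 2) ≤ Real.exp (m ^ C) := by qp
  refine ⟨0, a + 1, by omega, fun ι _ T m f hT _ ⟨κ, _, A, hd, η, x, F, φ, b, H, h⟩ => ?_⟩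
  have hm := hT.two
  have h' := h.mono (show m ≤ m ^ (a + 1) from le_self_pow₀ (by linarith) (by omega))
  refine ⟨κ, _, A, hd, fun k => ((t + 2 : ℕ) : ℤ) ^ (t + 2) * η k,
    fun k => C ((((t + 2 : ℕ) : ℝ) ^ A.wt k)⁻¹) * x k, fun z => F (dil A (t + 2 : ℕ) z), φ, b, H,
    ⟨h'.dim, h'.good, h.bigr, (nChar_dil h.good.wt_le h.bigr.gr (Real.exp_pos _).le h.chr
      (by omega)).mono ((ha m hm).trans (Qp.exp_pw_mono hm (Nat.le_succ a))),
      fun k hk => by rw [h.top k hk, mul_zero],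
      fun k => ⟨hom_C_mul (h.bih k).1 _, hom_C_mul (h.bih k).2 _⟩, h'.dense, h'.chp, h'.bdd,
      fun y hy => (h'.cor y hy).imp fun ψ hψ => ⟨hψ.1, hψ.2.congr fun p => ?_⟩⟩, fun k => ?_⟩
  · push_cast
    exact (dvd_pow_self _ (by omega)).mul_right _
  · congr 2
    refine congrArg F (pts_ext fun k => ?_)
    show _ ^ A.wt k * aeval _ (C _ * x k) = aeval _ (x k)
    rw [map_mul, aeval_C, ← mul_assoc]
    exact (congrArg (· * _) (mul_inv_cancel₀ (by positivity))).trans (one_mul _)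

/-- **TAN** -/
theorem tanStmt : TanStmt := by
  intro l S
  obtain ⟨D, C₁, hC, hN⟩ := ndStmt l S
  obtain ⟨a, ha⟩ : ∃ C : ℕ, ∀ m : ℝ, 2 ≤ m → 2 * m ≤ m ^ C ∧
      Real.exp m * (2 : ℝ) ^ S ≤ Real.exp (m ^ C) := by qp
  obtain ⟨b, hb⟩ : ∃ C : ℕ, ∀ m : ℝ, 2 ≤ m →
      (m ^ a) ^ C₁ + 2 * (((1 + l + 2) ^ 2 : ℕ) : ℝ) ≤ m ^ C := by qp
  refine ⟨2 * D + 2, b + 1, by omega, fun ι _ T m hT => ?_⟩
  have hm := hT.two
  obtain ⟨a1, a2⟩ := ha m hm
  have hb := (hb m hm).trans (Qp.pw_mono hm (Nat.le_succ b))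
  generalize m ^ a = M at a1 a2 hb
  have hM : 2 ≤ M := by linarith
  have h1 := hN _ (Hr85.tg 1 T) M ⟨hM, by
    rw [Fintype.card_sum, Fintype.card_prod, Fintype.card_fin]
    push_cast
    linarith [hT.card], hT.gm.pc (Hr85.tg_pc 1 T (mpStmt ι T 1) hT.lev_le) le_rfl
      (hM.trans (le_self_pow₀ (by linarith) (by omega))) hb⟩
  have h2 : (1 : ℝ) ≤ √2 := Real.one_le_sqrt.2 one_le_two
  have h3 : √2 ≤ (2 : ℝ) := Real.sqrt_le_iff.2 ⟨zero_le_two, by norm_num⟩
  refine nd_of_scale (F := Sum.map id fun c => ((0 : Fin 1), c))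
    (Function.Injective.sumMap Function.injective_id (Prod.mk_right_injective _))
    (by rintro (c | c) <;> rfl) (Sum.elim (fun _ => (√2)⁻¹) fun _ => √2)
    (by rintro (c | c) <;> simp) one_le_two ?_ ?_ (Real.exp_pos _).le
    fun d d1 d2 e he hn => h1 d d1 d2 e he (hn.trans a2)
  · rintro (c | c)
    · rw [Sum.elim_inl, abs_of_nonneg (by positivity)]
      exact (inv_le_one_of_one_le₀ h2).trans one_le_two
    · rw [Sum.elim_inr, abs_of_nonneg (by positivity)]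
      exact h3
  · rintro (c | c)
    · show rename _ (rename Sum.inl (T.tth c)) = C (√2)⁻¹ * (Hr85.tg 1 T).tth (Sum.inl c)
      rw [Hr85.tg_tth, Hr85.tg_th_inl, rename_rename, ← mul_assoc, ← map_mul, Nat.cast_one,
        one_add_one_eq_two, inv_mul_cancel₀ (by positivity), C_1, one_mul]
      rfl
    · show rename _ (dirD (T.tth c)) = C √2 * (Hr85.tg 1 T).tth (Sum.inr (0, c))
      rw [Hr85.tg_tth, Hr85.tg_th_inr, Fin.sum_univ_one, Fin.succ_zero_eq_one, Mp.helm_one_one_one,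
        ← mul_assoc, ← map_mul, mul_inv_cancel₀ (by positivity), C_1, one_mul, dirD, Hr85.dw,
        map_sum]
      refine sum_congr rfl fun c' _ => ?_
      rw [map_mul, rename_rename, rename_X]
      rfl

end Crest.Agent.T49.Sy
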