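import Crest.Agent.T49.RiAll_62
import Crest.Agent.T49.SyAlg_29
import Crest.Agent.T49.SyChain_67
import Crest.Agent.T49.SyCheap_31
import Crest.Agent.T49.SyCp_84
import Crest.Agent.T49.SyInt_53
import Crest.Agent.T49.SyJet_3
import Crest.Agent.T49.SyLiftF_40
import Crest.Agent.T49.SyMatch_29
import Crest.Agent.T49.SyPat_3
import Crest.Agent.T49.SySym_52
import Crest.Agent.T49.SyTan_14

/-!
# Row 49 (helper62): the relative inverse theorem, unconditional
-/

set_option autoImplicit false

namespace Crest.Agent.T49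

open Ri in
theorem Sy.blockStmt62 : BlockStmt :=
  Sy.block_of Sy.rescStmt
    (Sy.symStep_of (Sy.box_of67 mpStmt A62.her A62.der A62.zm) Sy.patStmt Sy.kidStmt Sy.tanStmt
      (Sy.alg_of Sy.jetStmt Sy.matchStmt) ltStmt)
    (Sy.int_of Sy.liftStmt Sy.cpFStmt (Sy.cheapStmt msStmt) mpStmt A62.her A62.fibC A62.split)

/-- the inverse theorem relative to a regular cell -/
theorem Ri.ri_all62 (l t : ℕ) : Ri.RI l (t + 1) := Ri.A62.ri_of_block Sy.blockStmt62 l t

end Crest.Agent.T49
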