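import Crest.Agent.T49.RiSymDef_29
import Crest.Agent.T49.RiDU_67
import Crest.Agent.T49.RiSplit_31

/-!
# Row 49 (helper58): `BoxStmt` from `ChainStmt`
-/

set_option autoImplicit false

noncomputable section

namespace Crest.Agent.T49.Sy

open Finset
open Crest.Agent.T49.Tw Crest.Agent.T49.Hk Crest.Agent.T49.Ri Crest.Agent.T49.Ri.D67

namespace B58

variable {ι : Type} [Fintype ι] {T : Cell ι}

theorem UK_pair2 (hM : MpAt T 1) (s : ℕ) (f b : (ι → ℤ) → ℂ) (M : (ι → ℤ) → (ι → ℤ) → ℂ)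
    (h : T.L1 → ℤ) :
    (UK (lvl (T.mlev (Fin 1))) s fun p => T.wgt (y1 T h p) * f (y1 T h p) *
      (T.wgt (y0 T p) * b (y0 T p)) * M (y0 T p) (y1 T h p)) = g1 T h ^ 2 ^ s *
      UK (lvl (T.mlev (Fin 1))) s fun p => (pc T h).wgt p *
        (f (y1 T h p) * b (y0 T p) * M (y0 T p) (y1 T h p)) := by
  have := UK_smul (F := lvl (T.mlev (Fin 1))) s (g1 T h : ℂ)
    fun p => (pc T h).wgt p * (f (y1 T h p) * b (y0 T p) * M (y0 T p) (y1 T h p))
  rw [Complex.norm_real, Real.norm_of_nonneg (g1_pos h).le] at this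
  rw [← this]
  congr 1
  funext p
  rw [← mul_assoc (g1 T h : ℂ), ← Complex.ofReal_mul, ← wgt_pair hM]
  push_cast
  ring

theorem Zm_le {s : ℕ} {m : ℝ} (hm : 0 ≤ m)
    (h : |Zm (lvl T.lev) s T.wgt / muK T s - 1| ≤ Real.exp (-m)) :
    Zm (lvl T.lev) s T.wgt ≤ 2 * muK T s :=
  (le_of_ratio (muK_pos T _) h).trans (mul_le_mul_of_nonneg_right
    (by linarith [Real.exp_le_one_iff.2 (show -m ≤ 0 by linarith)]) (muK_pos T _).le)

end B58

open B58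

theorem box_of (hChain : ChainStmt) (hMp : MpStmt) (hHer : HerStmt) (hDer : DerStmt)
    (hZ : ZmStmt) : BoxStmt := fun l t => by
  obtain ⟨D₁, C₁, hC₁, hZ₁⟩ := hZ l (t + 1)
  obtain ⟨D₂, C₂, hC₂, hZ₂⟩ := hZ l (t + 2)
  obtain ⟨D₃, C₃, hC₃, hDer⟩ := hDer l t
  obtain ⟨D₄, C₄, hC₄, hreg⟩ := S31.reg_sub hHer l D₃ 2 C₃ le_rfl hC₃
  obtain ⟨C₅, h₅⟩ : ∃ C : ℕ, ∀ m n : ℝ, 2 ≤ m → 0 ≤ n → n ≤ m → Real.exp (-m ^ C) ≤
      (Real.exp (-m) / 2 * (Real.exp (-(Real.pi * n * (1 : ℕ) * m ^ 2)) ^ 2 ^ (t + 1) *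
        Real.exp (-(m ^ 2) ^ C₃))) ^ 4 / 8 := by
    qp
  refine ⟨D₁ + D₂ + D₄, C₁ + C₂ + C₄ + C₅, by omega,
    fun ι _ T m hO f b M H hf hb hM hH hcor => ?_⟩
  have hm := hO.two
  have hP := hMp ι T 1
  have hz₁ := Zm_le (by linarith) (hZ₁ ι T m (hO.mono (by omega) le_rfl
    (Qp.pw_mono hm (by omega)) (by positivity)))
  have hz₂ := Zm_le (by linarith) (hZ₂ ι T m (hO.mono (by omega) le_rfl
    (Qp.pw_mono hm (by omega)) (by positivity)))
  obtain ⟨H₁, hH₁, hc, hok⟩ := hreg ι T m (hO.mono (by omega) le_rfl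
    (Qp.pw_mono hm (by omega)) (by positivity)) H hH
  have hm2 : m ≤ m ^ 2 := le_self_pow₀ (by linarith) (by omega)
  have hU : ∀ h ∈ H₁, BigU t ((m ^ 2) ^ C₃) (pc T h)
      fun p => f (y1 T h p) * b (y0 T p) * M (y0 T p) (y1 T h p) := fun h hh => by
    obtain ⟨ψ, h1, h2⟩ := hcor h (hH₁ hh)
    refine hDer _ (pc T h) _ _ (hok h hh) (fun p => ?_)
      ⟨ψ, S31.isNilW_mono h1 hm2, S31.cor_mono h2 hm2⟩
    rw [norm_mul, norm_mul]
    exact mul_le_one₀ (mul_le_one₀ (hf _) (norm_nonneg _) (hb _)) (norm_nonneg _) (hM _ _)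
  have h1 := hChain _ _ _ (lvl T.lev) (lvl (T.mlev (Fin 1))) (xH T) (yH T) T.ext1 t T.wgt
    (fun z => T.wgt z * f z) (fun z => T.wgt z * b z) M H₁ lvl_anti (pair T) T.summable_wgt
    (norm_wgt_mul_le T hf) (norm_wgt_mul_le T hb) hM
  simp only [yH_add, xH_apply, UK_pair2 hP] at h1
  set g := Real.exp (-(Real.pi * Fintype.card ι * (1 : ℕ) * m ^ 2)) ^ 2 ^ (t + 1) with hg
  set x := (m ^ 2) ^ C₃ with hx
  have k1 := muK_pos T (t + 1)
  have k2 := muK_pos T (t + 2)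
  have k0 := muK_pos (pc T 0) (t + 1)
  have h4 : Real.exp (-m) / 2 * (g * Real.exp (-x)) * muK T (t + 2) ≤ ∑ h ∈ H₁,
      g1 T h ^ 2 ^ (t + 1) * UK (lvl (T.mlev (Fin 1))) (t + 1) fun p => (pc T h).wgt p *
        (f (y1 T h p) * b (y0 T p) * M (y0 T p) (y1 T h p)) := by
    refine le_trans ?_ (card_nsmul_le_sum H₁ _ (g * (Real.exp (-x) * muK (pc T 0) (t + 1)))
      fun h hh => mul_le_mul
        (pow_le_pow_left₀ (by positivity) (hP.gam_ge _ m fun _ => hH.1 h (hH₁ hh)) _)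
        (by simpa only [BigU, muK_pc, pc_lev] using hU h hh) (by positivity)
        (pow_nonneg (g1_pos h).le _))
    rw [nsmul_eq_mul, muK_succ 0]
    have h5 : Real.exp (-m) * muG T t ≤ 2 * #H₁ :=
      ((mul_le_mul_of_nonneg_left (muG_le T t) (by positivity)).trans hH.2).trans hc
    calc _ = Real.exp (-m) * muG T t / 2 * (g * (Real.exp (-x) * muK (pc T 0) (t + 1))) := by ring
      _ ≤ _ := mul_le_mul_of_nonneg_right (by linarith) (by positivity)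
  have h5 := (pow_le_pow_left₀ (by positivity) h4 4).trans (h1.trans
    (mul_le_mul_of_nonneg_right (mul_le_mul (pow_le_pow_left₀ (Zm_nonneg T.wgt_nonneg) hz₁ 2) hz₂
      (Zm_nonneg T.wgt_nonneg) (by positivity)) (norm_nonneg _)))
  have h6 := (Qp.exp_neg_pw_mono hm (show C₅ ≤ C₁ + C₂ + C₄ + C₅ by omega)).trans
    (h₅ m _ hm (Nat.cast_nonneg _) hO.card)
  refine (mul_le_mul_of_nonneg_right h6 (by unfold muP; positivity)).trans
    (le_of_mul_le_mul_left ?_ (show 0 < (2 * muK T (t + 1)) ^ 2 * (2 * muK T (t + 2)) by positivity))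
  refine le_of_eq_of_le ?_ h5
  rw [← hg, ← hx, muP]
  field_simp
  ring

end Crest.Agent.T49.Sy
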