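import Crest.Agent.T49.RiSymDef_29

/-!
# Row 49 (helper52): the identities `KidStmt` of the symmetry step
-/

set_option autoImplicit false

noncomputable section

namespace Crest.Agent.T49.Sy

open Finset
open Crest.Agent.T49.Box (cz SF sgnF sb sw)

namespace K52

theorem sum_sw : ∀ (t : ℕ) (f : ℤ → ℤ),
    ∑ w : Fin t → Bool, ((sw w : ℤˣ) : ℤ) * f (Hk.wt w) = (fwdDiff (1 : ℤ))^[t] f 0
  | 0, f => by simp [sw, Hk.wt]
  | t + 1, f => by
    rw [Function.iterate_succ_apply, ← sum_sw t, ← (Fin.consEquiv fun _ => Bool).sum_comp,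
      Fintype.sum_prod_type, Fintype.sum_bool, ← sum_add_distrib]
    refine sum_congr rfl fun w _ => ?_
    simp only [Fin.consEquiv_apply, sw, Hk.wt, Fin.prod_univ_succ, Fin.sum_univ_succ,
      Fin.cons_zero, Fin.cons_succ, sb, fwdDiff]
    simp only [Bool.not_true, Bool.not_false, Bool.false_eq_true, if_false, if_true, one_mul,
      Bool.toNat_true, Bool.toNat_false, zero_add, neg_mul, Units.val_neg, Nat.cast_add,
      Nat.cast_one]
    rw [add_comm (1 : ℤ)]
    ring

open Polynomial in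
theorem sum_poly (t : ℕ) (P : ℤ[X]) (h : P.natDegree ≤ t + 1) (h0 : P.coeff (t + 1) = 0) :
    ∑ w : Fin t → Bool, ((sw w : ℤˣ) : ℤ) * P.eval (Hk.wt w : ℤ) = P.coeff t * t.factorial := by
  rw [sum_sw t fun x => P.eval x]
  have e : (fun x : ℤ => P.eval x) =
      (fun x : ℤ => ∑ k ∈ range t, P.coeff k * x ^ k) + P.coeff t • fun x : ℤ => x ^ t := by
    funext x
    rw [eval_eq_sum_range' (Nat.lt_succ_of_le h), sum_range_succ, sum_range_succ, h0]
    simp
  rw [e, fwdDiff_iter_add, fwdDiff_iter_sum_mul_pow_eq_zero, fwdDiff_iter_const_smul,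
    fwdDiff_iter_eq_factorial]
  simp

open Polynomial in
/-- `X ^ a * (X + c) ^ n - X ^ (t + 1)` with `a + n = t + 1` -/
theorem sum_pow (t a n : ℕ) (c : ℤ) (h : a + n = t + 1) :
    ∑ w : Fin t → Bool, ((sw w : ℤˣ) : ℤ) *
      ((Hk.wt w : ℤ) ^ a * ((Hk.wt w : ℤ) + c) ^ n - (Hk.wt w : ℤ) ^ (t + 1)) =
      n * c * t.factorial := by
  have hm : (X ^ a * (X + C c) ^ n : ℤ[X]).Monic := (monic_X_pow a).mul ((monic_X_add_C c).pow n)
  have hd : (X ^ a * (X + C c) ^ n : ℤ[X]).natDegree = t + 1 := by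
    rw [(monic_X_pow a).natDegree_mul ((monic_X_add_C c).pow n), natDegree_X_pow,
      (monic_X_add_C c).natDegree_pow, natDegree_X_add_C, mul_one, h]
  have := sum_poly t (X ^ a * (X + C c) ^ n - X ^ (t + 1))
    ((natDegree_sub_le _ _).trans (by rw [hd, natDegree_X_pow, max_self]))
    (by rw [coeff_sub, coeff_X_pow_self, ← hd, hm.coeff_natDegree, sub_self])
  simp only [eval_sub, eval_mul, eval_pow, eval_X, eval_add, eval_C] at this
  rw [this, coeff_sub, coeff_X_pow, if_neg (by omega), sub_zero]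
  congr 1
  rcases n with _ | n
  · simp only [pow_zero, mul_one, coeff_X_pow]
    rw [if_neg (by omega)]
    simp
  · have e : t = n + a := by omega
    rw [e, coeff_X_pow_mul, coeff_X_add_C_pow]
    simp [mul_comm]

end K52

theorem kidStmt52 : KidStmt := by
  intro t
  refine ⟨fun l h1 h2 => ?_, fun l h1 h2 => ?_⟩
  · have := K52.sum_pow t (t + 2 - l - 1) l (-1) (by omega)
    rw [show (l : ℤ) * t.factorial = -(l * (-1) * t.factorial) by ring, ← this, ← sum_neg_distrib]
    simp only [Fintype.sum_prod_type, Fintype.sum_bool, ← sum_add_distrib]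
    refine sum_congr rfl fun w _ => ?_
    have e : (Hk.wt w : ℤ) ^ (t + 1) = (Hk.wt w : ℤ) ^ (t + 2 - l - 1) * (Hk.wt w : ℤ) ^ l := by
      rw [← pow_add]; congr 1; omega
    rw [e]
    simp only [sgnF, sb, l1, l2, bsV, tpV]
    simp
    ring
  · have := K52.sum_pow t (l - 1) (t + 2 - l) 1 (by omega)
    have e0 : ((l : ℤ) - (t + 2 : ℕ)) * t.factorial =
        -(((t + 2 - l : ℕ) : ℤ) * 1 * t.factorial) := by
      rw [Nat.cast_sub h2]; ring
    rw [e0, ← this, ← sum_neg_distrib]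
    simp only [Fintype.sum_prod_type, Fintype.sum_bool, ← sum_add_distrib]
    refine sum_congr rfl fun w _ => ?_
    have e : (Hk.wt w : ℤ) ^ (t + 1) = (Hk.wt w : ℤ) ^ (t + 2 - l) * (Hk.wt w : ℤ) ^ (l - 1) := by
      rw [← pow_add]; congr 1; omega
    rw [e]
    simp only [sgnF, sb, l1, l2, bsV, tpV]
    simp
    ring

end Crest.Agent.T49.Sy
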