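import Crest.Agent.T49.SyLiftDef_40
import Crest.Agent.T49.RiMpB_98
import Crest.Agent.T49.BrClos_14

/-!
# Row 49 (helper40): symbols for `LiftStmt`
-/

set_option autoImplicit false
set_option linter.unusedSectionVars false

noncomputable section

namespace Crest.Agent.T49.Sy.L40

open Finset MvPolynomial
open Crest.Agent.T49.Tw Crest.Agent.T49.Tw.R12 Crest.Agent.T49.Nil Crest.Agent.T49.Nil.ND
open Crest.Agent.T49.Bch (star)
open Crest.Agent.T49.Gf (wcf lie_mem_wcf)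
open Crest.Agent.T49.GI (pw pr tup pd pair fst snd Bigr Graded)
open Crest.Agent.T49.Br (Cs Uo)
open Crest.Agent.T49.Ri

variable {κ σ ι : Type} [Fintype κ] {A : ND κ} {hd : κ → Bool} {lev : σ → ℕ}

theorem pr_cv3 (a : Fin 3) (α : σ →₀ ℕ) (P : (N3 A).PS σ) :
    pr A ℝ a ((N3 A).cv α P) = A.cv α (pr A _ a P) := rfl

/-- admissible symbols -/
def Gw (A : ND κ) (hd : κ → Bool) (lev : σ → ℕ) : Submodule ℝ ((G2 A).PS σ) :=
  wcf lev fun j => D2 A j ⊓ mS A hd

/-- lower order terms -/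
def V1 (A : ND κ) (hd : κ → Bool) (lev : σ → ℕ) : Submodule ℝ ((N3 A).PS σ) :=
  wcf lev fun j => V0 A hd (j + 1)

theorem lie_Gw (hb : Bigr A hd) (x : (G2 A).PS σ) (hx : x ∈ Gw A hd lev) (y : (G2 A).PS σ)
    (hy : y ∈ Gw A hd lev) : ⁅x, y⁆ ∈ Gw A hd lev :=
  lie_mem_wcf (W := fun j => D2 A j ⊓ mS A hd) (W' := fun j => D2 A j ⊓ mS A hd)
    (W'' := fun j => D2 A j ⊓ mS A hd)
    (fun i j a ha b hb' => ⟨lie_D2 hb.1 i j a ha.1 b hb'.1, lie_mS hb a ha.2 b hb'.2⟩) hx hy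

theorem lam_mem {w : (G2 A).PS σ} (hw : w ∈ Gw A hd lev) : lam A _ w ∈ wcf lev (V0 A hd) :=
  fun α => by rw [cv_lam]; exact lam_mem_V0 (hw α).1 (hw α).2

theorem lam_lie_mem {w w' : (G2 A).PS σ} (hw : w ∈ Gw A hd lev) (hw' : w' ∈ Gw A hd lev) :
    ⁅lam A _ w, lam A _ w'⁆ - lam A _ ⁅w, w'⁆ ∈ V1 A hd lev := by
  classical
  intro α
  rw [map_sub, cv_lam, cv_lie, cv_lie, map_sum, ← sum_sub_distrib]
  refine Submodule.sum_mem _ fun p hp => ?_
  rw [cv_lam, cv_lam, ← mem_antidiagonal.1 hp, map_add]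
  exact lam_lie (hw _).1 (hw' _).1

/-- `w` is a symbol of `P` -/
def Sym (A : ND κ) (hd : κ → Bool) (lev : σ → ℕ) (P : (N3 A).PS σ) (w : (G2 A).PS σ) : Prop :=
  w ∈ Gw A hd lev ∧ P - lam A _ w ∈ V1 A hd lev

theorem Sym.lie (hb : Bigr A hd) {P Q : (N3 A).PS σ} {v w : (G2 A).PS σ}
    (h : Sym A hd lev P v) (h' : Sym A hd lev Q w) : Sym A hd lev ⁅P, Q⁆ ⁅v, w⁆ := by
  obtain ⟨h1, h2⟩ := h
  obtain ⟨g1, g2⟩ := h'
  refine ⟨lie_Gw hb _ h1 _ g1, ?_⟩
  have hQ : Q ∈ wcf lev (V0 A hd) := by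
    have := add_mem (Gf.wcf_mono (fun j => V0_anti j.le_succ) g2) (lam_mem g1)
    rwa [sub_add_cancel] at this
  have e : ⁅P, Q⁆ - lam A _ ⁅v, w⁆ = ⁅P - lam A _ v, Q⁆ + (⁅lam A _ v, Q - lam A _ w⁆ +
      (⁅lam A _ v, lam A _ w⁆ - lam A _ ⁅v, w⁆)) := by
    rw [sub_lie, lie_sub, sub_add_sub_cancel, sub_add_sub_cancel]
  rw [e]
  exact add_mem (lie_mem_wcf (W'' := fun j => V0 A hd (j + 1)) (fun i j a ha b hb' =>
      V0_anti (by omega) (lie_V0 hb (i + 1) j a ha b hb')) h2 hQ)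
    (add_mem (lie_mem_wcf (W'' := fun j => V0 A hd (j + 1))
      (fun i j a ha b hb' => lie_V0 hb i (j + 1) a ha b hb') (lam_mem h1) g2) (lam_lie_mem h1 g1))

/-- the pairs (map, symbol) -/
def SY (hb : Bigr A hd) (lev : σ → ℕ) : LieSubalgebra ℝ ((pd (N3 A) (G2 A)).PS σ) where
  carrier := {z | Sym A hd lev (fst _ _ _ z) (snd _ _ _ z)}
  add_mem' {x y} hx hy := ⟨by rw [map_add]; exact add_mem hx.1 hy.1, by
    rw [map_add, map_add, map_add, add_sub_add_comm]; exact add_mem hx.2 hy.2⟩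
  zero_mem' := ⟨by rw [map_zero]; exact zero_mem _, by
    rw [map_zero, map_zero, map_zero, sub_zero]; exact zero_mem _⟩
  smul_mem' r x hx := ⟨by rw [map_smul]; exact Submodule.smul_mem _ _ hx.1, by
    rw [map_smul, map_smul, map_smul, ← smul_sub]; exact Submodule.smul_mem _ _ hx.2⟩
  lie_mem' {x y} hx hy := by
    have := Sym.lie hb hx hy
    rwa [← LieHom.map_lie, ← LieHom.map_lie] at this

theorem Sym.star (hb : Bigr A hd) (S : ℕ) {P Q : (N3 A).PS σ} {v w : (G2 A).PS σ}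
    (h : Sym A hd lev P v) (h' : Sym A hd lev Q w) : Sym A hd lev (star S P Q) (star S v w) := by
  have := Bch.star_mem S (SY hb lev) (x := pair P v) (y := pair Q w) h h'
  rw [GI.star_pair] at this
  exact this

theorem Sym.neg {P : (N3 A).PS σ} {v : (G2 A).PS σ} (h : Sym A hd lev P v) :
    Sym A hd lev (-P) (-v) :=
  ⟨neg_mem h.1, by rw [map_neg, ← neg_sub']; exact neg_mem h.2⟩

theorem sym_lam {v w : (G2 A).PS σ} (hw : w ∈ Gw A hd lev)
    (h : ∀ p, DLt lev (v p - w p) (A.wt p.2.2 - p.1.toNat))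
    (h' : ∀ k, hd k = true → v (false, 1, k) - w (false, 1, k) = 0) :
    Sym A hd lev (lam A _ v) w := by
  refine ⟨hw, fun α => ?_⟩
  rw [← map_sub, cv_lam]
  refine lam_mem_V0 (fun p hp => ?_) fun k hk => ?_
  · by_contra h0
    have := h p α (mem_support_iff.2 h0)
    dsimp only at hp
    omega
  · change coeff α (v _ - w _) = 0
    rw [h' k hk, coeff_zero]

theorem Sym.mem {𝔟 : Submodule ℝ (G2 A).L} {P : (N3 A).PS σ} {w : (G2 A).PS σ}
    (h : Sym A hd lev P w) (hw : w ∈ Uo σ 𝔟) : P ∈ wcf lev (VB A hd 𝔟) := fun α => by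
  have e : (N3 A).cv α P = lam A ℝ ((G2 A).cv α w) + (N3 A).cv α (P - lam A _ w) := by
    rw [map_sub, cv_lam, add_sub_cancel]
  rw [e]
  exact add_mem (Submodule.mem_sup_left ⟨_, ⟨hw α, (h.1 α).1⟩, rfl⟩) (Submodule.mem_sup_right (h.2 α))

/-! ### bihomogeneous maps -/

/-- the weights in which the direction variables lose one -/
def lv' (v : ι → ℕ) : ι ⊕ ι → ℕ := Sum.elim v fun c => v c - 1

theorem degLe_of_biH {v : ι → ℕ} (hv : ∀ c, 0 < v c) {f : Pl (ι ⊕ ι)} {d e : ℕ}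
    (h1 : IsWeightedHomogeneous (Sum.elim v v) f d)
    (h2 : IsWeightedHomogeneous (Sum.elim (fun _ => 0) fun _ => 1) f e) : DegLe (lv' v) f (d - e) := by
  intro α hα
  have e1 := h1 (mem_support_iff.1 hα)
  have e2 := h2 (mem_support_iff.1 hα)
  have : Finsupp.weight (Sum.elim v v) α = Finsupp.weight (lv' v) α +
      Finsupp.weight (Sum.elim (fun _ => 0) fun _ => 1 : ι ⊕ ι → ℕ) α := by
    simp only [Finsupp.weight_apply, Finsupp.sum, ← sum_add_distrib, ← smul_add]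
    refine sum_congr rfl fun c _ => ?_
    congr 1
    cases c with
    | inl c => rfl
    | inr c => have := hv c; simp [lv']; omega
  omega

theorem uo_mS {τ : Type} {E : (G2 A).PS τ} (hE : E ∈ Uo τ (mS A hd)) (k : κ) (hk : hd k = true) :
    E (false, 1, k) = 0 := MvPolynomial.ext _ _ fun α => hE α k hk

theorem subst_mem_Gw {v : ι → ℕ} (hv : ∀ c, 0 < v c) {r : ι ⊕ ι → Pl σ}
    (hr : ∀ c, DegLe lev (r c) (lv' v c)) {E : (G2 A).PS (ι ⊕ ι)} (hE : BiH (G2 A) Prod.fst v E)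
    (hE' : E ∈ Uo _ (mS A hd)) : (G2 A).subst r E ∈ Gw A hd lev := fun α =>
  ⟨fun p hp => by
    by_contra h0
    have := DegLe.bind hr (degLe_of_biH hv (hE p).1 (hE p).2) α (mem_support_iff.2 h0)
    exact absurd hp (not_lt.2 this), Br.C14.subst_mem_Uo r hE' α⟩

theorem aeval_free {τ : Type} {f : Pl (ι ⊕ τ)}
    (h : IsWeightedHomogeneous (Sum.elim (fun _ => 0) fun _ => 1) f 0) {r r' : ι ⊕ τ → Pl σ}
    (hr : ∀ c, r (Sum.inl c) = r' (Sum.inl c)) : aeval r f = aeval r' f := by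
  rw [f.as_sum, map_sum, map_sum]
  refine sum_congr rfl fun α hα => ?_
  rw [aeval_monomial, aeval_monomial]
  congr 1
  refine Finsupp.prod_congr fun c hc => ?_
  cases c with
  | inl c => rw [hr]
  | inr c =>
    have := weight_pos_le (Sum.elim (fun _ => 0) fun _ => 1 : ι ⊕ τ → ℕ) α hc
    rw [h (mem_support_iff.1 hα)] at this
    simp at this

/-! ### the substitutions -/

variable [Fintype ι] (T : Cell ι) (h : T.L1 → ℤ)

theorem wv_dlt (c : ι) : DLt (T.mlev (Fin 1)) (T.wv (fun _ : Fin 1 => h) 0 c) (T.lev c) :=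
  T.wv0_dlt (fun _ : Fin 1 => h) (Fin.succ 0) c

theorem xl_deg (c : ι) : DegLe (T.mlev (Fin 1)) (X (Sum.inl c) : Pl (PI T)) (T.lev c) :=
  degLe_X (w := T.mlev (Fin 1)) (Sum.inl c)

theorem ren_deg {f : Pl ι} {d : ℕ} (hf : DegLe T.lev f d) :
    DegLe (T.mlev (Fin 1)) (rename Sum.inl f : Pl (PI T)) d := by
  rw [rename_eq_bind]
  exact DegLe.bind (xl_deg T) hf

theorem fixh_deg (c : ι ⊕ ι) : DegLe (T.mlev (Fin 1)) (fixh T h c) (lv' T.lev c) := by
  cases c with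
  | inl c => exact xl_deg T c
  | inr c => exact (wv_dlt T h c).degLe

theorem fixh_int (c : ι ⊕ ι) : Tw.IsInt (fixh T h c) := by
  cases c with
  | inl c => exact isInt_X _
  | inr c =>
    simp only [fixh, Sum.elim_inr, Cell.wv]
    split_ifs
    exacts [isInt_C_int _, isInt_X _]

theorem fixh_inl (f : Pl ι) : aeval (fixh T h) (rename Sum.inl f) = rename Sum.inl f := by
  rw [aeval_rename, rename_eq_bind]
  rfl

theorem fixh_dirD (f : Pl ι) : aeval (fixh T h) (dirD f) =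
    M98.dd (fun c => X (Sum.inl c)) (T.wv (fun _ : Fin 1 => h) 0) f := by
  simp only [dirD, M98.dd, map_sum, map_mul, fixh_inl, aeval_X, ← rename_eq_bind]
  rfl

theorem taylor' {f : Pl ι} {d : ℕ} (hf : DegLe T.lev f d) : M98.D2 (T.mlev (Fin 1))
    (aeval (y1P T h) f - rename Sum.inl f - aeval (fixh T h) (dirD f)) d := by
  rw [fixh_dirD, rename_eq_bind]
  exact M98.taylor (xl_deg T) (wv_dlt T h) hf

theorem dif_dlt {f : Pl ι} {d : ℕ} (hf : DegLe T.lev f d) :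
    DLt (T.mlev (Fin 1)) (aeval (y1P T h) f - rename Sum.inl f) d := by
  rw [rename_eq_bind]
  exact dlt_bind_sub (fun c => (xl_deg T c).add ((wv_dlt T h c).degLe.mono (Nat.sub_le _ _)))
    (xl_deg T) (fun c => by simpa [y1P] using wv_dlt T h c) hf

theorem th_sub (c : ι) : DegLe T.lev (T.th c - T.tth c) (T.lev c - 1) := by
  obtain ⟨d, hd⟩ : ∃ d, T.lev c = d + 1 := ⟨T.lev c - 1, by have := T.lev_pos c; omega⟩
  have h1 := T.th_degLe c
  have h2 : T.tth c = weightedHomogeneousComponent T.lev (d + 1) (T.th c) := by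
    rw [← hd]; rfl
  rw [hd] at h1
  rw [h2, hd]
  exact h1.sub_whc

theorem thP_deg (c : ι ⊕ ι) : DegLe (T.mlev (Fin 1)) (thP T h c) (lv' T.lev c) := by
  cases c with
  | inl c => exact ren_deg T (T.th_degLe c)
  | inr c => exact (dif_dlt T h (T.th_degLe c)).degLe

theorem thP_sub (c : ι ⊕ ι) : DLt (T.mlev (Fin 1))
    (thP T h c - aeval (fixh T h) ((tanC (Cs.ofCell T)).th c)) (lv' T.lev c) := by
  cases c with
  | inl c =>
    change DLt _ (rename Sum.inl (T.th c) - aeval _ (rename Sum.inl (T.tth c))) (T.lev c)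
    rw [fixh_inl, ← map_sub]
    exact DLt.of_degLe (ren_deg T (th_sub T c)) (by have := T.lev_pos c; omega)
  | inr c =>
    change DLt _ (aeval _ (T.th c) - rename Sum.inl (T.th c) - aeval _ (dirD (T.tth c))) (T.lev c - 1)
    have h1 := dif_dlt T h (th_sub T c)
    have h2 : DLt (T.mlev (Fin 1)) _ (T.lev c - 1) := fun α hα => by
      have := taylor' T h (DegLe.of_hom (T.tth_hom c)) α hα
      omega
    convert h1.add h2 using 1
    simp only [map_sub]
    ring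

theorem tan_deg (c : ι ⊕ ι) : DegLe (T.mlev (Fin 1))
    (aeval (fixh T h) ((tanC (Cs.ofCell T)).th c)) (lv' T.lev c) := by
  have := (thP_deg T h c).sub ((thP_sub T h c).degLe.mono (Nat.sub_le _ _))
  rwa [sub_sub_cancel] at this

theorem sym_E {E : (G2 A).PS (ι ⊕ ι)} (hE : BiH (G2 A) Prod.fst T.lev E)
    (hE' : E ∈ Uo _ (mS A hd)) : Sym A hd (T.mlev (Fin 1)) ((N3 A).subst (thP T h) (lam A _ E))
      ((G2 A).subst (fixh T h) ((G2 A).subst (tanC (Cs.ofCell T)).th E)) := by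
  rw [Gf.subst_subst, ND.subst, map_lam]
  refine sym_lam (subst_mem_Gw T.lev_pos (tan_deg T h) hE hE') (fun p => ?_) fun k hk => ?_
  · exact dlt_bind_sub (thP_deg T h) (tan_deg T h) (thP_sub T h)
      (degLe_of_biH T.lev_pos (hE p).1 (hE p).2)
  · rw [Gf.subst_apply, ND.map_apply, uo_mS hE' k hk, map_zero, map_zero, sub_zero]

theorem sym_P3 {x : A.PS (ι ⊕ ι)} (hx : BiH A hd T.lev x)
    (hw : (G2 A).subst (fixh T h) (W2 A hd T.lev x) ∈ Gw A hd (T.mlev (Fin 1))) :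
    Sym A hd (T.mlev (Fin 1)) (P3 T A x h) ((G2 A).subst (fixh T h) (W2 A hd T.lev x)) := by
  set w := (G2 A).subst (fixh T h) (W2 A hd T.lev x)
  set Y := A.subst (eul T.lev) x
  have hY : ∀ k, DegLe T.lev (Y k) (A.wt k) := fun k => DegLe.of_hom (hom_bind' (fun c => by
    cases c with
    | inl c => exact isWeightedHomogeneous_X ℝ _ c
    | inr c => exact hom_C_mul (isWeightedHomogeneous_X ℝ _ c) _) (hx k).1)
  have e0 : pr A _ 0 (P3 T A x h - lam A _ w) = 0 := by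
    rw [map_sub, pr_lam0, sub_eq_zero]
    ext k : 1
    exact (rename_eq_bind _ _).symm.trans (fixh_inl T h (Y k)).symm
  have e1 : ∀ k, pr A _ 1 (P3 T A x h - lam A _ w) k =
      aeval (y1P T h) (Y k) - rename Sum.inl (Y k) - aeval (fixh T h) (dirD (Y k)) := fun k => by
    rw [map_sub, pr_lam1, sub_sub, ← fixh_inl T h]
    rfl
  have e2 : pr A _ 2 (P3 T A x h - lam A _ w) = 0 := by
    rw [map_sub, pr_lam2, sub_eq_zero]
    ext k : 1
    change aeval (fixh T h) (x k) = aeval (fixh T h) (phP A hd false x k) +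
      aeval (fixh T h) (phP A hd true x k)
    rw [← map_add, phP, phP]
    cases hd k <;> simp
  refine ⟨hw, fun α => mem_V0.2 ?_⟩
  rw [pr_cv3, pr_cv3, pr_cv3, e0, e2, map_zero, sub_zero]
  refine ⟨zero_mem _, fun k hk => ?_, zero_mem _⟩
  by_contra h0
  rw [cv_apply, e1] at h0
  have := taylor' T h (hY k) α (mem_support_iff.2 h0)
  omega

/-- the triple without its smooth and rational factors -/
theorem core (hb : Bigr A hd) {S : ℕ} (hS : ∀ k, A.wt k ≤ S) {𝔟 : Submodule ℝ (G2 A).L}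
    (h𝔟 : 𝔟 ≤ mS A hd) {x : A.PS (ι ⊕ ι)} (hx : BiH A hd T.lev x) {E y Γ : (G2 A).PS (ι ⊕ ι)}
    (hE : BiH (G2 A) Prod.fst T.lev E) (hE' : E ∈ Uo _ (mS A hd)) (hy : BiH (G2 A) Prod.fst T.lev y)
    (hy' : y ∈ Uo _ 𝔟) (hΓ : BiH (G2 A) Prod.fst T.lev Γ) (hΓ' : Γ ∈ Uo _ (mS A hd))
    (hW : W2 A hd T.lev x = star S ((G2 A).subst (tanC (Cs.ofCell T)).th E) (star S y Γ)) :
    star S (-(N3 A).subst (thP T h) (lam A _ E))
      (star S (P3 T A x h) (-(N3 A).subst (fixh T h) (lam A _ Γ))) ∈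
      wcf (T.mlev (Fin 1)) (VB A hd 𝔟) := by
  have := ND.nil (N := G2 A) (fun p => hS p.2.2) (Pl (PI T))
  have s1 := sym_E T h hE hE'
  have g2 := subst_mem_Gw T.lev_pos (fixh_deg T h) hy fun α => h𝔟 (hy' α)
  have g3 := subst_mem_Gw T.lev_pos (fixh_deg T h) hΓ hΓ'
  have s3 : Sym A hd (T.mlev (Fin 1)) ((N3 A).subst (fixh T h) (lam A _ Γ))
      ((G2 A).subst (fixh T h) Γ) :=
    ⟨g3, by rw [ND.subst, map_lam, ND.subst, sub_self]; exact zero_mem _⟩
  have s2 := sym_P3 T h hx (by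
    rw [hW, Bch.map_star, Bch.map_star]
    exact St.star_mem S _ (lie_Gw hb) s1.1 (St.star_mem S _ (lie_Gw hb) g2 g3))
  have s4 := s1.neg.star hb S (s2.star hb S s3.neg)
  rw [hW, Bch.map_star, Bch.map_star, Bch.star_assoc, Bch.neg_star_star, Bch.star_star_neg] at s4
  exact s4.mem (Br.C14.subst_mem_Uo _ hy')

end Crest.Agent.T49.Sy.L40
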