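import Crest.Agent.T49.RiSymDef_29
import Crest.Agent.T49.GiFilt_27

/-!
# Row 49 (helper40): the filtration of `LiftStmt`, definitions and basic properties
-/

set_option autoImplicit false

noncomputable section

namespace Crest.Agent.T49.Sy.L40

open Finset MvPolynomial
open Crest.Agent.T49.Tw Crest.Agent.T49.Nil Crest.Agent.T49.Nil.ND
open Crest.Agent.T49.Bch (star)
open Crest.Agent.T49.Gf (wcf)
open Crest.Agent.T49.GI (pw pr tup Bigr Graded SFil)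
open Crest.Agent.T49.GI.Filt27 (k0)

variable {κ : Type} [Fintype κ]

/-- the filtration by an arbitrary weight of the coordinates -/
def Fw (A : ND κ) (ω : κ → ℕ) (j : ℕ) : Submodule ℝ A.L where
  carrier := {x | ∀ k, ω k < j → x k = 0}
  add_mem' hx hy k hk := by simp [hx k hk, hy k hk]
  zero_mem' _ _ := rfl
  smul_mem' r x hx k hk := by simp [hx k hk]

theorem Fw_anti (A : ND κ) (ω : κ → ℕ) : Antitone (Fw A ω) :=
  fun _ _ h _ hx k hk => hx k (hk.trans_le h)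

theorem lie_Fw {A : ND κ} {ω : κ → ℕ} (hω : ∀ i j k, A.c i j k ≠ 0 → ω i + ω j ≤ ω k) {i j : ℕ}
    {x y : A.L} (hx : x ∈ Fw A ω i) (hy : y ∈ Fw A ω j) : ⁅x, y⁆ ∈ Fw A ω (i + j) := by
  intro k hk
  rw [lie_apply]
  refine sum_eq_zero fun a _ => sum_eq_zero fun b _ => ?_
  by_cases h : A.c a b k = 0
  · simp [h]
  · have := hω a b k h
    by_cases ha : ω a < i
    · simp [hx a ha]
    · simp [hy b (by omega)]

/-- `(A × A)[ε]` -/
abbrev G2 (A : ND κ) : ND (Bool × Fin 2 × κ) := du (pw A (Fin 2))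

/-- `A × A × A` -/
abbrev N3 (A : ND κ) : ND (Fin 3 × κ) := pw A (Fin 3)

/-- one of the four entries of a point of `(A × A)[ε]` -/
def en (A : ND κ) (R : Type) [CommRing R] [Algebra ℝ R] (e : Bool) (a : Fin 2) :
    (G2 A).pts R →ₗ[ℝ] A.pts R := (pr A R a).toLinearMap ∘ₗ dc _ R e

theorem en_apply (A : ND κ) (R : Type) [CommRing R] [Algebra ℝ R] (e : Bool) (a : Fin 2)
    (w : (G2 A).pts R) (k : κ) : en A R e a w k = w (e, a, k) := rfl

/-- `(a + ε a', M₀ + ε M₁) ↦ (a, a + a', M₀ + M₁)` -/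
def lam (A : ND κ) (R : Type) [CommRing R] [Algebra ℝ R] : (G2 A).pts R →ₗ[ℝ] (N3 A).pts R where
  toFun w := tup ![en A R false 0 w, en A R false 0 w + en A R true 0 w,
    en A R false 1 w + en A R true 1 w]
  map_add' x y := by
    ext ⟨a, k⟩
    fin_cases a <;> simp [tup] <;> ring
  map_smul' r x := by
    ext ⟨a, k⟩
    fin_cases a <;> simp [tup]

section
variable {A : ND κ} {R : Type} [CommRing R] [Algebra ℝ R]

theorem pr_lam0 (w : (G2 A).pts R) : pr A R 0 (lam A R w) = en A R false 0 w := rfl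
theorem pr_lam1 (w : (G2 A).pts R) :
    pr A R 1 (lam A R w) = en A R false 0 w + en A R true 0 w := rfl
theorem pr_lam2 (w : (G2 A).pts R) :
    pr A R 2 (lam A R w) = en A R false 1 w + en A R true 1 w := rfl

theorem n3_ext {x y : (N3 A).pts R} (h0 : pr A R 0 x = pr A R 0 y) (h1 : pr A R 1 x = pr A R 1 y)
    (h2 : pr A R 2 x = pr A R 2 y) : x = y := by
  ext ⟨a, k⟩
  fin_cases a
  exacts [congrFun h0 k, congrFun h1 k, congrFun h2 k]

theorem en_lie_false (a : Fin 2) (x y : (G2 A).pts R) :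
    en A R false a ⁅x, y⁆ = ⁅en A R false a x, en A R false a y⁆ := by
  change pr A R a (dc _ R false ⁅x, y⁆) = _
  rw [dc_lie_false, LieHom.map_lie]
  rfl

theorem en_lie_true (a : Fin 2) (x y : (G2 A).pts R) : en A R true a ⁅x, y⁆ =
    ⁅en A R false a x, en A R true a y⁆ + ⁅en A R true a x, en A R false a y⁆ := by
  change pr A R a (dc _ R true ⁅x, y⁆) = _
  rw [dc_lie_true, map_add, LieHom.map_lie, LieHom.map_lie]
  rfl

theorem cv_lam {σ : Type} (α : σ →₀ ℕ) (w : (G2 A).PS σ) :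
    (N3 A).cv α (lam A _ w) = lam A ℝ ((G2 A).cv α w) :=
  n3_ext rfl (pts_ext fun _ => coeff_add _ _ _) (pts_ext fun _ => coeff_add _ _ _)

theorem map_lam {R' : Type} [CommRing R'] [Algebra ℝ R'] (φ : R →ₐ[ℝ] R') (w : (G2 A).pts R) :
    (N3 A).map φ (lam A R w) = lam A R' ((G2 A).map φ w) :=
  n3_ext rfl (pts_ext fun _ => map_add φ _ _) (pts_ext fun _ => map_add φ _ _)

end

/-- the filtration of `(A × A)[ε]` by weight minus `ε`-degree -/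
def D2 (A : ND κ) : ℕ → Submodule ℝ (G2 A).L := Fw (G2 A) fun p => A.wt p.2.2 - p.1.toNat

/-- the ambient filtration of the triples -/
def V0 (A : ND κ) (hd : κ → Bool) (j : ℕ) : Submodule ℝ (N3 A).L :=
  (A.F j).comap (pr A ℝ 0).toLinearMap ⊓
    ((A.F (j + 1)).comap ((pr A ℝ 1).toLinearMap - (pr A ℝ 0).toLinearMap) ⊓
      (Fw A (fun k => A.wt k - (hd k).toNat) j).comap (pr A ℝ 2).toLinearMap)

/-- the filtration attached to `𝔟` -/
def VB (A : ND κ) (hd : κ → Bool) (𝔟 : Submodule ℝ (G2 A).L) (j : ℕ) : Submodule ℝ (N3 A).L :=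
  (𝔟 ⊓ D2 A j).map (lam A ℝ) ⊔ V0 A hd (j + 1)

variable {A : ND κ} {hd : κ → Bool}

theorem mem_V0 {j : ℕ} {x : (N3 A).L} : x ∈ V0 A hd j ↔ pr A ℝ 0 x ∈ A.F j ∧
    pr A ℝ 1 x - pr A ℝ 0 x ∈ A.F (j + 1) ∧
      pr A ℝ 2 x ∈ Fw A (fun k => A.wt k - (hd k).toNat) j := Iff.rfl

theorem V0_anti : Antitone (V0 A hd) := fun _ _ h _ hx =>
  mem_V0.2 ⟨FA_anti h hx.1, FA_anti (by omega) hx.2.1, Fw_anti _ _ h hx.2.2⟩

theorem lie_V0 (hb : Bigr A hd) (i j : ℕ) (x : (N3 A).L) (hx : x ∈ V0 A hd i) (y : (N3 A).L)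
    (hy : y ∈ V0 A hd j) : ⁅x, y⁆ ∈ V0 A hd (i + j) := by
  obtain ⟨h0, h1, h2⟩ := mem_V0.1 hx
  obtain ⟨g0, g1, g2⟩ := mem_V0.1 hy
  simp only [mem_V0, LieHom.map_lie]
  refine ⟨lie_mem_FA h0 g0, ?_, lie_Fw (fun a b k h => ?_) h2 g2⟩
  · have e : ⁅pr A ℝ 1 x, pr A ℝ 1 y⁆ - ⁅pr A ℝ 0 x, pr A ℝ 0 y⁆ =
        ⁅pr A ℝ 1 x - pr A ℝ 0 x, pr A ℝ 1 y - pr A ℝ 0 y⁆ +
          (⁅pr A ℝ 1 x - pr A ℝ 0 x, pr A ℝ 0 y⁆ + ⁅pr A ℝ 0 x, pr A ℝ 1 y - pr A ℝ 0 y⁆) := by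
      simp only [sub_lie, lie_sub]; abel
    rw [e]
    exact add_mem (FA_anti (by omega) (lie_mem_FA h1 g1))
      (add_mem (FA_anti (by omega) (lie_mem_FA h1 g0)) (lie_mem_FA (j := j + 1) h0 g1))
  · have := hb.1 a b k h
    have := hb.2 a b k h
    have := A.wt_pos a
    have := A.wt_pos b
    have := (hd a).toNat_le
    have := (hd b).toNat_le
    omega

theorem lie_D2 (hg : Graded A) (i j : ℕ) (x : (G2 A).L) (hx : x ∈ D2 A i) (y : (G2 A).L)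
    (hy : y ∈ D2 A j) : ⁅x, y⁆ ∈ D2 A (i + j) := by
  refine lie_Fw (fun a b k h => ?_) hx hy
  have hb := bigr_du (g := pw A (Fin 2)) (hg.pw _)
  have h1 : A.wt a.2.2 + A.wt b.2.2 = A.wt k.2.2 := hb.1 a b k h
  have := hb.2 a b k h
  have := A.wt_pos a.2.2
  have := A.wt_pos b.2.2
  have := a.1.toNat_le
  have := b.1.toNat_le
  omega

theorem lie_mS (hb : Bigr A hd) (x : (G2 A).L) (hx : x ∈ mS A hd) (y : (G2 A).L)
    (hy : y ∈ mS A hd) : ⁅x, y⁆ ∈ mS A hd := by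
  intro k hk
  change en A ℝ false 1 ⁅x, y⁆ k = 0
  rw [en_lie_false, lie_apply]
  refine sum_eq_zero fun a _ => sum_eq_zero fun b _ => ?_
  by_cases h : A.c a b k = 0
  · simp [h]
  · have := hb.2 a b k h
    by_cases ha : hd a = true
    · simp [en_apply, hx a ha]
    · have hb' : hd b = true := by
        by_contra hb'
        simp [ha, hb', hk] at this
      simp [en_apply, hy b hb']

theorem en_false_mem {j : ℕ} {w : (G2 A).L} (hw : w ∈ D2 A j) (a : Fin 2) :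
    en A ℝ false a w ∈ A.F j := fun k hk => hw (false, a, k) hk

theorem en_true_mem {j : ℕ} {w : (G2 A).L} (hw : w ∈ D2 A j) (a : Fin 2) :
    en A ℝ true a w ∈ A.F (j + 1) := fun k hk => hw (true, a, k) (by
  have := A.wt_pos k
  show A.wt k - 1 < j
  omega)

theorem F_le_Fw (j : ℕ) : A.F (j + 1) ≤ Fw A (fun k => A.wt k - (hd k).toNat) j :=
  fun _ hx k hk => hx k (by have := (hd k).toNat_le; dsimp only at hk; omega)

theorem lam_mem_V0 {j : ℕ} {w : (G2 A).L} (hw : w ∈ D2 A j) (hw' : w ∈ mS A hd) :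
    lam A ℝ w ∈ V0 A hd j := by
  rw [mem_V0, pr_lam0, pr_lam1, pr_lam2, add_sub_cancel_left]
  refine ⟨en_false_mem hw 0, en_true_mem hw 0, add_mem (fun k hk => ?_) (F_le_Fw j (en_true_mem hw 1))⟩
  by_cases h : hd k = true
  · exact hw' k h
  · exact en_false_mem hw 1 k (by simpa [h] using hk)

theorem lam_lie {i j : ℕ} {w w' : (G2 A).L} (hw : w ∈ D2 A i) (hw' : w' ∈ D2 A j) :
    ⁅lam A ℝ w, lam A ℝ w'⁆ - lam A ℝ ⁅w, w'⁆ ∈ V0 A hd (i + j + 1) := by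
  simp only [mem_V0, map_sub, LieHom.map_lie, pr_lam0, pr_lam1, pr_lam2, en_lie_false, en_lie_true,
    add_lie, lie_add, sub_self]
  refine ⟨zero_mem _, ?_, F_le_Fw _ ?_⟩
  · convert FA_anti (j := i + 1 + (j + 1)) (i := i + j + 1 + 1) (by omega)
      (lie_mem_FA (en_true_mem hw 0) (en_true_mem hw' 0)) using 1
    abel
  · convert FA_anti (j := i + 1 + (j + 1)) (i := i + j + 1 + 1) (by omega)
      (lie_mem_FA (en_true_mem hw 1) (en_true_mem hw' 1)) using 1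
    abel

/-- (FILT) the properties of the filtration `VB` -/
def FiltStmt : Prop := ∀ t : ℕ, ∃ C : ℕ, 1 ≤ C ∧ ∀ (m : ℝ), 2 ≤ m →
  ∀ (κ : Type) [Fintype κ] (A : ND κ) (hd : κ → Bool) (η η' : κ → ℤ) (𝔟 : Submodule ℝ (G2 A).L),
    (Fintype.card κ : ℝ) ≤ m → (∀ k, A.wt k ≤ t + 2) → Bigr A hd →
    (∀ k, hd k = false → η k = 0) → (∀ k, η k = ((t : ℤ) + 2) * η' k) →
    SymSub A hd η (t + 2) m 𝔟 →
    Antitone (VB A hd 𝔟) ∧
    (∀ i j, ∀ x ∈ VB A hd 𝔟 i, ∀ y ∈ VB A hd 𝔟 j, ⁅x, y⁆ ∈ VB A hd 𝔟 (i + j)) ∧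
    SFil (N3 A) (t + 2) (m ^ C) (fun j => VB A hd 𝔟 (max j 1)) (VB A hd 𝔟 1 ⊓ k0 A) ∧
    (N3 A).RatS (Real.exp (m ^ C)) (VB A hd 𝔟 0 ⊓ k0 A) ∧
    ∀ Z ∈ VB A hd 𝔟 (t + 1), Z ∈ k0 A → Z ∈ (N3 A).F (t + 2) ∧
      A.fn η (pr A ℝ 2 Z) = A.fn η' (pr A ℝ 1 Z)

end Crest.Agent.T49.Sy.L40
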