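import Crest.Agent.T49.SyLiftA_40
import Crest.Agent.T49.GiClos_16
import Crest.Agent.T49.NilPw_67
import Crest.Agent.T49.NilBox_73

/-!
# Row 49 (helper40): `LiftStmt` from the properties of the filtration
-/

set_option autoImplicit false

noncomputable section

namespace Crest.Agent.T49.Sy.L40

open Finset MvPolynomial
open Crest.Agent.T49.Tw Crest.Agent.T49.Nil Crest.Agent.T49.Nil.ND
open Crest.Agent.T49.Bch (star)
open Crest.Agent.T49.Gf (wcf lie_mem_wcf)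
open Crest.Agent.T49.GI (pw pr tup toPw Bigr Graded Fd)
open Crest.Agent.T49.GI.Filt27 (k0 lie_mem_k0 mem_k0)
open Crest.Agent.T49.Br (Cs Uo)
open Crest.Agent.T49.Ri
open scoped Classical

variable {κ σ : Type} [Fintype κ]

/-- `u ↦ (u, u, 0)` -/
def dg (A : ND κ) : A.L →ₗ⁅ℝ⁆ (N3 A).L := toPw ![LieHom.id, LieHom.id, 0]

theorem dg_mem (A : ND κ) (hd : κ → Bool) (u : A.L) : dg A u ∈ V0 A hd 1 :=
  mem_V0.2 ⟨mem_FA_one _, by
    rw [show pr A ℝ 1 (dg A u) - pr A ℝ 0 (dg A u) = 0 from sub_self u]; exact zero_mem _,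
    zero_mem _⟩

theorem cst_mem_wcf {N : ND κ} {W : ℕ → Submodule ℝ N.L} {x : N.L} (hx : x ∈ W 0) (lev : σ → ℕ) :
    N.cst _ x ∈ wcf lev W := fun α => by
  rw [cv_cst]
  split_ifs with h
  · rw [← h, map_zero]; exact hx
  · exact zero_mem _

theorem sm_cst {N : ND κ} {M : ℝ} {x : N.L} (hx : ‖x‖ ≤ M) : N.Sm 1 M (N.cst (Pl σ) x) := fun α => by
  rw [cv_cst, one_pow, mul_one]
  split_ifs
  · exact hx
  · rw [norm_zero]; exact (norm_nonneg _).trans hx

theorem ratP_cst {N : ND κ} (q : ℕ) {x : N.L} (hx : ND.IsInt x) : N.RatP q (N.cst (Pl σ) x) :=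
  Gf.ratP_iff.2 fun k => by
    obtain ⟨z, hz⟩ := hx k
    rw [cst_apply, hz, algebraMap_eq]
    exact (isInt_C_nat q).mul (isInt_C_int z)

theorem lam_cases {A : ND κ} {R : Pl σ → ℕ → Prop} {E : (G2 A).PS σ}
    (h1 : ∀ k, R (E (false, 0, k)) (A.wt k))
    (h2 : ∀ a k, R (E (false, a, k) + E (true, a, k)) (A.wt k)) (p : Fin 3 × κ) :
    R (lam A _ E p) (A.wt p.2) := by
  obtain ⟨a, k⟩ := p
  fin_cases a
  exacts [h1 k, h2 0 k, h2 1 k]

theorem pr_subst {A : ND κ} {τ : Type} (a : Fin 3) (r : σ → Pl τ) (P : (N3 A).PS σ) :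
    pr A _ a ((N3 A).subst r P) = A.subst r (pr A _ a P) := rfl

theorem pr_cst {A : ND κ} (a : Fin 3) (x : (N3 A).L) :
    pr A (Pl σ) a ((N3 A).cst _ x) = A.cst _ (pr A ℝ a x) := rfl

theorem subst_cst {N : ND κ} {τ : Type} (r : σ → Pl τ) (x : N.L) :
    N.subst r (N.cst _ x) = N.cst _ x := map_cst _ x

theorem lift_of (hF : FiltStmt) : LiftStmt := by
  intro t
  obtain ⟨C₁, hC₁, hF⟩ := hF t
  obtain ⟨C₂, hC₂, hU⟩ := GI.fundStmt (t + 2)
  obtain ⟨C₀, hC⟩ : ∃ C : ℕ, ∀ (m : ℝ) (d q : ℕ), 2 ≤ m → (d : ℝ) ≤ 3 * m →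
      (q : ℝ) ≤ Real.exp m → m ^ C₁ ≤ m ^ C ∧
      St.cS (t + 2) * (St.kB (t + 2) d (Real.exp m) * (St.cS (t + 2) * (St.kB (t + 2) d (Real.exp m) *
        (2 * Real.exp ((3 * m + m ^ C₁) ^ C₂))) ^ (t + 2 + 1))) ^ (t + 2 + 1) ≤ Real.exp (m ^ C) ∧
      ((St.dS (t + 2) * q ^ (t + 2 + 1) : ℕ) : ℝ) ≤ Real.exp (m ^ C) := by
    have := St.two_le_cS (t + 2)
    unfold St.kB
    qp
  obtain ⟨C, hCC⟩ : ∃ C, C = C₀ + 1 := ⟨_, rfl⟩
  refine ⟨C, by omega, ?_⟩
  rintro m hm ι κ _ _ T A hd η η' x 𝔟 hκ hA hb - hη0 hη hx h𝔟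
    ⟨E, y, Γ, q, hE, hE', hEn, hy, hy', hΓ, hΓ', hq1, hq, hΓq, hW⟩
  obtain ⟨hanti, hlie, hS, hrat, hkill⟩ := hF m hm κ A hd η η' 𝔟 hκ hA.wt_le hb hη0 hη h𝔟
  set S := t + 2 with hSdef
  have hdm : (Fintype.card (Fin 3 × κ) : ℝ) ≤ 3 * m := by
    rw [Fintype.card_prod, Fintype.card_fin]
    push_cast
    linarith
  obtain ⟨c1, c2, c3⟩ := hC m _ q hm hdm hq
  have c0 : m ^ C₀ ≤ m ^ C := pow_le_pow_right₀ (by linarith) (by omega)
  replace c1 := c1.trans c0
  replace c2 := c2.trans (Real.exp_le_exp.2 c0)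
  replace c3 := c3.trans (Real.exp_le_exp.2 c0)
  set μ := 3 * m + m ^ C₁ with hμ
  have hp0 : 0 ≤ m ^ C₁ := by positivity
  have hμ2 : 2 ≤ μ := by linarith
  have he : 1 ≤ Real.exp m := Real.one_le_exp (by linarith)
  have heμ : Real.exp m ≤ Real.exp μ := Real.exp_le_exp.2 (by linarith)
  have heμ' : Real.exp μ ≤ Real.exp (μ ^ C₂) :=
    Real.exp_le_exp.2 (le_self_pow₀ (by linarith) (by omega))
  have hN := good_pw hA (by linarith) (Fin 3)
  have nA := hA.nil ℝ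
  have nN := hN.nil ℝ
  have nP := hN.nil (Pl (PI T))
  have hm𝔟 : 𝔟 ≤ mS A hd := fun w hw k hk => by rw [h𝔟.m0 w hw k, if_pos hk]
  -- the first entry
  let pA : A.PS ι := star S (-A.subst (Sum.elim T.th 0) (en A _ false 0 E))
    (star S (A.subst (eul T.lev) x) (-A.subst (Sum.elim X 0) (en A _ false 0 Γ)))
  obtain ⟨ua, -, ga, -, hua, hga, hpA⟩ := hU μ hμ2 κ A ⊤ (A.ev 0 pA)
    ⟨hA.wt_le, by linarith, fun i j k => (hA.c_le i j k).trans heμ⟩
    (Gon.IsRat.top (he.trans heμ)) trivial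
  let il : ι → Pl (PI T) := fun c => X (Sum.inl c)
  let p' : A.PS ι := star S (-A.cst _ ua) (star S pA (-A.cst _ ga))
  let 𝔥 : LieSubalgebra ℝ (N3 A).L :=
    { VB A hd 𝔟 0 ⊓ k0 A with
      lie_mem' := fun {y z} hy hz => ⟨hlie 0 0 y hy.1 z hz.1, lie_mem_k0 y hz.2⟩ }
  have hst : ∀ {a b}, a ∈ VB A hd 𝔟 0 → b ∈ VB A hd 𝔟 0 → star S a b ∈ VB A hd 𝔟 0 :=
    St.star_mem S _ (hlie 0 0)
  have hdg : ∀ u, dg A u ∈ VB A hd 𝔟 0 := fun u => Submodule.mem_sup_right (dg_mem A hd u)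
  have key : ∀ h : T.L1 → ℤ, ∃ (E : (N3 A).PS (ι ⊕ ι)) (P Γ : (N3 A).PS (PI T)),
      E ∈ (N3 A).poly (ι ⊕ ι) ∧ (N3 A).Sm 1 (Real.exp (m ^ C)) E ∧
      (N3 A).RatP (St.dS S * q ^ (S + 1)) Γ ∧
      P ∈ wcf (T.mlev (Fin 1)) (fun j => VB A hd 𝔟 (max j 1)) ∧ pr A _ 0 P = A.subst il p' ∧
      P3 T A x h = star S ((N3 A).subst (thP T h) E) (star S P Γ) := by
    intro h
    have hP := core T h hb hA.wt_le hm𝔟 hx hE hE' hy hy' hΓ hΓ' hW
    set EP := (N3 A).subst (thP T h) (lam A _ E) with hEP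
    set ΓP := (N3 A).subst (fixh T h) (lam A _ Γ) with hΓP
    set P := star S (-EP) (star S (P3 T A x h) (-ΓP)) with hPdef
    have hP0 : pr A _ 0 P = A.subst il pA := by
      simp only [P, pA, Bch.map_star, map_neg, Gf.subst_subst]
      congr 2
      · ext k : 1
        exact aeval_free (hE (false, 0, k)).2 fun c => rename_eq_bind _ _
      · exact (Gf.subst_subst _ _ _)
      · congr 1
        ext k : 1
        exact aeval_free (hΓ (false, 0, k)).2 fun c => (bind₁_X_right il c).symm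
    have hp0 : (N3 A).ev 0 P ∈ VB A hd 𝔟 0 := by
      have := hP 0
      rwa [map_zero, cv_zero_eq] at this
    have hp1 : pr A ℝ 0 ((N3 A).ev 0 P) = star S ua ga := by
      rw [pr_ev, hP0, ev_subst, ← hpA]
      congr 2
      ext c
      simp [il]
    obtain ⟨u1, hu1, g1, hg1, hu1n, hg1i, hp⟩ := hU μ hμ2 _ (N3 A) 𝔥
      (star S (-dg A ua) (star S ((N3 A).ev 0 P) (-dg A ga)))
      ⟨hN.wt_le, by linarith, fun i j k => (hN.c_le i j k).trans heμ⟩
      (hrat.mono (Real.exp_le_exp.2 (by linarith)))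
      ⟨hst (neg_mem (hdg _)) (hst hp0 (neg_mem (hdg _))), by
        change pr A ℝ 0 _ = 0
        rw [Bch.map_star, Bch.map_star, hp1, map_neg, map_neg]
        change star S (-ua) (star S (star S ua ga) (-ga)) = 0
        rw [Bch.star_star_neg, Bch.neg_star_self]⟩
    obtain ⟨u, hu⟩ : ∃ u, u = star S (dg A ua) u1 := ⟨_, rfl⟩
    obtain ⟨γ, hγ⟩ : ∃ γ, γ = star S g1 (dg A ga) := ⟨_, rfl⟩
    have hp2 : (N3 A).ev 0 P = star S u γ := by
      rw [hu, hγ, Bch.star_assoc, ← Bch.star_assoc S u1, ← hp, Bch.star_assoc, Bch.star_neg_star',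
        Bch.star_neg_star]
    have hM : 1 ≤ 2 * Real.exp (μ ^ C₂) := by linarith
    have hk := St.one_le_kB S (Fintype.card (Fin 3 × κ)) he
    have hM' : 2 * Real.exp (μ ^ C₂) ≤ St.cS S * (St.kB S (Fintype.card (Fin 3 × κ)) (Real.exp m) *
        (2 * Real.exp (μ ^ C₂))) ^ (S + 1) :=
      ((le_mul_of_one_le_left (by linarith) hk).trans
        (le_self_pow₀ (one_le_mul_of_one_le_of_one_le hk hM) (by omega))).trans
        (le_mul_of_one_le_left (by positivity) (by linarith [St.two_le_cS S]))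
    have hEp : lam A _ E ∈ (N3 A).poly (ι ⊕ ι) := fun α p hp => by
      by_contra h0
      have := (lam_cases (R := fun f d => DegLe (Sum.elim T.lev T.lev) f d)
        (fun k => .of_hom (hE _).1) (fun a k => (DegLe.of_hom (hE _).1).add (.of_hom (hE _).1))
        p).degree_le (fun c => by cases c <;> exact T.lev_pos _) α (mem_support_iff.2 h0)
      exact absurd hp (not_lt.2 this)
    have hEs : (N3 A).Sm 1 (2 * Real.exp (μ ^ C₂)) (lam A _ E) := fun α => by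
      rw [one_pow, mul_one, norm_le_iff (by linarith)]
      have h1 : ∀ p, |coeff α (E p)| ≤ Real.exp (μ ^ C₂) := fun p =>
        (abs_coeff_le_nrm _ _).trans ((hEn p).trans (heμ.trans heμ'))
      exact lam_cases (R := fun f _ => |coeff α f| ≤ 2 * Real.exp (μ ^ C₂))
        (fun k => by linarith [h1 (false, 0, k)]) fun a k => by
          rw [coeff_add, two_mul]
          exact (abs_add_le _ _).trans (add_le_add (h1 _) (h1 _))
    refine ⟨star S (lam A _ E) ((N3 A).cst _ u), star S (-(N3 A).cst _ u)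
      (star S P (-(N3 A).cst _ γ)), star S ((N3 A).cst _ γ) ΓP,
      St.star_mem S _ (fun _ ha _ hb => lie_mem_poly ha hb) hEp (cst_mem_poly _), ?_, ?_, ?_, ?_, ?_⟩
    · refine (St.Sm_star hN.wt_le hN.c_le he le_rfl zero_le_one (hM.trans hM') hEp (cst_mem_poly _)
        (hEs.mono hM') ?_).mono c2
      rw [hu, Bch.map_star]
      refine St.Sm_star hN.wt_le hN.c_le he le_rfl zero_le_one hM (cst_mem_poly _) (cst_mem_poly _)
        (sm_cst (norm_pw_le (by linarith) fun a => ?_)) (sm_cst (by linarith))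
      fin_cases a
      · exact hua.trans (by linarith)
      · exact hua.trans (by linarith)
      · exact norm_zero.le.trans (by linarith)
    · refine St.RatP_star S (ratP_cst q (hγ ▸ hN.lat _ _ hg1i (isInt_pw.2 fun a => ?_)))
        (Gf.ratP_subst (fixh_int T h) (Gf.ratP_iff.2 ?_))
      · fin_cases a
        exacts [hga, hga, fun _ => ⟨0, Int.cast_zero.symm⟩]
      · have h1 := Gf.ratP_iff.1 hΓq
        exact lam_cases (R := fun f _ => Tw.IsInt (MvPolynomial.C (q : ℝ) * f)) (fun k => h1 _)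
          fun a k => by rw [mul_add]; exact (h1 _).add (h1 _)
    · have h1 := St.star_mem S (wcf (T.mlev (Fin 1)) (VB A hd 𝔟))
        (fun _ ha _ hb => lie_mem_wcf hlie ha hb)
        (neg_mem (cst_mem_wcf (hst (hdg ua) hu1.1) _)) (St.star_mem S _
          (fun _ ha _ hb => lie_mem_wcf hlie ha hb) hP (neg_mem (cst_mem_wcf (hst hg1.1 (hdg ga)) _)))
      rw [← hu, ← hγ] at h1
      intro α
      clear_value P
      by_cases hα : α = 0
      · rw [hα, cv_zero_eq, Bch.map_star, Bch.map_star, map_neg, map_neg, ev_cst, ev_cst, hp2,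
          Bch.star_star_neg, Bch.neg_star_self]
        exact zero_mem _
      · have h2 : 1 ≤ Finsupp.weight (T.mlev (Fin 1)) α :=
          (Nat.pos_of_ne_zero fun h0 => hα ((Finsupp.degree_eq_zero_iff α).1 h0)).trans_le
            (degree_le_weight (pc T h).lev_pos α)
        beta_reduce
        rw [max_eq_left h2]
        exact h1 α
    · have e1 : pr A ℝ 0 u = ua := by
        rw [hu, Bch.map_star, mem_k0.1 hu1.2, Bch.star_zero]; rfl
      have e2 : pr A ℝ 0 γ = ga := by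
        rw [hγ, Bch.map_star, mem_k0.1 hg1.2, Bch.zero_star]; rfl
      simp only [p', Bch.map_star, map_neg, pr_cst, e1, e2, hP0, subst_cst]
    · rw [Bch.map_star, subst_cst, ← hEP, Bch.star_assoc, Bch.star_assoc, Bch.star_neg_star,
        Bch.star_assoc, Bch.neg_star_star, hPdef, Bch.star_assoc, Bch.star_neg_star,
        Bch.star_neg_star']
  obtain ⟨-, P₀, -, -, -, -, hP₀, hP₀', -⟩ := key 0
  have hU1 : ∀ P : (N3 A).PS (PI T), P ∈ wcf (T.mlev (Fin 1)) (fun j => VB A hd 𝔟 (max j 1)) →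
      P ∈ Uo _ (VB A hd 𝔟 1) := fun P hP α => hanti (le_max_right _ _) (hP α)
  have hme := Real.exp_le_exp.2 c1
  refine ⟨_, _, St.dS S * q ^ (S + 1), (N3 A).subst (Sum.elim X 0) P₀,
    ⟨fun b => (hS.rat b).mono hme, hS.ratk.mono hme, hS.zero, hS.anti, hS.lie, hS.bot, hS.le,
      hS.ideal⟩, fun Z hZ hZ' => hkill Z (by simpa using hZ) hZ'.2,
    Nat.mul_pos (St.one_le_dS S) (pow_pos hq1 _), c3, fun h => ?_⟩
  obtain ⟨E', P, Γ', k1, k2, k3, k4, k5, k6⟩ := key h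
  refine ⟨E', P, Γ', k1, k2, k3, k4, fun α => ⟨sub_mem (hU1 P k4) (Br.C14.subst_mem_Uo _
    (Br.C14.subst_mem_Uo _ (hU1 P₀ hP₀))) α, ?_⟩, k6⟩
  change pr A ℝ 0 _ = 0
  rw [pr_cv3, map_sub, k5, pr_subst, pr_subst, hP₀', Gf.subst_subst il]
  simp only [il, bind₁_X_right, Sum.elim_inl]
  rw [show A.subst X p' = p' from pts_ext fun k => aeval_X_left_apply _, sub_self, map_zero]

end Crest.Agent.T49.Sy.L40
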