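import Crest.Agent.T49.RiSymDef_29
import Crest.Agent.T49.RngMass_63
import Crest.Agent.T49.HkA_67

/-!
# Row 49 (helper3): the pattern of the symmetry argument as a graded ring
-/

set_option autoImplicit false

noncomputable section

namespace Crest.Agent.T49.Sy.P3

open Finset
open Crest.Agent.T49.Box (SF)
open Crest.Agent.T49.Hk Crest.Agent.T49.Rng

/-- the eight cubes -/
abbrev V8 : Type := Bool × Bool × Bool

/-- the basis on the eight cubes -/
def b8 (p v : V8) : ℤ :=
  if p.1 = false ∧ p.2.1 = false then (if p.2.2 = true ∧ v.2.2 = false then 0 else 1)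
  else if v.1 = p.1 ∧ v.2.1 = p.2.1 then
    (if p.2.2 = true then (if v.2.2 = true then 1 else 0) else (if v.2.2 = true then -1 else 1))
  else 0

/-- the dual basis -/
def a8 (p v : V8) : ℤ :=
  if p.1 = false ∧ p.2.1 = false then
    (if v = p then 1 else 0) - (if p.2.2 = true ∧ v = (false, false, false) then 1 else 0)
  else if p.2.2 = true then
    (if v.1 = p.1 ∧ v.2.1 = p.2.1 then 1 else 0) - (if v.1 = false ∧ v.2.1 = false then 1 else 0)
  else (if v = p then 1 else 0) - (if v = (false, false, false) then 1 else 0)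

/-- the degrees -/
def d8 (p : V8) : ℕ :=
  if p.1 = false ∧ p.2.1 = false then p.2.2.toNat else 1 + p.2.2.toNat

theorem ab8 : ∀ p q : V8, ∑ v, a8 q v * b8 p v = if p = q then 1 else 0 := by decide

theorem ba8 : ∀ v v' : V8, ∑ p, b8 p v * a8 p v' = if v' = v then 1 else 0 := by decide

theorem m8 : ∀ p p' q : V8, ∑ v, a8 q v * (b8 p v * b8 p' v) ≠ 0 → d8 q ≤ d8 p + d8 p' := by
  decide

variable {t : ℕ} {G : Type} [AddCommGroup G]

/-- the cube that contains a vertex -/
def h3 (v : SF t) : V8 := (v.1, v.2.1, v.2.2.1)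

/-- the vertex `w` of the cube `p` -/
def mk3 (p : V8) (w : Fin t → Bool) : SF t := (p.1, p.2.1, p.2.2, w)

/-- indices of the basis -/
abbrev IX (t : ℕ) : Type := V8 × (Fin t → Bool)

/-- degree of a basis element -/
def dg (k : IX t) : ℕ := wt k.2 + d8 k.1

open Classical in
/-- the basis -/
def BZ (k : IX t) (v : SF t) : ℤ := if k.2 ≤ v.2.2.2 then b8 k.1 (h3 v) else 0

/-- the pattern with parameters `u` -/
def ex (u : IX t → G) (v : SF t) : G :=
  ∑ p, b8 p (h3 v) • zeta (Fin t) G (fun β => u (p, β)) v.2.2.2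

theorem ex_eq (u : IX t → G) (v : SF t) : ex u v = ∑ k, BZ k v • u k := by
  unfold ex BZ
  conv_rhs => rw [Fintype.sum_prod_type]
  refine sum_congr rfl fun p _ => ?_
  rw [zeta_apply, Finset.smul_sum]
  refine sum_congr rfl fun β _ => ?_
  split_ifs <;> simp

theorem a8_ex (u : IX t → G) (q : V8) (w : Fin t → Bool) :
    ∑ v, a8 q v • ex u (mk3 v w) = zeta (Fin t) G (fun β => u (q, β)) w := by
  show ∑ v, a8 q v • ∑ p, b8 p v • zeta (Fin t) G (fun β => u (p, β)) w = _
  simp only [Finset.smul_sum, smul_smul]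
  rw [sum_comm]
  simp only [← Finset.sum_smul, ab8, ite_smul, one_smul, zero_smul, sum_ite_eq', mem_univ, if_true]

theorem b8_a8 (z : V8 → G) (v : V8) : ∑ p, b8 p v • ∑ v', a8 p v' • z v' = z v := by
  simp only [Finset.smul_sum, smul_smul]
  rw [sum_comm]
  simp only [← Finset.sum_smul, ba8, ite_smul, one_smul, zero_smul, sum_ite_eq', mem_univ, if_true]

theorem ex_inj {u : IX t → G} (h : ∀ v, ex u v = 0) : u = 0 := by
  funext k
  have h1 : zeta (Fin t) G (fun β => u (k.1, β)) = 0 := by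
    funext w
    rw [← a8_ex]
    simp [h]
  exact congrFun (zeta_injective (h1.trans (map_zero _).symm)) k.2

theorem mem_Pat8 {F : ℕ → AddSubgroup G} (hF : Antitone F) {z : SF t → G} :
    z ∈ Pat8 F t ↔ ∃ u : IX t → G, (∀ k, u k ∈ F (dg k)) ∧ z = ex u := by
  have hm : ∀ {S : AddSubgroup ((Fin t → Bool) → G)} {a b : (Fin t → Bool) → G}, a ∈ S →
      (∀ w, b w = a w) → b ∈ S := fun h e => (funext e) ▸ h
  constructor
  · rintro ⟨h1, h2, h3'⟩
    have h : ∀ p : V8, (fun w => ∑ v, a8 p v • z (mk3 v w)) ∈ Cu (sh F (d8 p)) (Fin t) := by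
      rintro ⟨s, i, n⟩
      have e1 := h2 s i n
      have e2 := h3' s i
      cases s <;> cases i <;> cases n
      · exact hm h1 fun w => by simp [a8, mk3]
      all_goals first
        | exact hm e1 fun w => by simp [Fintype.sum_prod_type, a8, mk3]; abel
        | exact hm e2 fun w => by simp [Fintype.sum_prod_type, a8, mk3]; abel
    choose u hu hz using fun p => mem_Cu.1 (h p)
    refine ⟨fun k => u k.1 k.2, fun k => hu k.1 k.2, funext fun v => ?_⟩
    unfold ex
    simp only [hz]
    exact (b8_a8 (fun v' => z (mk3 v' v.2.2.2)) (h3 v)).symm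
  · rintro ⟨u, hu, rfl⟩
    have key : ∀ (j : ℕ) (co : V8 → ℤ), (∀ p, co p ≠ 0 → j ≤ d8 p) →
        (fun w => ∑ p, co p • zeta (Fin t) G (fun β => u (p, β)) w) ∈ Cu (sh F j) (Fin t) := by
      intro j co h
      have : (fun w => ∑ p, co p • zeta (Fin t) G (fun β => u (p, β)) w) =
          ∑ p, co p • zeta (Fin t) G (fun β => u (p, β)) := by
        funext w; simp
      rw [this]
      refine sum_mem fun p _ => ?_
      by_cases h0 : co p = 0
      · rw [h0, zero_smul]; exact zero_mem _
      · exact zsmul_mem (Cu_sh_le_sh hF (h p h0) (zeta_mem_Cu.2 fun β => hu (p, β))) _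
    refine ⟨key 0 (fun p => b8 p (false, false, false)) (fun _ _ => Nat.zero_le _), fun s i n => ?_,
      fun s i => ?_⟩
    · convert key 1 (fun p => b8 p (s, i, n) - b8 p (false, false, false))
        (by revert s i n; decide) using 1
      funext w
      simp only [ex, h3, sub_smul, sum_sub_distrib]
    · convert key 2 (fun p => b8 p (s, i, false) + b8 p (s, i, true) - b8 p (false, false, false) -
        b8 p (false, false, true)) (by revert s i; decide) using 1
      funext w
      simp only [ex, h3, sub_smul, add_smul, sum_sub_distrib, sum_add_distrib]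

/-! ### the lattices -/

/-- the basis as real functions -/
def BR (k : IX t) : SF t → ℝ := fun v => BZ k v

/-- integer combinations of basis elements of degree `≤ n` -/
def LL (t n : ℕ) : Submodule ℤ (SF t → ℝ) where
  carrier := {y | ∃ u : IX t → ℤ, (∀ k, n < dg k → u k = 0) ∧ y = ∑ k, u k • BR k}
  add_mem' := by
    rintro _ _ ⟨u, hu, rfl⟩ ⟨u', hu', rfl⟩
    exact ⟨u + u', fun k hk => by simp [hu k hk, hu' k hk], by simp [add_mul, sum_add_distrib]⟩
  zero_mem' := ⟨0, fun _ _ => rfl, by simp⟩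
  smul_mem' := by
    rintro r _ ⟨u, hu, rfl⟩
    exact ⟨r • u, fun k hk => by simp [hu k hk], by simp [mul_sum, mul_assoc]⟩

theorem sum_BR (u : IX t → ℤ) (v : SF t) : (∑ k, u k • BR k) v = (ex u v : ℤ) := by
  rw [ex_eq]
  simp [BR, mul_comm]

theorem indep_BR : LinearIndependent ℝ (BR (t := t)) := by
  rw [Fintype.linearIndependent_iff]
  intro u hu
  refine congrFun (ex_inj fun v => ?_)
  rw [ex_eq]
  simpa [BR, mul_comm] using congrFun hu v

theorem BR_mem {n : ℕ} {k : IX t} (h : dg k ≤ n) : BR k ∈ LL t n := by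
  classical
  refine ⟨Pi.single k 1, fun k' hk => Pi.single_eq_of_ne (by rintro rfl; omega) _, ?_⟩
  simp [Pi.single_apply]

theorem LL_ind {n : ℕ} {S : Submodule ℤ (SF t → ℝ)} (h : ∀ k, dg k ≤ n → BR k ∈ S) :
    LL t n ≤ S := by
  rintro _ ⟨u, hu, rfl⟩
  refine sum_mem fun k _ => ?_
  by_cases hk : dg k ≤ n
  · exact S.smul_mem _ (h k hk)
  · rw [hu k (by omega), zero_smul]; exact zero_mem _

theorem BR_mul (k k' : IX t) : BR k * BR k' ∈ LL t (dg k + dg k') := by
  classical
  have e : BR k * BR k' =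
      ∑ q, (∑ v, a8 q v * (b8 k.1 v * b8 k'.1 v)) • BR (q, k.2 ⊔ k'.2) := by
    funext v
    have h := b8_a8 (fun v => b8 k.1 v * b8 k'.1 v) (h3 v)
    simp only [smul_eq_mul] at h
    simp only [BR, BZ, Pi.mul_apply, Finset.sum_apply, sup_le_iff, zsmul_eq_mul]
    by_cases h1 : k.2 ≤ v.2.2.2 <;> by_cases h2 : k'.2 ≤ v.2.2.2 <;> simp only [h1, h2] <;> simp
    rw [← Int.cast_mul, ← h]
    push_cast
    exact sum_congr rfl fun q _ => mul_comm _ _
  rw [e]
  refine sum_mem fun q _ => ?_
  by_cases h0 : ∑ v, a8 q v * (b8 k.1 v * b8 k'.1 v) = 0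
  · rw [h0, zero_smul]; exact zero_mem _
  · refine Submodule.smul_mem _ _ (BR_mem ?_)
    have h1 := m8 _ _ _ h0
    have h2 := wt_sup_le k.2 k'.2
    unfold dg
    dsimp only
    omega

theorem LL_mono {i j : ℕ} (h : i ≤ j) : LL t i ≤ LL t j :=
  LL_ind fun _ hk => BR_mem (hk.trans h)

theorem LL_mul {i j : ℕ} {x y : SF t → ℝ} (hx : x ∈ LL t i) (hy : y ∈ LL t j) :
    x * y ∈ LL t (i + j) :=
  LL_ind (S := (LL t (i + j)).comap (LinearMap.mulRight ℤ y)) (fun k hk =>
    LL_ind (S := (LL t (i + j)).comap (LinearMap.mulLeft ℤ (BR k)))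
      (fun k' hk' => LL_mono (add_le_add hk hk') (BR_mul k k')) hy) hx

theorem BR_bot (p : V8) (v : SF t) : BR (p, fun _ => false) v = b8 p (h3 v) := by
  unfold BR BZ
  rw [if_pos (show (fun _ => false) ≤ v.2.2.2 from fun _ => Bool.false_le _)]

theorem dg_bot (p : V8) : dg (t := t) (p, fun _ => false) = d8 p := by
  simp [dg, wt]

theorem BR_one : BR (t := t) ((false, false, false), fun _ => false) = 1 := by
  funext v
  simp [BR_bot, b8]

theorem one_mem_LL (n : ℕ) : (1 : SF t → ℝ) ∈ LL t n := by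
  rw [← BR_one]
  exact BR_mem (by rw [dg_bot]; exact Nat.zero_le _)

theorem LL_pow {x : SF t → ℝ} (hx : x ∈ LL t 1) (n : ℕ) : x ^ n ∈ LL t n := by
  induction n with
  | zero => exact one_mem_LL 0
  | succ n ih => rw [pow_succ]; exact LL_mul ih hx

/-- the `i`-th direction -/
def e1 (i : Fin t) : Fin t → Bool := fun j => decide (j = i)

theorem dg_single (i : Fin t) : dg ((false, false, false), e1 i) = 1 := by
  classical
  simp only [dg, wt, d8]
  rw [sum_eq_single i (fun j _ hj => by simp [e1, hj]) (by simp)]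
  simp [e1]

theorem BR_single (i : Fin t) (v : SF t) :
    BR ((false, false, false), e1 i) v = (v.2.2.2 i).toNat := by
  unfold BR BZ
  cases h : v.2.2.2 i
  · rw [if_neg fun h1 => absurd (h1 i) (by simp [h, e1])]; simp
  · rw [if_pos (show e1 i ≤ v.2.2.2 from fun j => ?_)]
    · simp [b8]
    · by_cases hj : j = i
      · subst hj; simp [h]
      · simp [e1, hj]

/-- the pattern ring -/
def rg (s t : ℕ) : Rg s (SF t → ℝ) (EuclideanSpace ℝ (SF t)) where
  L := LL t
  t0 := 1
  Q _ := (WithLp.linearEquiv 2 ℝ (SF t → ℝ)).symm.toLinearMap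
  lat _ := isLat_of_gen indep_BR fun _ ⟨u, _, h⟩ => ⟨u, h⟩
  one_mem := Submodule.subset_span (one_mem_LL 0)
  t0_mem := Submodule.subset_span (one_mem_LL 1)
  mul_mem i j _ x hx y hy := by
    have := Submodule.mul_mem_mul hx hy
    rw [Submodule.span_mul_span] at this
    refine Submodule.span_mono ?_ this
    rintro _ ⟨a, ha, b, hb, rfl⟩
    exact LL_mul ha hb
  inj _ _ x _ h := (WithLp.linearEquiv 2 ℝ (SF t → ℝ)).symm.injective (h.trans (map_zero _).symm)

theorem nrm_Q (s n : ℕ) (y : SF t → ℝ) : ‖(rg s t).Q n y‖ ^ 2 = ∑ v, y v ^ 2 := by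
  rw [EuclideanSpace.norm_sq_eq]
  simp [rg]

theorem E_eq (s n : ℕ) :
    (rg s t).E n = Submodule.span ℝ (Set.range fun k : {k : IX t // dg k ≤ n} => BR k.1) := by
  refine le_antisymm (Submodule.span_le.2 fun y hy => ?_) (Submodule.span_mono ?_)
  · exact LL_ind (S := Submodule.restrictScalars ℤ
      (Submodule.span ℝ (Set.range fun k : {k : IX t // dg k ≤ n} => BR k.1)))
      (fun k hk => Submodule.subset_span ⟨⟨k, hk⟩, rfl⟩) hy
  · rintro _ ⟨k, rfl⟩
    exact BR_mem k.2

theorem rk_eq (s n : ℕ) : (rg s t).rk n = ∑ β : Fin t → Bool, ((if wt β ≤ n then 1 else 0) +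
    4 * (if wt β + 1 ≤ n then 1 else 0) + 3 * if wt β + 2 ≤ n then 1 else 0) := by
  classical
  rw [Rg.rk, E_eq, finrank_span_eq_card (b := fun k : {k : IX t // dg k ≤ n} => BR k.1)
    (indep_BR.comp _ Subtype.val_injective),
    Fintype.card_subtype, card_filter, Fintype.sum_prod_type_right]
  refine sum_congr rfl fun β _ => ?_
  simp only [dg, d8, Fintype.sum_prod_type, Fintype.sum_bool]
  simp
  split_ifs <;> omega

/-- the generators -/
abbrev GI (t : ℕ) : Type := {k : IX t // dg k ≤ 1}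

theorem BR_mem_pow (k : IX t) :
    BR k ∈ Submodule.span ℝ (Set.range fun k : GI t => BR k.1) ^ dg k := by
  classical
  set S := Submodule.span ℝ (Set.range fun k : GI t => BR k.1) with hS
  have h0 : ∀ k, dg k ≤ 1 → BR k ∈ S := fun k hk => Submodule.subset_span ⟨⟨k, hk⟩, rfl⟩
  have h1 : (1 : SF t → ℝ) ∈ S ^ 0 := by rw [pow_zero]; exact Submodule.one_le.1 le_rfl
  have hm : ∀ i j, ∀ x ∈ S ^ i, ∀ y ∈ S ^ j, x * y ∈ S ^ (i + j) := fun i j x hx y hy => by
    rw [pow_add]; exact Submodule.mul_mem_mul hx hy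
  have e : BR k = (∏ i, if k.2 i then BR ((false, false, false), e1 i) else 1) *
      BR (k.1, fun _ => false) := by
    funext v
    rw [Pi.mul_apply, BR_bot, Finset.prod_apply]
    unfold BR BZ
    split_ifs with h
    · rw [prod_eq_one, one_mul]
      intro i _
      cases hi : k.2 i
      · simp
      · have := h i
        rw [hi] at this
        have h2 := BR_single i v
        unfold BR BZ at h2
        simp only [if_true]
        rw [h2, Bool.eq_true_of_true_le this]; simp
    · obtain ⟨i, hi⟩ := not_forall.1 h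
      have h2 := BR_single i v
      unfold BR BZ at h2
      rw [prod_eq_zero (mem_univ i)]
      · simp
      · revert hi h2
        cases k.2 i <;> cases v.2.2.2 i <;> simp
  rw [e]
  refine hm _ _ _ (prod_mem_grade (s := wt k.2) (E := fun i => S ^ i) h1
    (fun i j _ => hm i j) _ _ _ (fun i _ => ?_) le_rfl) _ ?_
  · cases k.2 i
    · exact h1
    · simpa using h0 _ (dg_single i).le
  · obtain ⟨⟨a, b, c⟩, β⟩ := k
    have h2 : ∀ a b, ¬(a = false ∧ b = false) → BR (t := t) ((a, b, true), fun _ => false) =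
        -(BR ((a, b, false), fun _ => false) * BR ((false, false, true), fun _ => false)) := by
      intro a b h
      funext v
      simp only [Pi.neg_apply, Pi.mul_apply, BR_bot, ← Int.cast_mul, ← Int.cast_neg]
      congr 1
      generalize h3 v = x
      revert a b x
      decide
    have h4 : ∀ p : V8, d8 p = 1 → BR (t := t) (p, fun _ => false) ∈ S ^ 1 := fun p hp => by
      rw [pow_one]; exact h0 _ (by rw [dg_bot, hp])
    cases a <;> cases b <;> cases c
    · rw [BR_one]; exact h1
    all_goals first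
      | exact h4 _ rfl
      | (rw [h2 _ _ (by simp)]; exact neg_mem (hm 1 1 _ (h4 _ rfl) _ (h4 _ rfl)))

theorem exists_gens (s t : ℕ) : ∃ K : ℝ, 1 ≤ K ∧ Nonempty ((rg s t).Gens (GI t) K) := by
  classical
  refine ⟨1 + ∑ l ∈ range (s + 1), ∑ u : Fin l → GI t, ‖(rg s t).Q l (∏ i, BR (u i).1)‖,
    le_add_of_nonneg_right (by positivity), ⟨fun k => BR k.1, fun l _ _ u => ?_,
    fun l _ hl u => ?_, fun l h1 _ => ?_⟩⟩
  · clear * - u
    induction l with
    | zero => exact one_mem_LL 0
    | succ l ih => rw [Fin.prod_univ_castSucc]; exact LL_mul (ih _) (BR_mem (u _).2)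
  · refine le_add_of_nonneg_of_le zero_le_one (le_trans ?_ (single_le_sum
      (f := fun l => ∑ u : Fin l → GI t, ‖(rg s t).Q l (∏ i, BR (u i).1)‖)
      (fun _ _ => by positivity) (mem_range.2 (Nat.lt_succ_of_le hl))))
    exact single_le_sum (f := fun u : Fin l → GI t => ‖(rg s t).Q l (∏ i, BR (u i).1)‖)
      (fun _ _ => norm_nonneg _) (mem_univ u)
  · rw [E_eq]
    refine Submodule.span_le.2 ?_
    rintro _ ⟨k, rfl⟩
    have h2 : (1 : SF t → ℝ) ∈ Submodule.span ℝ (Set.range fun k : GI t => BR k.1) :=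
      Submodule.subset_span ⟨⟨_, by rw [dg_bot]; exact Nat.zero_le _⟩, BR_one⟩
    have h3 := Submodule.mul_mem_mul (BR_mem_pow k.1) (Submodule.pow_mem_pow _ h2 (l - dg k.1))
    rw [← pow_add, Nat.add_sub_cancel' k.2, one_pow, mul_one, Submodule.span_pow] at h3
    refine Submodule.span_mono ?_ h3
    intro y hy
    obtain ⟨f, rfl⟩ := Set.mem_pow.1 hy
    choose u hu using fun i => (f i).2
    exact ⟨u, by simp only [hu, List.prod_ofFn]⟩

theorem l1_mem : (fun v => (l1 v : ℝ)) ∈ LL t 1 := by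
  have : (fun v : SF t => (l1 v : ℝ)) = BR ((false, true, false), fun _ => false) +
      ∑ i, BR ((false, false, false), e1 i) := by
    funext v
    simp only [Pi.add_apply, Finset.sum_apply, BR_bot, BR_single, l1, wt]
    obtain ⟨a, b, c, w⟩ := v
    cases a <;> cases b <;> cases c <;> simp [b8, h3]
  rw [this]
  exact add_mem (BR_mem (by rw [dg_bot]; rfl)) (sum_mem fun i _ => BR_mem (dg_single i).le)

theorem l2_mem : (fun v => (l2 v : ℝ)) ∈ LL t 1 := by
  have : (fun v : SF t => (l2 v : ℝ)) = BR ((true, true, false), fun _ => false) := by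
    funext v
    obtain ⟨a, b, c, w⟩ := v
    cases a <;> cases b <;> cases c <;> simp [BR_bot, l2, b8, h3]
  rw [this]
  exact BR_mem (by rw [dg_bot]; rfl)

theorem mem_Pat8_lvl {ι : Type} {lev : ι → ℕ} {z : SF t → ι → ℤ} :
    z ∈ Pat8 (lvl lev) t ↔ ∀ c, (fun v => (z v c : ℝ)) ∈ LL t (lev c) := by
  have he : ∀ (u : IX t → ι → ℤ) v c, ex u v c = ex (fun k => u k c) v := fun u v c => by
    simp [ex_eq]
  rw [mem_Pat8 lvl_anti]
  constructor
  · rintro ⟨u, hu, rfl⟩ c
    exact ⟨fun k => u k c, fun k hk => hu k c hk, funext fun v => by rw [sum_BR, he]⟩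
  · intro h
    choose u hu hz using h
    refine ⟨fun k c => u c k, fun k c hc => hu c k hc, funext fun v => funext fun c => ?_⟩
    have := congrFun (hz c) v
    rw [sum_BR] at this
    rw [he]
    exact_mod_cast this

end Crest.Agent.T49.Sy.P3
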