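import Crest.Agent.T49.RiSymDef_29
import Crest.Agent.T49.RiApi_81
import Crest.Agent.T49.GiStep6_65

/-!
# Row 49 (helper9): the leaf `RESC` of the symmetry step
-/

set_option autoImplicit false

noncomputable section

namespace Crest.Agent.T49.Sy

open Finset MvPolynomial
open Crest.Agent.T49.Tw Crest.Agent.T49.Nil Crest.Agent.T49.Nil.ND
open Crest.Agent.T49.GI (dil)
open Crest.Agent.T49.GI.S6 (dil_star dil_nat fn_dil norm_dil_le)
open Crest.Agent.T49.Ri Crest.Agent.T49.Ri.A81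

/-- RESC -/
theorem rescStmt9 : RescStmt := by
  intro l t
  refine ⟨0, 2 * t + 5, by omega, fun ι _ T m f hT _ ⟨κ, _, A, hd, η, x, F, φ, b, H, h⟩ => ?_⟩
  have hm := hT.two
  have hR : (1 : ℝ) ≤ ((t + 2 : ℕ) : ℝ) := by exact_mod_cast (by omega : 1 ≤ t + 2)
  have h1 : m ≤ m ^ (2 * t + 5) := le_self_pow₀ (by linarith) (by omega)
  have h2 : Real.exp m * ((t + 2 : ℕ) : ℝ) ^ (t + 2) ≤ Real.exp (m ^ (2 * t + 5)) := by
    have a1 : ((t + 2 : ℕ) : ℝ) ≤ m ^ (t + 2) := (Nat.cast_le.2 Nat.lt_two_pow_self.le).trans (by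
      rw [Nat.cast_pow]
      exact pow_le_pow_left₀ (by positivity) (by simpa using hm) _)
    have a2 : ((t + 2 : ℕ) : ℝ) ^ (t + 2) ≤ Real.exp (m ^ (t + 2) * m ^ (t + 2)) :=
      (pow_le_pow_left₀ (b := Real.exp ((t + 2 : ℕ) : ℝ)) (by positivity)
        (by linarith [Real.add_one_le_exp ((t + 2 : ℕ) : ℝ)]) _).trans
        (by rw [← Real.exp_nat_mul]
            exact Real.exp_le_exp.2 (mul_le_mul a1 a1 (by positivity) (by positivity)))
    refine (mul_le_mul_of_nonneg_left a2 (Real.exp_pos _).le).trans ?_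
    rw [← Real.exp_add, ← pow_add]
    have a3 : m ≤ m ^ (t + 2 + (t + 2)) := le_self_pow₀ (by linarith) (by omega)
    rw [show 2 * t + 5 = t + 2 + (t + 2) + 1 by omega, pow_succ]
    exact Real.exp_le_exp.2 (by nlinarith)
  refine ⟨κ, _, A, hd, fun k => ((t + 2 : ℕ) : ℤ) ^ (t + 2) * η k,
    fun k => C ((((t + 2 : ℕ) : ℝ) ^ A.wt k)⁻¹) * x k, fun z => F (dil A (t + 2 : ℕ) z), φ, b, H,
    ⟨h.dim.trans h1, h.good.mono (Real.exp_le_exp.2 h1), h.bigr, ⟨⟨fun _ => h.chr.bdd _,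
      fun z γ hγ => ?_, fun Z z => ?_⟩, fun k hk => by simp [h.chr.supp k hk], fun k => ?_,
      fun Z hZ z => ?_⟩, fun k hk => by simp [h.top k hk],
      fun k => ⟨hom_C_mul (h.bih k).1 _, hom_C_mul (h.bih k).2 _⟩, dense_mono h.dense h1,
      chp_mono h.chp h1, h.bdd, fun a ha => ?_⟩,
    fun k => Dvd.dvd.mul_right (by push_cast; exact dvd_pow_self _ (by omega)) _⟩
  · rw [dil_star h.bigr.gr]
    refine h.chr.per _ _ fun k => ?_
    obtain ⟨u, hu⟩ := hγ k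
    exact ⟨((t + 2 : ℕ) : ℤ) ^ A.wt k * u, by simp [dil, hu]⟩
  · rw [dil_star h.bigr.gr]
    refine (h.chr.lip _ _).trans ((mul_le_mul_of_nonneg_left (norm_dil_le h.good.wt_le hR Z)
      (Real.exp_pos _).le).trans ?_)
    rw [← mul_assoc]
    exact mul_le_mul_of_nonneg_right h2 (norm_nonneg _)
  · rw [Int.cast_mul, Int.cast_pow, Int.cast_natCast, abs_mul, abs_of_nonneg (by positivity),
      mul_comm]
    exact (mul_le_mul_of_nonneg_right (h.chr.η_le k) (by positivity)).trans h2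
  · rw [dil_star h.bigr.gr, h.chr.vert _ fun k hk => by simp [dil, hZ k hk], fn_dil h.chr.supp]
  · obtain ⟨ψ, p1, p2⟩ := h.cor a ha
    refine ⟨ψ, nil_mono p1 le_rfl h1, cor_mono ?_ h1⟩
    refine cor_congr p2 fun p => congrArg (· * ψ p) (congrArg (_ * F ·) (pts_ext fun k => ?_))
    have : ((t + 2 : ℕ) : ℝ) ^ A.wt k ≠ 0 := by positivity
    change eval _ (x k) = _ * eval _ (C _ * x k)
    rw [map_mul, eval_C, mul_inv_cancel_left₀ this]

end Crest.Agent.T49.Sy
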