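import Crest.Agent.T49.RiSymDef_29
import Crest.Agent.T49.RiHerA_85
import Crest.Agent.T49.RiMs_54
import Crest.Agent.T49.RiMp_98

/-!
# Row 49 (helper56): `TanStmt`
-/

set_option autoImplicit false

noncomputable section

namespace Crest.Agent.T49.Sy

open Finset MvPolynomial
open Crest.Agent.T49.Tw Crest.Agent.T49.Ri Crest.Agent.T49.Ri.Hr85
open Crest.Agent.T49.Br (Cs)

theorem nd_tan56 {ι : Type} [Fintype ι] (T : Cell ι) {S : ℕ} {Q : ℝ} (hQ : 0 ≤ Q)
    (h : (Cs.ofCell (tg 1 T)).ND S (Q * 2 ^ S)) : (tanC (Cs.ofCell T)).ND S Q := by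
  intro d h1 h2 e he hn hI
  have hs : (0 : ℝ) < √2 := by positivity
  have hs2 : √2 ≤ (2 : ℝ) := Real.sqrt_le_iff.2 ⟨by norm_num, by norm_num⟩
  have hs1 : (1 : ℝ) ≤ √2 := Real.one_le_sqrt.2 (by norm_num)
  let φ : ι ⊕ ι → YI ι 1 := Sum.elim Sum.inl fun c => Sum.inr (0, c)
  let s : ι ⊕ ι → ℝ := Sum.elim (fun _ => (√2)⁻¹) fun _ => √2
  let r : ι ⊕ ι → Pl (YI ι 1) := fun v => C (s v) * X (φ v)
  let r' : YI ι 1 → Pl (ι ⊕ ι) :=
    Sum.elim (fun c => C √2 * X (Sum.inl c)) fun p => C (√2)⁻¹ * X (Sum.inr p.2)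
  have hr : ∀ v, IsWeightedHomogeneous (tg 1 T).lev (r v) ((tanC (Cs.ofCell T)).lev v) := fun v => by
    cases v <;> exact hom_C_mul (isWeightedHomogeneous_X ℝ _ _) _
  have hrn : ∀ v, nrm (r v) ≤ 2 := fun v => by
    have : |s v| ≤ 2 := by
      cases v
      · exact (abs_of_pos (inv_pos.2 hs)).trans_le ((inv_le_one_of_one_le₀ hs1).trans one_le_two)
      · exact (abs_of_pos hs).trans_le hs2
    simpa [r, nrm_C_mul, nrm_X] using this
  have hh : helm 1 (0 : Fin 1).succ (0 : Fin 1).succ = (√2)⁻¹ := by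
    norm_num [helm]
  have hth : ∀ v, aeval (tg 1 T).tth (r v) = rename φ ((tanC (Cs.ofCell T)).th v) := fun v => by
    simp only [r, map_mul, aeval_C, aeval_X, tg_tth, algebraMap_eq]
    cases v with
    | inl c =>
      change C (√2)⁻¹ * (tg 1 T).th (Sum.inl c) = rename φ (rename Sum.inl (T.tth c))
      rw [tg_th_inl, rename_rename, ← mul_assoc, ← C_mul]
      norm_num
      rfl
    | inr c =>
      change C √2 * (tg 1 T).th (Sum.inr (0, c)) = rename φ (dirD (T.tth c))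
      rw [tg_th_inr, Fin.sum_univ_succ, Fin.sum_univ_zero, add_zero, hh, ← mul_assoc, ← C_mul,
        mul_inv_cancel₀ hs.ne', C_1, one_mul, dw, dirD, map_sum]
      refine sum_congr rfl fun c' _ => ?_
      rw [map_mul, rename_rename, rename_X]
      rfl
  have e1 : aeval (tg 1 T).tth (aeval r e) = rename φ (aeval (tanC (Cs.ofCell T)).th e) := by
    rw [← AlgHom.comp_apply, ← AlgHom.comp_apply, comp_aeval, comp_aeval, funext hth]
  have e2 := h d h1 h2 (aeval r e) (hom_bind' hr he)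
    ((nrm_bind_le_of_pos (tanC (Cs.ofCell T)).pos hrn one_le_two (DegLe.of_hom he)).trans
      (mul_le_mul hn (pow_le_pow_right₀ one_le_two h2) (by positivity) hQ))
    (by
      change Tw.IsInt (aeval (tg 1 T).tth (aeval r e))
      rw [e1]
      exact hI.rename φ)
  have e3 : aeval r' (aeval r e) = e := by
    rw [← AlgHom.comp_apply, comp_aeval]
    have : (fun v => aeval r' (r v)) = X := funext fun v => by
      cases v <;> simp [r, r', s, φ, ← mul_assoc, ← C_mul]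
    rw [this, aeval_X_left_apply]
  rw [← e3, e2, map_zero]

theorem tanStmt56 : TanStmt := by
  intro l S
  obtain ⟨Dn, Cn, hCn, hNd⟩ := ndStmt l S
  obtain ⟨D, C, hC, hG⟩ := gmPcStmt l Dn
  obtain ⟨a, ha⟩ : ∃ C : ℕ, ∀ m : ℝ, 2 ≤ m → 2 * m ≤ m ^ C ∧ (((1 + l + 2) ^ 2 : ℕ) : ℝ) ≤ m ^ C ∧
      Real.exp m * 2 ^ S ≤ Real.exp (m ^ C) := by qp
  refine ⟨D, (a + 1) * Cn * C, Nat.mul_pos (Nat.mul_pos (by omega) hCn) hC,
    fun ι _ T m hT => ?_⟩
  have hm := hT.two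
  obtain ⟨a1, a2, a3⟩ := ha m hm
  replace a1 := a1.trans (Qp.pw_mono hm (Nat.le_succ a))
  replace a2 := a2.trans (Qp.pw_mono hm (Nat.le_succ a))
  replace a3 := a3.trans (Qp.exp_pw_mono hm (Nat.le_succ a))
  rw [pow_mul, pow_mul] at hT
  generalize m ^ (a + 1) = m1 at a1 a2 a3 hT
  have b2 : m1 ≤ m1 ^ Cn := le_self_pow₀ (by linarith) (by omega)
  have h1 := hG ι T (m1 ^ Cn) ⟨by linarith, by linarith [hT.card], hT.gm⟩ _ (tg 1 T) _
    ((tg_pc 1 T (mpStmt ι T 1) hT.gm.1).mono (a2.trans b2))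
  have h2 := hNd _ (tg 1 T) m1 ⟨by linarith, by
    have := hT.card
    simp only [YI, Fintype.card_sum, Fintype.card_prod, Fintype.card_fin]
    push_cast
    linarith, h1⟩
  exact nd_tan56 T (Real.exp_pos _).le fun d d1 d2 e he hn hI =>
    h2 d d1 d2 e he (hn.trans a3) hI

end Crest.Agent.T49.Sy
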