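import Crest.Agent.T49.GowB_67
import Crest.Agent.T49.GowConv_73
import Crest.Agent.T49.RatDef_50

/-!
# Row 49 (helper62): templates (the dual function trick twice, greedy covering, pigeonhole)
-/

set_option autoImplicit false

noncomputable section

namespace Crest.Agent.T49.Tmpl

open Finset Crest.Agent.T49.Gow
open scoped ComplexConjugate Pointwise Classical

variable {G : Type*}

lemma exists_unit (a : ℂ) : ∃ c : ℂ, ‖c‖ ≤ 1 ∧ c * a = (‖a‖ : ℂ) := by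
  by_cases h : a = 0
  · exact ⟨0, by simp, by simp [h]⟩
  · have h1 : (‖a‖ : ℂ) ≠ 0 := by exact_mod_cast norm_ne_zero_iff.2 h
    refine ⟨conj a / ‖a‖, ?_, ?_⟩
    · rw [norm_div, RCLike.norm_conj, Complex.norm_real, norm_norm, div_self (norm_ne_zero_iff.2 h)]
    · rw [div_mul_eq_mul_div, mul_comm, Complex.mul_conj, Complex.normSq_eq_norm_sq]
      push_cast
      field_simp

/-- the dual function -/
lemma exists_dual {A : Type*} (S : Finset G) (Z : Finset A) (hS : 0 < S.card)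
    (hZ : Z.card ≤ S.card) (k : A → G → ℂ) (hk : ∀ z ∈ Z, ∀ y ∈ S, ‖k z y‖ ≤ 1) (b : G → ℂ)
    (hb : ∀ y ∈ S, ‖b y‖ ≤ 1) {τ : ℝ} (hτ : 0 ≤ τ)
    (h : τ * (S.card : ℝ) ^ 2 ≤ ∑ z ∈ Z, ‖∑ y ∈ S, k z y * b y‖) :
    ∃ D : G → ℂ, Supp D S ∧ (∀ y, ‖D y‖ ≤ 1) ∧
      τ ^ 2 * (S.card : ℝ) ^ 2 ≤ ∑ z ∈ Z, ‖∑ y ∈ S, k z y * conj (D y)‖ ∧
      ∀ ψ : G → ℂ, (S.card : ℝ) * ‖∑ y ∈ S, D y * ψ y‖ ≤ ∑ z ∈ Z, ‖∑ y ∈ S, k z y * ψ y‖ := by
  have hn : (0 : ℝ) < S.card := by exact_mod_cast hS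
  have hnc : (S.card : ℂ) ≠ 0 := by exact_mod_cast hS.ne'
  choose c hc1 hc2 using fun z : A => exists_unit (∑ y ∈ S, k z y * b y)
  let D : G → ℂ := fun y => if y ∈ S then (S.card : ℂ)⁻¹ * ∑ z ∈ Z, c z * k z y else 0
  have hD : ∀ ψ : G → ℂ, (S.card : ℂ) * ∑ y ∈ S, D y * ψ y =
      ∑ z ∈ Z, c z * ∑ y ∈ S, k z y * ψ y := by
    intro ψ
    simp only [mul_sum]
    rw [sum_comm]
    refine sum_congr rfl fun y hy => ?_
    simp only [D, if_pos hy]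
    rw [← mul_assoc, ← mul_assoc, mul_inv_cancel₀ hnc, one_mul, sum_mul]
    exact sum_congr rfl fun z _ => by ring
  have hD2 : ∀ ψ : G → ℂ, (S.card : ℝ) * ‖∑ y ∈ S, D y * ψ y‖ ≤
      ∑ z ∈ Z, ‖∑ y ∈ S, k z y * ψ y‖ := by
    intro ψ
    have h1 := congrArg norm (hD ψ)
    rw [norm_mul, Complex.norm_natCast] at h1
    rw [h1]
    refine (norm_sum_le _ _).trans (sum_le_sum fun z _ => ?_)
    rw [norm_mul]
    exact mul_le_of_le_one_left (norm_nonneg _) (hc1 z)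
  refine ⟨D, fun y hy => if_neg hy, fun y => ?_, ?_, hD2⟩
  · by_cases hy : y ∈ S
    · simp only [D, if_pos hy]
      rw [norm_mul, norm_inv, Complex.norm_natCast, inv_mul_le_iff₀ hn, mul_one]
      refine (norm_sum_le _ _).trans ((sum_le_card_nsmul _ _ 1 fun z hz => ?_).trans ?_)
      · rw [norm_mul]
        exact mul_le_one₀ (hc1 z) (norm_nonneg _) (hk z hz y hy)
      · rw [nsmul_eq_mul, mul_one]
        exact_mod_cast hZ
    · simp [D, hy]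
  · have h1 := hD b
    simp only [hc2] at h1
    rw [← Complex.ofReal_sum] at h1
    have h2 := congrArg norm h1
    rw [norm_mul, Complex.norm_natCast, Complex.norm_real,
      Real.norm_of_nonneg (sum_nonneg fun _ _ => norm_nonneg _)] at h2
    have h3 : τ * S.card ≤ ∑ y ∈ S, ‖D y‖ := by
      have h4 : ‖∑ y ∈ S, D y * b y‖ ≤ ∑ y ∈ S, ‖D y‖ := by
        refine (norm_sum_le _ _).trans (sum_le_sum fun y hy => ?_)
        rw [norm_mul]
        exact mul_le_of_le_one_right (norm_nonneg _) (hb y hy)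
      refine le_of_mul_le_mul_left ?_ hn
      nlinarith
    have h4 : (∑ y ∈ S, ‖D y‖) ^ 2 ≤ S.card * ∑ y ∈ S, ‖D y‖ ^ 2 := sq_sum_le_card_mul_sum_sq
    have h5 : ‖∑ y ∈ S, D y * conj (D y)‖ = ∑ y ∈ S, ‖D y‖ ^ 2 := by
      simp only [Complex.mul_conj, Complex.normSq_eq_norm_sq]
      rw [← Complex.ofReal_sum, Complex.norm_real,
        Real.norm_of_nonneg (sum_nonneg fun _ _ => by positivity)]
    have h6 := hD2 fun y => conj (D y)
    rw [h5] at h6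
    have h7 : (τ * S.card) ^ 2 ≤ (∑ y ∈ S, ‖D y‖) ^ 2 := pow_le_pow_left₀ (by positivity) h3 2
    rw [← mul_pow]
    exact h7.trans (h4.trans h6)

/-- greedy covering -/
lemma greedy {A T : Type*} (Z : Finset A) (Q : T → Prop) (Good : T → A → Prop) {θ ε : ℝ}
    (h : ∀ Z' ⊆ Z, θ ≤ Z'.card → ∃ t, Q t ∧ ε ≤ ((Z'.filter (Good t)).card : ℝ))
    {R : ℕ} (hR : (Z.card : ℝ) < R * ε) :
    ∃ L : Finset T, L.card ≤ R ∧ (∀ t ∈ L, Q t) ∧
      ((Z.filter fun z => ¬ ∃ t ∈ L, Good t z).card : ℝ) < θ := by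
  have key : ∀ r : ℕ, ∃ L : Finset T, L.card ≤ r ∧ (∀ t ∈ L, Q t) ∧
      (((Z.filter fun z => ¬ ∃ t ∈ L, Good t z).card : ℝ) < θ ∨
        ((Z.filter fun z => ¬ ∃ t ∈ L, Good t z).card : ℝ) + r * ε ≤ Z.card) := by
    intro r
    induction r with
    | zero => exact ⟨∅, le_rfl, by simp, Or.inr (by simp)⟩
    | succ r ih =>
      obtain ⟨L, h1, h2, h3⟩ := ih
      by_cases h4 : ((Z.filter fun z => ¬ ∃ t ∈ L, Good t z).card : ℝ) < θ
      · exact ⟨L, h1.trans (Nat.le_succ r), h2, Or.inl h4⟩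
      · have h5 := h3.resolve_left h4
        obtain ⟨t, ht, h6⟩ := h _ (filter_subset _ _) (not_lt.1 h4)
        refine ⟨insert t L, (card_insert_le _ _).trans (Nat.succ_le_succ h1), ?_, Or.inr ?_⟩
        · intro u hu
          rcases mem_insert.1 hu with rfl | hu
          · exact ht
          · exact h2 u hu
        · have h7 := card_filter_add_card_filter_not
            (s := Z.filter fun z => ¬ ∃ t ∈ L, Good t z) (Good t)
          have h8 : ((Z.filter fun z => ¬ ∃ t ∈ L, Good t z).filter fun z => ¬ Good t z) =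
              Z.filter fun z => ¬ ∃ u ∈ insert t L, Good u z := by
            ext z
            simp only [mem_filter, mem_insert, exists_eq_or_imp, not_or]
            tauto
          rw [h8] at h7
          have h9 := congrArg (Nat.cast : ℕ → ℝ) h7
          push_cast at h9 ⊢
          linarith
  obtain ⟨L, h1, h2, h3⟩ := key R
  refine ⟨L, h1, h2, h3.resolve_right fun h4 => ?_⟩
  have : (0 : ℝ) ≤ (Z.filter fun z => ¬ ∃ t ∈ L, Good t z).card := Nat.cast_nonneg _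
  linarith

/-- greedy covering for every index, then the pigeonhole principle for tuples -/
lemma greedy_tuple {A T κ : Type*} [Fintype κ] (Z : Finset A) (Q : T → Prop)
    (Good : κ → T → A → Prop) {θ ε : ℝ} (hZ : Z.Nonempty)
    (hθ : 2 * (Fintype.card κ : ℝ) * θ ≤ Z.card)
    (h : ∀ i, ∀ Z' ⊆ Z, θ ≤ Z'.card → ∃ t, Q t ∧ ε ≤ ((Z'.filter (Good i t)).card : ℝ))
    {R : ℕ} (hR : (Z.card : ℝ) < R * ε) :
    ∃ Z' ⊆ Z, ∃ t : κ → T, (Z.card : ℝ) ≤ 2 * (R : ℝ) ^ Fintype.card κ * Z'.card ∧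
      (∀ i, Q (t i)) ∧ ∀ z ∈ Z', ∀ i, Good i (t i) z := by
  choose L hL1 hL2 hL3 using fun i => greedy Z Q (Good i) (h i) hR
  have hZ0 : (0 : ℝ) < Z.card := by exact_mod_cast hZ.card_pos
  let Z1 := Z.filter fun z => ∀ i, ∃ t ∈ L i, Good i t z
  have h1 : (Z.card : ℝ) ≤ 2 * Z1.card := by
    have h2 := card_filter_add_card_filter_not (s := Z) fun z => ∀ i, ∃ t ∈ L i, Good i t z
    have h3 : (Z.filter fun z => ¬ ∀ i, ∃ t ∈ L i, Good i t z) ⊆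
        univ.biUnion fun i => Z.filter fun z => ¬ ∃ t ∈ L i, Good i t z := by
      intro z hz
      obtain ⟨hz1, hz2⟩ := mem_filter.1 hz
      obtain ⟨i, hi⟩ := not_forall.1 hz2
      exact mem_biUnion.2 ⟨i, mem_univ _, mem_filter.2 ⟨hz1, hi⟩⟩
    have h4 : ((Z.filter fun z => ¬ ∀ i, ∃ t ∈ L i, Good i t z).card : ℝ) ≤
        Fintype.card κ * θ := by
      refine (Nat.cast_le.2 ((card_le_card h3).trans card_biUnion_le)).trans ?_
      push_cast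
      refine (sum_le_card_nsmul _ _ θ fun i _ => (hL3 i).le).trans ?_
      rw [nsmul_eq_mul, card_univ]
    have h5 := congrArg (Nat.cast : ℕ → ℝ) h2
    push_cast at h5
    simp only [Z1]
    linarith
  have hZ1 : Z1.Nonempty := by
    rw [← card_pos, ← Nat.cast_pos (α := ℝ)]
    linarith
  obtain ⟨z0, hz0⟩ := hZ1
  have h2 : ∀ z, ∃ t : κ → T, z ∈ Z1 → ∀ i, t i ∈ L i ∧ Good i (t i) z := by
    intro z
    by_cases hz : z ∈ Z1
    · choose t ht using (mem_filter.1 hz).2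
      exact ⟨t, fun _ => ht⟩
    · choose t _ using (mem_filter.1 hz0).2
      exact ⟨t, fun h => absurd h hz⟩
  choose f hf using h2
  have h3 : ∀ z ∈ Z1, f z ∈ Fintype.piFinset L := fun z hz =>
    Fintype.mem_piFinset.2 fun i => (hf z hz i).1
  obtain ⟨t, ht, h4⟩ := exists_max_image (Fintype.piFinset L)
    (fun t => (Z1.filter fun z => f z = t).card) ⟨_, h3 z0 hz0⟩
  refine ⟨Z1.filter fun z => f z = t, (filter_subset _ _).trans (filter_subset _ _), t, ?_,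
    fun i => hL2 i _ (Fintype.mem_piFinset.1 ht i), fun z hz i => ?_⟩
  · have h5 : Z1.card ≤ (Fintype.piFinset L).card * (Z1.filter fun z => f z = t).card := by
      rw [card_eq_sum_card_fiberwise h3]
      exact (sum_le_card_nsmul _ _ _ h4).trans (by rw [smul_eq_mul])
    have h6 : (Fintype.piFinset L).card ≤ R ^ Fintype.card κ := by
      rw [Fintype.card_piFinset, ← card_univ]
      exact prod_le_pow_card _ _ _ fun i _ => hL1 i
    have h7 : Z1.card ≤ R ^ Fintype.card κ * (Z1.filter fun z => f z = t).card :=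
      h5.trans (Nat.mul_le_mul_right _ h6)
    have h8 := (Nat.cast_le (α := ℝ)).2 h7
    push_cast at h8
    linarith
  · obtain ⟨hz1, hz2⟩ := mem_filter.1 hz
    exact hz2 ▸ (hf z hz1 i).2

variable [AddCommGroup G]

/-- the correlation of `χ z` with `a (w) b (w + z)` -/
def corr (S : Finset G) (χ : G → G → ℂ) (a b : G → ℂ) (z : G) : ℂ :=
  ∑ w ∈ S, χ z w * a w * b (w + z)

lemma corr_eq {S : Finset G} (χ : G → G → ℂ) {a b : G → ℂ} (ha : Supp a S) (hb : Supp b S)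
    (z : G) : corr S χ a b z = ∑ y ∈ S, χ z (y - z) * a (y - z) * b y := by
  have h1 : Supp (fun w => χ z w * a w * b (w + z)) S := fun w hw => by simp [ha w hw]
  have h2 : Supp (fun y => χ z (y - z) * a (y - z) * b y) S := fun y hy => by simp [hb y hy]
  rw [corr, ← h1.finsum_eq, ← h2.finsum_eq, ← finsum_comp_equiv (Equiv.subRight z)]
  simp

/-- many correlations force large Gowers norms -/
lemma U_large {S Z : Finset G} (hS : 0 < S.card) (hZ : Z.card ≤ S.card) {χ : G → G → ℂ}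
    (hχ : ∀ z ∈ Z, ∀ w ∈ S, ‖χ z w‖ ≤ 1) {a b : G → ℂ} (ha : Supp a S) (hb : Supp b S)
    (ha1 : ∀ x, ‖a x‖ ≤ 1) (hb1 : ∀ x, ‖b x‖ ≤ 1) {δ η : ℝ} (hδ : 0 ≤ δ) (hη : 0 ≤ η) {s : ℕ}
    (hc : ∀ z ∈ Z, Conv (s + 1) S (χ z) δ η)
    (h : 2 * δ * (S.card : ℝ) ^ 2 ≤ ∑ z ∈ Z, ‖corr S χ a b z‖) :
    (δ * η * (S.card : ℝ) ^ (s + 3)) ^ 2 ≤ U (s + 2) a * U (s + 2) b := by
  have hn : (0 : ℝ) < S.card := by exact_mod_cast hS
  have hZ' : (Z.card : ℝ) ≤ S.card := by exact_mod_cast hZ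
  have h1 := card_popular Z (fun z => ‖corr S χ a b z‖) (M := S.card) (t := δ * S.card)
    (by positivity) fun z hz => by
      refine (norm_sum_le _ _).trans ((sum_le_card_nsmul _ _ 1 fun w hw => ?_).trans (by simp))
      rw [norm_mul, norm_mul]
      exact mul_le_one₀ (mul_le_one₀ (hχ z hz w hw) (norm_nonneg _) (ha1 _)) (norm_nonneg _) (hb1 _)
  set P := Z.filter fun z => δ * S.card ≤ ‖corr S χ a b z‖ with hP
  have h2 : δ * S.card ≤ P.card := by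
    refine le_of_mul_le_mul_left ?_ hn
    have := mul_le_mul_of_nonneg_left hZ' (show 0 ≤ δ * S.card by positivity)
    nlinarith
  have h3 : ∀ z ∈ P, η * (S.card : ℝ) ^ (s + 2) ≤
      U (s + 1) (D2 z (fun x => conj (b x)) a) := by
    intro z hz
    obtain ⟨hz1, hz2⟩ := mem_filter.1 hz
    refine hc z hz1 _ (ha.D2 _ _) (norm_D2_le (fun x => by rw [RCLike.norm_conj]; exact hb1 x) ha1 z)
      (hz2.trans (le_of_eq ?_))
    rw [← RCLike.norm_conj, corr, map_sum]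
    congr 1
    refine sum_congr rfl fun w _ => ?_
    simp only [D2, map_mul]
    ring
  have h4 : ∑ z ∈ P, U (s + 1) (D2 z (fun x => conj (b x)) a) ≤
      ∑ z ∈ S - S, U (s + 1) (D2 z (fun x => conj (b x)) a) := by
    rw [← sum_filter_add_sum_filter_not P fun z => z ∈ S - S]
    rw [sum_eq_zero (s := P.filter fun z => ¬ z ∈ S - S) fun z hz => by
      rw [D2_eq_zero hb.conj ha (mem_filter.1 hz).2, U, Uc_zero, norm_zero], add_zero]
    exact sum_le_sum_of_subset_of_nonneg (fun z hz => (mem_filter.1 hz).2)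
      fun _ _ _ => U_nonneg _ _
  have h5 : δ * η * (S.card : ℝ) ^ (s + 3) ≤
      ∑ z ∈ S - S, U (s + 1) (D2 z (fun x => conj (b x)) a) := by
    refine le_trans ?_ ((card_nsmul_le_sum _ _ _ h3).trans h4)
    rw [nsmul_eq_mul]
    calc δ * η * (S.card : ℝ) ^ (s + 3) = δ * S.card * (η * (S.card : ℝ) ^ (s + 2)) := by ring
      _ ≤ _ := mul_le_mul_of_nonneg_right h2 (by positivity)
  refine (pow_le_pow_left₀ (by positivity) h5 2).trans ((sum_U_D2 s hb.conj ha).trans ?_)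
  rw [U_conj, mul_comm]

lemma U_le_K {S : Finset G} {K : ℝ} (hK : ((S - S).card : ℝ) ≤ K * S.card) {f : G → ℂ}
    (hf : Supp f S) (hb : ∀ x, ‖f x‖ ≤ 1) (s : ℕ) :
    U s f ≤ K ^ s * (S.card : ℝ) ^ (s + 1) := by
  refine (U_le s hf hb).trans ?_
  calc (S.card : ℝ) * ((S - S).card : ℝ) ^ s ≤ S.card * (K * S.card) ^ s := by gcongr
    _ = _ := by ring

lemma U_large' {n K u v c : ℝ} {s : ℕ} (hn : 0 < n) (hK : 0 < K) (hu : 0 ≤ u)
    (hv : v ≤ K ^ (s + 2) * n ^ (s + 3)) (h : (c * n ^ (s + 3)) ^ 2 ≤ u * v) :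
    c ^ 2 / K ^ (s + 2) * n ^ (s + 3) ≤ u := by
  rw [div_mul_eq_mul_div, div_le_iff₀ (by positivity)]
  refine le_of_mul_le_mul_right ?_ (show 0 < n ^ (s + 3) by positivity)
  have := mul_le_mul_of_nonneg_left hv hu
  nlinarith

/-- `conj ψ` cut off to `S` -/
def cut (S : Finset G) (ψ : G → ℂ) : G → ℂ := fun x => if x ∈ S then conj (ψ x) else 0

omit [AddCommGroup G] in
lemma cut_supp (S : Finset G) (ψ : G → ℂ) : Supp (cut S ψ) S := fun _ hx => if_neg hx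

omit [AddCommGroup G] in
lemma norm_cut_le {S : Finset G} {ψ : G → ℂ} (h : ∀ x ∈ S, ‖ψ x‖ ≤ 1) (x : G) :
    ‖cut S ψ x‖ ≤ 1 := by
  unfold cut
  split_ifs with hx
  · rw [RCLike.norm_conj]; exact h x hx
  · simp

/-- the inverse theorem for one set of parameters -/
def Inv {J : Type*} (s : ℕ) (S : Finset G) (P : J → Prop) (ψ : J → G → ℂ) (η ε : ℝ) : Prop :=
  ∀ f : G → ℂ, Supp f S → (∀ x, ‖f x‖ ≤ 1) → η * (S.card : ℝ) ^ (s + 1) ≤ U s f →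
    ∃ j, P j ∧ ε * S.card ≤ ‖∑ x ∈ S, f x * conj (ψ j x)‖

/-- replace the function of `w + z` by a template -/
lemma swap_right {J : Type*} {S Z : Finset G} (hS : 0 < S.card) (hZ : Z.card ≤ S.card) {K : ℝ}
    (hK0 : 0 < K) (hK : ((S - S).card : ℝ) ≤ K * S.card) {χ : G → G → ℂ}
    (hχ : ∀ z ∈ Z, ∀ w, ‖χ z w‖ ≤ 1) {a b : G → ℂ} (ha : Supp a S) (hb : Supp b S)
    (ha1 : ∀ x, ‖a x‖ ≤ 1) (hb1 : ∀ x, ‖b x‖ ≤ 1) {τ η ε : ℝ} (hτ : 0 ≤ τ) (hη : 0 ≤ η) {s : ℕ}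
    (hc : ∀ z ∈ Z, Conv (s + 1) S (χ z) (τ ^ 2 / 2) η) {P : J → Prop} {ψ : J → G → ℂ}
    (hI : Inv (s + 2) S P ψ ((τ ^ 2 / 2 * η) ^ 2 / K ^ (s + 2)) ε)
    (h : τ * (S.card : ℝ) ^ 2 ≤ ∑ z ∈ Z, ‖corr S χ a b z‖) :
    ∃ j, P j ∧ ε * (S.card : ℝ) ^ 2 ≤ ∑ z ∈ Z, ‖corr S χ a (cut S (ψ j)) z‖ := by
  have hn : (0 : ℝ) < S.card := by exact_mod_cast hS
  simp only [corr_eq χ ha hb] at h
  obtain ⟨D, hD, hD1, h1, h2⟩ := exists_dual S Z hS hZ (fun z y => χ z (y - z) * a (y - z))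
    (fun z hz y _ => by
      rw [norm_mul]; exact mul_le_one₀ (hχ z hz _) (norm_nonneg _) (ha1 _)) b (fun y _ => hb1 y) hτ h
  simp only [← corr_eq χ ha hD.conj] at h1
  have h3 := U_large hS hZ (fun z hz w _ => hχ z hz w) ha hD.conj ha1
    (fun x => by rw [RCLike.norm_conj]; exact hD1 x) (by positivity) hη hc (by
      refine le_trans (le_of_eq ?_) h1
      ring)
  rw [U_conj, mul_comm (U _ a)] at h3
  obtain ⟨j, hj, h4⟩ := hI D hD hD1 (U_large' hn hK0 (U_nonneg _ _) (U_le_K hK ha ha1 _) h3)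
  refine ⟨j, hj, ?_⟩
  simp only [corr_eq χ ha (cut_supp S _)]
  refine le_trans ?_ (h2 (cut S (ψ j)))
  rw [sum_congr rfl fun y hy => show D y * cut S (ψ j) y = D y * conj (ψ j y) by
    rw [cut, if_pos hy]]
  nlinarith

/-- replace the function of `w` by a template -/
lemma swap_left {J : Type*} {S Z : Finset G} (hS : 0 < S.card) (hZ : Z.card ≤ S.card) {K : ℝ}
    (hK0 : 0 < K) (hK : ((S - S).card : ℝ) ≤ K * S.card) {χ : G → G → ℂ}
    (hχ : ∀ z ∈ Z, ∀ w, ‖χ z w‖ ≤ 1) {a b : G → ℂ} (hb : Supp b S)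
    (ha1 : ∀ x, ‖a x‖ ≤ 1) (hb1 : ∀ x, ‖b x‖ ≤ 1) {τ η ε : ℝ} (hτ : 0 ≤ τ) (hη : 0 ≤ η) {s : ℕ}
    (hc : ∀ z ∈ Z, Conv (s + 1) S (χ z) (τ ^ 2 / 2) η) {P : J → Prop} {ψ : J → G → ℂ}
    (hI : Inv (s + 2) S P ψ ((τ ^ 2 / 2 * η) ^ 2 / K ^ (s + 2)) ε)
    (h : τ * (S.card : ℝ) ^ 2 ≤ ∑ z ∈ Z, ‖corr S χ a b z‖) :
    ∃ j, P j ∧ ε * (S.card : ℝ) ^ 2 ≤ ∑ z ∈ Z, ‖corr S χ (cut S (ψ j)) b z‖ := by
  have hn : (0 : ℝ) < S.card := by exact_mod_cast hS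
  have e : ∀ (c : G → ℂ) (z : G), corr S χ c b z = ∑ y ∈ S, χ z y * b (y + z) * c y :=
    fun c z => sum_congr rfl fun y _ => by ring
  simp only [e] at h
  obtain ⟨D, hD, hD1, h1, h2⟩ := exists_dual S Z hS hZ (fun z y => χ z y * b (y + z))
    (fun z hz y _ => by
      rw [norm_mul]; exact mul_le_one₀ (hχ z hz _) (norm_nonneg _) (hb1 _)) a (fun y _ => ha1 y) hτ h
  simp only [← e fun y => conj (D y)] at h1
  have h3 := U_large hS hZ (fun z hz w _ => hχ z hz w) hD.conj hb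
    (fun x => by rw [RCLike.norm_conj]; exact hD1 x) hb1 (by positivity) hη hc (by
      refine le_trans (le_of_eq ?_) h1
      ring)
  rw [U_conj] at h3
  obtain ⟨j, hj, h4⟩ := hI D hD hD1 (U_large' hn hK0 (U_nonneg _ _) (U_le_K hK hb hb1 _) h3)
  refine ⟨j, hj, ?_⟩
  simp only [e]
  refine le_trans ?_ (h2 (cut S (ψ j)))
  rw [sum_congr rfl fun y hy => show D y * cut S (ψ j) y = D y * conj (ψ j y) by
    rw [cut, if_pos hy]]
  nlinarith

omit [AddCommGroup G] in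
lemma corr_cut [AddCommGroup G] (S : Finset G) (χ : G → G → ℂ) (φ ψ : G → ℂ) (z : G) :
    corr S χ (cut S φ) (cut S ψ) z =
      ∑ w ∈ S.filter fun w => w + z ∈ S, χ z w * conj (φ w) * conj (ψ (w + z)) := by
  rw [corr, sum_filter]
  refine sum_congr rfl fun w hw => ?_
  simp only [cut, if_pos hw]
  split_ifs <;> simp

lemma Inv.mono {J : Type*} {s : ℕ} {S : Finset G} {P : J → Prop} {ψ : J → G → ℂ} {η η' ε : ℝ}
    (h : Inv s S P ψ η ε) (hη : η ≤ η') : Inv s S P ψ η' ε :=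
  fun f hf hb hc => h f hf hb ((mul_le_mul_of_nonneg_right hη (by positivity)).trans hc)

/-- polynomially bounded functions -/
def PB (f : ℝ → ℝ) : Prop := ∃ C : ℕ, ∀ m : ℝ, 2 ≤ m → f m ≤ m ^ C

lemma PB.id : PB fun m => m := ⟨1, fun _ _ => by simp⟩

lemma PB.const (c : ℝ) : PB fun _ => c := by
  obtain ⟨C, hC⟩ := pow_unbounded_of_one_lt c (show (1 : ℝ) < 2 by norm_num)
  exact ⟨C, fun m hm => hC.le.trans (pow_le_pow_left₀ (by norm_num) hm C)⟩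

lemma PB.add {f g : ℝ → ℝ} (hf : PB f) (hg : PB g) : PB fun m => f m + g m := by
  obtain ⟨a, ha⟩ := hf
  obtain ⟨b, hb⟩ := hg
  refine ⟨max a b + 1, fun m hm => ?_⟩
  have h1 : m ^ a ≤ m ^ max a b := pow_le_pow_right₀ (by linarith) (le_max_left _ _)
  have h2 : m ^ b ≤ m ^ max a b := pow_le_pow_right₀ (by linarith) (le_max_right _ _)
  have h3 : 0 ≤ m ^ max a b := by positivity
  have := ha m hm
  have := hb m hm
  rw [pow_succ]
  nlinarith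

lemma PB.mul {f g : ℝ → ℝ} (hf : PB f) (hg : PB g) (h0 : ∀ m, 2 ≤ m → 0 ≤ g m) :
    PB fun m => f m * g m := by
  obtain ⟨a, ha⟩ := hf
  obtain ⟨b, hb⟩ := hg
  refine ⟨a + b, fun m hm => ?_⟩
  rw [pow_add]
  exact mul_le_mul (ha m hm) (hb m hm) (h0 m hm) (by positivity)

lemma PB.pow {f : ℝ → ℝ} (hf : PB f) (h0 : ∀ m, 2 ≤ m → 0 ≤ f m) (n : ℕ) :
    PB fun m => f m ^ n := by
  obtain ⟨a, ha⟩ := hf
  refine ⟨a * n, fun m hm => ?_⟩
  rw [pow_mul]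
  exact pow_le_pow_left₀ (h0 m hm) (ha m hm) n

lemma exp_half (t : ℝ) : Real.exp (-(2 * t + 1)) ≤ Real.exp (-t) ^ 2 / 2 := by
  rw [← Real.exp_nat_mul, le_div_iff₀ (by norm_num : (0 : ℝ) < 2)]
  have h1 : (2 : ℝ) ≤ Real.exp 1 := by linarith [Real.add_one_le_exp (1 : ℝ)]
  calc Real.exp (-(2 * t + 1)) * 2 ≤ Real.exp (-(2 * t + 1)) * Real.exp 1 := by gcongr
    _ = _ := by rw [← Real.exp_add]; congr 1; push_cast; ring

lemma exp_inv_arg {t u K : ℝ} (hK : 1 ≤ K) (n : ℕ) :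
    Real.exp (-(2 * (2 * t + 1) + 2 * u + n * K)) ≤
      (Real.exp (-t) ^ 2 / 2 * Real.exp (-u)) ^ 2 / K ^ n := by
  rw [le_div_iff₀ (by positivity)]
  have h1 : K ^ n ≤ Real.exp (n * K) := by
    rw [Real.exp_nat_mul]
    exact pow_le_pow_left₀ (by linarith) (by linarith [Real.add_one_le_exp K]) n
  calc _ ≤ Real.exp (-(2 * (2 * t + 1) + 2 * u + n * K)) * Real.exp (n * K) := by gcongr
    _ = (Real.exp (-(2 * t + 1)) * Real.exp (-u)) ^ 2 := by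
      rw [← Real.exp_add, ← Real.exp_add, ← Real.exp_nat_mul]; congr 1; push_cast; ring
    _ ≤ _ := by gcongr; exact exp_half t

set_option maxHeartbeats 1000000 in
/-- **Templates.** -/
theorem templates {J : Type*} (s : ℕ) (S : ℕ → Finset G) (hS : ∀ N, 0 < (S N).card) {K : ℝ}
    (hK1 : 1 ≤ K) (hK : ∀ N, ((S N - S N).card : ℝ) ≤ K * (S N).card)
    (X : ℝ → Set (G → ℂ)) (hXb : ∀ m, ∀ χ ∈ X m, ∀ w, ‖χ w‖ ≤ 1)
    (hXm : ∀ m m', 2 ≤ m → m ≤ m' → X m ⊆ X m')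
    (hX : ∃ C : ℕ, ∀ (m : ℝ) (N : ℕ), 2 ≤ m → Real.exp (m ^ C) ≤ N → ∀ χ ∈ X m,
      Conv (s + 1) (S N) χ (Real.exp (-m)) (Real.exp (-m ^ C)))
    (P : ℝ → J → Prop) (ψ : J → G → ℂ) (hPb : ∀ m j, P m j → ∀ x, ‖ψ j x‖ ≤ 1)
    (hPm : ∀ m m' j, 1 ≤ m → m ≤ m' → P m j → P m' j)
    (hI : ∃ C : ℕ, ∀ (m : ℝ) (N : ℕ), 2 ≤ m → Real.exp (m ^ C) ≤ N →
      Inv (s + 2) (S N) (P (m ^ C)) ψ (Real.exp (-m)) (Real.exp (-m ^ C))) :
    ∃ C : ℕ, ∀ (m : ℝ) (N : ℕ), 2 ≤ m → Real.exp (m ^ C) ≤ N →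
      ∀ (κ : Type) [Fintype κ], (Fintype.card κ : ℝ) ≤ m →
      ∀ Z : Finset G, Z ⊆ S N → Real.exp (-m) * (S N).card ≤ Z.card →
      ∀ B H : G → ℂ, Supp B (S N) → Supp H (S N) → (∀ x, ‖B x‖ ≤ 1) → (∀ x, ‖H x‖ ≤ 1) →
      ∀ χ : κ → G → G → ℂ, (∀ i, ∀ z ∈ Z, χ i z ∈ X m) →
      (∀ i, ∀ z ∈ Z, Real.exp (-m) * (S N).card ≤ ‖∑ w ∈ S N, χ i z w * B w * H (w + z)‖) →
      ∃ Z' ⊆ Z, ∃ θ θ' : κ → J, Real.exp (-m ^ C) * (S N).card ≤ Z'.card ∧
        (∀ i, P (m ^ C) (θ i) ∧ P (m ^ C) (θ' i)) ∧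
        ∀ z ∈ Z', ∀ i, Real.exp (-m ^ C) * (S N).card ≤
          ‖∑ w ∈ (S N).filter fun w => w + z ∈ S N,
            χ i z w * conj (ψ (θ' i) w) * conj (ψ (θ i) (w + z))‖ := by
  obtain ⟨C₁, hC₁⟩ := hX
  obtain ⟨C₂, hC₂⟩ := hI
  let m₁ : ℝ → ℝ := fun m => 2 * (4 * m) + 1
  let m₂ : ℝ → ℝ := fun m => 2 * m₁ m + 2 * m₁ m ^ C₁ + (s + 2 : ℕ) * K
  let m₃ : ℝ → ℝ := fun m => 2 * (m₂ m ^ C₂ + m) + 1
  let m₄ : ℝ → ℝ := fun m => 2 * m₃ m + 2 * m₃ m ^ C₁ + (s + 2 : ℕ) * K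
  have a1 : ∀ m, 2 ≤ m → m ≤ m₁ m := fun m hm => by simp only [m₁]; linarith
  have a1' : ∀ m, 2 ≤ m → 0 ≤ m₁ m := fun m hm => by linarith [a1 m hm]
  have a2 : ∀ m, 2 ≤ m → 2 ≤ m₂ m := fun m hm => by
    have h1 : 0 ≤ m₁ m ^ C₁ := pow_nonneg (a1' m hm) _
    have h2 : 0 ≤ ((s + 2 : ℕ) : ℝ) * K := by positivity
    simp only [m₂]; linarith [a1 m hm]
  have a2' : ∀ m, 2 ≤ m → 0 ≤ m₂ m := fun m hm => by linarith [a2 m hm]
  have a3 : ∀ m, 2 ≤ m → m ≤ m₃ m := fun m hm => by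
    have h1 : 0 ≤ m₂ m ^ C₂ := pow_nonneg (a2' m hm) _
    simp only [m₃]; linarith
  have a3' : ∀ m, 2 ≤ m → 0 ≤ m₃ m := fun m hm => by linarith [a3 m hm]
  have a4 : ∀ m, 2 ≤ m → 2 ≤ m₄ m := fun m hm => by
    have h1 : 0 ≤ m₃ m ^ C₁ := pow_nonneg (a3' m hm) _
    have h2 : 0 ≤ ((s + 2 : ℕ) : ℝ) * K := by positivity
    simp only [m₄]; linarith [a3 m hm]
  have a4' : ∀ m, 2 ≤ m → 0 ≤ m₄ m := fun m hm => by linarith [a4 m hm]
  have two : ∀ {f : ℝ → ℝ}, PB f → PB fun m => 2 * f m := fun hf => by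
    simpa only [two_mul] using hf.add hf
  have b1 : PB m₁ := (two ((PB.const 4).mul PB.id fun m hm => by linarith)).add (PB.const 1)
  have b2 : PB m₂ := ((two b1).add (two (b1.pow a1' C₁))).add (PB.const _)
  have b3 : PB m₃ := (two ((b2.pow a2' C₂).add PB.id)).add (PB.const 1)
  have b4 : PB m₄ := ((two b3).add (two (b3.pow a3' C₁))).add (PB.const _)
  obtain ⟨C, hC⟩ : PB fun m => m₁ m ^ C₁ + m₂ m ^ C₂ + m₃ m ^ C₁ + 2 +
      (m₄ m ^ C₂ + 1 + (m + 1 + (m₄ m ^ C₂ + 2) * m)) :=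
    ((((b1.pow a1' C₁).add (b2.pow a2' C₂)).add (b3.pow a3' C₁)).add (PB.const 2)).add
      (((b4.pow a4' C₂).add (PB.const 1)).add ((PB.id.add (PB.const 1)).add
        (((b4.pow a4' C₂).add (PB.const 2)).mul PB.id fun m hm => by linarith)))
  refine ⟨C, fun m N hm hN κ _ hκ Z hZ hZc B H hB hH hB1 hH1 χ hχ hcor => ?_⟩
  have c0 := hC m hm
  have c1 : 0 ≤ m₁ m ^ C₁ := pow_nonneg (a1' m hm) _
  have c2 : 0 ≤ m₂ m ^ C₂ := pow_nonneg (a2' m hm) _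
  have c3 : 0 ≤ m₃ m ^ C₁ := pow_nonneg (a3' m hm) _
  have c4 : 0 ≤ m₄ m ^ C₂ := pow_nonneg (a4' m hm) _
  have c5 : 0 ≤ (m₄ m ^ C₂ + 2) * m := by positivity
  have hNle : ∀ t, t ≤ m ^ C → Real.exp t ≤ N := fun t ht => (Real.exp_le_exp.2 ht).trans hN
  have hn : (0 : ℝ) < (S N).card := by exact_mod_cast hS N
  have hK0 : 0 < K := by linarith
  have hχb : ∀ i, ∀ z ∈ Z, ∀ w, ‖χ i z w‖ ≤ 1 := fun i z hz => hXb m _ (hχ i z hz)
  have hZn : (Z.card : ℝ) ≤ (S N).card := by exact_mod_cast card_le_card hZ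
  set ε := Real.exp (-m₄ m ^ C₂) with hε
  have hε0 : 0 < ε := Real.exp_pos _
  have hε1 : ε ≤ 1 := Real.exp_le_one_iff.2 (by linarith)
  -- one template for every large subset
  have one : ∀ i, ∀ Z' ⊆ Z, Real.exp (-(3 * m)) * (S N).card ≤ Z'.card →
      ∃ t : J × J, (P (m₂ m ^ C₂) t.1 ∧ P (m₄ m ^ C₂) t.2) ∧ ε / 2 * (S N).card ≤
        ((Z'.filter fun z => ε / 2 * (S N).card ≤
          ‖corr (S N) (χ i) (cut (S N) (ψ t.2)) (cut (S N) (ψ t.1)) z‖).card : ℝ) := by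
    intro i Z' hZ' hc
    have hZ'n : Z'.card ≤ (S N).card := card_le_card (hZ'.trans hZ)
    have hb' : ∀ z ∈ Z', ∀ w, ‖χ i z w‖ ≤ 1 := fun z hz => hχb i z (hZ' hz)
    have h1 : Real.exp (-(4 * m)) * ((S N).card : ℝ) ^ 2 ≤
        ∑ z ∈ Z', ‖corr (S N) (χ i) B H z‖ := by
      refine le_trans ?_ (card_nsmul_le_sum _ _ _ fun z hz => hcor i z (hZ' hz))
      rw [nsmul_eq_mul]
      calc _ = Real.exp (-(3 * m)) * (S N).card * (Real.exp (-m) * (S N).card) := by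
            rw [show -(4 * m) = -(3 * m) + -m by ring, Real.exp_add]; ring
        _ ≤ _ := mul_le_mul_of_nonneg_right hc (by positivity)
    obtain ⟨j, hj, h2⟩ := swap_right (hS N) hZ'n hK0 (hK N) hb' hB hH hB1 hH1
      (Real.exp_pos _).le (Real.exp_pos _).le
      (fun z hz => (hC₁ (m₁ m) N (hm.trans (a1 m hm)) (hNle _ (by linarith)) _
        (hXm m _ hm (a1 m hm) (hχ i z (hZ' hz)))).mono (exp_half _) le_rfl)
      ((hC₂ (m₂ m) N (a2 m hm) (hNle _ (by linarith))).mono (exp_inv_arg hK1 _)) h1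
    have h3 : Real.exp (-(m₂ m ^ C₂ + m)) * ((S N).card : ℝ) ^ 2 ≤
        ∑ z ∈ Z', ‖corr (S N) (χ i) B (cut (S N) (ψ j)) z‖ :=
      (mul_le_mul_of_nonneg_right (Real.exp_le_exp.2 (by linarith)) (by positivity)).trans h2
    have hj1 := norm_cut_le (S := S N) fun x _ => hPb _ j hj x
    obtain ⟨j', hj', h4⟩ := swap_left (hS N) hZ'n hK0 (hK N) hb' (cut_supp _ _) hB1 hj1
      (Real.exp_pos _).le (Real.exp_pos _).le
      (fun z hz => (hC₁ (m₃ m) N (hm.trans (a3 m hm)) (hNle _ (by linarith)) _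
        (hXm m _ hm (a3 m hm) (hχ i z (hZ' hz)))).mono (exp_half _) le_rfl)
      ((hC₂ (m₄ m) N (a4 m hm) (hNle _ (by linarith))).mono (exp_inv_arg hK1 _)) h3
    have hj2 := norm_cut_le (S := S N) fun x _ => hPb _ j' hj' x
    refine ⟨(j, j'), ⟨hj, hj'⟩, ?_⟩
    have h5 := card_popular Z' (fun z => ‖corr (S N) (χ i) (cut (S N) (ψ j')) (cut (S N) (ψ j)) z‖)
      (M := (S N).card) (t := ε / 2 * (S N).card) (by positivity) fun z hz => by
        refine (norm_sum_le _ _).trans ((sum_le_card_nsmul _ _ 1 fun w _ => ?_).trans (by simp))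
        rw [norm_mul, norm_mul]
        exact mul_le_one₀ (mul_le_one₀ (hb' z hz w) (norm_nonneg _) (hj2 _)) (norm_nonneg _) (hj1 _)
    refine le_of_mul_le_mul_left ?_ hn
    have h6 : (Z'.card : ℝ) ≤ (S N).card := by exact_mod_cast hZ'n
    have := mul_le_mul_of_nonneg_left h6 (show 0 ≤ ε / 2 * (S N).card by positivity)
    nlinarith
  have hZ0 : (0 : ℝ) < Z.card := lt_of_lt_of_le (by positivity) hZc
  have hθ : 2 * (Fintype.card κ : ℝ) * (Real.exp (-(3 * m)) * (S N).card) ≤ Z.card := by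
    refine le_trans ?_ hZc
    rw [← mul_assoc]
    refine mul_le_mul_of_nonneg_right ?_ hn.le
    have h1 : 2 * m ≤ Real.exp (2 * m) := by linarith [Real.add_one_le_exp (2 * m)]
    calc _ ≤ Real.exp (2 * m) * Real.exp (-(3 * m)) :=
          mul_le_mul_of_nonneg_right (by linarith) (Real.exp_pos _).le
      _ = _ := by rw [← Real.exp_add]; congr 1; ring
  have hR : (Z.card : ℝ) < (⌊2 / ε⌋₊ + 1 : ℕ) * (ε / 2 * (S N).card) := by
    have h1 : 2 / ε < (⌊2 / ε⌋₊ + 1 : ℕ) := by exact_mod_cast Nat.lt_floor_add_one (2 / ε)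
    refine hZn.trans_lt ?_
    calc ((S N).card : ℝ) = 2 / ε * (ε / 2 * (S N).card) := by field_simp
      _ < _ := mul_lt_mul_of_pos_right h1 (by positivity)
  obtain ⟨Z', hZ', t, h1, h2, h3⟩ := greedy_tuple Z _ _
    (card_pos.1 (by exact_mod_cast hZ0)) hθ one hR
  have hRle : ((⌊2 / ε⌋₊ + 1 : ℕ) : ℝ) ≤ Real.exp (m₄ m ^ C₂ + 2) := by
    have h4 : ((⌊2 / ε⌋₊ : ℕ) : ℝ) ≤ 2 / ε := Nat.floor_le (by positivity)
    have h5 : 1 ≤ 1 / ε := by rw [le_div_iff₀ hε0]; linarith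
    have h6 : 1 / ε = Real.exp (m₄ m ^ C₂) := by rw [hε, Real.exp_neg, one_div, inv_inv]
    have h7 : (3 : ℝ) ≤ Real.exp 2 := by linarith [Real.add_one_le_exp (2 : ℝ)]
    have h8 : 2 / ε = 2 * (1 / ε) := by ring
    rw [Real.exp_add, ← h6]
    push_cast
    nlinarith
  refine ⟨Z', hZ', fun i => (t i).1, fun i => (t i).2, ?_, fun i => ⟨?_, ?_⟩, fun z hz i => ?_⟩
  · have h4 : (((⌊2 / ε⌋₊ + 1 : ℕ) : ℝ)) ^ Fintype.card κ ≤ Real.exp ((m₄ m ^ C₂ + 2) * m) := by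
      refine (pow_le_pow_left₀ (by positivity) hRle _).trans ?_
      rw [← Real.exp_nat_mul, mul_comm]
      exact Real.exp_le_exp.2 (mul_le_mul_of_nonneg_left hκ (by positivity))
    have h5 : (2 : ℝ) ≤ Real.exp 1 := by linarith [Real.add_one_le_exp (1 : ℝ)]
    have h6 : Real.exp (-m) * (S N).card ≤
        Real.exp 1 * Real.exp ((m₄ m ^ C₂ + 2) * m) * Z'.card :=
      hZc.trans (h1.trans (by gcongr))
    refine le_of_mul_le_mul_left (le_trans ?_ h6)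
      (show 0 < Real.exp 1 * Real.exp ((m₄ m ^ C₂ + 2) * m) by positivity)
    rw [← mul_assoc, ← Real.exp_add, ← Real.exp_add]
    exact mul_le_mul_of_nonneg_right (Real.exp_le_exp.2 (by linarith)) hn.le
  · exact hPm _ _ _ (one_le_pow₀ (by linarith [a2 m hm])) (by linarith) (h2 i).1
  · exact hPm _ _ _ (one_le_pow₀ (by linarith [a4 m hm])) (by linarith) (h2 i).2
  · have h4 := h3 z hz i
    rw [corr_cut] at h4
    refine le_trans (mul_le_mul_of_nonneg_right ?_ hn.le) h4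
    have h5 : (2 : ℝ) ≤ Real.exp 1 := by linarith [Real.add_one_le_exp (1 : ℝ)]
    rw [le_div_iff₀ (by norm_num : (0 : ℝ) < 2)]
    calc _ ≤ Real.exp (-m ^ C) * Real.exp 1 := by gcongr
      _ ≤ ε := by rw [← Real.exp_add]; exact Real.exp_le_exp.2 (by linarith)

/-! ### boxes -/

variable {ι : Type*} [Fintype ι] [DecidableEq ι]

lemma card_box (N : ℕ) : (Rat.box ι N).card = (2 * N + 1) ^ Fintype.card ι := by
  rw [Rat.box, Fintype.card_piFinset, prod_const, card_univ, Int.card_Icc]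
  congr 1
  omega

lemma card_box_pos (N : ℕ) : 0 < (Rat.box ι N).card := by
  rw [card_box]; positivity

lemma mem_box {N : ℕ} {x : ι → ℤ} : x ∈ Rat.box ι N ↔ ∀ i, |x i| ≤ N := by
  simp only [Rat.box, Fintype.mem_piFinset, mem_Icc, abs_le]

/-- the difference set of a box (any decidability instance) -/
lemma card_box_sub (N : ℕ) {inst : DecidableEq (ι → ℤ)} :
    ((@HSub.hSub _ _ _ (@instHSub _ (@Finset.sub _ inst _)) (Rat.box ι N) (Rat.box ι N)).card : ℝ) ≤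
      2 ^ Fintype.card ι * (Rat.box ι N).card := by
  have h1 : @HSub.hSub _ _ _ (@instHSub _ (@Finset.sub _ inst _)) (Rat.box ι N) (Rat.box ι N) ⊆
      Rat.box ι (2 * N) := by
    intro x hx
    obtain ⟨a, ha, b, hb, rfl⟩ := mem_sub.1 hx
    rw [mem_box] at ha hb ⊢
    intro i
    have h1 := ha i
    have h2 := hb i
    rw [abs_le] at h1 h2 ⊢
    simp only [Pi.sub_apply]
    push_cast
    constructor <;> linarith [h1.1, h1.2, h2.1, h2.2]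
  have h2 := card_le_card h1
  rw [card_box] at h2
  rw [card_box]
  have h3 : (2 * (2 * N) + 1) ^ Fintype.card ι ≤ 2 ^ Fintype.card ι * (2 * N + 1) ^ Fintype.card ι := by
    rw [← mul_pow]
    exact Nat.pow_le_pow_left (by omega) _
  exact_mod_cast h2.trans h3

/-- **Templates** on boxes of `ℤ ^ ι`. -/
theorem templates_box {J : Type*} (s : ℕ)
    (X : ℝ → Set ((ι → ℤ) → ℂ)) (hXb : ∀ m, ∀ χ ∈ X m, ∀ w, ‖χ w‖ ≤ 1)
    (hXm : ∀ m m', 2 ≤ m → m ≤ m' → X m ⊆ X m')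
    (hX : ∃ C : ℕ, ∀ (m : ℝ) (N : ℕ), 2 ≤ m → Real.exp (m ^ C) ≤ N → ∀ χ ∈ X m,
      Conv (s + 1) (Rat.box ι N) χ (Real.exp (-m)) (Real.exp (-m ^ C)))
    (P : ℝ → J → Prop) (ψ : J → (ι → ℤ) → ℂ) (hPb : ∀ m j, P m j → ∀ x, ‖ψ j x‖ ≤ 1)
    (hPm : ∀ m m' j, 1 ≤ m → m ≤ m' → P m j → P m' j)
    (hI : ∃ C : ℕ, ∀ (m : ℝ) (N : ℕ), 2 ≤ m → Real.exp (m ^ C) ≤ N →
      Inv (s + 2) (Rat.box ι N) (P (m ^ C)) ψ (Real.exp (-m)) (Real.exp (-m ^ C))) :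
    ∃ C : ℕ, ∀ (m : ℝ) (N : ℕ), 2 ≤ m → Real.exp (m ^ C) ≤ N →
      ∀ (κ : Type) [Fintype κ], (Fintype.card κ : ℝ) ≤ m →
      ∀ Z : Finset (ι → ℤ), Z ⊆ Rat.box ι N → Real.exp (-m) * (Rat.box ι N).card ≤ Z.card →
      ∀ B H : (ι → ℤ) → ℂ, Supp B (Rat.box ι N) → Supp H (Rat.box ι N) →
      (∀ x, ‖B x‖ ≤ 1) → (∀ x, ‖H x‖ ≤ 1) →
      ∀ χ : κ → (ι → ℤ) → (ι → ℤ) → ℂ, (∀ i, ∀ z ∈ Z, χ i z ∈ X m) →
      (∀ i, ∀ z ∈ Z, Real.exp (-m) * (Rat.box ι N).card ≤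
        ‖∑ w ∈ Rat.box ι N, χ i z w * B w * H (w + z)‖) →
      ∃ Z' ⊆ Z, ∃ θ θ' : κ → J, Real.exp (-m ^ C) * (Rat.box ι N).card ≤ Z'.card ∧
        (∀ i, P (m ^ C) (θ i) ∧ P (m ^ C) (θ' i)) ∧
        ∀ z ∈ Z', ∀ i, Real.exp (-m ^ C) * (Rat.box ι N).card ≤
          ‖∑ w ∈ (Rat.box ι N).filter fun w => w + z ∈ Rat.box ι N,
            χ i z w * conj (ψ (θ' i) w) * conj (ψ (θ i) (w + z))‖ := by
  have h := templates s (Rat.box ι) card_box_pos (K := 2 ^ Fintype.card ι)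
    (one_le_pow₀ one_le_two) (fun N => card_box_sub N) X hXb hXm hX P ψ hPb hPm hI
  convert h

end Crest.Agent.T49.Tmpl
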