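import Crest.Agent.T49.SgDef_65
import Crest.Agent.T49.RegDef_2
import Crest.Agent.T49.RiCell_12

/-!
# Row 49 (helper55): the top of the proof, definitions and exact statements

`START`, `LOOP` (with `GLUE`, `BULK`), `END` give `INC`; `INC` and `Rg.RegStmt` give `S0068`.
-/

set_option autoImplicit false

noncomputable section

namespace Crest.Agent.T49.Top

open Crest.Agent.T49.Tw (Cell)
open Crest.Agent.T49.Rg (Sg Sep lm)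
open Crest.Agent.T49.Sg (St St0 Glue Bulk)

variable {ι ι' : Type}

/-- `x` is an integer affine function of the coordinates of level one, with linear part `v` -/
def Aff [Fintype ι] (T : Cell ι) (x : (ι → ℤ) → ℤ) (v : ι → ℤ) : Prop :=
  (∀ c, T.lev c ≠ 1 → v c = 0) ∧ ∃ p : ℤ, ∀ z, x z = p + ∑ c, v c * z c

open Classical in
/-- the indicator of a set of integers -/
def ind (A : Set ℤ) (n : ℤ) : ℝ := if n ∈ A then 1 else 0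

/-- no `k`-term progression with non-zero difference -/
def APF (k : ℕ) (A : Set ℤ) : Prop := ∀ a d : ℤ, d ≠ 0 → ∃ i : ℕ, i < k ∧ a + i * d ∉ A

/-- `T'` is a piece of `T` along the point map `φ`: what the outer iteration has to know -/
structure Pc [Fintype ι] [Fintype ι'] (T : Cell ι) (T' : Cell ι') (φ : (ι' → ℤ) → ι → ℤ)
    (K : ℝ) : Prop where
  aff : ∀ x v, Aff T x v → ∃ v', Aff T' (fun z => x (φ z)) v'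
  sep : ∀ x v Y, Aff T x v → K ≤ Y → Sep T.toTri T.lev 0 x Y →
    Sep T'.toTri T'.lev 0 (fun z => x (φ z)) Y
  lm : lm T'.toTri T'.lev 1 ≤ lm T.toTri T.lev 1 + K
  kap : ∀ l, T'.kap l ≤ T.kap l + K

/-- **START**: the absolute increment theorem on the natural frames -/
def StartStmt (k : ℕ) : Prop :=
  ∃ c : ℝ, 0 < c ∧ ∀ D : ℕ, 1 ≤ D → ∃ C D1 : ℕ, ∀ (m y u : ℝ) (ι : Type) [Fintype ι] (T : Cell ι)
    (τ : ℕ → ℝ) (A : Set ℤ) (x : (ι → ℤ) → ℤ) (v : ι → ℤ) (α σ : ℝ) (L : ℕ),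
    2 ≤ m → m ≤ y → y ≤ u → (Fintype.card ι : ℝ) ≤ y → (∀ c, T.lev c ≤ k - 2) →
    T.RegM T.lev D1 (k - 2) τ → u ^ C ≤ τ (k - 2 + 1) → Aff T x v → v ≠ 0 → APF k A →
    Real.exp (-m) ≤ α → α * T.M ≤ Sg T.toTri (fun z => ind A (x z)) →
    Real.exp (-u) ≤ σ → σ * L ≤ Real.exp (-y ^ C) → Real.exp (m ^ C) ≤ L →
    ∃ d : ℕ, (d : ℝ) ≤ m ^ C ∧
      St T D (k - 2) (k - 2) (fun z => ind A (x z) - (1 + c) * α) σ L (m ^ C) d 0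

/-- **BULK** -/
def BulkStmt : Prop :=
  ∀ s D : ℕ, ∃ C D1 : ℕ, ∀ (y u : ℝ) (ι : Type) [Fintype ι] (T : Cell ι) (τ : ℕ → ℝ) (σ : ℝ),
    2 ≤ y → y ≤ u → (Fintype.card ι : ℝ) ≤ y → (∀ c, T.lev c ≤ s) → T.RegM T.lev D1 s τ →
    u ^ C ≤ τ (s + 1) → Real.exp (-u) ≤ σ → σ ≤ 1 → Bulk T D σ (y ^ C)

/-- **GLUE** (the core; any of the three routes) -/
def GlueStmt : Prop :=
  ∀ s : ℕ, 1 ≤ s → ∃ D0 : ℕ, ∀ D : ℕ, D0 ≤ D → ∃ C D1 : ℕ, ∀ (R u : ℝ) (ι : Type) [Fintype ι]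
    (T : Cell ι) (τ : ℕ → ℝ) (j : ℕ) (σ : ℝ) (L : ℕ),
    2 ≤ R → R ≤ u → (Fintype.card ι : ℝ) ≤ R → (∀ c, T.lev c ≤ s) → T.RegM T.lev D1 s τ →
    u ^ C ≤ τ (s + 1) → 1 ≤ j → j ≤ s → Real.exp (-u) ≤ σ → σ * L ≤ 1 → Real.exp (-R) ≤ σ * L →
    Real.exp (R ^ C) ≤ L → Glue T D s j σ L R (R ^ C)

/-- **LOOP**: all the stages -/
def LoopStmt : Prop :=
  ∀ s D C0 : ℕ, 1 ≤ s → ∃ C : ℕ, ∀ R : ℝ, 2 ≤ R → ∀ (ι : Type) [Fintype ι] (T : Cell ι)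
    (H0 : (ι → ℤ) → ℝ) (σ : ℝ) (L d : ℕ), (∀ c, T.lev c ≤ s) → (Fintype.card ι : ℝ) ≤ R →
    (d : ℝ) ≤ R → (∀ y, |H0 y| ≤ 1) → σ * L ≤ 1 → Real.exp (-R) ≤ σ * L → Real.exp (R ^ C) ≤ L →
    (∀ σ', σ ≤ σ' → σ' ≤ 1 → Bulk T D σ' R) →
    (∀ (j : ℕ) (σ' : ℝ) (L' : ℕ) (R1 : ℝ), 1 ≤ j → j ≤ s → σ ≤ σ' → σ' * L' ≤ 1 →
      Real.exp (-R1) ≤ σ' * L' → R ≤ R1 → R1 ≤ R ^ C → Real.exp (R1 ^ C0) ≤ L' →
      Glue T D s j σ' L' R1 (R1 ^ C0)) →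
    St T D s s H0 σ L R d 0 →
    ∃ (σ' : ℝ) (L' dg : ℕ), σ ≤ σ' ∧ σ' * L' ≤ 1 ∧ Real.exp (-R ^ C) ≤ σ' * L' ∧
      Real.exp (-R ^ C) * L ≤ L' ∧ dg ≤ (d + 2) ^ C ∧ St0 T D s H0 σ' L' (R ^ C) dg

/-- **END**: from the final state to a cell with larger density -/
def EndStmt : Prop :=
  ∀ (s : ℕ) (c : ℝ), 1 ≤ s → 0 < c → ∃ D0 : ℕ, ∀ D : ℕ, D0 ≤ D → ∃ C D1 : ℕ, ∀ (R u : ℝ)
    (ι : Type) [Fintype ι] (T : Cell ι) (τ : ℕ → ℝ) (f : (ι → ℤ) → ℝ) (α σ : ℝ) (L dg : ℕ),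
    2 ≤ R → R ≤ u → (Fintype.card ι : ℝ) ≤ R → (dg : ℝ) ≤ R → (∀ c, T.lev c ≤ s) →
    T.RegM T.lev D1 s τ → u ^ C ≤ τ (s + 1) → (∀ z, 0 ≤ f z ∧ f z ≤ 1) → Real.exp (-R) ≤ α →
    (1 + c) * α ≤ 1 → Real.exp (-u) ≤ σ → σ * L ≤ 1 → Real.exp (-R) ≤ σ * L →
    Real.exp (R ^ C) ≤ L → St0 T D s (fun z => f z - (1 + c) * α) σ L R dg →
    ∃ (ι' : Type) (_ : Fintype ι') (T' : Cell ι') (φ : (ι' → ℤ) → ι → ℤ),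
      Fintype.card ι' ≤ Fintype.card ι + dg ∧ (∀ c, T'.lev c ≤ s) ∧ Pc T T' φ (R ^ C) ∧
      T'.mu / 2 ≤ T'.M ∧ (1 + c / 2) * α * T'.M ≤ Sg T'.toTri fun z => f (φ z)

/-- **INC**: the density increment on a regular cell -/
def IncStmt (k : ℕ) : Prop :=
  ∃ c : ℝ, 0 < c ∧ ∃ C D1 : ℕ, ∀ (m y : ℝ) (ι : Type) [Fintype ι] (T : Cell ι) (τ : ℕ → ℝ)
    (A : Set ℤ) (x : (ι → ℤ) → ℤ) (v : ι → ℤ) (α : ℝ),
    2 ≤ m → m ≤ y → (Fintype.card ι : ℝ) ≤ y → (∀ c, T.lev c ≤ k - 2) →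
    T.RegM T.lev D1 (k - 2) τ → y ^ C ≤ τ (k - 2 + 1) → Aff T x v → v ≠ 0 → APF k A →
    Real.exp (-m) ≤ α → α * T.M ≤ Sg T.toTri (fun z => ind A (x z)) →
    ∃ (ι' : Type) (_ : Fintype ι') (T' : Cell ι') (φ : (ι' → ℤ) → ι → ℤ),
      (Fintype.card ι' : ℝ) ≤ Fintype.card ι + m ^ C ∧ (∀ c, T'.lev c ≤ k - 2) ∧
      Pc T T' φ (y ^ C) ∧ T'.mu / 2 ≤ T'.M ∧
      (1 + c) * α * T'.M ≤ Sg T'.toTri fun z => ind A (x (φ z))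

/-- **NONDEGENERACY**: a constant map separates only small level-one lattices -/
def NdgStmt : Prop :=
  ∃ C : ℕ, ∀ (y : ℝ) (ι : Type) [Fintype ι] (T : Cell ι) (x : (ι → ℤ) → ℤ), 2 ≤ y →
    (Fintype.card ι : ℝ) ≤ y → Aff T x 0 → Sep T.toTri T.lev 0 x y →
    -y ^ C ≤ lm T.toTri T.lev 1

end Crest.Agent.T49.Top
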