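import Crest.Agent.T49.TopStep_55
import Crest.Agent.T49.Iter_61

/-!
# Row 49 (helper58): initial cell, outer iteration and the final glue
-/

set_option autoImplicit false

noncomputable section

namespace Crest.Agent.T49.Top.F58

open Finset MvPolynomial Crest.Agent.T49.Tw Crest.Agent.T49.Fr

/-- the initial cell -/
def c0 (N : ℕ) (hN : 0 < N) : Cell Unit where
  rk _ := 0
  a _ := (N : ℝ)⁻¹
  B _ := 0
  a_ne _ := inv_ne_zero (Nat.cast_ne_zero.2 hN.ne')
  B_mem _ := zero_mem _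
  lev _ := 1
  lev_pos _ := one_pos
  deg _ := degLe_zero _

variable {N : ℕ} (hN : 0 < N)

theorem c0_wgt (z : Unit → ℤ) :
    (c0 N hN).wgt z = Real.exp (-Real.pi * ((N : ℝ)⁻¹ * z ()) ^ 2) := by
  unfold Tri.wgt
  rw [Fintype.sum_unique, Tri.ev_th]
  simp [c0, ev]

theorem c0_mu : (c0 N hN).mu = N := by simp [Tri.mu, c0]

theorem c0_M_ge : (N : ℝ) ≤ (c0 N hN).M := by
  have ha : ∀ _ : Unit, (N : ℝ)⁻¹ ≠ 0 := (c0 N hN).a_ne
  have h := Gau.kap_le_th (Gau.diag_inj ha)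
  rw [Gau.kap_diag ha] at h
  refine le_trans (by simp) (h.trans (le_of_eq ?_))
  unfold Gau.th Tri.M
  refine tsum_congr fun z => ?_
  rw [c0_wgt, add_zero]
  unfold Gau.rho
  rw [Gau.norm_diag_sq]
  simp

theorem c0_M_le : (c0 N hN).M ≤ 2 * N := by
  have h := (c0 N hN).M_le
  have h1 : (1 : ℝ) ≤ N := by exact_mod_cast hN
  refine h.trans ?_
  simp only [c0, Fintype.prod_unique, abs_inv, inv_inv, Nat.abs_cast]
  linarith

theorem c0_kap (l : ℕ) : (c0 N hN).kap l ≤ 3 := by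
  have h1 : (1 : ℝ) ≤ N := by exact_mod_cast hN
  have h2 : Real.log (1 + |(N : ℝ)⁻¹|) ≤ 1 := by
    have := Real.log_le_sub_one_of_pos (show 0 < 1 + |(N : ℝ)⁻¹| by positivity)
    rw [abs_of_nonneg (by positivity)] at this ⊢
    linarith [inv_le_one_of_one_le₀ h1]
  have h3 : ∑ c ∈ univ.filter (fun c => (c0 N hN).lev c = l),
      (1 + Real.log (1 + |(c0 N hN).a c|)) ≤ ∑ c : Unit, (1 + Real.log (1 + |(c0 N hN).a c|)) :=
    sum_le_sum_of_subset_of_nonneg (filter_subset _ _) fun _ _ _ =>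
      zero_le_one.trans (Cell.one_le_term _)
  rw [Fintype.sum_unique] at h3
  unfold Cell.kap
  change _ ≤ 1 + Real.log (1 + |(N : ℝ)⁻¹|) at h3
  linarith

/-- the initial state -/
def x0 {s : ℕ} (hs : 1 ≤ s) : Stt s (Real.log N) where
  ι := Unit
  U := c0 N hN
  p := X ()
  Y := 0
  int := isInt_X _
  deg := degLe_X (w := (c0 N hN).lev) ()
  lev _ := hs
  mu := by
    rw [c0_mu]
    linarith [c0_M_ge hN, (c0 N hN).M_nonneg]
  Y0 := le_rfl
  sep z z' h _ := by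
    have : z = z' := funext fun c => by simpa using h
    left
    simp [Rg.Dj, this]
  lm := by simp [Rg.lm, c0]

/-- a set of natural numbers as a set of integers -/
def zs (A : Finset ℕ) : Set ℤ := {n | ∃ a ∈ A, (a : ℤ) = n}

theorem zs_free {k : ℕ} {A : Finset ℕ} (hk : 1 ≤ k)
    (h : ∀ a d : ℕ, 0 < d → ∃ i, i < k ∧ a + i * d ∉ A) (a d : ℤ) (hd : d ≠ 0) :
    ∃ i : ℕ, i < k ∧ a + i * d ∉ zs A := by
  by_contra hc
  push Not at hc
  have mem : ∀ (n : ℕ), (n : ℤ) ∈ zs A → n ∈ A := fun n ⟨a, ha, e⟩ => by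
    rwa [← Int.natCast_inj.1 e]
  rcases hd.lt_or_gt with hd | hd
  · obtain ⟨b, -, hb⟩ := hc (k - 1) (by omega)
    obtain ⟨i, hi, hi'⟩ := h b (-d).toNat (by omega)
    refine hi' (mem _ ?_)
    have e : ((b + i * (-d).toNat : ℕ) : ℤ) = a + ((k - 1 - i : ℕ) : ℤ) * d := by
      push_cast
      rw [hb, Int.toNat_of_nonneg (by omega), Nat.cast_sub (show i ≤ k - 1 by omega)]
      ring
    rw [e]
    exact hc _ (by omega)
  · obtain ⟨b, -, hb⟩ := hc 0 (by omega)
    obtain ⟨i, hi, hi'⟩ := h b d.toNat (by omega)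
    refine hi' (mem _ ?_)
    have e : ((b + i * d.toNat : ℕ) : ℤ) = a + (i : ℤ) * d := by
      push_cast
      rw [hb, Int.toNat_of_nonneg hd.le]
      ring
    rw [e]
    exact hc _ hi

theorem x0_dn {s : ℕ} (hs : 1 ≤ s) {A : Finset ℕ} (hA : A ⊆ Icc 1 N) :
    Real.exp (-5) * #A / N ≤ (x0 hN hs).dn (zs A) := by
  have h1 : (1 : ℝ) ≤ N := by exact_mod_cast hN
  change _ ≤ (∑' z, (c0 N hN).wgt z * indA (zs A) (X ()) z) / (c0 N hN).M
  have hm := indA_mem (zs A) (X () : Pl Unit)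
  have hsum := (c0 N hN).summable_mul_real (f := indA (zs A) (X ())) (K := 1)
    fun z => abs_le.2 ⟨by linarith [(hm z).1], (hm z).2⟩
  have h2 := hsum.sum_le_tsum (A.map ⟨fun (a : ℕ) (_ : Unit) => (a : ℤ), fun a b h => by
    simpa using congrFun h ()⟩) fun z _ => mul_nonneg ((c0 N hN).wgt_nonneg z) (hm z).1
  rw [sum_map] at h2
  have h3 : #A • Real.exp (-4) ≤ _ := (card_nsmul_le_sum A _ _ fun a ha => ?_).trans h2
  · rw [nsmul_eq_mul] at h3
    have h4 : Real.exp (-5) * 2 ≤ Real.exp (-4) := by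
      rw [show (-4 : ℝ) = -5 + 1 by norm_num, Real.exp_add]
      exact mul_le_mul_of_nonneg_left (by linarith [Real.add_one_le_exp (1 : ℝ)])
        (Real.exp_pos _).le
    rw [div_le_div_iff₀ (by positivity) (c0 N hN).M_pos]
    calc Real.exp (-5) * #A * (c0 N hN).M ≤ Real.exp (-5) * #A * (2 * N) :=
          mul_le_mul_of_nonneg_left (c0_M_le hN) (by positivity)
      _ = #A * (Real.exp (-5) * 2) * N := by ring
      _ ≤ #A * Real.exp (-4) * N := by gcongr
      _ ≤ _ := mul_le_mul_of_nonneg_right h3 (by positivity)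
  · have e : indA (zs A) (X () : Pl Unit) (fun _ => (a : ℤ)) = 1 := by
      unfold indA
      rw [if_pos]
      exact ⟨a, ha, by simp⟩
    change _ ≤ (c0 N hN).wgt (fun _ => (a : ℤ)) * indA (zs A) (X ()) (fun _ => (a : ℤ))
    rw [e, mul_one, c0_wgt]
    refine Real.exp_le_exp.2 ?_
    have h5 : (a : ℝ) ≤ N := by exact_mod_cast (mem_Icc.1 (hA ha)).2
    have h6 : ((N : ℝ)⁻¹ * ((a : ℤ) : ℝ)) ^ 2 ≤ 1 := by
      refine pow_le_one₀ (by positivity) ?_
      rw [inv_mul_le_iff₀ (by positivity)]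
      simpa using h5
    nlinarith [Real.pi_le_four, Real.pi_pos]

/-- the cumulative costs -/
def cst {s : ℕ} {LN : ℝ} (x : Stt s LN) (j : ℕ) : ℝ :=
  if j ≤ s then Fintype.card x.ι + ∑ l ∈ Ioc (s - j) s, x.U.kap l else x.Y

theorem cst_nonneg {s : ℕ} {LN : ℝ} (x : Stt s LN) (j : ℕ) : 0 ≤ cst x j := by
  unfold cst
  split_ifs
  · exact add_nonneg (Nat.cast_nonneg _) (sum_nonneg fun _ _ => kap_nonneg _ _)
  · exact x.Y0

theorem cst_of_le {s : ℕ} {LN : ℝ} (x : Stt s LN) {j : ℕ} (hj : j ≤ s) :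
    cst x j = Fintype.card x.ι + ∑ l ∈ Ioc (s - j) s, x.U.kap l := if_pos hj

theorem cst_last {s : ℕ} {LN : ℝ} (x : Stt s LN) : cst x (s + 1) = x.Y := if_neg (by omega)

theorem bound {s : ℕ} (hs : 1 ≤ s) (hI : Inc s) (hO : OReg s) (hD : NondegStmt) : ∃ K : ℕ,
    ∀ (N : ℕ) (A : Finset ℕ) (m : ℝ), 2 ≤ N → 2 ≤ m → A ⊆ Icc 1 N →
      (∀ a d : ℕ, 0 < d → ∃ i, i < s + 2 ∧ a + i * d ∉ A) → Real.exp (-m) * N ≤ #A →
      Real.log N ≤ m ^ K := by
  obtain ⟨K, hK, hst⟩ := step hI hO hD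
  obtain ⟨K1, hK1, h1⟩ := PB.exists_le (f := fun t => (s + 1) * t ^ K + (1 + 3 * s)) (by fun_prop)
  obtain ⟨K2, h2⟩ := Itr.iterP.{1} (s + 2) K1 hK1
  obtain ⟨K3, -, h3⟩ := PB.exists_le (f := fun t => (t + ((K2 + 1).factorial + 5)) ^ K2)
    (by fun_prop)
  refine ⟨K3, fun N A m hN hm hA hAP hd => le_trans ?_ (h3 m hm)⟩
  have hN0 : 0 < N := by omega
  have f0 : (0 : ℝ) < (K2 + 1).factorial := by positivity
  have s0 : (0 : ℝ) ≤ s := Nat.cast_nonneg _
  set m' : ℝ := m + ((K2 + 1).factorial + 5) with hm'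
  have hm2 : 2 ≤ m' := by linarith
  have hlt : m' ^ K2 < Real.exp m' := by
    refine lt_of_lt_of_le ?_ (Real.pow_div_factorial_le_exp m' (by linarith) (K2 + 1))
    rw [lt_div_iff₀ f0, pow_succ]
    exact mul_lt_mul_of_pos_left (by linarith) (by positivity)
  have hP : ∀ t : ℝ, 2 ≤ t → (s + 1) * t ^ K ≤ t ^ K1 ∧ t ^ K ≤ t ^ K1 ∧ 1 + 3 * s ≤ t ^ K1 :=
    fun t ht => by
      have e1 := h1 t ht
      have e2 : 0 ≤ t ^ K := by positivity
      have e3 : 0 ≤ s * t ^ K := by positivity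
      refine ⟨?_, ?_, ?_⟩ <;> linarith
  have key := h2 (Stt s (Real.log N)) (fun x => x.dn (zs A)) (fun x j => cst x j) m'
    (min (Real.log N) (Real.exp m')) (x0 hN0 hs) hm2 (fun x => (dens_mem _ (indA_mem _ _)).2)
    (fun x j => cst_nonneg x j) ?_ (fun j => le_trans ?_ (hP m' hm2).2.2) ?_
  · exact (min_le_iff.1 key).resolve_right hlt.not_ge
  · refine le_trans ?_ (x0_dn hN0 hs hA)
    rw [le_div_iff₀ (by positivity)]
    refine le_trans ?_ (mul_le_mul_of_nonneg_left hd (Real.exp_pos _).le)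
    rw [← mul_assoc, ← Real.exp_add]
    exact mul_le_mul_of_nonneg_right (Real.exp_le_exp.2 (by linarith)) (by positivity)
  · unfold cst
    split_ifs
    · refine add_le_add (le_of_eq (by exact_mod_cast Fintype.card_unit)) ?_
      refine (sum_le_card_nsmul _ _ _ fun l _ => c0_kap hN0 l).trans ?_
      rw [Nat.card_Ioc, nsmul_eq_mul, mul_comm]
      exact mul_le_mul_of_nonneg_left (by exact_mod_cast Nat.sub_le _ _) (by norm_num)
    · change (0 : ℝ) ≤ _
      linarith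
  · intro x hx hB
    have e1 : cst x s + cst x (s + 1) ≤ ∑ j : Fin (s + 2), cst x j := by
      rw [← sum_range, sum_range_succ, sum_range_succ]
      linarith [sum_nonneg fun j (_ : j ∈ range s) => cst_nonneg x j]
    rw [cst_of_le x le_rfl, cst_last, Nat.sub_self] at e1
    have n0 : (0 : ℝ) ≤ Fintype.card x.ι := Nat.cast_nonneg _
    have S0 : 0 ≤ ∑ l ∈ Ioc 0 s, x.U.kap l := sum_nonneg fun _ _ => kap_nonneg _ _
    have Y0 := x.Y0
    have t2 : 2 ≤ m' + ∑ j : Fin (s + 2), cst x j := by linarith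
    obtain ⟨x', i1, i2, i3, i4⟩ := hst (Real.log N) m' (zs A) x hm2 (zs_free (by omega) hAP) hx
      (fun l => by
        by_cases hl : l ∈ Ioc 0 s
        · have e2 := single_le_sum (fun l _ => kap_nonneg x.U l) hl
          have e3 := (PB.le_pow t2 hK1).trans (hB.trans (min_le_right _ _))
          linarith
        · rw [O26.kap_eq_one x.U x.lev (by rw [mem_Ioc] at hl; omega)]
          exact Real.one_le_exp (by linarith))
      ((pow_le_pow_left₀ (by linarith) (by linarith) K).trans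
        ((hP _ t2).2.1.trans (hB.trans (min_le_left _ _))))
    refine ⟨x', le_trans (mul_le_mul_of_nonneg_right ?_ ((Real.exp_pos _).le.trans hx)) i1,
      fun j => ?_⟩
    · have := inv_anti₀ (by positivity) (hP m' hm2).2.1
      linarith
    · obtain ⟨j, hj⟩ := j
      set W := ∑ i ∈ univ.filter (· < (⟨j, hj⟩ : Fin (s + 2))), (cst x' i + cst x i) with hW
      have W0 : 0 ≤ W := sum_nonneg fun i _ => add_nonneg (cst_nonneg _ _) (cst_nonneg _ _)
      have t3 : 2 ≤ m' + W := by linarith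
      have hW1 : ∀ i, i < j → cst x i ≤ W := fun i hi => by
        have := single_le_sum (s := univ.filter (· < (⟨j, hj⟩ : Fin (s + 2))))
          (f := fun i : Fin (s + 2) => cst x' i + cst x i)
          (fun i _ => add_nonneg (cst_nonneg _ _) (cst_nonneg _ _)) (a := ⟨i, by omega⟩)
          (mem_filter.2 ⟨mem_univ _, hi⟩)
        linarith [cst_nonneg x' i]
      change cst x' j ≤ cst x j + (m' + W) ^ K1
      rcases le_or_gt j s with hjs | hjs
      · rw [cst_of_le x hjs, cst_of_le x' hjs]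
        have e2 : m' ^ K ≤ (m' + W) ^ K := pow_le_pow_left₀ (by linarith) (by linarith) K
        have e3 : ∑ l ∈ Ioc (s - j) s, x'.U.kap l ≤
            ∑ l ∈ Ioc (s - j) s, (x.U.kap l + (m' + W) ^ K) := sum_le_sum fun l hl => by
          rw [mem_Ioc] at hl
          have e4 := hW1 (j - 1) (by omega)
          rw [cst_of_le x (by omega)] at e4
          have e5 : ∑ l' ∈ Ioc l s, x.U.kap l' ≤ ∑ l' ∈ Ioc (s - (j - 1)) s, x.U.kap l' :=
            sum_le_sum_of_subset_of_nonneg (Ioc_subset_Ioc_left (by omega))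
              fun _ _ _ => kap_nonneg _ _
          have e6 : 0 ≤ ∑ l' ∈ Ioc l s, x.U.kap l' := sum_nonneg fun _ _ => kap_nonneg _ _
          exact (i3 l).trans (add_le_add le_rfl (pow_le_pow_left₀ (by linarith) (by linarith) K))
        rw [sum_add_distrib, sum_const, Nat.card_Ioc, nsmul_eq_mul] at e3
        have e7 : ((s - (s - j) : ℕ) : ℝ) * (m' + W) ^ K ≤ s * (m' + W) ^ K :=
          mul_le_mul_of_nonneg_right (by exact_mod_cast Nat.sub_le _ _) (by positivity)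
        linarith [(hP _ t3).1]
      · obtain rfl : j = s + 1 := by omega
        rw [cst_last, cst_last]
        have e4 := hW1 s (by omega)
        rw [cst_of_le x le_rfl, Nat.sub_self] at e4
        exact i4.trans (add_le_add le_rfl
          ((pow_le_pow_left₀ (by linarith) (by linarith) K).trans (hP _ t3).2.1))

/-- **S0068 from the increment** -/
theorem fin_of {s : ℕ} (hs : 1 ≤ s) (hI : Inc s) (hO : OReg s) (hD : NondegStmt) :
    ∃ C c ε : ℝ, 0 < C ∧ 0 < c ∧ 0 < ε ∧ ∀ N : ℕ, 2 ≤ N → ∀ A : Finset ℕ,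
      A ⊆ Finset.Icc 1 N → (∀ a d : ℕ, 0 < d → ∃ i, i < s + 2 ∧ a + i * d ∉ A) →
        (A.card : ℝ) ≤ C * N * Real.exp (-(c * Real.log N ^ ε)) := by
  obtain ⟨K, h⟩ := bound hs hI hO hD
  refine Itr.final (s + 2) K fun N A m hN hm hA hAP hd =>
    h N A m hN (by exact_mod_cast hm) hA hAP ?_
  have h1 : (N : ℝ) ≤ 2 ^ m * #A := by exact_mod_cast hd
  have h2 : (2 : ℝ) ^ m ≤ Real.exp m := by
    rw [← mul_one (m : ℝ), Real.exp_nat_mul]
    refine pow_le_pow_left₀ (by norm_num) ?_ _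
    have := Real.add_one_le_exp (1 : ℝ)
    linarith
  rw [Real.exp_neg, inv_mul_le_iff₀ (Real.exp_pos _)]
  exact h1.trans (mul_le_mul_of_nonneg_right h2 (by positivity))

/-- **TOP** -/
theorem top_of (hG : ∀ D k, 1 ≤ D → 3 ≤ k → Rat.GINC (Nil.nilWin (Fin D)) k) (hS : StartStmt)
    (hB : BulkStmt) (hL : GlueStmt) (hE : EndStmt) (hO : ORegStmt) (hD : NondegStmt)
    (k : ℕ) (hk : 3 ≤ k) :
    ∃ C c ε : ℝ, 0 < C ∧ 0 < c ∧ 0 < ε ∧ ∀ N : ℕ, 2 ≤ N → ∀ A : Finset ℕ,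
      A ⊆ Finset.Icc 1 N → (∀ a d : ℕ, 0 < d → ∃ i, i < k ∧ a + i * d ∉ A) →
        (A.card : ℝ) ≤ C * N * Real.exp (-(c * Real.log N ^ ε)) := by
  obtain ⟨s, rfl⟩ : ∃ s, k = s + 2 := ⟨k - 2, by omega⟩
  have hs : 1 ≤ s := by omega
  exact fin_of hs (inc_of hs (fun D hD => hS s D hs hD (hG D _ hD hk)) hB hL hE) (hO s hs) hD

end Crest.Agent.T49.Top.F58
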