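import Crest.Agent.T49.SgLoop_65
import Crest.Agent.T49.PB_10

/-!
# Row 49 (helper55): `START`, the stages and `END` give the increment on a regular cell
-/

set_option autoImplicit false

noncomputable section

namespace Crest.Agent.T49.Top

open Finset Crest.Agent.T49.Tw Crest.Agent.T49.Fr Crest.Agent.T49.Nil

variable {ι : Type} [Fintype ι]

theorem par_le {T : Cell ι} {s C C' : ℕ} {τ : ℕ → ℝ} {σ R : ℝ} {L : ℕ}
    (h : Par T s C τ σ L R) (hC : C' ≤ C) (hC1 : 1 ≤ C) : Par T s C' τ σ L R :=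
  Sg.par_next h hC hC1 le_rfl h.σ_le h.le_σ
    ((Real.exp_le_exp.2 (PB.pow_mono h.two hC)).trans h.L_ge) le_rfl

omit [Fintype ι] in
theorem indA_mem (A : Set ℤ) (p : Pl ι) (z : ι → ℤ) : 0 ≤ indA A p z ∧ indA A p z ≤ 1 := by
  unfold indA
  split_ifs <;> norm_num

theorem dens_mem (T : Cell ι) {f : (ι → ℤ) → ℝ} (hf : ∀ z, 0 ≤ f z ∧ f z ≤ 1) :
    0 ≤ dens T f ∧ dens T f ≤ 1 := by
  refine ⟨div_nonneg (tsum_nonneg fun z => mul_nonneg (T.wgt_nonneg z) (hf z).1) T.M_nonneg, ?_⟩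
  rw [Fr.dens, div_le_one T.M_pos]
  have := T.abs_tsum_mul_le (f := f) (K := 1) fun z => abs_le.2 ⟨by linarith [(hf z).1], (hf z).2⟩
  exact (le_abs_self _).trans (by simpa using this)

/-- the density increment on a regular cell -/
def Inc (s : ℕ) : Prop :=
  ∃ c : ℝ, 0 < c ∧ ∃ C : ℕ, ∀ (ι : Type) [Fintype ι] (T : Cell ι) (τ : ℕ → ℝ) (p : Pl ι)
    (A : Set ℤ) (m y : ℝ), 2 ≤ m → m ≤ y → (Fintype.card ι : ℝ) ≤ y → (∀ c, T.lev c ≤ s) →
    (∀ l, T.kap l ≤ Real.exp y) →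
    T.Reg C s τ → y ^ C ≤ τ (s + 1) → Tw.IsInt p → DegLe T.lev p 1 → T.top 1 p ≠ 0 →
    (∀ a d : ℤ, d ≠ 0 → ∃ i : ℕ, i < s + 2 ∧ a + i * d ∉ A) →
    Real.exp (-m) ≤ dens T (indA A p) →
    ∃ (ι' : Type) (_ : Fintype ι') (U : Cell ι') (φ : ι → Pl ι'),
      (∀ c, U.lev c ≤ s) ∧ (Fintype.card ι' : ℝ) ≤ Fintype.card ι + m ^ C ∧
      (∀ l, U.kap l ≤ T.kap l + y ^ C) ∧ Piece T U φ (y ^ C) ∧ U.mu ≤ 2 * U.M ∧
      (1 + c) * dens T (indA A p) ≤ dens U fun z => indA A p (Rg.pt φ z)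

theorem piece_mono {ι' : Type} [Fintype ι'] {T : Cell ι} {U : Cell ι'} {φ : ι → Pl ι'} {y y' : ℝ}
    (h : Piece T U φ y) (hy : y ≤ y') : Piece T U φ y' :=
  ⟨h.int, h.deg, fun x Y hY hs z z' h1 h2 => (h.sep x Y hY hs z z' h1 h2).imp_right fun h3 =>
    (Real.exp_le_exp.2 (by linarith)).trans h3, h.lm.trans (by linarith)⟩

theorem inc_of {s : ℕ} (hs : 1 ≤ s) (hS : ∀ D, 1 ≤ D → Start s D) (hB : BulkStmt)
    (hG : GlueStmt) (hE : EndStmt) : Inc s := by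
  obtain ⟨Dg, hg⟩ := hG s hs
  obtain ⟨De, he⟩ := hE s hs
  obtain ⟨c, hc0, hc1, Cs, h1⟩ := hS (Dg + De + 1) (by omega)
  obtain ⟨Ce, h3⟩ := he (Dg + De + 1) (by omega) c hc0 hc1
  obtain ⟨C2, h2⟩ := Sg.loop hs (hg (Dg + De + 1) (by omega)) hB Ce
  obtain ⟨Ca, hCa, ha⟩ := PB.exists_le (f := fun y => y ^ Cs + (y ^ Cs + 2) ^ C2)
    (by fun_prop)
  obtain ⟨C, hC, hb⟩ := PB.exists_le (f := fun y =>
    ((y ^ Ca) ^ (C2 + Cs + 1) + 1) ^ (C2 + Cs + 1) + ((y ^ Ca) ^ C2) ^ Ce + y ^ Ca) (by fun_prop)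
  refine ⟨c / 2, by positivity, C + C2 + Cs + 1,
    fun ι _ T τ p A m y hm hy hι hlev hk hreg hτ hp1 hp2 hp3 hA hd => ?_⟩
  have hy2 : 2 ≤ y := hm.trans hy
  have y0 : 0 ≤ y := by linarith
  have m0 : 0 ≤ m := by linarith
  set R := y ^ Ca with hRdef
  have hyR : y ≤ R := PB.le_pow hy2 hCa
  have hR2 : 2 ≤ R := hy2.trans hyR
  have b1 := ha y hy2
  have b2 := (hb y hy2).trans (PB.pow_mono hy2 (show C ≤ C + C2 + Cs + 1 by omega))
  have p1 : 0 ≤ y ^ Cs := by positivity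
  have p2 : 0 ≤ (y ^ Cs + 2) ^ C2 := by positivity
  have p3 : 0 ≤ (R ^ (C2 + Cs + 1) + 1) ^ (C2 + Cs + 1) := by positivity
  have p4 : 0 ≤ (R ^ C2) ^ Ce := by positivity
  set L : ℕ := ⌈Real.exp (R ^ (C2 + Cs + 1))⌉₊ with hL
  have hL1 : Real.exp (R ^ (C2 + Cs + 1)) ≤ L := Nat.le_ceil _
  have hL0 : (0 : ℝ) < L := (Real.exp_pos _).trans_le hL1
  have hL2 : Real.log L ≤ R ^ (C2 + Cs + 1) + 1 := by
    rw [Real.log_le_iff_le_exp hL0, Real.exp_add]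
    have e1 := (Nat.ceil_lt_add_one (Real.exp_pos (R ^ (C2 + Cs + 1))).le).le
    have e2 := Real.one_le_exp (show 0 ≤ R ^ (C2 + Cs + 1) by positivity)
    have e3 := Real.add_one_le_exp (1 : ℝ)
    nlinarith
  have hP0 : Par T s (C2 + Cs + 1) τ (L : ℝ)⁻¹ L y :=
    { lev := hlev
      reg := Asm.reg_mono hreg (by omega) (by omega) (le_trans (by positivity) hτ)
      two := hy2
      card := hι
      σ_pos := inv_pos.2 hL0
      σ_le := (inv_mul_cancel₀ hL0.ne').le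
      le_σ := by
        rw [inv_mul_cancel₀ hL0.ne']
        exact Real.exp_le_one_iff.2 (by linarith)
      L_ge := (Real.exp_le_exp.2 (pow_le_pow_left₀ y0 hyR _)).trans hL1
      L_le := (pow_le_pow_left₀ (Real.log_natCast_nonneg _) hL2 _).trans
        (le_trans (by linarith) hτ) }
  obtain ⟨σ, d, s1, s2, s3, s4, s5⟩ := h1 ι T τ p A m y L hm hy (par_le hP0 (by omega) (by omega))
    hp1 hp2 hp3 hA hd
  have hdm := dens_mem T (indA_mem A p)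
  set α := dens T (indA A p) with hα
  have hdy : (d : ℝ) ≤ y ^ Cs := s4.trans (pow_le_pow_left₀ m0 hy _)
  obtain ⟨σ', L', dg, R', r1, r2, -, -, r3, r6, r4, r5⟩ := h2 ι T τ σ L R _ d
    (Sg.par_next hP0 (by omega) (by omega) hyR s2
      ((Real.exp_le_exp.2 (by linarith)).trans s3)
      ((Real.exp_le_exp.2 (PB.pow_mono hR2 (by omega))).trans hL1) le_rfl)
    (by linarith)
    (fun z => by
      have := indA_mem A p z
      rw [abs_le]
      constructor <;> nlinarith [hdm.1, hdm.2]) (s5.mono s1 (by linarith))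
  obtain ⟨ι', _, U, φ, u1, u2, u3, u4, u5, u6⟩ := h3 ι T τ (indA A p) α σ' R' L' dg r3 r6
    (fun l => (hk l).trans (Real.exp_le_exp.2 (by linarith))) (indA_mem A p)
    ((Real.exp_le_exp.2 (by linarith)).trans hd) hdm.2 r5
  have e1 : R' ^ Ce ≤ y ^ (C + C2 + Cs + 1) :=
    (pow_le_pow_left₀ (by linarith) r2 _).trans (by linarith)
  refine ⟨ι', _, U, φ, u1, ?_, fun l => (u3 l).trans (by linarith), piece_mono u4 e1, u5, u6⟩
  have e2 : (Fintype.card ι' : ℝ) ≤ Fintype.card ι + dg := by exact_mod_cast u2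
  have e3 := ha m hm
  have e4 := (hb m hm).trans (PB.pow_mono hm (show C ≤ C + C2 + Cs + 1 by omega))
  have e5 : (dg : ℝ) ≤ (m ^ Cs + 2) ^ C2 := by
    have e1 : (dg : ℝ) ≤ (d + 2) ^ C2 := by exact_mod_cast r4
    exact e1.trans (by gcongr)
  have e6 : 0 ≤ m ^ Cs := by positivity
  have e7 : 0 ≤ ((m ^ Ca) ^ (C2 + Cs + 1) + 1) ^ (C2 + Cs + 1) := by positivity
  have e8 : 0 ≤ ((m ^ Ca) ^ C2) ^ Ce := by positivity
  linarith

end Crest.Agent.T49.Top
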