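import Crest.Agent.T49.TopInc_55
import Crest.Agent.T49.OReg_26
import Crest.Agent.T49.RegA_2

/-!
# Row 49 (helper55): one step of the outer iteration
-/

set_option autoImplicit false

noncomputable section

namespace Crest.Agent.T49.Top

open Finset MvPolynomial Crest.Agent.T49.Tw Crest.Agent.T49.Fr

/-- a state of the outer iteration; `LN = log N` -/
structure Stt (s : ℕ) (LN : ℝ) : Type 1 where
  ι : Type
  [fin : Fintype ι]
  U : Cell ι
  p : Pl ι
  Y : ℝ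
  int : Tw.IsInt p
  deg : DegLe U.lev p 1
  lev : ∀ c, U.lev c ≤ s
  mu : U.mu ≤ 2 * U.M
  Y0 : 0 ≤ Y
  sep : Rg.Sep U.toTri U.lev 0 (fun z => ⌊ev z p⌋) Y
  lm : Rg.lm U.toTri U.lev 1 ≤ -LN + Y

attribute [instance] Stt.fin

/-- density of `A` on the state -/
def Stt.dn {s : ℕ} {LN : ℝ} (x : Stt s LN) (A : Set ℤ) : ℝ := Fr.dens x.U (indA A x.p)

theorem big (C C' s : ℕ) : ∃ b : ℝ, 1 ≤ b ∧ ∀ m y : ℝ, 2 ≤ m → b * m ≤ y →
    Real.exp m + (y ^ C + s * Real.exp m) ^ C' ≤ Real.exp y := by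
  set a : ℝ := C' + 1 with ha
  have a1 : 1 ≤ a := by rw [ha]; linarith [Nat.cast_nonneg (α := ℝ) C']
  set K : ℝ := C.factorial * (2 * a) ^ C with hK
  have K0 : 0 ≤ K := by positivity
  have s0 : (0 : ℝ) ≤ s := Nat.cast_nonneg s
  have h0 : 0 ≤ a * (K + s + 1) := by positivity
  refine ⟨4 * (a * (K + s + 1)) + 2 * a, by linarith, fun m y hm hy => ?_⟩
  have y1 : 2 * a * m ≤ y := by nlinarith
  have y2 : 4 * (a * (K + s + 1)) ≤ y := by nlinarith
  have y0 : 0 ≤ y := by linarith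
  set u := Real.exp (y / (2 * a)) with hu
  have u1 : y ^ C ≤ K * u := by
    have := Real.pow_div_factorial_le_exp (y / (2 * a)) (by positivity) C
    rw [div_pow, div_div, div_le_iff₀ (by positivity)] at this
    rw [hK]
    linarith
  have u2 : Real.exp m ≤ u := Real.exp_le_exp.2 (by rw [le_div_iff₀ (by positivity)]; linarith)
  have u3 : 2 * (K + s + 1) ≤ u := by
    have : 2 * (K + s + 1) ≤ y / (2 * a) := by rw [le_div_iff₀ (by positivity)]; linarith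
    linarith [Real.add_one_le_exp (y / (2 * a))]
  have u4 : 1 ≤ u := by linarith
  set w := (K + s + 1) * u with hw
  have w1 : u ≤ w := by rw [hw]; nlinarith
  have w2 : y ^ C + s * Real.exp m ≤ w := by rw [hw]; nlinarith
  have w3 : (y ^ C + s * Real.exp m) ^ C' ≤ w ^ (C' + 1) :=
    (pow_le_pow_left₀ (by positivity) w2 _).trans (pow_le_pow_right₀ (by linarith) (by omega))
  have w4 : w ≤ w ^ (C' + 1) := le_self_pow₀ (by linarith) (by omega)
  have w5 : (2 : ℝ) ≤ 2 ^ (C' + 1) := le_self_pow₀ (by norm_num) (by omega)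
  have w6 : 0 ≤ w ^ (C' + 1) := by positivity
  calc _ ≤ 2 ^ (C' + 1) * w ^ (C' + 1) := by nlinarith
    _ = (2 * w) ^ (C' + 1) := (mul_pow _ _ _).symm
    _ ≤ (u * u) ^ (C' + 1) := pow_le_pow_left₀ (by linarith) (by rw [hw]; nlinarith) _
    _ = Real.exp y := by
      rw [hu, ← Real.exp_add, ← Real.exp_nat_mul]
      congr 1
      push_cast
      rw [← ha]
      field_simp
      ring

theorem indA_bind {ι ι' : Type} {φ : ι → Pl ι'} (h : ∀ c, Tw.IsInt (φ c)) (A : Set ℤ) (p : Pl ι) :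
    (fun z => indA A p (Rg.pt φ z)) = indA A (bind₁ φ p) := by
  funext z
  unfold indA
  rw [Rg.ev_pt h]

theorem floor_bind {ι ι' : Type} {φ : ι → Pl ι'} (h : ∀ c, Tw.IsInt (φ c)) (p : Pl ι) :
    (fun z => ⌊ev (Rg.pt φ z) p⌋) = fun z => ⌊ev z (bind₁ φ p)⌋ := by
  funext z
  rw [Rg.ev_pt h]

theorem kap_nonneg {ι : Type} [Fintype ι] (T : Cell ι) (l : ℕ) : 0 ≤ T.kap l :=
  add_nonneg zero_le_one (sum_nonneg fun _ _ => zero_le_one.trans (Cell.one_le_term _))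

set_option maxHeartbeats 800000 in
/-- **one step** -/
theorem step {s : ℕ} (hI : Inc s) (hO : OReg s) (hN : NondegStmt) : ∃ K : ℕ, 1 ≤ K ∧
    ∀ (LN m : ℝ) (A : Set ℤ) (x : Stt s LN), 2 ≤ m →
    (∀ a d : ℤ, d ≠ 0 → ∃ i : ℕ, i < s + 2 ∧ a + i * d ∉ A) → Real.exp (-m) ≤ x.dn A →
    (∀ l, x.U.kap l ≤ Real.exp m) →
    (m + (Fintype.card x.ι + ∑ l ∈ Ioc 0 s, x.U.kap l + x.Y)) ^ K ≤ LN →
    ∃ x' : Stt s LN, (1 + (m ^ K)⁻¹) * x.dn A ≤ x'.dn A ∧
      (Fintype.card x'.ι : ℝ) ≤ Fintype.card x.ι + m ^ K ∧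
      (∀ l, x'.U.kap l ≤ x.U.kap l + (m + (Fintype.card x.ι + ∑ l' ∈ Ioc l s, x.U.kap l')) ^ K) ∧
      x'.Y ≤ x.Y + (m + (Fintype.card x.ι + ∑ l ∈ Ioc 0 s, x.U.kap l)) ^ K := by
  obtain ⟨c, hc, C, hI⟩ := hI
  obtain ⟨C', hO⟩ := hO C
  obtain ⟨Cn, hN⟩ := hN
  obtain ⟨b0, hb0, hb⟩ := big (C + 1) C' s
  set ε : ℝ := c / (2 * (1 + c)) with hε
  have ε0 : 0 < ε := by positivity
  have ε1 : (1 + c) * ε = c / 2 := by rw [hε]; field_simp
  have ε2 : ε ≤ 1 / 2 := by nlinarith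
  set b : ℝ := b0 + ε⁻¹ + 1 with hbd
  have εi : 0 < ε⁻¹ := inv_pos.2 ε0
  set g : ℝ → ℝ := fun t => ((b * t) ^ (C + 1) + (1 + t)) ^ C' + (b * t) ^ C with hg
  have hgp : PB g := by rw [hg]; fun_prop
  obtain ⟨K, hK, hP⟩ := PB.exists_le
    (f := fun t => g t + (t + 1) ^ C + 2 / c + ((t + (t + g t)) ^ Cn + (t + g t) + 1))
    (by fun_prop)
  have g0 : ∀ t, 0 ≤ t → 0 ≤ g t := fun t ht => by simp only [hg]; positivity
  have hP' : ∀ t, 2 ≤ t → g t ≤ t ^ K ∧ (t + 1) ^ C ≤ t ^ K ∧ 2 / c ≤ t ^ K ∧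
      (t + (t + g t)) ^ Cn + (t + g t) + 1 ≤ t ^ K := fun t ht => by
    have h1 := hP t ht
    have h2 := g0 t (by linarith)
    have h3 : 0 ≤ (t + 1) ^ C := by positivity
    have h4 : 0 ≤ 2 / c := by positivity
    have h5 : 0 ≤ (t + (t + g t)) ^ Cn := by positivity
    refine ⟨?_, ?_, ?_, ?_⟩ <;> linarith
  refine ⟨K, hK, fun LN m A x hm hA hd hk hL => ?_⟩
  set n : ℝ := ((Fintype.card x.ι : ℕ) : ℝ) with hn
  have n0 : 0 ≤ n := Nat.cast_nonneg _
  have S0 : ∀ l, 0 ≤ ∑ l' ∈ Ioc l s, x.U.kap l' := fun l => sum_nonneg fun _ _ => kap_nonneg _ _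
  set y := b * (m + n) with hy
  have y1 : b0 * m + ε⁻¹ + m + n ≤ y := by
    rw [hy, hbd]
    nlinarith [mul_nonneg εi.le n0, mul_nonneg εi.le (show 0 ≤ m - 1 by linarith)]
  have y2 : m ≤ b0 * m := by nlinarith
  have y3 : 2 ≤ y := by linarith
  have q1 : y ≤ y ^ (C + 1) := PB.le_pow y3 (by omega)
  have hgy : ∀ S t, 0 ≤ S → m + n ≤ t → S ≤ 1 + t →
      (y ^ (C + 1) + S) ^ C' + y ^ C ≤ g t := fun S t h0 h1 h2 => by
    have : y ≤ b * t := mul_le_mul_of_nonneg_left h1 (by linarith)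
    simp only [hg]
    gcongr
  obtain ⟨ι', _, T, τ, φ, t1, t2, t3, t4, t5, t6, t7⟩ := hO x.ι x.U (indA A x.p) (y ^ (C + 1))
    x.lev (by linarith) (by linarith)
    (fun l => (hk l).trans (Real.exp_le_exp.2 (by linarith))) (indA_mem A x.p) x.mu
  rw [indA_bind t6.int] at t7
  have t2' : (Fintype.card ι' : ℝ) ≤ n := by rw [hn]; exact_mod_cast t2
  have hS : ∑ l ∈ range (s + 1), x.U.kap l = 1 + ∑ l ∈ Ioc 0 s, x.U.kap l := by
    rw [range_eq_Ico, sum_eq_sum_Ico_succ_bot (by omega), O26.kap_eq_one x.U x.lev (Or.inl rfl)]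
    rfl
  rw [hS] at t6
  set S := ∑ l ∈ Ioc 0 s, x.U.kap l with hSd
  have hS0 : 0 ≤ S := S0 0
  set y' := (y ^ (C + 1) + (1 + S)) ^ C' with hy'
  have y'0 : 0 ≤ y' := by positivity
  have yC : 0 ≤ y ^ C := by positivity
  have Y0 := x.Y0
  have sepT := t6.sep _ _ x.Y0 x.sep
  rw [floor_bind t6.int] at sepT
  have lmT : Rg.lm T.toTri T.lev 1 ≤ -LN + (x.Y + y') := by linarith [t6.lm, x.lm]
  have degT : DegLe T.lev (bind₁ φ x.p) 1 := DegLe.bind t6.deg x.deg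
  have hd' : x.dn A - ε * x.dn A ≤ Fr.dens T (indA A (bind₁ φ x.p)) := by
    refine le_trans ?_ t7
    have e1 : Real.exp (-y ^ (C + 1)) ≤ Real.exp (-ε⁻¹) * Real.exp (-m) := by
      rw [← Real.exp_add]; exact Real.exp_le_exp.2 (by linarith)
    have e2 : Real.exp (-ε⁻¹) ≤ ε := by
      rw [Real.exp_neg, inv_le_comm₀ (Real.exp_pos _) ε0]
      linarith [Real.add_one_le_exp ε⁻¹]
    have e3 : Real.exp (-ε⁻¹) * Real.exp (-m) ≤ ε * x.dn A :=
      mul_le_mul e2 hd (Real.exp_pos _).le ε0.le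
    unfold Stt.dn at e3 ⊢
    linarith
  have d0 : 0 < x.dn A := (Real.exp_pos _).trans_le hd
  have htop : T.top 1 (bind₁ φ x.p) ≠ 0 := fun h0 => by
    have e1 := hN ι' T _ (x.Y + y') (m + n) (by linarith) (by linarith) (by linarith) degT h0 sepT
    have e2 := (hP' (m + (n + S + x.Y)) (by linarith)).2.2.2
    have e3 := hgy (1 + S) (m + (n + S + x.Y)) (by linarith) (by linarith) (by linarith)
    have e4 : (m + n + (x.Y + y')) ^ Cn ≤
        (m + (n + S + x.Y) + (m + (n + S + x.Y) + g (m + (n + S + x.Y)))) ^ Cn :=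
      pow_le_pow_left₀ (by linarith) (by linarith) _
    linarith
  obtain ⟨ι'', _, U, ψ, u1, u2, u3, u4, u5, u6⟩ := hI ι' T τ (bind₁ φ x.p) A (m + 1) y
    (by linarith) (by linarith) (by linarith) t1
    (fun l => (t5 l).trans (le_trans (add_le_add (hk l) (pow_le_pow_left₀
      (add_nonneg (by positivity) (S0 l)) (add_le_add le_rfl (by
        refine (sum_le_card_nsmul _ _ _ fun l' _ => hk l').trans ?_
        rw [Nat.card_Ioc, nsmul_eq_mul]
        exact mul_le_mul_of_nonneg_right (by exact_mod_cast Nat.sub_le s l)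
          (Real.exp_pos _).le)) _)) (hb m y hm (by linarith))))
    t3 ((PB.pow_mono y3 (by omega)).trans t4) (Tw.IsInt.bind t6.int x.int) degT htop hA (by
      refine le_trans ?_ hd'
      have e1 : Real.exp (-1) ≤ 1 / 2 := by
        rw [Real.exp_neg, inv_le_comm₀ (Real.exp_pos _) (by norm_num)]
        linarith [Real.add_one_le_exp (1 : ℝ)]
      rw [neg_add, Real.exp_add]
      nlinarith [mul_le_mul hd e1 (Real.exp_pos _).le d0.le])
  rw [indA_bind u4.int] at u6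
  have sepU := u4.sep _ _ (by linarith) sepT
  rw [floor_bind u4.int] at sepU
  refine ⟨⟨ι'', U, bind₁ ψ (bind₁ φ x.p), x.Y + y' + y ^ C,
    Tw.IsInt.bind u4.int (Tw.IsInt.bind t6.int x.int), DegLe.bind u4.deg degT, u1, u5,
    by linarith, sepU, by linarith [u4.lm]⟩, le_trans ?_ u6, ?_, fun l => ?_, ?_⟩
  · have e1 : (m ^ K)⁻¹ ≤ c / 2 := by
      rw [inv_le_comm₀ (by positivity) (by positivity), inv_div]
      exact (hP' m hm).2.2.1
    have e2 := mul_le_mul_of_nonneg_left hd' (show 0 ≤ 1 + c by linarith)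
    have e3 : (1 + c) * (x.dn A - ε * x.dn A) = (1 + c / 2) * x.dn A := by
      rw [mul_sub, ← mul_assoc, ε1]; ring
    exact (mul_le_mul_of_nonneg_right (by linarith) d0.le).trans (e3.symm.le.trans e2)
  · have := (hP' m hm).2.1
    dsimp only
    linarith
  · have e1 := hgy _ (m + (n + ∑ l' ∈ Ioc l s, x.U.kap l')) (S0 l) (by linarith [S0 l])
      (by linarith)
    have e2 := (hP' (m + (n + ∑ l' ∈ Ioc l s, x.U.kap l')) (by linarith [S0 l])).1
    have e3 := u3 l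
    have e4 := t5 l
    dsimp only
    linarith
  · have e1 := hgy (1 + S) (m + (n + S)) (by linarith) (by linarith) (by linarith)
    have e2 := (hP' (m + (n + S)) (by linarith)).1
    dsimp only
    linarith

end Crest.Agent.T49.Top
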