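import Crest.Agent.T49.TorA_46

/-!
Row 49 (S0068), helper46.  Fejér kernel in several variables; vertical Fourier expansion.
-/

set_option autoImplicit false

open Finset Complex
open scoped Real ComplexConjugate

namespace Crest.Agent.T49.Tor

variable {ι : Type*} [Fintype ι] [DecidableEq ι]

/-- Dirichlet sum over a finite set of frequencies -/
noncomputable def dir (B : Finset (ι → ℤ)) (t : ι → ℝ) : ℂ := ∑ j ∈ B, e (dot j t)

omit [DecidableEq ι] in
@[fun_prop] lemma continuous_dir (B : Finset (ι → ℤ)) : Continuous (dir B) := by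
  unfold dir; fun_prop

omit [DecidableEq ι] in
lemma normSq_dir (B : Finset (ι → ℤ)) (t : ι → ℝ) :
    ((‖dir B t‖ ^ 2 : ℝ) : ℂ) = ∑ j ∈ B, ∑ j' ∈ B, e (dot (j - j') t) := by
  rw [← Complex.normSq_eq_norm_sq, ← Complex.mul_conj, dir, map_sum, sum_mul_sum]
  simp only [sub_dot, e_sub]

/-- Parseval for a Dirichlet sum -/
lemma avg_normSq_dir (B : Finset (ι → ℤ)) : avg (fun t => ‖dir B t‖ ^ 2) = #B := by
  have h : avg (fun t => ((‖dir B t‖ ^ 2 : ℝ) : ℂ)) = (#B : ℂ) := by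
    simp only [normSq_dir]
    rw [avg_sum _ fun j _ => by fun_prop]
    rw [sum_congr rfl fun j _ => avg_sum _ fun j' _ => by fun_prop]
    simp only [avg_e_dot, sub_eq_zero]
    rw [sum_congr rfl fun j hj => by rw [sum_ite_eq, if_pos hj]]
    simp
  rw [avg_ofReal] at h
  exact_mod_cast h

/-- the box `∏ [0, N i)` -/
noncomputable def box (N : ι → ℕ) : Finset (ι → ℤ) := Fintype.piFinset fun i => Finset.Ico (0 : ℤ) (N i)

lemma card_box (N : ι → ℕ) : #(box N) = ∏ i, N i := by simp [box]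

lemma dir_box (N : ι → ℕ) (t : ι → ℝ) :
    dir (box N) t = ∏ i, ∑ n ∈ Finset.Ico (0 : ℤ) (N i), e (n * t i) := by
  rw [prod_univ_sum]
  simp only [dir, box, dot, e_sum]

lemma geom_e (N : ℕ) (u : ℝ) :
    (∑ n ∈ Finset.Ico (0 : ℤ) N, e (n * u)) * (e u - 1) = e (N * u) - 1 := by
  induction N with
  | zero => simp
  | succ N ih =>
    have : Finset.Ico (0 : ℤ) ((N + 1 : ℕ) : ℤ) = insert (N : ℤ) (Finset.Ico (0 : ℤ) N) := by
      ext x; simp only [mem_Ico, mem_insert]; omega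
    rw [this, sum_insert (by simp), add_mul, ih]
    push_cast
    rw [add_mul, one_mul, e_add]; ring

lemma dir_box_mul (N : ι → ℕ) (t : ι → ℝ) (i : ι) :
    dir (box N) t * (e (t i) - 1) = dir (box (Function.update N i 1)) t * (e (N i * t i) - 1) := by
  rw [dir_box, dir_box, ← mul_prod_erase _ _ (mem_univ i), ← mul_prod_erase _ _ (mem_univ i),
    mul_right_comm, geom_e]
  have h1 : ∏ l ∈ univ.erase i, ∑ n ∈ Finset.Ico (0 : ℤ) (Function.update N i 1 l), e (n * t l) =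
      ∏ l ∈ univ.erase i, ∑ n ∈ Finset.Ico (0 : ℤ) (N l), e (n * t l) :=
    prod_congr rfl fun l hl => by rw [Function.update_of_ne (ne_of_mem_erase hl)]
  have h2 : Finset.Ico (0 : ℤ) ((1 : ℕ) : ℤ) = {0} := by decide
  rw [h1, Function.update_self, h2]
  simp [mul_comm]

/-- the Fejér kernel of order `K` -/
noncomputable def fej (ι : Type*) [Fintype ι] [DecidableEq ι] (K : ℕ) (t : ι → ℝ) : ℝ :=
  ((K : ℝ) ^ Fintype.card ι)⁻¹ * ‖dir (box fun _ => K) t‖ ^ 2

@[fun_prop] lemma continuous_fej (K : ℕ) : Continuous (fej ι K) := by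
  unfold fej; fun_prop

lemma fej_nonneg (K : ℕ) (t : ι → ℝ) : 0 ≤ fej ι K t := by unfold fej; positivity

lemma avg_fej {K : ℕ} (hK : 0 < K) : avg (fej ι K) = 1 := by
  unfold fej
  rw [avg_const_mul_real, avg_normSq_dir, card_box]
  have : (0 : ℝ) < K := by exact_mod_cast hK
  simp only [prod_const, card_univ, Nat.cast_pow]
  field_simp

lemma avg_fej_sq {K : ℕ} (hK : 0 < K) (i : ι) :
    avg (fun t => fej ι K t * ‖e (t i) - 1‖ ^ 2) ≤ 4 / K := by
  have hK' : (0 : ℝ) < K := by exact_mod_cast hK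
  have h1 : avg (fun t => fej ι K t * ‖e (t i) - 1‖ ^ 2) ≤ avg (fun t : ι → ℝ =>
      (4 * ((K : ℝ) ^ Fintype.card ι)⁻¹) * ‖dir (box (Function.update (fun _ => K) i 1)) t‖ ^ 2) := by
    refine avg_mono (by fun_prop) (by fun_prop) fun t _ => ?_
    have h2 : ‖e (K * t i) - 1‖ ≤ 2 := (norm_sub_le _ _).trans (by simp; norm_num)
    rw [fej, mul_assoc, ← mul_pow, ← norm_mul, dir_box_mul, norm_mul, mul_pow]
    have h3 : ‖e (K * t i) - 1‖ ^ 2 ≤ 4 := by nlinarith [norm_nonneg (e (K * t i) - 1)]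
    have h4 : 0 ≤ ((K : ℝ) ^ Fintype.card ι)⁻¹ *
      ‖dir (box (Function.update (fun _ => K) i 1)) t‖ ^ 2 := by positivity
    nlinarith [mul_le_mul_of_nonneg_left h3 h4]
  refine h1.trans (le_of_eq ?_)
  rw [avg_const_mul_real, avg_normSq_dir, card_box, prod_update_of_mem (mem_univ i)]
  obtain ⟨d, hd⟩ : ∃ d, Fintype.card ι = d + 1 :=
    ⟨Fintype.card ι - 1, by have := Fintype.card_pos_iff.2 ⟨i⟩; omega⟩
  have h5 : #(univ \ {i} : Finset ι) = d := by
    rw [card_univ_sdiff]; simp [hd]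
  simp only [prod_const, h5, hd, one_mul, Nat.cast_pow, pow_succ]
  field_simp

/-- first absolute moment of the Fejér kernel -/
lemma avg_fej_norm {K : ℕ} (hK : 0 < K) {g : (ι → ℝ) → ℝ} (hg : Continuous g) {M : ℝ} (hM : 0 ≤ M)
    (h : ∀ t, (∀ i, |t i| ≤ 1 / 2) → g t ≤ M * ‖t‖) :
    avg (fun t => fej ι K t * g t) ≤ M * Fintype.card ι / (2 * √K) := by
  have hK' : (0 : ℝ) < K := by exact_mod_cast hK
  have hs : 0 < √(K : ℝ) := Real.sqrt_pos.2 hK'
  have hs2 : √(K : ℝ) ^ 2 = K := Real.sq_sqrt hK'.le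
  set r := √(K : ℝ)
  have h1 : avg (fun t => fej ι K t * g t) ≤ avg (fun t : ι → ℝ => ∑ i, (M / (4 * r) * fej ι K t +
      M * r / 16 * (fej ι K t * ‖e (t i) - 1‖ ^ 2))) := by
    refine avg_mono (by fun_prop) (by fun_prop) fun t ht => ?_
    have h2 : ‖t‖ ≤ ∑ i, (1 / (4 * r) + r / 16 * ‖e (t i) - 1‖ ^ 2) := by
      have h3 : ∀ i, |t i| ≤ 1 / (4 * r) + r / 16 * ‖e (t i) - 1‖ ^ 2 := by
        intro i
        have h4 := four_abs_le_norm_e_sub_one (ht i)
        have h5 : 16 * |t i| ^ 2 ≤ ‖e (t i) - 1‖ ^ 2 := by nlinarith [abs_nonneg (t i)]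
        have h6 : |t i| ≤ 1 / (4 * r) + r * |t i| ^ 2 := by
          rw [div_add' _ _ _ (by positivity), le_div_iff₀ (by positivity)]
          nlinarith [sq_nonneg (2 * r * |t i| - 1)]
        nlinarith
      rw [pi_norm_le_iff_of_nonneg (sum_nonneg fun i _ => by positivity)]
      intro i
      exact (h3 i).trans (single_le_sum (f := fun i => 1 / (4 * r) + r / 16 * ‖e (t i) - 1‖ ^ 2)
        (fun i _ => by positivity) (mem_univ i))
    have h7 := mul_le_mul_of_nonneg_left ((h t ht).trans (mul_le_mul_of_nonneg_left h2 hM))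
      (fej_nonneg K t)
    refine h7.trans (le_of_eq ?_)
    rw [mul_sum, mul_sum]
    exact sum_congr rfl fun i _ => by ring
  refine h1.trans ?_
  rw [avg_sum _ fun i _ => by fun_prop]
  calc _ ≤ ∑ _i : ι, M / (2 * r) := sum_le_sum fun i _ => by
        rw [avg_add (by fun_prop) (by fun_prop), avg_const_mul_real, avg_const_mul_real,
          avg_fej hK]
        have h8 := mul_le_mul_of_nonneg_left (avg_fej_sq (ι := ι) hK i)
          (show 0 ≤ M * r / 16 by positivity)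
        have h9 : M / (4 * r) * 1 + M * r / 16 * (4 / K) = M / (2 * r) := by
          rw [← hs2]; field_simp; ring
        linarith
    _ = _ := by simp only [sum_const, card_univ, nsmul_eq_mul]; ring

/-- integer vectors of sup-norm `≤ K` -/
noncomputable def cube (ι : Type*) [Fintype ι] [DecidableEq ι] (K : ℕ) : Finset (ι → ℤ) :=
  Fintype.piFinset fun _ => Finset.Icc (-(K : ℤ)) K

lemma mem_cube {K : ℕ} {ξ : ι → ℤ} : ξ ∈ cube ι K ↔ ∀ i, |ξ i| ≤ K := by
  simp [cube, abs_le]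

lemma card_cube (K : ℕ) : #(cube ι K) = (2 * K + 1) ^ Fintype.card ι := by
  have : ((K : ℤ) + 1 + K).toNat = 2 * K + 1 := by omega
  simp [cube, this]

/-- Fejér weights -/
noncomputable def fw (K : ℕ) (ξ : ι → ℤ) : ℝ :=
  ((K : ℝ) ^ Fintype.card ι)⁻¹ *
    #{p ∈ box (fun _ : ι => K) ×ˢ box (fun _ : ι => K) | p.2 - p.1 = ξ}

lemma fw_nonneg (K : ℕ) (ξ : ι → ℤ) : 0 ≤ fw K ξ := by unfold fw; positivity

lemma fw_le_one (K : ℕ) (ξ : ι → ℤ) : fw K ξ ≤ 1 := by
  have h1 : #{p ∈ box (fun _ : ι => K) ×ˢ box (fun _ : ι => K) | p.2 - p.1 = ξ} ≤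
      #(box fun _ : ι => K) := by
    refine card_le_card_of_injOn Prod.fst (fun p hp => ?_) fun p hp q hq hpq => ?_
    · exact (mem_product.1 (mem_filter.1 hp).1).1
    · have h2 := (mem_filter.1 hp).2
      have h3 := (mem_filter.1 hq).2
      refine Prod.ext hpq ?_
      have hpq' : p.1 = q.1 := hpq
      rw [← sub_add_cancel p.2 p.1, h2, hpq', ← h3, sub_add_cancel]
  rw [card_box] at h1
  simp only [prod_const, card_univ] at h1
  have h4 : (#{p ∈ box (fun _ : ι => K) ×ˢ box (fun _ : ι => K) | p.2 - p.1 = ξ} : ℝ) ≤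
      (K : ℝ) ^ Fintype.card ι := by exact_mod_cast h1
  exact inv_mul_le_one_of_le₀ h4 (by positivity)

lemma fej_eq_sum (K : ℕ) (t : ι → ℝ) :
    (fej ι K t : ℂ) = ∑ ξ ∈ cube ι K, (fw K ξ : ℂ) * e (-dot ξ t) := by
  rw [fej, ofReal_mul, normSq_dir, ← sum_product',
    ← sum_fiberwise_of_maps_to (t := cube ι K) (g := fun p => p.2 - p.1), mul_sum]
  · refine sum_congr rfl fun ξ _ => ?_
    rw [sum_congr rfl (g := fun _ => e (-dot ξ t)) fun p hp => by
      rw [← (mem_filter.1 hp).2, ← neg_dot, neg_sub]]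
    simp only [fw, sum_const, nsmul_eq_mul]; push_cast; ring
  · intro p hp
    obtain ⟨h1, h2⟩ := mem_product.1 hp
    simp only [box, Fintype.mem_piFinset, mem_Ico] at h1 h2
    rw [mem_cube]; intro i
    have := h1 i; have := h2 i
    rw [Pi.sub_apply, abs_le]; omega

/-- **Fejér approximation at the origin** -/
theorem fejer_origin {K : ℕ} (hK : 0 < K) {g : (ι → ℝ) → ℂ} (hg : Continuous g) {M : ℝ}
    (hM : 0 ≤ M) (h : ∀ t, (∀ i, |t i| ≤ 1 / 2) → ‖g t - g 0‖ ≤ M * ‖t‖) :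
    ‖g 0 - ∑ ξ ∈ cube ι K, (fw K ξ : ℂ) * avg (fun t => e (-dot ξ t) * g t)‖ ≤
      M * Fintype.card ι / (2 * √K) := by
  have h1 : ∑ ξ ∈ cube ι K, (fw K ξ : ℂ) * avg (fun t => e (-dot ξ t) * g t) =
      avg (fun t => (fej ι K t : ℂ) * g t) := by
    simp only [fej_eq_sum, sum_mul, mul_assoc]
    rw [avg_sum _ fun ξ _ => by fun_prop]
    simp only [avg_const_mul]
  have h2 : g 0 = avg (fun t => (fej ι K t : ℂ) * g 0) := by
    simp only [mul_comm _ (g 0)]
    rw [avg_const_mul, avg_ofReal, avg_fej hK]; simp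
  rw [h1, h2, ← avg_sub (by fun_prop) (by fun_prop)]
  refine le_trans (norm_avg_le (g := fun t => fej ι K t * ‖g t - g 0‖) (by fun_prop) fun t _ => ?_)
    (avg_fej_norm hK (by fun_prop) hM h)
  rw [← mul_sub, norm_mul, norm_real, Real.norm_of_nonneg (fej_nonneg K t), norm_sub_rev]

end Crest.Agent.T49.Tor
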