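import Crest.Agent.T49.TorC_46
import Crest.Agent.T49.TorD_46

/-!
Row 49 (S0068), helper46.  Pruning: averaging over a rational subtorus keeps only the frequencies
that annihilate it.  Real-valued averages; Lipschitz functions of periodic data.
-/

set_option autoImplicit false

open Finset Complex
open scoped Real ComplexConjugate

namespace Crest.Agent.T49.Tor

variable {ι κ : Type*} [Fintype ι] [Fintype κ] {X : Type*}

/-- the real-linear map with integer matrix `A` -/
def lin (A : ι → κ → ℤ) (s : κ → ℝ) : ι → ℝ := fun i => ∑ k, (A i k : ℝ) * s k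

/-- the transposed map on frequencies -/
def tr (A : ι → κ → ℤ) (ξ : ι → ℤ) : κ → ℤ := fun k => ∑ i, ξ i * A i k

omit [Fintype ι] in
lemma lin_add (A : ι → κ → ℤ) (s t : κ → ℝ) : lin A (s + t) = lin A s + lin A t := by
  funext i; simp [lin, mul_add, sum_add_distrib]

omit [Fintype ι] in
lemma lin_int (A : ι → κ → ℤ) (n : κ → ℤ) :
    lin A (fun k => (n k : ℝ)) = fun i => ((∑ k, A i k * n k : ℤ) : ℝ) := by
  funext i; simp [lin]

lemma dot_lin (A : ι → κ → ℤ) (ξ : ι → ℤ) (s : κ → ℝ) : dot ξ (lin A s) = dot (tr A ξ) s := by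
  simp only [dot, lin, tr, mul_sum, Int.cast_sum, Int.cast_mul, sum_mul, mul_assoc]
  exact sum_comm

lemma norm_lin_le (A : ι → κ → ℤ) {H : ℝ} (hH : 0 ≤ H) (hA : ∀ i k, |(A i k : ℝ)| ≤ H)
    (s : κ → ℝ) : ‖lin A s‖ ≤ Fintype.card κ * H * ‖s‖ := by
  rw [pi_norm_le_iff_of_nonneg (by positivity)]
  exact fun i => abs_dot_le (A i) s (hA i)

variable {act : (ι → ℝ) → X → X} {F : X → ℂ} {M : ℝ}

/-- restriction of the action to a rational subtorus -/
lemma Vert.sub (h : Vert act F M) (A : ι → κ → ℤ) {H : ℝ} (hH : 0 ≤ H)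
    (hA : ∀ i k, |(A i k : ℝ)| ≤ H) :
    Vert (fun s x => act (lin A s) x) F (M * (Fintype.card κ * H)) where
  add s t x := by rw [lin_add, h.add]
  per n x := by rw [lin_int, h.per]
  nonneg := mul_nonneg h.nonneg (by positivity)
  lip s x := (h.lip _ x).trans (by
    rw [mul_assoc]; exact mul_le_mul_of_nonneg_left (norm_lin_le A hH hA s) h.nonneg)

/-- average of `F` over the subtorus spanned by the columns of `A` -/
noncomputable def subAvg (act : (ι → ℝ) → X → X) (A : ι → κ → ℤ) (F : X → ℂ) (x : X) : ℂ :=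
  avg fun s => F (act (lin A s) x)

omit [Fintype ι] in
lemma subAvg_eq_coef (A : ι → κ → ℤ) (x : X) :
    subAvg act A F x = coef (fun s x => act (lin A s) x) F 0 x := by
  simp [subAvg, coef]

lemma exists_abs_le (A : ι → κ → ℤ) : ∃ H : ℝ, 0 ≤ H ∧ ∀ i k, |(A i k : ℝ)| ≤ H :=
  ⟨∑ i, ∑ k, |(A i k : ℝ)|, by positivity, fun i k =>
    (single_le_sum (f := fun k => |(A i k : ℝ)|) (fun _ _ => abs_nonneg _) (mem_univ k)).trans
      (single_le_sum (f := fun i => ∑ k, |(A i k : ℝ)|) (fun _ _ => by positivity) (mem_univ i))⟩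

lemma Vert.continuous_lin (h : Vert act F M) (A : ι → κ → ℤ) (x : X) :
    Continuous fun s => F (act (lin A s) x) := by
  obtain ⟨H, hH, hA⟩ := exists_abs_le A
  exact (h.sub A hH hA).continuous x

/-- the average is invariant under the whole subtorus -/
lemma Vert.subAvg_act (h : Vert act F M) (A : ι → κ → ℤ) (s : κ → ℝ) (x : X) :
    subAvg act A F (act (lin A s) x) = subAvg act A F x := by
  obtain ⟨H, hH, hA⟩ := exists_abs_le A
  have := (h.sub A hH hA).coef_act 0 s x
  simpa [subAvg_eq_coef] using this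

omit [Fintype ι] in
lemma norm_subAvg_le (A : ι → κ → ℤ) (x : X) {B : ℝ} (hB : ∀ t, ‖F (act t x)‖ ≤ B) :
    ‖subAvg act A F x‖ ≤ B :=
  norm_avg_le_const fun _ _ => hB _

lemma Vert.norm_subAvg_sub_le (h : Vert act F M) (A : ι → κ → ℤ) (x y : X) {B : ℝ}
    (hB : ∀ t, ‖F (act t x) - F (act t y)‖ ≤ B) : ‖subAvg act A F x - subAvg act A F y‖ ≤ B := by
  unfold subAvg
  rw [← avg_sub (h.continuous_lin A x) (h.continuous_lin A y)]
  exact norm_avg_le_const fun _ _ => hB _

omit [Fintype ι] in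
lemma subAvg_congr (A : ι → κ → ℤ) {x y : X} (hB : ∀ t, F (act t x) = F (act t y)) :
    subAvg act A F x = subAvg act A F y := by
  simp only [subAvg, hB]

lemma Vert.subAvg (h : Vert act F M) (A : ι → κ → ℤ) : Vert act (subAvg act A F) M where
  add := h.add
  per n x := subAvg_congr A fun t => by rw [← h.add, add_comm, h.add, h.per]
  nonneg := h.nonneg
  lip s x := h.norm_subAvg_sub_le A _ _ fun t => by
    rw [← h.add, add_comm, h.add]; exact h.lip s _

omit [Fintype ι] in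
/-- real values in an interval are preserved -/
lemma subAvg_real (A : ι → κ → ℤ) (f : X → ℝ) (x : X) :
    subAvg act A (fun y => (f y : ℂ)) x = ((avg fun s => f (act (lin A s) x) : ℝ) : ℂ) :=
  avg_ofReal _

lemma Vert.subAvg_mem {f : X → ℝ} (h : Vert act (fun y => (f y : ℂ)) M) (A : ι → κ → ℤ) (x : X)
    {a b : ℝ} (hf : ∀ y, a ≤ f y ∧ f y ≤ b) :
    a ≤ avg (fun s => f (act (lin A s) x)) ∧ avg (fun s => f (act (lin A s) x)) ≤ b := by
  have hc : Continuous fun s => f (act (lin A s) x) := continuous_re.comp (h.continuous_lin A x)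
  exact ⟨(avg_const a).symm.le.trans (avg_mono continuous_const hc fun _ _ => (hf _).1),
    (avg_mono hc continuous_const fun _ _ => (hf _).2).trans (avg_const b).le⟩

variable [DecidableEq ι] [DecidableEq κ]

omit [DecidableEq ι] in
lemma Vert.subAvg_coef (h : Vert act F M) (A : ι → κ → ℤ) (ξ : ι → ℤ) (x : X) :
    Tor.subAvg act A (Tor.coef act F ξ) x = if tr A ξ = 0 then Tor.coef act F ξ x else 0 := by
  simp only [Tor.subAvg, h.coef_act, dot_lin, mul_comm (e _)]
  rw [avg_const_mul, avg_e_dot]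
  split_ifs <;> simp

/-- **pruning**: `F - subAvg F` only contains frequencies that are nontrivial on the subtorus -/
theorem Vert.prune (h : Vert act F M) (A : ι → κ → ℤ) {K : ℕ} (hK : 0 < K) (x : X) :
    ‖F x - Tor.subAvg act A F x -
      ∑ ξ ∈ cube ι K with tr A ξ ≠ 0, (fw K ξ : ℂ) * Tor.coef act F ξ x‖ ≤
      M * Fintype.card ι / √K := by
  have h1 := h.expand hK x
  have h2 : ‖Tor.subAvg act A F x - ∑ ξ ∈ cube ι K with tr A ξ = 0,
      (fw K ξ : ℂ) * Tor.coef act F ξ x‖ ≤ M * Fintype.card ι / (2 * √K) := by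
    have hc : ∀ ξ, Continuous fun s => (fw K ξ : ℂ) * Tor.coef act F ξ (act (lin A s) x) :=
      fun ξ => continuous_const.mul ((h.coef ξ).continuous_lin A x)
    have h3 : ∑ ξ ∈ cube ι K with tr A ξ = 0, (fw K ξ : ℂ) * Tor.coef act F ξ x =
        avg fun s => ∑ ξ ∈ cube ι K, (fw K ξ : ℂ) * Tor.coef act F ξ (act (lin A s) x) := by
      rw [avg_sum _ fun ξ _ => hc ξ, sum_filter]
      refine sum_congr rfl fun ξ _ => ?_
      have h4 := h.subAvg_coef A ξ x
      rw [Tor.subAvg] at h4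
      rw [avg_const_mul, h4]; split_ifs <;> simp
    rw [h3, Tor.subAvg, ← avg_sub (h.continuous_lin A x) (continuous_finsetSum _ fun ξ _ => hc ξ)]
    exact norm_avg_le_const fun s _ => h.expand hK _
  rw [← sum_filter_add_sum_filter_not _ fun ξ => tr A ξ = 0] at h1
  have h5 := (norm_sub_le _ _).trans (add_le_add h1 h2)
  have h6 : M * Fintype.card ι / (2 * √K) + M * Fintype.card ι / (2 * √K) =
      M * Fintype.card ι / √K := by ring
  rw [h6] at h5
  refine le_trans (le_of_eq ?_) h5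
  congr 1; ring

/-- weighted form: insignificant frequencies do not matter -/
theorem Vert.prune_sum (h : Vert act F M) (A : ι → κ → ℤ) {K : ℕ} (hK : 0 < K) {J : Type*}
    (s : Finset J) (w : J → ℂ) (x : J → X) {W δ : ℝ} (hW : ∑ j ∈ s, ‖w j‖ ≤ W) (hδ : 0 ≤ δ)
    (hs : ∀ ξ ∈ cube ι K, tr A ξ ≠ 0 → ‖∑ j ∈ s, w j * Tor.coef act F ξ (x j)‖ ≤ δ) :
    ‖∑ j ∈ s, w j * F (x j) - ∑ j ∈ s, w j * Tor.subAvg act A F (x j)‖ ≤
      M * Fintype.card ι / √K * W + (2 * K + 1) ^ Fintype.card ι * δ := by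
  have hM := h.nonneg
  have h1 : ‖∑ j ∈ s, w j * (F (x j) - Tor.subAvg act A F (x j) -
      ∑ ξ ∈ cube ι K with tr A ξ ≠ 0, (fw K ξ : ℂ) * Tor.coef act F ξ (x j))‖ ≤
      M * Fintype.card ι / √K * W := by
    refine (norm_sum_le _ _).trans (le_trans (sum_le_sum fun j _ => ?_)
      ((mul_sum _ _ _).symm.le.trans (mul_le_mul_of_nonneg_left hW (by positivity))))
    rw [norm_mul, mul_comm]
    exact mul_le_mul_of_nonneg_right (h.prune A hK _) (norm_nonneg _)
  have h2 : ‖∑ ξ ∈ cube ι K with tr A ξ ≠ 0, (fw K ξ : ℂ) *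
      ∑ j ∈ s, w j * Tor.coef act F ξ (x j)‖ ≤ (2 * K + 1) ^ Fintype.card ι * δ := by
    refine (norm_sum_le _ _).trans ((sum_le_card_nsmul _ _ δ fun ξ hξ => ?_).trans ?_)
    · rw [norm_mul, norm_real, Real.norm_of_nonneg (fw_nonneg K ξ)]
      exact (mul_le_of_le_one_left (norm_nonneg _) (fw_le_one K ξ)).trans
        (hs ξ (mem_filter.1 hξ).1 (mem_filter.1 hξ).2)
    · rw [nsmul_eq_mul]
      refine mul_le_mul_of_nonneg_right ?_ hδ
      exact_mod_cast (card_filter_le _ _).trans (card_cube K).le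
  refine le_trans (le_of_eq ?_) ((norm_add_le _ _).trans (add_le_add h1 h2))
  congr 1
  simp only [mul_sub, sum_sub_distrib, mul_sum, mul_left_comm (fw K _ : ℂ)]
  rw [sum_comm (s := s)]; ring

end Crest.Agent.T49.Tor
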