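import Crest.Agent.T49.GauC_64

/-!
# Row 49: expectations for summable weights and the generic quadruple lemma (helper52)
-/

set_option autoImplicit false

namespace Crest.Agent.T49.Tw

/-- probability weight on a (countable) type -/
structure PW {Λ : Type} (g : Λ → ℝ) : Prop where
  nonneg : ∀ x, 0 ≤ g x
  sum : HasSum g 1

/-- expectation -/
noncomputable def Ex {Λ : Type} (g f : Λ → ℝ) : ℝ := ∑' x, g x * f x

section
variable {Λ : Type} {g : Λ → ℝ}

theorem PW.summ (h : PW g) {f : Λ → ℝ} {M : ℝ} (hf : ∀ x, |f x| ≤ M) :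
    Summable fun x => g x * f x := by
  refine Summable.of_norm_bounded (h.sum.summable.mul_right M) fun x => ?_
  rw [norm_mul, Real.norm_of_nonneg (h.nonneg x)]
  exact mul_le_mul_of_nonneg_left (hf x) (h.nonneg x)

theorem PW.const (h : PW g) (c : ℝ) : Ex g (fun _ => c) = c := by
  unfold Ex
  rw [tsum_mul_right, h.sum.tsum_eq, one_mul]

theorem PW.mono (h : PW g) {f f' : Λ → ℝ} {M : ℝ} (hf : ∀ x, |f x| ≤ M) (hf' : ∀ x, |f' x| ≤ M)
    (hle : ∀ x, f x ≤ f' x) : Ex g f ≤ Ex g f' :=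
  (h.summ hf).tsum_le_tsum (fun x => mul_le_mul_of_nonneg_left (hle x) (h.nonneg x)) (h.summ hf')

theorem PW.le_const (h : PW g) {f : Λ → ℝ} {M c : ℝ} (hf : ∀ x, |f x| ≤ M) (hle : ∀ x, f x ≤ c) :
    Ex g f ≤ c := by
  rw [← h.const c]
  exact h.mono (M := max M |c|) (fun x => (hf x).trans (le_max_left _ _))
    (fun _ => le_max_right _ _) hle

theorem PW.abs_le (h : PW g) {f : Λ → ℝ} {M : ℝ} (hf : ∀ x, |f x| ≤ M) : |Ex g f| ≤ M := by
  refine _root_.abs_le.2 ⟨?_, h.le_const hf fun x => (le_abs_self _).trans (hf x)⟩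
  rw [← h.const (-M)]
  exact h.mono (M := max M |-M|) (fun _ => le_max_right _ _)
    (fun x => (hf x).trans (le_max_left _ _)) fun x => (_root_.abs_le.1 (hf x)).1

theorem PW.add (h : PW g) {f f' : Λ → ℝ} {M M' : ℝ} (hf : ∀ x, |f x| ≤ M)
    (hf' : ∀ x, |f' x| ≤ M') : Ex g (fun x => f x + f' x) = Ex g f + Ex g f' := by
  unfold Ex
  rw [← (h.summ hf).tsum_add (h.summ hf')]
  simp only [mul_add]

theorem PW.sub (h : PW g) {f f' : Λ → ℝ} {M M' : ℝ} (hf : ∀ x, |f x| ≤ M)
    (hf' : ∀ x, |f' x| ≤ M') : Ex g (fun x => f x - f' x) = Ex g f - Ex g f' := by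
  unfold Ex
  rw [← (h.summ hf).tsum_sub (h.summ hf')]
  simp only [mul_sub]

theorem Ex_mul_left (c : ℝ) (f : Λ → ℝ) : Ex g (fun x => c * f x) = c * Ex g f := by
  unfold Ex
  rw [← tsum_mul_left]
  exact tsum_congr fun x => by ring

theorem Ex_mul_right (c : ℝ) (f : Λ → ℝ) : Ex g (fun x => f x * c) = Ex g f * c := by
  unfold Ex
  rw [← tsum_mul_right]
  exact tsum_congr fun x => by ring

/-- Jensen -/
theorem PW.sq_le (h : PW g) {f : Λ → ℝ} {M : ℝ} (hf : ∀ x, |f x| ≤ M) :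
    Ex g f ^ 2 ≤ Ex g (fun x => f x ^ 2) := by
  set m := Ex g f with hm
  have hf2 : ∀ x, |f x ^ 2| ≤ M ^ 2 := fun x => by
    rw [abs_pow]; exact pow_le_pow_left₀ (abs_nonneg _) (hf x) 2
  have h1 : ∀ x, |2 * m * f x| ≤ |2 * m| * M := fun x => by
    rw [abs_mul]; exact mul_le_mul_of_nonneg_left (hf x) (abs_nonneg _)
  have h2 : ∀ x, |2 * m * f x - m ^ 2| ≤ |2 * m| * M + |m ^ 2| := fun x =>
    (abs_sub _ _).trans (add_le_add (h1 x) le_rfl)
  have h3 : Ex g (fun x => 2 * m * f x - m ^ 2) ≤ Ex g (fun x => f x ^ 2) :=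
    h.mono (M := max (|2 * m| * M + |m ^ 2|) (M ^ 2)) (fun x => (h2 x).trans (le_max_left _ _))
      (fun x => (hf2 x).trans (le_max_right _ _)) fun x => by nlinarith [sq_nonneg (f x - m)]
  rw [h.sub h1 (M' := |m ^ 2|) (fun _ => le_rfl), Ex_mul_left, h.const, ← hm] at h3
  nlinarith

theorem PW.exists_ge (h : PW g) {f : Λ → ℝ} {M c : ℝ} (hf : ∀ x, |f x| ≤ M) (hc : c < Ex g f) :
    ∃ x, c < f x := by
  by_contra hcon
  push Not at hcon
  exact absurd (h.le_const hf hcon) (not_le.2 hc)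

theorem PW.prod {Λ' : Type} {g' : Λ' → ℝ} (h : PW g) (h' : PW g') :
    PW fun p : Λ × Λ' => g p.1 * g' p.2 := by
  refine ⟨fun p => mul_nonneg (h.nonneg _) (h'.nonneg _), ?_⟩
  have hs := h.sum.summable.mul_of_nonneg h'.sum.summable h.nonneg h'.nonneg
  simpa using h.sum.mul h'.sum hs

theorem PW.ex_prod {Λ' : Type} {g' : Λ' → ℝ} (h : PW g) (h' : PW g') {f : Λ × Λ' → ℝ} {M : ℝ}
    (hf : ∀ p, |f p| ≤ M) :
    Ex (fun p : Λ × Λ' => g p.1 * g' p.2) f = Ex g fun x => Ex g' fun y => f (x, y) := by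
  unfold Ex
  rw [((h.prod h').summ hf).tsum_prod]
  refine tsum_congr fun x => ?_
  rw [← tsum_mul_left]
  exact tsum_congr fun y => by ring

theorem PW.comm {Λ' : Type} {g' : Λ' → ℝ} (h : PW g) (h' : PW g') {f : Λ → Λ' → ℝ} {M : ℝ}
    (hf : ∀ x y, |f x y| ≤ M) :
    Ex g (fun x => Ex g' fun y => f x y) = Ex g' fun y => Ex g fun x => f x y := by
  rw [← h.ex_prod h' (f := fun p => f p.1 p.2) (fun p => hf _ _),
    ← h'.ex_prod h (f := fun p => f p.2 p.1) (fun p => hf _ _)]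
  unfold Ex
  rw [← (Equiv.prodComm Λ' Λ).tsum_eq]
  exact tsum_congr fun p => by simp [mul_comm]

/-- product weight -/
def gp (g : Λ → ℝ) (k : ℕ) (p : Fin k → Λ) : ℝ := ∏ i, g (p i)

theorem PW.pi (h : PW g) (k : ℕ) : PW (gp g k) := by
  induction k with
  | zero =>
    refine ⟨fun p => by simp [gp], ?_⟩
    have : gp g 0 = fun _ => 1 := by funext p; simp [gp]
    rw [this]
    simp
  | succ k ih =>
    refine ⟨fun p => Finset.prod_nonneg fun i _ => h.nonneg _, ?_⟩
    rw [← (Fin.consEquiv fun _ : Fin (k + 1) => Λ).hasSum_iff]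
    convert (h.prod ih).sum using 1
    funext p
    simp [gp, Fin.prod_univ_succ, Fin.consEquiv]

theorem PW.ex_cons (h : PW g) (k : ℕ) {f : (Fin (k + 1) → Λ) → ℝ} {M : ℝ} (hf : ∀ p, |f p| ≤ M) :
    Ex (gp g (k + 1)) f = Ex g fun x => Ex (gp g k) fun p => f (Fin.cons x p) := by
  rw [← h.ex_prod (h.pi k) (f := fun q => f (Fin.cons q.1 q.2)) (fun q => hf _)]
  unfold Ex
  rw [← (Fin.consEquiv fun _ : Fin (k + 1) => Λ).tsum_eq]
  refine tsum_congr fun p => ?_
  simp [gp, Fin.prod_univ_succ, Fin.consEquiv]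

theorem ex_pi_zero (f : (Fin 0 → Λ) → ℝ) : Ex (gp g 0) f = f ![] := by
  unfold Ex
  rw [tsum_fintype]
  simp [gp, Subsingleton.elim (default : Fin 0 → Λ) ![]]

theorem PW.ex_five (h : PW g) {f : (Fin 5 → Λ) → ℝ} {M : ℝ} (hf : ∀ p, |f p| ≤ M) :
    Ex (gp g 5) f = Ex g fun a => Ex g fun b => Ex g fun c => Ex g fun d => Ex g fun e =>
      f ![a, b, c, d, e] := by
  rw [h.ex_cons 4 hf]
  congr 1; funext a
  rw [h.ex_cons 3 (f := fun p => f (Fin.cons a p)) (fun p => hf _)]
  congr 1; funext b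
  rw [h.ex_cons 2 (f := fun p => f (Fin.cons a (Fin.cons b p))) (fun p => hf _)]
  congr 1; funext c
  rw [h.ex_cons 1 (f := fun p => f (Fin.cons a (Fin.cons b (Fin.cons c p)))) (fun p => hf _)]
  congr 1; funext d
  rw [h.ex_cons 0 (f := fun p => f (Fin.cons a (Fin.cons b (Fin.cons c (Fin.cons d p)))))
    (fun p => hf _)]
  congr 1; funext e
  rw [ex_pi_zero]
  rfl

/-- two Cauchy-Schwarz steps: the density of `K_{2,2}` -/
theorem PW.k22 (h : PW g) {u : Λ → Λ → ℝ} (hu : ∀ x y, |u x y| ≤ 1) :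
    (Ex g fun x => Ex g fun y => u x y) ^ 4 ≤
      Ex g fun b => Ex g fun c => Ex g fun e => Ex g fun d => u b d * u c d * (u b e * u c e) := by
  have hm : ∀ b c d, |u b d * u c d| ≤ 1 := fun b c d => by
    rw [abs_mul]; exact mul_le_one₀ (hu _ _) (abs_nonneg _) (hu _ _)
  have e1 : (Ex g fun x => Ex g fun y => u x y) = Ex g fun y => Ex g fun x => u x y :=
    h.comm h hu
  have h1 : (Ex g fun y => Ex g fun x => u x y) ^ 2 ≤
      Ex g fun b => Ex g fun c => Ex g fun d => u b d * u c d := by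
    refine (h.sq_le (M := 1) fun y => h.abs_le fun x => hu x y).trans (le_of_eq ?_)
    have : (fun y => (Ex g fun x => u x y) ^ 2) =
        fun y => Ex g fun b => Ex g fun c => u b y * u c y := by
      funext y
      rw [sq, ← Ex_mul_right]
      congr 1; funext b
      rw [Ex_mul_left]
    rw [this, h.comm h (M := 1) fun y b => h.abs_le fun c => hm b c y]
    congr 1; funext b
    exact h.comm h (M := 1) fun y c => hm b c y
  have hb : ∀ b c, |Ex g fun d => u b d * u c d| ≤ 1 := fun b c => h.abs_le fun d => hm b c d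
  have h2 : (Ex g fun b => Ex g fun c => Ex g fun d => u b d * u c d) ^ 2 ≤
      Ex g fun b => Ex g fun c => (Ex g fun d => u b d * u c d) ^ 2 := by
    refine (h.sq_le (M := 1) fun b => h.abs_le fun c => hb b c).trans ?_
    have hsq : ∀ x : ℝ, |x| ≤ 1 → |x ^ 2| ≤ 1 := fun x hx => by
      rw [abs_pow]; exact pow_le_one₀ (abs_nonneg _) hx
    exact h.mono (M := 1) (fun b => hsq _ (h.abs_le fun c => hb b c))
      (fun b => h.abs_le fun c => hsq _ (hb b c)) fun b => h.sq_le fun c => hb b c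
  have e2 : (Ex g fun b => Ex g fun c => (Ex g fun d => u b d * u c d) ^ 2) =
      Ex g fun b => Ex g fun c => Ex g fun e => Ex g fun d =>
        u b d * u c d * (u b e * u c e) := by
    congr 1; funext b
    congr 1; funext c
    rw [sq, ← Ex_mul_left]
    congr 1; funext e
    rw [Ex_mul_right]
  rw [e1, ← e2]
  calc (Ex g fun y => Ex g fun x => u x y) ^ 4
      = ((Ex g fun y => Ex g fun x => u x y) ^ 2) ^ 2 := by ring
    _ ≤ (Ex g fun b => Ex g fun c => Ex g fun d => u b d * u c d) ^ 2 :=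
        pow_le_pow_left₀ (sq_nonneg _) h1 2
    _ ≤ _ := h2

open Classical in
/-- generic quadruples: fix three of the free points, many choices of the last one remain -/
theorem PW.quad [Add Λ] (h : PW g) (Y : Λ → Prop) (Bad : (Fin 5 → Λ) → Prop) {σ : ℝ}
    (hσ : 0 < σ) (hY : σ ≤ Ex g fun x => Ex g fun y => if Y (x + y) then 1 else 0)
    (hB : Ex (gp g 5) (fun p => if Bad p then 1 else 0) ≤ σ ^ 4 / 2) :
    ∃ a b c e, σ ^ 4 / 4 < Ex g fun d =>
      if Y (b + d) ∧ Y (c + d) ∧ Y (b + e) ∧ Y (c + e) ∧ ¬ Bad ![a, b, c, d, e] then 1 else 0 := by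
  have hi : ∀ (P : Prop) [Decidable P], |(if P then 1 else 0 : ℝ)| ≤ 1 := fun P _ => by
    split_ifs <;> simp
  set u : Λ → Λ → ℝ := fun x y => if Y (x + y) then 1 else 0 with hu
  have hu1 : ∀ x y, |u x y| ≤ 1 := fun x y => hi _
  have h4 := (pow_le_pow_left₀ hσ.le hY 4).trans (h.k22 hu1)
  rw [h.ex_five (M := 1) fun p => hi _] at hB
  have hB' : (Ex g fun a => Ex g fun b => Ex g fun c => Ex g fun e => Ex g fun d =>
      if Bad ![a, b, c, d, e] then (1 : ℝ) else 0) ≤ σ ^ 4 / 2 := by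
    refine le_trans (le_of_eq ?_) hB
    congr 1; funext a
    congr 1; funext b
    congr 1; funext c
    exact h.comm h (M := 1) fun e d => hi _
  by_contra hcon
  push Not at hcon
  have hm : ∀ b c e d, |u b d * u c d * (u b e * u c e)| ≤ 1 := fun b c e d => by
    rw [abs_mul, abs_mul, abs_mul]
    exact mul_le_one₀ (mul_le_one₀ (hu1 _ _) (abs_nonneg _) (hu1 _ _)) (by positivity)
      (mul_le_one₀ (hu1 _ _) (abs_nonneg _) (hu1 _ _))
  have key : ∀ a b c e, (Ex g fun d => u b d * u c d * (u b e * u c e)) ≤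
      σ ^ 4 / 4 + Ex g fun d => if Bad ![a, b, c, d, e] then (1 : ℝ) else 0 := by
    intro a b c e
    refine le_trans ?_ (add_le_add (hcon a b c e) le_rfl)
    rw [← h.add (M := 1) (M' := 1) (fun d => hi _) fun d => hi _]
    refine h.mono (M := 2) (fun d => (hm b c e d).trans (by norm_num))
      (fun d => (abs_add_le _ _).trans (by linarith [hi (Y (b + d) ∧ Y (c + d) ∧ Y (b + e) ∧
        Y (c + e) ∧ ¬ Bad ![a, b, c, d, e]), hi (Bad ![a, b, c, d, e])])) fun d => ?_
    simp only [hu]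
    by_cases h1 : Y (b + d) <;> by_cases h2 : Y (c + d) <;> by_cases h3 : Y (b + e) <;>
      by_cases h4 : Y (c + e) <;> by_cases h5 : Bad ![a, b, c, d, e] <;> simp [h1, h2, h3, h4, h5]
  -- integrate
  have step : ∀ {f f' : Λ → ℝ} {t : ℝ}, (∀ x, |f x| ≤ 1) → (∀ x, |f' x| ≤ 1) →
      (∀ x, f x ≤ t + f' x) → Ex g f ≤ t + Ex g f' := by
    intro f f' t hf hf' hle
    have := h.mono (M := |t| + 1) (f := f) (f' := fun x => t + f' x)
      (fun x => (hf x).trans (by linarith [abs_nonneg t]))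
      (fun x => (abs_add_le _ _).trans (add_le_add le_rfl (hf' x))) hle
    rwa [h.add (M := |t|) (fun _ => le_rfl) hf', h.const] at this
  have hall : ∀ a, (Ex g fun b => Ex g fun c => Ex g fun e => Ex g fun d =>
      u b d * u c d * (u b e * u c e)) ≤ σ ^ 4 / 4 + Ex g fun b => Ex g fun c => Ex g fun e =>
        Ex g fun d => if Bad ![a, b, c, d, e] then (1 : ℝ) else 0 := fun a =>
    step (fun b => h.abs_le fun c => h.abs_le fun e => h.abs_le fun d => hm b c e d)
      (fun b => h.abs_le fun c => h.abs_le fun e => h.abs_le fun d => hi _) fun b =>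
    step (fun c => h.abs_le fun e => h.abs_le fun d => hm b c e d)
      (fun c => h.abs_le fun e => h.abs_le fun d => hi _) fun c =>
    step (fun e => h.abs_le fun d => hm b c e d) (fun e => h.abs_le fun d => hi _) fun e =>
      key a b c e
  have hfin := step (f := fun _ => Ex g fun b => Ex g fun c => Ex g fun e => Ex g fun d =>
      u b d * u c d * (u b e * u c e))
    (fun _ => h.abs_le fun b => h.abs_le fun c => h.abs_le fun e => h.abs_le fun d => hm b c e d)
    (fun a => h.abs_le fun b => h.abs_le fun c => h.abs_le fun e => h.abs_le fun d => hi _) hall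
  rw [h.const] at hfin
  have : 0 < σ ^ 4 := by positivity
  linarith

end

section gauss
open Gau
open Crest.Agent.T49.Lat (cast)
variable {ι : Type} [Fintype ι] {E : Type} [NormedAddCommGroup E] [InnerProductSpace ℝ E]

/-- normalised Gaussian weight -/
noncomputable def gw (A : (ι → ℝ) →ₗ[ℝ] E) (p : ι → ℤ) : ℝ := rho (A (cast p)) / th A 0

theorem pw_gw {A : (ι → ℝ) →ₗ[ℝ] E} (hA : Function.Injective A) : PW (gw A) := by
  refine ⟨fun p => div_nonneg (rho_pos _).le (th_pos hA 0).le, ?_⟩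
  have h := (summable_rho hA 0).hasSum.div_const (th A 0)
  have e : (∑' x : ι → ℤ, rho (A (cast x) + 0)) / th A 0 = 1 := div_self (th_pos hA 0).ne'
  rw [e] at h
  simp only [add_zero] at h
  exact h

omit [Fintype ι] in
theorem inj_smul {A : (ι → ℝ) →ₗ[ℝ] E} (hA : Function.Injective A) {s : ℝ} (hs : s ≠ 0) :
    Function.Injective (s • A) := fun _ _ h => hA (smul_right_injective E hs h)

/-- the sum of two Gaussians of width `1/√2` dominates the unit Gaussian -/
theorem conv_ge {A : (ι → ℝ) →ₗ[ℝ] E} (hA : Function.Injective A) (hr : rat ((2 : ℝ) • A) ≤ 4 / 3)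
    {f : (ι → ℤ) → ℝ} (hf0 : ∀ p, 0 ≤ f p) (hf1 : ∀ p, f p ≤ 1) :
    3 / 8 * Ex (gw A) f ≤ Ex (gw (√2 • A)) fun x => Ex (gw (√2 • A)) fun y => f (x + y) := by
  have hs2 : (0 : ℝ) < √2 := Real.sqrt_pos.2 (by norm_num)
  have hsq : √2 * √2 = (2 : ℝ) := Real.mul_self_sqrt (by norm_num)
  have hA1 := inj_smul hA hs2.ne'
  have hA2 := inj_smul hA (two_ne_zero (α := ℝ))
  have hfa : ∀ p, |f p| ≤ 1 := fun p => abs_le.2 ⟨by linarith [hf0 p], hf1 p⟩
  set g := gw (√2 • A) with hg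
  have hP : PW g := pw_gw hA1
  -- rewrite the double expectation as a sum over (p, x)
  rw [← hP.ex_prod hP (f := fun q => f (q.1 + q.2)) (fun q => hfa _)]
  let eq : (ι → ℤ) × (ι → ℤ) ≃ (ι → ℤ) × (ι → ℤ) :=
    { toFun := fun q => (q.2, q.1 - q.2)
      invFun := fun q => (q.1 + q.2, q.1)
      left_inv := fun q => by simp
      right_inv := fun q => by simp }
  have hsum := (hP.prod hP).summ (f := fun q => f (q.1 + q.2)) (fun q => hfa _)
  have e1 : Ex (fun q : (ι → ℤ) × (ι → ℤ) => g q.1 * g q.2) (fun q => f (q.1 + q.2)) =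
      ∑' p, (∑' x, g x * g (p - x)) * f p := by
    unfold Ex
    rw [← eq.tsum_eq]
    refine ((eq.summable_iff.2 hsum).tsum_prod).trans ?_
    refine tsum_congr fun p => ?_
    rw [← tsum_mul_right]
    exact tsum_congr fun x => by simp [eq]
  rw [e1]
  -- pointwise lower bound for the convolution
  have hk2 : kap ((2 : ℝ) • A) * kap A = kap (√2 • A) ^ 2 := by
    rw [kap_smul A (by norm_num : (0 : ℝ) ≤ 2), kap_smul A hs2.le, mul_pow, inv_pow, ← pow_mul,
      mul_comm (Fintype.card ι) 2, pow_mul, Real.sq_sqrt (by norm_num)]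
    ring
  have hr1 : rat (√2 • A) ≤ 4 / 3 := by
    refine le_trans (rat_mono hA1 fun v => ?_) hr
    simp only [LinearMap.smul_apply, norm_smul, Real.norm_eq_abs, abs_of_pos hs2]
    refine mul_le_mul_of_nonneg_right ?_ (norm_nonneg _)
    rw [abs_two]
    nlinarith
  have hth1 : th (√2 • A) 0 ≤ 4 / 3 * kap (√2 • A) := by
    have := hr1
    unfold rat at this
    rwa [div_le_iff₀ (kap_pos hA1)] at this
  have hth0 : kap A ≤ th A 0 := by
    have := one_le_rat hA
    unfold rat at this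
    rwa [le_div_iff₀ (kap_pos hA), one_mul] at this
  have hconv : ∀ p : ι → ℤ, 3 / 8 * gw A p ≤ ∑' x, g x * g (p - x) := by
    intro p
    have h1 := tsum_rho_mul_rho A (a := √2) (b := √2) (by positivity) 0 (A (cast p))
    have hab : √(√2 ^ 2 + √2 ^ 2) = (2 : ℝ) := by
      rw [Real.sq_sqrt (by norm_num), show (2 : ℝ) + 2 = 2 ^ 2 by norm_num,
        Real.sqrt_sq (by norm_num)]
    rw [hab, hsq, div_self two_ne_zero, one_smul] at h1
    have h2 : ∑' x, g x * g (p - x) = (∑' y : ι → ℤ, rho (√2 • (A (cast y) + 0)) *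
        rho (√2 • (A (cast p) - (A (cast y) + 0)))) / th (√2 • A) 0 ^ 2 := by
      rw [← tsum_div_const]
      refine tsum_congr fun x => ?_
      simp only [hg, gw, LinearMap.smul_apply, add_zero, cast_sub, map_sub, smul_sub]
      ring
    rw [h2, h1]
    have h3 := abs_th_sub_le hA2 (-((√2 ^ 2 / (√2 ^ 2 + √2 ^ 2)) • cast p))
    have h4 : ((2 : ℝ) • A) (-((√2 ^ 2 / (√2 ^ 2 + √2 ^ 2)) • cast p)) =
        (2 : ℝ) • (0 - (√2 ^ 2 / (√2 ^ 2 + √2 ^ 2)) • A (cast p)) := by
      simp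
    rw [h4] at h3
    set t := th ((2 : ℝ) • A) ((2 : ℝ) • (0 - (√2 ^ 2 / (√2 ^ 2 + √2 ^ 2)) • A (cast p)))
    have hk := kap_pos hA2
    have ht : 2 / 3 * kap ((2 : ℝ) • A) ≤ t := by
      have := (abs_le.1 h3).1
      nlinarith
    have hp1 := th_pos hA1 0
    have hp0 := th_pos hA 0
    have hρ := rho_pos (A (cast p))
    unfold gw
    rw [← mul_div_assoc, div_le_div_iff₀ hp0 (by positivity)]
    have h5 : th (√2 • A) 0 ^ 2 ≤ (4 / 3 * kap (√2 • A)) ^ 2 := pow_le_pow_left₀ hp1.le hth1 2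
    have h6 : kap ((2 : ℝ) • A) * kap A ≤ 3 / 2 * t * th A 0 := by
      have := mul_le_mul (show kap ((2 : ℝ) • A) ≤ 3 / 2 * t by linarith) hth0 (kap_pos hA).le
        (by linarith)
      linarith
    have h7 : 3 / 8 * th (√2 • A) 0 ^ 2 ≤ t * th A 0 := by nlinarith
    calc 3 / 8 * rho (A (cast p)) * th (√2 • A) 0 ^ 2
        = rho (A (cast p)) * (3 / 8 * th (√2 • A) 0 ^ 2) := by ring
      _ ≤ rho (A (cast p)) * (t * th A 0) := mul_le_mul_of_nonneg_left h7 hρ.le
      _ = _ := by ring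
  rw [← Ex_mul_left]
  unfold Ex
  have hs2' : Summable fun p => (∑' x, g x * g (p - x)) * f p := by
    have := (eq.summable_iff.2 hsum).prod
    refine this.congr fun p => ?_
    rw [← tsum_mul_right]
    exact tsum_congr fun x => by simp [eq]
  refine Summable.tsum_le_tsum (fun p => ?_) ((pw_gw hA).summ (M := 1) fun p => ?_) hs2'
  · have := mul_le_mul_of_nonneg_right (hconv p) (hf0 p)
    linarith
  · rw [abs_mul]
    have := hfa p
    rw [abs_of_pos (by norm_num : (0 : ℝ) < 3 / 8)]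
    linarith

end gauss

end Crest.Agent.T49.Tw
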