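import Crest.Agent.T49.TwBunA_52
import Crest.Agent.T49.TwLat_81
import Crest.Agent.T49.TwEx_52

/-!
# Row 49: the bundle lemma (helper52)
-/

set_option autoImplicit false

open MvPolynomial

namespace Crest.Agent.T49.Tw
open Crest.Agent.T49.Lat (cast cast_apply)

namespace MT
variable {ι : Type} {n : ℕ}

/-- the tower over one point -/
noncomputable abbrev S1 (T : MT ι (n + 1)) (p : T.C0 → ℤ) : MT (T.UT 1) n :=
  T.step (fun _ : Fin 1 => (1 : ℝ)) fun _ => p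

/-- restriction to one point -/
noncomputable abbrev R1 (T : MT ι (n + 1)) (p : T.C0 → ℤ) (F : Pl ι) : Pl (T.UT 1) :=
  T.res (fun _ : Fin 1 => (1 : ℝ)) (fun _ => p) 0 F

/-- the base tower -/
noncomputable abbrev S0 (T : MT ι (n + 1)) : MT (T.UT 0) n :=
  T.step (Fin.elim0 : Fin 0 → ℝ) Fin.elim0

/-- scaling of the marked variables -/
noncomputable abbrev m1 (T : MT ι (n + 1)) (t : ℕ) : Pl (T.UT 1) →ₐ[ℝ] Pl (T.UT 1) :=
  T.mx fun _ _ => t

/-- kill the marked variables -/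
noncomputable abbrev z0 (T : MT ι (n + 1)) : Pl (T.UT 1) →ₐ[ℝ] Pl (T.UT 0) :=
  T.mx fun _ _ => 0

/-- inclusion of the base -/
noncomputable abbrev inc (T : MT ι (n + 1)) : Pl (T.UT 0) →ₐ[ℝ] Pl (T.UT 1) :=
  T.mx fun _ _ => 0

/-- witness of shortness at the point `p` -/
def Wit (T : MT ι (n + 1)) (F : Pl ι) (r : ℝ) (p : T.C0 → ℤ) (e : Pl (T.UT 1)) : Prop :=
  (T.S1 p).Form e ∧ nrm e ≤ r ∧ IsInt (T.R1 p F - (T.S1 p).Th e)

variable (T : MT ι (n + 1))

theorem quad_id {F : Pl ι} (hF : T.Form F) {r Q : ℝ} (hQ : 4 * (r * 2 ^ n) ≤ Q) (s : Fin 5 → ℝ)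
    {a b c d e : T.C0 → ℤ} (hND : (T.step s ![a, b, c, d, e]).ND Q)
    {e11 e21 e12 e22 : Pl (T.UT 1)} (h11 : T.Wit F r (b + d) e11) (h21 : T.Wit F r (c + d) e21)
    (h12 : T.Wit F r (b + e) e12) (h22 : T.Wit F r (c + e) e22) :
    T.mx (fun _ => ![0, 1, 0, 1, 0]) e11 - T.mx (fun _ => ![0, 0, 1, 1, 0]) e21 -
      T.mx (fun _ => ![0, 1, 0, 0, 1]) e12 + T.mx (fun _ => ![0, 0, 1, 0, 1]) e22 = 0 := by
  have key : ∀ (α : Fin 5 → ℕ) (p : T.C0 → ℤ) (e' : Pl (T.UT 1)), T.Wit F r p e' →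
      p = ∑ j, α j • ![a, b, c, d, e] j → ∑ j, α j ≤ 2 →
      (T.step s ![a, b, c, d, e]).Form (T.mx (fun _ => α) e') ∧
      nrm (T.mx (fun _ : Fin 1 => α) e') ≤ r * 2 ^ n ∧
      IsInt (∑ j, C (α j : ℝ) * T.res s ![a, b, c, d, e] j F -
        (T.step s ![a, b, c, d, e]).Th (T.mx (fun _ => α) e')) := by
    intro α p e' h hp hα
    refine ⟨T.form_mx _ _ _ _ _ h.1, ?_, ?_⟩
    · refine (T.nrm_mx_le (fun _ => α) (K := 2) one_le_two (fun _ => hα) h.1).trans ?_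
      push_cast
      exact mul_le_mul_of_nonneg_right h.2.1 (by positivity)
    · have := T.isInt_mx (fun _ => α) h.2.2
      rwa [map_sub, T.mx_res (fun _ => α) _ _ s ![a, b, c, d, e] 0 hp hF.w052,
        T.mx_Th (fun _ => α) _ _ s ![a, b, c, d, e] (fun _ => hp) h.1.2] at this
  obtain ⟨f11, n11, i11⟩ := key ![0, 1, 0, 1, 0] _ _ h11 (by simp [Fin.sum_univ_five])
    (by simp [Fin.sum_univ_five])
  obtain ⟨f21, n21, i21⟩ := key ![0, 0, 1, 1, 0] _ _ h21 (by simp [Fin.sum_univ_five])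
    (by simp [Fin.sum_univ_five])
  obtain ⟨f12, n12, i12⟩ := key ![0, 1, 0, 0, 1] _ _ h12 (by simp [Fin.sum_univ_five])
    (by simp [Fin.sum_univ_five])
  obtain ⟨f22, n22, i22⟩ := key ![0, 0, 1, 0, 1] _ _ h22 (by simp [Fin.sum_univ_five])
    (by simp [Fin.sum_univ_five])
  refine hND _ (((f11.sub f21).sub f12).add f22) ?_ ?_
  · refine le_trans ((nrm_add_le _ _).trans (add_le_add_left
      ((nrm_sub_le _ _).trans (add_le_add_left (nrm_sub_le _ _) _)) _)) ?_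
    linarith
  · have := (((i11.sub i21).sub i12).add i22).neg
    convert this using 1
    simp [Fin.sum_univ_five]
    ring

theorem m1_coeff (t : ℕ) (f : Pl (T.UT 1)) (m : T.UT 1 →₀ ℕ) :
    coeff m (T.m1 t f) = (t : ℝ) ^ Finsupp.weight (fun c => T.w0 (T.pr 1 c)) m * coeff m f := by
  rw [mx_one_eq, coeff_scale52]

theorem quad_star {e11 e21 e12 e22 : Pl (T.UT 1)}
    (h : T.mx (fun _ => ![0, 1, 0, 1, 0]) e11 - T.mx (fun _ => ![0, 0, 1, 1, 0]) e21 -
      T.mx (fun _ => ![0, 1, 0, 0, 1]) e12 + T.mx (fun _ => ![0, 0, 1, 0, 1]) e22 = 0) :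
    e11 - T.m1 0 e11 = e12 - T.m1 0 e12 ∧
      IsWeightedHomogeneous (fun c => T.w0 (T.pr 1 c)) (e12 - T.m1 0 e12) 1 := by
  have key : ∀ β : Fin 5 → ℕ, T.m1 (β 1 + β 3) e11 - T.m1 (β 2 + β 3) e21 -
      T.m1 (β 1 + β 4) e12 + T.m1 (β 2 + β 4) e22 = 0 := by
    intro β
    have := congrArg (T.mx (fun j (_ : Fin 1) => β j)) h
    simpa [mx_mx, Fin.sum_univ_five] using this
  have k1 := key ![0, 1, 0, 0, 0]
  have k2 := key ![0, 0, 0, 0, 0]
  have k3 := key ![0, 0, 0, 1, 0]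
  have k4 := key ![0, 1, 0, 1, 0]
  simp only [Matrix.cons_val, add_zero, zero_add, mx_one_one, Nat.reduceAdd] at k1 k2 k3 k4
  have e1 : e11 - T.m1 0 e11 = e12 - T.m1 0 e12 := by linear_combination k1 - k2
  have e2 : T.m1 2 e11 = 2 * e11 - T.m1 0 e11 := by linear_combination k4 - k3 - k1 + k2
  refine ⟨e1, fun m hm => ?_⟩
  rw [← e1, coeff_sub, m1_coeff] at hm
  have e3 := congrArg (coeff m) e2
  rw [coeff_sub, m1_coeff, m1_coeff, two_mul, coeff_add] at e3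
  generalize Finsupp.weight (fun c => T.w0 (T.pr 1 c)) m = w at hm e3
  have hc : coeff m e11 ≠ 0 := fun h0 => hm (by simp [h0])
  match w, hm, e3 with
  | 0, hm, _ => simp at hm
  | 1, _, _ => rfl
  | w + 2, _, e3 =>
    exfalso
    have h2 : ((2 : ℝ) ^ (w + 2) - 2) * coeff m e11 = 0 := by
      simp only [Nat.cast_ofNat, Nat.cast_zero, ne_eq, Nat.add_eq_zero_iff, OfNat.ofNat_ne_zero,
        and_false, not_false_eq_true, zero_pow, zero_mul, sub_zero] at e3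
      linear_combination e3
    have h3 : (1 : ℝ) ≤ 2 ^ w := one_le_pow₀ one_le_two
    rcases mul_eq_zero.1 h2 with h4 | h4
    · rw [pow_add] at h4; linarith
    · exact hc h4

theorem inc_z0 (f : Pl (T.UT 1)) : T.inc (T.z0 f) = T.m1 0 f := by
  rw [mx_mx]; simp

theorem z0_inc (f : Pl (T.UT 0)) : T.z0 (T.inc f) = f := by
  rw [mx_mx, mx_zero_zero]

/-- the additive map given by the singleton part of a form -/
noncomputable def phi (F : Pl ι) (p : T.C0 → ℤ) : Pl (T.UT 0) :=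
  sg T.w0 (T.bsU 0) (fun c => C (T.ext0 p c : ℝ)) F

/-- the marked part of a form -/
noncomputable def mk1 (F : Pl ι) : Pl ι :=
  sg T.w0 X (fun c => if Fin.tail (T.wt c) = 0 then 0 else X c) F

theorem ext0_add (p q : T.C0 → ℤ) (c : ι) : T.ext0 (p + q) c = T.ext0 p c + T.ext0 q c := by
  unfold ext0
  split_ifs <;> simp

theorem phi_add {F : Pl ι} (hF : T.Form F) (p q : T.C0 → ℤ) :
    T.phi F (p + q) = T.phi F p + T.phi F q := by
  rw [phi, phi, phi, ← sg_add _ _ _ hF.w052]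
  simp [ext0_add]

theorem z0_R1 (F : Pl ι) (p : T.C0 → ℤ) : T.z0 (T.R1 p F) = T.phi F p := by
  rw [R1, res_eq52, mx_sg, phi]
  refine T.sg_congr _ (fun c hc => ?_) F
  unfold uU
  split_ifs with h
  · simp
  · rw [T.cp_of_ne 0 hc, mx_inr]
    simp [ext0, h]

theorem lift_sub_m1 {F : Pl ι} (hF : T.Form F) (p : T.C0 → ℤ) :
    rename (T.pr 1) (T.R1 p F - T.m1 0 (T.R1 p F)) = T.mk1 F := by
  have e1 : T.R1 p F = T.m1 0 (T.R1 p F) +
      sg T.w0 (T.bsU 1) (fun c => if Fin.tail (T.wt c) = 0 then 0 else X (T.cp 0 c)) F := by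
    rw [R1, res_eq52, mx_sg, ← sg_add _ _ _ hF.w052]
    refine T.sg_congr _ (fun c hc => ?_) F
    unfold uU
    split_ifs with h
    · simp
    · rw [T.cp_of_ne 0 hc, mx_inr]
      simp
  rw [sub_eq_of_eq_add' e1, lift_sg52 _ _ hF.2, mk1]
  congr 2
  funext c
  split_ifs
  · simp
  · simp [pr_cp]

theorem decomp [Fintype ι] [DecidableEq ι] {F : Pl ι} (hF : T.Form F) :
    F = ∑ c : T.C0, X c.1 * rename (T.pr 0) (T.phi F (Pi.single c 1)) + T.mk1 F := by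
  simp only [phi, lift_sg52 _ _ hF.2]
  rw [← sg_lin _ _ _ _ hF.w052, mk1, ← sg_add _ _ _ hF.w052]
  conv_lhs => rw [← T.sg_X_X F]
  refine T.sg_congr _ (fun c hc => ?_) F
  by_cases h : Fin.tail (T.wt c) = 0
  · rw [Finset.sum_eq_single ⟨c, hc, h⟩]
    · simp [ext0, hc, h]
    · intro c' _ hc'
      simp [ext0, hc, h, Pi.single_eq_of_ne hc'.symm]
    · simp
  · simp [ext0, h]

/-- consequences of a witness with the common marked part `es` -/
theorem wit_phi {F : Pl ι} {r : ℝ} {p : T.C0 → ℤ} {e es : Pl (T.UT 1)}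
    (h : T.Wit F r p e) (hes : e - T.m1 0 e = es)
    (hF' : T.Form (F - T.Th (rename (T.pr 1) es))) :
    IsInt (T.phi (F - T.Th (rename (T.pr 1) es)) p - T.S0.Th (T.z0 e)) ∧
      IsInt (T.mk1 (F - T.Th (rename (T.pr 1) es))) := by
  have f0 : T.S0.Form (T.z0 e) := T.form_mx _ _ _ _ _ h.1
  have fs : (T.S1 p).Form es := hes ▸ h.1.sub (T.form_mx _ _ _ _ _ h.1)
  have e1 : T.R1 p (F - T.Th (rename (T.pr 1) es)) - T.inc (T.S0.Th (T.z0 e)) =
      T.R1 p F - (T.S1 p).Th e := by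
    rw [R1, res_sub, res_Th_lift52 _ _ _ fs.2,
      T.mx_Th _ _ _ (fun _ : Fin 1 => (1 : ℝ)) (fun _ => p) (fun i => i.elim0) f0.2, inc_z0, ← hes,
      map_sub]
    ring
  have i1 := h.2.2
  rw [← e1] at i1
  constructor
  · have := T.isInt_mx (fun (_ : Fin 1) (_ : Fin 0) => 0) i1
    rwa [map_sub, z0_R1, z0_inc] at this
  · have := (i1.sub (T.isInt_mx (fun (_ _ : Fin 1) => 0) i1)).rename (T.pr 1)
    rw [map_sub (T.m1 0), ← T.inc_z0 (T.inc _), z0_inc, sub_sub_sub_cancel_right,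
      T.lift_sub_m1 hF'] at this
    exact this

theorem lin_C0 [Fintype ι] {f : Pl ι} {d : Fin (n + 1) → ℕ}
    (hf : IsWeightedHomogeneous T.wt f d) (h0 : d 0 = 1) (h1 : Fin.tail d = 0)
    (hs : f ∈ supported ℝ T.act) :
    f = ∑ c : T.C0, C (coeff (Finsupp.single c.1 1) f) * X c.1 := by
  refine MvPolynomial.funext fun x => ?_
  have h2 := L81.supp_inter hs (L81.supp_of_hom hf)
  rw [eval_congr_supp (x' := T.extR fun c => x c.1) (fun c hc => ?_) h2,
    T.eval_extR _ hf h0 h1]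
  · simp
  · have ht : Fin.tail (T.wt c) = 0 := by
      funext i
      have h3 : T.wt c i.succ ≤ d i.succ := hc.2 i.succ
      have h4 : d i.succ = 0 := congrFun h1 i
      show T.wt c i.succ = 0
      omega
    have hz : T.wt c 0 ≠ 0 := fun h => hc.1 (wt_eq_zero h ht)
    exact (T.extR_C0 (fun c => x c.1) ⟨c, hz, ht⟩).symm

theorem th_C0 [Fintype ι] (hT : T.Clean) (c : T.C0) :
    T.th c.1 = ∑ c' : T.C0, C (T.latM c c') * X c'.1 :=
  T.lin_C0 (T.th_hom c.1) (T.wt_zero_C0 c) c.2.2 (th_act hT fun h => c.2.1 (by rw [h]; rfl))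

/-- the dual basis -/
theorem exists_dual_basis [Fintype ι] [DecidableEq ι] :
    ∃ v : T.C0 → T.C0 → ℝ, (∀ c, ‖T.lat (v c)‖ = 1) ∧
      ∀ c', ∑ c, T.latM c c' • v c = cast (Pi.single c' 1) := by
  choose v hv using fun c : T.C0 => T.lat_surj (EuclideanSpace.single c 1)
  refine ⟨v, fun c => by simp [hv], fun c' => T.lat_inj ?_⟩
  ext j
  rw [map_sum]
  simp only [map_smul, hv]
  simp [lat, Matrix.mulVec, dotProduct, Pi.single_apply]

open Classical in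
theorem prb_eq_Ex [Fintype ι] {k : ℕ} (r : ℝ) (P : (Fin k → T.C0 → ℤ) → Prop) :
    T.prb (fun _ => r) P = Ex (gp (gw (r⁻¹ • T.lat)) k) fun p => if P p then 1 else 0 := by
  unfold prb Ex gp gw
  rw [← tsum_div_const]
  refine tsum_congr fun p => ?_
  by_cases h : P p
  · simp only [h, if_true, mul_one, gam_eq, rho0_eq, Finset.prod_div_distrib]
  · simp [h]

open Classical in
theorem prb_one_eq_Ex [Fintype ι] (Y : (T.C0 → ℤ) → Prop) :
    T.prb (fun _ : Fin 1 => 1) (fun p => Y (p 0)) = Ex (gw T.lat) fun p => if Y p then 1 else 0 := by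
  rw [prb_one]
  unfold Ex gw
  rw [← tsum_div_const]
  refine tsum_congr fun p => ?_
  by_cases h : Y p
  · simp only [h, if_true, mul_one, gam_one, rho0_one]
  · simp [h]

theorem form_lift0 [Fintype ι] (c : T.C0) {e : Pl (T.UT 0)} (he : T.S0.Form e) :
    T.Form (X c.1 * rename (T.pr 0) e) := by
  have hact : c.1 ∈ T.act := fun h => c.2.1 (by rw [h]; rfl)
  refine ⟨?_, mul_mem (X_mem_supp hact) (T.lift_mem52 _ _ he.2)⟩
  have h0 : IsWeightedHomogeneous (fun c => T.w0 (T.pr 0 c)) e 0 := by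
    intro m _
    rw [Finsupp.weight_apply, Finsupp.sum]
    refine Finset.sum_eq_zero fun c _ => ?_
    rcases c with c | ⟨c, i⟩
    · simp [w0, pr, c.2]
    · exact i.elim0
  have := (isWeightedHomogeneous_X ℝ T.wt c.1).mul (T.lift_hom52 _ _ he.1 h0)
  convert this using 1
  funext i
  refine Fin.cases ?_ (fun j => ?_) i
  · simp [T.wt_zero_C0 c]
  · simp [T.wt_succ_C0 c j]

/-- final assembly of the short form -/
theorem short_of_lin [Fintype ι] (hT : T.Clean) {F : Pl ι} (hF : T.Form F)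
    (hmk : IsInt (T.mk1 F)) (b : ℕ) (E : (T.C0 → ℝ) →ₗ[ℝ] T.S0.forms52) {K : ℝ}
    (hE : ∀ v, nrm (E v).1 ≤ K * ‖T.lat v‖)
    (hp : ∀ p : T.C0 → ℤ, IsInt (C (b : ℝ) * T.phi F p - T.S0.Th (E (cast p)).1)) :
    T.Short (C (b : ℝ) * F) (Fintype.card T.C0 * K) := by
  classical
  obtain ⟨v, hv1, hv2⟩ := T.exists_dual_basis
  refine ⟨∑ c : T.C0, X c.1 * rename (T.pr 0) (E (v c)).1,
    Form.sum fun c _ => T.form_lift0 c (E (v c)).2, ?_, ?_⟩
  · refine (nrm_sum_le _ _).trans ?_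
    rw [← Finset.card_univ, ← nsmul_eq_mul]
    refine Finset.sum_le_card_nsmul _ _ _ fun c _ => (nrm_mul_le _ _).trans ?_
    rw [nrm_X, one_mul]
    refine (nrm_rename_le _ _).trans ((hE _).trans ?_)
    rw [hv1, mul_one]
  · have e1 : T.Th (∑ c : T.C0, X c.1 * rename (T.pr 0) (E (v c)).1) =
        ∑ c : T.C0, X c.1 * rename (T.pr 0) (T.S0.Th (E (Lat.cast (Pi.single c 1))).1) := by
      have e2 : ∀ c : T.C0, T.Th (X c.1) = ∑ c' : T.C0, C (T.latM c c') * X c'.1 := fun c => by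
        rw [Tri.Th, bind₁_X_right, T.th_C0 hT]
      simp only [map_sum, map_mul, e2, Finset.sum_mul]
      rw [Finset.sum_comm]
      refine Finset.sum_congr rfl fun c' _ => ?_
      rw [lift_Th52 hT _ _ (E _).2.2, ← hv2 c']
      simp only [map_sum, map_smul, Submodule.coe_sum, Submodule.coe_smul, Finset.mul_sum,
        smul_eq_C_mul, map_mul, algHom_C, algebraMap_eq]
      exact Finset.sum_congr rfl fun c _ => by ring
    have e3 : C (b : ℝ) * F - T.Th (∑ c : T.C0, X c.1 * rename (T.pr 0) (E (v c)).1) =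
        ∑ c : T.C0, X c.1 * rename (T.pr 0) (C (b : ℝ) * T.phi F (Pi.single c 1) -
          T.S0.Th (E (Lat.cast (Pi.single c 1))).1) + C (b : ℝ) * T.mk1 F := by
      rw [e1]
      conv_lhs => rw [T.decomp hF]
      simp only [map_sub, map_mul, rename_C, mul_sub, Finset.sum_sub_distrib, mul_add,
        Finset.mul_sum]
      rw [add_sub_right_comm]
      refine congrArg₂ (· + ·) (congrArg₂ (· - ·) ?_ rfl) rfl
      exact Finset.sum_congr rfl fun c _ => by ring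
    rw [e3]
    exact (isInt_sum fun c _ => (isInt_X _).mul ((hp _).rename _)).add (hmk.nat_mul b)

theorem Short.mono52 {T : MT ι n} {F : Pl ι} {r r' : ℝ} (h : T.Short F r) (hr : r ≤ r') :
    T.Short F r' := by
  obtain ⟨e, h1, h2, h3⟩ := h
  exact ⟨e, h1, h2.trans hr, h3⟩

theorem ND.mono52 {T : MT ι n} {Q Q' : ℝ} (h : T.ND Q) (hQ : Q' ≤ Q) : T.ND Q' :=
  fun e h1 h2 h3 => h e h1 (h2.trans hQ) h3

theorem Short.add_Th {T : MT ι n} {F es : Pl ι} {r : ℝ} (b : ℕ) (hes : T.Form es)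
    (h : T.Short (C (b : ℝ) * (F - T.Th es)) r) : T.Short (C (b : ℝ) * F) (b * nrm es + r) := by
  obtain ⟨e, h1, h2, h3⟩ := h
  refine ⟨C (b : ℝ) * es + e, (hes.C_mul _).add h1, (nrm_add_le _ _).trans ?_, ?_⟩
  · rw [nrm_C_mul, Nat.abs_cast]; linarith
  · convert h3 using 1
    simp only [map_add, map_mul, algHom_C, algebraMap_eq]
    ring

end MT

theorem card_le_exp {k y : ℝ} (hk : 0 ≤ k) (hy : Real.log (k + 2) + 2 ≤ y) :
    5 * (k + 2) ≤ Real.exp y := by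
  have h1 : Real.exp (Real.log (k + 2) + 2) ≤ Real.exp y := Real.exp_le_exp.2 hy
  rw [Real.exp_add, Real.exp_log (by linarith)] at h1
  have h2 : (5 : ℝ) ≤ Real.exp 2 := by
    have := Real.add_one_le_exp (1 : ℝ)
    have h3 := Real.exp_one_gt_d9
    rw [show (2 : ℝ) = 1 + 1 by norm_num, Real.exp_add]
    nlinarith
  nlinarith

theorem two_le_of_log {k y : ℝ} (hk : 0 ≤ k) (hy : Real.log (k + 2) + 2 ≤ y) : 2 ≤ y := by
  have := Real.log_nonneg (show (1 : ℝ) ≤ k + 2 by linarith)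
  linarith

theorem log_card_mono {k k' y y' : ℝ} (hk : 0 ≤ k') (hkk : k' ≤ k) (hy : Real.log (k + 2) + 2 ≤ y)
    (hyy : y ≤ y') : Real.log (k' + 2) + 2 ≤ y' := by
  have := Real.log_le_log (show 0 < k' + 2 by linarith) (show k' + 2 ≤ k + 2 by linarith)
  linarith

theorem sigma_bound {y : ℝ} (hy : 2 ≤ y) :
    Real.exp (-(7 * y)) ≤ (3 / 8 * Real.exp (-y)) ^ 4 / 4 := by
  have h1 : Real.exp (-(7 * y)) ≤ Real.exp (-y) ^ 4 * Real.exp (-1) ^ 6 := by
    rw [← Real.exp_nat_mul, ← Real.exp_nat_mul, ← Real.exp_add]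
    exact Real.exp_le_exp.2 (by push_cast; linarith)
  have h2 : Real.exp (-1) ^ 6 ≤ (0.4 : ℝ) ^ 6 :=
    pow_le_pow_left₀ (Real.exp_pos _).le (Real.exp_neg_one_lt_d9.le.trans (by norm_num)) 6
  have h3 : 0 < Real.exp (-y) ^ 4 := by positivity
  rw [mul_pow]
  nlinarith

open Classical in
theorem exists_quad {ι : Type} [Fintype ι] {n : ℕ} (T : MT ι (n + 1)) {y lam : ℝ}
    (Y : (T.C0 → ℤ) → Prop) (Bad : (Fin 5 → T.C0 → ℤ) → Prop) (hy : 2 ≤ y) (hl : 0 < lam)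
    (hlam : lam ≤ 1 / 2) (hrho : T.rho0 lam ≤ 4 / 3 * T.mu0 lam)
    (hB : T.prb (fun _ => (√2)⁻¹) Bad ≤ Real.exp (-(7 * y)))
    (hY : Real.exp (-y) ≤ T.prb (fun _ : Fin 1 => 1) (fun p => Y (p 0))) :
    ∃ (a b c e : T.C0 → ℤ) (Z : (T.C0 → ℤ) → Prop),
      (∀ d, Z d → Y (b + d) ∧ Y (c + d) ∧ Y (b + e) ∧ Y (c + e) ∧ ¬ Bad ![a, b, c, d, e]) ∧
      (∃ d, Z d) ∧ Real.exp (-(7 * y)) *
        (∑' p : T.C0 → ℤ, Real.exp (-Real.pi * ‖(√2 • T.lat) fun i => (p i : ℝ)‖ ^ 2)) ≤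
        ∑' p : T.C0 → ℤ, if Z p then
          Real.exp (-Real.pi * ‖(√2 • T.lat) fun i => (p i : ℝ)‖ ^ 2) else 0 := by
  have hs2 : (0 : ℝ) < √2 := by positivity
  have hrat := T.rat_le hl hrho
  have hrat2 : Gau.rat ((2 : ℝ) • T.lat) ≤ 4 / 3 := by
    refine le_trans (Gau.rat_mono (inj_smul T.lat_inj two_ne_zero) fun v => ?_) hrat
    rw [LinearMap.smul_apply, LinearMap.smul_apply, norm_smul, norm_smul, Real.norm_eq_abs,
      Real.norm_eq_abs, abs_of_pos (inv_pos.2 hl), abs_two]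
    refine mul_le_mul_of_nonneg_right ?_ (norm_nonneg _)
    rw [le_inv_comm₀ two_pos hl]
    linarith
  rw [T.prb_one_eq_Ex] at hY
  have hconv := conv_ge T.lat_inj hrat2 (f := fun p => if Y p then 1 else 0)
    (fun p => by split_ifs <;> norm_num) fun p => by split_ifs <;> norm_num
  have hA2 : Function.Injective (√2 • T.lat) := inj_smul T.lat_inj hs2.ne'
  have hsig := sigma_bound hy
  have hpos : 0 < (3 / 8 * Real.exp (-y)) ^ 4 := by positivity
  rw [T.prb_eq_Ex, inv_inv] at hB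
  obtain ⟨a, b, c, e, hd⟩ := (pw_gw hA2).quad Y Bad (σ := 3 / 8 * Real.exp (-y)) (by positivity)
    (le_trans (mul_le_mul_of_nonneg_left hY (by norm_num)) hconv) (by linarith)
  refine ⟨a, b, c, e, fun d => Y (b + d) ∧ Y (c + d) ∧ Y (b + e) ∧ Y (c + e) ∧
    ¬ Bad ![a, b, c, d, e], fun _ h => h, ?_, ?_⟩
  · obtain ⟨d, h⟩ := (pw_gw hA2).exists_ge (M := 1) (fun d => by split_ifs <;> norm_num) hd
    refine ⟨d, by_contra fun h' => ?_⟩
    rw [if_neg h'] at h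
    linarith
  · have hth := Gau.th_pos hA2 0
    have e1 : ∑' p : T.C0 → ℤ, Real.exp (-Real.pi * ‖(√2 • T.lat) fun i => (p i : ℝ)‖ ^ 2) =
        Gau.th (√2 • T.lat) 0 := by
      simp only [Gau.th, add_zero]; rfl
    rw [e1]
    refine le_of_le_of_eq (mul_le_mul_of_nonneg_right (hsig.trans hd.le) hth.le) ?_
    rw [Ex, ← tsum_mul_right]
    refine tsum_congr fun p => ?_
    split_ifs
    · rw [gw, mul_one, div_mul_cancel₀ _ hth.ne']; rfl
    · simp

/-- the algebraic part: a correction `el` that makes the restriction additive -/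
theorem exists_corr {ι : Type} [Fintype ι] {n : ℕ} {T : MT ι (n + 1)} (hT : T.Clean) {F : Pl ι}
    (hF : T.Form F) {r Q : ℝ} (hQ : 4 * (r * 2 ^ n) ≤ Q) (s : Fin 5 → ℝ)
    {Y Z : (T.C0 → ℤ) → Prop} (hS : ∀ p, Y p → ∃ e, T.Wit F r p e) {a b c e : T.C0 → ℤ}
    (hZ : ∀ d, Z d → Y (b + d) ∧ Y (c + d) ∧ Y (b + e) ∧ Y (c + e) ∧
      ¬ ¬ (T.step s ![a, b, c, d, e]).ND Q) (h0 : ∃ d, Z d) :
    ∃ el, T.Form el ∧ nrm el ≤ 2 * r ∧ IsInt (T.mk1 (F - T.Th el)) ∧
      ∀ d, Z d → ∃ e, T.S0.Form e ∧ nrm e ≤ r ∧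
        IsInt (T.phi (F - T.Th el) (b + d) - T.S0.Th e) := by
  choose! ew hew using hS
  obtain ⟨d0, hd0⟩ := h0
  have hstar : ∀ d, Z d → ew (b + d) - T.m1 0 (ew (b + d)) = ew (b + e) - T.m1 0 (ew (b + e)) ∧
      IsWeightedHomogeneous (fun c => T.w0 (T.pr 1 c)) (ew (b + e) - T.m1 0 (ew (b + e))) 1 :=
    fun d h => T.quad_star (T.quad_id hF hQ _ (not_not.1 (hZ d h).2.2.2.2) (hew _ (hZ d h).1)
      (hew _ (hZ d h).2.1) (hew _ (hZ d h).2.2.1) (hew _ (hZ d h).2.2.2.1))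
  have wbe := hew _ (hZ d0 hd0).2.2.1
  have fes : (T.S1 (b + e)).Form (ew (b + e) - T.m1 0 (ew (b + e))) :=
    wbe.1.sub (T.form_mx _ _ _ _ _ wbe.1)
  have nes : nrm (ew (b + e) - T.m1 0 (ew (b + e))) ≤ 2 * r := by
    refine (nrm_sub_le _ _).trans ?_
    have := T.nrm_mx_le (fun (_ _ : Fin 1) => 0) (K := 1) le_rfl (fun _ => by simp) wbe.1
    simp only [Nat.cast_one, one_pow, mul_one] at this
    linarith [wbe.2.1]
  generalize ew (b + e) - T.m1 0 (ew (b + e)) = es at hstar fes nes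
  have fl : T.Form (rename (T.pr 1) es) := by
    refine ⟨?_, T.lift_mem52 _ _ fes.2⟩
    convert T.lift_hom52 _ _ fes.1 (hstar d0 hd0).2 using 1
    funext i
    refine Fin.cases rfl (fun j => rfl) i
  have hF' := hF.sub (fl.Th hT)
  refine ⟨_, fl, (nrm_rename_le _ _).trans nes,
    (T.wit_phi (hew _ (hZ d0 hd0).1) (hstar d0 hd0).1 hF').2, fun d h => ?_⟩
  have w := hew _ (hZ d h).1
  refine ⟨T.z0 (ew (b + d)), T.form_mx _ _ _ _ _ w.1, ?_, (T.wit_phi w (hstar d h).1 hF').1⟩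
  have := T.nrm_mx_le (fun (_ : Fin 1) (_ : Fin 0) => 0) (K := 1) le_rfl (fun _ => by simp) w.1
  simp only [Nat.cast_one, one_pow, mul_one] at this
  exact this.trans w.2.1

theorem bundle_of (hA : AbsStmt) : BundleStmt := by
  obtain ⟨DA, hA⟩ := hA
  intro n
  refine ⟨7 * DA + n + 9, ?_⟩
  intro ι _ T F y lam Q Y hT hF hy hl hlam hQ hrho hN0 hN5 hY hS
  have hy2 := two_le_of_log (Nat.cast_nonneg _) hy
  have hcard := card_le_exp (Nat.cast_nonneg _) hy
  have hDA : (0 : ℝ) ≤ DA := Nat.cast_nonneg _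
  have hn : (0 : ℝ) ≤ n := Nat.cast_nonneg _
  have hc0 : (Fintype.card T.C0 : ℝ) ≤ Fintype.card ι := by exact_mod_cast T.card_C0_le
  have hc00 : (0 : ℝ) ≤ Fintype.card T.C0 := Nat.cast_nonneg _
  push_cast at hlam hQ hN5 ⊢
  have hDy : 0 ≤ DA * y := by positivity
  have hny : n ≤ n * y := le_mul_of_one_le_right hn (by linarith)
  have hs2 : (0 : ℝ) < √2 := by positivity
  have hs2' : √2 ≤ 2 := by
    rw [Real.sqrt_le_left (by norm_num)]; norm_num
  have hlam2 : lam ≤ 1 / 2 := by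
    refine hlam.trans ((Real.exp_le_exp.2 (show _ ≤ -1 by linarith)).trans ?_)
    exact Real.exp_neg_one_lt_d9.le.trans (by norm_num)
  obtain ⟨a, b, c, e, Z, hZ, h0, hd⟩ := exists_quad T Y _ hy2 hl hlam2 hrho
    (hN5.trans (Real.exp_le_exp.2 (by linarith))) hY
  have hQ4 : 4 * (Real.exp y * 2 ^ (n + 1)) ≤ Q := by
    refine le_trans ?_ hQ
    have h1 : (2 : ℝ) ^ (n + 3) ≤ Real.exp (n + 3) := by
      rw [show (n + 3 : ℝ) = ((n + 3 : ℕ) : ℝ) * 1 by push_cast; ring, Real.exp_nat_mul]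
      exact pow_le_pow_left₀ two_pos.le (by linarith [Real.add_one_le_exp (1 : ℝ)]) _
    calc 4 * (Real.exp y * 2 ^ (n + 1)) = Real.exp y * 2 ^ (n + 3) := by ring
      _ ≤ Real.exp y * Real.exp (n + 3) := by gcongr
      _ ≤ _ := by rw [← Real.exp_add]; exact Real.exp_le_exp.2 (by linarith)
  obtain ⟨el, fl, nel, hmk, hphi⟩ := exists_corr hT hF hQ4 _ hS hZ h0
  have hF' := hF.sub (fl.Th hT)
  have hA2 : Function.Injective (√2 • T.lat) := inj_smul T.lat_inj hs2.ne'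
  have h3 : 3 ≤ Real.exp y := by linarith [Real.add_one_le_exp y]
  have hl' : √2 * (√(Fintype.card T.C0 + 2) * lam) ≤ Real.exp (-(DA * (7 * y))) := by
    have h1 : √2 * √(Fintype.card T.C0 + 2) ≤ Real.exp y := by
      rw [← Real.sqrt_mul two_pos.le, Real.sqrt_le_left (Real.exp_pos _).le]
      nlinarith
    calc √2 * (√(Fintype.card T.C0 + 2) * lam) = (√2 * √(Fintype.card T.C0 + 2)) * lam := by ring
      _ ≤ Real.exp y * Real.exp (-((7 * DA + n + 9) * y)) := by gcongr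
      _ ≤ _ := by rw [← Real.exp_add]; exact Real.exp_le_exp.2 (by linarith)
  obtain ⟨b0, hb1, hb2, E, hE1, hE2⟩ := hA T.C0 (√2 • T.lat) (Pl (T.UT 0)) T.S0.forms52
    (fun e => nrm e.1) (T.S0.Th.toLinearMap.comp T.S0.forms52.subtype)
    (intSub _).toAddSubgroup (AddMonoidHom.mk' (T.phi _) (T.phi_add hF')) (T.phi _ b) Z
    (7 * y) (√2 * (√(Fintype.card T.C0 + 2) * lam)) Q hA2 (fun v w => nrm_add_le _ _)
    (fun t v => nrm_smul _ _) (log_card_mono hc00 hc0 hy (by linarith)) (by positivity) hl'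
    (fun u => by
      obtain ⟨x, hx⟩ := T.exists_near hl hrho (T.lat u)
      refine ⟨x, ?_⟩
      rw [LinearMap.smul_apply, norm_smul, Real.norm_eq_abs, abs_of_pos hs2, map_sub]
      exact mul_le_mul_of_nonneg_left hx.le hs2.le)
    (le_trans (Real.exp_le_exp.2 (by linarith)) hQ)
    (fun e h1 h2 => Subtype.ext (hN0 e.1 e.2 h1 (mem_intSub.1 h2))) hd
    (fun d h => by
      obtain ⟨e, h1, h2, h3⟩ := hphi d h
      refine ⟨⟨e, h1⟩, h2.trans (Real.exp_le_exp.2 (by linarith)), mem_intSub.2 ?_⟩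
      rwa [T.phi_add hF'] at h3)
  have hsh := T.short_of_lin hT hF' hmk b0 E (K := Real.exp (DA * (7 * y)) * 2) (fun v => by
    refine (hE1 v).trans ?_
    rw [LinearMap.smul_apply, norm_smul, Real.norm_eq_abs, abs_of_pos hs2, mul_assoc]
    gcongr) fun p => by
      have := mem_intSub.1 (hE2 p)
      rwa [nsmul_eq_mul, ← map_natCast (C : ℝ →+* Pl (T.UT 0))] at this
  refine ⟨b0, hb1, hb2.trans (Real.exp_le_exp.2 (by linarith)),
    (MT.Short.add_Th b0 fl hsh).mono52 ?_⟩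
  have h1 : Real.exp (DA * (7 * y)) * (Real.exp y * Real.exp y) ≤
      Real.exp ((7 * DA + n + 9) * y) := by
    rw [← Real.exp_add, ← Real.exp_add]; exact Real.exp_le_exp.2 (by linarith)
  have h2 : (b0 : ℝ) * nrm el ≤ Real.exp (DA * (7 * y)) * (2 * Real.exp y) :=
    mul_le_mul hb2 nel (nrm_nonneg _) (Real.exp_pos _).le
  have h4 : 2 * Real.exp y + Fintype.card T.C0 * 2 ≤ Real.exp y * Real.exp y := by nlinarith
  have h5 := mul_le_mul_of_nonneg_left h4 (Real.exp_pos (DA * (7 * y))).le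
  linarith

end Crest.Agent.T49.Tw
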