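import Crest.Agent.T49.TwDef_52

/-!
# Row 49 (helper66): tower calculus, leaf CERT, part A: passive coordinates and one unfolding step
-/

set_option autoImplicit false

open MvPolynomial

noncomputable section

namespace Crest.Agent.T49.Tw.Cert66

variable {ι : Type} {n : ℕ}

/-- passive coordinates -/
abbrev Pas (T : MT ι n) : Type := {c // T.wt c = 0}

/-- extension by zero -/
def xt (T : MT ι n) (x : Pas T → ℤ) (c : ι) : ℤ := if h : T.wt c = 0 then x ⟨c, h⟩ else 0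

theorem xt_of_ne (T : MT ι n) (x : Pas T → ℤ) {c : ι} (h : T.wt c ≠ 0) : xt T x c = 0 := dif_neg h

theorem xt_coe (T : MT ι n) (x : Pas T → ℤ) (c : Pas T) : xt T x c.1 = x c := dif_pos c.2

theorem wt_eq_zero {w : Fin (n + 1) → ℕ} : w = 0 ↔ w 0 = 0 ∧ Fin.tail w = 0 := by
  refine ⟨fun h => by subst h; exact ⟨rfl, rfl⟩, fun h => funext (Fin.forall_fin_succ.2
    ⟨h.1, fun i => congrFun h.2 i⟩)⟩

variable (T : MT ι (n + 1)) {k : ℕ}

/-- values of the passive coordinates after unfolding -/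
def gl (x : ι → ℤ) (p : Fin k → T.C0 → ℤ) : T.UT k → ℤ
  | Sum.inl c => x c.1
  | Sum.inr c => T.ext p (Sum.inr c)

theorem cp_pos (i : Fin k) {c : ι} (h : T.wt c 0 = 0) : T.cp i c = Sum.inl ⟨c, h⟩ := dif_pos h

theorem cp_neg (i : Fin k) {c : ι} (h : T.wt c 0 ≠ 0) : T.cp i c = Sum.inr (⟨c, h⟩, i) := dif_neg h

theorem sub_X (T : MT ι n) (x : ι → ℤ) (c : ι) :
    T.sub x (X c) = if T.wt c = 0 then C (x c : ℝ) else X c := bind₁_X_right _ _

theorem sub_C (T : MT ι n) (x : ι → ℤ) (r : ℝ) : T.sub x (C r) = C r := bind₁_C_right _ _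

theorem base_X (k : ℕ) (c : ι) :
    T.base k (X c) = if h : T.wt c 0 = 0 then X (Sum.inl ⟨c, h⟩) else 0 := bind₁_X_right _ _

theorem sub_rename (s : Fin k → ℝ) (x : ι → ℤ) (p : Fin k → T.C0 → ℤ) (i : Fin k) (F : Pl ι) :
    (T.unfold s).sub (gl T x p) (rename (T.cp i) F) =
      (T.unfold s).sub (T.ext p) (rename (T.cp i) (T.sub x F)) := by
  have : ((T.unfold s).sub (gl T x p)).comp (rename (T.cp i)) =
      ((T.unfold s).sub (T.ext p)).comp ((rename (T.cp i)).comp (T.sub x)) := by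
    refine MvPolynomial.algHom_ext fun c => ?_
    simp only [AlgHom.comp_apply, rename_X, sub_X]
    by_cases h : T.wt c = 0
    · obtain ⟨h1, h2⟩ := wt_eq_zero.1 h
      rw [if_pos h, rename_C, sub_C, cp_pos T i h1,
        if_pos (show (T.unfold s).wt (Sum.inl ⟨c, h1⟩) = 0 from h2)]
      rfl
    · rw [if_neg h, rename_X, sub_X]
      by_cases h1 : T.wt c 0 = 0
      · have h2 : ¬ (T.unfold s).wt (T.cp i c) = 0 := by
          rw [cp_pos T i h1]
          exact fun h2 => h (wt_eq_zero.2 ⟨h1, h2⟩)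
        rw [if_neg h2, if_neg h2]
      · rw [cp_neg T i h1]
        rfl
  exact DFunLike.congr_fun this F

theorem sub_base (s : Fin k → ℝ) (x : ι → ℤ) (p : Fin k → T.C0 → ℤ) (F : Pl ι) :
    (T.unfold s).sub (gl T x p) (T.base k F) =
      (T.unfold s).sub (T.ext p) (T.base k (T.sub x F)) := by
  have : ((T.unfold s).sub (gl T x p)).comp (T.base k) =
      ((T.unfold s).sub (T.ext p)).comp ((T.base k).comp (T.sub x)) := by
    refine MvPolynomial.algHom_ext fun c => ?_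
    simp only [AlgHom.comp_apply, sub_X, base_X]
    by_cases h : T.wt c = 0
    · obtain ⟨h1, h2⟩ := wt_eq_zero.1 h
      rw [if_pos h, dif_pos h1, sub_X, if_pos (show (T.unfold s).wt (Sum.inl ⟨c, h1⟩) = 0 from h2),
        show T.base k (C (x c : ℝ)) = C (x c : ℝ) from bind₁_C_right _ _, sub_C]
      rfl
    · rw [if_neg h, base_X]
      by_cases h1 : T.wt c 0 = 0
      · have h2 : ¬ (T.unfold s).wt (Sum.inl ⟨c, h1⟩) = 0 :=
          fun h2 => h (wt_eq_zero.2 ⟨h1, h2⟩)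
        rw [dif_pos h1, sub_X, sub_X, if_neg h2, if_neg h2]
      · rw [dif_neg h1, map_zero, map_zero]
  exact DFunLike.congr_fun this F

theorem mt_ext {T T' : MT ι n} (h1 : T.rk = T'.rk) (h2 : T.a = T'.a) (h3 : T.B = T'.B)
    (h4 : T.wt = T'.wt) : T = T' := by
  obtain ⟨⟨_, _, _, _, _⟩, _, _, _⟩ := T
  obtain ⟨⟨_, _, _, _, _⟩, _, _, _⟩ := T'
  dsimp only at h1 h2 h3 h4
  subst h1 h2 h3 h4
  rfl

theorem ext_spec (x : ι → ℤ) (p : Fin k → T.C0 → ℤ) : (T.spec x).ext p = T.ext p := by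
  funext c
  rcases c with c | c <;> rfl

theorem sub_spec (s : Fin k → ℝ) (x : ι → ℤ) (y : T.UT k → ℤ) :
    ((T.spec x).unfold s).sub y = (T.unfold s).sub y := by
  refine MvPolynomial.algHom_ext fun c => ?_
  refine (sub_X _ _ _).trans (Eq.trans ?_ (sub_X (T.unfold s) y c).symm)
  rcases c with c | c <;> rfl

theorem sub_spec' (s : Fin k → ℝ) (x : ι → ℤ) (p : Fin k → T.C0 → ℤ) (G : Pl (T.UT k)) :
    ((T.spec x).unfold s).sub ((T.spec x).ext p) G = (T.unfold s).sub (T.ext p) G :=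
  (DFunLike.congr_fun (sub_spec T s x ((T.spec x).ext p)) G).trans
    (congrArg (fun y => (T.unfold s).sub y G) (ext_spec T x p))

theorem spec_B (T : MT ι n) (x : ι → ℤ) (c : ι) : (T.spec x).B c = T.sub x (T.B c) := by
  simp only [MT.spec]

theorem res_spec (s : Fin k → ℝ) (x : ι → ℤ) (p : Fin k → T.C0 → ℤ) (i : Fin k) (F : Pl ι) :
    (T.spec x).res s p i (T.sub x F) = (T.unfold s).sub (gl T x p) (rename (T.cp i) F) :=
  (sub_spec' T s x p (rename (T.cp i) (T.sub x F))).trans (sub_rename T s x p i F).symm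

theorem sub_mul_base (s : Fin k → ℝ) (x : ι → ℤ) (p : Fin k → T.C0 → ℤ) (r : ℝ) (F : Pl ι) :
    (T.unfold s).sub (T.ext p) (C r * T.base k (T.sub x F)) =
      (T.unfold s).sub (gl T x p) (C r * T.base k F) := by
  rw [map_mul, map_mul, sub_C, sub_C, sub_base]

theorem sub_mul_rename (s : Fin k → ℝ) (x : ι → ℤ) (p : Fin k → T.C0 → ℤ) (i : Fin k) (r : ℝ)
    (F : Pl ι) : (T.unfold s).sub (T.ext p) (C r * rename (T.cp i) (T.sub x F)) =
      (T.unfold s).sub (gl T x p) (C r * rename (T.cp i) F) := by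
  rw [map_mul, map_mul, sub_C, sub_C, sub_rename]

theorem step_spec (s : Fin k → ℝ) (x : ι → ℤ) (p : Fin k → T.C0 → ℤ) :
    (T.spec x).step s p = (T.unfold s).spec (gl T x p) := by
  refine mt_ext (funext fun c => ?_) (funext fun c => ?_) (funext fun c => ?_) (funext fun c => ?_)
  · rcases c with c | c <;> rfl
  · rcases c with c | c <;> rfl
  · refine (spec_B _ _ _).trans ((sub_spec' T s x p _).trans
      (Eq.trans ?_ (spec_B (T.unfold s) (gl T x p) c).symm))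
    rcases c with c | c
    · exact sub_mul_base T s x p 1 (T.B c.1)
    · exact sub_mul_rename T s x p c.2 _ (T.B c.1.1)
  · rcases c with c | c <;> rfl

theorem spec_clean (T : MT ι n) (x : ι → ℤ) : (T.spec x).Clean := fun c => by
  refine bind_mem_supported (s := Set.univ) (fun c' _ => ?_) (by simp)
  split_ifs with h
  · exact C_mem_supp _ _
  · exact X_mem_supp h

theorem sub_of_act (T : MT ι n) (h : ∀ c, T.wt c ≠ 0) (x : ι → ℤ) (F : Pl ι) : T.sub x F = F := by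
  have : T.sub x = AlgHom.id ℝ _ :=
    MvPolynomial.algHom_ext fun c => by rw [sub_X, if_neg (h c)]; rfl
  rw [this]; rfl

theorem spec_of_act (T : MT ι n) (h : ∀ c, T.wt c ≠ 0) (x : ι → ℤ) : T.spec x = T := by
  refine mt_ext ?_ ?_ ?_ ?_
  · simp only [MT.spec]
  · simp only [MT.spec]
  · funext c
    rw [spec_B, sub_of_act T h]
  · simp only [MT.spec]

/-- the passive coordinates after unfolding -/
def pe (s : Fin k → ℝ) : Pas T ⊕ Fin k × T.C0 ≃ Pas (T.unfold s) where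
  toFun
    | Sum.inl c => ⟨Sum.inl ⟨c.1, (wt_eq_zero.1 c.2).1⟩, (wt_eq_zero.1 c.2).2⟩
    | Sum.inr c => ⟨Sum.inr (⟨c.2.1, c.2.2.1⟩, c.1), c.2.2.2⟩
  invFun
    | ⟨Sum.inl c, h⟩ => Sum.inl ⟨c.1, wt_eq_zero.2 ⟨c.2, h⟩⟩
    | ⟨Sum.inr c, h⟩ => Sum.inr (c.2, ⟨c.1.1, c.1.2, h⟩)
  left_inv := by rintro (c | c) <;> rfl
  right_inv := by rintro ⟨c | c, h⟩ <;> rfl

/-- points of the passive coordinates after unfolding -/
def ge (s : Fin k → ℝ) : (Pas T → ℤ) × (Fin k → T.C0 → ℤ) ≃ (Pas (T.unfold s) → ℤ) where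
  toFun q c := Sum.elim q.1 (fun c => q.2 c.1 c.2) ((pe T s).symm c)
  invFun x := (fun c => x (pe T s (Sum.inl c)), fun i c => x (pe T s (Sum.inr (i, c))))
  left_inv _ := rfl
  right_inv x := by
    funext c
    obtain ⟨c, rfl⟩ := (pe T s).surjective c
    rcases c with c | c <;> rfl

theorem xt_ge (s : Fin k → ℝ) (x : Pas T → ℤ) (p : Fin k → T.C0 → ℤ) :
    xt (T.unfold s) (ge T s (x, p)) = gl T (xt T x) p := by
  funext c
  rcases c with c | c
  · by_cases h : (T.unfold s).wt (Sum.inl c) = 0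
    · rw [xt, dif_pos h]
      exact (xt_coe T x ⟨c.1, wt_eq_zero.2 ⟨c.2, h⟩⟩).symm
    · rw [xt_of_ne _ _ h]
      exact (xt_of_ne T x fun h1 => h (wt_eq_zero.1 h1).2).symm
  · by_cases h : (T.unfold s).wt (Sum.inr c) = 0
    · have h' : Fin.tail (T.wt c.1.1) = 0 := h
      rw [xt, dif_pos h, gl, MT.ext, dif_pos h']
      rfl
    · have h' : ¬ Fin.tail (T.wt c.1.1) = 0 := h
      rw [xt_of_ne _ _ h, gl, MT.ext, dif_neg h']

/-- the normalised Gaussian factor -/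
def gf (a v : ℝ) : ℝ := Real.exp (-Real.pi * v ^ 2) * |a|

theorem gf_nonneg (a v : ℝ) : 0 ≤ gf a v := mul_nonneg (Real.exp_pos _).le (abs_nonneg _)

theorem wgt_div_mu [Fintype ι] (T : Tri ι) (z : ι → ℤ) :
    T.wgt z / T.mu = ∏ c, gf (T.a c) (ev z (T.th c)) := by
  simp only [Tri.wgt, Tri.mu, gf, Finset.mul_sum, Real.exp_sum, Finset.prod_mul_distrib,
    Finset.prod_inv_distrib, div_inv_eq_mul]

theorem mu_pos [Fintype ι] (T : Tri ι) : 0 < T.mu :=
  Finset.prod_pos fun c _ => inv_pos.2 (abs_pos.2 (T.a_ne c))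

theorem mu0_pos [Fintype ι] {s : ℝ} (hs : 0 < s) : 0 < T.mu0 s :=
  Finset.prod_pos fun c _ => mul_pos hs (inv_pos.2 (abs_pos.2 (T.a_ne c.1)))

theorem gam_pos [Fintype ι] (s : ℝ) (p : T.C0 → ℤ) : 0 < T.gam s p := Real.exp_pos _

theorem gam_div_mu0 [Fintype ι] {s : ℝ} (hs : 0 < s) (p : T.C0 → ℤ) :
    T.gam s p / T.mu0 s = ∏ c : T.C0, gf (s⁻¹ * T.a c.1) (s⁻¹ * ev (T.ext0 p) (T.th c.1)) := by
  simp only [MT.gam, MT.mu0, gf, Finset.mul_sum, Real.exp_sum, ← Finset.prod_div_distrib]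
  refine Finset.prod_congr rfl fun c _ => ?_
  have := abs_pos.2 (T.a_ne c.1)
  rw [abs_mul, abs_of_pos (inv_pos.2 hs), div_eq_inv_mul (ev _ _)]
  field_simp

/-- the normalised weight of the passive coordinates -/
def wp [Fintype ι] (T : MT ι n) (x : Pas T → ℤ) : ℝ :=
  ∏ c : Pas T, gf (T.a c.1) (ev (xt T x) (T.th c.1))

/-- the normalised weight of the auxiliary points -/
def ws [Fintype ι] (s : Fin k → ℝ) (p : Fin k → T.C0 → ℤ) : ℝ :=
  ∏ i, T.gam (s i) (p i) / T.mu0 (s i)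

theorem wp_nonneg [Fintype ι] (T : MT ι n) (x : Pas T → ℤ) : 0 ≤ wp T x :=
  Finset.prod_nonneg fun _ _ => gf_nonneg _ _

theorem ev_bind {κ : Type} (z : κ → ℤ) (g : ι → Pl κ) (f : Pl ι) :
    ev z (bind₁ g f) = eval (fun c => ev z (g c)) f := by
  unfold ev
  rw [← coe_aeval_eq_eval, ← coe_aeval_eq_eval]
  exact aeval_bind₁ _ _ _

theorem ev_rename {κ : Type} (z : κ → ℤ) (g : ι → κ) (f : Pl ι) :
    ev z (rename g f) = ev (fun c => z (g c)) f := eval_rename _ _ _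

theorem ev_th (T : Tri ι) (z : ι → ℤ) (c : ι) : ev z (T.th c) = T.a c * z c + ev z (T.B c) := by
  simp [ev, Tri.th]

theorem ev_C_mul (z : ι → ℤ) (r : ℝ) (f : Pl ι) : ev z (C r * f) = r * ev z f := by simp [ev]

theorem wp_ge [Fintype ι] {s : Fin k → ℝ} (hs : ∀ i, 0 < s i) (x : Pas T → ℤ)
    (p : Fin k → T.C0 → ℤ) :
    wp (T.unfold s) (ge T s (x, p)) = wp T x * ws (T.spec (xt T x)) s p := by
  have hs' : (fun i => if s i = 0 then 1 else s i) = s := funext fun i => if_neg (hs i).ne'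
  rw [wp, ← (pe T s).prod_comp, Fintype.prod_sum_type, Fintype.prod_prod_type, xt_ge, wp]
  unfold ws
  congr 1
  · refine Finset.prod_congr rfl fun c _ => ?_
    rw [ev_th, ev_th]
    change gf (1 * T.a c.1) (1 * T.a c.1 * (xt T x c.1 : ℝ) +
      ev _ (C 1 * T.base k (T.B c.1))) = _
    rw [one_mul, ev_C_mul, one_mul, MT.base, ev_bind]
    unfold ev
    congr 4
    funext c'
    split_ifs with h
    · simp [gl]
    · rw [xt_of_ne T x fun h1 => h (wt_eq_zero.1 h1).1]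
      simp
  · refine Finset.prod_congr rfl fun i _ => ?_
    refine Eq.trans ?_ (gam_div_mu0 (T.spec (xt T x)) (hs i) (p i)).symm
    refine Finset.prod_congr rfl fun (c : T.C0) _ => ?_
    have hf : T.fac (fun i => if s i = 0 then 1 else s i) (Sum.inr (⟨c.1, c.2.1⟩, i)) = (s i)⁻¹ := by
      rw [hs']; exact if_pos c.2.2
    have h1 : (T.unfold s).a (Sum.inr (⟨c.1, c.2.1⟩, i)) = (s i)⁻¹ * T.a c.1 := by
      rw [← hf]; rfl
    have h2 : (T.unfold s).B (Sum.inr (⟨c.1, c.2.1⟩, i)) =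
        C (s i)⁻¹ * rename (T.cp i) (T.B c.1) := by
      rw [← hf]; rfl
    have h3 : (T.spec (xt T x)).a c.1 = T.a c.1 := by simp only [MT.spec]
    change gf ((T.unfold s).a (Sum.inr (⟨c.1, c.2.1⟩, i)))
      (ev (gl T (xt T x) p) ((T.unfold s).th (Sum.inr (⟨c.1, c.2.1⟩, i)))) =
      gf ((s i)⁻¹ * (T.spec (xt T x)).a c.1)
        ((s i)⁻¹ * ev (T.ext0 (p i)) ((T.spec (xt T x)).th c.1))
    have h4 : gl T (xt T x) p (Sum.inr (⟨c.1, c.2.1⟩, i)) = T.ext0 (p i) c.1 := by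
      rw [MT.ext0, dif_pos c.2]
      exact dif_pos c.2.2
    have h5 : (fun c' => ((gl T (xt T x) p (T.cp i c') : ℤ) : ℝ)) = fun c' =>
        ev (T.ext0 (p i)) (if T.wt c' = 0 then C (xt T x c' : ℝ) else X c') := by
      funext c'
      unfold ev
      by_cases h : T.wt c' = 0
      · rw [if_pos h, cp_pos T i (wt_eq_zero.1 h).1, eval_C]
        rfl
      · rw [if_neg h, eval_X]
        by_cases h1 : T.wt c' 0 = 0
        · rw [cp_pos T i h1, MT.ext0, dif_neg fun h2 => h2.1 h1]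
          exact congrArg _ (xt_of_ne T x h)
        · rw [cp_neg T i h1, MT.ext0]
          congr 1
          by_cases h2 : Fin.tail (T.wt c') = 0
          · rw [dif_pos ⟨h1, h2⟩]; exact dif_pos h2
          · rw [dif_neg fun h3 => h2 h3.2]; exact dif_neg h2
    rw [ev_th, ev_th, spec_B, h1, h2, h3, ev_C_mul, ev_rename, MT.sub, ev_bind, mul_assoc,
      ← mul_add, h4, ← h5]
    rfl

theorem ws_nonneg [Fintype ι] {s : Fin k → ℝ} (hs : ∀ i, 0 < s i) (p : Fin k → T.C0 → ℤ) :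
    0 ≤ ws T s p :=
  Finset.prod_nonneg fun i _ => (div_pos (gam_pos T _ _) (mu0_pos T (hs i))).le

/-- Fubini for one unfolding step -/
theorem tsum_unfold [Fintype ι] {s : Fin k → ℝ} (hs : ∀ i, 0 < s i)
    (G : (T.UT k → ℤ) → ENNReal) :
    ∑' x', ENNReal.ofReal (wp (T.unfold s) x') * G (xt (T.unfold s) x') =
      ∑' x, ENNReal.ofReal (wp T x) * ∑' p : Fin k → T.C0 → ℤ,
        ENNReal.ofReal (ws (T.spec (xt T x)) s p) * G (gl T (xt T x) p) := by
  rw [← (ge T s).tsum_eq, ENNReal.tsum_prod']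
  refine tsum_congr fun x => ?_
  rw [← ENNReal.tsum_mul_left]
  refine tsum_congr fun p => ?_
  rw [wp_ge T hs, xt_ge, ENNReal.ofReal_mul (wp_nonneg T x), mul_assoc]

/-- a tower without slots: all coordinates are passive -/
theorem tsum_zero [Fintype ι] (T : MT ι 0) (G : (ι → ℤ) → ENNReal) :
    ∑' x, ENNReal.ofReal (wp T x) * G (xt T x) =
      ∑' z, ENNReal.ofReal (T.wgt z / T.mu) * G z := by
  have h : ∀ c, T.wt c = 0 := fun c => Subsingleton.elim _ _
  let e : Pas T ≃ ι := Equiv.subtypeUnivEquiv h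
  rw [← (e.arrowCongr (Equiv.refl ℤ)).tsum_eq]
  refine tsum_congr fun x => ?_
  have h1 : (e.arrowCongr (Equiv.refl ℤ)) x = xt T x := funext fun c => (xt_coe T x ⟨c, h c⟩).symm
  rw [h1, wgt_div_mu, wp, ← e.prod_comp]
  rfl

/-- a tower without passive coordinates -/
theorem tsum_act [Fintype ι] (T : MT ι n) (h : ∀ c, T.wt c ≠ 0) (G : (ι → ℤ) → ENNReal) :
    ∑' x, ENNReal.ofReal (wp T x) * G (xt T x) = G 0 := by
  have : IsEmpty (Pas T) := ⟨fun c => h c.1 c.2⟩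
  rw [tsum_fintype, Fintype.sum_unique, wp, Fintype.prod_empty, ENNReal.ofReal_one, one_mul]
  congr 1
  exact funext fun c => xt_of_ne T _ (h c)

end Crest.Agent.T49.Tw.Cert66
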