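import Crest.Agent.T49.TwCertA_66

/-!
# Row 49 (helper66): tower calculus, leaf CERT, part B: Markov inequality along the tower
-/

set_option autoImplicit false

open MvPolynomial

noncomputable section

namespace Crest.Agent.T49.Tw.Cert66

open ENNReal

/-- the lattice fact used for the singleton lattice -/
def LatFact : Prop := ∀ (ι : Type) [Fintype ι] (n : ℕ) (T : MT ι (n + 1)) (s : ℝ), T.Clean →
  0 < s → Summable (T.gam s) ∧ T.mu0 s ≤ T.rho0 s

theorem tsum_pi_prod {α : Type} (k : ℕ) (f : Fin k → α → ℝ≥0∞) :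
    ∑' p : Fin k → α, ∏ i, f i (p i) = ∏ i, ∑' a, f i a := by
  induction k with
  | zero => rw [tsum_fintype, Fintype.sum_unique]; simp
  | succ k ih =>
    rw [← (Fin.consEquiv fun _ => α).tsum_eq, ENNReal.tsum_prod', Fin.prod_univ_succ,
      ← ih fun i => f i.succ, ← ENNReal.tsum_mul_right]
    refine tsum_congr fun a => ?_
    rw [← ENNReal.tsum_mul_left]
    refine tsum_congr fun p => ?_
    rw [Fin.prod_univ_succ]
    rfl

variable {ι : Type} [Fintype ι] {n : ℕ}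

/-- weighted sum over the auxiliary points -/
def EE (T : MT ι (n + 1)) {k : ℕ} (s : Fin k → ℝ) (G : (Fin k → T.C0 → ℤ) → ℝ≥0∞) : ℝ≥0∞ :=
  ∑' p, ENNReal.ofReal (ws T s p) * G p

theorem EE_one (T : MT ι (n + 1)) {k : ℕ} {s : Fin k → ℝ} (hs : ∀ i, 0 < s i)
    (hS : ∀ i, Summable (T.gam (s i))) :
    ∑' p, ENNReal.ofReal (ws T s p) = ∏ i, ENNReal.ofReal (T.rho0 (s i) / T.mu0 (s i)) := by
  have h1 : ∀ p, ENNReal.ofReal (ws T s p) =
      ∏ i, ENNReal.ofReal (T.gam (s i) (p i) / T.mu0 (s i)) := fun p =>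
    ENNReal.ofReal_prod_of_nonneg fun i _ => (div_pos (gam_pos T _ _) (mu0_pos T (hs i))).le
  simp only [h1]
  rw [tsum_pi_prod k fun i a => ENNReal.ofReal (T.gam (s i) a / T.mu0 (s i))]
  refine Finset.prod_congr rfl fun i _ => ?_
  rw [← ENNReal.ofReal_tsum_of_nonneg
    (fun a => (div_pos (gam_pos T _ _) (mu0_pos T (hs i))).le) ((hS i).div_const _),
    tsum_div_const]
  rfl

theorem one_le_EE (hL : LatFact) (T : MT ι (n + 1)) (hT : T.Clean) {k : ℕ} {s : Fin k → ℝ}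
    (hs : ∀ i, 0 < s i) : 1 ≤ ∑' p, ENNReal.ofReal (ws T s p) := by
  rw [EE_one T hs fun i => (hL ι n T _ hT (hs i)).1]
  refine Finset.one_le_prod' fun i _ => ?_
  rw [ENNReal.one_le_ofReal, one_le_div (mu0_pos T (hs i))]
  exact (hL ι n T _ hT (hs i)).2

theorem le_EE (hL : LatFact) (T : MT ι (n + 1)) (hT : T.Clean) {k : ℕ} {s : Fin k → ℝ}
    (hs : ∀ i, 0 < s i) {G : (Fin k → T.C0 → ℤ) → ℝ≥0∞} {a : ℝ≥0∞} (hG : ∀ p, a ≤ G p) :
    a ≤ EE T s G := by
  calc a = 1 * a := (one_mul _).symm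
    _ ≤ (∑' p, ENNReal.ofReal (ws T s p)) * a := by gcongr; exact one_le_EE hL T hT hs
    _ = ∑' p, ENNReal.ofReal (ws T s p) * a := ENNReal.tsum_mul_right.symm
    _ ≤ _ := ENNReal.tsum_le_tsum fun p => by gcongr; exact hG p

open Classical in
theorem prb_le (hL : LatFact) (T : MT ι (n + 1)) (hT : T.Clean) {k : ℕ} {s : Fin k → ℝ}
    (hs : ∀ i, 0 < s i) (P : (Fin k → T.C0 → ℤ) → Prop) {η : ℝ} (hη : 0 ≤ η)
    (h : ∑' p, ENNReal.ofReal (if P p then ws T s p else 0) ≤ ENNReal.ofReal η) :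
    T.prb s P ≤ η := by
  have h0 : ∀ p, 0 ≤ (if P p then ws T s p else 0) := fun p => by
    split_ifs
    · exact ws_nonneg T hs p
    · exact le_rfl
  have h1 : ∑' p, (if P p then ws T s p else 0) ≤ η := by
    have := ENNReal.toReal_le_of_le_ofReal hη h
    rw [ENNReal.tsum_toReal_eq fun _ => ENNReal.ofReal_ne_top] at this
    simpa only [ENNReal.toReal_ofReal (h0 _)] using this
  have hm : 0 < ∏ i, T.mu0 (s i) := Finset.prod_pos fun i _ => mu0_pos T (hs i)
  have hr : ∏ i, T.mu0 (s i) ≤ ∏ i, T.rho0 (s i) :=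
    Finset.prod_le_prod (fun i _ => (mu0_pos T (hs i)).le) fun i _ => (hL ι n T _ hT (hs i)).2
  have h2 : ∀ p, (if P p then ∏ i, T.gam (s i) (p i) else 0) =
      (if P p then ws T s p else 0) * ∏ i, T.mu0 (s i) := fun p => by
    split_ifs
    · rw [ws, Finset.prod_div_distrib, div_mul_cancel₀ _ hm.ne']
    · rw [zero_mul]
  unfold MT.prb
  rw [div_le_iff₀ (hm.trans_le hr)]
  simp only [h2]
  rw [tsum_mul_right]
  exact mul_le_mul h1 hr hm.le hη

open Classical in
/-- Markov -/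
theorem markov (hL : LatFact) (T : MT ι (n + 1)) (hT : T.Clean) {k : ℕ} {s : Fin k → ℝ}
    (hs : ∀ i, 0 < s i) {G : (Fin k → T.C0 → ℤ) → ℝ≥0∞} {a : ℝ≥0∞} (ha : a ≠ ⊤) {δ η : ℝ}
    (hδ : 0 < δ) (hη : 0 ≤ η) (P : (Fin k → T.C0 → ℤ) → Prop) (hG : ∀ p, a ≤ G p)
    (hP : ∀ p, P p → a + ENNReal.ofReal δ ≤ G p) (h : EE T s G ≤ a + ENNReal.ofReal (δ * η)) :
    T.prb s P ≤ η := by
  refine prb_le hL T hT hs P hη ?_
  have h1 : (∑' p, ENNReal.ofReal (ws T s p)) * a + ENNReal.ofReal δ *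
      ∑' p, ENNReal.ofReal (if P p then ws T s p else 0) ≤ EE T s G := by
    rw [← ENNReal.tsum_mul_right, ← ENNReal.tsum_mul_left, ← ENNReal.tsum_add]
    refine ENNReal.tsum_le_tsum fun p => ?_
    split_ifs with hp
    · rw [mul_comm (ENNReal.ofReal δ), ← mul_add]
      gcongr
      exact hP p hp
    · rw [ENNReal.ofReal_zero, mul_zero, add_zero]
      gcongr
      exact hG p
  have h2 : a + ENNReal.ofReal δ * ∑' p, ENNReal.ofReal (if P p then ws T s p else 0) ≤
      a + ENNReal.ofReal δ * ENNReal.ofReal η := by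
    rw [← ENNReal.ofReal_mul hδ.le]
    refine le_trans ?_ (h1.trans h)
    gcongr
    exact le_mul_of_one_le_left' (one_le_EE hL T hT hs)
  rw [ENNReal.add_le_add_iff_left ha] at h2
  exact (ENNReal.mul_le_mul_iff_right (ENNReal.ofReal_pos.2 hδ).ne' ENNReal.ofReal_ne_top).1 h2

/-- the sum of the iterated mass ratios over all patterns -/
def AA (lam : ℝ) : (n : ℕ) → {ι : Type} → [Fintype ι] → MT ι n → ℝ≥0∞
  | 0, _, _, _ => 1
  | n + 1, _, _, T =>
      EE T (Fin.elim0 : Fin 0 → ℝ) (fun p => AA lam n (T.step (Fin.elim0 : Fin 0 → ℝ) p)) +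
      EE T (fun _ : Fin 1 => 1) (fun p => AA lam n (T.step (fun _ : Fin 1 => 1) p)) +
      EE T (fun _ : Fin 1 => lam) (fun p => AA lam n (T.step (fun _ : Fin 1 => lam) p)) +
      EE T (sc5 lam) (fun p => AA lam n (T.step (sc5 lam) p))

theorem sc5_pos (lam : ℝ) (i : Fin 5) : 0 < sc5 lam i :=
  inv_pos.2 (Real.sqrt_pos.2 two_pos)

omit [Fintype ι] in
theorem step_clean (T : MT ι (n + 1)) {k : ℕ} (s : Fin k → ℝ) (p : Fin k → T.C0 → ℤ) :
    (T.step s p).Clean := spec_clean _ _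

theorem le_AA (hL : LatFact) {lam : ℝ} (hl : 0 < lam) (n : ℕ) :
    ∀ {ι : Type} [Fintype ι] (T : MT ι n), T.Clean → 4 ^ n ≤ AA lam n T := by
  induction n with
  | zero => intro ι _ T _; simp [AA]
  | succ n ih =>
    intro ι _ T hT
    have h1 := le_EE hL T hT (s := (Fin.elim0 : Fin 0 → ℝ)) (fun i => i.elim0)
      fun p => ih _ (step_clean T (Fin.elim0 : Fin 0 → ℝ) p)
    have h2 := le_EE hL T hT (s := fun _ : Fin 1 => 1) (fun _ => one_pos)
      fun p => ih _ (step_clean T (fun _ : Fin 1 => 1) p)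
    have h3 := le_EE hL T hT (s := fun _ : Fin 1 => lam) (fun _ => hl)
      fun p => ih _ (step_clean T (fun _ : Fin 1 => lam) p)
    have h4 := le_EE hL T hT (sc5_pos lam) fun p => ih _ (step_clean T (sc5 lam) p)
    calc (4 : ℝ≥0∞) ^ (n + 1) = 4 ^ n + 4 ^ n + 4 ^ n + 4 ^ n := by ring
      _ ≤ _ := add_le_add (add_le_add (add_le_add h1 h2) h3) h4

theorem four_split {a b c d x e : ℝ≥0∞} (hx : x ≠ ⊤) (ha : x ≤ a) (hb : x ≤ b) (hc : x ≤ c)
    (hd : x ≤ d) (h : a + b + c + d ≤ x * 4 + e) :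
    a ≤ x + e ∧ b ≤ x + e ∧ c ≤ x + e ∧ d ≤ x + e := by
  have h3 : x + x + x ≠ ⊤ := by simp [hx]
  have key : ∀ u, u + (x + x + x) ≤ a + b + c + d → u ≤ x + e := fun u hu => by
    refine (ENNReal.add_le_add_iff_right h3).1 (hu.trans (h.trans (le_of_eq ?_)))
    ring
  refine ⟨key a ?_, key b ?_, key c ?_, key d ?_⟩
  · calc a + (x + x + x) ≤ a + (b + c + d) := by gcongr
      _ = _ := by ring
  · calc b + (x + x + x) ≤ b + (a + c + d) := by gcongr
      _ = _ := by ring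
  · calc c + (x + x + x) ≤ c + (a + b + d) := by gcongr
      _ = _ := by ring
  · calc d + (x + x + x) ≤ d + (a + b + c) := by gcongr
      _ = _ := by ring

theorem good_of_AA (hL : LatFact) {η lam : ℝ} (hl : 0 < lam) (hη : 0 < η) (hη1 : η ≤ 1) (n : ℕ) :
    ∀ {ι : Type} [Fintype ι] (T : MT ι n), T.Clean →
      AA lam n T ≤ 4 ^ n + ENNReal.ofReal (η ^ n) → Good η lam n T := by
  induction n with
  | zero => intro ι _ T _ _; trivial
  | succ n ih =>
    intro ι _ T hT h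
    have h1 := le_EE hL T hT (s := (Fin.elim0 : Fin 0 → ℝ)) (fun i => i.elim0)
      fun p => le_AA hL hl n _ (step_clean T (Fin.elim0 : Fin 0 → ℝ) p)
    have h2 := le_EE hL T hT (s := fun _ : Fin 1 => 1) (fun _ => one_pos)
      fun p => le_AA hL hl n _ (step_clean T (fun _ : Fin 1 => 1) p)
    have h3 := le_EE hL T hT (s := fun _ : Fin 1 => lam) (fun _ => hl)
      fun p => le_AA hL hl n _ (step_clean T (fun _ : Fin 1 => lam) p)
    have h4 := le_EE hL T hT (sc5_pos lam)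
      fun p => le_AA hL hl n _ (step_clean T (sc5 lam) p)
    have hx : (4 : ℝ≥0∞) ^ n ≠ ⊤ := ENNReal.pow_ne_top (by simp)
    rw [pow_succ (4 : ℝ≥0∞), pow_succ η] at h
    obtain ⟨g1, g2, g3, g4⟩ := four_split hx h1 h2 h3 h4 h
    have hn : η ^ n * η ≤ η ^ n := mul_le_of_le_one_right (pow_pos hη n).le hη1
    refine ⟨?_, ?_, ?_, ?_⟩
    · have g : (∑' p, ENNReal.ofReal (ws T (fun _ : Fin 1 => lam) p)) * 4 ^ n ≤
          4 ^ n + ENNReal.ofReal (η ^ n * η) := by
        refine le_trans ?_ g3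
        rw [← ENNReal.tsum_mul_right]
        refine ENNReal.tsum_le_tsum fun p => ?_
        gcongr
        exact le_AA hL hl n _ (step_clean T _ p)
      rw [EE_one T (fun _ => hl) fun _ => (hL ι n T _ hT hl).1, Fin.prod_univ_one] at g
      have g' : ENNReal.ofReal (T.rho0 lam / T.mu0 lam) * 4 ^ n ≤
          ENNReal.ofReal (1 + η) * 4 ^ n := by
        refine g.trans ?_
        rw [ENNReal.ofReal_add zero_le_one hη.le, ENNReal.ofReal_one, add_mul, one_mul]
        gcongr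
        refine le_trans (ENNReal.ofReal_le_ofReal
          (mul_le_of_le_one_left hη.le (pow_le_one₀ hη.le hη1))) ?_
        exact le_mul_of_one_le_right' (one_le_pow₀ (by norm_num))
      rw [ENNReal.mul_le_mul_iff_left (pow_ne_zero _ (by norm_num)) hx,
        ENNReal.ofReal_le_ofReal_iff (by positivity), div_le_iff₀ (mu0_pos T hl)] at g'
      exact g'
    · refine ih _ (step_clean T _ _) (le_trans ?_ (g1.trans (by gcongr)))
      refine le_EE hL T hT (fun i => i.elim0) fun p => le_of_eq ?_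
      rw [Subsingleton.elim p Fin.elim0]
    · exact markov hL T hT (fun _ => one_pos) hx (pow_pos hη n) hη.le _
        (fun p => le_AA hL hl n _ (step_clean T _ p))
        (fun p hp => le_of_not_ge fun hh => hp (ih _ (step_clean T _ p) hh)) g2
    · exact markov hL T hT (sc5_pos lam) hx (pow_pos hη n) hη.le _
        (fun p => le_AA hL hl n _ (step_clean T _ p))
        (fun p hp => le_of_not_ge fun hh => hp (ih _ (step_clean T _ p) hh)) g4

end Crest.Agent.T49.Tw.Cert66
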