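import Crest.Agent.T49.TwDblDef_4

/-!
# Row 49: pull-back of relations along substitutions (helper4)

`Cell.Cov T T' K`: every non-zero vector on `T'` is detected by an integer substitution that maps
top windows to combinations of top windows.  `Cell.Cov.regAt`, `Cell.Cov.der`.
-/

set_option autoImplicit false
set_option linter.unusedSectionVars false

open MvPolynomial

namespace Crest.Agent.T49.Tw

namespace Ch4
variable {ι κ : Type}

theorem isInt_iff (f : Pl ι) :
    IsInt f ↔ f ∈ (MvPolynomial.map (Int.castRingHom ℝ) : MvPolynomial ι ℤ →+* Pl ι).range := by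
  classical
  constructor
  · intro h
    choose n hn using h
    refine ⟨∑ m ∈ f.support, monomial m (n m), ?_⟩
    rw [map_sum]
    conv_rhs => rw [f.as_sum]
    refine Finset.sum_congr rfl fun m _ => ?_
    rw [map_monomial, hn m]
    rfl
  · rintro ⟨g, rfl⟩ m
    exact ⟨coeff m g, by rw [coeff_map]; rfl⟩

theorem isInt_add {f g : Pl ι} (hf : IsInt f) (hg : IsInt g) : IsInt (f + g) := by
  rw [isInt_iff] at *; exact add_mem hf hg

theorem isInt_mul {f g : Pl ι} (hf : IsInt f) (hg : IsInt g) : IsInt (f * g) := by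
  rw [isInt_iff] at *; exact mul_mem hf hg

theorem isInt_C (n : ℤ) : IsInt (C (n : ℝ) : Pl ι) := by
  rw [isInt_iff]; exact ⟨C n, by simp⟩

theorem isInt_X (c : ι) : IsInt (X c : Pl ι) := by
  rw [isInt_iff]; exact ⟨X c, by simp⟩

theorem isInt_bind {g : ι → Pl κ} (hg : ∀ c, IsInt (g c)) {f : Pl ι} (hf : IsInt f) :
    IsInt (bind₁ g f) := by
  rw [isInt_iff] at hf
  obtain ⟨p, rfl⟩ := hf
  induction p using MvPolynomial.induction_on with
  | C a => simpa using isInt_C a
  | add p q hp hq => simpa using isInt_add hp hq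
  | mul_X p i hp => simpa using isInt_mul hp (hg i)

theorem isInt_top (w : ι → ℕ) (d : ℕ) {f : Pl ι} (hf : IsInt f) :
    IsInt (weightedHomogeneousComponent w d f) := by
  intro m
  rw [coeff_weightedHomogeneousComponent]
  split_ifs
  · exact hf m
  · exact ⟨0, by simp⟩

theorem nrm_nonneg (f : Pl ι) : 0 ≤ nrm f := Finset.sum_nonneg fun _ _ => abs_nonneg _

theorem nrm_eq_of_subset {f : Pl ι} {s : Finset (ι →₀ ℕ)} (h : f.support ⊆ s) :
    nrm f = ∑ m ∈ s, |coeff m f| :=
  Finset.sum_subset h fun m _ hm => by rw [notMem_support_iff.1 hm, abs_zero]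

theorem nrm_add_le (f g : Pl ι) : nrm (f + g) ≤ nrm f + nrm g := by
  classical
  rw [nrm_eq_of_subset (f := f + g) support_add,
    nrm_eq_of_subset (f := f) (s := f.support ∪ g.support) Finset.subset_union_left,
    nrm_eq_of_subset (f := g) (s := f.support ∪ g.support) Finset.subset_union_right,
    ← Finset.sum_add_distrib]
  exact Finset.sum_le_sum fun m _ => by rw [coeff_add]; exact abs_add_le _ _

theorem nrm_zero : nrm (0 : Pl ι) = 0 := by simp [nrm]

theorem nrm_sum_le {α : Type} (s : Finset α) (f : α → Pl ι) :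
    nrm (∑ a ∈ s, f a) ≤ ∑ a ∈ s, nrm (f a) := by
  classical
  induction s using Finset.induction_on with
  | empty => simp [nrm_zero]
  | insert a s ha ih =>
    rw [Finset.sum_insert ha, Finset.sum_insert ha]
    exact (nrm_add_le _ _).trans (by linarith)

theorem nrm_monomial (m : ι →₀ ℕ) (r : ℝ) : nrm (monomial m r : Pl ι) = |r| := by
  classical
  rw [nrm_eq_of_subset (s := {m}) support_monomial_subset]
  simp

theorem nrm_mul_le (f g : Pl ι) : nrm (f * g) ≤ nrm f * nrm g := by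
  classical
  conv_lhs => rw [f.as_sum, g.as_sum, Finset.sum_mul_sum]
  refine (nrm_sum_le _ _).trans ?_
  rw [nrm, nrm, Finset.sum_mul_sum]
  refine Finset.sum_le_sum fun a _ => (nrm_sum_le _ _).trans (Finset.sum_le_sum fun b _ => ?_)
  rw [monomial_mul, nrm_monomial, abs_mul]

theorem nrm_C (r : ℝ) : nrm (C r : Pl ι) = |r| := nrm_monomial 0 r

theorem nrm_X (c : ι) : nrm (X c : Pl ι) = 1 := by
  rw [X, nrm_monomial, abs_one]

theorem nrm_pow_le {f : Pl ι} {K : ℝ} (h : nrm f ≤ K) (k : ℕ) : nrm (f ^ k) ≤ K ^ k := by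
  induction k with
  | zero => simpa using (nrm_C (ι := ι) 1).le
  | succ k ih =>
    rw [pow_succ, pow_succ]
    exact (nrm_mul_le _ _).trans
      (mul_le_mul ih h (nrm_nonneg _) (pow_nonneg ((nrm_nonneg _).trans h) _))

theorem nrm_bind_le {g : ι → Pl κ} {K : ℝ} (hK : 1 ≤ K) (hg : ∀ c, nrm (g c) ≤ K) {f : Pl ι}
    {w : ι → ℕ} (hw : ∀ c, 0 < w c) {d : ℕ} (hf : DegLe w f d) :
    nrm (bind₁ g f) ≤ nrm f * K ^ d := by
  classical
  conv_lhs => rw [f.as_sum, map_sum]
  refine (nrm_sum_le _ _).trans ?_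
  rw [nrm, Finset.sum_mul]
  refine Finset.sum_le_sum fun m hm => ?_
  rw [bind₁_monomial]
  refine (nrm_mul_le _ _).trans ?_
  rw [nrm_C]
  refine mul_le_mul_of_nonneg_left ?_ (abs_nonneg _)
  have h1 : ∀ s : Finset ι, nrm (∏ i ∈ s, g i ^ m i) ≤ K ^ (∑ i ∈ s, m i) := by
    intro s
    induction s using Finset.induction_on with
    | empty => simpa using (nrm_C (ι := κ) 1).le
    | insert i s hi ih =>
      rw [Finset.prod_insert hi, Finset.sum_insert hi, pow_add]
      exact (nrm_mul_le _ _).trans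
        (mul_le_mul (nrm_pow_le (hg i) _) ih (nrm_nonneg _) (by positivity))
  refine (h1 _).trans (pow_le_pow_right₀ hK (le_trans ?_ (hf m hm)))
  rw [Finsupp.weight_apply, Finsupp.sum]
  exact Finset.sum_le_sum fun i _ => by
    simpa using Nat.le_mul_of_pos_right (m i) (hw i)

theorem hom_degLe {w : ι → ℕ} {f : Pl ι} {d : ℕ} (h : IsWeightedHomogeneous w f d) :
    DegLe w f d := fun _ hm => (h (mem_support_iff.1 hm)).le

/-- homogeneous components commute with homogeneous substitutions -/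
theorem top_bind {w : ι → ℕ} {w' : κ → ℕ} {g : ι → Pl κ}
    (hg : ∀ c, IsWeightedHomogeneous w' (g c) (w c)) (d : ℕ) (f : Pl ι) :
    weightedHomogeneousComponent w' d (bind₁ g f) =
      bind₁ g (weightedHomogeneousComponent w d f) := by
  classical
  induction f using MvPolynomial.induction_on' with
  | monomial m r =>
    have h1 : IsWeightedHomogeneous w (monomial m r : Pl ι) (Finsupp.weight w m) :=
      isWeightedHomogeneous_monomial _ _ _ rfl
    have h2 := hom_bind (AddMonoidHom.id ℕ) hg h1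
    rw [weightedHomogeneousComponent_of_mem ((mem_weightedHomogeneousSubmodule _ _ _ _).2 h1),
      weightedHomogeneousComponent_of_mem ((mem_weightedHomogeneousSubmodule _ _ _ _).2 h2)]
    simp only [AddMonoidHom.id_apply]
    split_ifs <;> simp
  | add p q hp hq => simp only [map_add, hp, hq]

theorem top_C_mul (w : ι → ℕ) (d : ℕ) (r : ℝ) (f : Pl ι) :
    weightedHomogeneousComponent w d (C r * f) = C r * weightedHomogeneousComponent w d f :=
  weightedHomogeneousComponent_C_mul _ _ _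

theorem coeff_single_mul (c : ι) (f g : Pl ι) :
    coeff (Finsupp.single c 1) (f * g) =
      coeff (Finsupp.single c 1) f * coeff 0 g + coeff 0 f * coeff (Finsupp.single c 1) g := by
  have h : ∀ p : Pl ι, coeff (Finsupp.single c 1) p = constantCoeff (pderiv c p) := by
    intro p
    rw [constantCoeff_eq, coeff_pderiv]
    simp
  rw [h, h, h, pderiv_mul, map_add, map_mul, map_mul, constantCoeff_eq]

theorem coeff_zero_bind {g : ι → Pl κ} (hg : ∀ c, coeff 0 (g c) = 0) (f : Pl ι) :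
    coeff 0 (bind₁ g f) = coeff 0 f := by
  induction f using MvPolynomial.induction_on with
  | C a => simp
  | add p q hp hq => simp only [map_add, coeff_add, hp, hq]
  | mul_X p i _ =>
    have h1 : ∀ {σ : Type} (a b : Pl σ), coeff 0 (a * b) = coeff 0 a * coeff 0 b := by
      intro σ a b
      rw [← constantCoeff_eq, map_mul]
    rw [map_mul, bind₁_X_right, h1, h1, hg, coeff_zero_X, mul_zero, mul_zero]

theorem coeff_single_bind [Fintype ι] {g : ι → Pl κ} (hg : ∀ c, coeff 0 (g c) = 0) (f : Pl ι)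
    (k : κ) : coeff (Finsupp.single k 1) (bind₁ g f) =
      ∑ c, coeff (Finsupp.single c 1) f * coeff (Finsupp.single k 1) (g c) := by
  classical
  induction f using MvPolynomial.induction_on with
  | C a =>
    have h : ∀ {σ : Type} (c : σ), coeff (Finsupp.single c 1) (C a : Pl σ) = 0 := by
      intro σ c
      rw [coeff_C, if_neg]
      exact fun h => by simpa using (Finsupp.single_eq_zero.1 h.symm)
    simp [h]
  | add p q hp hq => simp only [map_add, coeff_add, hp, hq, add_mul, Finset.sum_add_distrib]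
  | mul_X p i _ =>
    rw [map_mul, bind₁_X_right, coeff_single_mul, hg, mul_zero, zero_add, coeff_zero_bind hg,
      Finset.sum_eq_single i]
    · rw [coeff_single_mul]
      simp
    · intro c _ hc
      rw [coeff_single_mul, coeff_zero_X, coeff_X, if_neg]
      · simp
      · intro h
        exact hc ((Finsupp.single_left_inj one_ne_zero).1 h).symm
    · simp

theorem coeff_zero_hom {w : ι → ℕ} {f : Pl ι} {d : ℕ} (h : IsWeightedHomogeneous w f d)
    (hd : 0 < d) : coeff 0 f = 0 :=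
  h.coeff_eq_zero _ (by simpa using hd.ne)

theorem tth_hom (T : Cell ι) (c : ι) : IsWeightedHomogeneous T.lev (T.tth c) (T.lev c) :=
  weightedHomogeneousComponent_isWeightedHomogeneous _ _

end Ch4

open Ch4

namespace Cell
variable {ι ι' : Type} [Fintype ι] [Fintype ι']

/-- one admissible substitution: `σ` on the coordinates, `μ` on the top windows -/
structure Sub (T : Cell ι) (T' : Cell ι') (K : ℝ) (σ : ι' → Pl ι) (μ : ι' → ι → ℝ) : Prop where
  int : ∀ c', IsInt (σ c')
  hom : ∀ c', IsWeightedHomogeneous T.lev (σ c') (T'.lev c')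
  lev : ∀ c' c, μ c' c ≠ 0 → T.lev c = T'.lev c'
  bdd : ∀ c', ∑ c, |μ c' c| ≤ K
  tth : ∀ c', bind₁ σ (T'.tth c') = ∑ c, C (μ c' c) * T.tth c

/-- `T'` covers `T` -/
def Cov (T : Cell ι) (T' : Cell ι') (K : ℝ) : Prop :=
  ∀ ξ : ι' → ℝ, ξ ≠ 0 → ∃ σ μ, T.Sub T' K σ μ ∧ ∃ c, ∑ c', ξ c' * μ c' c ≠ 0

variable {T : Cell ι} {T' : Cell ι'} {K : ℝ} {σ : ι' → Pl ι} {μ : ι' → ι → ℝ}

/-- the induced substitution on real forms in the windows -/
noncomputable def pushE (μ : ι' → ι → ℝ) : Pl ι' →ₐ[ℝ] Pl ι :=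
  bind₁ fun c' => ∑ c, C (μ c' c) * X c

theorem Sub.bind_TTh (h : T.Sub T' K σ μ) (e : Pl ι') :
    bind₁ σ (T'.TTh e) = T.TTh (pushE μ e) := by
  rw [TTh, TTh, pushE, bind₁_bind₁, bind₁_bind₁]
  congr 2
  funext c'
  rw [h.tth, map_sum]
  simp

theorem Sub.lin_hom (h : T.Sub T' K σ μ) (c' : ι') :
    IsWeightedHomogeneous T.lev (∑ c, C (μ c' c) * X c : Pl ι) (T'.lev c') := by
  refine IsWeightedHomogeneous.sum _ _ _ fun c _ => ?_
  by_cases h0 : μ c' c = 0
  · rw [h0, C_0, zero_mul]; exact isWeightedHomogeneous_zero _ _ _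
  · have := (isWeightedHomogeneous_C T.lev (μ c' c)).mul (isWeightedHomogeneous_X ℝ T.lev c)
    rwa [zero_add, h.lev c' c h0] at this

theorem Sub.pushE_hom (h : T.Sub T' K σ μ) {e : Pl ι'} {d : ℕ}
    (he : IsWeightedHomogeneous T'.lev e d) : IsWeightedHomogeneous T.lev (pushE μ e) d :=
  hom_bind (AddMonoidHom.id ℕ) h.lin_hom he

theorem Sub.nrm_pushE (h : T.Sub T' K σ μ) (hK : 1 ≤ K) {e : Pl ι'} {d : ℕ}
    (he : IsWeightedHomogeneous T'.lev e d) : nrm (pushE μ e) ≤ nrm e * K ^ d := by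
  refine nrm_bind_le hK (fun c' => (nrm_sum_le _ _).trans (le_trans ?_ (h.bdd c'))) T'.lev_pos
    (hom_degLe he)
  refine Finset.sum_le_sum fun c _ => (nrm_mul_le _ _).trans ?_
  rw [nrm_C, nrm_X, mul_one]

theorem Sub.pushE_mem (h : T.Sub T' K σ μ) {e : Pl ι'} {l : ℕ}
    (he : e ∈ supported ℝ {c | T'.lev c < l}) : pushE μ e ∈ supported ℝ {c | T.lev c < l} := by
  refine bind_mem_supported (fun c' hc' => sum_mem fun c _ => ?_) he
  by_cases h0 : μ c' c = 0
  · rw [h0, C_0, zero_mul]; exact zero_mem _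
  · refine mul_mem (C_mem_supp _ _) (X_mem_supp ?_)
    show T.lev c < l
    rw [h.lev c' c h0]; exact hc'

theorem Sub.bind_dotT (h : T.Sub T' K σ μ) (ξ : ι' → ℝ) :
    bind₁ σ (T'.dotT ξ) = T.dotT fun c => ∑ c', ξ c' * μ c' c := by
  simp only [dotT, map_sum, map_mul, bind₁_C_right, h.tth, Finset.mul_sum, Finset.sum_mul]
  rw [Finset.sum_comm]
  simp only [mul_assoc]

theorem Sub.dual (h : T.Sub T' K σ μ) {ξ : ι' → ℝ} {l : ℕ} (hξ : T'.Dual l ξ) :
    T.Dual l fun c => ∑ c', ξ c' * μ c' c := by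
  refine ⟨fun c hc => Finset.sum_eq_zero fun c' _ => ?_, fun c hc => ?_⟩
  · by_cases h0 : μ c' c = 0
    · rw [h0, mul_zero]
    · rw [hξ.1 c' (by rw [← h.lev c' c h0]; exact hc), zero_mul]
  · rw [← h.bind_dotT, coeff_single_bind fun c' => coeff_zero_hom (h.hom c') (T'.lev_pos c')]
    have : ∀ c', ∃ n : ℤ, coeff (Finsupp.single c' 1) (T'.dotT ξ) *
        coeff (Finsupp.single c 1) (σ c') = n := by
      intro c'
      by_cases h1 : T'.lev c' = l
      · obtain ⟨a, ha⟩ := hξ.2 c' h1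
        obtain ⟨b, hb⟩ := h.int c' (Finsupp.single c 1)
        exact ⟨a * b, by rw [ha, hb, Int.cast_mul]⟩
      · refine ⟨0, ?_⟩
        rw [(h.hom c').coeff_eq_zero _ (by
          rw [Finsupp.weight_single, one_smul, hc]; exact fun h => h1 h.symm)]
        simp
    choose n hn using this
    exact ⟨∑ c', n c', by simp [hn]⟩

theorem Sub.sum_abs_le (h : T.Sub T' K σ μ) (ξ : ι' → ℝ) :
    ∑ c, |∑ c', ξ c' * μ c' c| ≤ (∑ c', |ξ c'|) * K := by
  calc ∑ c, |∑ c', ξ c' * μ c' c| ≤ ∑ c, ∑ c', |ξ c'| * |μ c' c| :=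
        Finset.sum_le_sum fun c _ => (Finset.abs_sum_le_sum_abs _ _).trans
          (Finset.sum_le_sum fun c' _ => (abs_mul _ _).le)
    _ = ∑ c', |ξ c'| * ∑ c, |μ c' c| := by rw [Finset.sum_comm]; simp only [Finset.mul_sum]
    _ ≤ _ := by
        rw [Finset.sum_mul]
        exact Finset.sum_le_sum fun c' _ => mul_le_mul_of_nonneg_left (h.bdd c') (abs_nonneg _)

/-- relations are pulled back along a cover -/
theorem Cov.regAt (h : T.Cov T' K) (hK : 1 ≤ K) {l : ℕ} (hl : ∀ c', T'.lev c' ≤ l) {x : ℝ}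
    (hx : K ^ (l + 1) ≤ Real.exp x) {j : ℕ} {H Λ : ℝ} (hR : T.RegAt j H Λ) :
    T'.RegAt j (H * Real.exp (-x)) (Λ * Real.exp (-x)) := by
  intro ξ b e hξ hH hb hbΛ he he' hn hI
  by_contra h0
  have hj : j ≤ l := by
    obtain ⟨c', hc'⟩ := Function.ne_iff.1 h0
    by_contra hj
    exact hc' (hξ.1 c' (by have := hl c'; omega))
  obtain ⟨σ, μ, hs, c, hc⟩ := h ξ h0
  have hx0 : 0 < Real.exp x := Real.exp_pos x
  have hK1 : K ≤ Real.exp x := le_trans (by simpa using pow_le_pow_right₀ hK (Nat.le_add_left 1 l)) hx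
  have hKj : K ^ j ≤ Real.exp x := le_trans (pow_le_pow_right₀ hK (by omega)) hx
  have key : ∀ {A u v : ℝ}, 0 ≤ u → u ≤ A * Real.exp (-x) → 0 ≤ v → v ≤ Real.exp x →
      u * v ≤ A := by
    intro A u v hu huA hv hvx
    calc u * v ≤ A * Real.exp (-x) * Real.exp x := mul_le_mul huA hvx hv (hu.trans huA)
      _ = A := by rw [mul_assoc, ← Real.exp_add]; simp
  have hξ0 := hR _ b (pushE μ e) (hs.dual hξ)
    ((hs.sum_abs_le ξ).trans (key (Finset.sum_nonneg fun _ _ => abs_nonneg _) hH (by linarith) hK1))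
    hb (by simpa using key (Nat.cast_nonneg b) hbΛ zero_le_one (hK.trans hK1)) (hs.pushE_hom he)
    (hs.pushE_mem he') ((hs.nrm_pushE hK he).trans (key (nrm_nonneg _) hn (by positivity) hKj))
    (by
      have := isInt_bind hs.int hI
      rwa [map_add, map_mul, bind₁_C_right, hs.bind_dotT, hs.bind_TTh] at this)
  exact hc (congrFun hξ0 c)

/-- a cover with controlled size is a derived cell -/
theorem Cov.der (h : T.Cov T' K) (hK : 1 ≤ K) {l : ℕ} (hl : ∀ c', T'.lev c' ≤ l) {x : ℝ}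
    (hx : K ^ (l + 1) ≤ Real.exp x) (h1 : ∀ c', ∃ c, T'.lev c' = T.lev c)
    (h2 : (Fintype.card ι' : ℝ) ≤ x * Fintype.card ι) (h3 : ∀ j, T'.kap j ≤ x * T.kap j) :
    T.Der x T' :=
  ⟨h1, h2, h3, fun _ _ _ hR => h.regAt hK hl hx hR⟩

end Cell

end Crest.Agent.T49.Tw
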