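import Crest.Agent.T49.TwCertB_66
import Crest.Agent.T49.TwCov_4
import Crest.Agent.T49.TwPoly_91
import Crest.Agent.T49.TwTri_51

/-!
# Row 49 (helper66): tower calculus, leaf CERT, part C: the total towers are derived cells
-/

set_option autoImplicit false

open MvPolynomial

noncomputable section

namespace Crest.Agent.T49.Tw.Cert66

open ENNReal

variable {ι ι0 : Type} {n : ℕ}

/-- a triangular system with homogeneous `B` as a cell -/
def cl (T : Tri ι) (lev : ι → ℕ) (h0 : ∀ c, 0 < lev c)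
    (h : ∀ c, IsWeightedHomogeneous lev (T.B c) (lev c)) : Cell ι where
  toTri := T
  lev := lev
  lev_pos := h0
  deg c := Ch4.hom_degLe (h c)

theorem th_hom {M : Type} [AddCommMonoid M] (T : Tri ι) {w : ι → M} {c : ι}
    (h : IsWeightedHomogeneous w (T.B c) (w c)) : IsWeightedHomogeneous w (T.th c) (w c) := by
  refine IsWeightedHomogeneous.add ?_ h
  have := (isWeightedHomogeneous_C w (T.a c)).mul (isWeightedHomogeneous_X ℝ w c)
  rwa [zero_add] at this

theorem cl_tth (T : Tri ι) (lev : ι → ℕ) (h0 : ∀ c, 0 < lev c)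
    (h : ∀ c, IsWeightedHomogeneous lev (T.B c) (lev c)) (c : ι) :
    (cl T lev h0 h).tth c = T.th c :=
  (th_hom T (h c)).weightedHomogeneousComponent_same

theorem regAt_mono [Fintype ι] {T : Cell ι} {j : ℕ} {H Λ x x' : ℝ} (hx : x ≤ x')
    (h : T.RegAt j (H * Real.exp (-x)) (Λ * Real.exp (-x))) :
    T.RegAt j (H * Real.exp (-x')) (Λ * Real.exp (-x')) := by
  intro ξ b e hξ hH hb hbΛ he he' hn hI
  have h1 : Real.exp (-x') ≤ Real.exp (-x) := Real.exp_le_exp.2 (neg_le_neg hx)
  have key : ∀ {t u : ℝ}, 0 ≤ t → t ≤ u * Real.exp (-x') → t ≤ u * Real.exp (-x) := by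
    intro t u ht htu
    have hu : 0 ≤ u := nonneg_of_mul_nonneg_left (ht.trans htu) (Real.exp_pos _)
    exact htu.trans (mul_le_mul_of_nonneg_left h1 hu)
  exact h ξ b e hξ (key (Finset.sum_nonneg fun _ _ => abs_nonneg _) hH) hb
    (key (Nat.cast_nonneg _) hbΛ) he he' (key (nrm_nonneg _) hn) hI

variable (T : MT ι (n + 1)) {k : ℕ}

/-- evaluation at slot `0` -/
def ev0 (n : ℕ) : (Fin (n + 1) → ℕ) →+ ℕ where
  toFun w := w 0
  map_zero' := rfl
  map_add' _ _ := rfl

theorem mem_supp0 {f : Pl ι} {d : Fin (n + 1) → ℕ} (hf : IsWeightedHomogeneous T.wt f d)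
    (hd : d 0 = 0) : f ∈ supported ℝ {c | T.wt c 0 = 0} := by
  have h1 : IsWeightedHomogeneous (fun c => T.wt c 0) (bind₁ X f) (d 0) :=
    hom_bind (ev0 n) (fun c => isWeightedHomogeneous_X ℝ (fun c => T.wt c 0) c) hf
  rw [bind₁_X_left, AlgHom.id_apply, hd] at h1
  exact supported_mono (fun c (hc : T.wt c 0 ≤ 0) => Nat.le_zero.1 hc)
    (Ch4.hom_degLe h1).mem_supported

theorem kill_eq_zero {κ : Type} {f : Pl ι} {d : Fin (n + 1) → ℕ}
    (hf : IsWeightedHomogeneous T.wt f d) (hd : d 0 ≠ 0) {g : ι → Pl κ}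
    (hg : ∀ c, T.wt c 0 ≠ 0 → g c = 0) : bind₁ g f = 0 := by
  have h1 : IsWeightedHomogeneous (fun _ : κ => (0 : ℕ)) (bind₁ g f) (d 0) := by
    refine hom_bind (ev0 n) (fun c => ?_) hf
    by_cases h : T.wt c 0 = 0
    · intro m _
      change _ = T.wt c 0
      simp [h, Finsupp.weight_apply, Finsupp.sum]
    · rw [hg c h]
      exact isWeightedHomogeneous_zero _ _ _
  ext m
  by_contra h
  have h2 := h1 h
  simp only [Finsupp.weight_apply, Finsupp.sum, smul_zero, Finset.sum_const_zero] at h2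
  exact hd h2.symm

theorem base_eq_rename (i : Fin k) {f : Pl ι} (hf : f ∈ supported ℝ {c | T.wt c 0 = 0}) :
    T.base k f = rename (T.cp i) f := by
  rw [rename_eq_bind]
  refine bind_congr_supp (fun c (hc : T.wt c 0 = 0) => ?_) hf
  rw [dif_pos hc, cp_pos T i hc]

/-- the factor with which a copy is rescaled -/
abbrev fc (s : Fin k → ℝ) (c : T.UT k) : ℝ := T.fac (fun i => if s i = 0 then 1 else s i) c

theorem unfold_a (s : Fin k → ℝ) (c : T.UT k) : (T.unfold s).a c = fc T s c * T.a (T.pr k c) := rfl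

theorem unfold_th_inl (s : Fin k → ℝ) (c : {c // T.wt c 0 = 0}) :
    (T.unfold s).th (Sum.inl c) = T.base k (T.th c.1) := by
  change C (1 * T.a c.1) * X (Sum.inl c) + C 1 * T.base k (T.B c.1) = _
  rw [Tri.th, map_add, map_mul (T.base k), base_X, dif_pos c.2, one_mul, C_1, one_mul]
  congr 2
  exact (bind₁_C_right _ _).symm

theorem unfold_th_inr (s : Fin k → ℝ) (c : {c // T.wt c 0 ≠ 0} × Fin k) :
    (T.unfold s).th (Sum.inr c) = C (fc T s (Sum.inr c)) * rename (T.cp c.2) (T.th c.1.1) := by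
  change C (fc T s (Sum.inr c) * T.a c.1.1) * X (Sum.inr c) +
    C (fc T s (Sum.inr c)) * rename (T.cp c.2) (T.B c.1.1) = _
  rw [Tri.th, map_add, map_mul (rename _), rename_C, rename_X, cp_neg T c.2 c.1.2, C_mul]
  ring

theorem fc_ne (s : Fin k → ℝ) (c : T.UT k) : fc T s c ≠ 0 :=
  T.fac_ne (fun i => by split_ifs with h <;> simp [h]) c

theorem abs_fc_le {s : Fin k → ℝ} {K : ℝ} (hK : 1 ≤ K) (hs : ∀ i, 0 < s i)
    (hsK : ∀ i, (s i)⁻¹ ≤ K) (c : T.UT k) : |fc T s c| ≤ K := by
  rcases c with c | c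
  · exact (abs_one (α := ℝ)).le.trans hK
  · change |if _ then _ else _| ≤ K
    split_ifs with h1
    · beta_reduce
      rw [if_neg (hs _).ne', abs_of_pos (inv_pos.2 (hs _))]
      exact hsK _
    · simpa using hK

theorem unfold_lev (s : Fin k → ℝ) {lev : ι → ℕ}
    (h : ∀ c, IsWeightedHomogeneous lev (T.B c) (lev c)) (c : T.UT k) :
    IsWeightedHomogeneous (fun c' => lev (T.pr k c')) ((T.unfold s).B c) (lev (T.pr k c)) := by
  have h1 : IsWeightedHomogeneous (fun c' => lev (T.pr k c')) (T.cpB k c) (lev (T.pr k c)) := by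
    rcases c with c | c
    · refine hom_bind (AddMonoidHom.id ℕ) (fun c' => ?_) (h c.1)
      split_ifs with h
      · exact isWeightedHomogeneous_X _ _ _
      · exact isWeightedHomogeneous_zero _ _ _
    · show IsWeightedHomogeneous _ (rename _ _) _
      rw [rename_eq_bind]
      refine hom_bind (AddMonoidHom.id ℕ) (fun c' => ?_) (h c.1.1)
      have := isWeightedHomogeneous_X ℝ (fun c' => lev (T.pr k c')) (T.cp c.2 c')
      rw [MT.pr_cp] at this
      exact this
  have := (isWeightedHomogeneous_C _ (fc T s c)).mul h1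
  rwa [zero_add] at this

/-- the coordinates that survive when only the copy `o` is kept -/
def keep (o : Option (Fin k)) : T.UT k → Prop
  | Sum.inl _ => True
  | Sum.inr c => some c.2 = o

theorem keep_inj {o : Option (Fin k)} {c c' : T.UT k} (h : keep T o c) (h' : keep T o c')
    (hp : T.pr k c = T.pr k c') : c = c' := by
  rcases c with c | c <;> rcases c' with c' | c'
  · exact congrArg _ (Subtype.ext hp)
  · exact absurd ((congrArg (fun x => T.wt x 0) hp).symm.trans c.2) c'.1.2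
  · exact absurd ((congrArg (fun x => T.wt x 0) hp).trans c'.2) c.1.2
  · exact congrArg _ (Prod.ext (Subtype.ext hp) (Option.some_injective _ (h.trans h'.symm)))

open Classical in
/-- the substitution that keeps only the copy `o` -/
def sg (o : Option (Fin k)) (c : T.UT k) : Pl ι := if keep T o c then X (T.pr k c) else 0

open Classical in
theorem sg_th (s : Fin k → ℝ) (o : Option (Fin k)) (c : T.UT k) :
    bind₁ (sg T o) ((T.unfold s).th c) =
      if keep T o c then C (fc T s c) * T.th (T.pr k c) else 0 := by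
  rcases c with c | c
  · rw [unfold_th_inl, if_pos (show keep T o (Sum.inl c) from trivial), MT.base, bind₁_bind₁]
    change _ = C 1 * T.th c.1
    rw [C_1, one_mul]
    refine (bind_congr_supp (g' := X) (fun c' (hc : T.wt c' 0 = 0) => ?_)
      (mem_supp0 T (th_hom T.toTri (T.hom c.1)) c.2)).trans (by simp)
    rw [dif_pos hc, bind₁_X_right, sg, if_pos (show keep T o (Sum.inl _) from trivial)]
    rfl
  · rw [unfold_th_inr, map_mul, bind₁_C_right, bind₁_rename]
    split_ifs with h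
    · congr 1
      have : sg T o ∘ T.cp c.2 = X := by
        funext c'
        rw [Function.comp_apply, sg, MT.pr_cp, if_pos]
        unfold MT.cp
        split_ifs
        · trivial
        · exact h
      rw [this]
      simp [MT.pr]
    · rw [kill_eq_zero T (th_hom T.toTri (T.hom c.1.1)) c.1.2, mul_zero]
      intro c' hc'
      rw [Function.comp_apply, cp_neg T c.2 hc', sg, if_neg]
      exact h

theorem cov_unfold [Fintype ι] {s : Fin k → ℝ} {K : ℝ} (hK : 1 ≤ K) (hs : ∀ i, 0 < s i)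
    (hsK : ∀ i, (s i)⁻¹ ≤ K) {lev : ι → ℕ} (h0 : ∀ c, 0 < lev c)
    (h : ∀ c, IsWeightedHomogeneous lev (T.B c) (lev c)) :
    (cl T.toTri lev h0 h).Cov
      (cl (T.unfold s).toTri (fun c => lev (T.pr k c)) (fun _ => h0 _) (unfold_lev T s h)) K := by
  classical
  intro ξ hξ
  obtain ⟨c0, hc0⟩ := Function.ne_iff.1 hξ
  obtain ⟨o, ho⟩ : ∃ o, keep T o c0 := by
    rcases c0 with c | c
    exacts [⟨none, trivial⟩, ⟨some c.2, rfl⟩]
  refine ⟨sg T o, fun c' c => if keep T o c' ∧ c = T.pr k c' then fc T s c' else 0,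
    ⟨fun c' => ?_, fun c' => ?_, fun c' c hc => ?_, fun c' => ?_, fun c' => ?_⟩, T.pr k c0, ?_⟩
  · unfold sg
    split_ifs
    · exact isInt_X _
    · exact fun _ => ⟨0, by simp⟩
  · unfold sg
    split_ifs
    · exact isWeightedHomogeneous_X _ _ _
    · exact isWeightedHomogeneous_zero _ _ _
  · have : keep T o c' ∧ c = T.pr k c' := by
      by_contra h1
      exact hc (if_neg h1)
    rw [this.2]
    rfl
  · rw [Finset.sum_eq_single (T.pr k c')]
    · split_ifs
      · exact abs_fc_le T hK hs hsK c'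
      · simpa using zero_le_one.trans hK
    · intro c _ hc
      rw [if_neg fun h1 => hc h1.2, abs_zero]
    · simp
  · rw [cl_tth, sg_th, Finset.sum_eq_single (T.pr k c')]
    · rw [cl_tth]
      by_cases h1 : keep T o c' <;> simp [h1]
    · intro c _ hc
      rw [if_neg fun h1 => hc h1.2, C_0, zero_mul]
    · simp
  · beta_reduce
    rw [Finset.sum_eq_single c0]
    · rw [if_pos ⟨ho, rfl⟩]
      exact mul_ne_zero hc0 (fc_ne T s c0)
    · intro c _ hc
      rw [if_neg fun h1 => hc (keep_inj T h1.1 ho h1.2.symm), mul_zero]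
    · simp

theorem sum_pr_le [Fintype ι] (hk : k ≤ 5) {f : ι → ℝ} (hf : ∀ c, 0 ≤ f c) :
    ∑ c : T.UT k, f (T.pr k c) ≤ 5 * ∑ c, f c := by
  rw [Fintype.sum_sum_type, Fintype.sum_prod_type,
    ← Fintype.sum_subtype_add_sum_subtype (fun c => T.wt c 0 = 0) f, mul_add]
  refine add_le_add ?_ ?_
  · have : 0 ≤ ∑ c : {c // T.wt c 0 = 0}, f c.1 := Finset.sum_nonneg fun c _ => hf _
    change ∑ c : {c // T.wt c 0 = 0}, f c.1 ≤ _
    linarith
  · rw [Finset.mul_sum]
    refine Finset.sum_le_sum fun c _ => ?_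
    change ∑ _i : Fin k, f c.1 ≤ _
    rw [Finset.sum_const, Finset.card_univ, Fintype.card_fin, nsmul_eq_mul]
    exact mul_le_mul_of_nonneg_right (by exact_mod_cast hk) (hf _)

/-- `T` lies over the cell `T0` after `a` unfolding steps -/
structure Ov [Fintype ι0] [Fintype ι] (T0 : Cell ι0) (l : ℕ) (y : ℝ) (a : ℕ) (T : MT ι n)
    (π : ι → ι0) : Prop where
  hom : ∀ c, IsWeightedHomogeneous (fun c => T0.lev (π c)) (T.B c) (T0.lev (π c))
  fib : ∀ f : ι0 → ℝ, (∀ c, 0 ≤ f c) → ∑ c, f (π c) ≤ 5 ^ a * ∑ c, f c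
  abs_le : ∀ c, |T.a c| ≤ Real.exp (a * y) * |T0.a (π c)|
  reg : ∀ j H Λ, T0.RegAt j H Λ →
    (cl T.toTri (fun c => T0.lev (π c)) (fun _ => T0.lev_pos _) hom).RegAt j
      (H * Real.exp (-(a * ((l + 1) * y)))) (Λ * Real.exp (-(a * ((l + 1) * y))))

variable [Fintype ι0] [Fintype ι] {T0 : Cell ι0} {l : ℕ} {y : ℝ} {a : ℕ} {π : ι → ι0}

theorem Ov.unfold {T : MT ι (n + 1)} (h : Ov T0 l y a T π) (hl : ∀ c, T0.lev c ≤ l) (hy : 0 ≤ y)
    (hk : k ≤ 5) {s : Fin k → ℝ} (hs : ∀ i, 0 < s i) (hsK : ∀ i, (s i)⁻¹ ≤ Real.exp y) :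
    Ov T0 l y (a + 1) (T.unfold s) fun c => π (T.pr k c) where
  hom := unfold_lev T s h.hom
  fib f hf := by
    refine (sum_pr_le T hk (f := fun c => f (π c)) fun _ => hf _).trans ?_
    rw [pow_succ', mul_assoc]
    exact mul_le_mul_of_nonneg_left (h.fib f hf) (by norm_num)
  abs_le c := by
    rw [unfold_a, abs_mul, Nat.cast_succ, add_mul, one_mul, add_comm _ y, Real.exp_add, mul_assoc]
    exact mul_le_mul (abs_fc_le T (Real.one_le_exp hy) hs hsK c) (h.abs_le _) (abs_nonneg _)
      (Real.exp_pos _).le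
  reg j H Λ hR := by
    have := (cov_unfold T (Real.one_le_exp hy) hs hsK (fun _ => T0.lev_pos _) h.hom).regAt
      (Real.one_le_exp hy) (l := l) (fun _ => hl _) (x := (l + 1) * y)
      (by rw [← Real.exp_nat_mul]; simp) (h.reg j H Λ hR)
    rw [mul_assoc, mul_assoc Λ, ← Real.exp_add] at this
    convert this using 3 <;> push_cast <;> ring

theorem Ov.der {T : MT ι n} (h : Ov T0 l y a T π) (hy : 2 ≤ y) {D : ℝ}
    (h1 : 5 ^ a * (a + 1) ≤ D) (h2 : a * (l + 1) ≤ D) :
    T0.Der (D * y) (cl T.toTri (fun c => T0.lev (π c)) (fun _ => T0.lev_pos _) h.hom) := by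
  classical
  have ha : (0 : ℝ) ≤ a := Nat.cast_nonneg a
  have h5 : (1 : ℝ) ≤ 5 ^ a := one_le_pow₀ (by norm_num)
  have h6 : 5 ^ a * (1 + a * y) ≤ D * y := by
    refine le_trans ?_ (mul_le_mul_of_nonneg_right h1 (by linarith))
    rw [mul_assoc]
    exact mul_le_mul_of_nonneg_left (by nlinarith) (by linarith)
  have h7 : 1 ≤ 1 + a * y := by nlinarith
  refine ⟨fun c => ⟨π c, rfl⟩, ?_, fun j => ?_, fun j H Λ hR => regAt_mono ?_ (h.reg j H Λ hR)⟩
  · have := h.fib (fun _ => 1) fun _ => zero_le_one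
    simp only [Finset.sum_const, Finset.card_univ, nsmul_eq_mul, mul_one] at this
    refine this.trans (mul_le_mul_of_nonneg_right (le_trans ?_ h6) (Nat.cast_nonneg _))
    exact le_mul_of_one_le_right (by linarith) h7
  · set f : ι0 → ℝ := fun c => if T0.lev c = j then 1 + Real.log (1 + |T0.a c|) else 0 with hf
    have hlog : ∀ c, 0 ≤ Real.log (1 + |T0.a c|) := fun c =>
      Real.log_nonneg (le_add_of_nonneg_right (abs_nonneg _))
    have hf0 : ∀ c, 0 ≤ f c := fun c => by
      simp only [hf]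
      split_ifs
      · linarith [hlog c]
      · exact le_rfl
    have e0 : T0.kap j = 1 + ∑ c, f c := by rw [Cell.kap, Finset.sum_filter]
    have e1 : (cl T.toTri (fun c => T0.lev (π c)) (fun _ => T0.lev_pos _) h.hom).kap j ≤
        1 + (1 + a * y) * ∑ c, f (π c) := by
      rw [Cell.kap, Finset.sum_filter, Finset.mul_sum]
      refine add_le_add le_rfl (Finset.sum_le_sum fun c _ => ?_)
      change (if T0.lev (π c) = j then 1 + Real.log (1 + |T.a c|) else 0) ≤ _
      simp only [hf]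
      split_ifs
      · have e2 : Real.log (1 + |T.a c|) ≤ a * y + Real.log (1 + |T0.a (π c)|) := by
          rw [← Real.log_exp (a * y), ← Real.log_mul (Real.exp_pos _).ne' (by positivity)]
          refine Real.log_le_log (by positivity) ?_
          have := Real.one_le_exp (show 0 ≤ a * y by nlinarith)
          linarith [h.abs_le c]
        nlinarith [hlog (π c), mul_nonneg (show 0 ≤ a * y by nlinarith) (hlog (π c))]
      · simp
    have e3 := h.fib f hf0
    have e4 : 0 ≤ ∑ c, f c := Finset.sum_nonneg fun c _ => hf0 c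
    have e5 : (1 + a * y) * ∑ c, f (π c) ≤ D * y * ∑ c, f c := by
      refine (mul_le_mul_of_nonneg_left e3 (by linarith)).trans ?_
      rw [← mul_assoc, mul_comm (1 + a * y)]
      exact mul_le_mul_of_nonneg_right h6 e4
    have e6 : 1 ≤ D * y := le_trans (one_le_mul_of_one_le_of_one_le h5 h7) h6
    rw [e0]
    linarith
  · rw [← mul_assoc]
    exact mul_le_mul_of_nonneg_right h2 (by linarith)

end Crest.Agent.T49.Tw.Cert66
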