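import Crest.Agent.T49.TwChainF_4

/-!
# Row 49: the chain statement with explicit diagonal covers (helper4)

All cells that occur in the Weyl differencing of a cell `T` are diagonal covers `DC` of `T` along
an explicit projection, and they inherit every property `Q` that is stable under freezing and
doubling.
-/

set_option autoImplicit false
set_option linter.unusedSectionVars false

open MvPolynomial

namespace Crest.Agent.T49.Tw

open Ch4

open Classical in
/-- complexity of the coordinates in `p` -/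
noncomputable def Tri.kp {ι : Type} [Fintype ι] (T : Tri ι) (p : ι → Prop) : ℝ :=
  ∑ c, if p c then 1 + Real.log (1 + |T.a c|) else 0

namespace Tri
variable {ι : Type} [Fintype ι]

open Classical in
theorem kp_term_nonneg (T : Tri ι) (p : ι → Prop) (c : ι) :
    0 ≤ if p c then 1 + Real.log (1 + |T.a c|) else 0 := by
  split_ifs
  · have := Real.log_nonneg (show 1 ≤ 1 + |T.a c| by linarith [abs_nonneg (T.a c)])
    linarith
  · exact le_rfl

theorem kp_nonneg (T : Tri ι) (p : ι → Prop) : 0 ≤ T.kp p :=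
  Finset.sum_nonneg fun c _ => T.kp_term_nonneg p c

theorem frz_kp_le (T : Tri ι) (q : ι → Prop) [DecidablePred q] (p : ι → Prop) :
    (T.frz q).kp (fun c => p c.1) ≤ T.kp p :=
  Cell.sum_sub_le q (T.kp_term_nonneg p)

theorem dbl_kp_le (T : Tri ι) (q : ι → Prop) [DecidablePred q] (p : ι → Prop) :
    (T.dbl q).kp (fun c => p (Sum.elim id Subtype.val c)) ≤ 3 * T.kp p := by
  classical
  have h2 : (1 : ℝ) ≤ √2 := Real.one_le_sqrt.2 (by norm_num)
  have h2' : (√2 : ℝ) ≤ 2 := Real.sqrt_le_iff.2 ⟨by norm_num, by norm_num⟩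
  rw [kp, kp, Fintype.sum_sum_type]
  have hA : ∑ c : ι, (if p (Sum.elim id (Subtype.val : {c // ¬ q c} → ι) (Sum.inl c)) then
      1 + Real.log (1 + |(T.dbl q).a (Sum.inl c)|) else 0) ≤
      ∑ c, 2 * (if p c then 1 + Real.log (1 + |T.a c|) else 0) := by
    refine Finset.sum_le_sum fun c _ => ?_
    have h0 := abs_nonneg (T.a c)
    have hl := Real.log_nonneg (show 1 ≤ 1 + |T.a c| by linarith)
    have ha : |(T.dbl q).a (Sum.inl c)| ≤ 2 * |T.a c| := by
      by_cases h : q c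
      · rw [Tri.dbl_a_fr _ h]; linarith
      · rw [Tri.dbl_a_live _ h, abs_mul, abs_of_nonneg (by linarith : (0 : ℝ) ≤ √2)]
        exact mul_le_mul_of_nonneg_right h2' h0
    have h3 : Real.log (1 + |(T.dbl q).a (Sum.inl c)|) ≤ Real.log (2 * (1 + |T.a c|)) :=
      Real.log_le_log (by positivity) (by linarith)
    rw [Real.log_mul (by norm_num) (by positivity)] at h3
    have h4 : Real.log 2 ≤ 1 := by
      linarith [Real.log_le_sub_one_of_pos (show (0 : ℝ) < 2 by norm_num)]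
    show (if p c then _ else _) ≤ _
    split_ifs <;> linarith
  have hB : ∑ c : {c // ¬ q c}, (if p (Sum.elim id (Subtype.val : {c // ¬ q c} → ι) (Sum.inr c))
      then 1 + Real.log (1 + |(T.dbl q).a (Sum.inr c)|) else 0) ≤
      ∑ c, (if p c then 1 + Real.log (1 + |T.a c|) else 0) := by
    refine le_trans (Finset.sum_le_sum fun c _ => ?_)
      (Cell.sum_sub_le (fun c => ¬ q c) (T.kp_term_nonneg p))
    have h0 := abs_nonneg (T.a c.1)
    have ha : |(T.dbl q).a (Sum.inr c)| ≤ |T.a c.1| := by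
      rw [Tri.dbl_a_inr, abs_mul, abs_of_nonneg (by positivity : (0 : ℝ) ≤ (√2)⁻¹)]
      exact mul_le_of_le_one_left h0 (inv_le_one_of_one_le₀ h2)
    have h3 : Real.log (1 + |(T.dbl q).a (Sum.inr c)|) ≤ Real.log (1 + |T.a c.1|) :=
      Real.log_le_log (by positivity) (by linarith)
    show (if p c.1 then _ else _) ≤ _
    split_ifs <;> linarith
  rw [← Finset.mul_sum] at hA
  linarith

end Tri

namespace Cell
variable {ι ι' : Type} [Fintype ι] [Fintype ι']

/-- a diagonal substitution `z_{c'} ↦ n_{c'} z_{π c'}` that maps top windows to multiples of top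
windows -/
structure DSub (T : Cell ι) (T' : Cell ι') (π : ι' → ι) (K : ℝ) (n : ι' → ℤ) (m : ι' → ℝ) :
    Prop where
  bdd : ∀ c', |m c'| ≤ K
  tth : ∀ c', bind₁ (fun c => C (n c : ℝ) * X (π c)) (T'.tth c') = C (m c') * T.tth (π c')

open Classical in
/-- `T'` is a diagonal cover of `T` along `π` -/
structure DC (T : Cell ι) (T' : Cell ι') (π : ι' → ι) (K x : ℝ) : Prop where
  lev : ∀ c', T'.lev c' = T.lev (π c')
  card : (Fintype.card ι' : ℝ) ≤ x * Fintype.card ι
  kp : ∀ p : ι → Prop, T'.kp (fun c' => p (π c')) ≤ x * T.kp p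
  cov : ∀ ξ : ι' → ℝ, ξ ≠ 0 → ∃ n m, T.DSub T' π K n m ∧
    ∃ c, ∑ c', (if π c' = c then ξ c' * m c' else 0) ≠ 0

open Classical in
theorem DSub.sub {T : Cell ι} {T' : Cell ι'} {π : ι' → ι} {K : ℝ} {n : ι' → ℤ} {m : ι' → ℝ}
    (h : T.DSub T' π K n m) (hl : ∀ c', T'.lev c' = T.lev (π c')) :
    T.Sub T' K (fun c => C (n c : ℝ) * X (π c)) (fun c' c => if π c' = c then m c' else 0) where
  int c := isInt_mul (isInt_C _) (isInt_X _)
  hom c := by
    have := (isWeightedHomogeneous_C T.lev (n c : ℝ)).mul (isWeightedHomogeneous_X ℝ T.lev (π c))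
    rwa [zero_add, ← hl] at this
  lev c' c h := by
    have h1 : π c' = c := by
      by_contra h1
      exact h (if_neg h1)
    rw [hl, h1]
  bdd c' := by
    rw [Finset.sum_eq_single (π c') (fun c _ hc => by rw [if_neg (Ne.symm hc), abs_zero])
      (by simp), if_pos rfl]
    exact h.bdd c'
  tth c' := by
    rw [Finset.sum_eq_single (π c') (fun c _ hc => by
      rw [if_neg (Ne.symm hc), C_0, zero_mul]) (by simp), if_pos rfl, h.tth]

theorem DC.toCov {T : Cell ι} {T' : Cell ι'} {π : ι' → ι} {K x : ℝ} (h : T.DC T' π K x) :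
    T.Cov T' K := by
  intro ξ hξ
  obtain ⟨n, m, hs, c, hc⟩ := h.cov ξ hξ
  refine ⟨_, _, hs.sub h.lev, c, ?_⟩
  simpa only [mul_ite, mul_zero] using hc

end Cell

namespace Ch4

variable {ι : Type} [Fintype ι] {T : Cell ι} {F : Pl ι} {d j : ℕ}

namespace Stg
variable (S : Stg T F d j)

theorem dsub {κ : Type} [Fintype κ] (Y : Cell κ) (v : κ → S.κ)
    (hth : ∀ c, rename v (Y.tth c) = S.Z.tth (v c))
    {l : ℕ} (hl : ∀ c, T.lev c ≤ l) (A : Set ℕ) (t : ℕ) (ht : t ≤ l) :
    T.DSub Y (fun c => S.π (v c)) (2 ^ j * ((l : ℝ) + j + 1) ^ l)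
      (fun c => S.n A (v c) t) (fun c => S.m A (v c) t) where
  bdd c' := by
    refine (S.m_bdd A _ t (Int.natCast_nonneg t)).trans
      (mul_le_mul_of_nonneg_left ?_ (by positivity))
    have h1 : (t : ℝ) ≤ l := by exact_mod_cast ht
    have h2 : (0 : ℝ) ≤ l := Nat.cast_nonneg l
    have h3 : (0 : ℝ) ≤ j := Nat.cast_nonneg j
    refine (pow_le_pow_left₀ (by positivity) (show _ ≤ (l : ℝ) + j + 1 by
      push_cast; linarith) _).trans (pow_le_pow_right₀ (by linarith) ?_)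
    rw [S.lev_eq]; exact hl _
  tth c' := by
    rw [← S.cov_th, ← hth, bind₁_rename]
    rfl

open Classical in
theorem dcov {κ : Type} [Fintype κ] (Y : Cell κ) (v : κ → S.κ) (hv : Function.Injective v)
    (hth : ∀ c, rename v (Y.tth c) = S.Z.tth (v c))
    {l : ℕ} (hl : ∀ c, T.lev c ≤ l) (ξ : κ → ℝ) (hξ : ξ ≠ 0) :
    ∃ n m, T.DSub Y (fun c => S.π (v c)) (2 ^ j * ((l : ℝ) + j + 1) ^ l) n m ∧
      ∃ c, ∑ c', (if S.π (v c') = c then ξ c' * m c' else 0) ≠ 0 := by
  obtain ⟨c0, hc0, hmin⟩ := Finset.exists_min_image (Finset.univ.filter fun c => ξ c ≠ 0)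
    (fun c => ∑ i ∈ Finset.range j, S.sl (v c) i)
    (by
      obtain ⟨c, hc⟩ := Function.ne_iff.1 hξ
      exact ⟨c, by simpa using hc⟩)
  have hc0' : ξ c0 ≠ 0 := (Finset.mem_filter.1 hc0).2
  obtain ⟨L, hL0, hL⟩ := S.m_lead {i | S.sl (v c0) i ≠ 0} (v c0) fun _ h => h
  obtain ⟨t, ht, hm⟩ := fd_exists hL hL0
  have htl : t ≤ l := by
    have h1 := S.lev_sum (v c0)
    have h2 := hl (S.π (v c0))
    rw [← S.lev_eq] at h2
    omega
  refine ⟨_, _, S.dsub Y v hth hl {i | S.sl (v c0) i ≠ 0} t htl, S.π (v c0), ?_⟩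
  rw [Finset.sum_eq_single c0 _ (by simp), if_pos rfl]
  · exact mul_ne_zero hc0' hm
  intro c _ hc
  split_ifs with h1
  · by_cases h2 : ξ c = 0
    · rw [h2, zero_mul]
    by_cases h3 : ∃ i, S.sl (v c) i ≠ 0 ∧ S.sl (v c0) i = 0
    · obtain ⟨i, hi, hi0⟩ := h3
      rw [S.m_zero {i | S.sl (v c0) i ≠ 0} _ i hi (fun h => h hi0)]
      simp
    · exfalso
      push Not at h3
      have hle : ∀ i, S.sl (v c) i ≤ S.sl (v c0) i := fun i => by
        have := h3 i
        have := S.sl_le (v c) i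
        omega
      have hsum := hmin c (by simpa using h2)
      have heq := (Finset.sum_eq_sum_iff_of_le fun i _ => hle i).1
        (le_antisymm (Finset.sum_le_sum fun i _ => hle i) hsum)
      refine hc (hv (S.inj _ _ h1 (funext fun i => ?_)))
      by_cases hi : i < j
      · exact heq i (Finset.mem_range.2 hi)
      · rw [S.sl_zero _ i (by omega), S.sl_zero _ i (by omega)]
  · rfl

theorem π'_eq : S.π' = fun c => S.π (Sum.elim id Subtype.val c) := by
  funext c
  rcases c with c | c <;> rfl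

end Stg

theorem stg_kp (hF : DegLe T.lev F (d + 1)) (j : ℕ) (p : ι → Prop) :
    (stg T F d hF j).Z.kp (fun c => p ((stg T F d hF j).π c)) ≤ 3 ^ j * T.kp p := by
  induction j with
  | zero => rw [pow_zero, one_mul]; exact le_rfl
  | succ j ih =>
    have h := (stg T F d hF j).Z.toTri.dbl_kp_le (stg T F d hF j).q
      fun c => p ((stg T F d hF j).π c)
    have e : (fun c => p ((stg T F d hF (j + 1)).π c)) =
        fun c => p ((stg T F d hF j).π (Sum.elim id Subtype.val c)) := by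
      funext c
      rcases c with c | c <;> rfl
    rw [e, pow_succ]
    exact h.trans (by linarith)

/-- the constant of the covers -/
noncomputable def KK (l J : ℕ) : ℝ := 2 ^ J * ((l : ℝ) + J + 1) ^ l

theorem KK_mono (l : ℕ) {j J : ℕ} (h : j ≤ J) : KK l j ≤ KK l J := by
  have hj' : (j : ℝ) ≤ J := by exact_mod_cast h
  exact mul_le_mul (pow_le_pow_right₀ (by norm_num) h)
    (pow_le_pow_left₀ (by positivity) (by linarith) _) (by positivity) (by positivity)

theorem stg_dc (hF : DegLe T.lev F (d + 1)) {l : ℕ} (hl : ∀ c, T.lev c ≤ l) (j : ℕ) {K x : ℝ}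
    (hK : KK l j ≤ K) (hx : (3 : ℝ) ^ j ≤ x) :
    T.DC (stg T F d hF j).Z (stg T F d hF j).π K x where
  lev := (stg T F d hF j).lev_eq
  card := (stg T F d hF j).card_le' hx
  kp p := (stg_kp hF j p).trans (mul_le_mul_of_nonneg_right hx (T.kp_nonneg p))
  cov ξ hξ := by
    obtain ⟨n, m, hs, hc⟩ := (stg T F d hF j).dcov (stg T F d hF j).Z id Function.injective_id
      (fun _ => by simp) hl ξ hξ
    exact ⟨n, m, ⟨fun c => (hs.bdd c).trans hK, hs.tth⟩, hc⟩

theorem stg_dc_frz (hF : DegLe T.lev F (d + 1)) {l : ℕ} (hl : ∀ c, T.lev c ≤ l) (j : ℕ)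
    {K x : ℝ} (hK : KK l j ≤ K) (hx : (3 : ℝ) ^ j ≤ x) :
    T.DC ((stg T F d hF j).Z.frz (stg T F d hF j).q) (fun c => (stg T F d hF j).π c.1) K x where
  lev c := (stg T F d hF j).lev_eq c.1
  card := le_trans (by exact_mod_cast Fintype.card_subtype_le (stg T F d hF j).q)
    ((stg T F d hF j).card_le' hx)
  kp p := ((stg T F d hF j).Z.toTri.frz_kp_le (stg T F d hF j).q
    fun c => p ((stg T F d hF j).π c)).trans
      ((stg_kp hF j p).trans (mul_le_mul_of_nonneg_right hx (T.kp_nonneg p)))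
  cov ξ hξ := by
    obtain ⟨n, m, hs, hc⟩ := (stg T F d hF j).dcov ((stg T F d hF j).Z.frz (stg T F d hF j).q)
      Subtype.val Subtype.val_injective
      ((stg T F d hF j).Z.rename_frz_tth (stg T F d hF j).clo) hl ξ hξ
    exact ⟨n, m, ⟨fun c => (hs.bdd c).trans hK, hs.tth⟩, hc⟩

end Ch4

/-- a property of cells over `ι` that is stable under freezing and doubling -/
structure Stab {ι : Type} (Q : ∀ (κ : Type), Cell κ → (κ → ι) → Prop) : Prop where
  frz : ∀ (κ : Type) (Z : Cell κ) (π : κ → ι) (q : κ → Prop), Z.Clo q → Q κ Z π →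
    Q {c // q c} (Z.frz q) fun c => π c.1
  dbl : ∀ (κ : Type) (Z : Cell κ) (π : κ → ι) (q : κ → Prop), Z.Clo q → Q κ Z π →
    Q (DI q) (Z.dbl q) fun c => π (Sum.elim id Subtype.val c)

theorem Ch4.stg_Q {ι : Type} [Fintype ι] {T : Cell ι} {F : Pl ι} {d : ℕ}
    (hF : DegLe T.lev F (d + 1)) {Q : ∀ (κ : Type), Cell κ → (κ → ι) → Prop} (hQ : Stab Q)
    (h0 : Q ι T id) (j : ℕ) : Q _ (stg T F d hF j).Z (stg T F d hF j).π := by
  induction j with
  | zero => exact h0
  | succ j ih =>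
    have := hQ.dbl _ _ _ _ (stg T F d hF j).clo ih
    rw [← Stg.π'_eq] at this
    exact this

/-- (CHAIN, explicit form) -/
theorem chainG (l d : ℕ) : ∃ D : ℕ, 1 ≤ D ∧ ∀ (ι : Type) [Fintype ι] (T : Cell ι) (F : Pl ι)
    (Q : ∀ (κ : Type), Cell κ → (κ → ι) → Prop), Stab Q → Q ι T id →
    (∀ c, T.lev c ≤ l) → DegLe T.lev F (d + 1) →
    ∃ (κ : Type) (_ : Fintype κ) (P : MT κ (d + 1)) (h : ∀ c, P.wt c ≠ 0) (G : Pl κ)
      (π : κ → ι), P.Form G ∧ T.DC (P.cell h) π D D ∧ Q κ (P.cell h) π ∧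
      (∀ y : ℝ, 2 ≤ y → (∀ (κ' : Type) [Fintype κ'] (Z : Cell κ') (π' : κ' → ι),
          T.DC Z π' D D → Q κ' Z π' → |Z.M / Z.mu - 1| ≤ Real.exp (-(D * y))) →
        Real.exp (-y) * T.mu ≤ ‖T.S F‖ → Real.exp (-(D * y)) * P.mu ≤ ‖P.S G‖) ∧
      ∀ (b : ℕ) (r : ℝ), P.Short (C (b : ℝ) * G) r →
        ∃ e, IsWeightedHomogeneous T.lev e (d + 1) ∧ nrm e ≤ Real.exp D * r ∧
          IsInt (C ((b * (d + 1).factorial : ℕ) : ℝ) * T.top (d + 1) F - T.TTh e) := by
  obtain ⟨D, hD1, hD2, hD3⟩ : ∃ D : ℕ, (2 ^ (d + 2) * (l + (d + 2) + 1) ^ l) ^ (l + d + 2) ≤ D ∧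
      3 ^ (d + 2) ≤ D ∧ 4 * 2 ^ (d + 1) + 2 ≤ D :=
    ⟨_ + (3 ^ (d + 2) + (4 * 2 ^ (d + 1) + 2)), Nat.le_add_right _ _,
      (Nat.le_add_right _ _).trans (Nat.le_add_left _ _),
      (Nat.le_add_left _ _).trans (Nat.le_add_left _ _)⟩
  refine ⟨D, by omega, fun ι _ T F Q hQ hQ0 hl hF => ?_⟩
  have h1' : (KK l (d + 2)) ^ (l + d + 2) ≤ D := by
    unfold KK
    exact_mod_cast hD1
  have hK1 : 1 ≤ KK l (d + 2) := Stg.one_le_K l (d + 2)
  have hK : ∀ j ≤ d + 2, KK l j ≤ D := fun j hj => (KK_mono l hj).trans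
    (le_trans (by simpa using pow_le_pow_right₀ hK1 (show 1 ≤ l + d + 2 by omega)) h1')
  have h3 : ∀ j ≤ d + 2, (3 : ℝ) ^ j ≤ D := fun j hj =>
    (pow_le_pow_right₀ (by norm_num) hj).trans (by exact_mod_cast hD2)
  set S := stg T F d hF (d + 1) with hS
  have hG0 : Tag S.res S.sl S.G 0 fun i => if i < d + 1 then 1 else 0 := by
    have := S.tagG
    rwa [sub_self] at this
  have hGhom : IsWeightedHomogeneous S.pol.wt (dn S.q S.G) 1 := by
    have := S.hom_dn hG0
    rwa [show Stg.rs (d + 1) (fun i => if i < d + 1 then 1 else 0) = 1 from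
      funext fun i => if_pos i.2] at this
  have hGr : rename Subtype.val (dn S.q S.G) = S.G := rename_dn hG0.mem_supp
  have hQf : ∀ i, Q _ ((stg T F d hF i).Z.frz (stg T F d hF i).q)
      fun c => (stg T F d hF i).π c.1 := fun i =>
    hQ.frz _ _ _ _ (stg T F d hF i).clo (stg_Q hF hQ hQ0 i)
  refine ⟨_, inferInstance, S.pol, S.wt_ne, dn S.q S.G, fun c => S.π c.1, ⟨hGhom, ?_⟩, ?_, ?_,
    ?_, ?_⟩
  · rw [show S.pol.act = Set.univ from Set.eq_univ_of_forall S.wt_ne, supported_univ]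
    trivial
  · rw [S.pol_cell]; exact stg_dc_frz hF hl _ (hK _ (by omega)) (h3 _ (by omega))
  · rw [S.pol_cell]; exact hQf _
  · intro y hy hA hs
    have hD0 : (4 : ℝ) * 2 ^ (d + 1) + 2 ≤ D := by exact_mod_cast hD3
    set E : ℝ := 2 ^ (d + 1) with hE
    have hE1 : 1 ≤ E := one_le_pow₀ (by norm_num)
    set η := Real.exp (-(D * y)) with hη
    have hη1 : η ≤ 1 := Real.exp_le_one_iff.2 (by nlinarith)
    have hη0 : 0 < η := Real.exp_pos _
    have hfr : ∀ i ≤ d + 2, |((stg T F d hF i).Z.frz (stg T F d hF i).q).M /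
        ((stg T F d hF i).Z.frz (stg T F d hF i).q).mu - 1| ≤ η := fun i hi =>
      hA _ _ _ (stg_dc_frz hF hl i (hK i hi) (h3 i hi)) (hQf i)
    have h1 := chain_cs dblMuStmt dblCSStmt hF (d + 1) fun i hi => by
      have := (abs_le.1 (hfr i (by omega))).2
      linarith
    have p := mu_pos T.toTri
    have h2 : Real.exp (-(2 * y)) ≤ ‖T.S F‖ / T.mu / 2 := by
      have h3 : Real.exp (-y) ≤ ‖T.S F‖ / T.mu := (le_div_iff₀ p).2 hs
      have h4 : Real.exp (-y) ≤ 1 / 2 := by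
        rw [Real.exp_neg, one_div]
        exact inv_anti₀ (by norm_num) (by linarith [Real.add_one_le_exp y])
      rw [show -(2 * y) = -y + -y by ring, Real.exp_add]
      nlinarith [Real.exp_pos (-y)]
    have h3' : Real.exp (-(2 * E * y)) ≤ ‖S.Z.S S.G‖ / S.Z.mu / 2 := by
      refine le_trans ?_ h1
      refine le_trans (le_of_eq ?_) (pow_le_pow_left₀ (Real.exp_pos _).le h2 _)
      rw [← Real.exp_nat_mul, hE]
      congr 1
      push_cast; ring
    have h4 := fibStmt S.κ S.Z.toTri S.q S.clo (fun x => ee (ev x (dn S.q S.G)))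
      fun x => (norm_ee _).le
    have e1 : (∑' z : S.κ → ℤ, (S.Z.wgt z : ℂ) * ee (ev (fun c : {c // S.q c} => z c.1)
        (dn S.q S.G))) = S.Z.S S.G := by
      refine tsum_congr fun z => ?_
      conv_rhs => rw [← hGr]
      rw [ev, ev, eval_rename]
      rfl
    have a1 := abs_le.1 (hfr (d + 1) (by omega))
    have a2 := abs_le.1 (hA _ _ _ (stg_dc hF hl (d + 1) (hK _ (by omega)) (h3 _ (by omega)))
      (stg_Q hF hQ hQ0 _))
    have a3 := abs_le.1 (hA _ _ _ (stg_dc hF hl (d + 2) (hK _ le_rfl) (h3 _ le_rfl))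
      (stg_Q hF hQ hQ0 _))
    rw [e1] at h4
    have h5 : ‖S.Z.S S.G / S.Z.mu - S.pol.S (dn S.q S.G) / S.pol.mu‖ ^ 2 ≤ 8 * η := by
      refine h4.trans ?_
      have b1 : (S.Z.toTri.frz S.q).M / (S.Z.toTri.frz S.q).mu ≤ 2 := by
        have : (S.Z.toTri.frz S.q).M / (S.Z.toTri.frz S.q).mu - 1 ≤ η := a1.2
        linarith
      have b2 : (S.Z.toTri.dbl S.q).M / (S.Z.toTri.dbl S.q).mu - 2 * (S.Z.M / S.Z.mu) +
          (S.Z.toTri.frz S.q).M / (S.Z.toTri.frz S.q).mu ≤ 4 * η := by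
        have c1 : (S.Z.toTri.frz S.q).M / (S.Z.toTri.frz S.q).mu - 1 ≤ η := a1.2
        have c2 : -η ≤ S.Z.M / S.Z.mu - 1 := a2.1
        have c3 : (S.Z.toTri.dbl S.q).M / (S.Z.toTri.dbl S.q).mu - 1 ≤ η := a3.2
        linarith
      have b3 : 0 ≤ (S.Z.toTri.frz S.q).M / (S.Z.toTri.frz S.q).mu := by
        have : -η ≤ (S.Z.toTri.frz S.q).M / (S.Z.toTri.frz S.q).mu - 1 := a1.1
        linarith
      nlinarith
    have h6 : 8 * η ≤ Real.exp (-(2 * E * y)) ^ 2 := by
      rw [← Real.exp_nat_mul, hη]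
      have : (8 : ℝ) ≤ Real.exp (2 * y) := by
        have := Real.add_one_le_exp y
        rw [show 2 * y = y + y by ring, Real.exp_add]
        nlinarith
      refine (mul_le_mul_of_nonneg_right this (Real.exp_pos _).le).trans ?_
      rw [← Real.exp_add]
      refine Real.exp_le_exp.2 ?_
      push_cast
      nlinarith
    have h7 := abs_le_of_sq_le_sq' (h5.trans h6) (Real.exp_pos _).le
    have p1 := mu_pos S.Z.toTri
    have p2 := mu_pos S.pol.toTri
    have h8 := norm_sub_norm_le (S.Z.S S.G / S.Z.mu) (S.pol.S (dn S.q S.G) / S.pol.mu)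
    rw [norm_div, norm_div, Complex.norm_real, Complex.norm_real, Real.norm_of_nonneg p1.le,
      Real.norm_of_nonneg p2.le] at h8
    refine (le_div_iff₀ p2).1 (le_trans ?_ (by linarith [h7.2] :
      Real.exp (-(2 * E * y)) ≤ ‖S.pol.S (dn S.q S.G)‖ / S.pol.mu))
    exact Real.exp_le_exp.2 (by nlinarith)
  · rintro b r ⟨e, he, hr, hI⟩
    have hs := S.sub (S.Z.frz S.q) Subtype.val (fun _ => rfl) (S.Z.rename_frz_tth S.clo) hl
      Set.univ 0 (Nat.zero_le _)
    have he1 : IsWeightedHomogeneous (S.Z.frz S.q).lev e (d + 1) := by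
      simpa using S.hom_lev he.1
    have hG1 : IsWeightedHomogeneous (S.Z.frz S.q).lev (dn S.q S.G) (d + 1) := by
      simpa using S.hom_lev hGhom
    refine ⟨_, hs.pushE_hom he1, (hs.nrm_pushE (Stg.one_le_K _ _) he1).trans ?_, ?_⟩
    · rw [mul_comm]
      refine mul_le_mul ?_ hr (nrm_nonneg _) (Real.exp_pos _).le
      have h3 : KK l (d + 1) ≤ KK l (d + 2) := KK_mono l (by omega)
      refine ((pow_le_pow_left₀ (zero_le_one.trans (Stg.one_le_K _ _)) h3 _).trans
        (pow_le_pow_right₀ hK1 (by omega))).trans (h1'.trans ?_)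
      linarith [Real.add_one_le_exp (D : ℝ)]
    · have h1 := isInt_bind hs.int hI
      have h2 : S.pol.Th e = (S.Z.frz S.q).TTh e := by
        rw [Cell.TTh, show (S.Z.frz S.q).tth = S.pol.th from funext S.pol_tth]
        rfl
      have h3 : S.Z.top (d + 1) S.G = S.G := by
        rw [Cell.top, ← hGr, top_rename (w := (S.Z.frz S.q).lev) (w' := S.Z.lev)
          (v := Subtype.val) (fun _ => rfl), top_of_hom hG1]
      have h4 := S.cov_G ((0 : ℕ) : ℤ)
      rw [h3, fd_pow, ← hGr, bind₁_rename] at h4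
      rw [map_sub, map_mul, bind₁_C_right, h2, hs.bind_TTh] at h1
      erw [h4] at h1
      rwa [Nat.cast_mul, C_mul, mul_assoc]

end Crest.Agent.T49.Tw
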