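import Crest.Agent.T49.TwStg_4

/-!
# Row 49: `ChainStmt` from the three analytic statements on doubling (helper4)
-/

set_option autoImplicit false
set_option linter.unusedSectionVars false

open MvPolynomial

namespace Crest.Agent.T49.Tw

namespace Ch4

variable {ι : Type} [Fintype ι] {T : Cell ι} {F : Pl ι} {d j : ℕ}

namespace Stg
variable (S : Stg T F d j)

open Classical in
theorem sub {κ : Type} [Fintype κ] (Y : Cell κ) (v : κ → S.κ)
    (hlev : ∀ c, Y.lev c = S.Z.lev (v c)) (hth : ∀ c, rename v (Y.tth c) = S.Z.tth (v c))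
    {l : ℕ} (hl : ∀ c, T.lev c ≤ l) (A : Set ℕ) (t : ℕ) (ht : t ≤ l) :
    T.Sub Y (2 ^ j * ((l : ℝ) + j + 1) ^ l)
      (fun c => C (S.n A (v c) t : ℝ) * X (S.π (v c)))
      (fun c' c => if S.π (v c') = c then S.m A (v c') t else 0) where
  int c := isInt_mul (isInt_C _) (isInt_X _)
  hom c := by
    have := (isWeightedHomogeneous_C T.lev (S.n A (v c) t : ℝ)).mul
      (isWeightedHomogeneous_X ℝ T.lev (S.π (v c)))
    rwa [zero_add, ← S.lev_eq, ← hlev] at this
  lev c' c h := by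
    have h1 : S.π (v c') = c := by
      by_contra h1
      exact h (if_neg h1)
    rw [hlev, S.lev_eq, h1]
  bdd c' := by
    rw [Finset.sum_eq_single (S.π (v c')) (fun c _ hc => by rw [if_neg (Ne.symm hc), abs_zero])
      (by simp), if_pos rfl]
    refine (S.m_bdd A _ t (Int.natCast_nonneg t)).trans
      (mul_le_mul_of_nonneg_left ?_ (by positivity))
    have h1 : (t : ℝ) ≤ l := by exact_mod_cast ht
    have h2 : (0 : ℝ) ≤ l := Nat.cast_nonneg l
    have h3 : (0 : ℝ) ≤ j := Nat.cast_nonneg j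
    refine (pow_le_pow_left₀ (by positivity) (show _ ≤ (l : ℝ) + j + 1 by
      push_cast; linarith) _).trans (pow_le_pow_right₀ (by linarith) ?_)
    rw [S.lev_eq]; exact hl _
  tth c' := by
    rw [Finset.sum_eq_single (S.π (v c')) (fun c _ hc => by
      rw [if_neg (Ne.symm hc), C_0, zero_mul]) (by simp), if_pos rfl, ← S.cov_th, ← hth,
      bind₁_rename]
    rfl

theorem cov {κ : Type} [Fintype κ] (Y : Cell κ) (v : κ → S.κ) (hv : Function.Injective v)
    (hlev : ∀ c, Y.lev c = S.Z.lev (v c)) (hth : ∀ c, rename v (Y.tth c) = S.Z.tth (v c))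
    {l : ℕ} (hl : ∀ c, T.lev c ≤ l) : T.Cov Y (2 ^ j * ((l : ℝ) + j + 1) ^ l) := by
  classical
  intro ξ hξ
  obtain ⟨c0, hc0, hmin⟩ := Finset.exists_min_image (Finset.univ.filter fun c => ξ c ≠ 0)
    (fun c => ∑ i ∈ Finset.range j, S.sl (v c) i)
    (by
      obtain ⟨c, hc⟩ := Function.ne_iff.1 hξ
      exact ⟨c, by simpa using hc⟩)
  have hc0' : ξ c0 ≠ 0 := (Finset.mem_filter.1 hc0).2
  obtain ⟨L, hL0, hL⟩ := S.m_lead {i | S.sl (v c0) i ≠ 0} (v c0) fun _ h => h
  obtain ⟨t, ht, hm⟩ := fd_exists hL hL0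
  have htl : t ≤ l := by
    have h1 := S.lev_sum (v c0)
    have h2 := hl (S.π (v c0))
    rw [← S.lev_eq] at h2
    omega
  refine ⟨_, _, S.sub Y v hlev hth hl {i | S.sl (v c0) i ≠ 0} t htl, S.π (v c0), ?_⟩
  rw [Finset.sum_eq_single c0 _ (by simp), if_pos rfl]
  · exact mul_ne_zero hc0' hm
  intro c _ hc
  split_ifs with h1
  · by_cases h2 : ξ c = 0
    · rw [h2, zero_mul]
    by_cases h3 : ∃ i, S.sl (v c) i ≠ 0 ∧ S.sl (v c0) i = 0
    · obtain ⟨i, hi, hi0⟩ := h3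
      rw [S.m_zero {i | S.sl (v c0) i ≠ 0} _ i hi (fun h => h hi0)]
      simp
    · exfalso
      push Not at h3
      have hle : ∀ i, S.sl (v c) i ≤ S.sl (v c0) i := fun i => by
        have := h3 i
        have := S.sl_le (v c) i
        omega
      have hsum := hmin c (by simpa using h2)
      have heq := (Finset.sum_eq_sum_iff_of_le fun i _ => hle i).1
        (le_antisymm (Finset.sum_le_sum fun i _ => hle i) hsum)
      refine hc (hv (S.inj _ _ h1 (funext fun i => ?_)))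
      by_cases hi : i < j
      · exact heq i (Finset.mem_range.2 hi)
      · rw [S.sl_zero _ i (by omega), S.sl_zero _ i (by omega)]
  · rw [mul_zero]

/-- the numerical condition on the loss -/
def Big (l j : ℕ) (x : ℝ) : Prop :=
  (2 ^ j * ((l : ℝ) + j + 1) ^ l) ^ (l + 1) ≤ Real.exp x ∧ (3 : ℝ) ^ j ≤ x

theorem one_le_K (l j : ℕ) : (1 : ℝ) ≤ 2 ^ j * ((l : ℝ) + j + 1) ^ l := by
  have h2 : (0 : ℝ) ≤ l := Nat.cast_nonneg l
  have h3 : (0 : ℝ) ≤ j := Nat.cast_nonneg j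
  exact one_le_mul_of_one_le_of_one_le (one_le_pow₀ (by norm_num)) (one_le_pow₀ (by linarith))

theorem kap_nonneg (T : Cell ι) (l : ℕ) : 0 ≤ T.kap l := by
  rw [Cell.kap_eq]
  exact add_nonneg zero_le_one (Finset.sum_nonneg fun c _ => T.kap_term_nonneg l c)

theorem card_le' {x : ℝ} (hx : (3 : ℝ) ^ j ≤ x) :
    (Fintype.card S.κ : ℝ) ≤ x * Fintype.card ι := by
  have h1 : (Fintype.card S.κ : ℝ) ≤ 2 ^ j * Fintype.card ι := by exact_mod_cast S.card_le
  have h2 : (2 : ℝ) ^ j ≤ 3 ^ j := pow_le_pow_left₀ (by norm_num) (by norm_num) _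
  exact h1.trans (mul_le_mul_of_nonneg_right (h2.trans hx) (Nat.cast_nonneg _))

theorem der {l : ℕ} (hl : ∀ c, T.lev c ≤ l) {x : ℝ} (hx : Big l j x) : T.Der x S.Z :=
  (S.cov S.Z id Function.injective_id (fun _ => rfl) (fun _ => by simp) hl).der (one_le_K l j)
    (fun c => by rw [S.lev_eq]; exact hl _) hx.1 (fun c => ⟨_, S.lev_eq c⟩) (S.card_le' hx.2)
    fun i => (S.kap_le i).trans (mul_le_mul_of_nonneg_right hx.2 (kap_nonneg T i))

theorem der_frz {l : ℕ} (hl : ∀ c, T.lev c ≤ l) {x : ℝ} (hx : Big l j x) :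
    T.Der x (S.Z.frz S.q) :=
  (S.cov (S.Z.frz S.q) Subtype.val Subtype.val_injective (fun _ => rfl)
    (S.Z.rename_frz_tth S.clo) hl).der (one_le_K l j)
    (fun c => by show S.Z.lev c.1 ≤ l; rw [S.lev_eq]; exact hl _) hx.1
    (fun c => ⟨_, S.lev_eq c.1⟩)
    (le_trans (by exact_mod_cast Fintype.card_subtype_le S.q) (S.card_le' hx.2))
    fun i => (S.Z.frz_kap_le S.q i).trans
      ((S.kap_le i).trans (mul_le_mul_of_nonneg_right hx.2 (kap_nonneg T i)))

/-- restriction of slot vectors to `Fin j` -/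
def rs (j : ℕ) : (ℕ → ℕ) →+ (Fin j → ℕ) where
  toFun f i := f i
  map_zero' := rfl
  map_add' _ _ := rfl

theorem hom_dn {f : Pl S.κ} {U : ℕ → ℕ} (hf : Tag S.res S.sl f 0 U) :
    IsWeightedHomogeneous (fun c : {c // S.q c} => rs j (S.sl c.1)) (dn S.q f) (rs j U) := by
  refine hom_bind (rs j) (fun c => ?_) hf.hom
  split_ifs with h
  · exact isWeightedHomogeneous_X ℝ (fun c : {c // S.q c} => rs j (S.sl c.1)) ⟨c, h⟩
  · exact isWeightedHomogeneous_zero _ _ _

/-- the polar tower: frozen part of the stage -/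
noncomputable def pol : MT {c // S.q c} j where
  toTri := S.Z.toTri.frz S.q
  wt c := rs j (S.sl c.1)
  wt_le c i := S.sl_le _ _
  hom c := S.hom_dn (by
    have := S.tagB c.1
    rwa [show S.res c.1 = 0 from c.2] at this)

theorem sum_wt (c : {c // S.q c}) : ∑ i, S.pol.wt c i = S.Z.lev c.1 := by
  rw [S.lev_sum, show S.res c.1 = 0 from c.2, zero_add, Finset.sum_range]
  rfl

theorem wt_ne (c : {c // S.q c}) : S.pol.wt c ≠ 0 := fun h => by
  have h1 := S.sum_wt c
  have h2 := S.Z.lev_pos c.1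
  rw [h] at h1
  simp at h1
  omega

theorem pol_cell : S.pol.cell S.wt_ne = S.Z.frz S.q :=
  Cell.ext' rfl (funext S.sum_wt)

/-- sum of the slot weights -/
def sm (j : ℕ) : (Fin j → ℕ) →+ ℕ where
  toFun f := ∑ i, f i
  map_zero' := by simp
  map_add' _ _ := Finset.sum_add_distrib

theorem hom_lev {f : Pl {c // S.q c}} {U : Fin j → ℕ}
    (hf : IsWeightedHomogeneous S.pol.wt f U) :
    IsWeightedHomogeneous (S.Z.frz S.q).lev f (∑ i, U i) := by
  have := hom_map (sm j) hf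
  rwa [show (fun c => sm j (S.pol.wt c)) = (S.Z.frz S.q).lev from funext S.sum_wt] at this

theorem pol_tth (c : {c // S.q c}) : (S.Z.frz S.q).tth c = S.pol.th c := by
  have h : IsWeightedHomogeneous S.pol.wt (S.pol.th c) (S.pol.wt c) := by
    have := (isWeightedHomogeneous_C S.pol.wt (S.pol.a c)).mul
      (isWeightedHomogeneous_X ℝ S.pol.wt c)
    rw [zero_add] at this
    exact this.add (S.pol.hom c)
  have h2 := S.hom_lev h
  rw [S.sum_wt] at h2
  exact top_of_hom h2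

end Stg

/-- the iterated doubles -/
noncomputable def stg (T : Cell ι) (F : Pl ι) (d : ℕ) (hF : DegLe T.lev F (d + 1)) :
    (j : ℕ) → Stg T F d j
  | 0 => Stg.base T F d hF
  | j + 1 => (stg T F d hF j).dbl

theorem mu_pos {κ : Type} [Fintype κ] (Y : Tri κ) : 0 < Y.mu :=
  Finset.prod_pos fun c _ => inv_pos.2 (abs_pos.2 (Y.a_ne c))

theorem norm_ee (x : ℝ) : ‖ee x‖ = 1 := by
  rw [ee, show 2 * (Real.pi : ℂ) * Complex.I * x = ((2 * Real.pi * x : ℝ) : ℂ) * Complex.I by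
    push_cast; ring]
  exact Complex.norm_exp_ofReal_mul_I _

theorem step_cs (hMu : DblMuStmt) (hCS : DblCSStmt) (S : Stg T F d j)
    (hR : (S.Z.frz S.q).M / (S.Z.frz S.q).mu ≤ 2) :
    (‖S.Z.S S.G‖ / S.Z.mu / 2) ^ 2 ≤ ‖S.dbl.Z.S S.dbl.G‖ / S.dbl.Z.mu / 2 := by
  have h1 := hMu S.κ S.Z.toTri S.q
  have h2 := hCS S.κ S.Z.toTri S.q S.clo S.G
  have p1 := mu_pos S.Z.toTri
  have p2 := mu_pos (S.Z.toTri.frz S.q)
  have p3 := mu_pos (S.Z.toTri.dbl S.q)
  have hR' : (S.Z.toTri.frz S.q).M ≤ 2 * (S.Z.toTri.frz S.q).mu := (div_le_iff₀ p2).1 hR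
  show _ ≤ ‖(S.Z.toTri.dbl S.q).S (sh1 S.q S.G - sh0 S.q S.G)‖ / (S.Z.toTri.dbl S.q).mu / 2
  have h3 := h2.trans (mul_le_mul_of_nonneg_right hR' (norm_nonneg _))
  rw [div_pow, div_pow, ← h1, div_div, div_div, div_le_div_iff₀ (by positivity) (by positivity)]
  nlinarith [mul_le_mul_of_nonneg_right h3 p3.le]

theorem chain_cs (hMu : DblMuStmt) (hCS : DblCSStmt) (hF : DegLe T.lev F (d + 1)) (j : ℕ)
    (hR : ∀ i < j, ((stg T F d hF i).Z.frz (stg T F d hF i).q).M /
      ((stg T F d hF i).Z.frz (stg T F d hF i).q).mu ≤ 2) :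
    (‖T.S F‖ / T.mu / 2) ^ 2 ^ j ≤
      ‖(stg T F d hF j).Z.S (stg T F d hF j).G‖ / (stg T F d hF j).Z.mu / 2 := by
  induction j with
  | zero => rw [pow_zero, pow_one]; exact le_rfl
  | succ j ih =>
    have p := mu_pos T.toTri
    rw [pow_succ, pow_mul]
    exact (pow_le_pow_left₀ (by positivity) (ih fun i hi => hR i (by omega)) 2).trans
      (step_cs hMu hCS _ (hR j (by omega)))

theorem big_of_le {l j J : ℕ} (hj : j ≤ J) {k : ℕ} (hk : l + 1 ≤ k) {D : ℕ}
    (h1 : (2 ^ J * (l + J + 1) ^ l) ^ k ≤ D) (h2 : 3 ^ J ≤ D) : Stg.Big l j D := by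
  have h1' : ((2 : ℝ) ^ J * ((l : ℝ) + J + 1) ^ l) ^ k ≤ D := by exact_mod_cast h1
  have h2' : (3 : ℝ) ^ J ≤ D := by exact_mod_cast h2
  have hj' : (j : ℝ) ≤ J := by exact_mod_cast hj
  refine ⟨?_, (pow_le_pow_right₀ (by norm_num) hj).trans h2'⟩
  have h3 : (2 : ℝ) ^ j * ((l : ℝ) + j + 1) ^ l ≤ 2 ^ J * ((l : ℝ) + J + 1) ^ l :=
    mul_le_mul (pow_le_pow_right₀ (by norm_num) hj)
      (pow_le_pow_left₀ (by positivity) (by linarith) _) (by positivity) (by positivity)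
  refine ((pow_le_pow_left₀ (by positivity) h3 _).trans
    (pow_le_pow_right₀ (Stg.one_le_K l J) hk)).trans (h1'.trans ?_)
  linarith [Real.add_one_le_exp (D : ℝ)]

end Ch4

open Ch4

theorem chainStmt_of (hMu : DblMuStmt) (hCS : DblCSStmt) (hFib : FibStmt) : ChainStmt := by
  intro l d
  obtain ⟨D, hD1, hD2, hD3⟩ : ∃ D : ℕ, (2 ^ (d + 2) * (l + (d + 2) + 1) ^ l) ^ (l + d + 2) ≤ D ∧
      3 ^ (d + 2) ≤ D ∧ 4 * 2 ^ (d + 1) + 2 ≤ D :=
    ⟨_ + (3 ^ (d + 2) + (4 * 2 ^ (d + 1) + 2)), Nat.le_add_right _ _,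
      (Nat.le_add_right _ _).trans (Nat.le_add_left _ _),
      (Nat.le_add_left _ _).trans (Nat.le_add_left _ _)⟩
  refine ⟨D, fun ι _ T F hl hF => ?_⟩
  have hbig : ∀ j ≤ d + 2, Stg.Big l j D := fun j hj => big_of_le hj (by omega) hD1 hD2
  set S := stg T F d hF (d + 1) with hS
  have hG0 : Tag S.res S.sl S.G 0 fun i => if i < d + 1 then 1 else 0 := by
    have := S.tagG
    rwa [sub_self] at this
  have hGhom : IsWeightedHomogeneous S.pol.wt (dn S.q S.G) 1 := by
    have := S.hom_dn hG0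
    rwa [show Stg.rs (d + 1) (fun i => if i < d + 1 then 1 else 0) = 1 from
      funext fun i => if_pos i.2] at this
  have hGr : rename Subtype.val (dn S.q S.G) = S.G := rename_dn hG0.mem_supp
  refine ⟨_, inferInstance, S.pol, S.wt_ne, dn S.q S.G, ⟨hGhom, ?_⟩, ?_, ?_, ?_⟩
  · rw [show S.pol.act = Set.univ from Set.eq_univ_of_forall S.wt_ne, supported_univ]
    trivial
  · rw [S.pol_cell]; exact S.der_frz hl (hbig _ (by omega))
  · intro y hy hA hs
    have hD0 : (4 : ℝ) * 2 ^ (d + 1) + 2 ≤ D := by exact_mod_cast hD3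
    set E : ℝ := 2 ^ (d + 1) with hE
    have hE1 : 1 ≤ E := one_le_pow₀ (by norm_num)
    set η := Real.exp (-(D * y)) with hη
    have hη1 : η ≤ 1 := Real.exp_le_one_iff.2 (by nlinarith)
    have hη0 : 0 < η := Real.exp_pos _
    have hfr : ∀ i ≤ d + 2, |((stg T F d hF i).Z.frz (stg T F d hF i).q).M /
        ((stg T F d hF i).Z.frz (stg T F d hF i).q).mu - 1| ≤ η := fun i hi =>
      hA _ _ ((stg T F d hF i).der_frz hl (hbig i hi))
    have h1 := chain_cs hMu hCS hF (d + 1) fun i hi => by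
      have := (abs_le.1 (hfr i (by omega))).2
      linarith
    have p := mu_pos T.toTri
    have h2 : Real.exp (-(2 * y)) ≤ ‖T.S F‖ / T.mu / 2 := by
      have h3 : Real.exp (-y) ≤ ‖T.S F‖ / T.mu := (le_div_iff₀ p).2 hs
      have h4 : Real.exp (-y) ≤ 1 / 2 := by
        rw [Real.exp_neg, one_div]
        exact inv_anti₀ (by norm_num) (by linarith [Real.add_one_le_exp y])
      rw [show -(2 * y) = -y + -y by ring, Real.exp_add]
      nlinarith [Real.exp_pos (-y)]
    have h3 : Real.exp (-(2 * E * y)) ≤ ‖S.Z.S S.G‖ / S.Z.mu / 2 := by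
      refine le_trans ?_ h1
      refine le_trans (le_of_eq ?_) (pow_le_pow_left₀ (Real.exp_pos _).le h2 _)
      rw [← Real.exp_nat_mul, hE]
      congr 1
      push_cast; ring
    have h4 := hFib S.κ S.Z.toTri S.q S.clo (fun x => ee (ev x (dn S.q S.G)))
      fun x => (norm_ee _).le
    have e1 : (∑' z : S.κ → ℤ, (S.Z.wgt z : ℂ) * ee (ev (fun c : {c // S.q c} => z c.1)
        (dn S.q S.G))) = S.Z.S S.G := by
      refine tsum_congr fun z => ?_
      conv_rhs => rw [← hGr]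
      rw [ev, ev, eval_rename]
      rfl
    have a1 := abs_le.1 (hfr (d + 1) (by omega))
    have a2 := abs_le.1 (hA _ _ (S.der hl (hbig _ (by omega))))
    have a3 := abs_le.1 (hA _ _ (S.dbl.der hl (hbig _ le_rfl)))
    rw [e1] at h4
    have h5 : ‖S.Z.S S.G / S.Z.mu - S.pol.S (dn S.q S.G) / S.pol.mu‖ ^ 2 ≤ 8 * η := by
      refine h4.trans ?_
      have b1 : (S.Z.toTri.frz S.q).M / (S.Z.toTri.frz S.q).mu ≤ 2 := by
        have : (S.Z.toTri.frz S.q).M / (S.Z.toTri.frz S.q).mu - 1 ≤ η := a1.2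
        linarith
      have b2 : (S.Z.toTri.dbl S.q).M / (S.Z.toTri.dbl S.q).mu - 2 * (S.Z.M / S.Z.mu) +
          (S.Z.toTri.frz S.q).M / (S.Z.toTri.frz S.q).mu ≤ 4 * η := by
        have c1 : (S.Z.toTri.frz S.q).M / (S.Z.toTri.frz S.q).mu - 1 ≤ η := a1.2
        have c3 : (S.Z.toTri.dbl S.q).M / (S.Z.toTri.dbl S.q).mu - 1 ≤ η := a3.2
        linarith [a2.1]
      have b3 : 0 ≤ (S.Z.toTri.frz S.q).M / (S.Z.toTri.frz S.q).mu := by
        have : -η ≤ (S.Z.toTri.frz S.q).M / (S.Z.toTri.frz S.q).mu - 1 := a1.1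
        linarith
      nlinarith
    have h6 : 8 * η ≤ Real.exp (-(2 * E * y)) ^ 2 := by
      rw [← Real.exp_nat_mul, hη]
      have : (8 : ℝ) ≤ Real.exp (2 * y) := by
        have := Real.add_one_le_exp y
        rw [show 2 * y = y + y by ring, Real.exp_add]
        nlinarith
      refine (mul_le_mul_of_nonneg_right this (Real.exp_pos _).le).trans ?_
      rw [← Real.exp_add]
      refine Real.exp_le_exp.2 ?_
      push_cast
      nlinarith
    have h7 := abs_le_of_sq_le_sq' (h5.trans h6) (Real.exp_pos _).le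
    have p1 := mu_pos S.Z.toTri
    have p2 := mu_pos S.pol.toTri
    have h8 := norm_sub_norm_le (S.Z.S S.G / S.Z.mu) (S.pol.S (dn S.q S.G) / S.pol.mu)
    rw [norm_div, norm_div, Complex.norm_real, Complex.norm_real, Real.norm_of_nonneg p1.le,
      Real.norm_of_nonneg p2.le] at h8
    refine (le_div_iff₀ p2).1 (le_trans ?_ (by linarith [h7.2] :
      Real.exp (-(2 * E * y)) ≤ ‖S.pol.S (dn S.q S.G)‖ / S.pol.mu))
    exact Real.exp_le_exp.2 (by nlinarith)
  · rintro b r ⟨e, he, hr, hI⟩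
    have hs := S.sub (S.Z.frz S.q) Subtype.val (fun _ => rfl) (S.Z.rename_frz_tth S.clo) hl
      Set.univ 0 (Nat.zero_le _)
    have he1 : IsWeightedHomogeneous (S.Z.frz S.q).lev e (d + 1) := by
      simpa using S.hom_lev he.1
    have hG1 : IsWeightedHomogeneous (S.Z.frz S.q).lev (dn S.q S.G) (d + 1) := by
      simpa using S.hom_lev hGhom
    refine ⟨_, hs.pushE_hom he1, (hs.nrm_pushE (Stg.one_le_K _ _) he1).trans ?_, ?_⟩
    · rw [mul_comm]
      refine mul_le_mul ?_ hr (nrm_nonneg _) (Real.exp_pos _).le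
      have := (big_of_le (l := l) (j := d + 1) (J := d + 2) (by omega) (k := l + d + 2)
        (by omega) hD1 hD2)
      have h1' : ((2 : ℝ) ^ (d + 2) * ((l : ℝ) + (d + 2 : ℕ) + 1) ^ l) ^ (l + d + 2) ≤ D := by
        exact_mod_cast hD1
      have h3 : (2 : ℝ) ^ (d + 1) * ((l : ℝ) + (d + 1 : ℕ) + 1) ^ l ≤
          2 ^ (d + 2) * ((l : ℝ) + (d + 2 : ℕ) + 1) ^ l :=
        mul_le_mul (pow_le_pow_right₀ (by norm_num) (by omega))
          (pow_le_pow_left₀ (by positivity) (by push_cast; linarith) _) (by positivity)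
          (by positivity)
      refine ((pow_le_pow_left₀ (by positivity) h3 _).trans
        (pow_le_pow_right₀ (Stg.one_le_K l (d + 2)) (by omega))).trans (h1'.trans ?_)
      linarith [Real.add_one_le_exp (D : ℝ)]
    · have h1 := isInt_bind hs.int hI
      have h2 : S.pol.Th e = (S.Z.frz S.q).TTh e := by
        rw [Cell.TTh, show (S.Z.frz S.q).tth = S.pol.th from funext S.pol_tth]
        rfl
      have h3 : S.Z.top (d + 1) S.G = S.G := by
        rw [Cell.top, ← hGr, top_rename (w := (S.Z.frz S.q).lev) (w' := S.Z.lev)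
          (v := Subtype.val) (fun _ => rfl), top_of_hom hG1]
      have h4 := S.cov_G ((0 : ℕ) : ℤ)
      rw [h3, fd_pow, ← hGr, bind₁_rename] at h4
      rw [map_sub, map_mul, bind₁_C_right, h2, hs.bind_TTh] at h1
      erw [h4] at h1
      rwa [Nat.cast_mul, C_mul, mul_assoc]

end Crest.Agent.T49.Tw
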