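import Crest.Agent.T49.TwBunB_52

/-!
# Row 49: a biased form on a good tower is short (helper52)
-/

set_option autoImplicit false

open MvPolynomial

namespace Crest.Agent.T49.Tw
open Crest.Agent.T49.Lat (cast cast_apply)

theorem norm_sb_le52 : ∀ (n : ℕ) {ι : Type} [Fintype ι] (T : MT ι n) (F : Pl ι), ‖sb n T F‖ ≤ 1
  | 0, _, _, _, _ => (norm_ee _).le
  | n + 1, _, _, T, F => by
    have h0 := T.rho0_pos one_ne_zero
    rw [sb, norm_div, Complex.norm_real, Real.norm_of_nonneg h0.le, div_le_one h0]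
    refine tsum_of_norm_bounded (T.summable_gam one_ne_zero).hasSum fun p => ?_
    rw [norm_mul, Complex.norm_real, Real.norm_of_nonneg (T.gam_pos _ _).le]
    exact mul_le_of_le_one_right (T.gam_pos _ _).le (norm_sb_le52 n _ _)

theorem norm_sb_le_Ex {n : ℕ} {ι : Type} [Fintype ι] (T : MT ι (n + 1)) (F : Pl ι) :
    ‖sb (n + 1) T F‖ ≤ Ex (gw T.lat) fun p => ‖sb n (T.S1 p) (T.R1 p F)‖ := by
  have h0 := T.rho0_pos one_ne_zero
  have hs := (pw_gw T.lat_inj).summ (f := fun p => ‖sb n (T.S1 p) (T.R1 p F)‖) (M := 1)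
    fun p => by rw [abs_norm]; exact norm_sb_le52 n _ _
  rw [sb, ← tsum_div_const]
  refine tsum_of_norm_bounded hs.hasSum fun p => le_of_eq ?_
  rw [norm_div, norm_mul, Complex.norm_real, Complex.norm_real,
    Real.norm_of_nonneg (T.gam_pos _ _).le, Real.norm_of_nonneg h0.le, gw, T.gam_one, T.rho0_one]
  ring

theorem prb_bias {n : ℕ} {ι : Type} [Fintype ι] (T : MT ι (n + 1)) (F : Pl ι) {δ : ℝ}
    (hδ : 0 ≤ δ) (h : 2 * δ ≤ ‖sb (n + 1) T F‖) :
    δ ≤ T.prb (fun _ : Fin 1 => 1) fun p => δ ≤ ‖sb n (T.S1 (p 0)) (T.R1 (p 0) F)‖ := by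
  classical
  rw [T.prb_one_eq_Ex fun p => δ ≤ ‖sb n (T.S1 p) (T.R1 p F)‖]
  have hw := pw_gw T.lat_inj
  have h1 := norm_sb_le_Ex T F
  have hδ1 : δ ≤ 1 := by linarith [norm_sb_le52 (n + 1) T F]
  have h2 := hw.sub (f := fun p => ‖sb n (T.S1 p) (T.R1 p F)‖) (f' := fun _ => δ) (M := 1) (M' := 1)
    (fun p => by rw [abs_norm]; exact norm_sb_le52 n _ _) fun _ => by rwa [abs_of_nonneg hδ]
  rw [hw.const] at h2
  refine le_trans (by linarith) (le_of_eq_of_le h2.symm (hw.mono (M := 1) (fun p => ?_)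
    (fun p => by split_ifs <;> norm_num) fun p => ?_))
  · have := norm_sb_le52 n (T.S1 p) (T.R1 p F)
    have := norm_nonneg (sb n (T.S1 p) (T.R1 p F))
    rw [abs_le]; constructor <;> linarith
  · have := norm_sb_le52 n (T.S1 p) (T.R1 p F)
    split_ifs <;> linarith

theorem da_base {ι : Type} [Fintype ι] (T : MT ι 1) (F : Pl ι) {y : ℝ} (hT : T.Clean)
    (hF : T.Form F) (hy : Real.log (Fintype.card ι + 2) + 2 ≤ y)
    (hb : Real.exp (-y) ≤ ‖sb 1 T F‖) : T.Short F (Real.exp (2 * y)) := by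
  classical
  have hy2 := two_le_of_log (Nat.cast_nonneg _) hy
  have hcard := card_le_exp (Nat.cast_nonneg _) hy
  have hc0 : (Fintype.card T.C0 : ℝ) ≤ Fintype.card ι := by exact_mod_cast T.card_C0_le
  have hc00 : (0 : ℝ) ≤ Fintype.card T.C0 := Nat.cast_nonneg _
  set t : T.C0 → ℝ := fun c => coeff (Finsupp.single c.1 1) F with ht
  have hFt : F = ∑ c : T.C0, C (t c) * X c.1 := T.lin_C0 hF.1 rfl (Subsingleton.elim _ _) hF.2
  have h0 := Gau.th_pos T.lat_inj 0
  have e1 : sb 1 T F = Gau.thc T.lat 0 t / Gau.th T.lat 0 := by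
    rw [sb, T.rho0_one, Gau.thc]
    congr 1
    refine tsum_congr fun p => ?_
    rw [T.gam_one, add_zero, sb]
    congr 1
    show ee _ = ee _
    congr 1
    rw [T.res_eq_bind, ev_bind_of_eq (x := T.ext0 p) fun c => by
      rw [if_pos (Subsingleton.elim _ _), ev_C]]
    conv_lhs => rw [hFt]
    simp [ev_sum, dotProduct, T.ext0_C0]
  rw [e1, norm_div, Complex.norm_real, Real.norm_of_nonneg h0.le, le_div_iff₀ h0] at hb
  obtain ⟨k, hk⟩ := Gau.exists_of_bias T.lat_inj 0 t (Real.exp_pos _) hb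
  obtain ⟨v, hv1, hv2⟩ := T.exists_dual_basis
  have hX : ∀ c : T.C0, T.Form (X c.1) := fun c => by
    refine ⟨?_, X_mem_supp fun h => c.2.1 (by rw [h]; rfl)⟩
    convert isWeightedHomogeneous_X ℝ T.wt c.1 using 1
    funext i
    rw [Subsingleton.elim i 0, T.wt_zero_C0 c]; rfl
  refine ⟨∑ c : T.C0, C ((t - cast k) ⬝ᵥ v c) * X c.1, MT.Form.sum fun c _ => (hX c).C_mul _,
    ?_, ?_⟩
  · have h1 : √(Fintype.card T.C0 + 1 + Real.log (Real.exp (-y))⁻¹) ≤ Real.exp y := by
      rw [← Real.exp_neg, Real.log_exp, neg_neg, Real.sqrt_le_left (Real.exp_pos _).le]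
      have := Real.add_one_le_exp y
      nlinarith
    calc _ ≤ ∑ _c : T.C0, Real.exp y := (nrm_sum_le _ _).trans (Finset.sum_le_sum fun c _ => by
          rw [nrm_C_mul, nrm_X, mul_one]
          refine (hk _).trans ?_
          rwa [hv1, mul_one])
      _ = Fintype.card T.C0 * Real.exp y := by simp
      _ ≤ Real.exp y * Real.exp y := by gcongr; linarith
      _ = _ := by rw [← Real.exp_add, two_mul]
  · have e2 : T.Th (∑ c : T.C0, C ((t - cast k) ⬝ᵥ v c) * X c.1) =
        ∑ c : T.C0, C ((t - cast k) c) * X c.1 := by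
      have e2 : ∀ c : T.C0, T.Th (X c.1) = ∑ c' : T.C0, C (T.latM c c') * X c'.1 := fun c => by
        rw [Tri.Th, bind₁_X_right, T.th_C0 hT]
      simp only [map_sum, map_mul, e2, Finset.mul_sum, algHom_C, algebraMap_eq]
      rw [Finset.sum_comm]
      refine Finset.sum_congr rfl fun c' _ => ?_
      have e3 : (t - cast k) c' = (t - cast k) ⬝ᵥ (∑ c, T.latM c c' • v c) := by
        rw [hv2]
        simp [dotProduct, Pi.single_apply]
      rw [e3, dotProduct_sum, map_sum, Finset.sum_mul]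
      refine Finset.sum_congr rfl fun c _ => ?_
      rw [dotProduct_smul, smul_eq_mul, map_mul]
      ring
    rw [e2]
    conv => arg 1; arg 1; rw [hFt]
    rw [← Finset.sum_sub_distrib]
    refine isInt_sum fun c _ => ?_
    have : C (t c) * X c.1 - C ((t - cast k) c) * X c.1 = (C (k c : ℝ) * X c.1 : Pl ι) := by
      simp only [Pi.sub_apply, cast_apply, map_sub]
      ring
    rw [this]
    exact (isInt_X _).int_mul _

theorem da_of (hN : NDStmt) (hB : BundleStmt) : DAStmt := by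
  intro n
  induction n with
  | zero =>
    refine ⟨2, fun ι _ T F y η lam hT hF hy _ _ _ _ hb => ⟨1, le_rfl, ?_, ?_⟩⟩
    · have := two_le_of_log (Nat.cast_nonneg _) hy
      simpa using (by linarith : 0 ≤ y)
    · simpa using da_base T F hT hF hy hb
  | succ n ih =>
    obtain ⟨D1, ih⟩ := ih
    obtain ⟨DN, hN⟩ := hN n
    obtain ⟨DB, hB⟩ := hB n
    refine ⟨DN + (DB + 1) * (2 * D1 + 3) + 3, ?_⟩
    intro ι _ T F y η lam hT hF hy hl hlam hη hG hb
    classical
    have hy2 := two_le_of_log (Nat.cast_nonneg _) hy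
    have hcard := card_le_exp (Nat.cast_nonneg _) hy
    have hc : (0 : ℝ) ≤ Fintype.card ι := Nat.cast_nonneg _
    have h1 : (0 : ℝ) ≤ D1 * y := by positivity
    have h1' : (D1 : ℝ) ≤ D1 * y := le_mul_of_one_le_right (Nat.cast_nonneg _) (by linarith)
    have h2 : (0 : ℝ) ≤ DN * y := by positivity
    have h3 : (0 : ℝ) ≤ DB * y := by positivity
    have h4 : (0 : ℝ) ≤ DB * D1 * y := by positivity
    push_cast at hlam hη ⊢
    obtain ⟨g1, g2, g3, g4⟩ := hG
    have one1 : ∀ _ : Fin 1, (1 : ℝ) ≠ 0 := fun _ => one_ne_zero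
    have hem : Real.exp (-1) ≤ 2 / 5 := Real.exp_neg_one_lt_d9.le.trans (by norm_num)
    have hem2 : Real.exp (-2) ≤ 4 / 25 := by
      rw [show (-2 : ℝ) = -1 + -1 by norm_num, Real.exp_add]
      nlinarith [Real.exp_pos (-1)]
    have hη1 : η ≤ 1 / 100 := by
      refine hη.trans ((Real.exp_le_exp.2 (show _ ≤ -2 + -2 + -2 by linarith)).trans ?_)
      rw [Real.exp_add, Real.exp_add]
      have := Real.exp_pos (-2)
      nlinarith
    have hcU : ∀ k : ℕ, k ≤ 5 → (Fintype.card (T.UT k) : ℝ) + 2 ≤ Real.exp y := fun k hk => by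
      have h5 : Fintype.card (T.UT k) ≤ 5 * Fintype.card ι :=
        (T.card_UT_le k).trans (Nat.mul_le_mul_right _ (max_le (by norm_num) hk))
      have : (Fintype.card (T.UT k) : ℝ) ≤ 5 * Fintype.card ι := by exact_mod_cast h5
      linarith
    have hND : ∀ (k : ℕ) (s : Fin k → ℝ) (p : Fin k → T.C0 → ℤ), k ≤ 5 →
        Good η lam (n + 1) (T.step s p) →
        (T.step s p).ND (Real.exp (DB * ((2 * D1 + 3) * y))) := by
      intro k s p hk hg
      have h5 : ((Fintype.card (T.UT k) : ℝ) + 2) ^ DN ≤ Real.exp (DN * y) := by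
        rw [Real.exp_nat_mul]
        exact pow_le_pow_left₀ (by positivity) (hcU k hk) _
      have h6 : lam * (((Fintype.card (T.UT k) : ℝ) + 2) ^ DN *
          Real.exp (DB * ((2 * D1 + 3) * y))) ≤ 1 := by
        calc _ ≤ Real.exp (-((DN + (DB + 1) * (2 * D1 + 3) + 3) * y)) * (Real.exp (DN * y) *
              Real.exp (DB * ((2 * D1 + 3) * y))) := by gcongr
          _ ≤ _ := by
            rw [← Real.exp_add, ← Real.exp_add, Real.exp_le_one_iff]
            linarith
      have h7 : 1 ≤ Real.exp (DB * ((2 * D1 + 3) * y)) := Real.one_le_exp (by positivity)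
      have h8 : 0 < ((Fintype.card (T.UT k) : ℝ) + 2) ^ DN := by positivity
      refine (hN _ _ η lam (T.step_clean s p) hl ?_ hη1 hg).mono52 ?_
      · refine le_trans ?_ h6
        gcongr
        exact le_mul_of_one_le_right h8.le h7
      · rw [le_div_iff₀ h8, ← one_div, le_div_iff₀ hl]
        linarith
    -- dense set of points where the restriction is short
    have hp1 := prb_bias T F (δ := Real.exp (-(y + 1))) (Real.exp_pos _).le (le_trans (by
      rw [neg_add, Real.exp_add]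
      nlinarith [Real.exp_pos (-y)]) hb)
    have hp2 := T.prb_and_ge one1 (fun p => Real.exp (-(y + 1)) ≤
      ‖sb (n + 1) (T.S1 (p 0)) (T.R1 (p 0) F)‖) fun p => Good η lam (n + 1) (T.step (fun _ => 1) p)
    set B := ⌊Real.exp (D1 * (y + 1))⌋₊ with hBd
    have hp3 := T.prb_exists_le one1 (Finset.Icc 1 B) fun b p =>
      (T.S1 (p 0)).Short (C (b : ℝ) * T.R1 (p 0) F) (Real.exp (D1 * (y + 1)))
    have hcU1 : (Fintype.card (T.UT 1) : ℝ) ≤ Fintype.card ι := by
      exact_mod_cast (T.card_UT_le 1).trans (by simp)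
    have hp4 := T.prb_mono one1 (P := fun p => Real.exp (-(y + 1)) ≤
        ‖sb (n + 1) (T.S1 (p 0)) (T.R1 (p 0) F)‖ ∧ Good η lam (n + 1) (T.step (fun _ => 1) p))
      (Q := fun p => ∃ b ∈ Finset.Icc 1 B,
        (T.S1 (p 0)).Short (C (b : ℝ) * T.R1 (p 0) F) (Real.exp (D1 * (y + 1)))) fun p hp => by
      have e : p = fun _ => p 0 := funext fun i => by rw [Subsingleton.elim i 0]
      obtain ⟨b, hb1, hb2, hb3⟩ := ih _ (T.S1 (p 0)) (T.R1 (p 0) F) (y + 1) η lam
        (T.step_clean _ _) (T.res_form _ _ _ hF)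
        (log_card_mono (Nat.cast_nonneg _) hcU1 hy (by linarith)) hl
        (hlam.trans (Real.exp_le_exp.2 (by linarith))) (hη.trans (Real.exp_le_exp.2 (by linarith)))
        (by have := hp.2; rwa [e] at this) hp.1
      exact ⟨b, Finset.mem_Icc.2 ⟨hb1, Nat.le_floor hb2⟩, hb3⟩
    have hBle : (B : ℝ) ≤ Real.exp (D1 * (y + 1)) := Nat.floor_le (Real.exp_pos _).le
    have hη2 : η ≤ Real.exp (-(y + 1)) * Real.exp (-1) := by
      rw [← Real.exp_add]
      exact hη.trans (Real.exp_le_exp.2 (by linarith))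
    obtain ⟨b, hb1, hb2⟩ : ∃ b ∈ Finset.Icc 1 B, Real.exp (-((2 * D1 + 3) * y)) ≤
        T.prb (fun _ : Fin 1 => 1) fun p =>
          (T.S1 (p 0)).Short (C (b : ℝ) * T.R1 (p 0) F) (Real.exp (D1 * (y + 1))) := by
      by_contra hcon
      push Not at hcon
      have h5 := Finset.sum_le_card_nsmul _ _ _ fun b hb => (hcon b hb).le
      rw [Nat.card_Icc, Nat.add_sub_cancel, nsmul_eq_mul] at h5
      have h6 : (B : ℝ) * Real.exp (-((2 * D1 + 3) * y)) ≤ Real.exp (-(y + 1)) * Real.exp (-1) := by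
        refine (mul_le_mul_of_nonneg_right hBle (Real.exp_pos _).le).trans ?_
        rw [← Real.exp_add, ← Real.exp_add]
        exact Real.exp_le_exp.2 (by linarith)
      have h7 := Real.exp_pos (-(y + 1))
      nlinarith
    obtain ⟨hb1, hb1'⟩ := Finset.mem_Icc.1 hb1
    obtain ⟨b', hb3, hb4, hb5⟩ := hB ι T (C (b : ℝ) * F) ((2 * D1 + 3) * y) lam
      (Real.exp (DB * ((2 * D1 + 3) * y)))
      (fun p => (T.S1 p).Short (C (b : ℝ) * T.R1 p F) (Real.exp (D1 * (y + 1)))) hT (hF.C_mul _)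
      (by linarith) hl (hlam.trans (Real.exp_le_exp.2 (by linarith))) le_rfl
      (g1.trans (mul_le_mul_of_nonneg_right (by linarith) (T.mu0_pos hl).le))
      (hND 0 _ _ (by norm_num) g2)
      (le_trans (T.prb_mono (fun _ => by simp [sc5]) fun p hp hg => hp (hND 5 _ _ le_rfl hg))
        (g4.trans (hη.trans (Real.exp_le_exp.2 (by linarith))))) hb2
      (fun p hp => by
        rw [T.res_C_mul]
        exact hp.mono52 (Real.exp_le_exp.2 (by linarith)))
    refine ⟨b' * b, Nat.mul_pos hb3 hb1, ?_, ?_⟩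
    · have h5 : (b : ℝ) ≤ Real.exp (D1 * (y + 1)) := le_trans (by exact_mod_cast hb1') hBle
      calc ((b' * b : ℕ) : ℝ) = b' * b := by push_cast; ring
        _ ≤ Real.exp (DB * ((2 * D1 + 3) * y)) * Real.exp (D1 * (y + 1)) := by gcongr
        _ ≤ _ := by rw [← Real.exp_add]; exact Real.exp_le_exp.2 (by linarith)
    · rw [← mul_assoc, ← map_mul, ← Nat.cast_mul] at hb5
      exact hb5.mono52 (Real.exp_le_exp.2 (by linarith))

end Crest.Agent.T49.Tw
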