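import Crest.Agent.T49.TwCert_66

/-!
# Row 49 (helper66): CERT in a formalism-free form: diagonal patterns
-/

set_option autoImplicit false

open MvPolynomial

noncomputable section

namespace Crest.Agent.T49.Tw.Cert66

open ENNReal

variable {ι ι' ι'' : Type} {n : ℕ}

open Classical in
/-- the substitution that keeps the coordinates in `q` -/
def kp (π : ι' → ι) (q : ι' → Prop) (c : ι') : Pl ι := if q c then X (π c) else 0

/-- the substitution that lifts the variables along `ρ` -/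
def lf (ρ : ι → Option ι') (c : ι) : Pl ι' := (ρ c).elim 0 X

open Classical in
/-- data of a diagonal pattern: `θ'_{c'} = f c' · θ_{π c'}` in lifted variables -/
structure PatD (T : Tri ι) (T' : Tri ι') (π : ι' → ι) (K : ℝ) (f : ι' → ℝ)
    (ρ : ι' → ι → Option ι') : Prop where
  f_ne : ∀ c, f c ≠ 0
  f_le : ∀ c, |f c| ≤ K
  lift : ∀ c' c c'', ρ c' c = some c'' → π c'' = c
  a_eq : ∀ c, T'.a c = f c * T.a (π c)
  B_eq : ∀ c, T'.B c = C (f c) * bind₁ (lf (ρ c)) (T.B (π c))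
  sec : ∀ c0, ∃ q : ι' → Prop, q c0 ∧ (∀ c c', q c → q c' → π c = π c' → c = c') ∧
    ∀ c, bind₁ (kp π q) (T'.th c) = if q c then C (f c) * T.th (π c) else 0

/-- `T'` is a diagonal pattern over `T` with at most `N` copies and factors at most `K` -/
structure Pat [Fintype ι] [Fintype ι'] (T : Tri ι) (T' : Tri ι') (π : ι' → ι) (N K : ℝ) :
    Prop where
  fib : ∀ g : ι → ℝ, (∀ c, 0 ≤ g c) → ∑ c, g (π c) ≤ N * ∑ c, g c
  ex : ∃ f ρ, PatD T T' π K f ρ

theorem patD_refl (T : Tri ι) : PatD T T id 1 (fun _ => 1) fun _ => some where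
  f_ne _ := one_ne_zero
  f_le _ := by simp
  lift _ _ _ h := (Option.some_injective _ h).symm
  a_eq _ := by simp
  B_eq c := by
    rw [C_1, one_mul, show lf (some : ι → Option ι) = X from rfl]
    simp
  sec c0 := ⟨fun _ => True, trivial, fun _ _ _ _ h => h, fun c => by
    rw [show kp (id : ι → ι) (fun _ => True) = X from funext fun c => if_pos trivial]
    simp⟩

theorem pat_refl [Fintype ι] (T : Tri ι) : Pat T T id 1 1 :=
  ⟨fun _ _ => by simp, _, _, patD_refl T⟩

theorem PatD.trans {T : Tri ι} {T' : Tri ι'} {T'' : Tri ι''} {π : ι' → ι} {π' : ι'' → ι'}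
    {K K' : ℝ} {f : ι' → ℝ} {f' : ι'' → ℝ} {ρ : ι' → ι → Option ι'} {ρ' : ι'' → ι' → Option ι''}
    (h : PatD T T' π K f ρ) (h' : PatD T' T'' π' K' f' ρ') :
    PatD T T'' (fun c => π (π' c)) (K' * K) (fun c => f' c * f (π' c))
      fun c'' c => (ρ (π' c'') c).bind (ρ' c'') where
  f_ne c := mul_ne_zero (h'.f_ne c) (h.f_ne _)
  f_le c := by
    rw [abs_mul]
    exact mul_le_mul (h'.f_le c) (h.f_le _) (abs_nonneg _) ((abs_nonneg _).trans (h'.f_le c))
  lift c'' c d hd := by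
    obtain ⟨e, he, hd⟩ := Option.bind_eq_some_iff.1 hd
    rw [h'.lift _ _ _ hd, h.lift _ _ _ he]
  a_eq c := by rw [h'.a_eq, h.a_eq, mul_assoc]
  B_eq c := by
    rw [h'.B_eq, h.B_eq, map_mul, bind₁_C_right, bind₁_bind₁, C_mul, mul_assoc]
    congr 4
    funext d
    simp only [lf]
    cases ρ (π' c) d <;> simp [lf]
  sec c0 := by
    classical
    obtain ⟨q', h1, h2, h3⟩ := h'.sec c0
    obtain ⟨q, g1, g2, g3⟩ := h.sec (π' c0)
    refine ⟨fun c => q' c ∧ q (π' c), ⟨h1, g1⟩,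
      fun c c' hc hc' e => h2 c c' hc.1 hc'.1 (g2 _ _ hc.2 hc'.2 e), fun c => ?_⟩
    have e : kp (fun c => π (π' c)) (fun c => q' c ∧ q (π' c)) =
        fun c => bind₁ (kp π q) (kp π' q' c) := by
      funext d
      unfold kp
      by_cases e1 : q' d <;> by_cases e2 : q (π' d) <;> simp [e1, e2]
    rw [e, ← bind₁_bind₁, h3]
    by_cases e1 : q' c
    · rw [if_pos e1, map_mul, bind₁_C_right, g3]
      by_cases e2 : q (π' c) <;> simp [e1, e2, mul_assoc]
    · simp [e1]

theorem Pat.trans [Fintype ι] [Fintype ι'] [Fintype ι''] {T : Tri ι} {T' : Tri ι'} {T'' : Tri ι''}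
    {π : ι' → ι} {π' : ι'' → ι'} {N N' K K' : ℝ} (h : Pat T T' π N K) (h' : Pat T' T'' π' N' K')
    (hN : 0 ≤ N') : Pat T T'' (fun c => π (π' c)) (N' * N) (K' * K) := by
  obtain ⟨f, ρ, h1⟩ := h.ex
  obtain ⟨f', ρ', h2⟩ := h'.ex
  refine ⟨fun g hg => (h'.fib (fun c => g (π c)) fun _ => hg _).trans ?_, _, _, h1.trans h2⟩
  rw [mul_assoc]
  exact mul_le_mul_of_nonneg_left (h.fib g hg) hN

theorem Pat.mono [Fintype ι] [Fintype ι'] {T : Tri ι} {T' : Tri ι'} {π : ι' → ι} {N N' K K' : ℝ}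
    (h : Pat T T' π N K) (hN : N ≤ N') (hK : K ≤ K') : Pat T T' π N' K' := by
  obtain ⟨f, ρ, h1⟩ := h.ex
  exact ⟨fun g hg => (h.fib g hg).trans
      (mul_le_mul_of_nonneg_right hN (Finset.sum_nonneg fun _ _ => hg _)),
    f, ρ, h1.f_ne, fun c => (h1.f_le c).trans hK, h1.lift, h1.a_eq, h1.B_eq, h1.sec⟩

/-- the lift of the variables used by a copy -/
def rh (T : MT ι (n + 1)) (k : ℕ) : T.UT k → ι → Option (T.UT k)
  | Sum.inl _, c => if h : T.wt c 0 = 0 then some (Sum.inl ⟨c, h⟩) else none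
  | Sum.inr c', c => some (T.cp c'.2 c)

theorem pat_unfold [Fintype ι] (T : MT ι (n + 1)) {k : ℕ} (hk : k ≤ 5) {s : Fin k → ℝ} {K : ℝ}
    (hK : 1 ≤ K) (hs : ∀ i, 0 < s i) (hsK : ∀ i, (s i)⁻¹ ≤ K) :
    Pat T.toTri (T.unfold s).toTri (T.pr k) 5 K := by
  refine ⟨fun g hg => sum_pr_le T hk hg, fc T s, rh T k, fc_ne T s, abs_fc_le T hK hs hsK, ?_,
    unfold_a T s, fun c => ?_, fun c0 => ?_⟩
  · rintro (c' | c') c d hd
    · simp only [rh] at hd
      split_ifs at hd
      cases hd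
      rfl
    · cases hd
      exact T.pr_cp _ _
  · change C (fc T s c) * T.cpB k c = _
    congr 1
    rcases c with c | c
    · change bind₁ _ _ = bind₁ _ _
      congr 2
      funext d
      simp only [lf, rh]
      split_ifs <;> rfl
    · exact rename_eq_bind _ _
  · obtain ⟨o, ho⟩ : ∃ o, keep T o c0 := by
      rcases c0 with c | c
      exacts [⟨none, trivial⟩, ⟨some c.2, rfl⟩]
    exact ⟨keep T o, ho, fun c c' => keep_inj T, sg_th T s o⟩

theorem AA_le_pat {ι0 : Type} [Fintype ι0] {T0 : Tri ι0} {y ε : ℝ} (hy : 2 ≤ y) {N : ℕ}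
    (hA : ∀ (κ : Type) [Fintype κ] (T' : Tri κ) (π : κ → ι0),
      Pat T0 T' π (5 ^ N) (Real.exp (N * y)) → T'.M / T'.mu ≤ 1 + ε) (n : ℕ) :
    ∀ {ι : Type} [Fintype ι] (T : MT ι n) (π : ι → ι0) (a : ℕ),
    a + n = N → Pat T0 T.toTri π (5 ^ a) (Real.exp (a * y)) →
    ∑' x, ENNReal.ofReal (wp T x) * AA (Real.exp (-y)) n (T.spec (xt T x)) ≤
      4 ^ n * ENNReal.ofReal (1 + ε) := by
  induction n with
  | zero =>
    intro ι _ T π a ha h
    obtain rfl : a = N := ha
    refine (tsum_zero T fun _ => 1).trans_le ?_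
    simp only [mul_one, pow_zero, one_mul]
    rw [tsum_wgt]
    exact ENNReal.ofReal_le_ofReal (hA _ _ π h)
  | succ n ih =>
    intro ι _ T π a ha h
    have e1 : (1 : ℝ) ≤ Real.exp y := Real.one_le_exp (by linarith)
    have key : ∀ {k : ℕ} (s : Fin k → ℝ), k ≤ 5 → (∀ i, 0 < s i) → (∀ i, (s i)⁻¹ ≤ Real.exp y) →
        ∑' x, ENNReal.ofReal (wp T x) * EE (T.spec (xt T x)) s
          (fun p => AA (Real.exp (-y)) n ((T.spec (xt T x)).step s p)) ≤
        4 ^ n * ENNReal.ofReal (1 + ε) := fun s hk hs hsK =>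
      (EE_unfold T hs _).trans_le (ih _ _ (a + 1) (by omega)
        ((h.trans (pat_unfold T hk e1 hs hsK) (by norm_num)).mono (pow_succ' _ _).ge
          (by rw [← Real.exp_add]; push_cast; exact le_of_eq (by ring_nf))))
    have g1 := key (Fin.elim0 : Fin 0 → ℝ) (by norm_num) (fun i => i.elim0) fun i => i.elim0
    have g2 := key (fun _ : Fin 1 => 1) (by norm_num) (fun _ => one_pos) fun _ => by simpa using e1
    have g3 := key (fun _ : Fin 1 => Real.exp (-y)) (by norm_num) (fun _ => Real.exp_pos _)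
      fun _ => by rw [Real.exp_neg, inv_inv]
    have g4 := key (sc5 (Real.exp (-y))) le_rfl (sc5_pos _) fun _ => by
      rw [sc5, inv_inv]
      have := Real.add_one_le_exp y
      exact (Real.sqrt_le_iff.2 ⟨by norm_num, by norm_num⟩ : √2 ≤ 2).trans (by linarith)
    simp only [AA, mul_add, ENNReal.tsum_add]
    refine (add_le_add (add_le_add (add_le_add g1 g2) g3) g4).trans (le_of_eq ?_)
    ring

/-- CERT, formalism-free: only upper bounds for the masses of the diagonal patterns are used -/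
theorem cert_pat [Fintype ι] (T : MT ι n) (h : ∀ c, T.wt c ≠ 0) {y : ℝ} (hy : 2 ≤ y)
    (hA : ∀ (κ : Type) [Fintype κ] (T' : Tri κ) (π : κ → ι),
      Pat T.toTri T' π (5 ^ n) (Real.exp (n * y)) →
        T'.M / T'.mu ≤ 1 + Real.exp (-((2 * n + 1) * y))) :
    Good (Real.exp (-y)) (Real.exp (-y)) n T ∧
      ∀ F, ‖T.S F / T.mu - sb n T F‖ ≤ Real.exp (-y) := by
  have p3 : (0 : ℝ) ≤ n := Nat.cast_nonneg n
  have hT : T.Clean := fun c => by
    rw [show T.act = Set.univ from Set.eq_univ_of_forall h]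
    simp
  refine ⟨good_of_AA latFact (Real.exp_pos _) (Real.exp_pos _)
    (Real.exp_le_one_iff.2 (by linarith)) n T hT ?_, fun F => (norm_sub_sb_le T h F).trans ?_⟩
  · have h1 := AA_le_pat hy hA n T id 0 (zero_add n) (by simpa using pat_refl T.toTri)
    rw [tsum_act T h fun z => AA (Real.exp (-y)) n (T.spec z), spec_of_act T h,
      ENNReal.ofReal_add zero_le_one (Real.exp_pos _).le, ENNReal.ofReal_one, mul_add,
      mul_one] at h1
    refine h1.trans (add_le_add le_rfl ?_)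
    rw [show (4 : ENNReal) ^ n = ENNReal.ofReal (4 ^ n) by simp [ENNReal.ofReal_pow],
      ← ENNReal.ofReal_mul (by positivity)]
    refine ENNReal.ofReal_le_ofReal ?_
    have h4 : (4 : ℝ) ≤ Real.exp y := by
      have := Real.add_one_le_exp (y / 2)
      rw [show y = y / 2 + y / 2 by ring, Real.exp_add]
      nlinarith
    refine (mul_le_mul_of_nonneg_right (pow_le_pow_left₀ (by norm_num) h4 n)
      (Real.exp_pos _).le).trans ?_
    rw [← Real.exp_nat_mul, ← Real.exp_nat_mul, ← Real.exp_add, Real.exp_le_exp]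
    nlinarith
  · have h1 := hA _ _ id ((pat_refl T.toTri).mono (one_le_pow₀ (by norm_num))
      (Real.one_le_exp (by nlinarith)))
    have h2 : Real.exp (-((2 * n + 1) * y)) ≤ Real.exp (-y) := Real.exp_le_exp.2 (by nlinarith)
    linarith

/-! ### properties inherited by a pattern -/

section
variable {T : Tri ι} {T' : Tri ι'} {π : ι' → ι} {K : ℝ} {f : ι' → ℝ} {ρ : ι' → ι → Option ι'}

theorem PatD.lf_cases (h : PatD T T' π K f ρ) (c' : ι') (c : ι) :
    lf (ρ c') c = 0 ∨ ∃ d, π d = c ∧ lf (ρ c') c = X d := by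
  unfold lf
  rcases e : ρ c' c with _ | d
  · exact Or.inl rfl
  · exact Or.inr ⟨d, h.lift _ _ _ e, rfl⟩

theorem PatD.hom (h : PatD T T' π K f ρ) {M : Type} [AddCommMonoid M] {w : ι → M} {c : ι'}
    {d : M} (hw : IsWeightedHomogeneous w (T.B (π c)) d) :
    IsWeightedHomogeneous (fun c => w (π c)) (T'.B c) d := by
  rw [h.B_eq]
  have h1 : IsWeightedHomogeneous (fun c => w (π c)) (bind₁ (lf (ρ c)) (T.B (π c))) d := by
    refine hom_bind (AddMonoidHom.id M) (fun e => ?_) hw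
    rcases h.lf_cases c e with h0 | ⟨d, rfl, h0⟩ <;> rw [h0]
    · exact isWeightedHomogeneous_zero _ _ _
    · exact isWeightedHomogeneous_X _ _ _
  have := (isWeightedHomogeneous_C _ (f c)).mul h1
  rwa [zero_add] at this

theorem PatD.degLe (h : PatD T T' π K f ρ) {w : ι → ℕ} {c : ι'} {d : ℕ}
    (hw : DegLe w (T.B (π c)) d) : DegLe (fun c => w (π c)) (T'.B c) d := by
  rw [h.B_eq]
  refine DegLe.C_mul (DegLe.bind (fun e => ?_) hw) _
  rcases h.lf_cases c e with h0 | ⟨d, rfl, h0⟩ <;> rw [h0]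
  · intro m hm; simp at hm
  · exact Ch4.hom_degLe (isWeightedHomogeneous_X _ _ _)

theorem PatD.supp (h : PatD T T' π K f ρ) {s : Set ι} {c : ι'}
    (hs : T.B (π c) ∈ supported ℝ s) : T'.B c ∈ supported ℝ {c | π c ∈ s} := by
  rw [h.B_eq]
  refine mul_mem (C_mem_supp _ _) (bind_mem_supported (fun e he => ?_) hs)
  rcases h.lf_cases c e with h0 | ⟨d, rfl, h0⟩ <;> rw [h0]
  · exact zero_mem _
  · exact X_mem_supp he

theorem PatD.abs_a_le (h : PatD T T' π K f ρ) (c : ι') : |T'.a c| ≤ K * |T.a (π c)| := by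
  rw [h.a_eq, abs_mul]
  exact mul_le_mul_of_nonneg_right (h.f_le c) (abs_nonneg _)

end

end Crest.Agent.T49.Tw.Cert66
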