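import Crest.Agent.T49.TwTag_4

/-!
# Row 49: iterated doubling of a cell, algebraic invariants (helper4)
-/

set_option autoImplicit false
set_option linter.unusedSectionVars false

open MvPolynomial

namespace Crest.Agent.T49.Tw

namespace Ch4

theorem fd_cast (k : ℕ) (f : ℤ → ℤ) :
    (fwdDiff 1)^[k] (fun t => ((f t : ℤ) : ℝ)) = fun t => (((fwdDiff 1)^[k] f t : ℤ) : ℝ) := by
  induction k generalizing f with
  | zero => rfl
  | succ k ih =>
    rw [Function.iterate_succ_apply, Function.iterate_succ_apply, ← ih]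
    congr 1
    funext t
    simp [fwdDiff]

theorem fd_pow (k : ℕ) :
    (fwdDiff 1)^[k] (fun t : ℤ => (t : ℝ) ^ k) = fun _ => (k.factorial : ℝ) := by
  have := fd_cast k fun t => t ^ k
  rw [fwdDiff_iter_eq_factorial] at this
  simpa using this

theorem fd_shift {G : Type} [AddCommGroup G] {k : ℕ} {f : ℤ → G} {L : G}
    (h : (fwdDiff 1)^[k] f = fun _ => L) (a : ℤ) :
    (fwdDiff 1)^[k] (fun t => f (t + a)) = fun _ => L := by
  funext t
  rw [fwdDiff_iter_comp_add, h]

theorem fd_exists {k : ℕ} {f : ℤ → ℝ} {L : ℝ} (h : (fwdDiff 1)^[k] f = fun _ => L) (hL : L ≠ 0) :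
    ∃ t : ℕ, t ≤ k ∧ f t ≠ 0 := by
  by_contra h0
  push Not at h0
  have h1 := congrFun h 0
  rw [fwdDiff_iter_eq_sum_shift] at h1
  refine hL (h1.symm.trans (Finset.sum_eq_zero fun i hi => ?_))
  have := h0 i (Nat.lt_succ_iff.1 (Finset.mem_range.1 hi))
  simp [this]

theorem fd_zero {G : Type} [AddCommGroup G] (k : ℕ) :
    (fwdDiff (1 : ℤ))^[k] (fun _ => (0 : G)) = fun _ => 0 := by
  induction k with
  | zero => rfl
  | succ k ih => rw [Function.iterate_succ_apply, fwdDiff_const, ih]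

/-- the cell after `j` doublings, with its invariants -/
structure Stg {ι : Type} [Fintype ι] (T : Cell ι) (F : Pl ι) (d j : ℕ) where
  κ : Type
  [fin : Fintype κ]
  Z : Cell κ
  G : Pl κ
  res : κ → ℕ
  sl : κ → ℕ → ℕ
  π : κ → ι
  n : Set ℕ → κ → ℤ → ℤ
  m : Set ℕ → κ → ℤ → ℝ
  lev_eq : ∀ c, Z.lev c = T.lev (π c)
  lev_sum : ∀ c, Z.lev c = res c + ∑ i ∈ Finset.range j, sl c i
  sl_le : ∀ c i, sl c i ≤ 1
  sl_zero : ∀ c i, j ≤ i → sl c i = 0
  inj : ∀ c c', π c = π c' → sl c = sl c' → c = c'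
  card_le : Fintype.card κ ≤ 2 ^ j * Fintype.card ι
  kap_le : ∀ l, Z.kap l ≤ 3 ^ j * T.kap l
  tagB : ∀ c, Tag res sl (Z.B c) (res c) (sl c)
  tagG : Tag res sl G (((d + 1 : ℕ) : ℤ) - j) fun i => if i < j then 1 else 0
  cov_th : ∀ A t c, bind₁ (fun c => C (n A c t : ℝ) * X (π c)) (Z.tth c) =
    C (m A c t) * T.tth (π c)
  cov_G : ∀ t : ℤ, bind₁ (fun c => C (n Set.univ c t : ℝ) * X (π c)) (Z.top (d + 1) G) =
    C ((fwdDiff 1)^[j] (fun t : ℤ => (t : ℝ) ^ (d + 1)) t) * T.top (d + 1) F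
  n_const : ∀ A c, ∃ L, (fwdDiff 1)^[res c] (n A c) = fun _ => L
  m_lead : ∀ A c, (∀ i, sl c i ≠ 0 → i ∈ A) →
    ∃ L, L ≠ 0 ∧ (fwdDiff 1)^[res c] (m A c) = fun _ => L
  m_zero : ∀ A c i, sl c i ≠ 0 → i ∉ A → m A c = 0
  m_bdd : ∀ A c (t : ℤ), 0 ≤ t → |m A c t| ≤ 2 ^ j * ((t : ℝ) + j + 1) ^ Z.lev c

attribute [instance] Stg.fin

variable {ι : Type} [Fintype ι] {T : Cell ι} {F : Pl ι} {d j : ℕ}

theorem tag_of_degLe {w : ι → ℕ} {f : Pl ι} {r : ℕ} (h : DegLe w f r) :
    Tag w (fun _ _ => 0) f r 0 := fun m hm =>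
  ⟨by exact_mod_cast h m hm, fun _ => by
    rw [Finsupp.weight_apply, Finsupp.sum]
    exact Finset.sum_eq_zero fun _ _ => smul_zero _⟩

/-- the initial stage -/
noncomputable def Stg.base (T : Cell ι) (F : Pl ι) (d : ℕ) (hF : DegLe T.lev F (d + 1)) :
    Stg T F d 0 where
  κ := ι
  Z := T
  G := F
  res := T.lev
  sl _ _ := 0
  π := id
  n _ c t := t ^ T.lev c
  m _ c t := (t : ℝ) ^ T.lev c
  lev_eq _ := rfl
  lev_sum _ := by simp
  sl_le _ _ := zero_le_one
  sl_zero _ _ _ := rfl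
  inj _ _ h _ := h
  card_le := by simp
  kap_le _ := by simp
  tagB c := tag_of_degLe (T.deg c)
  tagG := by
    have := tag_of_degLe hF
    simp only [Nat.cast_zero, sub_zero, Nat.not_lt_zero, if_false]
    exact this
  cov_th _ t c := by
    simpa using bind_dil (tth_hom T c) (t : ℝ)
  cov_G t := by
    simpa using bind_dil (w := T.lev) (f := T.top (d + 1) F)
      (weightedHomogeneousComponent_isWeightedHomogeneous _ _) (t : ℝ)
  n_const _ c := ⟨_, fwdDiff_iter_eq_factorial⟩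
  m_lead _ c _ := ⟨_, Nat.cast_ne_zero.2 (Nat.factorial_ne_zero _), fd_pow _⟩
  m_zero _ _ _ h := absurd rfl h
  m_bdd _ c t ht := by
    have : (0 : ℝ) ≤ t := by exact_mod_cast ht
    rw [abs_of_nonneg (by positivity)]
    simp only [pow_zero, one_mul, Nat.cast_zero, add_zero]
    exact pow_le_pow_left₀ this (by linarith) _

namespace Stg
variable (S : Stg T F d j)

/-- frozen coordinates -/
abbrev q : S.κ → Prop := fun c => S.res c = 0

theorem clo : S.Z.Clo S.q := fun c hc => by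
  have := S.tagB c
  rw [show S.res c = 0 from hc] at this
  exact this.mem_supp

open Classical in
/-- the shift in the new slot -/
noncomputable def sa (j : ℕ) (A : Set ℕ) : ℤ := if j ∈ A then 1 else 0

theorem sa_mem {A : Set ℕ} (h : j ∈ A) : sa j A = 1 := if_pos h

theorem sa_notMem {A : Set ℕ} (h : j ∉ A) : sa j A = 0 := if_neg h

theorem sa_bdd (j : ℕ) (A : Set ℕ) : 0 ≤ sa j A ∧ sa j A ≤ 1 := by
  unfold sa; split_ifs <;> simp

/-- new residual degrees -/
def res' : DI S.q → ℕ := Sum.elim S.res fun c => S.res c.1 - 1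

/-- new slots -/
def sl' : DI S.q → ℕ → ℕ := Sum.elim S.sl fun c => S.sl c.1 + Pi.single j 1

/-- new projection -/
def π' : DI S.q → ι := Sum.elim S.π fun c => S.π c.1

/-- new integer multipliers -/
noncomputable def n' (A : Set ℕ) : DI S.q → ℤ → ℤ :=
  Sum.elim (S.n A) fun c t => S.n A c.1 (t + sa j A) - S.n A c.1 t

/-- new real multipliers -/
noncomputable def m' (A : Set ℕ) : DI S.q → ℤ → ℝ :=
  Sum.elim (fun c t => if S.res c = 0 then S.m A c t else
      (√2)⁻¹ * (S.m A c (t + sa j A) + S.m A c t))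
    fun c t => (√2)⁻¹ * (S.m A c.1 (t + sa j A) - S.m A c.1 t)

theorem bind_sh0 (A : Set ℕ) (t : ℤ) (f : Pl S.κ) :
    bind₁ (fun c => C (S.n' A c t : ℝ) * X (S.π' c)) (sh0 S.q f) =
      bind₁ (fun c => (C (S.n A c t : ℝ) * X (S.π c) : Pl ι)) f := by
  rw [sh0, bind₁_rename]
  rfl

theorem bind_sh1 (A : Set ℕ) (t : ℤ) (f : Pl S.κ) :
    bind₁ (fun c => C (S.n' A c t : ℝ) * X (S.π' c)) (sh1 S.q f) =
      bind₁ (fun c => (C (S.n A c (t + sa j A) : ℝ) * X (S.π c) : Pl ι)) f := by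
  rw [sh1, bind₁_bind₁]
  congr 2
  funext c
  split_ifs with h
  · obtain ⟨L, hL⟩ := S.n_const A c
    rw [show S.res c = 0 from h] at hL
    have hL' : S.n A c = fun _ => L := hL
    simp [n', π', hL']
  · simp only [map_add, bind₁_X_right, n', π', Sum.elim_inl, Sum.elim_inr, Int.cast_sub, map_sub]
    ring

theorem tag_X0 (c : S.κ) : Tag S.res' S.sl' (X (Sum.inl c)) (S.res c) (S.sl c) :=
  Tag.X (res := S.res') (sl := S.sl') (Sum.inl c)

theorem tag_Xr (c : S.κ) (h : ¬ S.q c) :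
    Tag S.res' S.sl' (X (Sum.inr ⟨c, h⟩)) ((S.res c : ℤ) - 1) (S.sl c + Pi.single j 1) := by
  have := Tag.X (res := S.res') (sl := S.sl') (Sum.inr ⟨c, h⟩)
  have h1 : S.res c ≠ 0 := h
  have h2 : ((S.res' (Sum.inr ⟨c, h⟩) : ℕ) : ℤ) = (S.res c : ℤ) - 1 := by
    show ((S.res c - 1 : ℕ) : ℤ) = _
    omega
  rwa [h2] at this

theorem tag_X1 (c : S.κ) [Decidable (S.q c)] : Tag S.res' S.sl'
    (if h : S.q c then X (Sum.inl c) else X (Sum.inl c) + X (Sum.inr ⟨c, h⟩)) (S.res c)
    (S.sl c) := by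
  split_ifs with h
  · exact S.tag_X0 c
  · exact (S.tag_X0 c).add ((S.tag_Xr c h).weaken (by omega))

theorem tag_sh0 {f : Pl S.κ} {r : ℤ} {U : ℕ → ℕ} (hf : Tag S.res S.sl f r U) :
    Tag S.res' S.sl' (sh0 S.q f) r U := by
  rw [sh0_eq_bind]; exact Tag.bind S.tag_X0 hf

theorem tag_sh1 {f : Pl S.κ} {r : ℤ} {U : ℕ → ℕ} (hf : Tag S.res S.sl f r U) :
    Tag S.res' S.sl' (sh1 S.q f) r U := Tag.bind (fun c => @tag_X1 _ _ _ _ _ _ S c (_)) hf

theorem tag_delta {f : Pl S.κ} {r : ℤ} {U : ℕ → ℕ} (hf : Tag S.res S.sl f r U) :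
    Tag S.res' S.sl' (sh1 S.q f - sh0 S.q f) (r - 1) (U + Pi.single j 1) := by
  rw [sh0_eq_bind]
  refine Tag.delta S.tag_X0 (fun c => @tag_X1 _ _ _ _ _ _ S c (_)) (fun c => ?_) hf
  split_ifs with h
  · rw [sub_self]; exact Tag.zero
  · rw [add_sub_cancel_left]; exact S.tag_Xr c h

/-- the next stage -/
noncomputable def dbl : Stg T F d (j + 1) where
  κ := DI S.q
  Z := S.Z.dbl S.q
  G := sh1 S.q S.G - sh0 S.q S.G
  res := S.res'
  sl := S.sl'
  π := S.π'
  n := S.n'
  m := S.m'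
  lev_eq c := by
    rcases c with c | c
    exacts [S.lev_eq c, S.lev_eq c.1]
  lev_sum c := by
    rw [Finset.sum_range_succ]
    rcases c with c | c
    · show S.Z.lev c = S.res c + (∑ i ∈ Finset.range j, S.sl c i + S.sl c j)
      rw [S.sl_zero c j le_rfl, add_zero, S.lev_sum]
    · have h1 : S.res c.1 ≠ 0 := c.2
      have h2 : ∑ i ∈ Finset.range j, S.sl' (Sum.inr c) i = ∑ i ∈ Finset.range j, S.sl c.1 i :=
        Finset.sum_congr rfl fun i hi => by
          have : i ≠ j := (Finset.mem_range.1 hi).ne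
          simp [sl', this]
      have h3 : S.sl' (Sum.inr c) j = 1 := by simp [sl', S.sl_zero c.1 j le_rfl]
      rw [h2, h3]
      show S.Z.lev c.1 = S.res c.1 - 1 + _
      rw [S.lev_sum]
      omega
  sl_le c i := by
    rcases c with c | c
    · exact S.sl_le c i
    · by_cases h : i = j
      · subst h; simp [sl', S.sl_zero c.1 i le_rfl]
      · simpa [sl', h] using S.sl_le c.1 i
  sl_zero c i hi := by
    rcases c with c | c
    · exact S.sl_zero c i (by omega)
    · have h : i ≠ j := by omega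
      simpa [sl', h] using S.sl_zero c.1 i (by omega)
  inj c c' h1 h2 := by
    rcases c with c | c <;> rcases c' with c' | c'
    · rw [S.inj c c' h1 h2]
    · have := congrFun h2 j
      simp [sl', S.sl_zero _ j le_rfl] at this
    · have := congrFun h2 j
      simp [sl', S.sl_zero _ j le_rfl] at this
    · rw [Subtype.ext (S.inj c.1 c'.1 h1 (add_right_cancel h2))]
  card_le := by
    have h1 := Cell.dbl_card_le S.q
    have h2 := S.card_le
    rw [pow_succ]
    nlinarith
  kap_le l := by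
    have h1 := S.Z.dbl_kap_le S.q l
    have h2 := S.kap_le l
    rw [pow_succ]
    linarith
  tagB c := by
    rcases c with c | c
    · by_cases h : S.q c
      · rw [show (S.Z.dbl S.q).B (Sum.inl c) = _ from Tri.dbl_B_fr _ h]
        exact S.tag_sh0 (S.tagB c)
      · rw [show (S.Z.dbl S.q).B (Sum.inl c) = _ from Tri.dbl_B_live _ h]
        exact Tag.C_mul _ ((((S.tag_Xr c h).weaken (by
          show _ < (S.res c : ℤ); omega)).C_mul _).add (S.tag_sh1 (S.tagB c))
          |>.add (S.tag_sh0 (S.tagB c)))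
    · have h1 : S.res c.1 ≠ 0 := c.2
      have h2 : ((S.res' (Sum.inr c) : ℕ) : ℤ) = (S.res c.1 : ℤ) - 1 := by
        show ((S.res c.1 - 1 : ℕ) : ℤ) = _
        omega
      rw [h2]
      exact Tag.C_mul _ (S.tag_delta (S.tagB c.1))
  tagG := by
    have := S.tag_delta S.tagG
    convert this using 1
    · push_cast; ring
    · funext i
      by_cases h : i = j
      · subst h; simp
      · have : i < j + 1 ↔ i < j := by omega
        simp [h, this]
  cov_th A t c := by
    rcases c with c | c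
    · by_cases h : S.q c
      · rw [Cell.dbl_tth_fr _ h, bind_sh0, S.cov_th]
        simp [m', π', show S.res c = 0 from h]
      · rw [Cell.dbl_tth_live _ h, map_mul, map_add, bind_sh0, bind_sh1, S.cov_th, S.cov_th]
        simp only [m', π', show ¬ S.res c = 0 from h, Sum.elim_inl, if_false, bind₁_C_right,
          map_mul, map_add]
        ring
    · rw [Cell.dbl_tth_inr, map_mul, map_sub, bind_sh0, bind_sh1, S.cov_th, S.cov_th]
      simp only [m', π', Sum.elim_inr, bind₁_C_right, map_mul, map_sub]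
      ring
  cov_G t := by
    have h : (S.Z.dbl S.q).top (d + 1) (sh1 S.q S.G - sh0 S.q S.G) =
        sh1 S.q (S.Z.top (d + 1) S.G) - sh0 S.q (S.Z.top (d + 1) S.G) := by
      rw [Cell.top, Cell.top, map_sub, ← top_sh0, ← top_sh1]
      rfl
    rw [h, map_sub, bind_sh0, bind_sh1, S.cov_G, S.cov_G, sa_mem (Set.mem_univ _),
      Function.iterate_succ_apply', fwdDiff, map_sub]
    ring
  n_const A c := by
    rcases c with c | c
    · exact S.n_const A c
    · by_cases h : j ∈ A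
      · obtain ⟨L, hL⟩ := S.n_const A c.1
        refine ⟨L, ?_⟩
        have h1 : S.res c.1 ≠ 0 := c.2
        rw [show S.res c.1 = S.res c.1 - 1 + 1 by omega, Function.iterate_succ_apply] at hL
        rw [← hL]
        show (fwdDiff 1)^[S.res c.1 - 1] _ = _
        congr 1
        funext t
        simp [n', sa_mem h, fwdDiff]
      · refine ⟨0, ?_⟩
        rw [← fd_zero (S.res' (Sum.inr c))]
        congr 1
        funext t
        simp [n', sa_notMem h]
  m_lead A c hA := by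
    have h2 : (√2 : ℝ)⁻¹ ≠ 0 := by positivity
    rcases c with c | c
    · obtain ⟨L, hL0, hL⟩ := S.m_lead A c hA
      by_cases h : S.res c = 0
      · refine ⟨L, hL0, ?_⟩
        rw [← hL]
        show (fwdDiff 1)^[S.res c] _ = _
        congr 1
        funext t
        simp [m', h]
      · refine ⟨(√2)⁻¹ * (L + L), mul_ne_zero h2 (by intro h; apply hL0; linarith), ?_⟩
        have e : S.m' A (Sum.inl c) =
            (√2 : ℝ)⁻¹ • ((fun t => S.m A c (t + sa j A)) + S.m A c) := by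
          funext t
          simp [m', h]
        show (fwdDiff 1)^[S.res c] _ = _
        rw [e, fwdDiff_iter_const_smul, fwdDiff_iter_add, fd_shift hL, hL]
        rfl
    · have hj : j ∈ A := hA j (by simp [sl'])
      obtain ⟨L, hL0, hL⟩ := S.m_lead A c.1 fun i hi => hA i (by
        simp only [sl', Sum.elim_inr, Pi.add_apply]; omega)
      refine ⟨(√2)⁻¹ * L, mul_ne_zero h2 hL0, ?_⟩
      have h1 : S.res c.1 ≠ 0 := c.2
      rw [show S.res c.1 = S.res c.1 - 1 + 1 by omega, Function.iterate_succ_apply] at hL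
      have e : S.m' A (Sum.inr c) = (√2 : ℝ)⁻¹ • fwdDiff 1 (S.m A c.1) := by
        funext t
        simp [m', sa_mem hj, fwdDiff]
      show (fwdDiff 1)^[S.res c.1 - 1] _ = _
      rw [e, fwdDiff_iter_const_smul, hL]
      rfl
  m_zero A c i hi hA := by
    rcases c with c | c
    · funext t
      simp [m', S.m_zero A c i hi hA]
    · funext t
      by_cases h : i = j
      · subst h; simp [m', sa_notMem hA]
      · have : S.sl c.1 i ≠ 0 := by simpa [sl', h] using hi
        simp [m', S.m_zero A c.1 i this hA]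
  m_bdd A c t ht := by
    have h2 : (1 : ℝ) ≤ √2 := Real.one_le_sqrt.2 (by norm_num)
    have ht' : (0 : ℝ) ≤ t := by exact_mod_cast ht
    have key : ∀ (c : S.κ) (a : ℤ), 0 ≤ a → a ≤ 1 →
        |S.m A c (t + a)| ≤ 2 ^ j * ((t : ℝ) + (j + 1 : ℕ) + 1) ^ S.Z.lev c := by
      intro c a h0 h1
      refine (S.m_bdd A c _ (by omega)).trans (mul_le_mul_of_nonneg_left
        (pow_le_pow_left₀ ?_ ?_ _) (by positivity))
      · have : (0 : ℝ) ≤ a := by exact_mod_cast h0
        push_cast; positivity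
      · have : (a : ℝ) ≤ 1 := by exact_mod_cast h1
        push_cast; linarith
    have key2 : ∀ u v B : ℝ, |u| ≤ |v| → |v| ≤ B → |(√2)⁻¹ * u| ≤ B := by
      intro u v B h1 h3
      rw [abs_mul, abs_of_nonneg (by positivity : (0 : ℝ) ≤ (√2)⁻¹)]
      exact (mul_le_of_le_one_left (abs_nonneg _) (inv_le_one_of_one_le₀ h2)).trans (h1.trans h3)
    rcases c with c | c
    · have a0 := key c 0 le_rfl zero_le_one
      have a1 := key c _ (sa_bdd j A).1 (sa_bdd j A).2
      rw [add_zero] at a0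
      show |if S.res c = 0 then _ else _| ≤ 2 ^ (j + 1) * _ ^ S.Z.lev c
      rw [pow_succ 2 j]
      split_ifs
      · linarith [abs_nonneg (S.m A c t)]
      · exact key2 _ _ _ le_rfl ((abs_add_le _ _).trans (by linarith))
    · have a0 := key c.1 0 le_rfl zero_le_one
      have a1 := key c.1 _ (sa_bdd j A).1 (sa_bdd j A).2
      rw [add_zero] at a0
      show |(√2)⁻¹ * _| ≤ 2 ^ (j + 1) * _ ^ S.Z.lev c.1
      rw [pow_succ 2 j]
      exact key2 _ _ _ le_rfl ((abs_sub _ _).trans (by linarith))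

end Stg

end Ch4

end Crest.Agent.T49.Tw
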