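import Crest.Agent.T49.Mx_91
import Crest.Agent.T49.MxCell_53
import Crest.Agent.T49.RegZm_81

/-!
# Row 49 (helper39): the old block of a piece is a diagonal cover; gluing of regularity
-/

set_option autoImplicit false
set_option linter.unusedSectionVars false

open MvPolynomial

noncomputable section

namespace Crest.Agent.T49.Ur

open Tw Tw.Cell Rg

variable {ι ι' : Type} [Fintype ι] [Fintype ι']

/-- regularity of a class only depends on the lower classes -/
theorem regAtM_of_frz {T : Cell ι} {cl : ι → ℕ} (hm : T.IsMC cl) {o j : ℕ} (hj : j ≤ o) {H Λ : ℝ}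
    (h : (T.frz fun c => cl c ≤ o).RegAtM (fun c => cl c.1) j H Λ) : T.RegAtM cl j H Λ := by
  classical
  intro w ξ b e h1 hw h2 h3 h4 h5 h6 h7 h8
  have hq := hm.clo o
  have hsum : ∀ {M : Type} [AddCommMonoid M] (F : ι → M), (∀ c, ξ c = 0 → F c = 0) →
      ∑ c : {c // cl c ≤ o}, F c.1 = ∑ c, F c := by
    intro M _ F hF
    rw [← Finset.sum_subtype (Finset.univ.filter fun c => cl c ≤ o) (by simp) F]
    refine Finset.sum_filter_of_ne fun c _ hc => ?_
    by_contra hc'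
    exact hc (hF c (h1.1 c (by omega)))
  have hdot : T.dotT ξ =
      rename Subtype.val ((T.frz fun c => cl c ≤ o).dotT fun c => ξ c.1) := by
    rw [dotT, dotT, map_sum]
    simp only [map_mul, rename_C, rename_frz_tth T hq]
    exact (hsum (fun c => C (ξ c) * T.tth c) fun c hc => by simp [hc]).symm
  have he0 : e ∈ supported ℝ {c | cl c ≤ o} :=
    supported_mono (fun c (hc : cl c < j) => show cl c ≤ o by omega) h6
  have he : rename Subtype.val (dn (fun c => cl c ≤ o) e) = e := Tw.rename_dn he0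
  have key := h w (fun c => ξ c.1) b (dn _ e) ⟨fun c hc => h1.1 c.1 hc, fun c hc => ?_⟩
    (fun c hc => hw c.1 hc) ?_ h3 h4 ?_ ?_ ((nrm_dn_le _ _).trans h7) ?_
  · funext c
    by_cases hc : cl c = j
    · exact congrFun key ⟨c, hc.le.trans hj⟩
    · exact h1.1 c hc
  · obtain ⟨n, hn⟩ := h1.2 c.1 hc
    refine ⟨n, ?_⟩
    rw [← hn, hdot, ← Finsupp.mapDomain_single (f := Subtype.val),
      coeff_rename_mapDomain _ Subtype.val_injective]
  · exact (hsum (fun c => |ξ c|) fun c hc => by simp [hc]).le.trans h2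
  · have := Asm.dn_top (fun c => cl c ≤ o) T.lev w e
    rw [whc_of_hom h5] at this
    rw [this]
    exact weightedHomogeneousComponent_isWeightedHomogeneous _ _
  · refine bind_mem_supported (fun c hc => ?_) h6
    split_ifs
    · exact X_mem_supp hc
    · exact zero_mem _
  · refine IsInt.of_rename Subtype.val_injective ?_
    rwa [map_add, map_mul, rename_C, ← hdot, ← MA.TTh_rename_frz hq, he]

/-- the block `q'` of `Z` is the block `q` of `T`, dilated by `g` and narrowed by `exp (-u)` -/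
structure Old (T : Cell ι) (q : ι → Prop) (Z : Cell ι') (q' : ι' → Prop) (φ : ι → Pl ι')
    (v : {c' // q' c'} → ι) (g : ι' → ℕ) (u : ℝ) : Prop where
  clo : T.Clo q
  inj : Function.Injective v
  surj : ∀ c, q c → ∃ c', v c' = c
  map : ∀ c', q (v c')
  lev : ∀ c' : {c' // q' c'}, Z.lev c'.1 = T.lev (v c')
  pos : ∀ c', 0 < g c'
  φ_eq : ∀ c' : {c' // q' c'}, ∃ r : ℤ, φ (v c') = C (r : ℝ) + C (g c'.1 : ℝ) * X c'.1
  th : ∀ c' : {c' // q' c'}, ∃ t : ℝ, Z.th c'.1 = C (Real.exp u) * (bind₁ φ (T.th (v c')) - C t)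
  a : ∀ c' : {c' // q' c'}, Z.a c'.1 = T.a (v c') * g c'.1 * Real.exp u

variable {T : Cell ι} {q : ι → Prop} {Z : Cell ι'} {q' : ι' → Prop} {φ : ι → Pl ι'}
  {v : {c' // q' c'} → ι} {g : ι' → ℕ} {u : ℝ}

theorem th_mem_clo (h : T.Clo q) {c : ι} (hc : q c) : T.th c ∈ supported ℝ {c | q c} :=
  add_mem (mul_mem (C_mem_supp _ _) (X_mem_supp hc)) (h c hc)

/-- a further zoom -/
theorem Old.zm (h : Old T q Z q' φ v g u) (G : ι' → ℕ+) (w : ι' → ℝ) (r : ι' → ℤ) (t : ι' → ℝ)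
    {u' : ℝ} (hw : ∀ c', q' c' → w c' = u') :
    Old T q (zm Z G w r t) q' (fun c => bind₁ (dl G r) (φ c)) v (fun c' => g c' * G c') (u + u') := by
  refine ⟨h.clo, h.inj, h.surj, h.map, h.lev, fun c' => Nat.mul_pos (h.pos c') (G c').pos,
    fun c' => ?_, fun c' => ?_, fun c' => ?_⟩
  · obtain ⟨r0, hr0⟩ := h.φ_eq c'
    refine ⟨r0 + g c'.1 * r c'.1, ?_⟩
    simp only [hr0, map_add, map_mul, bind₁_C_right, bind₁_X_right, dl]
    push_cast
    simp only [map_add, map_mul]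
    ring
  · obtain ⟨t0, ht0⟩ := h.th c'
    refine ⟨t0 + Real.exp (-u) * t c'.1, ?_⟩
    have e : (C (Real.exp u) : Pl ι') * C (Real.exp (-u)) = 1 := by
      rw [← C_mul, ← Real.exp_add]; simp
    rw [zm_th, hw c'.1 c'.2, ht0, map_mul, map_sub, bind₁_C_right, bind₁_C_right, bind₁_bind₁,
      Real.exp_add, C_mul, C_add, C_mul]
    linear_combination (C (Real.exp u') * C (t c'.1)) * e
  · show Z.a c'.1 * ((G c'.1 : ℕ) : ℝ) * Real.exp (w c'.1) = _
    rw [h.a c', hw c'.1 c'.2, Real.exp_add]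
    push_cast
    ring

open Classical in
/-- the substitution on the block -/
def Old.ψ (φ : ι → Pl ι') (q : ι → Prop) (q' : ι' → Prop) (c : ι) : Pl {c' // q' c'} :=
  if q c then dn q' (φ c) else 0

theorem Old.frz_th (h : Old T q Z q' φ v g u) (c' : {c' // q' c'}) :
    ∃ t : ℝ, (Z.frz q').th c' =
      C (Real.exp u) * (bind₁ (Old.ψ φ q q') (T.th (v c')) - C t) := by
  obtain ⟨t, ht⟩ := h.th c'
  refine ⟨t, ?_⟩
  rw [Cell.frz_th, ht, map_mul, map_sub, Tw.dn_C, Tw.dn_C]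
  congr 2
  rw [dn, bind₁_bind₁]
  refine bind_congr_supp (fun c hc => ?_) (th_mem_clo h.clo (h.map c'))
  rw [Old.ψ, if_pos (show q c from hc)]; rfl

theorem Old.ψ_eq (h : Old T q Z q' φ v g u) (c' : {c' // q' c'}) :
    ∃ r : ℤ, Old.ψ φ q q' (v c') = C (r : ℝ) + C (g c'.1 : ℝ) * X c' := by
  obtain ⟨r, hr⟩ := h.φ_eq c'
  refine ⟨r, ?_⟩
  rw [Old.ψ, if_pos (h.map c'), hr, map_add, map_mul, Tw.dn_C, Tw.dn_C, Tw.dn_X c'.2]

theorem Old.ψ_degLe (h : Old T q Z q' φ v g u) (c : ι) :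
    DegLe (Z.frz q').lev (Old.ψ φ q q' c) (T.lev c) := by
  by_cases hc : q c
  · obtain ⟨c', rfl⟩ := h.surj c hc
    obtain ⟨r, hr⟩ := h.ψ_eq c'
    rw [hr, ← h.lev c']
    exact (degLe_C _ _).add ((degLe_X (w := (Z.frz q').lev) c').C_mul _)
  · rw [Old.ψ, if_neg hc]
    intro m hm; simp at hm

theorem Old.whc_ψ (h : Old T q Z q' φ v g u) (c' : {c' // q' c'}) :
    weightedHomogeneousComponent (Z.frz q').lev (T.lev (v c')) (Old.ψ φ q q' (v c')) =
      C (g c'.1 : ℝ) * X c' := by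
  obtain ⟨r, hr⟩ := h.ψ_eq c'
  rw [hr, map_add, whc_eq_zero_of_lt (degLe_C _ 0) (T.lev_pos _), zero_add, ← h.lev c']
  exact whc_of_hom (hom_C_mul (isWeightedHomogeneous_X ℝ (Z.frz q').lev c') _)

theorem Old.frz_tth (h : Old T q Z q' φ v g u) (c' : {c' // q' c'}) :
    (Z.frz q').tth c' = C (Real.exp u) * bind₁ (fun c => weightedHomogeneousComponent
      (Z.frz q').lev (T.lev c) (Old.ψ φ q q' c)) (T.tth (v c')) := by
  obtain ⟨t, ht⟩ := h.frz_th c'
  rw [tth, ht, Cell.top_C_mul, top_sub, top_C _ ((Z.frz q').lev_pos c'), sub_zero]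
  congr 1
  have e : (Z.frz q').lev c' = T.lev (v c') := h.lev c'
  rw [e]
  exact whc_bind_degLe h.ψ_degLe (T.th_degLe _)

theorem Old.isMC (h : Old T q Z q' φ v g u) {cl : ι → ℕ} (hm : T.IsMC cl) :
    (Z.frz q').IsMC (cl ∘ v) := by
  refine isMC_of_th (fun c' => hm.pos _) fun c' => ?_
  obtain ⟨t, ht⟩ := h.frz_th c'
  rw [ht]
  refine MCP.C_mul _ ((MCP.bind (fun c => ?_) (hm.th _)).sub (MCP.C _))
  by_cases hc : q c
  · obtain ⟨c'', rfl⟩ := h.surj c hc
    obtain ⟨r, hr⟩ := h.ψ_eq c''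
    rw [hr]
    exact (MCP.C _).add ((MCP.X (cl := cl ∘ v) c'').C_mul _)
  · rw [Old.ψ, if_neg hc]; exact MCP.zero

/-- the old block is a projective cover -/
theorem Old.pc [DecidablePred q'] (h : Old T q Z q' φ v g u) {s : ℕ} (hs : ∀ c, T.lev c ≤ s)
    {G : ℕ} (hG : ∀ c' : {c' // q' c'}, g c'.1 ∣ G ^ T.lev (v c')) {z x : ℝ} (hG1 : 0 < G)
    (hGz : (G : ℝ) ≤ Real.exp z) (hu0 : 0 ≤ u) (hu : u ≤ z) (hx : (s + 1) ^ 2 * z + 1 ≤ x) :
    T.PC x (Z.frz q') v := by
  classical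
  have hz : 0 ≤ z := hu0.trans hu
  have hG1' : (1 : ℝ) ≤ G := by exact_mod_cast hG1
  have hK : ∀ c, Real.exp u * (G : ℝ) ^ T.lev c ≤ Real.exp ((s + 1) * z) := fun c => by
    calc Real.exp u * (G : ℝ) ^ T.lev c ≤ Real.exp z * Real.exp z ^ s :=
          mul_le_mul (Real.exp_le_exp.2 hu) ((pow_le_pow_right₀ hG1' (hs c)).trans
            (pow_le_pow_left₀ (by positivity) hGz s)) (by positivity) (by positivity)
      _ = _ := by rw [← Real.exp_nat_mul, ← Real.exp_add]; congr 1; ring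
  have hK1 : 1 ≤ Real.exp ((s + 1) * z) := Real.one_le_exp (by positivity)
  have hinj := h.inj
  refine DCov.pc' (K := Real.exp ((s + 1) * z)) ?_ hK1 hs ?_ (fun c' => h.lev c') (N := 1)
    (K' := Real.exp ((s + 1) * z)) le_rfl hK1 (nat_card_fib_inj hinj) (fun c' => ?_) ?_
    fun cl hm => h.isMC hm
  · refine dcov_of_diag (α := Unit) (fun c' => h.lev c')
      (fun _ c' => ((G ^ T.lev (v c') / g c'.1 : ℕ) : ℤ))
      (fun _ c' => Real.exp u * (G : ℝ) ^ T.lev (v c'))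
      (fun _ c' => by rw [abs_of_nonneg (by positivity)]; exact hK _) (fun _ c' => ?_)
      fun ξ hξ => ?_
    · rw [h.frz_tth, map_mul, bind₁_C_right, bind₁_bind₁, C_mul, mul_assoc]
      congr 1
      have e := bind_dilate (g := (X : ι → Pl ι)) (C (G : ℝ)) (T.tth_hom (v c'))
      rw [bind₁_X_left, AlgHom.id_apply, ← C_pow] at e
      rw [← e]
      refine bind_congr_supp (fun c hc => ?_)
        (whc_mem_supported _ _ (th_mem_clo h.clo (h.map c')))
      obtain ⟨c'', rfl⟩ := h.surj c hc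
      rw [h.whc_ψ c'', map_mul, bind₁_C_right, bind₁_X_right, ← mul_assoc, ← C_mul,
        ← C_pow, Int.cast_natCast, ← Nat.cast_mul, Nat.mul_div_cancel' (hG c''), Nat.cast_pow]
    · funext c'
      have := hξ () (v c')
      rw [Finset.sum_eq_single c' (fun c'' _ hne => by
        rw [if_neg fun hh => hne (hinj hh).symm, mul_zero]) (by simp), if_pos rfl] at this
      exact (mul_eq_zero.1 this).resolve_right (by positivity)
  · rw [← Real.exp_nat_mul]
    refine Real.exp_le_exp.2 ?_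
    push_cast
    nlinarith
  · show |Z.a c'.1| ≤ _
    rw [h.a c', mul_assoc, abs_mul, mul_comm]
    refine mul_le_mul_of_nonneg_right ?_ (abs_nonneg _)
    rw [abs_of_nonneg (by positivity), mul_comm]
    refine le_trans (mul_le_mul_of_nonneg_left ?_ (Real.exp_pos _).le) (hK (v c'))
    exact_mod_cast Nat.le_of_dvd (by positivity) (hG c')
  · rw [Real.log_exp]
    push_cast
    nlinarith [mul_nonneg (mul_nonneg (Nat.cast_nonneg (α := ℝ) s) (Nat.cast_nonneg (α := ℝ) s)) hz,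
      mul_nonneg (Nat.cast_nonneg (α := ℝ) s) hz]

end Crest.Agent.T49.Ur
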