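import Crest.Agent.T49.UrAllA_39
import Crest.Agent.T49.MalB_64
import Crest.Agent.T49.FrDef_99

/-!
# Row 49 (helper39): all zooms of a regularised extension have the ideal mass
-/

set_option autoImplicit false
set_option linter.unusedSectionVars false

open MvPolynomial

noncomputable section

namespace Crest.Agent.T49.Ur

open Tw Tw.Cell Rg Mal

variable {σ κ ι ι' : Type} [Fintype σ] [Fintype κ] [Fintype ι] [Fintype ι']

theorem zm_isMC {T : Cell ι} {cl : ι → ℕ} (hm : T.IsMC cl) (G : ι → ℕ+) (u : ι → ℝ) (r : ι → ℤ)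
    (t : ι → ℝ) : (zm T G u r t).IsMC cl :=
  isMC_of hm.pos fun c => MCP.C_mul _ ((MCP.bind (fun c' =>
    (MCP.C _).add ((MCP.X c').C_mul _)) (hm.B c)).add (MCP.C _))

theorem zo_isMC {T : Cell ι} {cl : ι → ℕ} (hm : T.IsMC cl) (p : ℕ) (d : ℕ+) (u : ℝ) (r : ι → ℤ)
    (t : ι → ℝ) : (zo T cl p d u r t).IsMC cl := zm_isMC hm _ _ _ _

theorem zo_a_new (T : Cell ι) {cl : ι → ℕ} {p : ℕ} (d : ℕ+) (u : ℝ) (r : ι → ℤ) (t : ι → ℝ) {c : ι}
    (hc : ¬ cl c ≤ p) : (zo T cl p d u r t).a c = T.a c := by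
  simp [zo, zm, wG, hc]

theorem zo_kapM (T : Cell ι) (cl : ι → ℕ) {p j : ℕ} (hj : p < j) (d : ℕ+) (u : ℝ) (r : ι → ℤ)
    (t : ι → ℝ) : (zo T cl p d u r t).kapM cl j = T.kapM cl j := by
  unfold kapM
  congr 1
  refine Finset.sum_congr rfl fun c hc => ?_
  rw [zo_a_new T d u r t (by have := (Finset.mem_filter.1 hc).2; omega)]

/-- regularity of the old classes (inherited) and of the new classes -/
theorem regM_glue {T : Cell ι} {cl : ι → ℕ} {Z : Cell ι'} {cl' : ι' → ℕ} (hm : T.IsMC cl)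
    (hm' : Z.IsMC cl') {o l D D' : ℕ} {x : ℝ} {π : {c' // cl' c' ≤ o} → ι}
    (hpc : T.PC x (Z.frz fun c' => cl' c' ≤ o) π) (hcl : ∀ c', cl (π c') = cl' c'.1)
    {τ0 τ : ℕ → ℝ} (h0 : T.RegM cl D o τ0) (hD : 2 * D' + 2 ≤ D) (h2 : 2 ≤ τ (o + 1))
    (hx : τ (o + 1) + 2 * x ≤ τ0 (o + 1))
    (hnew : ∀ j, o < j → j ≤ l → (τ (j + 1) + Z.kapM cl' j) ^ D' ≤ τ j ∧
      Z.RegAtM cl' j (Real.exp (τ (j + 1)) * Z.kapM cl' j) (Real.exp (τ j))) :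
    Z.RegM cl' D' l fun j => if j ≤ o then τ0 j / 2 else τ j := by
  have h1 := MA.derM_regM h0 (hpc.derM hm) hD h2 hx
  have e : cl ∘ π = fun c' => cl' c'.1 := funext hcl
  rw [e] at h1
  intro j hj hjl
  by_cases hjo : j ≤ o
  · have h3 := h1 j hj hjo
    rw [MA.frz_kapM Z cl' hjo] at h3
    have e2 : (if j + 1 ≤ o then τ0 (j + 1) / 2 else τ (j + 1)) =
        if j + 1 ≤ o then τ0 (j + 1) / 2 else τ (o + 1) := by
      split_ifs with h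
      · rfl
      · rw [show j = o by omega]
    simp only [e2, if_pos hjo] at h3 ⊢
    exact ⟨h3.1, regAtM_of_frz hm' hjo h3.2⟩
  · simp only [if_neg hjo, if_neg (show ¬ j + 1 ≤ o by omega)]
    exact hnew j (by omega) hjl

variable {T : Cell ι} {cl : ι → ℕ} {T' : Cell ι'} {cl' : ι' → ℕ} {φ : ι → Pl ι'} {v : ι' → ι}
  {G : ℕ+} {u Y : ℝ} {o : ℕ}

theorem old_of_mor (h : Mor o T cl T' cl' φ v G u Y) (hm : T.IsMC cl) :
    Old T (fun c => cl c ≤ o) T' (fun c' => cl' c' ≤ o) φ (fun c' => v c'.1) (fun _ => G) u :=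
  ⟨hm.clo o, h.v_inj.comp Subtype.val_injective, fun c hc => by
      obtain ⟨c', rfl⟩ := h.v_surj c hc
      exact ⟨⟨c', (h.v_old c').2 hc⟩, rfl⟩,
    fun c' => (h.v_old c'.1).1 c'.2, fun c' => h.old_lev _ c'.2, fun _ => G.pos,
    fun c' => h.old_φ _ c'.2, fun c' => h.old_th _ c'.2, fun c' => h.old_a _ c'.2⟩

/-- the block of `T` is a copy of `T0` -/
theorem Old.comap {q : ι → Prop} {Z : Cell ι'} {q' : ι' → Prop} {w : {c' // q' c'} → ι}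
    {g : ι' → ℕ} (h : Old T q Z q' φ w g u) {T0 : Cell σ} {i : σ → ι} (hi : Function.Injective i)
    (hq : ∀ c, q c ↔ ∃ s, i s = c) (hlev : ∀ s, T.lev (i s) = T0.lev s)
    (hth : ∀ s, T.th (i s) = rename i (T0.th s)) (ha : ∀ s, T.a (i s) = T0.a s) :
    ∃ e : {c' // q' c'} ≃ σ, (∀ c', i (e c') = w c') ∧
      Old T0 (fun _ => True) Z q' (φ ∘ i) e g u := by
  choose v0 hv0 using fun c' => (hq _).1 (h.map c')
  have h1 : Function.Injective v0 := fun a b hab => h.inj (by rw [← hv0, ← hv0, hab])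
  have h2 : Function.Surjective v0 := fun s => by
    obtain ⟨c', hc'⟩ := h.surj (i s) ((hq _).2 ⟨s, rfl⟩)
    exact ⟨c', hi (by rw [hv0, hc'])⟩
  refine ⟨Equiv.ofBijective v0 ⟨h1, h2⟩, hv0, fun c _ => by simp, h1, fun s _ => h2 s,
    fun _ => trivial, fun c' => ?_, h.pos, fun c' => ?_, fun c' => ?_, fun c' => ?_⟩
  · rw [h.lev, ← hv0, hlev]; rfl
  · obtain ⟨r, hr⟩ := h.φ_eq c'
    exact ⟨r, by rw [← hr, ← hv0]; rfl⟩
  · obtain ⟨t, ht⟩ := h.th c'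
    exact ⟨t, by rw [ht, ← hv0, hth, bind₁_rename]; rfl⟩
  · rw [h.a, ← hv0, ha]; rfl

/-! ### extensions -/

/-- the classes of an extension -/
def clE (T : Cell σ) (E : Ext T.lev κ) (s : ℕ) : σ ⊕ κ → ℕ := Sum.elim T.lev fun k => s + E.lev k

section ext
variable {T0 : Cell σ} {E : Ext T0.lev κ} {a : κ → ℝ} {ha : ∀ k, a k ≠ 0} {c0 : κ → ℝ} {s : ℕ}

theorem clE_le (hs : ∀ c, T0.lev c ≤ s) (c : σ ⊕ κ) : clE T0 E s c ≤ s ↔ ∃ x, Sum.inl x = c := by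
  rcases c with c | c
  · simpa [clE] using hs c
  · have := E.lev_pos c
    simp only [clE, Sum.elim_inr, reduceCtorEq, exists_false, iff_false]
    omega

theorem ext_cls (hs : ∀ c, T0.lev c ≤ s) (c : σ ⊕ κ) :
    clE T0 E s c ≤ s ∨ clE T0 E s c = s + (Ext.cell T0 E a ha c0).lev c := by
  rcases c with c | c
  exacts [Or.inl (hs c), Or.inr rfl]

theorem ext_isMC (hs : ∀ c, T0.lev c ≤ s) : (Ext.cell T0 E a ha c0).IsMC (clE T0 E s) := by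
  refine isMC_of (fun c => ?_) fun c => ?_
  · rcases c with c | c
    exacts [T0.lev_pos c, Nat.add_pos_right _ (E.lev_pos c)]
  · rcases c with c | c
    · show MCP _ (rename _ _) _
      rw [rename_eq_bind]
      exact MCP.bind (cl := T0.lev) (fun c' => MCP.X (cl := clE T0 E s) (Sum.inl c'))
        (T0.isMC_lev.B c)
    · intro m hm c' hc'
      rcases c' with c' | c'
      · left
        have h1 := hs c'
        have h2 := E.lev_pos c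
        show T0.lev c' < s + E.lev c
        omega
      · rcases (Ext.cell T0 E a ha c0).isMC_lev.B _ m hm _ hc' with h | h
        · exact Or.inl (Nat.add_lt_add_left h s)
        · exact Or.inr ⟨congrArg (s + ·) h.1, h.2⟩

theorem ext_old {φ : σ ⊕ κ → Pl ι'} {v : ι' → σ ⊕ κ} (hs : ∀ c, T0.lev c ≤ s)
    (h : Mor s (Ext.cell T0 E a ha c0) (clE T0 E s) T' cl' φ v G u Y) :
    ∃ e : {c' // cl' c' ≤ s} ≃ σ, (∀ c', Sum.inl (e c') = v c'.1) ∧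
      (∀ c', T0.lev (e c') = cl' c'.1) ∧
      Old T0 (fun _ => True) T' (fun c' => cl' c' ≤ s) (φ ∘ Sum.inl) e (fun _ => G) u := by
  obtain ⟨e, h1, h2⟩ := (old_of_mor h (ext_isMC hs)).comap (T0 := T0) Sum.inl_injective
    (clE_le hs) (fun _ => rfl) (Ext.cell_th_inl T0 E a ha c0) fun _ => rfl
  exact ⟨e, h1, fun c' => by rw [h.old_cl _ c'.2, ← h1]; rfl, h2⟩

end ext

theorem Old.zo {q : ι → Prop} {w : {c' // cl' c' ≤ o} → ι}
    (h : Old T q T' (fun c' => cl' c' ≤ o) φ w (fun _ => G) u) (d : ℕ+) (u' : ℝ) (r : ι' → ℤ)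
    (t : ι' → ℝ) : Old T q (zo T' cl' o d u' r t) (fun c' => cl' c' ≤ o)
      (fun c => bind₁ (dl (wG T' cl' o d) r) (φ c)) w (fun c' => G * wG T' cl' o d c') (u + u') :=
  h.zm _ _ _ _ fun _ hc => if_pos hc

/-- the old block of a zoom is a projective cover -/
theorem Old.zo_pc {q : ι → Prop} {w : {c' // cl' c' ≤ o} → ι}
    (h : Old T q T' (fun c' => cl' c' ≤ o) φ w (fun _ => G) u) {s : ℕ} (hs : ∀ c, T.lev c ≤ s)
    {y z x : ℝ} (hG : ((G : ℕ) : ℝ) ≤ Real.exp z) (hu0 : 0 ≤ u) (hu : u ≤ z)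
    (hx : (s + 1) ^ 2 * (z + y) + 1 ≤ x) {d : ℕ+} {u' : ℝ} (r : ι' → ℤ) (t : ι' → ℝ)
    (hd : ((d : ℕ) : ℝ) ≤ Real.exp y) (hu1 : 0 ≤ u') (hu2 : u' ≤ y) :
    T.PC x ((Rg.zo T' cl' o d u' r t).frz fun c' => cl' c' ≤ o) w := by
  refine (h.zo d u' r t).pc hs (G := G * d) (fun c' => ?_) (Nat.mul_pos G.pos d.pos) ?_
    (by linarith) (by linarith) hx
  · simp only [wG, if_pos c'.2]
    exact dvd_pow_self _ (T.lev_pos _).ne'
  · rw [Real.exp_add, Nat.cast_mul]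
    exact mul_le_mul hG hd (by positivity) (by positivity)

/-- `k θ` is a projective cover -/
theorem pc_scl (T : Cell ι) {k : ℝ} (hk : k ≠ 0) (h1 : |k| ≤ 1) : T.PC 1 (Gl.scl T k hk) id := by
  have e : Gl.scl T k hk = T.aff (r := fun _ => k) (fun _ => hk) 0 := by
    simp [Gl.scl, Cell.aff]
  rw [e]
  exact pc_aff _ _ T (u := 0) le_rfl (fun _ => by simpa using h1) (s := Finset.univ.sup T.lev)
    (fun c => Finset.le_sup (Finset.mem_univ c)) (by simp) (by simp)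

/-- **ALLMV**: a cell with inherited old classes and regular new classes -/
theorem allmv (o s D' : ℕ) : ∃ D : ℕ, D' ≤ D ∧ ∀ (ι ι' : Type) [Fintype ι] [Fintype ι'] (T : Cell ι)
    (cl : ι → ℕ) (Z : Cell ι') (cl' : ι' → ℕ) (π : {c' // cl' c' ≤ o} → ι) (τ0 τ : ℕ → ℝ)
    (lam x x1 p : ℝ), T.IsMC cl → Z.IsMC cl' → (∀ c, cl' c ≤ o + s) → (∀ c, Z.lev c ≤ s) →
    T.PC x (Z.frz fun c' => cl' c' ≤ o) π → (∀ c', cl (π c') = cl' c'.1) →
    T.RegM cl (2 * D + 2) o τ0 → 2 ≤ τ (o + 1) → τ (o + 1) + 2 * x ≤ τ0 (o + 1) →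
    (∀ j, o < j → j ≤ o + s → (τ (j + 1) + Z.kapM cl' j) ^ D ≤ τ j ∧ Z.kapM cl' j ≤ Real.exp lam ∧
      Z.RegAtM cl' j (Real.exp (τ (j + 1) + lam)) (Real.exp (τ j))) → 0 ≤ x1 →
    x1 + Real.log (Fintype.card ι' + 2) + 2 ≤ p → p + 2 * x1 ≤ τ (o + s + 1) →
    Z.RegM cl' D (o + s) (fun j => if j ≤ o then τ0 j / 2 else τ j) ∧
      Z.AllPC x1 (Real.exp (-p)) := by
  obtain ⟨D, hD⟩ := allDerMStmt (o + s) s
  refine ⟨D + D' + 1, by omega, fun ι ι' _ _ T cl Z cl' π τ0 τ lam x x1 p hm hm' hcl hs hpc hπ h0 h2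
    hx hnew hx1 h3 h4 => ?_⟩
  have h5 : Z.RegM cl' (D + D' + 1) (o + s) fun j => if j ≤ o then τ0 j / 2 else τ j := by
    refine regM_glue hm hm' hpc hπ h0 le_rfl h2 hx fun j h1 hj => ⟨(hnew j h1 hj).1, ?_⟩
    refine regAtM_anti (hnew j h1 hj).2.2 ?_ le_rfl
    rw [Real.exp_add]
    exact mul_le_mul_of_nonneg_left (hnew j h1 hj).2.1 (Real.exp_pos _).le
  have h6 : 0 ≤ Real.log ((Fintype.card ι' : ℝ) + 2) :=
    Real.log_nonneg (by linarith [Nat.cast_nonneg (α := ℝ) (Fintype.card ι')])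
  have h7 : ¬ o + s + 1 ≤ o := by omega
  refine ⟨h5, (hD ι' Z cl' _ x1 p hm' hcl hs (MA.regM_mono h5 (by omega) (by omega) ?_) h3 ?_).2⟩
  · simp only [if_neg h7]; linarith
  · simpa only [if_neg h7] using h4

/-- **all zooms of a regularised extension have the ideal mass** -/
theorem zo_mass (s : ℕ) : ∃ D : ℕ, ∀ (σ κ ι' : Type) [Fintype σ] [Fintype κ] [Fintype ι']
    (T0 T : Cell σ) (E : Ext T.lev κ) (a : κ → ℝ) (ha : ∀ k, a k ≠ 0) (c0 : κ → ℝ) (T' : Cell ι')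
    (cl' : ι' → ℕ) (φ : σ ⊕ κ → Pl ι') (v : ι' → σ ⊕ κ) (G : ℕ+) (u Y : ℝ) (τ0 τ : ℕ → ℝ)
    (lam y z p : ℝ), T0.PC 1 T id → T0.RegM T0.lev (2 * D + 2) s τ0 → (∀ c, T.lev c ≤ s) →
    Mor s (Ext.cell T E a ha c0) (clE T E s) T' cl' φ v G u Y → T'.IsMC cl' →
    (∀ c, cl' c ≤ s ∨ cl' c = s + T'.lev c) → (∀ c, T'.lev c ≤ s) →
    ((G : ℕ) : ℝ) ≤ Real.exp z → u ≤ z → 2 ≤ τ (s + 1) →
    τ (s + 1) + 2 * ((s + 1) ^ 2 * (z + y) + 2) ≤ τ0 (s + 1) →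
    (∀ j, s < j → j ≤ s + s → (τ (j + 1) + T'.kapM cl' j) ^ D ≤ τ j) →
    (∀ j, s < j → j ≤ s + s → T'.kapM cl' j ≤ Real.exp lam) →
    (∀ j, s < j → j ≤ s + s → ∀ (d : ℕ+) (u' : ℝ) (r : ι' → ℤ) (t : ι' → ℝ),
      ((d : ℕ) : ℝ) ≤ Real.exp y → 0 ≤ u' → u' ≤ y →
      (zo T' cl' s d u' r t).RegAtM cl' j (Real.exp (τ (j + 1) + lam)) (Real.exp (τ j))) →
    Real.log (Fintype.card ι' + 2) + 3 ≤ p → p + 2 ≤ τ (s + s + 1) →
    ∀ (d : ℕ+) (u' : ℝ) (r : ι' → ℤ) (t : ι' → ℝ), ((d : ℕ) : ℝ) ≤ Real.exp y → 0 ≤ u' → u' ≤ y →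
      |(zo T' cl' s d u' r t).M / (zo T' cl' s d u' r t).mu - 1| ≤ Real.exp (-p) := by
  obtain ⟨D, -, hD⟩ := allmv s s 0
  refine ⟨D, fun σ κ ι' _ _ _ T0 T E a ha c0 T' cl' φ v G u Y τ0 τ lam y z p hpc h0 hs hM hm hcl hs'
    hG hu h2 hx hch hk hreg hp1 hp2 d u' r t hd hu1 hu2 => ?_⟩
  obtain ⟨e, -, he, hO⟩ := ext_old hs hM
  have h1 := hpc.trans (hO.zo_pc hs hG hM.u_nonneg hu le_rfl r t hd hu1 hu2)
    (z := (s + 1) ^ 2 * (z + y) + 2) (by linarith) (by linarith)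
  refine allPC_self (hD σ ι' T0 T0.lev _ cl' _ τ0 τ lam _ 1 p T0.isMC_lev (zo_isMC hm s d u' r t)
    (fun c => ?_) hs' h1 (fun c' => ?_) h0 h2 hx (fun j h3 h4 => ?_) zero_le_one (by linarith)
    (by linarith)).2 le_rfl
  · have := hs' c
    rcases hcl c with h | h <;> omega
  · rw [← he, hpc.lev]; rfl
  · rw [zo_kapM T' cl' h3]
    exact ⟨hch j h3 h4, hk j h3 h4, hreg j h3 h4 d u' r t hd hu1 hu2⟩

end Crest.Agent.T49.Ur
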