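import Mathlib

/-!
# Row 49 (helper39): a Gaussian window is an exact mixture of narrower windows
-/

set_option autoImplicit false

namespace Crest.Agent.T49.Ur

open MeasureTheory Real

theorem gauss_conv {lam : ℝ} (h0 : 0 < lam) (h1 : lam < 1) (t c : ℝ) :
    exp (-π * c ^ 2 / (1 - lam ^ 2)) * exp (-π * ((t - c) / lam) ^ 2) =
      exp (-π * t ^ 2) *
        exp (-(π / (lam ^ 2 * (1 - lam ^ 2))) * (c - (1 - lam ^ 2) * t) ^ 2) := by
  have h2 : 0 < 1 - lam ^ 2 := by nlinarith
  rw [← exp_add, ← exp_add]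
  congr 1
  field_simp
  ring

theorem integrable_conv {lam : ℝ} (h0 : 0 < lam) (h1 : lam < 1) (t : ℝ) :
    Integrable fun c : ℝ => exp (-π * c ^ 2 / (1 - lam ^ 2)) * exp (-π * ((t - c) / lam) ^ 2) := by
  have h2 : 0 < 1 - lam ^ 2 := by nlinarith
  simp only [gauss_conv h0 h1]
  refine Integrable.const_mul ?_ _
  exact (integrable_exp_neg_mul_sq (b := π / (lam ^ 2 * (1 - lam ^ 2))) (by positivity)).comp_sub_right _

theorem integral_conv {lam : ℝ} (h0 : 0 < lam) (h1 : lam < 1) (t : ℝ) :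
    ∫ c : ℝ, exp (-π * c ^ 2 / (1 - lam ^ 2)) * exp (-π * ((t - c) / lam) ^ 2) =
      exp (-π * t ^ 2) * (lam * √(1 - lam ^ 2)) := by
  have h2 : 0 < 1 - lam ^ 2 := by nlinarith
  simp only [gauss_conv h0 h1]
  rw [integral_const_mul, integral_sub_right_eq_self
    (fun c => exp (-(π / (lam ^ 2 * (1 - lam ^ 2))) * c ^ 2)), integral_gaussian]
  congr 1
  rw [show π / (π / (lam ^ 2 * (1 - lam ^ 2))) = lam ^ 2 * (1 - lam ^ 2) by field_simp,
    sqrt_mul (by positivity), sqrt_sq h0.le]

/-- one coordinate: some narrower window carries at least the average -/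
theorem mix_one {Λ : Type*} [Countable Λ] (u t : Λ → ℝ) {lam X B : ℝ} (h0 : 0 < lam)
    (h1 : lam < 1) (hs : Summable fun z => |u z| * exp (-π * t z ^ 2))
    (hb : ∀ c, (Summable fun z => |u z| * exp (-π * ((t z - c) / lam) ^ 2)) ∧
      ∑' z, |u z| * exp (-π * ((t z - c) / lam) ^ 2) ≤ B)
    (hX : X ≤ ∑' z, u z * exp (-π * t z ^ 2)) :
    ∃ c, X * lam ≤ ∑' z, u z * exp (-π * ((t z - c) / lam) ^ 2) := by
  by_contra hcon
  push Not at hcon
  have h2 : 0 < 1 - lam ^ 2 := by nlinarith
  set ρ : ℝ → ℝ := fun c => exp (-π * c ^ 2 / (1 - lam ^ 2)) with hρ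
  have hρe : ρ = fun c => exp (-(π / (1 - lam ^ 2)) * c ^ 2) := by
    funext c; simp only [hρ]; congr 1; ring
  have hρi : Integrable ρ := by
    rw [hρe]; exact integrable_exp_neg_mul_sq (by positivity)
  have hρI : ∫ c, ρ c = √(1 - lam ^ 2) := by
    rw [hρe, integral_gaussian]; congr 1; field_simp
  set S : ℝ → ℝ := fun c => ∑' z, u z * exp (-π * ((t z - c) / lam) ^ 2) with hS
  have hsum : ∀ c, Summable fun z => u z * exp (-π * ((t z - c) / lam) ^ 2) := fun c =>
    Summable.of_norm_bounded (hb c).1 fun z => by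
      rw [norm_mul, Real.norm_eq_abs, Real.norm_of_nonneg (exp_pos _).le]
  have hSm : Measurable S := by
    refine measurable_of_tendsto_metrizable' (Filter.atTop : Filter (Finset Λ))
      (f := fun s c => ∑ z ∈ s, u z * exp (-π * ((t z - c) / lam) ^ 2)) (fun s => ?_) ?_
    · exact Finset.measurable_sum _ fun z _ => by fun_prop
    · exact tendsto_pi_nhds.2 fun c => (hsum c).hasSum
  have hSb : ∀ c, ‖S c‖ ≤ B := fun c => by
    refine le_trans ?_ (hb c).2
    refine (norm_tsum_le_tsum_norm (hsum c).norm).trans (le_of_eq (tsum_congr fun z => ?_))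
    rw [norm_mul, Real.norm_eq_abs, Real.norm_of_nonneg (exp_pos _).le]
  have hI : Integrable fun c => S c * ρ c :=
    hρi.bdd_mul hSm.aestronglyMeasurable (Filter.Eventually.of_forall hSb)
  have hF : ∀ z, Integrable fun c => u z * (ρ c * exp (-π * ((t z - c) / lam) ^ 2)) := fun z =>
    (integrable_conv h0 h1 (t z)).const_mul _
  have hFn : ∀ z, ∫ c, ‖u z * (ρ c * exp (-π * ((t z - c) / lam) ^ 2))‖ =
      |u z| * exp (-π * t z ^ 2) * (lam * √(1 - lam ^ 2)) := fun z => by
    have : ∀ c, ‖u z * (ρ c * exp (-π * ((t z - c) / lam) ^ 2))‖ =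
        |u z| * (ρ c * exp (-π * ((t z - c) / lam) ^ 2)) := fun c => by
      rw [norm_mul, Real.norm_eq_abs, Real.norm_of_nonneg (by positivity)]
    simp only [this]
    rw [integral_const_mul, integral_conv h0 h1, mul_assoc]
  have hH := hasSum_integral_of_summable_integral_norm hF (by
    simp only [hFn]; exact hs.mul_right _)
  have e1 : ∀ z, ∫ c, u z * (ρ c * exp (-π * ((t z - c) / lam) ^ 2)) =
      u z * exp (-π * t z ^ 2) * (lam * √(1 - lam ^ 2)) := fun z => by
    rw [integral_const_mul, integral_conv h0 h1, mul_assoc]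
  have e2 : ∀ c, ∑' z, u z * (ρ c * exp (-π * ((t z - c) / lam) ^ 2)) = S c * ρ c := fun c => by
    rw [hS, ← tsum_mul_right]
    exact tsum_congr fun z => by ring
  simp only [e1, e2] at hH
  have e3 : ∫ c, S c * ρ c = (∑' z, u z * exp (-π * t z ^ 2)) * (lam * √(1 - lam ^ 2)) := by
    rw [← hH.tsum_eq, tsum_mul_right]
  have hpos : 0 < ∫ c, (X * lam * ρ c - S c * ρ c) := by
    have hp : ∀ c, 0 < X * lam * ρ c - S c * ρ c := fun c => by
      have := mul_lt_mul_of_pos_right (hcon c) (show 0 < ρ c from exp_pos _)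
      linarith
    rw [integral_pos_iff_support_of_nonneg (fun c => (hp c).le) ((hρi.const_mul _).sub hI)]
    have : Function.support (fun c => X * lam * ρ c - S c * ρ c) = Set.univ :=
      Set.eq_univ_of_forall fun c => (hp c).ne'
    rw [this]
    simp
  rw [integral_sub (hρi.const_mul _) hI, integral_const_mul, hρI, e3] at hpos
  have h3 : 0 < lam * √(1 - lam ^ 2) := by positivity
  nlinarith [mul_le_mul_of_nonneg_right hX h3.le]

end Crest.Agent.T49.Ur
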