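import Crest.Agent.T49.UrGam_39
import Crest.Agent.T49.OReg_26
import Crest.Agent.T49.RegA_2

/-!
# Row 49 (helper39): regularisation of the new atoms, consumer's form
-/

set_option autoImplicit false
set_option linter.unusedSectionVars false

open MvPolynomial Finset

noncomputable section

namespace Crest.Agent.T49.Ur

open Tw Tw.Cell Rg Mal Ea Samp Fr.O26

variable {σ κ : Type} [Fintype σ] [Fintype κ]

theorem log_one_add_le {a X : ℝ} (hX : 0 ≤ X) (h : |a| ≤ Real.exp X) :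
    Real.log (1 + |a|) ≤ X + 1 := by
  rw [Real.log_le_iff_le_exp (by positivity), Real.exp_add]
  nlinarith [Real.one_le_exp hX, Real.add_one_le_exp (1 : ℝ)]

theorem ext_kapM_le {T : Cell σ} {E : Ext T.lev κ} {a : κ → ℝ} {ha : ∀ k, a k ≠ 0} {c0 : κ → ℝ}
    {s j : ℕ} (hs : ∀ c, T.lev c ≤ s) (hj : s < j) {X : ℝ} (hX : 0 ≤ X)
    (hκ : (Fintype.card κ : ℝ) ≤ X) (h : ∀ k, |a k| ≤ Real.exp X) :
    (Ext.cell T E a ha c0).kapM (clE T E s) j ≤ 1 + X * (X + 2) := by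
  rw [kapM, sum_filter, Fintype.sum_sum_type, sum_eq_zero fun c _ => if_neg (by
    have := hs c
    show ¬ T.lev c = j
    omega), zero_add]
  refine add_le_add_right ((sum_le_card_nsmul _ _ (X + 2) fun k _ => ?_).trans ?_) _
  · split_ifs
    · have := log_one_add_le hX (h k)
      rw [Ext.cell_a_inr]; linarith
    · linarith
  · rw [card_univ, nsmul_eq_mul]
    exact mul_le_mul_of_nonneg_right hκ (by linarith)

theorem lm_le_kapM {ι : Type} [Fintype ι] (T : Cell ι) (cl : ι → ℕ) (j : ℕ) :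
    Rg.lm T.toTri cl j ≤ T.kapM cl j := by
  rw [Rg.lm, kapM]
  refine le_trans (sum_le_sum fun c _ => ?_) (le_add_of_nonneg_left zero_le_one)
  have := Real.log_le_log (abs_pos.2 (T.a_ne c)) (le_add_of_nonneg_left zero_le_one :
    |T.a c| ≤ 1 + |T.a c|)
  linarith

theorem exists_chain (s D K : ℕ) {W N lam n : ℝ} (hq : 2 ≤ W) (hn : 1 ≤ n) (hN : N = n ^ K)
    (hn1 : n ≤ lam) (hl : W ≤ lam) : ∃ τ : ℕ → ℝ, τ (s + s + 1) = W ∧
    (∀ j, j ≤ s + s → τ j = (τ (j + 1) + W + N * (τ (j + 1) + lam)) ^ (D + 1) ∧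
      τ (j + 1) + W + N * (τ (j + 1) + lam) ≤ τ j) ∧ (∀ j, 2 ≤ τ j) ∧
    (∀ B, lam ≤ B → ∀ j, s < j → τ j ≤ gch D K B s) ∧ ∀ j, s < j → τ j ≤ τ (s + 1) := by
  have hk1 : ∀ _ : ℕ, 1 ≤ W := fun _ => by linarith
  have hN1 : 1 ≤ N := hN ▸ one_le_pow₀ hn
  have hl0 : 0 ≤ lam := by linarith
  refine ⟨fun j => tch (fun _ => W) s D W N lam (s + s + 1 - j), by simp [tch], fun j h2 => ?_,
    fun j => (tch_step hk1 hq hN1 hl0 _).1, fun B hB j hj => ?_,
    fun j hj => tch_mono hk1 hq hN1 hl0 (by omega)⟩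
  · have e1 : s + s + 1 - j = (s + s - j) + 1 := by omega
    have e2 : s + s + 1 - (j + 1) = s + s - j := by omega
    have h3 := (tch_step (s := s) (D := D) hk1 hq hN1 hl0 (s + s - j)).2
    simp only [e1, e2]
    exact ⟨by rw [tch], h3⟩
  · exact (tch_le hk1 hq hN1 hl0 (by linarith)
      (hN ▸ pow_le_pow_left₀ (by linarith) (by linarith) K) hB _
      fun _ _ => by linarith).trans (gch_mono D K (by linarith) (by omega))

set_option maxHeartbeats 800000 in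
/-- **REG1**: the new atoms are regularised; the result in the coordinates of the old cell -/
theorem reg1 (hR : RegStmt) (s : ℕ) (hs1 : 1 ≤ s) : ∃ C D : ℕ, ∀ (X y : ℝ) (σ κ : Type) [Fintype σ]
    [Fintype κ] (T0 T : Cell σ) (E : Ext T.lev κ) (a : κ → ℝ) (ha : ∀ k, a k ≠ 0) (c0 : κ → ℝ)
    (τ0 : ℕ → ℝ) (f : (σ → ℤ) → ℝ) (β : ℝ), 2 ≤ X → X ≤ y → y ≤ Real.exp X →
    T0.PC 1 T id → T0.RegM T0.lev D s τ0 → y ^ C ≤ τ0 (s + 1) → (∀ c, T.lev c ≤ s) →
    (∀ k, E.lev k ≤ s) → (Fintype.card σ : ℝ) ≤ X → (Fintype.card κ : ℝ) ≤ X →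
    (∀ k, |a k| ≤ Real.exp X) → (∀ l, T.kap l ≤ Real.exp X) → (∀ w, |f w| ≤ 1) →
    Real.exp (-X) ≤ β → β ≤ 1 → Real.exp (-X) * (Ext.cell T E a ha c0).mu ≤
      Sg (Ext.cell T E a ha c0).toTri (fun z => (f (z ∘ Sum.inl) - β) / 2) →
    ∃ (ι' : Type) (_ : Fintype ι') (T' : Cell ι') (cl' : ι' → ℕ) (φ : σ ⊕ κ → Pl ι')
      (v : ι' → σ ⊕ κ) (G : ℕ+) (u Y : ℝ) (cen : σ → ℝ) (r : σ → ℤ) (Γ : (σ → ℤ) → ℝ) (mun : ℝ),
      Mor s (Ext.cell T E a ha c0) (clE T E s) T' cl' φ v G u Y ∧ T'.IsMC cl' ∧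
      (∀ c, cl' c ≤ s ∨ cl' c = s + T'.lev c) ∧ (∀ c, T'.lev c ≤ s) ∧
      ((G : ℕ) : ℝ) ≤ Real.exp (y ^ C) ∧ u ≤ y ^ C ∧ Y ≤ X ^ C ∧
      (∀ j, s < j → j ≤ s + s → T'.kapM cl' j ≤ X ^ C) ∧ Rg.lm T'.toTri cl' (s + 1) ≤ X ^ C ∧
      0 < mun ∧ (∀ w, 0 ≤ Γ w ∧ Γ w ≤ Real.exp (X ^ C)) ∧
      β / 4 * wmu T (Real.exp (-u)) G ≤ ∑' w, wc T (Real.exp (-u)) cen G r w * (Γ w * f w) ∧
      ∀ (d : ℕ+) (l : ℝ) (c' : σ → ℝ) (r' : σ → ℤ), ((d : ℕ) : ℝ) ≤ Real.exp y →
        Real.exp (-y) ≤ l → l ≤ 1 → Cong G r' r →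
        |∑' w, wc T (Real.exp (-u) * l) c' (G * d) r' w * Γ w -
            wmu T (Real.exp (-u) * l) (G * d)| ≤ wmu T (Real.exp (-u) * l) (G * d) / 20 ∧
        ∃ (r'' : ι' → ℤ) (t'' : ι' → ℝ),
          (zo T' cl' s d (-Real.log l) r'' t'').mu = mun * wmu T (Real.exp (-u) * l) (G * d) ∧
          (zo T' cl' s d (-Real.log l) r'' t'').M =
            mun * ∑' w, wc T (Real.exp (-u) * l) c' (G * d) r' w * Γ w ∧
          ∀ (f : (σ → ℤ) → ℝ) (K : ℝ), (∀ w, |f w| ≤ K) →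
            Sg (zo T' cl' s d (-Real.log l) r'' t'').toTri
                (fun w => f (pt φ (pt (dl (wG T' cl' s d) r'') w) ∘ Sum.inl)) =
              mun * ∑' w, wc T (Real.exp (-u) * l) c' (G * d) r' w * (Γ w * f w) := by
  obtain ⟨K, hK⟩ := hR s hs1
  obtain ⟨D, hD⟩ := zo_mass s
  obtain ⟨E0, -, hE⟩ := PB.exists_le
    (f := fun B => B + B * B + B ^ K * (gch D K B s + B + B))
    (by have := pb_gch D K PB.id' s; fun_prop)
  obtain ⟨a0, ha0⟩ : ∃ a0 : ℝ, a0 = ((E0 : ℝ) + 2) ^ 2 - 1 := ⟨_, rfl⟩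
  have ha3 : 3 ≤ a0 := by rw [ha0]; nlinarith [Nat.cast_nonneg (α := ℝ) E0]
  obtain ⟨C, -, hC⟩ := PB.exists_le
    (f := fun m => (s + 2) * (gch D K (a0 * (m + 3) ^ 2) s + a0 * (m + 3) ^ 2) +
      2 * ((s + 1) ^ 2 * ((a0 * (m + 3) ^ 2) ^ K *
        (gch D K (a0 * (m + 3) ^ 2) s + m + a0 * (m + 3) ^ 2) + m) + 2))
    (by have := pb_gch D K (h := fun m => a0 * (m + 3) ^ 2) (by fun_prop) s; fun_prop)
  refine ⟨C, 2 * D + 2, fun X y σ κ _ _ T0 T E a ha c0 τ0 f β hX hXy hy hpc h0 hτ0 hs hE' hσ hκ hab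
    hkap hf hβ0 hβ1 hS => ?_⟩
  obtain ⟨W, hW⟩ : ∃ W : ℝ, W = (X + 3) ^ 2 := ⟨_, rfl⟩
  obtain ⟨lam, hlam⟩ : ∃ lam : ℝ, lam = a0 * W := ⟨_, rfl⟩
  obtain ⟨N, hN⟩ : ∃ N : ℝ, N = (2 * X + 2) ^ K := ⟨_, rfl⟩
  have hW1 : 6 * X + 9 ≤ W := by rw [hW]; linarith [sq_nonneg X]
  have hW2 : 1 + X * (X + 2) ≤ W := by rw [hW]; linarith
  have hN1 : 1 ≤ N := hN ▸ one_le_pow₀ (by linarith)
  have hl2 : 3 * W ≤ lam := hlam ▸ mul_le_mul_of_nonneg_right ha3 (by linarith)
  have hl0 : 0 ≤ lam := by linarith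
  have hq : (2 : ℝ) ≤ W := by linarith
  have hNB : ∀ B, lam ≤ B → N ≤ B ^ K := fun B hB =>
    hN ▸ pow_le_pow_left₀ (by linarith) (by linarith) K
  obtain ⟨τ, hτs, hstep, hτ2, hτB, hτm⟩ := exists_chain s D K hq (n := 2 * X + 2) (lam := lam)
    (by linarith) hN (by linarith) (by linarith)
  have hWe : W ≤ Real.exp W := by linarith [Real.add_one_le_exp W]
  have hXe : Real.exp X ≤ Real.exp W := Real.exp_le_exp.2 (by linarith)
  have hcard : (Fintype.card (σ ⊕ κ) : ℝ) ≤ 2 * X := by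
    rw [Fintype.card_sum]; push_cast; linarith
  have hkt : kt (Ext.cell T E a ha c0).toTri ≤ W * Real.exp W := by
    refine (sum_le_card_nsmul _ _ (Real.exp W) fun c _ => ?_).trans ?_
    · rcases c with c | c
      · exact (term_le_kap T c).trans ((hkap _).trans hXe)
      · exact (log_one_add_le (by linarith) (hab c)).trans (by linarith)
    · rw [card_univ, nsmul_eq_mul]
      exact mul_le_mul_of_nonneg_right (by linarith) (Real.exp_pos _).le
  have hkt0 : 0 ≤ kt (Ext.cell T E a ha c0).toTri := sum_nonneg fun c _ => by linarith [Cell.one_le_term ((Ext.cell T E a ha c0).a c)]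
  have hbig : X + kt (Ext.cell T E a ha c0).toTri + N * (τ (s + 1) + y + lam) ≤ Real.exp lam := by
    refine le_trans ?_ ((hE (Real.exp W + lam) (by linarith)).trans
      (by rw [hlam, ha0]; exact pow_le_exp E0 hq))
    have h1 := hτB (Real.exp W + lam) (by linarith) (s + 1) (by omega)
    have h2 : W * Real.exp W ≤ (Real.exp W + lam) * (Real.exp W + lam) :=
      mul_le_mul (by linarith) (by linarith) (Real.exp_pos _).le (by linarith)
    have h3 : N * (τ (s + 1) + y + lam) ≤ (Real.exp W + lam) ^ K *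
        (gch D K (Real.exp W + lam) s + (Real.exp W + lam) + (Real.exp W + lam)) :=
      mul_le_mul (hNB _ (by linarith)) (by linarith)
        (by linarith [hτ2 (s + 1)]) (pow_nonneg (by linarith) _)
    linarith
  have hkU : ∀ j, s < j → (Ext.cell T E a ha c0).kapM (clE T E s) j ≤ W := fun j hj =>
    (ext_kapM_le hs hj (by linarith) hκ hab).trans hW2
  have he0 := Real.exp_pos (-X)
  obtain ⟨ι', _, T', cl', φ, v, G, u, hM, hm, hcl, hlev', hG, hu, hkap', hlm, hreg, hS'⟩ :=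
    hK s (σ ⊕ κ) (Ext.cell T E a ha c0) (clE T E s) τ lam X y (2 * X + 2) (fun z => (f (z ∘ Sum.inl) - β) / 2)
      (ext_isMC hs) (ext_cls hs) (fun c => by rcases c with c | c; exacts [hs c, hE' c])
      (by linarith) (by linarith) (by linarith) (by linarith) (by linarith [hτ2 (s + s + 1)])
      (fun j h1 h2 => by rw [← hN]; linarith [(hstep j h2).2, hkU j h1, hτ2 (j + 1)]) (hN ▸ hbig)
      (fun z => by
        have := abs_le.1 (hf (z ∘ Sum.inl))
        rw [abs_le]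
        constructor <;> linarith [this.1, this.2]) hS
  clear hK hE
  rw [← hN] at hG hu hkap' hlm hS'
  have hk2 : ∀ j, s < j → j ≤ s + s → τ (j + 1) + T'.kapM cl' j ≤
      τ (j + 1) + W + N * (τ (j + 1) + lam) := fun j h1 h2 => by
    linarith [hkap' j h1 h2, hkU j h1]
  have hP := hτB lam le_rfl
  have hP2 : 2 ≤ gch D K lam s := (hτ2 _).trans (hP (s + 1) (by omega))
  have hk3 : ∀ j, s < j → j ≤ s + s → T'.kapM cl' j ≤ τ j := fun j h1 h2 => by
    linarith [hk2 j h1 h2, (hstep j h2).2, hτ2 (j + 1)]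
  have hs0 : (1 : ℝ) ≤ s := by exact_mod_cast hs1
  have hCX : (s + 2) * (gch D K lam s + lam) ≤ X ^ C := by
    have h1 := hC X hX
    rw [← hW, ← hlam] at h1
    refine le_trans (le_add_of_nonneg_right ?_) h1
    have : 0 ≤ gch D K lam s := by linarith
    positivity
  have hCX1 : 2 * (gch D K lam s + lam) ≤ X ^ C ∧ s * gch D K lam s ≤ X ^ C := by
    have h1 : 0 ≤ s * (gch D K lam s + lam) := mul_nonneg (by linarith) (by linarith)
    have h2 : 0 ≤ s * lam := mul_nonneg (by linarith) hl0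
    constructor <;> linarith
  have hCy : τ (s + 1) + 2 * ((s + 1) ^ 2 * (N * (τ (s + 1) + y + lam) + y) + 2) ≤ y ^ C := by
    refine le_trans ?_ (hC y (by linarith))
    have h1 : lam ≤ a0 * (y + 3) ^ 2 := by
      rw [hlam, hW]
      exact mul_le_mul_of_nonneg_left (pow_le_pow_left₀ (by linarith) (by linarith) 2)
        (by linarith)
    have h2 := hτB _ h1 (s + 1) (by omega)
    have h3 : N * (τ (s + 1) + y + lam) ≤ (a0 * (y + 3) ^ 2) ^ K *
        (gch D K (a0 * (y + 3) ^ 2) s + y + a0 * (y + 3) ^ 2) :=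
      mul_le_mul (hNB _ (by linarith)) (by linarith)
        (by linarith [hτ2 (s + 1)]) (pow_nonneg (by linarith) _)
    have h4 := mul_le_mul_of_nonneg_left (add_le_add_left h3 y) (sq_nonneg ((s : ℝ) + 1))
    have h5 := hτ2 (s + 1)
    have h6 : 0 ≤ (s + 1) * (gch D K (a0 * (y + 3) ^ 2) s + a0 * (y + 3) ^ 2) :=
      mul_nonneg (by linarith) (by linarith)
    linarith
  have hz0 : τ (s + 1) + y + lam ≤ N * (τ (s + 1) + y + lam) :=
    le_mul_of_one_le_left (by linarith [hτ2 (s + 1)]) hN1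
  have hzy : N * (τ (s + 1) + y + lam) ≤ y ^ C := by
    have h5 := hτ2 (s + 1)
    have h1 : 1 ≤ ((s : ℝ) + 1) ^ 2 := by nlinarith
    have h2 := mul_le_mul_of_nonneg_right h1
      (show 0 ≤ N * (τ (s + 1) + y + lam) + y by linarith)
    linarith
  have hcl2 : ∀ c, cl' c ≤ s + s := fun c => by
    have := hlev' c
    rcases hcl c with h | h <;> omega
  have hc' : (Fintype.card ι' : ℝ) ≤ 2 * X :=
    (Nat.cast_le.2 (Fintype.card_le_of_injective v hM.v_inj)).trans hcard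
  have hmass := hD σ κ ι' T0 T E a ha c0 T' cl' φ v G u _ τ0 τ lam y _ (2 * X + 4) hpc h0 hs hM hm
    hcl hlev' hG hu (hτ2 _) (hCy.trans hτ0)
    (fun j h1 h2 => by
      have h3 := hk2 j h1 h2
      have h4 := T'.one_le_kapM cl' j
      have h5 := hτ2 (j + 1)
      rw [(hstep j h2).1]
      exact (pow_le_pow_left₀ (by linarith) h3 D).trans
        (pow_le_pow_right₀ (by linarith) (Nat.le_succ D)))
    (fun j h1 h2 => by
      linarith [hk3 j h1 h2, hτm j h1])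
    hreg
    (by
      have := Real.log_le_sub_one_of_pos
        (show (0 : ℝ) < Fintype.card ι' + 2 by positivity)
      linarith)
    (by rw [hτs]; linarith)
  clear hD hC hreg
  obtain ⟨cen, r, Γ, mun, hmun, hΓ, -, hSg, hzo⟩ := exists_gam hs hM hm hcl2
    (z := gch D K lam s) fun j h1 h2 => (hk3 j h1 h2).trans (hP j h1)
  have hwin : ∀ (d : ℕ+) (l : ℝ) (c' : σ → ℝ) (r' : σ → ℤ), ((d : ℕ) : ℝ) ≤ Real.exp y →
      Real.exp (-y) ≤ l → l ≤ 1 → Cong G r' r →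
      |∑' w, wc T (Real.exp (-u) * l) c' (G * d) r' w * Γ w -
          wmu T (Real.exp (-u) * l) (G * d)| ≤ wmu T (Real.exp (-u) * l) (G * d) / 20 := by
    intro d l c' r' h1 h2 h3 h4
    have hl : 0 < l := (Real.exp_pos _).trans_le h2
    obtain ⟨r'', t'', e1, e2, -⟩ := hzo d l c' r' hl h4
    have h5 := hmass d (-Real.log l) r'' t'' h1 (neg_nonneg.2 (Real.log_nonpos hl.le h3))
      (by linarith [(Real.le_log_iff_exp_le hl).2 h2])
    have h6 := (zo T' cl' s d (-Real.log l) r'' t'').mu_pos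
    rw [e1] at h6
    have h7 := (mul_pos_iff_of_pos_left hmun).1 h6
    rw [e1, e2, mul_div_mul_left _ _ hmun.ne', div_sub_one h7.ne', abs_div, abs_of_pos h7,
      div_le_iff₀ h7] at h5
    have h8 : Real.exp (-(2 * X + 4)) ≤ 1 / 20 := by
      rw [Real.exp_neg, one_div]
      refine inv_anti₀ (by norm_num) ?_
      refine le_trans ?_ (Real.exp_le_exp.2 (show 8 ≤ 2 * X + 4 by linarith))
      linarith [Real.quadratic_le_exp_of_nonneg (show (0 : ℝ) ≤ 8 by norm_num)]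
    linarith [mul_le_mul_of_nonneg_right h8 h7.le]
  refine ⟨ι', inferInstance, T', cl', φ, v, G, u, _, cen, r, Γ, mun, hM, hm, hcl, hlev',
    hG.trans (Real.exp_le_exp.2 hzy), hu.trans hzy, by linarith [hP (s + 2) (by omega)],
    fun j h1 h2 => by linarith [hk3 j h1 h2, hP j h1], ?_, hmun,
    fun w => ⟨(hΓ w).1, (hΓ w).2.trans (Real.exp_le_exp.2 hCX1.2)⟩, ?_,
    fun d l c' r' h1 h2 h3 h4 =>
      ⟨hwin d l c' r' h1 h2 h3 h4, hzo d l c' r' ((Real.exp_pos _).trans_le h2) h4⟩⟩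
  · have h1 := (lm_le_kapM (Ext.cell T E a ha c0) (clE T E s) (s + 1)).trans (hkU _ (by omega))
    have h2 := (hstep (s + 1) (by omega)).2
    have h3 := hτ2 (s + 1 + 1)
    have h4 := hP (s + 1) (by omega)
    have h5 : Rg.lm T'.toTri cl' (s + 1) ≤
      Rg.lm (Ext.cell T E a ha c0).toTri (clE T E s) (s + 1) + N * (τ (s + 1 + 1) + lam) := hlm
    linarith
  · have h1 := hwin 1 1 cen r (by simpa using by linarith) (by simpa using by linarith) le_rfl
      fun _ => by simp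
    have h2 := hSg (fun _ => 1) 1 (by simp)
    have h3 := hSg f 1 hf
    simp only [mul_one, PNat.one_coe] at h1 h2
    have h4 : Sg T'.toTri (fun z => (f (pt φ z ∘ Sum.inl) - β) / 2) =
        Sg T'.toTri (fun z => f (pt φ z ∘ Sum.inl)) / 2 - β / 2 * T'.M := by
      have := Sg_add_const T'.toTri (g := fun z => f (pt φ z ∘ Sum.inl)) (fun z => hf _) (-β)
      have e : Sg T'.toTri (fun z => (f (pt φ z ∘ Sum.inl) - β) / 2) =
          Sg T'.toTri (fun z => f (pt φ z ∘ Sum.inl) + -β) / 2 := by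
        simp only [Sg, ← tsum_div_const, mul_div_assoc, sub_eq_add_neg]
      rw [e, this]; ring
    have h5 : Sg T'.toTri (fun _ => 1) = T'.M := by simp [Sg, Tri.M]
    have h6 : Real.exp (-lam) ≤ β / 4 := by
      have h7 : Real.exp (-lam) ≤ Real.exp (-X + -3) := Real.exp_le_exp.2 (by linarith)
      have h8 : Real.exp (-3) ≤ 1 / 4 := by
        rw [Real.exp_neg, one_div]
        exact inv_anti₀ (by norm_num) (by linarith [Real.add_one_le_exp (3 : ℝ)])
      rw [Real.exp_add] at h7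
      linarith [mul_le_mul_of_nonneg_left h8 he0.le]
    have h7 := mul_pos (Real.exp_pos (-(X + N * (τ (s + 1) + lam)))) T'.mu_pos
    have h8 := mul_le_mul_of_nonneg_right h6 T'.M_pos.le
    rw [h4, h3] at hS'
    rw [h5] at h2
    have h9 : β / 2 * (∑' w, wc T (Real.exp (-u)) cen G r w * Γ w) ≤
        ∑' w, wc T (Real.exp (-u)) cen G r w * (Γ w * f w) := by
      refine le_of_mul_le_mul_left ?_ hmun
      rw [mul_left_comm, ← h2]
      linarith
    have h10 := (abs_le.1 h1).1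
    have h11 : 0 ≤ wmu T (Real.exp (-u)) G := mul_nonneg T.mu_pos.le (by positivity)
    have h12 : 0 ≤ β := he0.le.trans hβ0
    linarith [mul_le_mul_of_nonneg_left h10 h12, mul_nonneg h12 h11]

end Crest.Agent.T49.Ur
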