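import Crest.Agent.N41.Exp.Weyl

/-!
# Row 49, Weyl block, part 1 (helper14): one variable, all coefficients.
`exists_small1`: a polynomial that is `ε`-close to integers on a dense set has all coefficients
close to rationals with one denominator; `exists_bias1`: the same from a large exponential sum.
-/

set_option autoImplicit false

open Finset Polynomial

namespace Crest.Agent.T49.Weyl

open Crest.Agent.N41.Exp

/-- passing to a multiple of the denominator -/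
lemma mul_up {β ε M : ℝ} {q q' : ℕ} {r : ℤ} (hq : 1 ≤ q) (hd : q ∣ q') (hM : (q' : ℝ) ≤ M)
    (h : |(q : ℝ) * β - r| ≤ ε) : ∃ r' : ℤ, |(q' : ℝ) * β - r'| ≤ M * ε := by
  obtain ⟨c, rfl⟩ := hd
  refine ⟨c * r, ?_⟩
  have h1 : ((q * c : ℕ) : ℝ) * β - ((c * r : ℤ) : ℝ) = c * ((q : ℝ) * β - r) := by
    push_cast; ring
  have h2 : (c : ℝ) ≤ M := le_trans (by exact_mod_cast Nat.le_mul_of_pos_left c hq) hM
  rw [h1, abs_mul, Nat.abs_cast]
  exact mul_le_mul h2 h (abs_nonneg _) (le_trans (by positivity) h2)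

/-- a common denominator -/
lemma common_den {ι : Type*} (T : Finset ι) (q : ι → ℕ) {Q : ℝ} (h1 : ∀ t ∈ T, 1 ≤ q t)
    (h2 : ∀ t ∈ T, (q t : ℝ) ≤ Q) :
    ∃ q' : ℕ, 1 ≤ q' ∧ (q' : ℝ) ≤ Q ^ T.card ∧ ∀ t ∈ T, q t ∣ q' := by
  refine ⟨∏ t ∈ T, q t, one_le_prod' h1, ?_, fun t ht => dvd_prod_of_mem q ht⟩
  push_cast
  rw [← prod_const]
  exact prod_le_prod (fun _ _ => by positivity) h2

lemma two_mul_le_sq {D : ℝ} (hD : 2 ≤ D) : 2 * D ≤ D ^ 2 := by nlinarith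

/-- all coefficients of a polynomial that is almost integral on a dense set -/
def Small1 (s C : ℕ) : Prop :=
  ∀ P : ℝ[X], P.natDegree ≤ s → ∀ (S : Finset ℤ) (N D ε : ℝ), 2 ≤ D → 0 ≤ ε → D ^ C ≤ N →
    ε * D ^ C ≤ 1 → (∀ x ∈ S, |(x : ℝ)| ≤ N) → N ≤ D * S.card →
    (∀ n ∈ S, ∃ r : ℤ, |P.eval (n : ℝ) - r| ≤ ε) →
    ∃ q : ℕ, 1 ≤ q ∧ (q : ℝ) ≤ D ^ C ∧
      ∀ j, ∃ r : ℤ, |(q : ℝ) * P.coeff j - r| ≤ D ^ C * ε / N ^ j

/-- the top coefficient, symmetric interval -/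
lemma top1 {k C : ℕ} (h : PolyVin k C) (P : ℝ[X]) (hP : P.natDegree ≤ k) (S : Finset ℤ)
    {N D ε : ℝ} (hD : 2 ≤ D) (hε : 0 ≤ ε) (hN : D ^ (2 * C) ≤ N) (hεD : ε * D ^ (2 * C) ≤ 1)
    (hS : ∀ x ∈ S, |(x : ℝ)| ≤ N) (hc : N ≤ D * S.card)
    (hr : ∀ n ∈ S, ∃ r : ℤ, |P.eval (n : ℝ) - r| ≤ ε) :
    Appr (P.coeff k) (D ^ (2 * C)) (D ^ (2 * C) * ε / N ^ k) := by
  have hN0 : 0 < N := lt_of_lt_of_le (by positivity) hN
  have h2 := two_mul_le_sq hD
  have key := h P hP S (2 * N) (D ^ 2) ε (by linarith) hε (by rw [← pow_mul]; linarith)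
    (by rwa [← pow_mul]) ?_ ?_ hr
  · rw [← pow_mul] at key
    refine key.mono le_rfl ?_
    gcongr; linarith
  · intro x hx y hy
    have := abs_le.1 (hS x hx)
    have := abs_le.1 (hS y hy)
    linarith
  · calc 2 * N ≤ 2 * (D * S.card) := by linarith
      _ = (2 * D) * S.card := by ring
      _ ≤ _ := by gcongr

lemma natDegree_drop {P : ℝ[X]} {k : ℕ} (hP : P.natDegree ≤ k + 1) :
    (P - monomial (k + 1) (P.coeff (k + 1))).natDegree ≤ k := by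
  rw [natDegree_le_iff_coeff_eq_zero]
  intro n hn
  rw [coeff_sub, coeff_monomial]
  split_ifs with h
  · rw [h, sub_self]
  · rw [coeff_eq_zero_of_natDegree_lt (by omega), sub_zero]

lemma small1_zero : Small1 0 0 := by
  intro P hP S N D ε hD hε hN hεD hS hc hr
  have hS0 : S.Nonempty := by
    rw [← card_pos]
    by_contra h0
    have : S.card = 0 := by omega
    rw [this] at hc
    simp at hc hN
    linarith
  obtain ⟨n, hn⟩ := hS0
  obtain ⟨r, hr⟩ := hr n hn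
  refine ⟨1, le_rfl, by simp, fun j => ?_⟩
  rcases j with _ | j
  · rw [eq_C_of_natDegree_le_zero hP] at hr
    exact ⟨r, by simpa using hr⟩
  · refine ⟨0, ?_⟩
    rw [coeff_eq_zero_of_natDegree_lt (by omega)]
    simp at hN ⊢
    positivity

lemma small1_succ {k C C₀ : ℕ} (h0 : PolyVin (k + 1) C₀) (ih : Small1 k C) :
    Small1 (k + 1) (2 * C₀ + 1 + C) := by
  intro P hP S N D ε hD hε hN hεD hS hc hr
  have hD1 : (1 : ℝ) ≤ D := by linarith
  have hN1 : (1 : ℝ) ≤ N := (one_le_pow₀ hD1).trans hN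
  have hle : ∀ j, j ≤ 2 * C₀ + 1 + C → D ^ j ≤ D ^ (2 * C₀ + 1 + C) := fun j hj =>
    pow_le_pow_right₀ hD1 hj
  obtain ⟨q₀, hq1, hq2, r₀, hr₀⟩ := top1 h0 P hP S hD hε ((hle _ (by omega)).trans hN)
    (le_trans (by gcongr; omega) hεD) hS hc hr
  set a := P.coeff (k + 1) with ha
  have hsm : ∀ n ∈ S, ∃ r : ℤ, |eval (n : ℝ) (Polynomial.C (q₀ : ℝ) * (P - monomial (k + 1) a)) - r| ≤
      D ^ (2 * C₀ + 1) * ε := by
    intro n hn
    obtain ⟨r, hr⟩ := hr n hn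
    refine ⟨q₀ * r - r₀ * n ^ (k + 1), ?_⟩
    have e1 : eval (n : ℝ) (Polynomial.C (q₀ : ℝ) * (P - monomial (k + 1) a)) -
        ((q₀ * r - r₀ * n ^ (k + 1) : ℤ) : ℝ) =
        q₀ * (P.eval (n : ℝ) - r) - ((q₀ : ℝ) * a - r₀) * (n : ℝ) ^ (k + 1) := by
      simp only [eval_mul, eval_C, eval_sub, eval_monomial]; push_cast; ring
    rw [e1]
    have h1 : |(q₀ : ℝ) * (P.eval (n : ℝ) - r)| ≤ D ^ (2 * C₀) * ε := by
      rw [abs_mul, Nat.abs_cast]; gcongr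
    have h2 : |((q₀ : ℝ) * a - r₀) * (n : ℝ) ^ (k + 1)| ≤ D ^ (2 * C₀) * ε := by
      rw [abs_mul, abs_pow]
      calc _ ≤ D ^ (2 * C₀) * ε / N ^ (k + 1) * N ^ (k + 1) := by
            gcongr; exact hS n hn
        _ = _ := by field_simp
    have h3 := abs_sub ((q₀ : ℝ) * (P.eval (n : ℝ) - r)) (((q₀ : ℝ) * a - r₀) * (n : ℝ) ^ (k + 1))
    have h4 : 2 * (D ^ (2 * C₀) * ε) ≤ D ^ (2 * C₀ + 1) * ε := by
      rw [pow_succ]
      have : 0 ≤ D ^ (2 * C₀) * ε := by positivity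
      nlinarith
    linarith
  obtain ⟨q₁, hp1, hp2, hp3⟩ := ih (Polynomial.C (q₀ : ℝ) * (P - monomial (k + 1) a))
    ((natDegree_C_mul_le _ _).trans (natDegree_drop hP)) S N D (D ^ (2 * C₀ + 1) * ε) hD
    (by positivity) ((hle _ (by omega)).trans hN)
    (by rw [pow_add D (2 * C₀ + 1)] at hεD; linarith) hS hc hsm
  · have hq : ((q₀ * q₁ : ℕ) : ℝ) ≤ D ^ (2 * C₀ + C) := by
      push_cast; rw [pow_add]; gcongr
    refine ⟨q₀ * q₁, Nat.mul_pos hq1 hp1, hq.trans (hle _ (by omega)), fun j => ?_⟩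
    by_cases hj : j = k + 1
    · subst hj
      refine ⟨q₁ * r₀, ?_⟩
      have e1 : ((q₀ * q₁ : ℕ) : ℝ) * a - ((q₁ * r₀ : ℤ) : ℝ) = q₁ * ((q₀ : ℝ) * a - r₀) := by
        push_cast; ring
      rw [e1, abs_mul, Nat.abs_cast]
      calc (q₁ : ℝ) * |(q₀ : ℝ) * a - r₀| ≤ D ^ C * (D ^ (2 * C₀) * ε / N ^ (k + 1)) := by gcongr
        _ = D ^ (2 * C₀ + C) * ε / N ^ (k + 1) := by rw [pow_add]; ring
        _ ≤ _ := by gcongr; omega
    · obtain ⟨r, hr⟩ := hp3 j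
      refine ⟨r, ?_⟩
      rw [coeff_C_mul, coeff_sub, coeff_monomial, if_neg (Ne.symm hj), sub_zero] at hr
      have e1 : ((q₀ * q₁ : ℕ) : ℝ) * P.coeff j = q₁ * (q₀ * P.coeff j) := by push_cast; ring
      rw [e1]
      refine hr.trans (le_of_eq ?_)
      rw [pow_add D (2 * C₀ + 1)]; ring

theorem exists_small1 (s : ℕ) : ∃ C, Small1 s C := by
  induction s with
  | zero => exact ⟨0, small1_zero⟩
  | succ k ih =>
    obtain ⟨C, hC⟩ := ih
    obtain ⟨C₀, h0⟩ := exists_polyVin (k + 1)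
    exact ⟨_, small1_succ h0 hC⟩

/-! ### Exponential sums -/

lemma norm_e_sub_e (x y : ℝ) : ‖e x - e y‖ ≤ 7 * |x - y| := by
  have h : e x - e y = e y * (e (x - y) - 1) := by
    rw [mul_sub, ← e_add]; simp
  rw [h, norm_mul, norm_e, one_mul, e_eq]
  refine Real.norm_exp_I_mul_ofReal_sub_one_le.trans ?_
  rw [Real.norm_eq_abs, abs_mul, abs_of_pos (by positivity : (0 : ℝ) < 2 * Real.pi)]
  have := Real.pi_lt_d2
  gcongr
  linarith

lemma abel_id (c v : ℤ → ℂ) {a b : ℤ} (hab : a ≤ b) :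
    ∑ n ∈ Ioc a b, c n * v n = (∑ n ∈ Ioc a b, c n) * v b -
      ∑ n ∈ Ico a b, (∑ m ∈ Ioc a n, c m) * (v (n + 1) - v n) := by
  induction b, hab using Int.leInduction with
  | base => simp
  | succ b hab ih =>
    have h1 : Ioc a (b + 1) = insert (b + 1) (Ioc a b) := by
      ext x; simp only [mem_Ioc, mem_insert]; omega
    have h2 : Ico a (b + 1) = insert b (Ico a b) := by
      ext x; simp only [mem_Ico, mem_insert]; omega
    rw [h1, h2, sum_insert (by simp), sum_insert (by simp), sum_insert (by simp), ih]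
    ring

/-- Abel summation: a weight of bounded variation is removed on an initial interval -/
lemma abel_ex (c v : ℤ → ℂ) {a b : ℤ} (hab : a ≤ b) {V : ℝ}
    (hV : ‖v b‖ + ∑ n ∈ Ico a b, ‖v (n + 1) - v n‖ ≤ V) :
    ∃ x, a ≤ x ∧ x ≤ b ∧ ‖∑ n ∈ Ioc a b, c n * v n‖ ≤ V * ‖∑ n ∈ Ioc a x, c n‖ := by
  obtain ⟨x, hx, hmax⟩ := exists_max_image (Icc a b) (fun x => ‖∑ n ∈ Ioc a x, c n‖)
    ⟨a, mem_Icc.2 ⟨le_rfl, hab⟩⟩
  rw [mem_Icc] at hx
  refine ⟨x, hx.1, hx.2, ?_⟩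
  rw [abel_id c v hab, mul_comm V]
  refine (norm_sub_le _ _).trans (le_trans ?_ (mul_le_mul_of_nonneg_left hV (norm_nonneg _)))
  rw [mul_add, mul_sum]
  gcongr
  · rw [norm_mul]; gcongr; exact hmax b (mem_Icc.2 ⟨hab, le_rfl⟩)
  · refine (norm_sum_le _ _).trans (sum_le_sum fun n hn => ?_)
    rw [norm_mul]; gcongr
    have := mem_Ico.mp hn
    exact hmax n (mem_Icc.2 ⟨this.1, this.2.le⟩)

/-- orthogonality of the characters of `ℤ / q` -/
lemma sum_e_orth {q : ℕ} (hq : 1 ≤ q) (m : ℤ) :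
    ∑ b ∈ range q, e (b * (m / q : ℝ)) = if (q : ℤ) ∣ m then (q : ℂ) else 0 := by
  have hq0 : (q : ℝ) ≠ 0 := by positivity
  simp_rw [e_nat_mul]
  split_ifs with h
  · obtain ⟨c, rfl⟩ := h
    have : ((((q : ℤ) * c : ℤ) : ℝ) / q) = (c : ℝ) := by push_cast; field_simp
    rw [this, e_int]; simp
  · have h1 : e (m / q : ℝ) ^ q = 1 := by
      rw [← e_nat_mul, mul_div_cancel₀ _ hq0, e_int]
    have h2 : e (m / q : ℝ) - 1 ≠ 0 := by
      intro h0
      have h3 := four_mul_le_norm_e_sub_one (m / q : ℝ)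
      rw [h0, norm_zero] at h3
      have h4 : (m / q : ℝ) - round (m / q : ℝ) = 0 :=
        abs_eq_zero.1 (le_antisymm (by linarith) (abs_nonneg _))
      refine h ⟨round (m / q : ℝ), ?_⟩
      have h5 : (m : ℝ) = q * round (m / q : ℝ) := by
        rw [sub_eq_zero, div_eq_iff hq0] at h4; linarith
      exact_mod_cast h5
    have h3 := mul_geom_sum (e (m / q : ℝ)) q
    rw [h1, sub_self] at h3
    exact (mul_eq_zero.1 h3).resolve_left h2

/-- a periodic weight is replaced by a character -/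
lemma periodic_ex {ι : Type*} (I : Finset ι) (c : ι → ℂ) (φ : ι → ℤ) (ρ : ℤ → ℂ) {q : ℕ}
    (hq : 1 ≤ q) (hρ : ∀ n, ‖ρ n‖ ≤ 1) (hper : ∀ n m : ℤ, (q : ℤ) ∣ n - m → ρ n = ρ m) :
    ∃ b : ℕ, b < q ∧
      ‖∑ n ∈ I, c n * ρ (φ n)‖ ≤ q * ‖∑ n ∈ I, c n * e (b * (φ n / q : ℝ))‖ := by
  obtain ⟨b, hb, hmax⟩ := exists_max_image (range q)
    (fun b : ℕ => ‖∑ n ∈ I, c n * e (b * (φ n / q : ℝ))‖) ⟨0, mem_range.2 hq⟩
  refine ⟨b, mem_range.1 hb, ?_⟩
  have hq0 : (q : ℂ) ≠ 0 := by exact_mod_cast (by omega : q ≠ 0)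
  have hq0' : (0 : ℤ) < q := by exact_mod_cast hq
  have h1 : ∀ n : ℤ, ρ n = ∑ b ∈ range q,
      ((q : ℂ)⁻¹ * ∑ u ∈ range q, ρ u * e (-(b * ((u : ℤ) / q : ℝ)))) * e (b * (n / q : ℝ)) := by
    intro n
    have h2 : ∀ u : ℕ, ∑ b ∈ range q, e (-(b * ((u : ℤ) / q : ℝ))) * e (b * (n / q : ℝ)) =
        if (q : ℤ) ∣ n - u then (q : ℂ) else 0 := by
      intro u
      rw [← sum_e_orth hq]
      refine sum_congr rfl fun b _ => ?_
      rw [← e_add]; congr 1; push_cast; ring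
    simp_rw [mul_assoc, ← mul_sum, sum_mul, mul_assoc]
    rw [sum_comm]
    simp_rw [← mul_sum, h2]
    have h3 : (n % q).toNat ∈ range q := by
      have := Int.emod_lt_of_pos n hq0'
      have := Int.emod_nonneg n hq0'.ne'
      rw [mem_range]; omega
    have h4 : (((n % q).toNat : ℕ) : ℤ) = n % q := Int.toNat_of_nonneg (Int.emod_nonneg n hq0'.ne')
    have h5 : (q : ℤ) ∣ n - ((n % q).toNat : ℕ) := by
      rw [h4]; exact Int.dvd_self_sub_emod
    rw [sum_eq_single_of_mem _ h3]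
    · rw [if_pos h5, hper _ _ h5]; field_simp
    · intro u hu hne
      rw [if_neg, mul_zero]
      intro hd
      apply hne
      have h6 : n % q = (u : ℤ) % q :=
        Int.emod_eq_emod_iff_emod_sub_eq_zero.2 (Int.emod_eq_zero_of_dvd hd)
      have h7 : (u : ℤ) % q = u :=
        Int.emod_eq_of_lt (by positivity) (by exact_mod_cast mem_range.1 hu)
      omega
  have h2 : ∑ n ∈ I, c n * ρ (φ n) = ∑ b ∈ range q,
      ((q : ℂ)⁻¹ * ∑ u ∈ range q, ρ u * e (-(b * ((u : ℤ) / q : ℝ)))) *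
        ∑ n ∈ I, c n * e (b * (φ n / q : ℝ)) := by
    simp_rw [mul_sum I]
    rw [sum_comm]
    refine sum_congr rfl fun n _ => ?_
    rw [h1 (φ n), mul_sum]
    refine sum_congr rfl fun b _ => ?_
    ring
  rw [h2]
  refine (norm_sum_le _ _).trans ?_
  calc _ ≤ ∑ _b ∈ range q, ‖∑ n ∈ I, c n * e (b * (φ n / q : ℝ))‖ := by
        refine sum_le_sum fun b' hb' => ?_
        rw [norm_mul]
        refine le_trans (mul_le_of_le_one_left (norm_nonneg _) ?_) (hmax b' hb')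
        rw [norm_mul, norm_inv, Complex.norm_natCast, inv_mul_le_iff₀ (by positivity), mul_one]
        refine (norm_sum_le _ _).trans ?_
        calc _ ≤ ∑ _u ∈ range q, (1 : ℝ) := sum_le_sum fun u _ => by
              rw [norm_mul, norm_e, mul_one]; exact hρ _
          _ = q := by simp
    _ = _ := by rw [sum_const, card_range, nsmul_eq_mul]

/-- all non-constant coefficients of a biased polynomial phase -/
def Bias1 (s C : ℕ) : Prop :=
  ∀ P : ℝ[X], P.natDegree ≤ s → ∀ (a b : ℤ) (N D : ℝ), 2 ≤ D → 1 ≤ N → |(a : ℝ)| ≤ N →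
    |(b : ℝ)| ≤ N → N ≤ D * ‖∑ n ∈ Ioc a b, e (P.eval (n : ℝ))‖ →
    ∃ q : ℕ, 1 ≤ q ∧ (q : ℝ) ≤ D ^ C ∧
      ∀ j, 1 ≤ j → ∃ r : ℤ, |(q : ℝ) * P.coeff j - r| ≤ D ^ C / N ^ j

lemma topb {k C : ℕ} (h : WeylInv k C) (P : ℝ[X]) (hP : P.natDegree ≤ k) (a b : ℤ) {N D : ℝ}
    (hD : 2 ≤ D) (hN : 1 ≤ N) (ha : |(a : ℝ)| ≤ N) (hb : |(b : ℝ)| ≤ N)
    (hS : N ≤ D * ‖∑ n ∈ Ioc a b, e (P.eval (n : ℝ))‖) :
    Appr (P.coeff k) (D ^ (2 * C)) (D ^ (2 * C) / N ^ k) := by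
  have h2 := two_mul_le_sq hD
  have key := h P hP a b (2 * N) (D ^ 2) (by linarith) (by linarith)
    (by have := abs_le.1 ha; have := abs_le.1 hb; linarith) ?_
  · rw [← pow_mul] at key
    refine key.mono le_rfl ?_
    gcongr; linarith
  · calc 2 * N ≤ 2 * (D * ‖∑ n ∈ Ioc a b, e (P.eval (n : ℝ))‖) := by linarith
      _ = (2 * D) * ‖∑ n ∈ Ioc a b, e (P.eval (n : ℝ))‖ := by ring
      _ ≤ _ := by gcongr

lemma bias1_one : Bias1 1 2 := by
  intro P hP a b N D hD hN ha hb hS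
  obtain ⟨q, h1, h2, r, h3⟩ := topb weylInv_one P hP a b hD hN ha hb hS
  refine ⟨q, h1, h2, fun j hj => ?_⟩
  rcases eq_or_lt_of_le hj with rfl | hj
  · exact ⟨r, h3⟩
  · refine ⟨0, ?_⟩
    rw [coeff_eq_zero_of_natDegree_lt (by omega)]
    simp; positivity

lemma var_pow {β N E : ℝ} {k : ℕ} {a b : ℤ} (hN : 1 ≤ N) (ha : |(a : ℝ)| ≤ N)
    (hb : |(b : ℝ)| ≤ N) (hβ : |β| ≤ E / N ^ (k + 1)) :
    ‖e (β * (b : ℝ) ^ (k + 1))‖ + ∑ n ∈ Ico a b,
      ‖e (β * ((n + 1 : ℤ) : ℝ) ^ (k + 1)) - e (β * (n : ℝ) ^ (k + 1))‖ ≤ 1 + 14 * (k + 1) * E := by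
  have hE : 0 ≤ E := by
    have := (abs_nonneg β).trans hβ
    rwa [le_div_iff₀ (by positivity), zero_mul] at this
  have ha' := abs_le.1 ha
  have hb' := abs_le.1 hb
  rw [norm_e]
  gcongr
  have hcard : ((Ico a b).card : ℝ) ≤ 2 * N := by
    have h1 := card_Ioc_le (a := a) (b := b) (N := 2 * N) (by linarith) (by linarith)
    rw [Int.card_Ioc] at h1
    rwa [Int.card_Ico]
  calc _ ≤ ∑ _n ∈ Ico a b, 7 * ((k + 1) * E / N) := by
        refine sum_le_sum fun n hn => (norm_e_sub_e _ _).trans ?_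
        rw [mem_Ico] at hn
        have h1 : (a : ℝ) ≤ n := by exact_mod_cast hn.1
        have h2 : ((n + 1 : ℤ) : ℝ) ≤ b := by exact_mod_cast hn.2
        have h3 : max |((n + 1 : ℤ) : ℝ)| |(n : ℝ)| ≤ N := by
          push_cast at h2 ⊢
          refine max_le ?_ ?_ <;> rw [abs_le] <;> constructor <;> linarith
        have h4 := abs_pow_sub_pow_le ((n + 1 : ℤ) : ℝ) (n : ℝ) (k + 1)
        have h5 : |((n + 1 : ℤ) : ℝ) - n| = 1 := by push_cast; simp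
        rw [h5, one_mul, Nat.add_sub_cancel] at h4
        rw [← mul_sub, abs_mul]
        gcongr
        calc _ ≤ E / N ^ (k + 1) * (((k + 1 : ℕ) : ℝ) * N ^ k) := by
              refine mul_le_mul hβ (h4.trans ?_) (abs_nonneg _) (by positivity)
              gcongr
          _ = _ := by push_cast; rw [pow_succ]; field_simp
    _ = (Ico a b).card * (7 * ((k + 1) * E / N)) := by rw [sum_const, nsmul_eq_mul]
    _ ≤ 2 * N * (7 * ((k + 1) * E / N)) := by gcongr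
    _ = _ := by field_simp; ring

lemma bias1_succ {k C C₀ : ℕ} (hk : 1 ≤ k) (h0 : WeylInv (k + 1) C₀) (ih : Bias1 k C) :
    Bias1 (k + 1) ((4 * C₀ + k + 6) * (C + 1)) := by
  intro P hP a b N D hD hN ha hb hS
  have hD1 : (1 : ℝ) ≤ D := by linarith
  have hab : a ≤ b := by
    by_contra hlt
    rw [Ioc_eq_empty (by omega)] at hS
    simp at hS; linarith
  obtain ⟨q₀, hq1, hq2, r₀, hr₀⟩ := topb h0 P hP a b hD hN ha hb hS
  have hq0 : (0 : ℝ) < q₀ := by exact_mod_cast hq1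
  set t := P.coeff (k + 1) with ht
  set P' := P - monomial (k + 1) t with hP'
  set β := t - r₀ / q₀ with hβ
  have hβle : |β| ≤ D ^ (2 * C₀) / N ^ (k + 1) := by
    refine le_trans ?_ hr₀
    have : (q₀ : ℝ) * t - r₀ = q₀ * β := by rw [hβ]; field_simp
    rw [this, abs_mul, abs_of_pos hq0]
    exact le_mul_of_one_le_left (abs_nonneg _) (by exact_mod_cast hq1)
  have hsplit : ∀ n : ℤ, e (P.eval (n : ℝ)) =
      (e (P'.eval (n : ℝ)) * e (r₀ * (n : ℝ) ^ (k + 1) / q₀)) * e (β * (n : ℝ) ^ (k + 1)) := by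
    intro n
    rw [← e_add, ← e_add]; congr 1
    rw [hP', hβ]; simp only [eval_sub, eval_monomial]; ring
  simp_rw [hsplit] at hS
  obtain ⟨x, hx1, hx2, hx⟩ := abel_ex
    (fun n => e (P'.eval (n : ℝ)) * e (r₀ * (n : ℝ) ^ (k + 1) / q₀))
    (fun n => e (β * (n : ℝ) ^ (k + 1))) hab (var_pow hN ha hb hβle)
  obtain ⟨c, -, hc⟩ := periodic_ex (Ioc a x) (fun n => e (P'.eval (n : ℝ))) id
    (fun n => e (r₀ * (n : ℝ) ^ (k + 1) / q₀)) hq1 (fun n => (norm_e _).le) (by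
      intro n m hd
      obtain ⟨u, hu⟩ := hd.trans (sub_dvd_pow_sub_pow n m (k + 1))
      have h1 : (n : ℝ) ^ (k + 1) = (m : ℝ) ^ (k + 1) + q₀ * u := by
        have : ((n ^ (k + 1) - m ^ (k + 1) : ℤ) : ℝ) = ((q₀ * u : ℤ) : ℝ) := by rw [hu]
        push_cast at this; linarith
      have h2 : r₀ * (n : ℝ) ^ (k + 1) / q₀ = r₀ * (m : ℝ) ^ (k + 1) / q₀ + ((r₀ * u : ℤ) : ℝ) := by
        rw [h1]; push_cast; field_simp
      rw [h2, e_add, e_int, mul_one])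
  simp only [id] at hc
  set P'' := P' + monomial 1 ((c : ℝ) / q₀) with hP''
  have hev : ∀ n : ℤ, e (P'.eval (n : ℝ)) * e (c * (n / q₀ : ℝ)) = e (P''.eval (n : ℝ)) := by
    intro n
    rw [← e_add]; congr 1
    rw [hP'']; simp only [eval_add, eval_monomial]; ring
  simp_rw [hev] at hc
  set D' := D ^ (4 * C₀ + k + 6) with hD'
  have hD'D : D ^ (2 * C₀) ≤ D' := pow_le_pow_right₀ hD1 (by omega)
  have hD'2 : 2 ≤ D' := hD.trans (le_self_pow₀ hD1 (by omega))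
  have hV : 1 + 14 * (k + 1) * D ^ (2 * C₀) ≤ D ^ (2 * C₀ + k + 5) := by
    have h1 : ((k + 1 : ℕ) : ℝ) ≤ D ^ (k + 1) := succ_le_pow hD k
    have h2 : (1 : ℝ) ≤ D ^ (k + 1) * D ^ (2 * C₀) := one_le_mul_of_one_le_of_one_le
      (one_le_pow₀ hD1) (one_le_pow₀ hD1)
    have h3 : 15 * D ^ (k + 1 + 2 * C₀) ≤ D ^ (2 * C₀ + k + 5) :=
      const_mul_pow_le hD 4 (by norm_num) (by omega)
    push_cast at h1
    rw [pow_add] at h3
    have h4 : 14 * (k + 1) * D ^ (2 * C₀) ≤ 14 * D ^ (k + 1) * D ^ (2 * C₀) := by gcongr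
    linarith
  obtain ⟨q₁, hp1, hp2, hp3⟩ := ih P'' ((natDegree_add_le _ _).trans
    (max_le (natDegree_drop hP) ((natDegree_monomial_le _).trans hk))) a x N D' hD'2 hN ha
    (by
      have h1 : (a : ℝ) ≤ x := by exact_mod_cast hx1
      have h2 : (x : ℝ) ≤ b := by exact_mod_cast hx2
      have := abs_le.1 ha; have := abs_le.1 hb
      rw [abs_le]; constructor <;> linarith)
    (by
      calc N ≤ D * (D ^ (2 * C₀ + k + 5) * (D ^ (2 * C₀) *
            ‖∑ n ∈ Ioc a x, e (P''.eval (n : ℝ))‖)) := by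
            refine hS.trans (mul_le_mul_of_nonneg_left (hx.trans ?_) (by linarith))
            refine mul_le_mul hV (hc.trans ?_) (norm_nonneg _) (by positivity)
            gcongr
        _ = _ := by rw [hD']; ring)
  have hE : D' * D' ^ C = D ^ ((4 * C₀ + k + 6) * (C + 1)) := by
    rw [pow_mul, ← hD', pow_succ]; ring
  rw [← hE]
  refine ⟨q₀ * q₁, Nat.mul_pos hq1 hp1, ?_, fun j hj => ?_⟩
  · push_cast
    exact mul_le_mul (hq2.trans hD'D) hp2 (by positivity) (by positivity)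
  by_cases hjk : j = k + 1
  · subst hjk
    refine ⟨q₁ * r₀, ?_⟩
    have e1 : ((q₀ * q₁ : ℕ) : ℝ) * t - ((q₁ * r₀ : ℤ) : ℝ) = q₁ * ((q₀ : ℝ) * t - r₀) := by
      push_cast; ring
    rw [e1, abs_mul, Nat.abs_cast]
    calc (q₁ : ℝ) * |(q₀ : ℝ) * t - r₀| ≤ D' ^ C * (D' / N ^ (k + 1)) := by
          refine mul_le_mul hp2 (hr₀.trans ?_) (abs_nonneg _) (by positivity)
          gcongr
      _ = _ := by ring
  · obtain ⟨r, hr⟩ := hp3 j hj
    rw [hP'', hP', coeff_add, coeff_sub, coeff_monomial, if_neg (Ne.symm hjk), sub_zero,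
      coeff_monomial] at hr
    refine ⟨q₀ * r - (if 1 = j then q₁ * c else 0), ?_⟩
    have e1 : ((q₀ * q₁ : ℕ) : ℝ) * P.coeff j - ((q₀ * r - (if 1 = j then q₁ * c else 0) : ℤ) : ℝ) =
        q₀ * ((q₁ : ℝ) * (P.coeff j + if 1 = j then (c : ℝ) / q₀ else 0) - r) := by
      split_ifs
      · push_cast; field_simp; ring
      · push_cast; ring
    rw [e1, abs_mul, Nat.abs_cast]
    calc _ ≤ D' * (D' ^ C / N ^ j) :=
          mul_le_mul (hq2.trans hD'D) hr (abs_nonneg _) (by positivity)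
      _ = _ := by ring

theorem exists_bias1 (s : ℕ) : ∃ C, Bias1 s C := by
  have h : ∀ k, 1 ≤ k → ∃ C, Bias1 k C := by
    intro k hk
    induction k, hk using Nat.le_induction with
    | base => exact ⟨2, bias1_one⟩
    | succ k hk ih =>
      obtain ⟨C, hC⟩ := ih
      obtain ⟨C₀, h0⟩ := exists_weylInv (k + 1) (by omega)
      exact ⟨_, bias1_succ hk h0 hC⟩
  obtain ⟨C, hC⟩ := h (s + 1) (by omega)
  exact ⟨C, fun P hP => hC P (by omega)⟩

end Crest.Agent.T49.Weyl
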