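import Crest.Agent.T49.Weyl1_14

/-!
# Row 49, Weyl block, part 2 (helper14): several variables.
Lines in a box and the top coefficients of a polynomial in `d` variables that is almost integral
on a dense subset of a box.  Exponent `(d + 2) ^ C`.
-/

set_option autoImplicit false
set_option linter.unusedSectionVars false

open Finset MvPolynomial

namespace Crest.Agent.T49.Weyl

open Crest.Agent.N41.Exp

universe u

variable {σ : Type u} [Fintype σ] [DecidableEq σ]

/-- `N ^ α` -/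
noncomputable def mpow (N : σ → ℝ) (α : σ →₀ ℕ) : ℝ := ∏ i, N i ^ α i

/-- value at an integer point -/
noncomputable def ev (P : MvPolynomial σ ℝ) (n : σ → ℤ) : ℝ := eval (fun i => (n i : ℝ)) P

omit [DecidableEq σ] in
lemma mpow_pos {N : σ → ℝ} (h : ∀ i, 0 < N i) (α : σ →₀ ℕ) : 0 < mpow N α :=
  prod_pos fun i _ => pow_pos (h i) _

lemma mpow_erase (N : σ → ℝ) (α : σ →₀ ℕ) (i : σ) :
    mpow N α = N i ^ α i * mpow N (α.erase i) := by
  unfold mpow
  rw [← mul_prod_erase univ _ (mem_univ i), ← mul_prod_erase univ _ (mem_univ i),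
    Finsupp.erase_same, pow_zero, one_mul]
  congr 1
  exact prod_congr rfl fun k hk => by rw [Finsupp.erase_ne (ne_of_mem_erase hk)]

omit [DecidableEq σ] in
lemma abs_mpow_le {N : σ → ℝ} {x : σ → ℝ} (h : ∀ i, |x i| ≤ N i) (α : σ →₀ ℕ) :
    |mpow x α| ≤ mpow N α := by
  unfold mpow
  rw [abs_prod]
  exact prod_le_prod (fun _ _ => abs_nonneg _) fun i _ => by
    rw [abs_pow]; gcongr; exact h i

omit [DecidableEq σ] in
lemma eval_monomial' (x : σ → ℝ) (α : σ →₀ ℕ) (c : ℝ) :
    eval x (monomial α c) = c * mpow x α := by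
  rw [eval_monomial, Finsupp.prod_fintype _ _ (by simp)]; rfl

/-- the coefficient of `X i ^ j` -/
noncomputable def cf (i : σ) (j : ℕ) (P : MvPolynomial σ ℝ) : MvPolynomial σ ℝ :=
  ∑ α ∈ P.support.filter (fun α => α i = j), monomial (α.erase i) (coeff α P)

omit [Fintype σ] in
lemma coeff_cf (i : σ) (P : MvPolynomial σ ℝ) (α : σ →₀ ℕ) :
    coeff (α.erase i) (cf i (α i) P) = coeff α P := by
  unfold cf
  rw [coeff_sum]
  simp_rw [coeff_monomial]
  rw [sum_eq_single α]
  · simp
  · intro β hβ hne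
    rw [if_neg]
    intro h
    apply hne
    ext k
    by_cases hk : k = i
    · rw [hk]; exact (mem_filter.1 hβ).2
    · have := DFunLike.congr_fun h k
      rwa [Finsupp.erase_ne hk, Finsupp.erase_ne hk] at this
  · intro h
    rw [if_pos rfl]
    by_contra h0
    exact h (mem_filter.2 ⟨mem_support_iff.2 h0, rfl⟩)

omit [Fintype σ] in
lemma degree_erase (α : σ →₀ ℕ) (i : σ) : (α.erase i).degree + α i = α.degree := by
  conv_rhs => rw [← Finsupp.erase_add_single i α, map_add, Finsupp.degree_single]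

omit [Fintype σ] [DecidableEq σ] in
lemma degree_le_of_mem {P : MvPolynomial σ ℝ} {α : σ →₀ ℕ} (h : α ∈ P.support) :
    α.degree ≤ P.totalDegree := le_totalDegree h

omit [Fintype σ] in
lemma totalDegree_cf (i : σ) (j : ℕ) (P : MvPolynomial σ ℝ) :
    (cf i j P).totalDegree ≤ P.totalDegree - j := by
  unfold cf
  refine (totalDegree_finsetSum _ _).trans (Finset.sup_le fun α hα => ?_)
  refine (totalDegree_monomial_le _ _).trans ?_
  rw [mem_filter] at hα
  have h1 := degree_erase α i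
  have h2 := degree_le_of_mem hα.1
  have h3 : ((α.erase i).sum fun _ => id) = (α.erase i).degree := rfl
  omega

/-- restriction to a line in direction `i` -/
noncomputable def line (s : ℕ) (i : σ) (P : MvPolynomial σ ℝ) (n : σ → ℤ) : Polynomial ℝ :=
  ∑ j ∈ range (s + 1), Polynomial.monomial j (ev (cf i j P) n)

lemma natDegree_line (s : ℕ) (i : σ) (P : MvPolynomial σ ℝ) (n : σ → ℤ) :
    (line s i P n).natDegree ≤ s :=
  Polynomial.natDegree_sum_le_of_forall_le _ _ fun _ hj =>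
    (Polynomial.natDegree_monomial_le _).trans (Nat.lt_succ_iff.1 (mem_range.1 hj))

lemma coeff_line {s : ℕ} (i : σ) (P : MvPolynomial σ ℝ) (n : σ → ℤ) {j : ℕ} (hj : j ≤ s) :
    (line s i P n).coeff j = ev (cf i j P) n := by
  unfold line
  rw [Polynomial.finsetSum_coeff]
  simp_rw [Polynomial.coeff_monomial]
  rw [sum_ite_eq', if_pos (mem_range.2 (by omega))]

lemma eval_line {s : ℕ} (i : σ) {P : MvPolynomial σ ℝ} (hP : P.totalDegree ≤ s) (n : σ → ℤ)
    (t : ℤ) : (line s i P n).eval (t : ℝ) = ev P (Function.update n i t) := by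
  unfold line ev cf
  rw [Polynomial.eval_finsetSum]
  simp_rw [Polynomial.eval_monomial, map_sum, eval_monomial', sum_mul]
  conv_rhs => rw [P.as_sum, map_sum]
  rw [← sum_fiberwise_of_maps_to (s := P.support) (t := range (s + 1)) (g := fun α => α i)]
  · refine sum_congr rfl fun j _ => sum_congr rfl fun α hα => ?_
    rw [eval_monomial', mpow_erase _ α i, Function.update_self, (mem_filter.1 hα).2]
    have : mpow (fun k => ((Function.update n i t k : ℤ) : ℝ)) (α.erase i) =
        mpow (fun k => (n k : ℝ)) (α.erase i) := by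
      refine prod_congr rfl fun k _ => ?_
      by_cases hk : k = i
      · rw [hk, Finsupp.erase_same, pow_zero, pow_zero]
      · simp only [Function.update_of_ne hk]
    rw [this]; ring
  · intro α hα
    have h1 := degree_erase α i
    have h2 := degree_le_of_mem hα
    rw [mem_range]; omega

/-- most points lie in large fibres -/
lemma dense_fibres {α β : Type*} [DecidableEq β] (S : Finset α) (φ : α → β) {M : ℝ}
    (hM : ((S.image φ).card : ℝ) ≤ M) :
    (S.card : ℝ) ≤ 2 * (S.filter (fun n =>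
      (S.card : ℝ) ≤ 2 * M * (S.filter (fun m => φ m = φ n)).card)).card := by
  set p := fun n => (S.card : ℝ) ≤ 2 * M * (S.filter (fun m => φ m = φ n)).card with hp
  rcases S.eq_empty_or_nonempty with rfl | hS
  · simp
  have hM1 : (1 : ℝ) ≤ M := le_trans (by exact_mod_cast (hS.image φ).card_pos) hM
  have h1 : ((S.filter p).card : ℝ) + (S.filter (fun n => ¬ p n)).card = S.card := by
    exact_mod_cast card_filter_add_card_filter_not p
  have h2 : 2 * M * ((S.filter (fun n => ¬ p n)).card : ℝ) ≤ M * S.card := by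
    rw [card_eq_sum_card_fiberwise (s := S.filter (fun n => ¬ p n)) (t := S.image φ) (f := φ)
      (fun n hn => mem_image_of_mem φ (mem_filter.1 hn).1)]
    push_cast
    rw [mul_sum]
    calc _ ≤ ∑ _b ∈ S.image φ, (S.card : ℝ) := by
          refine sum_le_sum fun b _ => ?_
          rcases ((S.filter (fun n => ¬ p n)).filter (fun n => φ n = b)).eq_empty_or_nonempty
            with h0 | ⟨n, hn⟩
          · rw [h0]; simp
          · rw [mem_filter, mem_filter] at hn
            refine le_trans ?_ (not_le.1 hn.1.2).le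
            gcongr
            intro m hm
            rw [mem_filter, mem_filter] at hm
            exact mem_filter.2 ⟨hm.1.1, hm.2.trans hn.2.symm⟩
      _ ≤ _ := by rw [sum_const, nsmul_eq_mul]; gcongr
  nlinarith

lemma card_lines (S : Finset (σ → ℤ)) {N : σ → ℝ} (hN : ∀ k, 1 ≤ N k)
    (hS : ∀ n ∈ S, ∀ k, |(n k : ℝ)| ≤ N k) (i : σ) :
    ((S.image (fun n => Function.update n i 0)).card : ℝ) ≤
      3 ^ Fintype.card σ * (∏ k, N k) / N i := by
  have h1 : S.image (fun n => Function.update n i 0) ⊆ Fintype.piFinset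
      (fun k => if k = i then {0} else Icc (-⌊N k⌋) ⌊N k⌋) := by
    intro m hm
    obtain ⟨n, hn, rfl⟩ := mem_image.1 hm
    rw [Fintype.mem_piFinset]
    intro k
    split_ifs with hk
    · rw [hk]; simp
    · rw [Function.update_of_ne hk, mem_Icc]
      have := abs_le.1 (hS n hn k)
      constructor
      · rw [neg_le]; exact Int.le_floor.2 (by push_cast; linarith)
      · exact Int.le_floor.2 this.2
  have h2 := card_le_card h1
  rw [Fintype.card_piFinset] at h2
  have h3 : ((S.image (fun n => Function.update n i 0)).card : ℝ) ≤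
      ∏ k, ((if k = i then ({0} : Finset ℤ) else Icc (-⌊N k⌋) ⌊N k⌋).card : ℝ) := by
    exact_mod_cast h2
  rw [le_div_iff₀ (by linarith [hN i])]
  calc _ ≤ (∏ k, ((if k = i then ({0} : Finset ℤ) else Icc (-⌊N k⌋) ⌊N k⌋).card : ℝ)) *
        ∏ k, (if k = i then N k else 1) := by
        rw [prod_ite_eq' univ i, if_pos (mem_univ i)]
        exact mul_le_mul_of_nonneg_right h3 (by linarith [hN i])
    _ ≤ ∏ k, (3 * N k) := by
        rw [← prod_mul_distrib]
        refine prod_le_prod (fun k _ => mul_nonneg (by positivity) ?_) fun k _ => ?_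
        · split_ifs <;> linarith [hN k]
        · split_ifs
          · simp; linarith [hN k]
          · rw [mul_one]
            refine (card_le_of_diam _ (w := 2 * N k) (by linarith [hN k]) ?_).trans
              (by linarith [hN k])
            intro x hx y hy
            rw [mem_Icc] at hx hy
            have h4 : -((⌊N k⌋ : ℤ) : ℝ) ≤ x := by exact_mod_cast hx.1
            have h5 : (y : ℝ) ≤ ((⌊N k⌋ : ℤ) : ℝ) := by exact_mod_cast hy.2
            have := Int.floor_le (N k)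
            linarith
    _ = _ := by rw [prod_mul_distrib, prod_const, card_univ]

/-- pigeonhole on a denominator -/
lemma den_pigeon {ι : Type*} (S : Finset ι) (p : ι → ℕ → Prop) {Q : ℝ} (hQ : 1 ≤ Q)
    (h : ∀ i ∈ S, ∃ q : ℕ, 1 ≤ q ∧ (q : ℝ) ≤ Q ∧ p i q) :
    ∃ q : ℕ, 1 ≤ q ∧ (q : ℝ) ≤ Q ∧ ∃ S' ⊆ S, (S.card : ℝ) ≤ Q * S'.card ∧ ∀ i ∈ S', p i q := by
  classical
  choose! q hq1 hq2 hq3 using h
  have hne : (Icc 1 ⌊Q⌋₊).Nonempty := ⟨1, mem_Icc.2 ⟨le_rfl, Nat.le_floor (by simpa using hQ)⟩⟩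
  have hmaps : ∀ i ∈ S, q i ∈ Icc 1 ⌊Q⌋₊ := fun i hi =>
    mem_Icc.2 ⟨hq1 i hi, Nat.le_floor (hq2 i hi)⟩
  obtain ⟨q0, hq0, hmax⟩ := exists_max_image (Icc 1 ⌊Q⌋₊)
    (fun j => (S.filter (fun i => q i = j)).card) hne
  have h1 := card_le_mul_card_image_of_maps_to hmaps _ hmax
  rw [mem_Icc] at hq0
  have hfl : (⌊Q⌋₊ : ℝ) ≤ Q := Nat.floor_le (by linarith)
  refine ⟨q0, hq0.1, (Nat.cast_le.2 hq0.2).trans hfl, S.filter (fun i => q i = q0),
    filter_subset _ _, ?_, ?_⟩
  · rw [Nat.card_Icc, Nat.add_sub_cancel] at h1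
    have h2 : (S.card : ℝ) ≤ (S.filter (fun i => q i = q0)).card * (⌊Q⌋₊ : ℝ) := by
      exact_mod_cast h1
    rw [mul_comm]
    exact h2.trans (by gcongr)
  · intro i hi
    rw [mem_filter] at hi
    rw [← hi.2]; exact hq3 i hi.1

lemma three_pow_le {D : ℝ} (hD : 2 ≤ D) (d : ℕ) : (3 : ℝ) ^ d ≤ D ^ (2 * d) := by
  rw [pow_mul]; gcongr; nlinarith

/-- one step: the coefficients of the powers of `X i` are almost rational on a dense set -/
lemma line_step {s C : ℕ} (h : Small1 s C) {P : MvPolynomial σ ℝ} (hP : P.totalDegree ≤ s)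
    (S : Finset (σ → ℤ)) {N : σ → ℝ} {D ε : ℝ} (hD : 2 ≤ D) (hε : 0 ≤ ε)
    (hN : ∀ k, D ^ ((2 * Fintype.card σ + 2) * C) ≤ N k)
    (hεD : ε * D ^ ((2 * Fintype.card σ + 2) * C) ≤ 1)
    (hS : ∀ n ∈ S, ∀ k, |(n k : ℝ)| ≤ N k) (hc : ∏ k, N k ≤ D * S.card)
    (hr : ∀ n ∈ S, ∃ r : ℤ, |ev P n - r| ≤ ε) (i : σ) :
    ∃ q : ℕ, 1 ≤ q ∧ (q : ℝ) ≤ D ^ ((2 * Fintype.card σ + 2) * C) ∧ ∃ S' ⊆ S,
      ∏ k, N k ≤ D ^ ((2 * Fintype.card σ + 2) * C + 2) * S'.card ∧ ∀ n ∈ S', ∀ j ≤ s, ∃ r : ℤ,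
        |(q : ℝ) * ev (cf i j P) n - r| ≤ D ^ ((2 * Fintype.card σ + 2) * C) * ε / N i ^ j := by
  have hD1 : (1 : ℝ) ≤ D := by linarith
  have hN1 : ∀ k, 1 ≤ N k := fun k => (one_le_pow₀ hD1).trans (hN k)
  have hprod : 0 < ∏ k, N k := prod_pos fun k _ => by linarith [hN1 k]
  set d := Fintype.card σ with hd
  have h1 := dense_fibres S _ (card_lines S hN1 hS i)
  set S₁ := S.filter (fun n => (S.card : ℝ) ≤ 2 * (3 ^ d * (∏ k, N k) / N i) *
    (S.filter (fun m => Function.update m i 0 = Function.update n i 0)).card) with hS₁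
  rw [pow_mul] at hN hεD ⊢
  set D₁ := D ^ (2 * d + 2) with hD₁
  have hD₁2 : 2 ≤ D₁ := hD.trans (le_self_pow₀ hD1 (by omega))
  obtain ⟨q, hq1, hq2, S', hS', hc', hp⟩ := den_pigeon S₁ (fun n q => ∀ j ≤ s, ∃ r : ℤ,
      |(q : ℝ) * ev (cf i j P) n - r| ≤ D₁ ^ C * ε / N i ^ j) (Q := D₁ ^ C)
      (one_le_pow₀ (by linarith)) (by
    intro n hn
    rw [hS₁, mem_filter] at hn
    set F := S.filter (fun m => Function.update m i 0 = Function.update n i 0) with hF
    have hup : ∀ m ∈ F, Function.update n i (m i) = m := by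
      intro m hm
      have h2 := (mem_filter.1 hm).2
      funext k
      by_cases hk : k = i
      · rw [hk, Function.update_self]
      · have := congrFun h2 k
        rw [Function.update_of_ne hk, Function.update_of_ne hk] at this
        rw [Function.update_of_ne hk, this]
    have hcard : (F.image (fun m => m i)).card = F.card :=
      card_image_of_injOn fun m hm m' hm' hmm => by
        rw [← hup m hm, ← hup m' hm']; exact congrArg _ hmm
    obtain ⟨q, hq1, hq2, hq3⟩ := h (line s i P n) (natDegree_line s i P n)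
      (F.image (fun m => m i)) (N i) D₁ ε hD₁2 hε (hN i) hεD
      (by
        intro x hx
        obtain ⟨m, hm, rfl⟩ := mem_image.1 hx
        exact hS m (mem_filter.1 hm).1 i)
      (by
        rw [hcard]
        have h2 : ∏ k, N k ≤ D * (2 * (3 ^ d * (∏ k, N k) / N i) * F.card) :=
          hc.trans (by gcongr; exact hn.2)
        have h3 : N i ≤ D * 2 * 3 ^ d * F.card := by
          have hNi : 0 < N i := by linarith [hN1 i]
          have h4 : D * (2 * (3 ^ d * (∏ k, N k) / N i) * F.card) =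
              (∏ k, N k) * (D * 2 * 3 ^ d * F.card / N i) := by ring
          rw [h4, le_mul_iff_one_le_right hprod, le_div_iff₀ hNi, one_mul] at h2
          exact h2
        refine h3.trans ?_
        gcongr
        calc D * 2 * 3 ^ d ≤ D * D * D ^ (2 * d) := by gcongr; exact three_pow_le hD d
          _ = D₁ := by rw [hD₁]; ring)
      (by
        intro x hx
        obtain ⟨m, hm, rfl⟩ := mem_image.1 hx
        rw [eval_line i hP, hup m hm]
        exact hr m (mem_filter.1 hm).1)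
    refine ⟨q, hq1, hq2, fun j hj => ?_⟩
    rw [← coeff_line i P n hj]
    exact hq3 j)
  refine ⟨q, hq1, hq2, S', hS'.trans (filter_subset _ _), ?_, hp⟩
  calc ∏ k, N k ≤ D * (2 * (D₁ ^ C * S'.card)) := by
        refine hc.trans ?_
        gcongr
        refine h1.trans ?_
        gcongr
    _ ≤ D * (D * (D₁ ^ C * S'.card)) := by gcongr
    _ = _ := by rw [pow_add, pow_mul, ← hD₁]; ring

variable (σ) in
/-- top coefficients with at most `r` variables -/
def Top (s r E : ℕ) : Prop :=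
  ∀ (P : MvPolynomial σ ℝ) (α : σ →₀ ℕ), α.support.card ≤ r → α.degree ≤ s →
    P.totalDegree ≤ α.degree → ∀ (S : Finset (σ → ℤ)) (N : σ → ℝ) (D ε : ℝ), 2 ≤ D → 0 ≤ ε →
    (∀ k, D ^ E ≤ N k) → ε * D ^ E ≤ 1 → (∀ n ∈ S, ∀ k, |(n k : ℝ)| ≤ N k) →
    ∏ k, N k ≤ D * S.card → (∀ n ∈ S, ∃ r : ℤ, |ev P n - r| ≤ ε) →
    Appr (coeff α P) (D ^ E) (D ^ E * ε / mpow N α)

lemma Top.mono {s r E E' : ℕ} (h : Top σ s r E) (hE : E ≤ E') : Top σ s r E' := by
  intro P α h1 h2 h3 S N D ε hD hε hN hεD hS hc hr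
  have hD1 : (1 : ℝ) ≤ D := by linarith
  have hle : D ^ E ≤ D ^ E' := pow_le_pow_right₀ hD1 hE
  have hpos := mpow_pos (N := N) (fun k => lt_of_lt_of_le (by positivity) (hN k)) α
  exact (h P α h1 h2 h3 S N D ε hD hε (fun k => hle.trans (hN k))
    (le_trans (by gcongr) hεD) hS hc hr).mono hle (by gcongr)

omit [DecidableEq σ] in
lemma nonempty_of_dense {S : Finset (σ → ℤ)} {N : σ → ℝ} {D : ℝ} (hN : ∀ k, 0 < N k)
    (hc : ∏ k, N k ≤ D * S.card) : S.Nonempty := by
  rw [← card_pos]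
  by_contra h0
  have : S.card = 0 := by omega
  rw [this] at hc
  have := prod_pos (s := univ) fun k _ => hN k
  simp at hc
  linarith

omit [DecidableEq σ] in
lemma ev_const {P : MvPolynomial σ ℝ} (hP : P.totalDegree ≤ 0) (n : σ → ℤ) :
    ev P n = coeff 0 P := by
  rw [ev, totalDegree_eq_zero_iff_eq_C.1 (Nat.le_zero.1 hP)]; simp

lemma top_zero (s : ℕ) : Top σ s 0 0 := by
  intro P α h1 _ h3 S N D ε hD hε hN _ _ hc hr
  have hα : α = 0 := by rwa [Nat.le_zero, card_eq_zero, Finsupp.support_eq_empty] at h1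
  subst hα
  obtain ⟨n, hn⟩ := nonempty_of_dense (fun k => lt_of_lt_of_le (by positivity) (hN k)) hc
  obtain ⟨r, hr⟩ := hr n hn
  rw [ev_const (by simpa using h3)] at hr
  exact ⟨1, le_rfl, by simp, r, by simpa [mpow] using hr⟩

omit [Fintype σ] [DecidableEq σ] in
lemma totalDegree_C_mul_le (c : ℝ) (P : MvPolynomial σ ℝ) :
    (C c * P).totalDegree ≤ P.totalDegree := by
  refine (totalDegree_mul _ _).trans ?_
  rw [totalDegree_C, zero_add]

omit [DecidableEq σ] in
lemma ev_C_mul (c : ℝ) (P : MvPolynomial σ ℝ) (n : σ → ℤ) : ev (C c * P) n = c * ev P n := by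
  simp [ev]

lemma top_succ {s r E C₀ : ℕ} (h0 : Small1 s C₀) (ih : Top σ s r E) :
    Top σ s (r + 1) (((2 * Fintype.card σ + 2) * C₀ + 2) * (E + 1)) := by
  intro P α h1 h2 h3 S N D ε hD hε hN hεD hS hc hr
  set A := (2 * Fintype.card σ + 2) * C₀ with hA
  rcases α.support.eq_empty_or_nonempty with h | ⟨i, hi⟩
  · exact ih.mono (by nlinarith) P α (by rw [h]; simp) h2 h3 S N D ε hD hε hN hεD hS hc hr
  have hD1 : (1 : ℝ) ≤ D := by linarith
  have hN1 : ∀ k, 1 ≤ N k := fun k => (one_le_pow₀ hD1).trans (hN k)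
  have hA1 : D ^ A ≤ D ^ ((A + 2) * (E + 1)) := pow_le_pow_right₀ hD1 (by nlinarith)
  obtain ⟨q, hq1, hq2, S', hS', hc', hp⟩ := line_step h0 (h3.trans h2) S hD hε
    (fun k => hA1.trans (hN k)) (le_trans (by gcongr) hεD) hS hc hr i
  rw [← hA] at hq2 hc' hp
  rw [pow_mul] at hN hεD ⊢
  set D₂ := D ^ (A + 2) with hD₂
  have hD₂2 : 2 ≤ D₂ := hD.trans (le_self_pow₀ hD1 (by omega))
  have hAD : D ^ A ≤ D₂ := pow_le_pow_right₀ hD1 (by omega)
  have hdeg := degree_erase α i
  have hNi : 1 ≤ N i ^ α i := one_le_pow₀ (hN1 i)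
  have key := ih (C (q : ℝ) * cf i (α i) P) (α.erase i)
    (by rw [Finsupp.support_erase, card_erase_of_mem hi]; omega) (by omega)
    ((totalDegree_C_mul_le _ _).trans ((totalDegree_cf _ _ _).trans (by omega))) S' N D₂
    (D ^ A * ε / N i ^ α i) hD₂2 (by positivity)
    (fun k => (pow_le_pow_right₀ (by linarith) (by omega)).trans (hN k))
    (by
      refine le_trans ?_ hεD
      calc D ^ A * ε / N i ^ α i * D₂ ^ E ≤ D₂ * ε * D₂ ^ E := by
            gcongr
            exact (div_le_self (by positivity) hNi).trans (by gcongr)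
        _ = _ := by ring)
    (fun n hn => hS n (hS' hn)) hc'
    (fun n hn => by rw [ev_C_mul]; exact hp n hn _ (by omega))
  rw [coeff_C_mul, coeff_cf] at key
  refine (key.of_mul hq1).mono ?_ ?_
  · rw [pow_succ']; gcongr; exact hq2.trans hAD
  · have hpos := mpow_pos (N := N) (fun k => by linarith [hN1 k]) (α.erase i)
    rw [mpow_erase N α i]
    calc _ = D ^ A * D₂ ^ E * ε / (N i ^ α i * mpow N (α.erase i)) := by field_simp
      _ ≤ _ := by rw [pow_succ']; gcongr

lemma lin_le_pow (d c : ℕ) : (2 * d + 2) * c + 2 ≤ (d + 2) ^ (c + 2) := by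
  have h1 : 2 * c + 1 ≤ 2 ^ (c + 1) := by
    have := Nat.lt_two_pow_self (n := c)
    rw [pow_succ]; omega
  have h2 : 2 ^ (c + 1) ≤ (d + 2) ^ (c + 1) := Nat.pow_le_pow_left (by omega) _
  calc (2 * d + 2) * c + 2 ≤ (2 * c + 1) * (d + 2) := by nlinarith
    _ ≤ (d + 2) ^ (c + 1) * (d + 2) := by gcongr; exact h1.trans h2
    _ = _ := by ring

lemma pow_add_one_le (d c : ℕ) : (d + 2) ^ c + 1 ≤ (d + 2) ^ (c + 1) := by
  have : 1 ≤ (d + 2) ^ c := Nat.one_le_pow _ _ (by omega)
  rw [pow_succ]; nlinarith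

theorem exists_top (s r : ℕ) : ∃ C : ℕ, ∀ (σ : Type u) [Fintype σ] [DecidableEq σ],
    Top σ s r ((Fintype.card σ + 2) ^ C) := by
  obtain ⟨C₀, h0⟩ := exists_small1 s
  induction r with
  | zero => exact ⟨0, fun σ _ _ => (top_zero s).mono (Nat.zero_le _)⟩
  | succ r ih =>
    obtain ⟨C, hC⟩ := ih
    refine ⟨C₀ + 2 + (C + 1), fun σ _ _ => (top_succ h0 (hC σ)).mono ?_⟩
    rw [pow_add]
    exact Nat.mul_le_mul (lin_le_pow _ _) (pow_add_one_le _ _)

end Crest.Agent.T49.Weyl
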