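import Crest.Agent.T49.WinAlg_56
import Crest.Agent.T49.NilLip_46
import Crest.Agent.T49.NilVec_46
import Crest.Agent.T49.NilPr_67
import Crest.Agent.T49.NilSt_61
import Crest.Agent.T49.BchN_16
import Crest.Agent.T49.Qp_85

/-!
Row 49 (helper56).  The structured converse of `LT`: a factorised nilcharacter sequence is, on
every cell, close to a function of smaller degree on ONE datum, and closeness of two points of the
orbit passes to the new datum.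
-/

set_option autoImplicit false
set_option linter.unusedSectionVars false

noncomputable section

namespace Crest.Agent.T49.Win
open Finset Nil Nil.ND
open Crest.Agent.T49.Bch (star Ad Gauge cb)

variable {ι ι' : Type} [Fintype ι] [Fintype ι'] {N : ND ι} {N' : ND ι'}

/-- `x' ∈ exp (B ρ) x exp (q ℤ^ι)` -/
def Close (N : ND ι) (S : ℕ) (ρ : ℝ) (q : ℕ) (x x' : N.L) : Prop :=
  ∃ z l : N.L, ‖z‖ ≤ ρ ∧ InL q l ∧ x' = star S z (star S x l)

theorem Close.mono {S : ℕ} {ρ ρ' : ℝ} {q q' : ℕ} {x x' : N.L} (h : Close N S ρ q x x') (h1 : ρ ≤ ρ')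
    (h2 : q' ∣ q) : Close N S ρ' q' x x' := by
  obtain ⟨z, l, a, b, c⟩ := h
  obtain ⟨r, rfl⟩ := h2
  exact ⟨z, l, a.trans h1, b.of_eq r (by push_cast; ring), c⟩

theorem InL.map {f : N.L →ₗ[ℝ] N'.L} (hf : ∀ x, IsInt x → IsInt (f x)) {c : ℝ} {x : N.L}
    (hx : InL c x) : InL c (f x) := by
  choose n hn using hx
  have e : x = c • N.ofInt n := pts_ext fun k => hn k
  rw [e, map_smul]
  simpa using (InL.of_isInt (hf _ (isInt_ofInt n))).smul c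

theorem Close.map {S : ℕ} {ρ K : ℝ} {q : ℕ} {x x' : N.L} (h : Close N S ρ q x x')
    (f : N.L →ₗ⁅ℝ⁆ N'.L) (hK : 0 ≤ K) (hf : FHom K f.toLinearMap) :
    Close N' S (K * ρ) q (f x) (f x') := by
  obtain ⟨z, l, a, b, c⟩ := h
  exact ⟨f z, f l, (hf.norm z).trans (mul_le_mul_of_nonneg_left a hK),
    InL.map (f := f.toLinearMap) hf.int b, by rw [c, Bch.map_star, Bch.map_star]⟩

/-- the norm as a gauge -/
def nG {M : ℝ} (hM : 0 ≤ M) (hc : ∀ i j k, |(N.c i j k : ℝ)| ≤ M) : Gauge N.L (kB ι M) :=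
  Gauge.ofSeminorm (normSeminorm ℝ N.L) (zero_le_one.trans (one_le_kB hM)) (norm_lie_le46 hM hc)

/-- a datum for the graded subalgebra `H` -/
structure SubD (S : ℕ) (R : ℝ) (H : ℕ → Submodule ℝ N.L) (N' : ND ι') (φ : N'.L →ₗ⁅ℝ⁆ N.L)
    (ψ : N.L →ₗ[ℝ] N'.L) (q : ℕ) : Prop where
  good : N'.Good S R
  int : ∀ x, IsInt x → IsInt (φ x)
  norm : ∀ x, ‖φ x‖ ≤ R * ‖x‖
  filt : ∀ i, 1 ≤ i → ∀ x, x ∈ N'.F i ↔ φ x ∈ H i
  surj : ∀ x ∈ H 1, ∃ x', φ x' = x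
  one_le : 1 ≤ q
  le : (q : ℝ) ≤ R
  left : ∀ x, ψ (φ x) = (q : ℝ) • x
  int' : ∀ y, IsInt y → IsInt (ψ y)
  norm' : ∀ y, ‖ψ y‖ ≤ R * ‖y‖

theorem SubD.inj {S : ℕ} {R : ℝ} {H : ℕ → Submodule ℝ N.L} {φ : N'.L →ₗ⁅ℝ⁆ N.L}
    {ψ : N.L →ₗ[ℝ] N'.L} {q : ℕ} (h : SubD S R H N' φ ψ q) : Function.Injective φ := fun x y e => by
  have h1 := h.left x
  rw [e, h.left y] at h1
  have : (q : ℝ) ≠ 0 := by have := h.one_le; positivity
  exact (smul_right_injective _ this h1).symm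

theorem SubD.lift {S : ℕ} {R : ℝ} {H : ℕ → Submodule ℝ N.L} {φ : N'.L →ₗ⁅ℝ⁆ N.L}
    {ψ : N.L →ₗ[ℝ] N'.L} {q : ℕ} (h : SubD S R H N' φ ψ q) {x : N.L} (hx : x ∈ H 1) :
    φ ((q : ℝ)⁻¹ • ψ x) = x := by
  obtain ⟨x', rfl⟩ := h.surj x hx
  have : (q : ℝ) ≠ 0 := by have := h.one_le; positivity
  rw [h.left, smul_smul, inv_mul_cancel₀ this, one_smul]

/-- deepen the lattice -/
theorem SubD.deep {S : ℕ} {R : ℝ} {H : ℕ → Submodule ℝ N.L} {φ : N'.L →ₗ⁅ℝ⁆ N.L}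
    {ψ : N.L →ₗ[ℝ] N'.L} {q : ℕ} (h : SubD S R H N' φ ψ q) {Q : ℕ} (hQ : 1 ≤ Q) (hb : bden S ∣ Q) :
    ∃ ψ' : N.L →ₗ[ℝ] (scl N' Q).L, SubD S (Q * R) H (scl N' Q) (φ.comp (up N' Q ℝ)) ψ' (Q * q) ∧
      ∀ x, IsInt x → InL Q (φ.comp (up N' Q ℝ) x) := by
  have hQ1 : (1 : ℝ) ≤ Q := by exact_mod_cast hQ
  have hR : 0 ≤ R := le_trans (by positivity) h.le
  have hin : ∀ x, IsInt x → InL Q (φ.comp (up N' Q ℝ) x) := fun x hx =>
    InL.map (f := φ.toLinearMap) h.int (by simpa using inL_up (InL.of_isInt hx))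
  let j : N'.L →ₗ[ℝ] (scl N' Q).L := (scl N' Q).co.symm.toLinearMap ∘ₗ N'.co.toLinearMap
  refine ⟨j ∘ₗ ψ, ⟨good_scl h.good hQ hb, fun x hx => ((hin x hx).of_eq Q (by simp)).isInt,
    fun x => ?_, fun i hi x => ?_, fun x hx => ?_, Nat.mul_pos hQ h.one_le, ?_, fun x => ?_,
    fun y hy => h.int' y hy, fun y => ?_⟩, hin⟩
  · refine (h.norm (up N' Q ℝ x)).trans (le_of_eq ?_)
    rw [norm_up]; ring
  · rw [LieHom.comp_apply, ← h.filt i hi]
    refine forall_congr' fun k => imp_congr_right fun _ => ?_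
    rw [up_apply, smul_eq_mul, mul_eq_zero, or_iff_right (by positivity)]
  · obtain ⟨x', rfl⟩ := h.surj x hx
    exact ⟨dn N' Q x', by rw [LieHom.comp_apply, up_dn hQ]⟩
  · push_cast; exact mul_le_mul_of_nonneg_left h.le (by positivity)
  · refine pts_ext fun k => ?_
    change ψ (φ (up N' Q ℝ x)) k = _
    rw [h.left, ND.smul_apply, up_apply, ND.smul_apply, smul_smul]
    push_cast; rw [mul_comm]
  · exact (h.norm' y).trans (mul_le_mul_of_nonneg_right (le_mul_of_one_le_left hR hQ1)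
      (norm_nonneg _))

variable {σ : Type} [Fintype σ]

theorem cv_zero_eq (P : N.PS σ) : N.cv 0 P = N.ev 0 P := pts_ext fun k => by
  change (P k).coeff 0 = MvPolynomial.aeval (0 : σ → ℝ) (P k)
  rw [MvPolynomial.aeval_zero]; rfl

theorem cst_mem_cf {H : ℕ → Submodule ℝ N.L} (hH : N.GrSub H) (x : N.L) :
    N.cst (MvPolynomial σ ℝ) x ∈ cf σ H := by
  rw [cst_eq_mono]; exact mono_mem_cf (by simpa using hH.zero x)

theorem sm_cst {T M : ℝ} {x : N.L} (hx : ‖x‖ ≤ M) : N.Sm T M (N.cst (MvPolynomial σ ℝ) x) :=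
  fun α => by
    classical
    rw [cst_eq_mono, cv_mono]
    split_ifs with h
    · subst h; simpa using hx
    · simpa using (norm_nonneg _).trans hx

theorem ratP_cst {q : ℕ} {x : N.L} (hx : IsInt x) : N.RatP q (N.cst (MvPolynomial σ ℝ) x) :=
  fun α => by
    classical
    rw [cst_eq_mono, cv_mono]
    split_ifs with h
    · refine den_iff.2 fun k => ?_
      obtain ⟨z, hz⟩ := hx k
      exact ⟨q * z, by rw [hz]; push_cast; ring⟩
    · exact den_iff.2 fun k => ⟨0, by simp⟩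

/-- the middle factor may be assumed to vanish at `0` -/
theorem factQ_norm {S d : ℕ} {B T M : ℝ} (hG : N.Good S B) (hB : 1 ≤ B) (hd : Fintype.card ι ≤ d)
    (hT : 0 ≤ T) (hM : 1 ≤ M) {q : ℕ} {H : ℕ → Submodule ℝ N.L} (hH : N.GrSub H) {P : N.PS σ}
    (h : N.FactQ S T M q H P) :
    ∃ ε ∈ N.poly σ, ∃ g ∈ cf σ H, ∃ γ : N.PS σ, N.cv 0 g = 0 ∧
      N.Sm T (St.cS S * (St.kB S d B * M) ^ (S + 1)) ε ∧ N.RatP (St.dS S * q ^ (S + 1)) γ ∧
      P = star S ε (star S g γ) := by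
  obtain ⟨ε, hε, g, hg, γ, -, h1, h2, rfl⟩ := h
  have := hG.nil (MvPolynomial σ ℝ)
  have := hG.nil ℝ
  obtain ⟨u, l, hu, hl, e⟩ := hG.fund (N.ev 0 g)
  refine ⟨star S ε (N.cst _ u), St.star_mem_poly S hε (cst_mem_cf grSub_F u),
    star S (-N.cst _ u) (star S g (-N.cst _ l)), St.star_mem_cf S hH (neg_mem (cst_mem_cf hH u))
      (St.star_mem_cf S hH hg (neg_mem (cst_mem_cf hH l))), star S (N.cst _ l) γ, ?_,
    St.Sm_star hG.wt_le hG.c_le hB hd hT hM hε (cst_mem_cf grSub_F u) h1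
      (sm_cst (by linarith)), St.RatP_star S (ratP_cst hl) h2, ?_⟩
  · rw [cv_zero_eq, Bch.map_star, Bch.map_star, map_neg, map_neg, ev_cst, ev_cst, e]
    simp
  · simp only [Bch.star_assoc, Bch.star_neg_star, Bch.neg_star_star]

theorem SubD.exists_poly {S : ℕ} {R : ℝ} {H : ℕ → Submodule ℝ N.L} {φ : N'.L →ₗ⁅ℝ⁆ N.L}
    {ψ : N.L →ₗ[ℝ] N'.L} {q : ℕ} (h : SubD S R H N' φ ψ q) (hH : N.GrSub H) {g : N.PS σ}
    (hg : g ∈ cf σ H) (h0 : N.cv 0 g = 0) :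
    ∃ P' ∈ N'.poly σ, ∀ y, φ (N'.evZ y P') = N.evZ y g := by
  have h1 : ∀ α, N.cv α g ∈ H 1 := fun α => by
    by_cases hα : α = 0
    · rw [hα, h0]; exact zero_mem _
    · exact hH.anti (Nat.one_le_iff_ne_zero.2 fun e => hα ((Finsupp.degree_eq_zero_iff α).1 e))
        (hg α)
  have h2 : ∀ α, φ (N'.cv α (bcl ((q : ℝ)⁻¹ • ψ) _ g)) = N.cv α g := fun α => by
    rw [cv_bcl, LinearMap.smul_apply, h.lift (h1 α)]
  refine ⟨bcl ((q : ℝ)⁻¹ • ψ) _ g, fun α => ?_, fun y => ?_⟩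
  · rcases Nat.eq_zero_or_pos α.degree with e | e
    · rw [e]; exact mem_FA_zero _
    · rw [h.filt _ e, h2]; exact hg α
  · rw [← evZ_bc67]
    congr 1
    exact ps_ext fun α => by rw [St.cv_bc, h2]

/-- the conclusion of the structured converse -/
def CltOut (N : ND ι) (S s : ℕ) (T : ℝ) (F : N.L → ℂ) (P : N.PS σ) (N' : ND ι') (P' : N'.PS σ)
    (q : ℕ) (E : ℝ) : Prop :=
  (∃ F' : (σ → ℤ) → N'.L → ℂ, ∀ y0 : σ → ℤ, (∀ v, |(y0 v : ℝ)| ≤ T) → N'.NFn S s E (F' y0) ∧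
    ∀ (y : σ → ℤ) (ρ : ℝ), 0 ≤ ρ → (∀ v, |(y v : ℝ)| ≤ T) → (∀ v, |(y v : ℝ) - y0 v| ≤ ρ * T) →
      (∀ v, (q : ℤ) ∣ y v - y0 v) → ‖F (N.evZ y P) - F' y0 (N'.evZ y P')‖ ≤ E * ρ) ∧
  ∀ (q' : ℕ) (ρ : ℝ) (y y' : σ → ℤ), 0 ≤ ρ → E * ρ < 1 → (∀ v, |(y v : ℝ)| ≤ T) →
    (∀ v, |(y' v : ℝ)| ≤ T) → (∀ v, |(y v : ℝ) - y' v| ≤ ρ * T) →
    (∀ v, ((q * q' : ℕ) : ℤ) ∣ y v - y' v) → Close N S ρ (q * q') (N.evZ y P) (N.evZ y' P) →
    Close N' S (E * ρ) q' (N'.evZ y P') (N'.evZ y' P')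

set_option maxHeartbeats 800000 in
theorem clt_core {S s d : ℕ} (hS : 1 ≤ S) {B MF Hh R T Mε K E : ℝ} (hG : N.Good S B) (hB : 0 ≤ B)
    (hd : Fintype.card ι ≤ d) {η : ι → ℤ} {F : N.L → ℂ} (hF : N.NChar S (s + 1) MF η F)
    (hMF : 0 ≤ MF) {H : ℕ → Submodule ℝ N.L} (hH : N.GrSub H)
    (hη : ∀ x ∈ H (s + 1), N.fn η x = 0) (hHh : 1 ≤ Hh) (hR : N.RatS Hh (H 1))
    {φ : N'.L →ₗ⁅ℝ⁆ N.L} {ψ : N.L →ₗ[ℝ] N'.L} {q0 qγ : ℕ} (h : SubD S R H N' φ ψ q0)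
    (hqγ : 1 ≤ qγ) (hdeep : ∀ x, IsInt x → InL (dep S qγ) (φ x)) (hT : 0 < T)
    {ε g γ : N.PS σ} (hε : ε ∈ N.poly σ) (hg : g ∈ cf σ H) (h0 : N.cv 0 g = 0)
    (hsm : N.Sm T Mε ε) (hγ : N.RatP qγ γ) (hK1 : kB ι B ≤ K)
    (hK2 : (S + 1 : ℝ) ^ Fintype.card σ * Mε + 1 ≤ K)
    (hE : (MF + 1) * (R + 1) * Gon.bl d Hh * (cb S * K ^ (2 * S) + 1) ^ 2 *
      ((S + 1 : ℝ) ^ Fintype.card σ * (S * Mε) + 1) ≤ E) :
    ∃ P' ∈ N'.poly σ, CltOut N S s T F (star S ε (star S g γ)) N' P' (dep S qγ * q0) E := by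
  have := hG.nil ℝ
  have := h.good.nil ℝ
  obtain ⟨P', hP', hPg⟩ := h.exists_poly hH hg h0
  let G := nG hB hG.c_le
  have hG' : ∀ x a, G.le x a ↔ ‖x‖ ≤ a := fun _ _ => Iff.rfl
  have hK : 1 ≤ K := (one_le_kB hB).trans hK1
  have hM0 : 0 ≤ Mε := le_trans (by simp) (hsm 0)
  have hR0 : 0 ≤ R := le_trans (by positivity) h.le
  have hbl := Gon.one_le_bl d hHh
  set c := cb S * K ^ (2 * S) with hc
  have hc0 : 0 ≤ c := by have := Bch.two_le_cb S; positivity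
  set A := (S + 1 : ℝ) ^ Fintype.card σ * (S * Mε) with hA
  have hA0 : 0 ≤ A := by positivity
  have hεb : ∀ y : σ → ℤ, (∀ v, |(y v : ℝ)| ≤ T) → ‖N.evZ y ε‖ + 1 ≤ K := fun y hy => by
    linarith [norm_evZ_le hG.wt_le hε hsm hy]
  have hεb' : ∀ y : σ → ℤ, (∀ v, |(y v : ℝ)| ≤ T) → ‖N.evZ y ε‖ ≤ K := fun y hy => by
    linarith [hεb y hy]
  have hγL := evZ_inL hqγ hγ
  have hev : ∀ y, N.evZ y (star S ε (star S g γ))
      = star S (N.evZ y ε) (star S (φ (N'.evZ y P')) (N.evZ y γ)) := fun y => by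
    rw [Bch.map_star, Bch.map_star, hPg]
  have b1 : MF * c * R ≤ E := le_trans (by
    calc MF * c * R ≤ (MF + 1) * (c + 1) ^ 2 * (R + 1) := by gcongr <;> nlinarith
      _ = (MF + 1) * (R + 1) * 1 * (c + 1) ^ 2 * 1 := by ring
      _ ≤ _ := by gcongr; linarith) hE
  have b2 : MF * (c * A) ≤ E := le_trans (by
    calc MF * (c * A) ≤ (MF + 1) * ((c + 1) ^ 2 * (A + 1)) := by gcongr <;> nlinarith
      _ = (MF + 1) * 1 * 1 * (c + 1) ^ 2 * (A + 1) := by ring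
      _ ≤ _ := by gcongr; linarith) hE
  have b3 : (R + 1) * Gon.bl d Hh * ((c + 1) * (c + A)) ≤ E := le_trans (by
    calc _ ≤ (R + 1) * Gon.bl d Hh * ((c + 1) * ((c + 1) * (A + 1))) := by gcongr; nlinarith
      _ = 1 * (R + 1) * Gon.bl d Hh * (c + 1) ^ 2 * (A + 1) := by ring
      _ ≤ _ := by gcongr; linarith) hE
  refine ⟨P', hP', ⟨fun y0 x => F (star S (N.evZ y0 ε) (star S (φ x) (N.evZ y0 γ))),
    fun y0 hy0 => ⟨⟨⟨fun x => hF.bdd _, fun x l hl => ?_, fun Z x => ?_⟩, fun Z hZ x => ?_⟩,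
      fun y ρ hρ hy hyy hq => ?_⟩⟩, fun q' ρ y y' hρ hEρ hy hy' hyy hq hcl => ?_⟩
  · have h1 : InL (1 : ℕ) (star S (-N.evZ y0 γ) (star S (φ l) (- -N.evZ y0 γ))) :=
      conj_inL hS hqγ (hγL y0).neg (hγL y0).neg (by rw [sub_self]; exact InL.zero _)
        (by simpa using hdeep l hl)
    have h2 := hF.per (star S (N.evZ y0 ε) (star S (φ x) (N.evZ y0 γ))) _
      (InL.isInt (by simpa using h1))
    simp only [Bch.map_star, ← h2, Bch.star_assoc, Bch.star_neg_star]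
  · beta_reduce
    rw [Bch.map_star, Bch.star_assoc, ← Bch.star_assoc S (N.evZ y0 ε),
      Bch.star_eq_Ad_star S (N.evZ y0 ε) (φ Z), Bch.star_assoc]
    refine (hF.lip _ _).trans ?_
    have h1 : ‖Ad S (N.evZ y0 ε) (φ Z)‖ ≤ c * (R * ‖Z‖) :=
      G.Ad_le S hK1 hK (hεb' y0 hy0) (h.norm Z)
    calc _ ≤ MF * (c * (R * ‖Z‖)) := mul_le_mul_of_nonneg_left h1 hMF
      _ = MF * c * R * ‖Z‖ := by ring
      _ ≤ _ := mul_le_mul_of_nonneg_right b1 (norm_nonneg _)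
  · have h1 : φ Z ∈ H (s + 1) := (h.filt _ (by omega) Z).1 hZ
    have h2 : Ad S (N.evZ y0 ε) (φ Z) - φ Z ∈ N.F (s + 2) :=
      Bch.Ad_sub_mem S _ (fun _ hm => FA_anti (Nat.le_succ _) (lie_mem_FA_succ _ hm))
        (lie_mem_FA_succ _ (hH.le _ h1))
    have h3 : Ad S (N.evZ y0 ε) (φ Z) ∈ H (s + 1) := by
      simpa using add_mem (hH.ge _ h2) h1
    beta_reduce
    rw [Bch.map_star, Bch.star_assoc, ← Bch.star_assoc S (N.evZ y0 ε),
      Bch.star_eq_Ad_star S (N.evZ y0 ε) (φ Z), Bch.star_assoc, hF.vert _ (hH.le _ h3), hη _ h3]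
    simp
  · have h1 : InL (1 : ℕ) (star S (-N.evZ y0 γ) (star S 0 (- -N.evZ y γ))) :=
      conj_inL hS hqγ (hγL y0).neg (hγL y).neg (by
        rw [neg_sub_neg]
        exact (evZ_sub_inL hqγ hγ hq).of_eq q0 (by push_cast; ring)) (InL.zero _)
    have h2 := hF.per (star S (N.evZ y ε) (star S (φ (N'.evZ y P')) (N.evZ y0 γ))) _
      (InL.isInt (by simpa using h1))
    simp only [Bch.star_assoc, Bch.star_neg_star] at h2
    rw [hev, h2, ← Bch.star_neg_star' S (N.evZ y ε) (N.evZ y0 ε), Bch.star_assoc]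
    refine (hF.lip _ _).trans ?_
    have h3 : ‖star S (N.evZ y ε) (-N.evZ y0 ε)‖ ≤ c * (A * ρ) :=
      G.star_neg_le S hK1 hK (hεb' y0 hy0) (hεb' y hy)
        (norm_evZ_sub_le hG.wt_le hε hT hρ hsm hy hy0 hyy)
    calc _ ≤ MF * (c * (A * ρ)) := mul_le_mul_of_nonneg_left h3 hMF
      _ = MF * (c * A) * ρ := by ring
      _ ≤ _ := mul_le_mul_of_nonneg_right b2 hρ
  · obtain ⟨z, l, hz, hl, e⟩ := hcl
    rw [hev, hev] at e
    have hX : 0 ≤ (c + A) * ρ := by positivity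
    have b4 : (R + 1) * Gon.bl d Hh * ((c + 1) * ((c + A) * ρ)) < 1 := by
      refine lt_of_le_of_lt (le_trans (le_of_eq (by ring)) (mul_le_mul_of_nonneg_right b3 hρ)) hEρ
    have b5 : (c + 1) * ((c + A) * ρ) ≤ (R + 1) * Gon.bl d Hh * ((c + 1) * ((c + A) * ρ)) :=
      le_mul_of_one_le_left (by positivity) (one_le_mul_of_one_le_of_one_le (by linarith) hbl)
    have b7 : c * ((c + A) * ρ) ≤ (c + 1) * ((c + A) * ρ) :=
      mul_le_mul_of_nonneg_right (by linarith) hX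
    have hc2 : 2 ≤ c := by
      have h1 := Bch.two_le_cb S
      exact h1.trans (le_mul_of_one_le_right (by linarith) (one_le_pow₀ hK))
    have b6 : (c + A) * ρ ≤ 1 :=
      ((le_mul_of_one_le_left hX (by linarith)).trans b5).trans b4.le
    have hρ1 : ρ ≤ 1 := (le_mul_of_one_le_left hρ (by linarith)).trans b6
    have h1 : ‖star S z (N.evZ y ε) - N.evZ y ε‖ ≤ c * ρ :=
      G.star_sub_right_le S hK1 hK ((hG' _ _).2 (by linarith)) hz (hεb' y hy)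
    have h2 : ‖star S z (N.evZ y ε) - N.evZ y' ε‖ ≤ (c + A) * ρ := by
      have h3 := norm_evZ_sub_le hG.wt_le hε hT hρ hsm hy hy' hyy
      have h4 := norm_add_le (star S z (N.evZ y ε) - N.evZ y ε) (N.evZ y ε - N.evZ y' ε)
      rw [sub_add_sub_cancel] at h4
      linarith
    have h3 : ‖star S z (N.evZ y ε)‖ ≤ K := by
      have h4 := norm_add_le (star S z (N.evZ y ε) - N.evZ y' ε) (N.evZ y' ε)
      rw [sub_add_cancel] at h4
      linarith [hεb y' hy']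
    set z' := star S (-N.evZ y' ε) (star S z (N.evZ y ε)) with hz'
    have h4 : ‖z'‖ ≤ c * ((c + A) * ρ) := G.neg_star_le S hK1 hK (hεb' y' hy') h3 h2
    set l' := star S (N.evZ y γ) (star S l (-N.evZ y' γ)) with hl'
    have h5 : InL (q0 * q' : ℕ) l' := conj_inL hS hqγ (hγL y) (hγL y')
      ((evZ_sub_inL hqγ hγ hq).of_eq 1 (by push_cast; ring)) (by rwa [← mul_assoc])
    have h6 : φ (N'.evZ y' P') = star S z' (star S (φ (N'.evZ y P')) l') := by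
      have h7 : φ (N'.evZ y' P') = star S (-N.evZ y' ε) (star S (star S (N.evZ y' ε)
          (star S (φ (N'.evZ y' P')) (N.evZ y' γ))) (-N.evZ y' γ)) := by
        simp only [Bch.star_assoc, Bch.neg_star_star, Bch.star_neg_self, Bch.star_zero]
      rw [h7, e, hz', hl']
      simp only [Bch.star_assoc]
    have hm : ∀ x, φ x ∈ H 1 := fun x => (h.filt 1 le_rfl x).1 (mem_FA_one x)
    have h8 := St.uniq_pt S hG.wt_le (U := H 1)
      (fun a ha b hb => hH.anti (by norm_num) (hH.lie 1 1 a ha b hb)) hHh hR hd (q := 1) le_rfl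
      (τ := z') (g := l') (x := φ (N'.evZ y P')) (by
        have : Gon.bl d Hh * ‖z'‖ ≤ (R + 1) * Gon.bl d Hh * ((c + 1) * ((c + A) * ρ)) := by
          calc _ ≤ Gon.bl d Hh * ((c + 1) * ((c + A) * ρ)) :=
                mul_le_mul_of_nonneg_left (h4.trans b7) (by linarith)
            _ ≤ _ := by rw [mul_assoc (R + 1)]
                        exact le_mul_of_one_le_left (by positivity) (by linarith)
        push_cast; linarith)
      (den_iff.2 fun k => by simpa using (h5.of_eq (q0 * q') (c' := 1) (by simp)).isInt k)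
      (hm _) (h6 ▸ hm _)
    have hq0 : (1 : ℝ) ≤ q0 := by exact_mod_cast h.one_le
    refine ⟨(q0 : ℝ)⁻¹ • ψ z', (q0 : ℝ)⁻¹ • ψ l', ?_,
      ((InL.map h.int' h5).smul _).of_eq 1 (by push_cast; field_simp), h.inj ?_⟩
    · rw [norm_smul, norm_inv, Real.norm_natCast]
      calc _ ≤ 1 * (R * (c * ((c + A) * ρ))) := mul_le_mul (inv_le_one_of_one_le₀ hq0)
            ((h.norm' _).trans (mul_le_mul_of_nonneg_left h4 hR0)) (norm_nonneg _) zero_le_one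
        _ ≤ (R + 1) * Gon.bl d Hh * ((c + 1) * ((c + A) * ρ)) := by
            rw [one_mul, mul_assoc (R + 1)]
            refine mul_le_mul (by linarith) ?_ (by positivity) (by positivity)
            exact b7.trans (le_mul_of_one_le_left (by positivity) hbl)
        _ = (R + 1) * Gon.bl d Hh * ((c + 1) * (c + A)) * ρ := by ring
        _ ≤ _ := mul_le_mul_of_nonneg_right b3 hρ
    · rw [Bch.map_star, Bch.map_star, h.lift h8.1, h.lift h8.2, h6]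

end Crest.Agent.T49.Win
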