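import Crest.Agent.T49.GowSym_71
import Crest.Agent.T49.GowC_67
import Crest.Agent.T49.TorB_46
import Crest.Agent.T49.TorD_46

/-!
Row 49 (helper56).  Cubes of `ℤ^σ`: bias passes to a sub-cube, to a residue class (paid by a
character) and a biased linear phase has small frequencies.
-/

set_option autoImplicit false
set_option linter.unusedSectionVars false

noncomputable section

namespace Crest.Agent.T49.Win
open Finset Tor

variable {σ : Type*} [Fintype σ] [DecidableEq σ]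

/-- the cube `a + [0,n)^σ` -/
def cb (a : σ → ℤ) (n : ℕ) : Finset (σ → ℤ) := Fintype.piFinset fun i => Ico (a i) (a i + n)

theorem mem_cb {a y : σ → ℤ} {n : ℕ} : y ∈ cb a n ↔ ∀ i, a i ≤ y i ∧ y i < a i + n := by
  simp [cb]

theorem card_cb (a : σ → ℤ) (n : ℕ) : #(cb a n) = n ^ Fintype.card σ := by
  simp [cb, Fintype.card_piFinset]

theorem card_cb' (a : σ → ℤ) (n : ℕ) : (#(cb a n) : ℝ) = (n : ℝ) ^ Fintype.card σ := by
  rw [card_cb]; push_cast; rfl

theorem sum_cb {M : Type*} [AddCommMonoid M] (a : σ → ℤ) (n : ℕ) (f : (σ → ℤ) → M) :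
    ∑ y ∈ cb a n, f y = ∑ t ∈ cb 0 n, f (a + t) := by
  symm
  refine sum_bij (fun t _ => a + t) (fun t ht => ?_) (fun _ _ _ _ h => add_left_cancel h)
    (fun y hy => ⟨y - a, ?_, by simp⟩) fun _ _ => rfl
  · refine mem_cb.2 fun i => ?_
    have := mem_cb.1 ht i
    simp only [Pi.zero_apply, Pi.add_apply] at this ⊢
    omega
  · refine mem_cb.2 fun i => ?_
    have := mem_cb.1 hy i
    simp only [Pi.zero_apply, Pi.sub_apply] at this ⊢
    omega

theorem abs_sub_le_of_mem_cb {a y : σ → ℤ} {n : ℕ} (hy : y ∈ cb a n) (i : σ) :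
    |((y i : ℝ)) - a i| ≤ n := by
  have := mem_cb.1 hy i
  have h : |y i - a i| ≤ (n : ℤ) := by rw [abs_le]; omega
  exact_mod_cast h

/-- bias on a cube passes to a small cube based at a point of the cube -/
theorem exists_subcube (a : σ → ℤ) {n : ℕ} (hn : 0 < n) (n' : ℕ) {Φ : (σ → ℤ) → ℂ}
    (hΦ : ∀ y, ‖Φ y‖ ≤ 1) {δ : ℝ} (hδ : δ * (n : ℝ) ^ Fintype.card σ ≤ ‖∑ y ∈ cb a n, Φ y‖)
    (hn' : 4 * (Fintype.card σ * n' : ℝ) ≤ δ * n) :
    ∃ x ∈ cb a n, δ / 2 * (n' : ℝ) ^ Fintype.card σ ≤ ‖∑ y ∈ cb x n', Φ y‖ := by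
  have hN0 : (0 : ℝ) < n := by exact_mod_cast hn
  have hne : (cb a n).Nonempty := ⟨a, mem_cb.2 fun i => ⟨le_rfl, by omega⟩⟩
  have hκ : ∀ t ∈ cb (0 : σ → ℤ) n', (#{x ∈ cb a n | x + t ∉ cb a n} : ℝ)
      ≤ (Fintype.card σ * n' / n) * #(cb a n) := fun t ht => by
    have h := Box.card_shift_notMem a n n' hn t fun i => by
      have := mem_cb.1 ht i
      simp only [Pi.zero_apply] at this
      rw [abs_le]; omega
    unfold cb
    convert h
  obtain ⟨x, hx, h⟩ := Box.exists_pattern_bias (cb a n) hne hΦ (cb 0 n') (fun t => t)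
    (δ := δ) (κ := Fintype.card σ * n' / n) (by rw [card_cb']; exact hδ) fun t ht => by
      convert hκ t ht
  refine ⟨x, hx, ?_⟩
  rw [sum_cb]
  refine le_trans ?_ h
  rw [card_cb']
  refine mul_le_mul_of_nonneg_right ?_ (by positivity)
  have : (Fintype.card σ * n' / n : ℝ) ≤ δ / 4 := by rw [div_le_iff₀ hN0]; linarith
  linarith

theorem chi_eq (θ : σ → ℝ) (x : σ → ℤ) : Gow.chi θ x = e (dot x θ) := by
  unfold Gow.chi Gow.ee e dot
  congr 3
  exact sum_congr rfl fun i _ => mul_comm _ _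

/-- a residue class costs a character -/
theorem exists_class_char (S : Finset (σ → ℤ)) (hS : S.Nonempty) {q : ℕ} (hq : 0 < q)
    (Φ : (σ → ℤ) → ℂ) (Ψ : (σ → ℤ) → (σ → ℤ) → ℂ) {η : ℝ}
    (hΨ : ∀ y0 ∈ S, ∀ y ∈ S, (∀ i, (q : ℤ) ∣ y i - y0 i) → ‖Φ y - Ψ y0 y‖ ≤ η)
    (hb : 2 * η * #S ≤ ‖∑ y ∈ S, Φ y‖) :
    ∃ y0 ∈ S, ∃ b : σ → ℤ, η * #S / (q : ℝ) ^ Fintype.card σ
      ≤ ‖∑ y ∈ S, Ψ y0 y * e (dot y fun i => (b i : ℝ) / q)‖ := by
  have : NeZero q := ⟨hq.ne'⟩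
  let cls : (σ → ℤ) → σ → ZMod q := fun y i => (y i : ZMod q)
  have hcls : ∀ y y', cls y = cls y' ↔ ∀ i, (q : ℤ) ∣ y i - y' i := fun y y' => by
    rw [funext_iff]
    exact forall_congr' fun i => by
      simp only [cls]
      rw [ZMod.intCast_eq_intCast_iff_dvd_sub, dvd_sub_comm]
  obtain ⟨y₁, hy₁⟩ := hS
  have hrep : ∀ r : σ → ZMod q, ∃ y0 ∈ S, ∀ y ∈ S, cls y = r → cls y = cls y0 := fun r => by
    by_cases h : ∃ y ∈ S, cls y = r
    · obtain ⟨y0, h0, h1⟩ := h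
      exact ⟨y0, h0, fun y _ hy => hy.trans h1.symm⟩
    · exact ⟨y₁, hy₁, fun y hy hr => absurd ⟨y, hy, hr⟩ h⟩
  choose rep hrepS hrep using hrep
  have h1 : ‖∑ y ∈ S, Φ y - ∑ y ∈ S, Ψ (rep (cls y)) y‖ ≤ η * #S := by
    rw [← sum_sub_distrib, mul_comm, ← nsmul_eq_mul]
    refine (norm_sum_le _ _).trans (sum_le_card_nsmul _ _ _ fun y hy => ?_)
    exact hΨ _ (hrepS _) y hy ((hcls _ _).1 (hrep _ y hy rfl))
  have h2 : η * #S ≤ ∑ r : σ → ZMod q, ‖∑ y ∈ S with cls y = r, Ψ (rep r) y‖ := by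
    have h3 : ∑ y ∈ S, Ψ (rep (cls y)) y = ∑ r : σ → ZMod q, ∑ y ∈ S with cls y = r, Ψ (rep r) y := by
      rw [← sum_fiberwise S cls]
      exact sum_congr rfl fun r _ => sum_congr rfl fun y hy => by rw [(mem_filter.1 hy).2]
    have h4 := norm_sub_norm_le (∑ y ∈ S, Φ y) (∑ y ∈ S, Ψ (rep (cls y)) y)
    have h5 := norm_sum_le univ fun r : σ → ZMod q => ∑ y ∈ S with cls y = r, Ψ (rep r) y
    rw [← h3] at h5
    linarith
  have hq' : (0 : ℝ) < (q : ℝ) ^ Fintype.card σ := by positivity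
  obtain ⟨r, -, hr⟩ : ∃ r ∈ (univ : Finset (σ → ZMod q)),
      η * #S / (q : ℝ) ^ Fintype.card σ ≤ ‖∑ y ∈ S with cls y = r, Ψ (rep r) y‖ := by
    refine exists_le_of_sum_le univ_nonempty (le_trans (le_of_eq ?_) h2)
    rw [sum_const, card_univ, Fintype.card_fun, ZMod.card, nsmul_eq_mul]
    push_cast; field_simp
  by_cases hne : ∃ y ∈ S, cls y = r
  swap
  · refine ⟨rep r, hrepS r, 0, hr.trans ?_⟩
    rw [sum_eq_zero fun y hy => absurd ⟨y, (mem_filter.1 hy).1, (mem_filter.1 hy).2⟩ hne, norm_zero]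
    exact norm_nonneg _
  obtain ⟨y₂, hy₂, hy₂r⟩ := hne
  have hr0 : cls (rep r) = r := (hrep r y₂ hy₂ hy₂r).symm.trans hy₂r
  have key : ((q : ℂ) ^ Fintype.card σ) * ∑ y ∈ S with cls y = r, Ψ (rep r) y =
      ∑ b : σ → Fin q, e (-dot (rep r) fun i => ((b i : ℕ) : ℝ) / q) *
        ∑ y ∈ S, Ψ (rep r) y * e (dot y fun i => ((b i : ℕ) : ℝ) / q) := by
    simp only [mul_sum]
    rw [sum_comm, sum_filter]
    refine sum_congr rfl fun y _ => ?_
    have h6 := Gow.sum_chi (ι := σ) hq (y - rep r)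
    simp only [chi_eq, Pi.sub_apply, ← hcls, hr0] at h6
    have h7 : ∀ b : σ → Fin q, e (-dot (rep r) fun i => ((b i : ℕ) : ℝ) / q) *
        (Ψ (rep r) y * e (dot y fun i => ((b i : ℕ) : ℝ) / q)) =
        Ψ (rep r) y * e (dot (y - rep r) fun i => ((b i : ℕ) : ℝ) / q) := fun b => by
      rw [sub_dot, sub_eq_add_neg, e_add]; ring
    simp only [h7]
    rw [← mul_sum]
    have h6' : ∑ b : σ → Fin q, e (dot (y - rep r) fun i => ((b i : ℕ) : ℝ) / q) =
        if cls y = r then (q : ℂ) ^ Fintype.card σ else 0 := by convert h6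
    rw [h6']
    split_ifs <;> ring
  obtain ⟨b, -, hb⟩ : ∃ b ∈ (univ : Finset (σ → Fin q)), ‖∑ y ∈ S with cls y = r, Ψ (rep r) y‖ ≤
      ‖∑ y ∈ S, Ψ (rep r) y * e (dot y fun i => ((b i : ℕ) : ℝ) / q)‖ := by
    have : Nonempty (Fin q) := ⟨⟨0, hq⟩⟩
    refine exists_le_of_sum_le univ_nonempty ?_
    rw [sum_const, card_univ, Fintype.card_fun, Fintype.card_fin, nsmul_eq_mul]
    have h8 := congrArg norm key
    rw [norm_mul, norm_pow, Complex.norm_natCast] at h8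
    push_cast
    rw [h8]
    refine (norm_sum_le _ _).trans (le_of_eq (sum_congr rfl fun b _ => ?_))
    rw [norm_mul, norm_e, one_mul]
  exact ⟨rep r, hrepS r, fun i => (b i : ℕ), hr.trans (by simpa using hb)⟩

/-- a biased linear phase on a cube has small frequencies -/
theorem nz_le_of_bias (a : σ → ℤ) {n : ℕ} (θ : σ → ℝ) {δ : ℝ}
    (h : δ * (n : ℝ) ^ Fintype.card σ ≤ ‖∑ y ∈ cb a n, e (dot y θ)‖) (hn : 0 < n) (i : σ) :
    2 * δ * n * nz (θ i) ≤ 1 := by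
  have hn' : (0 : ℝ) < n := by exact_mod_cast hn
  have h1 : ‖∑ y ∈ cb a n, e (dot y θ)‖ = ‖dir (box fun _ : σ => n) θ‖ := by
    rw [sum_cb]
    simp only [add_dot, e_add]
    rw [← mul_sum, norm_mul, norm_e, one_mul, dir, Tor.box, cb]
    simp
  have h2 := congrArg norm (dir_box_mul (fun _ : σ => n) θ i)
  rw [norm_mul, norm_mul, ← h1] at h2
  have h3 : ‖dir (box (Function.update (fun _ : σ => n) i 1)) θ‖ * n ≤ (n : ℝ) ^ Fintype.card σ := by
    have h4 : ‖dir (box (Function.update (fun _ : σ => n) i 1)) θ‖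
        ≤ #(box (Function.update (fun _ : σ => n) i 1)) := by
      refine (norm_sum_le _ _).trans (le_of_eq ?_)
      simp [norm_e]
    have h5 : #(box (Function.update (fun _ : σ => n) i 1)) * n = n ^ Fintype.card σ := by
      rw [card_box, ← mul_prod_erase _ _ (mem_univ i), Function.update_self, one_mul,
        prod_congr rfl fun l hl => Function.update_of_ne (ne_of_mem_erase hl) _ _, prod_const,
        card_erase_of_mem (mem_univ i), card_univ, ← pow_succ,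
        Nat.sub_add_cancel (Fintype.card_pos_iff.2 ⟨i⟩)]
    calc _ ≤ (#(box (Function.update (fun _ : σ => n) i 1)) : ℝ) * n :=
          mul_le_mul_of_nonneg_right h4 hn'.le
      _ = _ := by exact_mod_cast h5
  have h6 : ‖e (n * θ i) - 1‖ ≤ 2 := (norm_sub_le _ _).trans (by rw [norm_e, norm_one]; norm_num)
  have h7 := four_nz_le (θ i)
  have h8 := nz_nonneg (θ i)
  have hp : (0 : ℝ) < (n : ℝ) ^ Fintype.card σ := by positivity
  set P := (n : ℝ) ^ Fintype.card σ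
  set A := ‖∑ y ∈ cb a n, e (dot y θ)‖
  set B := ‖dir (box (Function.update (fun _ : σ => n) i 1)) θ‖
  have hB : 0 ≤ B := norm_nonneg _
  have hA : 0 ≤ A := norm_nonneg _
  have h9 : δ * P * (4 * nz (θ i)) ≤ B * 2 :=
    calc _ ≤ A * (4 * nz (θ i)) := mul_le_mul_of_nonneg_right h (by positivity)
      _ ≤ A * ‖e (θ i) - 1‖ := mul_le_mul_of_nonneg_left h7 hA
      _ = B * ‖e (n * θ i) - 1‖ := h2
      _ ≤ B * 2 := mul_le_mul_of_nonneg_left h6 hB
  have h10 : (2 * δ * n * nz (θ i)) * (2 * P) ≤ 1 * (2 * P) := by nlinarith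
  exact le_of_mul_le_mul_right h10 (by positivity)

end Crest.Agent.T49.Win
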