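import Mathlib

/-!
Row 49 (helper56).  Lipschitz partitions of unity on `G / Γ`, for an abstract group with a
coordinate map `lg : G → ι → ℝ` (in the application `lg = log` on a nilpotent group).
-/

set_option autoImplicit false
set_option linter.unusedSectionVars false

noncomputable section

namespace Crest.Agent.T49.Win
open Finset

variable {G : Type*} [Group G] {ι : Type*} [Fintype ι]

/-- a tent of radius `ρ` around `a` -/
def tent (lg : G → ι → ℝ) (ρ : ℝ) (a : ι → ℝ) (x : G) : ℝ := max 0 (1 - ‖lg x - a‖ / ρ)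

theorem tent_nonneg (lg : G → ι → ℝ) (ρ : ℝ) (a : ι → ℝ) (x : G) : 0 ≤ tent lg ρ a x :=
  le_max_left _ _

theorem tent_le_one (lg : G → ι → ℝ) {ρ : ℝ} (hρ : 0 < ρ) (a : ι → ℝ) (x : G) :
    tent lg ρ a x ≤ 1 :=
  max_le zero_le_one (by have : 0 ≤ ‖lg x - a‖ / ρ := by positivity
                         linarith)

theorem norm_lt_of_tent_pos {lg : G → ι → ℝ} {ρ : ℝ} (hρ : 0 < ρ) {a : ι → ℝ} {x : G}
    (h : 0 < tent lg ρ a x) : ‖lg x - a‖ < ρ := by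
  rcases lt_max_iff.1 h with h | h
  · exact absurd h (lt_irrefl _)
  · rwa [sub_pos, div_lt_one hρ] at h

/-- the `Γ`-periodised tent -/
def ptent (lg : G → ι → ℝ) (Γ : Subgroup G) (ρ : ℝ) (a : ι → ℝ) (x : G) : ℝ :=
  ⨆ γ : Γ, tent lg ρ a (x * γ)

theorem ptent_bdd (lg : G → ι → ℝ) (Γ : Subgroup G) {ρ : ℝ} (hρ : 0 < ρ) (a : ι → ℝ) (x : G) :
    BddAbove (Set.range fun γ : Γ => tent lg ρ a (x * γ)) :=
  ⟨1, by rintro _ ⟨γ, rfl⟩; exact tent_le_one lg hρ a _⟩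

theorem le_ptent (lg : G → ι → ℝ) {Γ : Subgroup G} {ρ : ℝ} (hρ : 0 < ρ) (a : ι → ℝ) (x : G)
    {γ : G} (hγ : γ ∈ Γ) : tent lg ρ a (x * γ) ≤ ptent lg Γ ρ a x :=
  le_ciSup (ptent_bdd lg Γ hρ a x) (⟨γ, hγ⟩ : Γ)

theorem ptent_le {lg : G → ι → ℝ} {Γ : Subgroup G} {ρ : ℝ} {a : ι → ℝ} {x : G} {b : ℝ}
    (h : ∀ γ ∈ Γ, tent lg ρ a (x * γ) ≤ b) : ptent lg Γ ρ a x ≤ b :=
  ciSup_le fun γ => h γ γ.2

theorem ptent_nonneg (lg : G → ι → ℝ) (Γ : Subgroup G) {ρ : ℝ} (hρ : 0 < ρ) (a : ι → ℝ) (x : G) :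
    0 ≤ ptent lg Γ ρ a x :=
  (tent_nonneg lg ρ a _).trans (le_ptent lg hρ a x Γ.one_mem)

theorem ptent_le_one (lg : G → ι → ℝ) (Γ : Subgroup G) {ρ : ℝ} (hρ : 0 < ρ) (a : ι → ℝ) (x : G) :
    ptent lg Γ ρ a x ≤ 1 := ptent_le fun _ _ => tent_le_one lg hρ a _

theorem ptent_mul (lg : G → ι → ℝ) {Γ : Subgroup G} {ρ : ℝ} (hρ : 0 < ρ) (a : ι → ℝ) (x : G)
    {γ : G} (hγ : γ ∈ Γ) : ptent lg Γ ρ a (x * γ) = ptent lg Γ ρ a x := by
  apply le_antisymm
  · exact ptent_le fun δ hδ => by rw [mul_assoc]; exact le_ptent lg hρ a x (Γ.mul_mem hγ hδ)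
  · refine ptent_le fun δ hδ => ?_
    have := le_ptent lg hρ a (x * γ) (Γ.mul_mem (Γ.inv_mem hγ) hδ)
    rwa [mul_assoc, mul_inv_cancel_left] at this

theorem exists_of_ptent_pos {lg : G → ι → ℝ} {Γ : Subgroup G} {ρ : ℝ} (hρ : 0 < ρ) {a : ι → ℝ}
    {x : G} (h : 0 < ptent lg Γ ρ a x) : ∃ γ ∈ Γ, ‖lg (x * γ) - a‖ < ρ := by
  by_contra hc
  push Not at hc
  refine absurd h (not_lt.2 (ptent_le fun γ hγ => ?_))
  by_contra h'
  exact absurd (norm_lt_of_tent_pos hρ (not_le.1 h')) (not_lt.2 (hc γ hγ))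

/-- the hypotheses on the coordinate map -/
structure Chart (lg : G → ι → ℝ) (Γ : Subgroup G) (C : ℝ) : Prop where
  one_le : 1 ≤ C
  fund : ∀ x, ∃ γ ∈ Γ, ‖lg (x * γ)‖ ≤ 1
  inv : ∀ z, ‖lg z⁻¹‖ = ‖lg z‖
  lip : ∀ z x, ‖lg z‖ ≤ 1 → ‖lg x‖ ≤ 3 → ‖lg (z * x) - lg x‖ ≤ C * ‖lg z‖
  rev : ∀ x x', ‖lg x‖ ≤ 3 → ‖lg x'‖ ≤ 3 → ‖lg (x' * x⁻¹)‖ ≤ C * ‖lg x' - lg x‖

variable {lg : G → ι → ℝ} {Γ : Subgroup G} {C : ℝ}

theorem Chart.ptent_le_add (h : Chart lg Γ C) {ρ : ℝ} (hρ : 0 < ρ) (hρ1 : ρ ≤ 1) {a : ι → ℝ}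
    (ha : ‖a‖ ≤ 2) (z x : G) :
    ptent lg Γ ρ a x ≤ ptent lg Γ ρ a (z * x) + C / ρ * ‖lg z‖ := by
  have hC := h.one_le
  have h0 := ptent_nonneg lg Γ hρ a (z * x)
  by_cases hz : ‖lg z‖ ≤ 1
  · refine ptent_le fun γ hγ => ?_
    rcases (tent_nonneg lg ρ a (x * γ)).eq_or_lt with h1 | h1
    · rw [← h1]; positivity
    have h2 := norm_lt_of_tent_pos hρ h1
    have h3 : ‖lg (x * γ)‖ ≤ 3 := by
      have := norm_add_le (lg (x * γ) - a) a
      rw [sub_add_cancel] at this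
      linarith
    have h4 := h.lip z (x * γ) hz h3
    have h5 := le_ptent lg hρ a (z * x) hγ
    rw [mul_assoc] at h5
    have h6 : ‖lg (z * (x * γ)) - a‖ ≤ ‖lg (x * γ) - a‖ + C * ‖lg z‖ := by
      have := norm_add_le (lg (x * γ) - a) (lg (z * (x * γ)) - lg (x * γ))
      rw [show lg (x * γ) - a + (lg (z * (x * γ)) - lg (x * γ)) = lg (z * (x * γ)) - a by abel]
        at this
      linarith
    have h7 : 1 - ‖lg (z * (x * γ)) - a‖ / ρ ≤ tent lg ρ a (z * (x * γ)) := le_max_right _ _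
    have h8 : ‖lg (z * (x * γ)) - a‖ / ρ ≤ ‖lg (x * γ) - a‖ / ρ + C / ρ * ‖lg z‖ := by
      rw [div_mul_eq_mul_div, ← add_div]
      exact div_le_div_of_nonneg_right h6 hρ.le
    refine max_le (by positivity) ?_
    linarith
  · have h1 := ptent_le_one lg Γ hρ a x
    have h2 : 1 ≤ C / ρ := by rw [le_div_iff₀ hρ]; linarith
    have h3 : 1 ≤ C / ρ * ‖lg z‖ := one_le_mul_of_one_le_of_one_le h2 (not_le.1 hz).le
    linarith

theorem Chart.ptent_lip (h : Chart lg Γ C) {ρ : ℝ} (hρ : 0 < ρ) (hρ1 : ρ ≤ 1) {a : ι → ℝ}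
    (ha : ‖a‖ ≤ 2) (z x : G) :
    |ptent lg Γ ρ a (z * x) - ptent lg Γ ρ a x| ≤ C / ρ * ‖lg z‖ := by
  have h1 := h.ptent_le_add hρ hρ1 ha z x
  have h2 := h.ptent_le_add hρ hρ1 ha z⁻¹ (z * x)
  rw [inv_mul_cancel_left, h.inv] at h2
  rw [abs_le]; constructor <;> linarith

/-- **Partition of unity** on `G / Γ` at scale `1 / K`. -/
theorem Chart.exists_pou [DecidableEq ι] (h : Chart lg Γ C) {K : ℕ} (hK : 1 ≤ K) :
    ∃ (A : Finset (ι → ℤ)) (χ : (ι → ℤ) → G → ℝ),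
      #A ≤ (4 * K + 3) ^ Fintype.card ι ∧ (∀ a x, 0 ≤ χ a x ∧ χ a x ≤ 1) ∧
      (∀ x, ∑ a ∈ A, χ a x = 1) ∧ (∀ a x, ∀ γ ∈ Γ, χ a (x * γ) = χ a x) ∧
      (∀ a ∈ A, ∀ z x, |χ a (z * x) - χ a x|
        ≤ 6 * ((4 * K + 3 : ℝ) ^ Fintype.card ι) * (C * K) * ‖lg z‖) ∧
      ∀ a ∈ A, ∀ x x', χ a x ≠ 0 → χ a x' ≠ 0 →
        ∃ z, ∃ γ ∈ Γ, ‖lg z‖ ≤ 2 * C / K ∧ x' = z * x * γ := by
  have hC := h.one_le
  have hK0 : (0 : ℝ) < K := by exact_mod_cast hK
  have hK1 : (1 : ℝ) ≤ K := by exact_mod_cast hK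
  set ρ : ℝ := 1 / K with hρdef
  have hρ : 0 < ρ := by positivity
  have hρ1 : ρ ≤ 1 := by rw [hρdef, div_le_one hK0]; exact hK1
  let A : Finset (ι → ℤ) := Fintype.piFinset fun _ => Finset.Icc (-(2 * K + 1 : ℤ)) (2 * K + 1)
  let pt : (ι → ℤ) → ι → ℝ := fun a i => (a i : ℝ) / (2 * K)
  have hcard : #A = (4 * K + 3) ^ Fintype.card ι := by
    simp only [A, Fintype.card_piFinset, Int.card_Icc, prod_const, card_univ]
    congr 1
    omega
  have hpt : ∀ a ∈ A, ‖pt a‖ ≤ 2 := by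
    intro a ha
    refine (pi_norm_le_iff_of_nonneg (by norm_num)).2 fun i => ?_
    have := Finset.mem_Icc.1 (Fintype.mem_piFinset.1 ha i)
    have h1 : |(a i : ℝ)| ≤ 2 * K + 1 := by
      rw [abs_le]; constructor
      · exact_mod_cast this.1
      · exact_mod_cast this.2
    simp only [pt, Real.norm_eq_abs, abs_div]
    rw [abs_of_pos (by positivity : (0 : ℝ) < 2 * K), div_le_iff₀ (by positivity)]
    linarith
  let φ : (ι → ℤ) → G → ℝ := fun a => ptent lg Γ ρ (pt a)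
  let T : G → ℝ := fun x => ∑ a ∈ A, φ a x
  have hφ0 : ∀ a x, 0 ≤ φ a x := fun a x => ptent_nonneg lg Γ hρ _ x
  have hφ1 : ∀ a x, φ a x ≤ 1 := fun a x => ptent_le_one lg Γ hρ _ x
  have hT : ∀ x, 1 / 2 ≤ T x := by
    intro x
    obtain ⟨γ, hγ, hn⟩ := h.fund x
    let a : ι → ℤ := fun i => round (2 * K * lg (x * γ) i)
    have hr : ∀ i, |2 * K * lg (x * γ) i - a i| ≤ 1 / 2 := fun i => abs_sub_round _
    have hb : ∀ i, |lg (x * γ) i| ≤ 1 := fun i => (norm_le_pi_norm _ i).trans hn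
    have haA : a ∈ A := by
      refine Fintype.mem_piFinset.2 fun i => Finset.mem_Icc.2 ?_
      have h1 := abs_le.1 (hr i)
      have h2 := abs_le.1 (hb i)
      constructor
      · have : (-(2 * K + 1 : ℝ)) ≤ a i := by nlinarith
        exact_mod_cast this
      · have : (a i : ℝ) ≤ 2 * K + 1 := by nlinarith
        exact_mod_cast this
    have hd : ‖lg (x * γ) - pt a‖ ≤ ρ / 2 := by
      refine (pi_norm_le_iff_of_nonneg (by positivity)).2 fun i => ?_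
      simp only [pt, Pi.sub_apply, Real.norm_eq_abs]
      have e : lg (x * γ) i - a i / (2 * K) = (2 * K * lg (x * γ) i - a i) / (2 * K) := by
        field_simp
      rw [e, abs_div, abs_of_pos (by positivity : (0 : ℝ) < 2 * K), div_le_iff₀ (by positivity),
        hρdef]
      have : 1 / (K : ℝ) / 2 * (2 * K) = 1 := by field_simp
      rw [this]; linarith [hr i]
    have h1 : 1 / 2 ≤ tent lg ρ (pt a) (x * γ) := by
      refine le_trans ?_ (le_max_right _ _)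
      have : ‖lg (x * γ) - pt a‖ / ρ ≤ 1 / 2 := by rw [div_le_iff₀ hρ]; linarith
      linarith
    exact h1.trans ((le_ptent lg hρ _ x hγ).trans
      (single_le_sum (f := fun a => φ a x) (fun b _ => hφ0 b x) haA))
  have hT0 : ∀ x, 0 < T x := fun x => lt_of_lt_of_le (by norm_num) (hT x)
  have hCρ : C / ρ = C * K := by rw [hρdef]; field_simp
  have hφlip : ∀ a ∈ A, ∀ z x, |φ a (z * x) - φ a x| ≤ C * K * ‖lg z‖ := fun a ha z x => by
    rw [← hCρ]; exact h.ptent_lip hρ hρ1 (hpt a ha) z x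
  refine ⟨A, fun a x => if a ∈ A then φ a x / T x else 0, hcard.le, fun a x => ?_, fun x => ?_,
    fun a x γ hγ => ?_, fun a ha z x => ?_, fun a ha x x' hx hx' => ?_⟩
  · by_cases ha : a ∈ A
    · simp only [if_pos ha]
      exact ⟨div_nonneg (hφ0 a x) (hT0 x).le, (div_le_one (hT0 x)).2
        (single_le_sum (f := fun a => φ a x) (fun b _ => hφ0 b x) ha)⟩
    · simp [ha]
  · rw [sum_congr rfl fun a ha => if_pos ha, ← sum_div]
    exact div_self (hT0 x).ne'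
  · have : ∀ b, φ b (x * γ) = φ b x := fun b => ptent_mul lg hρ _ x hγ
    simp only [T, this]
  · simp only [if_pos ha]
    set n : ℝ := (4 * K + 3 : ℝ) ^ Fintype.card ι with hn
    have hn1 : 1 ≤ n := one_le_pow₀ (by linarith)
    have hA : (#A : ℝ) = n := by rw [hcard, hn]; push_cast; ring
    set D := C * K * ‖lg z‖ with hD
    have hD0 : 0 ≤ D := by positivity
    have h1 : |T (z * x) - T x| ≤ n * D := by
      simp only [T]
      rw [← sum_sub_distrib]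
      refine (abs_sum_le_sum_abs _ _).trans ?_
      rw [← hA, ← nsmul_eq_mul]
      exact sum_le_card_nsmul _ _ _ fun b hb => hφlip b hb z x
    have h2 := hφlip a ha z x
    have h3 : φ a x ≤ T x := single_le_sum (f := fun a => φ a x) (fun b _ => hφ0 b x) ha
    have e : φ a (z * x) / T (z * x) - φ a x / T x
        = (φ a (z * x) - φ a x) / T (z * x) - φ a x / T x * ((T (z * x) - T x) / T (z * x)) := by
      have := (hT0 x).ne'
      have := (hT0 (z * x)).ne'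
      field_simp
      ring
    rw [e]
    have h4 : |(φ a (z * x) - φ a x) / T (z * x)| ≤ 2 * D := by
      rw [abs_div, abs_of_pos (hT0 _), div_le_iff₀ (hT0 _)]
      nlinarith [hT (z * x)]
    have h5 : |(T (z * x) - T x) / T (z * x)| ≤ 2 * (n * D) := by
      rw [abs_div, abs_of_pos (hT0 _), div_le_iff₀ (hT0 _)]
      have : 0 ≤ n * D := by positivity
      nlinarith [hT (z * x)]
    have h6 : |φ a x / T x| ≤ 1 := by
      rw [abs_of_nonneg (div_nonneg (hφ0 a x) (hT0 x).le), div_le_one (hT0 x)]; exact h3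
    have h7 : |φ a x / T x * ((T (z * x) - T x) / T (z * x))| ≤ 2 * (n * D) := by
      rw [abs_mul]
      calc _ ≤ 1 * (2 * (n * D)) := mul_le_mul h6 h5 (abs_nonneg _) zero_le_one
        _ = _ := one_mul _
    calc _ ≤ 2 * D + 2 * (n * D) := (abs_sub _ _).trans (add_le_add h4 h7)
      _ ≤ 6 * n * (C * K) * ‖lg z‖ := by
        have : 6 * n * (C * K) * ‖lg z‖ = 6 * (n * D) := by rw [hD]; ring
        rw [this]; nlinarith
  · simp only [if_pos ha] at hx hx'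
    have p1 : 0 < φ a x := (hφ0 a x).lt_of_ne fun e => hx (by rw [← e, zero_div])
    have p2 : 0 < φ a x' := (hφ0 a x').lt_of_ne fun e => hx' (by rw [← e, zero_div])
    obtain ⟨γ, hγ, h1⟩ := exists_of_ptent_pos hρ p1
    obtain ⟨γ', hγ', h2⟩ := exists_of_ptent_pos hρ p2
    have hb : ∀ y, ‖lg y - pt a‖ < ρ → ‖lg y‖ ≤ 3 := fun y hy => by
      have := norm_add_le (lg y - pt a) (pt a)
      rw [sub_add_cancel] at this
      linarith [hpt a ha]
    refine ⟨x' * γ' * (x * γ)⁻¹, γ * γ'⁻¹, Γ.mul_mem hγ (Γ.inv_mem hγ'), ?_, by group⟩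
    refine (h.rev _ _ (hb _ h1) (hb _ h2)).trans ?_
    have h3 : ‖lg (x' * γ') - lg (x * γ)‖ ≤ 2 * ρ := by
      have := norm_sub_le (lg (x' * γ') - pt a) (lg (x * γ) - pt a)
      rw [sub_sub_sub_cancel_right] at this
      linarith
    calc _ ≤ C * (2 * ρ) := mul_le_mul_of_nonneg_left h3 (by linarith)
      _ = 2 * C / K := by rw [hρdef]; ring

end Crest.Agent.T49.Win
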