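import Crest.Agent.T49.WinN2_56
import Crest.Agent.T49.NilPw_67
import Crest.Agent.T49.NilWin_58
import Crest.Agent.T49.GincDef_10

/-!
Row 49 (helper56).  `Ginc.Win` for nilsequences, from `LT`.
-/

set_option autoImplicit false
set_option linter.unusedSectionVars false

noncomputable section

namespace Crest.Agent.T49.Win
open Finset Nil Nil.ND Tor GI
open Crest.Agent.T49.Bch (star)
open Real (exp)

variable {ι σ : Type} [Fintype ι] [Fintype σ] {N : ND ι}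

theorem Close.up {S Q : ℕ} {ρ : ℝ} {x x' : (scl N Q).L} (h : Close (scl N Q) S ρ 1 x x') :
    Close N S (Q * ρ) Q (up N Q ℝ x) (up N Q ℝ x') := by
  obtain ⟨z, l, a, b, c⟩ := h
  refine ⟨Win.up N Q ℝ z, Win.up N Q ℝ l, ?_, by simpa using inL_up b,
    by rw [c, Bch.map_star, Bch.map_star]⟩
  rw [norm_up]; exact mul_le_mul_of_nonneg_left a (Nat.cast_nonneg _)

theorem close_of_near {S : ℕ} {B δ : ℝ} (hG : N.Good S B) (hB : 0 ≤ B) {x x' γ γ' y : N.L}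
    (hγ : IsInt γ) (hγ' : IsInt γ') (hy : ‖y‖ ≤ 1) (hδ : δ ≤ 1) (h : ‖star S x γ - y‖ ≤ δ)
    (h' : ‖star S x' γ' - y‖ ≤ δ) :
    Close N S (Bch.cb S * (kB ι B + 2) ^ (2 * S) * (2 * δ)) 1 x x' := by
  have := hG.nil ℝ
  have hk := one_le_kB (ι := ι) hB
  have hb : ∀ u : N.L, ‖u - y‖ ≤ δ → ‖u‖ ≤ kB ι B + 2 := fun u hu => by
    have := norm_add_le (u - y) y
    rw [sub_add_cancel] at this
    linarith
  refine ⟨star S (star S x' γ') (-star S x γ), star S γ (-γ'),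
    (nG hB hG.c_le).star_neg_le S (by linarith) (by linarith) (hb _ h) (hb _ h') ?_,
    by simpa using InL.of_isInt (hG.lat _ _ hγ hγ'.neg), ?_⟩
  · have := norm_sub_le_norm_sub_add_norm_sub (star S x' γ') y (star S x γ)
    rw [norm_sub_rev y] at this
    exact this.trans (by linarith)
  · rw [← Bch.star_assoc S x, Bch.star_assoc S (star S x' γ'), Bch.neg_star_star, Bch.star_assoc,
      Bch.star_neg_self, Bch.star_zero]

/-- windows on which the orbit is close to itself -/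
theorem exists_win (S : ℕ) : ∃ C : ℕ, ∀ (m : ℝ), 2 ≤ m → ∀ (ι σ : Type) [Fintype ι] (N : ND ι)
    (P : N.PS σ) (q : ℕ), (Fintype.card ι : ℝ) ≤ m → N.Good S (exp m) → P ∈ N.poly σ → 1 ≤ q →
    (q : ℝ) ≤ exp m → ∃ χ : Fin ⌊exp (m ^ C)⌋₊ → (σ → ℤ) → ℝ,
      (∀ a, χ a ∈ (nilWin σ).W S (m ^ C)) ∧ (∀ x, ∑ a, χ a x = 1) ∧
      ∀ a x x', χ a x ≠ 0 → χ a x' ≠ 0 → Close N S (exp (-m)) q (N.evZ x P) (N.evZ x' P) := by
  obtain ⟨C1, h1⟩ := exists_pou S
  obtain ⟨C2, h2⟩ : ∃ C : ℕ, ∀ (m : ℝ) (d q : ℕ), 2 ≤ m → (d : ℝ) ≤ m → (q : ℝ) ≤ exp m →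
      m ≤ m ^ C ∧ (bden S * q) * exp m ≤ exp (m ^ C) ∧
      (⌈(bden S * q) * (Bch.cb S * (d ^ 2 * ((bden S * q) * exp m) + 1 + 2) ^ (2 * S) * 2) * exp m⌉₊ + 4 : ℝ)
        ≤ exp (m ^ C) := by qp
  refine ⟨C2 * (C1 + 1), fun m hm ι σ _ N P q hι hG hP hq1 hq2 => ?_⟩
  obtain ⟨b1, b2, b3⟩ := h2 m _ q hm hι hq2
  have hQ : 1 ≤ bden S * q := Nat.mul_pos (bden_pos S) hq1
  have hG' := good_scl hG hQ (dvd_mul_right _ _)
  set X := ((bden S * q : ℕ) : ℝ) * (Bch.cb S * (kB ι ((bden S * q : ℕ) * exp m) + 2) ^ (2 * S) * 2) with hX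
  obtain ⟨J, χ, y, c1, c2, c3, c4, c5, c6⟩ := h1 (m ^ C2) (hm.trans b1) ι (scl N (bden S * q)) S
    (⌈X * exp m⌉₊ + 4) (hι.trans b1) (hG'.mono (by push_cast; exact b2)) (by omega)
    (by rw [hX, kB]; push_cast; exact b3)
  have b4 : m ^ C2 ≤ m ^ (C2 * (C1 + 1)) := Qp.pw_mono hm (by nlinarith)
  have b5 : exp ((m ^ C2) ^ C1) ≤ exp (m ^ (C2 * (C1 + 1))) := by
    rw [← pow_mul]; exact Qp.exp_pw_mono hm (by nlinarith)
  have hJ : J ≤ ⌊exp (m ^ (C2 * (C1 + 1)))⌋₊ := Nat.le_floor (c1.trans b5)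
  let g : (σ → ℤ) → ℕ → ℝ := fun x a =>
    if h : a < J then χ ⟨a, h⟩ ((scl N (bden S * q)).evZ x (dn N _ P)) else 0
  refine ⟨fun a x => g x a, fun a => ?_, fun x => ?_, fun a x x' hx hx' => ?_⟩
  · by_cases h : (a : ℕ) < J
    · simp only [g, dif_pos h]
      exact mem_nilWin_of (hι.trans (b1.trans b4))
        (hG'.mono (le_trans (by push_cast; exact b2) (Real.exp_le_exp.2 b4))) (c3 _)
        ((c2 _).toLipFn.mono b5) (dn_mem_poly _ hP)
    · simp only [g, dif_neg h]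
      exact ⟨fun _ => ⟨le_rfl, zero_le_one⟩, isNil_const (by positivity) (by simp)⟩
  · rw [Fin.sum_univ_eq_sum_range (g x), ← sum_subset (range_subset_range.2 hJ)
      fun a _ ha => dif_neg (by simpa using ha), ← Fin.sum_univ_eq_sum_range (g x),
      ← c4 ((scl N (bden S * q)).evZ x (dn N _ P))]
    exact sum_congr rfl fun a _ => dif_pos a.2
  · have h : (a : ℕ) < J := by_contra fun h => hx (dif_neg h)
    simp only [g, dif_pos h] at hx hx'
    obtain ⟨γ, d1, d2⟩ := c6 _ _ hx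
    obtain ⟨γ', d3, d4⟩ := c6 _ _ hx'
    set Q : ℝ := ((⌈X * exp m⌉₊ + 4 : ℕ) : ℝ) with hQ'
    have hQ1 : X * exp m + 4 ≤ Q := by
      rw [hQ']; push_cast; linarith [Nat.le_ceil (X * exp m)]
    have hX0 : 0 ≤ X := by
      have := Bch.two_le_cb S
      have := one_le_kB (ι := ι) (by positivity : 0 ≤ ((bden S * q : ℕ) : ℝ) * exp m)
      positivity
    have hQ2 : 1 ≤ Q := by nlinarith [Real.exp_pos m]
    have key : ∀ u : (scl N (bden S * q)).L, (∀ k, (scl N (bden S * q)).wt k ≤ S →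
        Q * |u k - y ⟨a, h⟩ k| < 1) → ‖u - y ⟨a, h⟩‖ ≤ Q⁻¹ := fun u hu =>
      (norm_le_iff (by positivity)).2 fun k => by
        rw [← one_div, le_div_iff₀' (by linarith)]
        exact (hu k (hG.wt_le k)).le
    have := (close_of_near hG' (by positivity) d1 d3 (c5 _) (inv_le_one_of_one_le₀ hQ2)
      (key _ d2) (key _ d4)).up
    rw [evZ_dn hQ, evZ_dn hQ] at this
    refine this.mono ?_ (dvd_mul_left _ _)
    calc _ = X * Q⁻¹ := by rw [hX]; ring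
      _ ≤ _ := by
        rw [← div_eq_mul_inv, div_le_iff₀ (by linarith), Real.exp_neg, ← div_eq_inv_mul,
          le_div_iff₀ (Real.exp_pos m)]
        linarith

/-- the sequence that sees the position and its residue class -/
def posP (σ : Type) [Fintype σ] (L : ℕ) : (Ab σ).PS σ :=
  fun v => MvPolynomial.C (1 + 1 / (8 * (L : ℝ))) * MvPolynomial.X v

theorem posP_mem (L : ℕ) : posP σ L ∈ (Ab σ).poly σ :=
  mem_poly_iff67.2 fun v => C_mul_X_mem_degLt67 _ v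

theorem of_close_posP {S L q : ℕ} (hL : 0 < L) {ρ : ℝ} (hρ : ρ ≤ 1 / 2) {y y' : σ → ℤ}
    (hy : ∀ v, |(y v : ℝ)| ≤ L) (hy' : ∀ v, |(y' v : ℝ)| ≤ L)
    (h : Close (Ab σ) S ρ q ((Ab σ).evZ y (posP σ L)) ((Ab σ).evZ y' (posP σ L))) (v : σ) :
    |(y v : ℝ) - y' v| ≤ 8 * ρ * L ∧ (q : ℤ) ∣ y v - y' v := by
  obtain ⟨z, l, a, b, c⟩ := h
  obtain ⟨n, hn⟩ := b v
  have hev : ∀ x : σ → ℤ, (Ab σ).evZ x (posP σ L) v = (1 + 1 / (8 * (L : ℝ))) * x v := fun x => by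
    change MvPolynomial.aeval (fun v => (x v : ℝ)) (MvPolynomial.C _ * MvPolynomial.X v) = _
    simp
  have h1 := congrFun c v
  rw [ab_star, ab_star, ND.add_apply, ND.add_apply, hev, hev, hn] at h1
  have hz := abs_le.1 ((abs_apply_le z v).trans a)
  have hL' : (0 : ℝ) < L := by exact_mod_cast hL
  set t : ℝ := 1 / (8 * (L : ℝ)) * (y' v - y v) with ht
  have h2 : t * (8 * L) = y' v - y v := by rw [ht]; field_simp
  have h3 := abs_le.1 (hy v)
  have h4 := abs_le.1 (hy' v)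
  have h5 : t ≤ 1 / 4 := by nlinarith
  have h6 : -(1 / 4) ≤ t := by nlinarith
  have h7 : ((y' v - y v - q * n : ℤ) : ℝ) = z v - t := by push_cast; rw [ht]; linarith
  have h8 : y' v - y v - q * n = 0 := by
    rw [← Int.abs_lt_one_iff, ← Int.cast_lt (R := ℝ), Int.cast_abs, h7, abs_lt]
    push_cast
    constructor <;> linarith
  rw [h8] at h7
  refine ⟨?_, -n, by linarith⟩
  have h9 : t = z v := by push_cast at h7; linarith
  rw [abs_le]
  constructor <;> nlinarith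

theorem close_pmk {W : Type} [Fintype W] {S q : ℕ} {ρ : ℝ} (hρ : 0 ≤ ρ) {x x' : W → N.L}
    (h : ∀ w, Close N S ρ q (x w) (x' w)) :
    Close (ND.pi fun _ : W => N) S ρ q (pmk x) (pmk x') := by
  choose z l a b c using h
  exact ⟨pmk z, pmk l, norm_pi_le hρ a, fun p => b p.1 p.2, by
    rw [star_pmk, star_pmk]; exact congrArg pmk (funext c)⟩

theorem exists_ibox_eq [DecidableEq σ] {W : Type} [Fintype W] (L : ℕ) (t : W → σ → ℤ) (w0 : W)
    (h0 : t w0 = 0) (hne : ((Rat.box σ L).filter fun y => ∀ w, y + t w ∈ Rat.box σ L).Nonempty) :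
    ∃ lo hi : σ → ℤ, (∀ v, |(lo v : ℝ)| ≤ L ∧ |(hi v : ℝ)| ≤ L) ∧
      ((Rat.box σ L).filter fun y => ∀ w, y + t w ∈ Rat.box σ L) = ibox lo hi := by
  have hW : (univ : Finset W).Nonempty := ⟨w0, mem_univ _⟩
  have key : ((Rat.box σ L).filter fun y => ∀ w, y + t w ∈ Rat.box σ L) =
      ibox (fun v => univ.sup' hW fun w => -(L : ℤ) - t w v)
        fun v => univ.inf' hW fun w => (L : ℤ) - t w v := by
    ext y
    simp only [mem_filter, mem_ibox, Rat.box, Fintype.mem_piFinset, mem_Icc, sup'_le_iff,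
      le_inf'_iff, mem_univ, forall_true_left, Pi.add_apply]
    refine ⟨fun h v => ⟨fun w => by linarith [(h.2 w v).1], fun w => by linarith [(h.2 w v).2]⟩,
      fun h => ⟨fun v => ?_, fun w v => ⟨by linarith [(h v).1 w], by linarith [(h v).2 w]⟩⟩⟩
    simpa [h0] using And.intro ((h v).1 w0) ((h v).2 w0)
  refine ⟨_, _, fun v => ?_, key⟩
  obtain ⟨y, hy⟩ := key ▸ hne
  have h1 := mem_ibox.1 hy v
  have h2 := le_sup' (fun w => -(L : ℤ) - t w v) (mem_univ w0)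
  have h3 := inf'_le (fun w => (L : ℤ) - t w v) (mem_univ w0)
  rw [h0, Pi.zero_apply, sub_zero] at h2 h3
  have h4 : |univ.sup' hW fun w => -(L : ℤ) - t w v| ≤ L ∧
      |univ.inf' hW fun w => (L : ℤ) - t w v| ≤ L := by
    rw [abs_le, abs_le]; omega
  exact_mod_cast h4

set_option maxHeartbeats 800000 in
/-- **WIN** -/
theorem win_of_lt (hL : LTStmt) (σ : Type) [Fintype σ] [DecidableEq σ] (s r : ℕ) :
    Ginc.Win (nilCls σ) (nilWin σ) (s + 1) r := by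
  classical
  obtain ⟨C1, h1⟩ := n2_of_lt hL (S := s + 1) (by omega) (Fintype.card σ) s
  obtain ⟨C2, h2⟩ := exists_win (s + 1)
  obtain ⟨C3, h3⟩ : ∃ C : ℕ, ∀ m : ℝ, 2 ≤ m → m ≤ m ^ C ∧ (2 ^ r : ℕ) * (m * m) ≤ m ^ C ∧
      (2 ^ r : ℕ) * exp m ≤ exp (m ^ C) := by qp
  obtain ⟨C4, h4⟩ : ∃ C : ℕ, ∀ (m : ℝ) (k : ℕ), 2 ≤ m → (k : ℝ) ≤ m → m ≤ m ^ C ∧
      m * m + Fintype.card σ ≤ m ^ C ∧ exp ((m ^ C3) ^ C1) ^ k ≤ exp (m ^ C) ∧
      8 * exp (-m ^ C) ≤ exp (-(m ^ C3) ^ C1) := by qp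
  obtain ⟨C, hC⟩ : ∃ C : ℕ, ∀ m : ℝ, 2 ≤ m → (m ^ C3) ^ C1 ≤ m ^ C ∧ m ^ C4 ≤ m ^ C ∧
      (m ^ C4) ^ C2 ≤ m ^ C := by qp
  refine ⟨C, fun m L J hm hLL hJ hnil => ?_⟩
  obtain ⟨a1, a2, a3⟩ := h3 m hm
  obtain ⟨b1, b2, -, b4⟩ := h4 m 0 hm (by simp; linarith)
  obtain ⟨c1, c2, c3⟩ := hC m hm
  have hL1 : (1 : ℝ) ≤ L := (Real.one_le_exp (by positivity)).trans hLL
  have hL0 : 0 < L := by exact_mod_cast hL1
  obtain ⟨κ, _, G, F, P, d1, d2, d3, d4, d5⟩ :=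
    isNil_joint (J := J) (fj := fun j => j.1) fun j => hnil j.1 j.2
  have d6 : (Fintype.card κ : ℝ) ≤ m * m :=
    d1.trans (mul_le_mul_of_nonneg_right (by simpa using hJ) (by linarith))
  have e0 := (Real.exp_pos m).le
  choose χ f1 f2 f3 using fun q : Fin ⌊exp (m ^ C4)⌋₊ => h2 (m ^ C4) (hm.trans b1) (κ ⊕ σ) σ
    (pd G (Ab σ)) (pair P (posP σ L)) (q + 1) (by simp; linarith)
    ((good_pd d2 (good_ab (fun _ => by omega) e0) e0).mono (Real.exp_le_exp.2 b1))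
    (pair_mem_poly d4 (posP_mem L)) (by omega)
    (le_trans (by exact_mod_cast q.2) (Nat.floor_le (Real.exp_pos _).le))
  refine ⟨_, _, χ, (Nat.floor_le (Real.exp_pos _).le).trans (Real.exp_le_exp.2 c2),
    (Nat.floor_le (Real.exp_pos _).le).trans (Real.exp_le_exp.2 c3),
    fun q a => ⟨(f1 q a).1, (f1 q a).2.mono c3⟩,
    fun q x _ => f2 q x, fun h Θ hΘ hE => ?_⟩
  let t : (Fin r → Bool) → σ → ℤ := fun w => ∑ i, if w i then h i else 0
  have ht0 : t (fun _ => false) = 0 := by simp [t]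
  let Pp : (ND.pi fun _ : Fin r → Bool => G).PS σ := pmk fun w => G.tr (fun v => (t w v : ℝ)) P
  have hPp : ∀ y, (ND.pi fun _ : Fin r → Bool => G).evZ y Pp
      = pmk fun w => G.evZ (Gow.vtx y h w) P := fun y => by
    rw [evZ_pmk]
    exact congrArg pmk (funext fun w => evZ_tr _ _ _)
  have key : ∀ θ ∈ Θ, Out (ND.pi fun _ : Fin r → Bool => G) (s + 1) L Pp (-θ) ((m ^ C3) ^ C1) (m ^ C3) := by
    intro θ hθ
    obtain ⟨ψ, g1, g2⟩ := hE θ hθ
    have g3 : exp (-m) * (L : ℝ) ^ Fintype.card σ ≤ exp (-m) * #(Rat.box σ L) := by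
      refine mul_le_mul_of_nonneg_left ?_ (Real.exp_pos _).le
      have : L ^ Fintype.card σ ≤ #(Rat.box σ L) := by
        rw [Rat.box, Fintype.card_piFinset, prod_const, card_univ, Int.card_Icc]
        exact Nat.pow_le_pow_left (by omega) _
      exact_mod_cast this
    obtain ⟨lo, hi, g4, g5⟩ := exists_ibox_eq L t _ ht0 (by
      by_contra hc
      rw [not_nonempty_iff_eq_empty] at hc
      have := g3.trans g2
      rw [show (Rat.box σ L).filter (fun y => ∀ w, Gow.vtx y h w ∈ Rat.box σ L) = ∅ from hc] at this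
      simp only [sum_empty, norm_zero] at this
      exact absurd this (not_le.2 (by positivity)))
    refine h1 (m ^ C3) (hm.trans a1) _ σ _ (fun x => ∏ w, F ⟨ψ w, g1 w⟩ (pj _ ℝ w x)) Pp L lo hi (-θ)
      le_rfl ((card_sigma_le67 fun _ => d6).trans (by simpa using a2))
      ((good_pi (fun _ => d2) e0).mono (Real.exp_le_exp.2 a1))
      ((nFn_pi e0 fun w => (d3 _).nfn d2.wt_le).mono (by simpa using a3))
      (pmk_mem_poly fun w => tr_mem_poly d4 _) ((Real.exp_le_exp.2 c1).trans hLL) g4 ?_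
    refine (mul_le_mul_of_nonneg_right (Real.exp_le_exp.2 (neg_le_neg a1)) (by positivity)).trans
      (g3.trans (g2.trans (le_of_eq ?_)))
    rw [← g5]
    refine congrArg norm (sum_congr rfl fun y _ => ?_)
    rw [hPp]
    congr 1
    · exact prod_congr rfl fun w _ => d5 ⟨ψ w, g1 w⟩ _
    · simp [dot]
  choose! q k1 k2 k3 using key
  have l1 : 1 ≤ ∏ θ ∈ Θ, q θ := Nat.succ_le_of_lt (prod_pos k1)
  have l2 : ∏ θ ∈ Θ, q θ ≤ ⌊exp (m ^ C4)⌋₊ := Nat.le_floor (by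
    refine le_trans ?_ (h4 m _ hm hΘ).2.2.1
    rw [Nat.cast_prod, ← prod_const]
    exact prod_le_prod (fun _ _ => Nat.cast_nonneg _) k2)
  refine ⟨⟨∏ θ ∈ Θ, q θ - 1, by omega⟩, fun a y y' hy hy' θ hθ => ?_⟩
  have l3 := fun w => f3 _ (a w) _ _ (hy w).2 (hy' w).2
  simp only [Nat.sub_add_cancel l1, evZ_pair] at l3
  have hv : ∀ x : σ → ℤ, Gow.vtx x h (fun _ => false) = x := fun x => by simp [Gow.vtx]
  have hb : ∀ x ∈ Rat.box σ L, ∀ v, |(x v : ℝ)| ≤ L := fun x hx v => by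
    have := mem_Icc.1 (Fintype.mem_piFinset.1 hx v)
    exact_mod_cast abs_le.2 this
  have m1 := hb y (hv y ▸ (hy _).1)
  have m2 := hb y' (hv y' ▸ (hy' _).1)
  have m0 := Real.exp_pos (-m ^ C4)
  have m3 := of_close_posP hL0 (ρ := exp (-m ^ C4)) (by
    have : exp (-(m ^ C3) ^ C1) ≤ 1 := Real.exp_le_one_iff.2 (by
      have : 0 < (m ^ C3) ^ C1 := by positivity
      linarith)
    linarith) m1 m2 (by
      simpa [hv] using (l3 fun _ => false).map (snd G (Ab σ) ℝ) zero_le_one fHom_snd)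
  have hd : q θ ∣ ∏ θ ∈ Θ, q θ := dvd_prod_of_mem _ hθ
  have m4 := k3 θ hθ y y' m1 m2 (fun v => (m3 v).1.trans (by gcongr))
    (fun v => (Int.natCast_dvd_natCast.2 hd).trans (m3 v).2) (by
      rw [hPp, hPp]
      refine (close_pmk m0.le fun w => ?_).mono (by linarith) hd
      simpa using (l3 w).map (fst G (Ab σ) ℝ) zero_le_one fHom_fst)
  have m5 : ∀ x : σ → ℤ, e (dot x (-θ)) = (starRingEnd ℂ) (e (dot x θ)) := fun x => by
    rw [← e_neg]; simp [dot]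
  rw [m5, m5, ← map_sub, Complex.norm_conj] at m4
  exact m4.trans (Real.exp_le_exp.2 (neg_le_neg a1))

end Crest.Agent.T49.Win
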