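import Mathlib

/-!
# Row 49 (helper3): zoom-in, algebraic part.
Division by a linear form and Newton interpolation in one variable over `ℤ[s]` and `ℝ[s]`.
-/

set_option autoImplicit false

noncomputable section

namespace Crest.Agent.T49.Zm

open Finset MvPolynomial

variable {σ : Type} [Fintype σ] [DecidableEq σ]

/-- the linear form `s ↦ s · v` -/
def lin (A : Type) [CommRing A] (v : σ → ℤ) : MvPolynomial σ A := ∑ k, C (v k : A) * X k

omit [DecidableEq σ] in
theorem lin_sub (A : Type) [CommRing A] (v w : σ → ℤ) :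
    lin A (v - w) = lin A v - lin A w := by
  simp [lin, sub_mul, sum_sub_distrib]

omit [DecidableEq σ] in
theorem lin_smul (A : Type) [CommRing A] (c : ℤ) (v : σ → ℤ) :
    lin A (c • v) = C (c : A) * lin A v := by
  simp [lin, mul_sum, mul_assoc]

omit [DecidableEq σ] in
theorem map_lin {A B : Type} [CommRing A] [CommRing B] (f : A →+* B) (v : σ → ℤ) :
    map f (lin A v) = lin B v := by
  simp [lin]

theorem coeff_lin_mul {A : Type} [CommRing A] (v : σ → ℤ) (g : MvPolynomial σ A) (γ : σ →₀ ℕ) :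
    coeff γ (lin A v * g)
      = ∑ k, (v k : A) * if k ∈ γ.support then coeff (γ - Finsupp.single k 1) g else 0 := by
  rw [lin, sum_mul, coeff_sum]
  refine sum_congr rfl fun k _ => ?_
  rw [mul_assoc, coeff_C_mul, coeff_X_mul']

theorem coeff_lin {A : Type} [CommRing A] (v : σ → ℤ) (k : σ) :
    coeff (Finsupp.single k 1) (lin A v) = (v k : A) := by
  rw [lin, coeff_sum, sum_eq_single k]
  · rw [coeff_C_mul, coeff_X, if_pos rfl, mul_one]
  · intro j _ hj
    rw [coeff_C_mul, coeff_X, if_neg, mul_zero]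
    intro h
    exact hj ((Finsupp.single_left_inj one_ne_zero).1 h)
  · simp

/-- all coefficients are at most `δ` -/
def Bd (δ : ℝ) (P : MvPolynomial σ ℝ) : Prop := ∀ β, |coeff β P| ≤ δ

namespace Bd

omit [Fintype σ] [DecidableEq σ]

variable {δ δ' : ℝ} {P Q : MvPolynomial σ ℝ}

theorem mono (h : Bd δ P) (hδ : δ ≤ δ') : Bd δ' P := fun β => (h β).trans hδ

theorem nonneg (h : Bd δ P) : 0 ≤ δ := (abs_nonneg _).trans (h 0)

theorem zero (hδ : 0 ≤ δ) : Bd δ (0 : MvPolynomial σ ℝ) := fun β => by simpa using hδ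

theorem add (h : Bd δ P) (h' : Bd δ' Q) : Bd (δ + δ') (P + Q) := fun β => by
  rw [coeff_add]; exact (abs_add_le _ _).trans (add_le_add (h β) (h' β))

theorem neg (h : Bd δ P) : Bd δ (-P) := fun β => by rw [coeff_neg, abs_neg]; exact h β

theorem sub (h : Bd δ P) (h' : Bd δ' Q) : Bd (δ + δ') (P - Q) := by
  rw [sub_eq_add_neg]; exact h.add h'.neg

theorem smul (h : Bd δ P) {c : ℝ} (hc : 0 ≤ c) : Bd (c * δ) (c • P) := fun β => by
  rw [coeff_smul, smul_eq_mul, abs_mul, abs_of_nonneg hc]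
  exact mul_le_mul_of_nonneg_left (h β) hc

theorem sum {α : Type*} (s : Finset α) {f : α → MvPolynomial σ ℝ} {d : α → ℝ}
    (h : ∀ a ∈ s, Bd (d a) (f a)) : Bd (∑ a ∈ s, d a) (∑ a ∈ s, f a) := fun β => by
  rw [coeff_sum]
  exact (abs_sum_le_sum_abs _ _).trans (sum_le_sum fun a ha => h a ha β)

end Bd

theorem Bd.lin_mul {δ V : ℝ} {P : MvPolynomial σ ℝ} (h : Bd δ P) {v : σ → ℤ}
    (hv : ∀ k, |(v k : ℝ)| ≤ V) : Bd (Fintype.card σ * V * δ) (lin ℝ v * P) := fun γ => by
  rw [coeff_lin_mul]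
  refine (abs_sum_le_sum_abs _ _).trans ?_
  calc _ ≤ ∑ _k : σ, V * δ := sum_le_sum fun k _ => by
        rw [abs_mul]
        refine mul_le_mul (hv k) ?_ (abs_nonneg _) ((abs_nonneg _).trans (hv k))
        split_ifs
        · exact h _
        · simpa using h.nonneg
    _ = _ := by simp [mul_assoc]

theorem Bd.lin_pow_mul {δ V : ℝ} {P : MvPolynomial σ ℝ} (h : Bd δ P) {v : σ → ℤ}
    (hv : ∀ k, |(v k : ℝ)| ≤ V) (g : ℕ) :
    Bd ((Fintype.card σ * V) ^ g * δ) (lin ℝ v ^ g * P) := by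
  induction g with
  | zero => simpa using h
  | succ g ih =>
    have := ih.lin_mul hv
    rw [pow_succ', pow_succ', mul_assoc (lin ℝ v), mul_assoc _ _ δ]
    exact this

/-- evaluation on a shear of a polynomial with small coefficients -/
theorem bd_eval {ε V : ℝ} {n : ℕ} (ρ : Polynomial (MvPolynomial σ ℝ)) (hρ : ρ.natDegree ≤ n)
    (hV : 0 < V) (h : ∀ g, Bd (ε / V ^ g) (ρ.coeff g)) {v : σ → ℤ} (hv : ∀ k, |(v k : ℝ)| ≤ V) :
    Bd ((n + 1) * (Fintype.card σ + 1) ^ n * ε) (ρ.eval (lin ℝ v)) := by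
  have hε : 0 ≤ ε := by simpa using (h 0).nonneg
  rw [Polynomial.eval_eq_sum_range' (Nat.lt_succ_of_le hρ)]
  refine (Bd.sum (d := fun _ => ((Fintype.card σ : ℝ) + 1) ^ n * ε) _ fun g hg => ?_).mono
    (by simp [mul_assoc])
  rw [mul_comm (ρ.coeff g)]
  refine ((h g).lin_pow_mul hv g).mono ?_
  have h1 : ((Fintype.card σ : ℝ) * V) ^ g * (ε / V ^ g) = (Fintype.card σ : ℝ) ^ g * ε := by
    rw [mul_pow]; field_simp
  rw [h1]
  refine mul_le_mul_of_nonneg_right ?_ hε
  calc (Fintype.card σ : ℝ) ^ g ≤ ((Fintype.card σ : ℝ) + 1) ^ g := by gcongr; linarith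
    _ ≤ _ := pow_le_pow_right₀ (by simp) (Nat.lt_succ_iff.1 (mem_range.1 hg))

/-- division by a linear form, real version -/
theorem bd_div {δ r : ℝ} {N : ℕ} {w : σ → ℤ} {g : MvPolynomial σ ℝ} (hr : 0 < r)
    (hw : ∃ k, r ≤ |(w k : ℝ)|) (hN : g.totalDegree ≤ N) (h : Bd δ (lin ℝ w * g)) :
    Bd ((Fintype.card σ + 1) ^ (N + 1) * (δ / r)) g := by
  obtain ⟨k1, hk1⟩ := hw
  obtain ⟨k0, -, hk0⟩ := exists_max_image univ (fun k => |(w k : ℝ)|) ⟨k1, mem_univ _⟩
  have hr0 : r ≤ |(w k0 : ℝ)| := hk1.trans (hk0 k1 (mem_univ _))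
  have hδ := h.nonneg
  have hpos : 0 < |(w k0 : ℝ)| := hr.trans_le hr0
  set d : ℝ := ((Fintype.card σ : ℕ) : ℝ) with hd
  have hd0 : 0 ≤ d := Nat.cast_nonneg _
  have key : ∀ j : ℕ, ∀ β : σ →₀ ℕ, N + 1 ≤ β k0 + j → |coeff β g| ≤ (d + 1) ^ j * (δ / r) := by
    intro j
    induction j with
    | zero =>
      intro β hβ
      have : coeff β g = 0 := by
        by_contra hne
        have h1 := monomial_le_degreeOf k0 (mem_support_iff.2 hne)
        have h2 := degreeOf_le_totalDegree g k0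
        omega
      rw [this]; simp; positivity
    | succ j ih =>
      intro β hβ
      set B := (d + 1) ^ j * (δ / r) with hB
      have hB0 : δ / r ≤ B := le_mul_of_one_le_left (by positivity) (one_le_pow₀ (by linarith))
      have hBpos : 0 ≤ B := le_trans (by positivity) hB0
      have h1 := h (β + Finsupp.single k0 1)
      rw [coeff_lin_mul, ← add_sum_erase _ _ (mem_univ k0), if_pos (by simp),
        add_tsub_cancel_right] at h1
      have h2 : |∑ k ∈ univ.erase k0, (w k : ℝ) * if k ∈ (β + Finsupp.single k0 1).support then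
          coeff (β + Finsupp.single k0 1 - Finsupp.single k 1) g else 0| ≤ d * (|(w k0 : ℝ)| * B) := by
        refine (abs_sum_le_sum_abs _ _).trans ?_
        calc _ ≤ ∑ _k ∈ univ.erase k0, |(w k0 : ℝ)| * B := sum_le_sum fun k hk => by
              rw [abs_mul]
              refine mul_le_mul (hk0 k (mem_univ _)) ?_ (abs_nonneg _) (abs_nonneg _)
              split_ifs
              · refine ih _ ?_
                have hne : k ≠ k0 := ne_of_mem_erase hk
                simp [hne]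
                omega
              · simpa using hBpos
          _ ≤ ∑ _k : σ, |(w k0 : ℝ)| * B :=
              sum_le_sum_of_subset_of_nonneg (erase_subset _ _) fun _ _ _ => by positivity
          _ = _ := by simp [hd]
      have h3 : |(w k0 : ℝ)| * |coeff β g| ≤ δ + d * (|(w k0 : ℝ)| * B) := by
        rw [← abs_mul]
        have := abs_sub ((w k0 : ℝ) * coeff β g + ∑ k ∈ univ.erase k0, (w k : ℝ) *
          if k ∈ (β + Finsupp.single k0 1).support then
          coeff (β + Finsupp.single k0 1 - Finsupp.single k 1) g else 0)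
          (∑ k ∈ univ.erase k0, (w k : ℝ) * if k ∈ (β + Finsupp.single k0 1).support then
          coeff (β + Finsupp.single k0 1 - Finsupp.single k 1) g else 0)
        rw [add_sub_cancel_right] at this
        linarith
      have h4 : δ ≤ |(w k0 : ℝ)| * B := by
        calc δ = r * (δ / r) := by field_simp
          _ ≤ _ := mul_le_mul hr0 hB0 (by positivity) (abs_nonneg _)
      have h5 : |(w k0 : ℝ)| * |coeff β g| ≤ |(w k0 : ℝ)| * ((d + 1) * B) := by nlinarith
      have h6 := le_of_mul_le_mul_left h5 hpos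
      rw [pow_succ', mul_assoc]
      exact h6
  exact fun β => key (N + 1) β (by omega)

theorem lin_ne_zero {A : Type} [CommRing A] {w : σ → ℤ} {k : σ} (h : (w k : A) ≠ 0) :
    lin A w ≠ 0 := fun h0 => h (by rw [← coeff_lin w k, h0, coeff_zero])

theorem newton_step {A : Type*} [CommRing A] (ρ : Polynomial A) (a : A) :
    ρ = Polynomial.C (ρ.eval a) + (Polynomial.X - Polynomial.C a) * (ρ /ₘ (Polynomial.X - Polynomial.C a)) := by
  rw [← Polynomial.modByMonic_X_sub_C_eq_C_eval, Polynomial.modByMonic_add_div]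

theorem newton_eval {A : Type*} [CommRing A] (ρ : Polynomial A) (a b : A) :
    (b - a) * (ρ /ₘ (Polynomial.X - Polynomial.C a)).eval b = ρ.eval b - ρ.eval a := by
  conv_rhs => rw [newton_step ρ a]
  simp

theorem newton_coeff_zero {A : Type*} [CommRing A] (ρ : Polynomial A) (a : A) :
    ρ.coeff 0 = ρ.eval a - a * (ρ /ₘ (Polynomial.X - Polynomial.C a)).coeff 0 := by
  conv_lhs => rw [newton_step ρ a]
  simp [sub_eq_add_neg]

theorem newton_coeff_succ {A : Type*} [CommRing A] (ρ : Polynomial A) (a : A) (g : ℕ) :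
    ρ.coeff (g + 1) = (ρ /ₘ (Polynomial.X - Polynomial.C a)).coeff g
      - a * (ρ /ₘ (Polynomial.X - Polynomial.C a)).coeff (g + 1) := by
  conv_lhs => rw [newton_step ρ a]
  rw [Polynomial.coeff_add, Polynomial.coeff_C_succ, zero_add, sub_mul, Polynomial.coeff_sub,
    Polynomial.coeff_X_mul, Polynomial.coeff_C_mul]

theorem newton_deg {A : Type*} [CommRing A] [Nontrivial A] (ρ : Polynomial A) (a : A) {n : ℕ}
    (h : ρ.natDegree ≤ n + 1) : (ρ /ₘ (Polynomial.X - Polynomial.C a)).natDegree ≤ n := by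
  rw [Polynomial.natDegree_divByMonic _ (Polynomial.monic_X_sub_C a), Polynomial.natDegree_X_sub_C]
  omega

/-- the constant of the real interpolation lemma -/
def cN (σ : Type) [Fintype σ] (N : ℕ) : ℝ := 2 * ((Fintype.card σ : ℝ) + 1) ^ (N + 2) + 1

omit [DecidableEq σ] in
theorem one_le_cN (N : ℕ) : 1 ≤ cN σ N := by
  unfold cN
  have : 0 ≤ 2 * ((Fintype.card σ : ℝ) + 1) ^ (N + 2) := by positivity
  linarith

/-- **Newton interpolation, real version** -/
theorem newton_real {V θ : ℝ} (hV : 0 < V) (hθ : 0 < θ) (hθ1 : θ ≤ 1) (N n : ℕ) :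
    ∀ (δ : ℝ) (ρ : Polynomial (MvPolynomial σ ℝ)) (v : Fin (n + 1) → σ → ℤ), ρ.natDegree ≤ n →
      (∀ a k, |(v a k : ℝ)| ≤ V) → (∀ a b, a ≠ b → ∃ k, θ * V ≤ |(((v a - v b) k : ℤ) : ℝ)|) →
      (∀ a, (ρ.eval (lin ℝ (v a))).totalDegree ≤ N) → (∀ a, Bd δ (ρ.eval (lin ℝ (v a)))) →
      ∀ g, Bd ((cN σ N / θ) ^ n * δ / V ^ g) (ρ.coeff g) := by
  induction n with
  | zero =>
    intro δ ρ v hρ _ _ _ hb g
    have h0 := hb 0
    rw [Polynomial.eq_C_of_natDegree_le_zero hρ] at h0 ⊢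
    rw [Polynomial.eval_C] at h0
    cases g with
    | zero => simpa using h0
    | succ g =>
      rw [Polynomial.coeff_C_succ]
      have := h0.nonneg
      exact Bd.zero (by positivity)
  | succ n ih =>
    intro δ ρ v hρ hv hsep hdeg hb g
    have hδ := (hb 0).nonneg
    set d : ℝ := ((Fintype.card σ : ℕ) : ℝ) with hd
    have hd0 : 0 ≤ d := Nat.cast_nonneg _
    set a0 := lin ℝ (v 0) with ha0
    set ρ1 := ρ /ₘ (Polynomial.X - Polynomial.C a0) with hρ1
    have hev : ∀ a : Fin (n + 1), lin ℝ (v a.succ - v 0) * ρ1.eval (lin ℝ (v a.succ))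
        = ρ.eval (lin ℝ (v a.succ)) - ρ.eval a0 := fun a => by
      rw [lin_sub]; exact newton_eval ρ _ _
    have hθV : 0 < θ * V := by positivity
    have hdeg1 : ∀ a : Fin (n + 1), (ρ1.eval (lin ℝ (v a.succ))).totalDegree ≤ N := fun a => by
      by_cases h0 : ρ1.eval (lin ℝ (v a.succ)) = 0
      · rw [h0]; simp
      obtain ⟨k, hk⟩ := hsep a.succ 0 (Fin.succ_ne_zero a)
      have hne : lin ℝ (v a.succ - v 0) ≠ 0 := lin_ne_zero (k := k) (by
        intro h; rw [h, abs_zero] at hk; linarith)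
      have h1 := totalDegree_mul_of_isDomain hne h0
      rw [hev a] at h1
      have h2 := totalDegree_sub (ρ.eval (lin ℝ (v a.succ))) (ρ.eval a0)
      have h3 := max_le (hdeg a.succ) (hdeg 0)
      rw [← ha0] at h3
      omega
    set δ1 := (d + 1) ^ (N + 1) * ((δ + δ) / (θ * V)) with hδ1
    have hb1 : ∀ a : Fin (n + 1), Bd δ1 (ρ1.eval (lin ℝ (v a.succ))) := fun a =>
      bd_div hθV (hsep a.succ 0 (Fin.succ_ne_zero a)) (hdeg1 a)
        (by rw [hev a]; exact (hb a.succ).sub (hb 0))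
    have h1 := ih δ1 ρ1 (fun a => v a.succ) (newton_deg ρ a0 hρ) (fun a k => hv _ k)
      (fun a b hab => hsep _ _ fun h => hab (Fin.succ_injective _ h)) hdeg1 hb1
    set T := (cN σ N / θ) ^ n with hT
    have hc1 : 1 ≤ cN σ N / θ := by
      rw [le_div_iff₀ hθ]; linarith [one_le_cN (σ := σ) N]
    have hT1 : 1 ≤ T := one_le_pow₀ hc1
    set u := (d + 1) ^ (N + 1) with hu
    have hu0 : 0 ≤ u := by positivity
    have hcN : cN σ N = 2 * (u * (d + 1)) + 1 := by rw [cN, pow_succ]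
    cases g with
    | zero =>
      rw [newton_coeff_zero ρ a0]
      refine ((hb 0).sub ((h1 0).lin_mul (hv 0))).mono ?_
      rw [pow_succ, ← hT, hδ1, hcN, ← hd]
      have e1 : d * V * (T * (u * ((δ + δ) / (θ * V))) / V ^ 0) = T * (2 * (u * d)) * δ / θ := by
        field_simp; ring
      have e2 : T * ((2 * (u * (d + 1)) + 1) / θ) * δ / V ^ 0
          = T * (2 * (u * d)) * δ / θ + T * (2 * u) * δ / θ + T * δ / θ := by
        field_simp
      rw [e1, e2]
      have e3 : δ ≤ T * δ / θ := by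
        rw [le_div_iff₀ hθ]; nlinarith
      have e4 : 0 ≤ T * (2 * u) * δ / θ := by positivity
      linarith
    | succ g =>
      rw [newton_coeff_succ ρ a0]
      refine ((h1 g).sub ((h1 (g + 1)).lin_mul (hv 0))).mono ?_
      rw [pow_succ (cN σ N / θ), ← hT, hδ1, hcN, ← hd]
      have e1 : T * (u * ((δ + δ) / (θ * V))) / V ^ g
          + d * V * (T * (u * ((δ + δ) / (θ * V))) / V ^ (g + 1))
          = T * (2 * (u * (d + 1))) * δ / θ / V ^ (g + 1) := by
        field_simp; ring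
      have e2 : T * ((2 * (u * (d + 1)) + 1) / θ) * δ / V ^ (g + 1)
          = T * (2 * (u * (d + 1))) * δ / θ / V ^ (g + 1) + T * δ / θ / V ^ (g + 1) := by
        field_simp
      rw [e1, e2]
      have e4 : 0 ≤ T * δ / θ / V ^ (g + 1) := by positivity
      linarith

/-- primitive integer vectors -/
def Prim (w : σ → ℤ) : Prop := ∀ p : ℕ, p.Prime → ∃ k, ¬ (p : ℤ) ∣ w k

/-- Gauss's lemma for a primitive linear form -/
theorem dvd_of_prim {w : σ → ℤ} (hw : Prim w) (Q : ℕ) (hQ : Q ≠ 0) :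
    ∀ g : MvPolynomial σ ℤ, C (Q : ℤ) ∣ lin ℤ w * g → C (Q : ℤ) ∣ g := by
  induction Q using Nat.recOnMul with
  | zero => exact absurd rfl hQ
  | one => intro g _; simp
  | prime p hp =>
    intro g h
    have := Fact.mk hp
    rw [C_dvd_iff_zmod] at h ⊢
    rw [map_mul, map_lin] at h
    obtain ⟨k, hk⟩ := hw p hp
    refine (mul_eq_zero.1 h).resolve_left (lin_ne_zero (k := k) ?_)
    rwa [Ne, ZMod.intCast_zmod_eq_zero_iff_dvd]
  | mul a b iha ihb =>
    intro g h
    have ha : a ≠ 0 := left_ne_zero_of_mul hQ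
    have hb : b ≠ 0 := right_ne_zero_of_mul hQ
    rw [Nat.cast_mul, C_mul] at h ⊢
    obtain ⟨g1, rfl⟩ := iha ha g ((dvd_mul_right _ _).trans h)
    have hC : (C (a : ℤ) : MvPolynomial σ ℤ) ≠ 0 := by
      rw [Ne, C_eq_zero]; exact_mod_cast ha
    rw [mul_left_comm, mul_dvd_mul_iff_left hC] at h
    exact mul_dvd_mul_left _ (ihb hb g1 h)

/-- the difference has content at most `G` -/
def Cont (G : ℕ) (u : σ → ℤ) : Prop := ∃ c : ℕ, 1 ≤ c ∧ c ≤ G ∧ ∃ w, Prim w ∧ u = (c : ℤ) • w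

/-- **Newton interpolation, integer version** -/
theorem newton_int {G : ℕ} (hG : 1 ≤ G) (n : ℕ) :
    ∀ (v : Fin (n + 1) → σ → ℤ), (∀ a b, a ≠ b → Cont G (v a - v b)) →
      ∃ c : ℕ, 1 ≤ c ∧ c ≤ G ^ (n ^ 2) ∧ ∀ (Q : ℕ) (ρ : Polynomial (MvPolynomial σ ℤ)), Q ≠ 0 →
        ρ.natDegree ≤ n → (∀ a, C (Q : ℤ) ∣ ρ.eval (lin ℤ (v a))) →
        ∀ g, C (Q : ℤ) ∣ C (c : ℤ) * ρ.coeff g := by
  induction n with
  | zero =>
    intro v _
    refine ⟨1, le_rfl, by simp, fun Q ρ _ hρ hb g => ?_⟩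
    have h0 := hb 0
    rw [Polynomial.eq_C_of_natDegree_le_zero hρ] at h0 ⊢
    rw [Polynomial.eval_C] at h0
    cases g with
    | zero => simpa using h0
    | succ g => rw [Polynomial.coeff_C_succ]; simp
  | succ n ih =>
    intro v hv
    obtain ⟨c2, h21, h22, h2⟩ := ih (fun a => v a.succ)
      (fun a b hab => hv _ _ fun h => hab (Fin.succ_injective _ h))
    choose c hc1 hcG w hw hvw using fun a : Fin (n + 1) => hv a.succ 0 (Fin.succ_ne_zero a)
    refine ⟨c2 * ∏ a, c a, Nat.mul_pos h21 (one_le_prod' fun a _ => hc1 a), ?_,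
      fun Q ρ hQ hρ hb g => ?_⟩
    · calc c2 * ∏ a, c a ≤ G ^ (n ^ 2) * G ^ (n + 1) := by
            refine Nat.mul_le_mul h22 ?_
            simpa using prod_le_pow_card univ c G fun a _ => hcG a
        _ = G ^ (n ^ 2 + (n + 1)) := by rw [← pow_add]
        _ ≤ _ := Nat.pow_le_pow_right hG (by nlinarith)
    set a0 := lin ℤ (v 0) with ha0
    set ρ1 := ρ /ₘ (Polynomial.X - Polynomial.C a0) with hρ1
    have h3 := h2 Q (Polynomial.C (C ((∏ a, c a : ℕ) : ℤ)) * ρ1) hQ
      ((Polynomial.natDegree_C_mul_le _ _).trans (newton_deg ρ a0 hρ)) (fun a => by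
        have e1 : lin ℤ (v a.succ - v 0) * ρ1.eval (lin ℤ (v a.succ))
            = ρ.eval (lin ℤ (v a.succ)) - ρ.eval a0 := by
          rw [lin_sub]; exact newton_eval ρ _ _
        have e2 : C (Q : ℤ) ∣ lin ℤ (w a) * (C (c a : ℤ) * ρ1.eval (lin ℤ (v a.succ))) := by
          have e3 := dvd_sub (hb a.succ) (hb 0)
          rw [← ha0, ← e1, hvw a, lin_smul] at e3
          rw [mul_left_comm, ← mul_assoc]
          simpa using e3
        have e4 := dvd_of_prim (hw a) Q hQ _ e2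
        obtain ⟨t, ht⟩ : c a ∣ ∏ a, c a := dvd_prod_of_mem c (mem_univ a)
        rw [Polynomial.eval_mul, Polynomial.eval_C, ht, Nat.cast_mul, C_mul, mul_right_comm]
        exact e4.mul_right _)
    simp only [Polynomial.coeff_C_mul, ← mul_assoc, ← C_mul, ← Nat.cast_mul] at h3
    cases g with
    | zero =>
      rw [newton_coeff_zero ρ a0, mul_sub, mul_left_comm]
      exact dvd_sub ((hb 0).mul_left _) ((h3 0).mul_left _)
    | succ g =>
      rw [newton_coeff_succ ρ a0, mul_sub, mul_left_comm]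
      exact dvd_sub (h3 g) ((h3 (g + 1)).mul_left _)

end Crest.Agent.T49.Zm
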