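import Crest.Agent.T49.ZmAlg_3

/-!
# Row 49 (helper3): zoom-in, counting part.
A dense subset of a box contains `n+1` points whose differences are long and have small content.
-/

set_option autoImplicit false

noncomputable section

namespace Crest.Agent.T49.Zm

open Finset

theorem greedy {α : Type*} (S : Finset α) (good : α → α → Prop)
    (hsymm : ∀ a b, good a b → good b a) (B : ℝ) (hB0 : 0 ≤ B)
    (hB : ∀ a ∈ S, ∀ T ⊆ S, (∀ b ∈ T, ¬ good a b) → (T.card : ℝ) ≤ B) (n : ℕ) :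
    (n : ℝ) * B < S.card →
      ∃ v : Fin (n + 1) → α, (∀ a, v a ∈ S) ∧ ∀ a b, a ≠ b → good (v a) (v b) := by
  classical
  induction n with
  | zero =>
    intro h
    have : S.Nonempty := card_pos.1 (by simpa using h)
    obtain ⟨x, hx⟩ := this
    exact ⟨fun _ => x, fun _ => hx, fun a b hab => absurd (Subsingleton.elim (α := Fin 1) a b) hab⟩
  | succ n ih =>
    intro h
    obtain ⟨v, hvS, hv⟩ := ih (lt_of_le_of_lt (by push_cast at *; nlinarith) h)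
    have h1 : ((univ.biUnion fun a => S.filter fun b => ¬ good (v a) b).card : ℝ) < S.card := by
      refine lt_of_le_of_lt ?_ h
      calc _ ≤ ((∑ a, (S.filter fun b => ¬ good (v a) b).card : ℕ) : ℝ) := by
            exact_mod_cast card_biUnion_le
        _ ≤ ∑ _a : Fin (n + 1), B := by
            push_cast
            exact sum_le_sum fun a _ => hB _ (hvS a) _ (filter_subset _ _)
              fun b hb => (mem_filter.1 hb).2
        _ = _ := by simp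
    obtain ⟨x, hxS, hx⟩ := exists_mem_notMem_of_card_lt_card (Nat.cast_lt.1 h1)
    have hx' : ∀ a, good (v a) x := fun a => by
      by_contra hn
      exact hx (mem_biUnion.2 ⟨a, mem_univ _, mem_filter.2 ⟨hxS, hn⟩⟩)
    refine ⟨Fin.cons x v, fun a => ?_, fun a b hab => ?_⟩
    · cases a using Fin.cases with
      | zero => exact hxS
      | succ a => exact hvS a
    · cases a using Fin.cases with
      | zero =>
        cases b using Fin.cases with
        | zero => exact absurd rfl hab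
        | succ b => exact hsymm _ _ (hx' b)
      | succ a =>
        cases b using Fin.cases with
        | zero => exact hx' a
        | succ b => exact hv a b fun h => hab (by rw [h])

theorem card_dvd_le (V g : ℕ) (hg : 1 ≤ g) (x : ℤ) :
    (((Ico (0 : ℤ) V).filter fun w => (g : ℤ) ∣ x - w).card : ℝ) ≤ V / g + 1 := by
  have hg0 : (0 : ℤ) < g := by exact_mod_cast hg
  have h1 : ((Ico (0 : ℤ) V).filter fun w => (g : ℤ) ∣ x - w).card
      ≤ (Icc (0 : ℤ) ((V / g : ℕ) : ℤ)).card := by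
    refine card_le_card_of_injOn (fun w => w / g) (fun w hw => ?_) fun w hw w' hw' h => ?_
    · have hw := mem_Ico.1 (mem_filter.1 (mem_coe.1 hw)).1
      refine mem_coe.2 (mem_Icc.2 ⟨Int.ediv_nonneg hw.1 hg0.le, ?_⟩)
      push_cast
      exact Int.ediv_le_ediv hg0 hw.2.le
    · have h1 := (mem_filter.1 (mem_coe.1 hw)).2
      have h2 := (mem_filter.1 (mem_coe.1 hw')).2
      have h3 : (g : ℤ) ∣ w' - w := by
        have := dvd_sub h1 h2
        rwa [show x - w - (x - w') = w' - w by ring] at this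
      have h4 : w % g = w' % g := Int.modEq_iff_dvd.2 h3
      have h5 : w / g = w' / g := h
      rw [← Int.emod_add_mul_ediv w g, ← Int.emod_add_mul_ediv w' g, h4, h5]
  have h2 : (Icc (0 : ℤ) ((V / g : ℕ) : ℤ)).card = V / g + 1 := by
    rw [Int.card_Icc]; generalize V / g = t; omega
  rw [h2] at h1
  calc _ ≤ ((V / g + 1 : ℕ) : ℝ) := by exact_mod_cast h1
    _ ≤ _ := by
      push_cast
      gcongr
      exact Nat.cast_div_le

theorem card_close_le (T : Finset ℤ) {r : ℝ} (hr : 1 ≤ r) (x : ℤ)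
    (h : ∀ w ∈ T, |((x - w : ℤ) : ℝ)| < r) : (T.card : ℝ) ≤ 3 * r := by
  have h0 : 0 ≤ ⌊r⌋ := Int.floor_nonneg.2 (by linarith)
  have h1 : T ⊆ Icc (x - ⌊r⌋) (x + ⌊r⌋) := fun w hw => by
    have h2 : |x - w| ≤ ⌊r⌋ := Int.le_floor.2 (by exact_mod_cast (h w hw).le)
    rw [abs_le] at h2
    exact mem_Icc.2 ⟨by omega, by omega⟩
  have h2 : ((Icc (x - ⌊r⌋) (x + ⌊r⌋)).card : ℤ) = 2 * ⌊r⌋ + 1 := by
    rw [Int.card_Icc]; omega
  have h3 : (T.card : ℤ) ≤ 2 * ⌊r⌋ + 1 := by rw [← h2]; exact_mod_cast card_le_card h1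
  have h4 : (T.card : ℝ) ≤ 2 * (⌊r⌋ : ℝ) + 1 := by exact_mod_cast h3
  linarith [Int.floor_le r]

theorem cube_le {V g : ℕ} (hV : 4 ≤ V) (hg : 2 ≤ g) (hgV : g ≤ V) :
    ((V : ℝ) / g + 1) ^ 3 ≤ (V : ℝ) ^ 3 / g ∧ (V : ℝ) / g + 1 ≤ V := by
  have hV' : (4 : ℝ) ≤ V := by exact_mod_cast hV
  have hg' : (2 : ℝ) ≤ g := by exact_mod_cast hg
  have hgV' : (g : ℝ) ≤ V := by exact_mod_cast hgV
  have h2 : (V : ℝ) / g ≤ V / 2 := by gcongr
  refine ⟨?_, by linarith⟩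
  rcases hg.eq_or_lt with rfl | hg3
  · have : (V : ℝ) / (2 : ℕ) + 1 ≤ 3 / 4 * V := by push_cast; linarith
    calc _ ≤ (3 / 4 * (V : ℝ)) ^ 3 := by gcongr
      _ ≤ _ := by push_cast; nlinarith [pow_pos (show (0 : ℝ) < V by linarith) 3]
  · have hg3' : (3 : ℝ) ≤ g := by exact_mod_cast hg3
    have h1 : (1 : ℝ) ≤ V / g := by rw [le_div_iff₀ (by linarith)]; linarith
    calc _ ≤ (2 * ((V : ℝ) / g)) ^ 3 := by gcongr; linarith
      _ = (V : ℝ) ^ 3 / g * (8 / (g : ℝ) ^ 2) := by field_simp; norm_num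
      _ ≤ (V : ℝ) ^ 3 / g * 1 := by
          gcongr
          rw [div_le_one (by positivity)]; nlinarith
      _ = _ := mul_one _

variable {σ : Type} [Fintype σ] [DecidableEq σ]

/-- the box `[0,V)^σ` -/
def bx (σ : Type) [Fintype σ] [DecidableEq σ] (V : ℕ) : Finset (σ → ℤ) :=
  Fintype.piFinset fun _ => Ico (0 : ℤ) V

theorem mem_bx {V : ℕ} {v : σ → ℤ} : v ∈ bx σ V ↔ ∀ k, 0 ≤ v k ∧ v k < V := by
  simp [bx]

theorem card_bx (V : ℕ) : (bx σ V).card = V ^ Fintype.card σ := by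
  simp [bx]

theorem abs_le_of_mem_bx {V : ℕ} {v : σ → ℤ} (h : v ∈ bx σ V) (k : σ) : |(v k : ℝ)| ≤ V := by
  have := mem_bx.1 h k
  have h2 : |v k| ≤ V := abs_le.2 ⟨by omega, by omega⟩
  exact_mod_cast h2

theorem card_le_pow (T : Finset (σ → ℤ)) (U : σ → Finset ℤ) {x : ℝ}
    (hT : ∀ w ∈ T, ∀ k, w k ∈ U k) (hU : ∀ k, ((U k).card : ℝ) ≤ x) :
    (T.card : ℝ) ≤ x ^ Fintype.card σ := by
  have h1 : T ⊆ Fintype.piFinset U := fun w hw => Fintype.mem_piFinset.2 (hT w hw)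
  calc (T.card : ℝ) ≤ ((Fintype.piFinset U).card : ℝ) := by exact_mod_cast card_le_card h1
    _ = ∏ k, ((U k).card : ℝ) := by rw [Fintype.card_piFinset]; push_cast; rfl
    _ ≤ ∏ _k : σ, x := prod_le_prod (fun _ _ => by positivity) fun k _ => hU k
    _ = _ := by simp

omit [DecidableEq σ] in
theorem exists_content {u : σ → ℤ} {k0 : σ} (h : u k0 ≠ 0) :
    ∃ c : ℕ, 1 ≤ c ∧ (∀ k, (c : ℤ) ∣ u k) ∧ ∃ w, Prim w ∧ u = (c : ℤ) • w := by
  obtain ⟨w, hw, hw1⟩ := Finset.extract_gcd (s := univ) u ⟨k0, mem_univ _⟩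
  set c := univ.gcd u with hc
  have hc0 : c ≠ 0 := fun h0 => h (by rw [hw k0 (mem_univ _), h0, zero_mul])
  refine ⟨c.natAbs, Int.natAbs_pos.2 hc0, fun k => Int.natAbs_dvd.2 (gcd_dvd (mem_univ k)),
    c.sign • w, fun p hp => ?_, ?_⟩
  · by_contra hn
    push Not at hn
    have h1 : (p : ℤ) ∣ univ.gcd w := dvd_gcd fun k _ => by
      have h2 := hn k
      have h3 : w k = c.sign * (c.sign * w k) := by
        rw [← mul_assoc, ← Int.sign_mul, Int.sign_eq_one_of_pos (mul_self_pos.2 hc0), one_mul]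
      rw [h3]
      exact Dvd.dvd.mul_left h2 _
    rw [hw1] at h1
    exact hp.one_lt.ne' (by exact_mod_cast Int.eq_one_of_dvd_one (by positivity) h1)
  · funext k
    rw [hw k (mem_univ _)]
    simp only [Pi.smul_apply, smul_eq_mul]
    rw [← mul_assoc, mul_comm ((c.natAbs : ℕ) : ℤ), Int.sign_mul_natAbs]

omit [Fintype σ] [DecidableEq σ] in
theorem Cont.neg {G : ℕ} {u : σ → ℤ} (h : Cont G u) : Cont G (-u) := by
  obtain ⟨c, h1, h2, w, hw, rfl⟩ := h
  refine ⟨c, h1, h2, -w, fun p hp => ?_, by simp⟩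
  obtain ⟨k, hk⟩ := hw p hp
  exact ⟨k, by simpa using hk⟩

/-- long difference with small content -/
def Gd (r : ℝ) (G : ℕ) (v w : σ → ℤ) : Prop :=
  (∃ k, r ≤ |(((v - w) k : ℤ) : ℝ)|) ∧ Cont G (v - w)

omit [Fintype σ] [DecidableEq σ] in
theorem Gd.symm {r : ℝ} {G : ℕ} {v w : σ → ℤ} (h : Gd r G v w) : Gd r G w v := by
  obtain ⟨⟨k, hk⟩, h2⟩ := h
  refine ⟨⟨k, ?_⟩, by simpa using h2.neg⟩
  simp only [Pi.sub_apply, Int.cast_sub] at hk ⊢
  rwa [abs_sub_comm]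

theorem card_bad {V G K : ℕ} {r : ℝ} (hV : 4 ≤ V) (hG : 1 ≤ G) (hK : 3 * (K + 2) ≤ Fintype.card σ)
    (hr : 1 ≤ r) {v : σ → ℤ} (hv : v ∈ bx σ V) (T : Finset (σ → ℤ)) (hT : T ⊆ bx σ V)
    (h : ∀ w ∈ T, ¬ Gd r G v w) :
    (T.card : ℝ) ≤ (3 * r) ^ Fintype.card σ + (V : ℝ) ^ Fintype.card σ / ((G : ℝ) + 1) ^ K := by
  classical
  set T1 := T.filter fun w => ∀ k, |((v k - w k : ℤ) : ℝ)| < r with hT1
  set T2 : ℕ → Finset (σ → ℤ) := fun g => T.filter fun w => ∀ k, (g : ℤ) ∣ v k - w k with hT2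
  have hsub : T ⊆ T1 ∪ (Ioc G V).biUnion T2 := by
    intro w hw
    by_cases h1 : ∀ k, |((v k - w k : ℤ) : ℝ)| < r
    · exact mem_union_left _ (mem_filter.2 ⟨hw, h1⟩)
    push Not at h1
    obtain ⟨k0, hk0⟩ := h1
    have hne : (v - w) k0 ≠ 0 := by
      intro h0
      rw [Pi.sub_apply] at h0
      rw [h0] at hk0
      simp at hk0; linarith
    obtain ⟨c, hc1, hc2, w', hw', e⟩ := exists_content hne
    refine mem_union_right _ (mem_biUnion.2 ⟨c, mem_Ioc.2 ⟨?_, ?_⟩, mem_filter.2 ⟨hw, hc2⟩⟩)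
    · by_contra hn
      exact h w hw ⟨⟨k0, hk0⟩, c, hc1, by omega, w', hw', e⟩
    · have h2 := Int.le_of_dvd (abs_pos.2 hne) ((dvd_abs _ _).2 (hc2 k0))
      have h3 := mem_bx.1 hv k0
      have h4 := mem_bx.1 (hT hw) k0
      rw [Pi.sub_apply] at h2
      have h5 : |v k0 - w k0| ≤ V := abs_le.2 ⟨by omega, by omega⟩
      omega
  have h1 : (T1.card : ℝ) ≤ (3 * r) ^ Fintype.card σ :=
    card_le_pow T1 (fun k => T1.image fun w => w k) (fun w hw k => mem_image_of_mem _ hw)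
      fun k => card_close_le _ hr (v k) fun x hx => by
        obtain ⟨w, hw, rfl⟩ := mem_image.1 hx
        exact (mem_filter.1 hw).2 k
  have h2 : ∀ g ∈ Ioc G V, ((T2 g).card : ℝ)
      ≤ (V : ℝ) ^ Fintype.card σ / ((G : ℝ) + 1) ^ K * ((g : ℝ) ^ 2)⁻¹ := by
    intro g hg
    obtain ⟨hg1, hg2⟩ := mem_Ioc.1 hg
    obtain ⟨c1, c2⟩ := cube_le hV (show 2 ≤ g by omega) hg2
    have hg0 : (0 : ℝ) < g := by exact_mod_cast (show 0 < g by omega)
    have hGg : (G : ℝ) + 1 ≤ g := by exact_mod_cast hg1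
    have h3 : ((T2 g).card : ℝ) ≤ ((V : ℝ) / g + 1) ^ Fintype.card σ :=
      card_le_pow (T2 g) (fun k => (Ico (0 : ℤ) V).filter fun w => (g : ℤ) ∣ v k - w)
        (fun w hw k => mem_filter.2 ⟨mem_Ico.2 (mem_bx.1 (hT (mem_filter.1 hw).1) k),
          (mem_filter.1 hw).2 k⟩) fun k => card_dvd_le V g (by omega) _
    obtain ⟨t, ht⟩ := Nat.exists_eq_add_of_le hK
    rw [ht] at h3 ⊢
    calc _ ≤ _ := h3
      _ = (((V : ℝ) / g + 1) ^ 3) ^ (K + 2) * ((V : ℝ) / g + 1) ^ t := by rw [pow_add, pow_mul]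
      _ ≤ ((V : ℝ) ^ 3 / g) ^ (K + 2) * (V : ℝ) ^ t := by gcongr
      _ = (V : ℝ) ^ (3 * (K + 2) + t) / (g : ℝ) ^ K * ((g : ℝ) ^ 2)⁻¹ := by
          rw [div_pow, ← pow_mul, pow_add (V : ℝ), pow_add (g : ℝ)]; field_simp
      _ ≤ _ := by gcongr
  have h3 : ∑ g ∈ Ioc G V, ((g : ℝ) ^ 2)⁻¹ ≤ 1 := by
    by_cases hGV : G ≤ V
    · refine (sum_Ioc_inv_sq_le_sub (α := ℝ) (by omega) hGV).trans ?_
      have : (G : ℝ)⁻¹ ≤ 1 := inv_le_one_of_one_le₀ (by exact_mod_cast hG)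
      have : (0 : ℝ) ≤ (V : ℝ)⁻¹ := by positivity
      linarith
    · rw [Ioc_eq_empty (by omega)]; simp
  calc (T.card : ℝ) ≤ ((T1.card + ∑ g ∈ Ioc G V, (T2 g).card : ℕ) : ℝ) := by
        exact_mod_cast (card_le_card hsub).trans
          ((card_union_le _ _).trans (Nat.add_le_add_left card_biUnion_le _))
    _ ≤ (3 * r) ^ Fintype.card σ + ∑ g ∈ Ioc G V,
          (V : ℝ) ^ Fintype.card σ / ((G : ℝ) + 1) ^ K * ((g : ℝ) ^ 2)⁻¹ := by
        push_cast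
        exact add_le_add h1 (sum_le_sum h2)
    _ ≤ _ := by
        rw [← mul_sum]
        gcongr
        exact mul_le_of_le_one_right (by positivity) h3

/-- the scale `θ_j = 2^{-(j+1)}/3` -/
def th (j : ℕ) : ℝ := 1 / (3 * 2 ^ (j + 1))

theorem th_pos (j : ℕ) : 0 < th j := by unfold th; positivity

theorem th_le_one (j : ℕ) : th j ≤ 1 := by
  unfold th
  rw [div_le_one (by positivity)]
  have : (1 : ℝ) ≤ 2 ^ (j + 1) := one_le_pow₀ (by norm_num)
  linarith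

/-- **selection of good interpolation nodes** -/
theorem exists_nodes {V K : ℕ} (n j : ℕ) (hK : 3 * (K + 2) ≤ Fintype.card σ)
    (hV : 3 * 2 ^ (j + 1) ≤ (V : ℝ)) (S : Finset (σ → ℤ)) (hS : S ⊆ bx σ V)
    (h : 2 * n / 2 ^ ((j + 1) * K) * (V : ℝ) ^ Fintype.card σ < S.card) :
    ∃ v : Fin (n + 1) → σ → ℤ, (∀ a, v a ∈ S) ∧
      ∀ a b, a ≠ b → Gd (th j * V) (2 ^ (j + 1) - 1) (v a) (v b) := by
  have h2 : (2 : ℝ) ≤ 2 ^ (j + 1) := le_self_pow₀ (by norm_num) (by omega)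
  have h2' : 2 ≤ 2 ^ (j + 1) := by exact_mod_cast h2
  have hV4 : 4 ≤ V := by
    have : (4 : ℝ) ≤ V := by linarith
    exact_mod_cast this
  have hr : 1 ≤ th j * V := by
    unfold th
    rw [div_mul_eq_mul_div, le_div_iff₀ (by positivity)]; linarith
  refine greedy S (Gd (th j * V) (2 ^ (j + 1) - 1)) (fun a b => Gd.symm)
    (2 / 2 ^ ((j + 1) * K) * (V : ℝ) ^ Fintype.card σ) (by positivity)
    (fun a ha T hT hb => ?_) n (lt_of_eq_of_lt (by ring) h)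
  refine (card_bad hV4 (by omega) hK hr (hS ha) T (hT.trans hS) hb).trans ?_
  have e1 : (((2 ^ (j + 1) - 1 : ℕ) : ℝ) + 1) = 2 ^ (j + 1) := by
    rw [Nat.cast_sub (by omega)]; push_cast; ring
  have e2 : 3 * (th j * V) = V / 2 ^ (j + 1) := by unfold th; field_simp
  rw [e1, e2, div_pow, ← pow_mul, ← pow_mul]
  have e3 : (V : ℝ) ^ Fintype.card σ / 2 ^ ((j + 1) * Fintype.card σ)
      ≤ (V : ℝ) ^ Fintype.card σ / 2 ^ ((j + 1) * K) := by
    gcongr
    · norm_num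
    · omega
  calc _ ≤ (V : ℝ) ^ Fintype.card σ / 2 ^ ((j + 1) * K)
        + (V : ℝ) ^ Fintype.card σ / 2 ^ ((j + 1) * K) := by linarith
    _ = _ := by ring

end Crest.Agent.T49.Zm
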