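import Crest.Agent.T49.ZmCnt_3
import Crest.Agent.T49.Weyl3_14

/-!
# Row 49 (helper3): zoom-in, one pair of frames.
Agreement on the flag `B` and on the sheared flats `A(v)`; Weyl step and Lagrange step.
-/

set_option autoImplicit false

noncomputable section

namespace Crest.Agent.T49.Zm

open Finset MvPolynomial

variable {σ : Type} [Fintype σ] [DecidableEq σ]

/-- all coefficients are within `δ` of an integer -/
def Near (δ : ℝ) (P : MvPolynomial σ ℝ) : Prop := ∀ β, ∃ r : ℤ, |coeff β P - r| ≤ δ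

/-- integer polynomials as real polynomials -/
abbrev zr : MvPolynomial σ ℤ →+* MvPolynomial σ ℝ := map (Int.castRingHom ℝ)

section
omit [Fintype σ] [DecidableEq σ]

theorem Near.mono {δ δ' : ℝ} {P : MvPolynomial σ ℝ} (h : Near δ P) (hδ : δ ≤ δ') : Near δ' P :=
  fun β => (h β).imp fun _ hr => hr.trans hδ

theorem Near.nonneg {δ : ℝ} {P : MvPolynomial σ ℝ} (h : Near δ P) : 0 ≤ δ := by
  obtain ⟨r, hr⟩ := h 0
  exact (abs_nonneg _).trans hr

theorem near_of_bd {δ : ℝ} {P : MvPolynomial σ ℝ} (z : MvPolynomial σ ℤ) (h : Bd δ (P - zr z)) :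
    Near δ P := fun β => ⟨coeff β z, by simpa [coeff_map] using h β⟩

theorem Near.split {δ : ℝ} {P : MvPolynomial σ ℝ} (h : Near δ P) :
    ∃ z : MvPolynomial σ ℤ, (zr z).totalDegree ≤ P.totalDegree ∧ Bd δ (P - zr z) := by
  classical
  have h0 := h.nonneg
  choose r hr using h
  have hc : ∀ β, coeff β (∑ α ∈ P.support, monomial α (r α)) = if β ∈ P.support then r β else 0 := by
    intro β
    simp [coeff_sum, coeff_monomial]
  refine ⟨∑ α ∈ P.support, monomial α (r α), totalDegree_le_of_support_subset fun β hβ => ?_,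
    fun β => ?_⟩
  · by_contra hn
    rw [mem_support_iff, coeff_map, hc, if_neg hn] at hβ
    simp at hβ
  · rw [coeff_sub, coeff_map, hc]
    split_ifs with hβ
    · simpa using hr β
    · rw [notMem_support_iff.1 hβ]; simpa using h0

theorem eq_zero_of_bd {δ : ℝ} {z : MvPolynomial σ ℤ} (h : Bd δ (zr z)) (hδ : δ < 1) : z = 0 := by
  ext β
  have h1 := (h β).trans_lt hδ
  rw [coeff_map, eq_intCast] at h1
  have h2 : |coeff β z| < 1 := by exact_mod_cast h1
  simpa using Int.abs_lt_one_iff.1 h2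

end

/-- degree at most `i` in `y`, coefficients of total degree at most `i` in `s` -/
def Dg (i : ℕ) (ρ : Polynomial (MvPolynomial σ ℝ)) : Prop :=
  ρ.natDegree ≤ i ∧ ∀ g, (ρ.coeff g).totalDegree ≤ i

omit [Fintype σ] [DecidableEq σ] in
theorem Dg.smul {i : ℕ} {ρ : Polynomial (MvPolynomial σ ℝ)} (h : Dg i ρ) (c : ℝ) :
    Dg i (c • ρ) :=
  ⟨(Polynomial.natDegree_smul_le _ _).trans h.1, fun g => by
    rw [Polynomial.coeff_smul]; exact (totalDegree_smul_le _ _).trans (h.2 g)⟩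

omit [DecidableEq σ] in
theorem totalDegree_lin (A : Type) [CommRing A] (v : σ → ℤ) : (lin A v).totalDegree ≤ 1 :=
  totalDegree_finsetSum_le fun k _ => (totalDegree_mul _ _).trans (by
    rw [totalDegree_C, zero_add]; exact totalDegree_monomial_le _ _ |>.trans (by simp))

omit [DecidableEq σ] in
theorem Dg.eval {i : ℕ} {ρ : Polynomial (MvPolynomial σ ℝ)} (h : Dg i ρ) (v : σ → ℤ) :
    (ρ.eval (lin ℝ v)).totalDegree ≤ 2 * i := by
  rw [Polynomial.eval_eq_sum_range' (Nat.lt_succ_of_le h.1)]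
  refine totalDegree_finsetSum_le fun g hg => (totalDegree_mul _ _).trans ?_
  have h1 := h.2 g
  have h2 := (totalDegree_pow (lin ℝ v) g).trans (Nat.mul_le_mul_left g (totalDegree_lin ℝ v))
  have h3 := mem_range.1 hg
  omega

omit [Fintype σ] [DecidableEq σ] in
theorem split_y {i : ℕ} {δ : ℕ → ℝ} {ρ : Polynomial (MvPolynomial σ ℝ)} (hρ : ρ.natDegree ≤ i)
    (h : ∀ g, Near (δ g) (ρ.coeff g)) :
    ∃ r : Polynomial (MvPolynomial σ ℤ), r.natDegree ≤ i ∧
      ∀ g, Bd (δ g) ((ρ - r.map zr).coeff g) := by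
  choose z _ hz using fun g => (h g).split
  have hc : ∀ g, (∑ j ∈ range (i + 1), Polynomial.monomial j (z j)).coeff g
      = if g ∈ range (i + 1) then z g else 0 := by
    intro g
    simp [Polynomial.coeff_monomial]
  refine ⟨∑ j ∈ range (i + 1), Polynomial.monomial j (z j), ?_, fun g => ?_⟩
  · exact Polynomial.natDegree_sum_le_of_forall_le _ _ fun j hj =>
      (Polynomial.natDegree_monomial_le _).trans (Nat.lt_succ_iff.1 (mem_range.1 hj))
  · rw [Polynomial.coeff_sub, Polynomial.coeff_map, hc]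
    split_ifs with hg
    · exact hz g
    · rw [Polynomial.coeff_eq_zero_of_natDegree_lt (by rw [mem_range] at hg; omega)]
      simpa using Bd.zero (h g).nonneg

omit [DecidableEq σ] in
theorem eval_map_zr (r : Polynomial (MvPolynomial σ ℤ)) (v : σ → ℤ) :
    (r.map zr).eval (lin ℝ v) = zr (r.eval (lin ℤ v)) := by
  rw [← map_lin (Int.castRingHom ℝ) v, Polynomial.eval_map, Polynomial.eval₂_at_apply]

variable {κ : Type}

/-- agreement on the flag: the coefficient of `s^β y^g` is within `ε V^{-g}` of `ℤ` -/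
def AgB (V ε : ℝ) (ρ : κ → Polynomial (MvPolynomial σ ℝ)) : Prop :=
  ∀ c g, Near (ε / V ^ g) ((ρ c).coeff g)

/-- agreement on the sheared flat `y = s · v` -/
def AgA (ε : ℝ) (ρ : κ → Polynomial (MvPolynomial σ ℝ)) (v : σ → ℤ) : Prop :=
  ∀ c, Near ε ((ρ c).eval (lin ℝ v))

/-- multiplication of the labels by `q` -/
def sm (q : ℕ) (ρ : κ → Polynomial (MvPolynomial σ ℝ)) : κ → Polynomial (MvPolynomial σ ℝ) :=
  fun c => (q : ℝ) • ρ c

section
omit [Fintype σ] [DecidableEq σ]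

theorem sm_sm (a b : ℕ) (ρ : κ → Polynomial (MvPolynomial σ ℝ)) :
    sm a (sm b ρ) = sm (b * a) ρ := by
  funext c; simp [sm, smul_smul, mul_comm]

theorem AgB.mono {V ε ε' : ℝ} {ρ : κ → Polynomial (MvPolynomial σ ℝ)} (h : AgB V ε ρ)
    (hV : 0 ≤ V) (hε : ε ≤ ε') : AgB V ε' ρ := fun c g => (h c g).mono (by gcongr)

end

omit [DecidableEq σ] in
theorem AgA.mono {ε ε' : ℝ} {ρ : κ → Polynomial (MvPolynomial σ ℝ)} {v : σ → ℤ} (h : AgA ε ρ v)
    (hε : ε ≤ ε') : AgA ε' ρ v := fun c => (h c).mono hε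

/-- the constant of `AgB → AgA` -/
def c0 (σ : Type) [Fintype σ] (i : ℕ) : ℝ := (i + 1) * (Fintype.card σ + 1) ^ i

omit [DecidableEq σ] in
theorem one_le_c0 (i : ℕ) : 1 ≤ c0 σ i :=
  one_le_mul_of_one_le_of_one_le (by simp) (one_le_pow₀ (by simp))

theorem AgB.agA {i : ℕ} {V ε : ℝ} {ρ : κ → Polynomial (MvPolynomial σ ℝ)} (h : AgB V ε ρ)
    (hV : 0 < V) (hρ : ∀ c, (ρ c).natDegree ≤ i) {v : σ → ℤ} (hv : ∀ k, |(v k : ℝ)| ≤ V) :
    AgA (c0 σ i * ε) ρ v := fun c => by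
  obtain ⟨r, hr1, hr2⟩ := split_y (hρ c) (h c)
  have h1 := bd_eval (n := i) (ρ c - r.map zr) ((Polynomial.natDegree_sub_le _ _).trans
    (max_le (hρ c) (Polynomial.natDegree_map_le.trans hr1))) hV hr2 hv
  rw [Polynomial.eval_sub, eval_map_zr] at h1
  exact near_of_bd _ h1

/-- **Lagrange step** -/
theorem lagrange {i G : ℕ} {V θ : ℝ} (hG : 1 ≤ G) (hV : 0 < V) (hθ : 0 < θ) (hθ1 : θ ≤ 1)
    (v : Fin (i + 1) → σ → ℤ) (hv : ∀ a k, |(v a k : ℝ)| ≤ V)
    (hgd : ∀ a b, a ≠ b → Gd (θ * V) G (v a) (v b)) :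
    ∃ c : ℕ, 1 ≤ c ∧ c ≤ G ^ (i ^ 2) ∧ ∀ (Q : ℕ) (δ ε : ℝ) (ρ : κ → Polynomial (MvPolynomial σ ℝ)),
      (∀ c, Dg i (ρ c)) → 1 ≤ Q → AgB V δ (sm Q ρ) → Q * ε + c0 σ i * δ < 1 →
      (∀ a, AgA ε ρ (v a)) → AgB V (c * ((cN σ (2 * i) / θ) ^ i * ε)) (sm c ρ) := by
  obtain ⟨c, hc1, hc2, hc⟩ := newton_int hG i v fun a b hab => (hgd a b hab).2
  refine ⟨c, hc1, hc2, fun Q δ ε ρ hρ hQ hB hlt hA j => ?_⟩
  have hQ0 : (Q : ℝ) ≠ 0 := by positivity
  obtain ⟨r, hr1, hr2⟩ := split_y ((hρ j).smul Q).1 (hB j)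
  choose z hz1 hz2 using fun a => (hA a j).split
  have h1 : ∀ a, r.eval (lin ℤ (v a)) = C (Q : ℤ) * z a := fun a => by
    have h2 := bd_eval (n := i) ((Q : ℝ) • ρ j - r.map zr) ((Polynomial.natDegree_sub_le _ _).trans
      (max_le ((hρ j).smul Q).1 (Polynomial.natDegree_map_le.trans hr1))) hV hr2 (hv a)
    rw [Polynomial.eval_sub, eval_map_zr, Polynomial.eval_smul] at h2
    have h3 := ((hz2 a).smul (Nat.cast_nonneg Q)).sub h2
    refine sub_eq_zero.1 (eq_zero_of_bd (δ := Q * ε + c0 σ i * δ) ?_ hlt)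
    convert h3 using 1
    · rfl
    rw [map_sub, map_mul, map_C, smul_sub, smul_eq_C_mul (zr (z a))]
    simp
  have h4 := hc Q r (by omega) hr1 fun a => ⟨z a, h1 a⟩
  set s : Polynomial (MvPolynomial σ ℝ) := ρ j - (Q : ℝ)⁻¹ • r.map zr with hs
  have h5 : ∀ a, s.eval (lin ℝ (v a)) = (ρ j).eval (lin ℝ (v a)) - zr (z a) := fun a => by
    rw [hs, Polynomial.eval_sub, Polynomial.eval_smul, eval_map_zr, h1 a, map_mul, map_C,
      ← smul_eq_C_mul, smul_smul]
    simp [hQ0]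
  have h6 := newton_real hV hθ hθ1 (2 * i) i ε s v ((Polynomial.natDegree_sub_le _ _).trans
      (max_le (hρ j).1 ((Polynomial.natDegree_smul_le _ _).trans
        (Polynomial.natDegree_map_le.trans hr1)))) hv (fun a b hab => (hgd a b hab).1)
    (fun a => by
      rw [h5]
      exact (totalDegree_sub _ _).trans (max_le ((hρ j).eval _) ((hz1 a).trans ((hρ j).eval _))))
    (fun a => by rw [h5]; exact hz2 a)
  intro g
  obtain ⟨t, ht⟩ := h4 g
  refine near_of_bd t ?_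
  have h7 := (h6 g).smul (Nat.cast_nonneg c)
  rw [← mul_div_assoc] at h7
  convert h7 using 1
  have h8 : (c : ℝ) • zr (r.coeff g) = (Q : ℝ) • zr t := by
    have := congrArg zr ht
    rw [map_mul, map_mul, map_C, map_C, ← smul_eq_C_mul, ← smul_eq_C_mul] at this
    simpa using this
  rw [hs, sm, Polynomial.coeff_smul, Polynomial.coeff_sub, Polynomial.coeff_smul,
    Polynomial.coeff_map, smul_sub, smul_comm (c : ℝ) (Q : ℝ)⁻¹, h8, smul_smul,
    inv_mul_cancel₀ hQ0, one_smul]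

/-- the generic linear form (outer variables `v`, inner variables `s`) -/
def gl (σ : Type) [Fintype σ] : MvPolynomial σ (MvPolynomial σ ℝ) := ∑ k, C (X k) * X k

theorem coeff_gl_pow (k : σ) (g : ℕ) :
    ∀ n, coeff (Finsupp.single k n) (gl σ ^ g) = if n = g then X k ^ g else 0 := by
  induction g with
  | zero =>
    intro n
    rw [pow_zero, coeff_one]
    by_cases h : n = 0
    · simp [h]
    · rw [if_neg h, if_neg]
      intro h0
      exact h (by simpa using congrArg (fun f => f k) h0.symm)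
  | succ g ih =>
    intro n
    rw [pow_succ', gl, sum_mul, coeff_sum, sum_eq_single k]
    · rw [mul_assoc, coeff_C_mul, coeff_X_mul']
      cases n with
      | zero => simp
      | succ n =>
        rw [if_pos (by simp), ← Finsupp.single_tsub, add_tsub_cancel_right, ← gl, ih]
        by_cases h : n = g
        · simp [h, pow_succ']
        · simp [h]
    · intro j _ hj
      rw [mul_assoc, coeff_C_mul, coeff_X_mul', if_neg, mul_zero]
      simp [hj.symm]
    · simp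

theorem exists_vpoly {i : ℕ} {ρ : Polynomial (MvPolynomial σ ℝ)} (hρ : ρ.natDegree ≤ i) (k : σ)
    {g : ℕ} (hg : g ≤ i) (β : σ →₀ ℕ) :
    ∃ P : MvPolynomial σ ℝ, P.totalDegree ≤ i ∧
      coeff (Finsupp.single k g) P = coeff β (ρ.coeff g) ∧
      ∀ v, Weyl.ev P v = coeff (β + Finsupp.single k g) (ρ.eval (lin ℝ v)) := by
  set T : MvPolynomial σ (MvPolynomial σ ℝ) := ∑ j ∈ range (i + 1), C (ρ.coeff j) * gl σ ^ j
    with hT
  set γ := β + Finsupp.single k g with hγ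
  have hc : ∀ δ, coeff δ (∑ α ∈ T.support, monomial α (coeff γ (coeff α T)))
      = coeff γ (coeff δ T) := by
    intro δ
    simp only [coeff_sum, coeff_monomial, sum_ite_eq']
    split_ifs with h
    · rfl
    · rw [notMem_support_iff.1 h, coeff_zero]
  have hgl : (gl σ).totalDegree ≤ 1 :=
    totalDegree_finsetSum_le fun k _ => (totalDegree_mul _ _).trans (by
      rw [totalDegree_C, zero_add]; exact totalDegree_monomial_le _ _ |>.trans (by simp))
  have hTd : T.totalDegree ≤ i := totalDegree_finsetSum_le fun j hj =>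
    (totalDegree_mul _ _).trans (by
      have h2 := (totalDegree_pow (gl σ) j).trans (Nat.mul_le_mul_left j hgl)
      have h3 := mem_range.1 hj
      rw [totalDegree_C]; omega)
  refine ⟨∑ α ∈ T.support, monomial α (coeff γ (coeff α T)), ?_, ?_, fun v => ?_⟩
  · refine totalDegree_finsetSum_le fun α hα => (totalDegree_monomial_le _ _).trans ?_
    exact (le_totalDegree hα).trans hTd
  · rw [hc, hT, coeff_sum, sum_eq_single g]
    · rw [coeff_C_mul, coeff_gl_pow, if_pos rfl, X_pow_eq_monomial, hγ, coeff_mul_monomial, mul_one]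
    · intro j _ hj
      rw [coeff_C_mul, coeff_gl_pow, if_neg hj.symm, mul_zero]
    · intro h; exact absurd (mem_range.2 (by omega)) h
  · have h1 : eval (fun k => C (v k : ℝ)) T = ρ.eval (lin ℝ v) := by
      rw [Polynomial.eval_eq_sum_range' (Nat.lt_succ_of_le hρ), hT, map_sum]
      refine sum_congr rfl fun j _ => ?_
      rw [map_mul, eval_C, map_pow]
      congr 2
      simp [gl, lin, mul_comm]
    rw [← h1, eval_eq', Weyl.ev, map_sum, coeff_sum]
    refine sum_congr rfl fun α _ => ?_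
    rw [eval_monomial, Finsupp.prod_fintype _ _ (by simp)]
    simp only [← C_pow, ← map_prod]
    rw [mul_comm (coeff α T), coeff_C_mul, mul_comm]

/-- **Weyl step** -/
theorem weyl_shear (σ : Type) [Fintype σ] [DecidableEq σ] [Nonempty σ] (i : ℕ) :
    ∃ E : ℕ, ∀ (κ : Type) [Fintype κ] (ρ : κ → Polynomial (MvPolynomial σ ℝ)) (V : ℕ) (D ε : ℝ)
      (S : Finset (σ → ℤ)), (∀ c, Dg i (ρ c)) → 2 ≤ D → 0 ≤ ε → D ^ E ≤ V → ε * D ^ E ≤ 1 →
      S ⊆ bx σ V → (V : ℝ) ^ Fintype.card σ ≤ D * S.card → (∀ v ∈ S, AgA ε ρ v) →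
      ∃ Q : ℕ, 1 ≤ Q ∧ (Q : ℝ) ≤ D ^ (E * Fintype.card κ) ∧
        AgB V (D ^ (E * (Fintype.card κ + 1)) * ε) (sm Q ρ) := by
  classical
  obtain ⟨C0, hC0⟩ := Weyl.exists_small.{0} i
  have hs := hC0 σ
  set E0 := (Fintype.card σ + 2) ^ C0 with hE0
  set B := (Finsupp.finite_of_degree_le (σ := σ) i).toFinset with hB
  set I := range (i + 1) ×ˢ B with hI
  refine ⟨E0 * (I.card + 1), fun κ _ ρ V D ε S hρ hD hε hV hεD hS hc hA => ?_⟩
  obtain ⟨k⟩ := ‹Nonempty σ›
  have hD1 : 1 ≤ D := by linarith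
  have hle : D ^ E0 ≤ D ^ (E0 * (I.card + 1)) := pow_le_pow_right₀ hD1 (by nlinarith)
  have h1 : ∀ t ∈ (univ : Finset κ) ×ˢ I, ∃ q : ℕ, 1 ≤ q ∧ (q : ℝ) ≤ D ^ E0 ∧ ∃ r : ℤ,
      |(q : ℝ) * coeff t.2.2 ((ρ t.1).coeff t.2.1) - r| ≤ D ^ E0 * ε / (V : ℝ) ^ t.2.1 := by
    rintro ⟨c, g, β⟩ ht
    have hg : g ≤ i := Nat.lt_succ_iff.1 (mem_range.1 (mem_product.1 (mem_product.1 ht).2).1)
    obtain ⟨P, hP1, hP2, hP3⟩ := exists_vpoly (hρ c).1 k hg β
    obtain ⟨q, hq1, hq2, hq3⟩ := hs P hP1 S (fun _ => V) D ε hD hε (fun _ => hle.trans hV)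
      (le_trans (by gcongr) hεD) (fun n hn k => abs_le_of_mem_bx (hS hn) k) (by simpa using hc)
      (fun n hn => by rw [hP3]; exact hA n hn c _)
    obtain ⟨r, hr⟩ := hq3 (Finsupp.single k g)
    refine ⟨q, hq1, hq2, r, ?_⟩
    rw [hP2] at hr
    have e : Weyl.mpow (fun _ : σ => (V : ℝ)) (Finsupp.single k g) = (V : ℝ) ^ g := by
      rw [Weyl.mpow, prod_pow_eq_pow_sum]; simp
    rwa [e] at hr
  choose! q hq1 hq2 hq3 using h1
  obtain ⟨Q, hQ1, hQ2, hQ3⟩ := Weyl.common_den _ q hq1 hq2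
  have hQ4 : (Q : ℝ) ≤ D ^ (E0 * (I.card + 1) * Fintype.card κ) := by
    refine hQ2.trans ?_
    rw [← pow_mul, card_product, card_univ]
    exact pow_le_pow_right₀ hD1 (by nlinarith [Nat.zero_le (E0 * Fintype.card κ)])
  refine ⟨Q, hQ1, hQ4, fun c g β => ?_⟩
  rw [sm, Polynomial.coeff_smul, coeff_smul, smul_eq_mul]
  by_cases ht : (c, g, β) ∈ (univ : Finset κ) ×ˢ I
  · obtain ⟨r, hr⟩ := hq3 _ ht
    obtain ⟨r', hr'⟩ := Weyl.mul_up (hq1 _ ht) (hQ3 _ ht) hQ4 hr
    refine ⟨r', hr'.trans ?_⟩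
    rw [← mul_div_assoc, ← mul_assoc, mul_add (E0 * (I.card + 1)), mul_one, pow_add]
    gcongr
  · refine ⟨0, ?_⟩
    have h0 : coeff β ((ρ c).coeff g) = 0 := by
      by_cases hg : g ≤ i
      · refine coeff_eq_zero_of_totalDegree_lt (lt_of_le_of_lt ((hρ c).2 g) ?_)
        by_contra hn
        refine ht (mem_product.2 ⟨mem_univ _, mem_product.2 ⟨mem_range.2 (by simpa using hg), ?_⟩⟩)
        rw [hB, Set.Finite.mem_toFinset]
        exact not_lt.1 hn
      · rw [Polynomial.coeff_eq_zero_of_natDegree_lt (lt_of_le_of_lt (hρ c).1 (not_le.1 hg)),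
          coeff_zero]
    rw [h0]
    simp only [mul_zero, Int.cast_zero, sub_zero, abs_zero]
    positivity

end Crest.Agent.T49.Zm
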