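import Crest.Agent.T49.ZmW_3
import Crest.Agent.T49.SampPE_57
import Crest.Agent.T49.Qp_85

/-!
# Row 49 (helper3): the zoom-in theorem `zoom`.
If two labels agree on a random sheared flat with probability `exp (-m)`, then after multiplying
by `q` and changing the scale, agreement on a sheared flat almost always comes from agreement on
the whole flag.
-/

set_option autoImplicit false

noncomputable section

namespace Crest.Agent.T49.Zm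

open Finset MvPolynomial
open Crest.Agent.T49.Samp (PF Bdd)

theorem maxi (f : ℕ → ℕ → ℝ) (hf : ∀ q n, f q n ≤ 1) {q1 : ℕ} (hq1 : 1 ≤ q1) {e1 : ℝ}
    (he : 0 < e1) (h : e1 ≤ f q1 0) :
    ∃ q n : ℕ, 1 ≤ q ∧ (q : ℝ) * 2 ^ n ≤ q1 / e1 ∧ e1 / q1 ≤ f q n ∧
      ∀ c n' : ℕ, 1 ≤ c → f (q * c) (n + n') ≤ c * 2 ^ n' * f q n := by
  have hq1' : (1 : ℝ) ≤ q1 := by exact_mod_cast hq1
  have he1 : e1 ≤ 1 := h.trans (hf _ _)
  set M := ⌈(q1 : ℝ) / e1⌉₊ with hM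
  have hM1 : (q1 : ℝ) / e1 ≤ M := Nat.le_ceil _
  have hmem : (q1, 0) ∈ Icc 1 M ×ˢ range (M + 1) := by
    refine mem_product.2 ⟨mem_Icc.2 ⟨hq1, ?_⟩, mem_range.2 (by simp)⟩
    have : (q1 : ℝ) ≤ M := le_trans (by rw [le_div_iff₀ he]; nlinarith) hM1
    exact_mod_cast this
  obtain ⟨⟨q, n⟩, hqn, hmax⟩ := exists_max_image (Icc 1 M ×ˢ range (M + 1))
    (fun p : ℕ × ℕ => f p.1 p.2 / (p.1 * 2 ^ p.2)) ⟨_, hmem⟩
  have hq : 1 ≤ q := (mem_Icc.1 (mem_product.1 hqn).1).1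
  have hq' : (1 : ℝ) ≤ q := by exact_mod_cast hq
  have hpos : (0 : ℝ) < q * 2 ^ n := by positivity
  have h1 : e1 / q1 ≤ f q n / (q * 2 ^ n) := by
    refine le_trans ?_ (hmax _ hmem)
    simp only [pow_zero, mul_one]
    gcongr
  have h2 : ∀ q' n' : ℕ, 1 ≤ q' → f q' n' / (q' * 2 ^ n') ≤ f q n / (q * 2 ^ n) := by
    intro q' n' hq'1
    by_cases hm : (q', n') ∈ Icc 1 M ×ˢ range (M + 1)
    · exact hmax _ hm
    have hq'' : (1 : ℝ) ≤ q' := by exact_mod_cast hq'1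
    have h3 : (M : ℝ) ≤ q' * 2 ^ n' := by
      by_cases h4 : q' ≤ M
      · have h5 : M < n' := by
          by_contra h6
          exact hm (mem_product.2 ⟨mem_Icc.2 ⟨hq'1, h4⟩, mem_range.2 (by simp; omega)⟩)
        have h6 : M ≤ 2 ^ n' := (h5.trans Nat.lt_two_pow_self).le
        have h7 : (M : ℝ) ≤ 2 ^ n' := by exact_mod_cast h6
        exact h7.trans (le_mul_of_one_le_left (by positivity) hq'')
      · have h7 : (M : ℝ) ≤ q' := by exact_mod_cast (not_le.1 h4).le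
        exact h7.trans (le_mul_of_one_le_right (by positivity) (one_le_pow₀ (by norm_num)))
    refine le_trans ?_ h1
    rw [div_le_div_iff₀ (by positivity) (by positivity)]
    have h8 : (q1 : ℝ) ≤ e1 * (q' * 2 ^ n') := by
      have := hM1.trans h3
      rw [div_le_iff₀ he] at this
      linarith
    nlinarith [hf q' n']
  have h1' := h1
  rw [div_le_div_iff₀ (by positivity) hpos] at h1'
  refine ⟨q, n, hq, ?_, ?_, fun c n' hc => ?_⟩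
  · rw [le_div_iff₀ he]; nlinarith [hf q n]
  · refine le_trans ?_ ((le_div_iff₀ hpos).1 h1)
    exact le_mul_of_one_le_right (by positivity)
      (one_le_mul_of_one_le_of_one_le hq' (one_le_pow₀ (by norm_num)))
  · have h3 := h2 (q * c) (n + n') (Nat.mul_pos hq hc)
    have hc' : (0 : ℝ) < c := by exact_mod_cast hc
    rw [div_le_iff₀ (by positivity)] at h3
    refine h3.trans (le_of_eq ?_)
    push_cast
    rw [pow_add]
    field_simp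

open Classical in
/-- indicator of a proposition -/
def ind (p : Prop) : ℝ := if p then 1 else 0

theorem ind_nonneg (p : Prop) : 0 ≤ ind p := by unfold ind; split_ifs <;> norm_num
theorem ind_le_one (p : Prop) : ind p ≤ 1 := by unfold ind; split_ifs <;> norm_num
theorem ind_pos {p : Prop} (h : p) : ind p = 1 := if_pos h
theorem ind_neg {p : Prop} (h : ¬ p) : ind p = 0 := if_neg h
theorem bdd_ind {Ω : Type*} (p : Ω → Prop) : Bdd fun ω => ind (p ω) :=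
  Bdd.of_01 (fun _ => ind_nonneg _) fun _ => ind_le_one _

variable {σ : Type} [Fintype σ] [DecidableEq σ]

open Classical in
/-- the fraction of `v ∈ [0,V)^σ` with property `p` -/
def frac (V : ℕ) (p : (σ → ℤ) → Prop) : ℝ :=
  (((bx σ V).filter p).card : ℝ) / (V : ℝ) ^ Fintype.card σ

theorem frac_nonneg (V : ℕ) (p : (σ → ℤ) → Prop) : 0 ≤ frac V p := by unfold frac; positivity

theorem frac_mono (V : ℕ) {p p' : (σ → ℤ) → Prop} (h : ∀ v ∈ bx σ V, p v → p' v) :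
    frac V p ≤ frac V p' := by
  classical
  unfold frac
  gcongr ?_ / _
  exact_mod_cast card_le_card fun v hv =>
    mem_filter.2 ⟨(mem_filter.1 hv).1, h v (mem_filter.1 hv).1 (mem_filter.1 hv).2⟩

theorem frac_le_one (V : ℕ) (p : (σ → ℤ) → Prop) : frac V p ≤ 1 := by
  classical
  unfold frac
  refine div_le_one_of_le₀ ?_ (by positivity)
  exact_mod_cast (card_filter_le _ _).trans (card_bx V).le

theorem frac_eq_zero (V : ℕ) {p : (σ → ℤ) → Prop} (h : ∀ v, ¬ p v) : frac V p = 0 := by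
  classical
  unfold frac
  rw [filter_eq_empty_iff.2 fun v _ => h v]; simp

theorem frac_eq_sum (V : ℕ) (p : (σ → ℤ) → Prop) :
    frac V p = (∑ v ∈ bx σ V, ind (p v)) / (V : ℝ) ^ Fintype.card σ := by
  classical
  unfold frac ind
  rw [card_filter]; push_cast; rfl

theorem bdd_frac {Ω : Type*} (V : ℕ) (p : Ω → (σ → ℤ) → Prop) : Bdd fun ω => frac V (p ω) :=
  Bdd.of_01 (fun _ => frac_nonneg _ _) fun _ => frac_le_one _ _

/-- the statement of the Weyl step with exponent `E` -/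
def WS (σ : Type) [Fintype σ] [DecidableEq σ] (i E : ℕ) : Prop :=
  ∀ (κ : Type) [Fintype κ] (ρ : κ → Polynomial (MvPolynomial σ ℝ)) (V : ℕ) (D ε : ℝ)
    (S : Finset (σ → ℤ)), (∀ c, Dg i (ρ c)) → 2 ≤ D → 0 ≤ ε → D ^ E ≤ V → ε * D ^ E ≤ 1 →
    S ⊆ bx σ V → (V : ℝ) ^ Fintype.card σ ≤ D * S.card → (∀ v ∈ S, AgA ε ρ v) →
    ∃ Q : ℕ, 1 ≤ Q ∧ (Q : ℝ) ≤ D ^ (E * Fintype.card κ) ∧
      AgB V (D ^ (E * (Fintype.card κ + 1)) * ε) (sm Q ρ)

/-- the constant `Λ₀` -/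
def lam0 (σ : Type) [Fintype σ] (i : ℕ) : ℝ := 2 * (cN σ (2 * i) / th 0) ^ i

omit [DecidableEq σ] in
theorem one_le_cN_div (N j : ℕ) : 1 ≤ cN σ N / th j := by
  rw [le_div_iff₀ (th_pos j)]; linarith [one_le_cN (σ := σ) N, th_le_one j]

omit [DecidableEq σ] in
theorem two_le_lam0 (i : ℕ) : 2 ≤ lam0 σ i := by
  have : 1 ≤ (cN σ (2 * i) / th 0) ^ i := one_le_pow₀ (one_le_cN_div _ _)
  unfold lam0; linarith

variable {κ : Type} [Fintype κ]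

theorem key {i E K J j V : ℕ} (hW : WS σ i E) (hK : 3 * (K + 2) ≤ Fintype.card σ) (hK1 : 1 ≤ K)
    {ε : ℝ} (hε : 0 ≤ ε) {ρ : κ → Polynomial (MvPolynomial σ ℝ)} (hρ : ∀ c, Dg i (ρ c))
    (hV1 : ((2 : ℝ) ^ ((J + 1) * K)) ^ E ≤ V) (hV2 : 3 * (2 : ℝ) ^ ((J + 1) * K) ≤ V)
    (hsm : ((2 : ℝ) ^ ((J + 1) * K)) ^ (E * (Fintype.card κ + 1)) * ε * (1 + c0 σ i) < 1)
    (hj : j ≤ J) (h : 2 * (i + 1) / 2 ^ ((j + 1) * K) < frac V (AgA ε ρ)) :
    ∃ c : ℕ, 1 ≤ c ∧ c ≤ (2 ^ (j + 1) - 1) ^ (i ^ 2) ∧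
      AgB V (c * ((cN σ (2 * i) / th j) ^ i * ε)) (sm c ρ) := by
  classical
  set D : ℝ := 2 ^ ((J + 1) * K) with hD
  have hD1 : (2 : ℝ) ^ (j + 1) ≤ D := pow_le_pow_right₀ (by norm_num) (by nlinarith)
  have hD2 : (2 : ℝ) ^ ((j + 1) * K) ≤ D :=
    pow_le_pow_right₀ (by norm_num) (Nat.mul_le_mul_right K (by omega))
  have hD3 : 2 ≤ D := le_trans (le_self_pow₀ (by norm_num) (by omega)) hD1
  have hV : (0 : ℝ) < V := by linarith
  have hVp : (0 : ℝ) < (V : ℝ) ^ Fintype.card σ := by positivity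
  set S := (bx σ V).filter (AgA ε ρ) with hS
  have hfr : frac V (AgA ε ρ) = S.card / (V : ℝ) ^ Fintype.card σ := by
    unfold frac; congr
  rw [hfr, lt_div_iff₀ hVp] at h
  have hc0 := one_le_c0 (σ := σ) i
  have hpow : ∀ a, a ≤ E * (Fintype.card κ + 1) → D ^ a * ε ≤ D ^ (E * (Fintype.card κ + 1)) * ε :=
    fun a ha => mul_le_mul_of_nonneg_right (pow_le_pow_right₀ (by linarith) ha) hε
  have hX : 0 ≤ D ^ (E * (Fintype.card κ + 1)) * ε := by positivity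
  obtain ⟨Q, hQ1, hQ2, hQ3⟩ := hW κ ρ V D ε S hρ hD3 hε hV1
    (by have := hpow E (by nlinarith); nlinarith) (filter_subset _ _)
    (by
      have h2 : 1 / D ≤ 2 * ((i : ℝ) + 1) / 2 ^ ((j + 1) * K) :=
        div_le_div₀ (by positivity) (by linarith [(Nat.cast_nonneg i : (0 : ℝ) ≤ i)])
          (by positivity) hD2
      have h3 : 1 / D * (V : ℝ) ^ Fintype.card σ ≤ S.card :=
        (mul_le_mul_of_nonneg_right h2 hVp.le).trans h.le
      rw [div_mul_eq_mul_div, one_mul, div_le_iff₀ (by linarith)] at h3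
      linarith)
    fun v hv => (mem_filter.1 hv).2
  obtain ⟨v, hv1, hv2⟩ := exists_nodes (K := K) i j hK (by linarith) S (filter_subset _ _)
    (lt_of_le_of_lt (by gcongr; linarith) h)
  have h2 : 2 ≤ 2 ^ (j + 1) := le_self_pow₀ (by norm_num) (by omega)
  obtain ⟨c, hc1, hc2, hc⟩ := lagrange (κ := κ) (G := 2 ^ (j + 1) - 1) (by omega) hV (th_pos j)
    (th_le_one j) v (fun a k => abs_le_of_mem_bx (mem_filter.1 (hv1 a)).1 k) hv2
  refine ⟨c, hc1, hc2, hc Q _ ε ρ hρ hQ1 hQ3 ?_ fun a => (mem_filter.1 (hv1 a)).2⟩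
  have h3 : (Q : ℝ) * ε ≤ D ^ (E * (Fintype.card κ + 1)) * ε :=
    (mul_le_mul_of_nonneg_right hQ2 hε).trans (hpow _ (by nlinarith))
  nlinarith

theorem pointwise {i E K J V : ℕ} (hW : WS σ i E) (hK : 3 * (K + 2) ≤ Fintype.card σ)
    (hK1 : 1 ≤ K) {ε T : ℝ} (hε : 0 ≤ ε) (hT : 1 ≤ T) {ρ : κ → Polynomial (MvPolynomial σ ℝ)}
    (hρ : ∀ c, Dg i (ρ c))
    (hV1 : ((2 : ℝ) ^ ((J + 1) * K)) ^ E ≤ V) (hV2 : 3 * (2 : ℝ) ^ ((J + 1) * K) ≤ V)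
    (hsm : ((2 : ℝ) ^ ((J + 1) * K)) ^ (E * (Fintype.card κ + 1)) * (T * ε) * (1 + c0 σ i) < 1) :
    frac V (fun v => AgA (T * ε) ρ v ∧ ¬ AgB V (lam0 σ i * T * ε) ρ)
      ≤ 2 * (i + 1) / 2 ^ ((J + 1) * K) + ∑ t ∈ range J, 2 * (i + 1) / 2 ^ ((t + 1) * K) *
        ∑ c ∈ Icc 1 (2 ^ ((t + 2) * i ^ 2)),
          ind (AgB V (ε * (lam0 σ i * T) ^ ((t + 2) * (i ^ 2 + i) + 1)) (sm c ρ)) := by
  classical
  have hsum : ∀ t ∈ range J, 0 ≤ 2 * ((i : ℝ) + 1) / 2 ^ ((t + 1) * K) *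
      ∑ c ∈ Icc 1 (2 ^ ((t + 2) * i ^ 2)),
        ind (AgB V (ε * (lam0 σ i * T) ^ ((t + 2) * (i ^ 2 + i) + 1)) (sm c ρ)) :=
    fun t _ => mul_nonneg (by positivity) (sum_nonneg fun _ _ => ind_nonneg _)
  have hs0 := sum_nonneg hsum
  by_cases hB : AgB V (lam0 σ i * T * ε) ρ
  · rw [frac_eq_zero V fun v h => h.2 hB]; positivity
  refine (frac_mono V (p' := AgA (T * ε) ρ) fun v _ h => h.1).trans ?_
  by_cases h1 : frac V (AgA (T * ε) ρ) ≤ 2 * (i + 1) / 2 ^ ((J + 1) * K)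
  · linarith
  have hex : ∃ j, 2 * ((i : ℝ) + 1) / 2 ^ ((j + 1) * K) < frac V (AgA (T * ε) ρ) := ⟨J, not_le.1 h1⟩
  have hjJ : Nat.find hex ≤ J := Nat.find_min' hex (not_le.1 h1)
  obtain ⟨c, hc1, hc2, hc⟩ := key hW hK hK1 (by positivity) hρ hV1 hV2 hsm hjJ (Nat.find_spec hex)
  have hx : 1 ≤ (cN σ (2 * i) / th 0) ^ i := one_le_pow₀ (one_le_cN_div _ _)
  have hTε : 0 ≤ T * ε := by positivity
  rcases hj : Nat.find hex with _ | t
  · rw [hj] at hc2 hc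
    obtain rfl : c = 1 := le_antisymm (by simpa using hc2) hc1
    refine absurd ?_ hB
    have e : sm 1 ρ = ρ := by funext c; simp [sm]
    rw [e] at hc
    refine hc.mono (Nat.cast_nonneg V) ?_
    rw [lam0, Nat.cast_one, one_mul, mul_assoc, mul_assoc, ← mul_assoc 2]
    nlinarith
  · rw [hj] at hc2 hc hjJ
    have h2 : frac V (AgA (T * ε) ρ) ≤ 2 * (i + 1) / 2 ^ ((t + 1) * K) :=
      not_lt.1 (Nat.find_min hex (by omega))
    have hc3 : c ≤ 2 ^ ((t + 2) * i ^ 2) := by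
      rw [pow_mul]; exact hc2.trans (Nat.pow_le_pow_left (Nat.sub_le _ _) _)
    have hL : 2 ≤ lam0 σ i * T := by nlinarith [two_le_lam0 (σ := σ) i]
    have h3 : AgB V (ε * (lam0 σ i * T) ^ ((t + 2) * (i ^ 2 + i) + 1)) (sm c ρ) := by
      refine hc.mono (Nat.cast_nonneg V) ?_
      have e1 : cN σ (2 * i) / th (t + 1) = 2 ^ (t + 1) * (cN σ (2 * i) / th 0) := by
        unfold th; field_simp; ring
      have e2 : (c : ℝ) ≤ 2 ^ ((t + 2) * i ^ 2) := by exact_mod_cast hc3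
      have e3 : ((2 : ℝ) ^ (t + 1)) ^ i ≤ 2 ^ ((t + 2) * i) := by
        rw [← pow_mul]; exact pow_le_pow_right₀ (by norm_num) (by nlinarith)
      have e4 : (2 : ℝ) ^ ((t + 2) * (i ^ 2 + i)) ≤ (lam0 σ i * T) ^ ((t + 2) * (i ^ 2 + i)) :=
        pow_le_pow_left₀ (by norm_num) hL _
      have e5 : (cN σ (2 * i) / th 0) ^ i * T ≤ lam0 σ i * T := by
        rw [lam0]; nlinarith
      calc (c : ℝ) * ((cN σ (2 * i) / th (t + 1)) ^ i * (T * ε))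
          = ε * (c * ((2 : ℝ) ^ (t + 1)) ^ i * ((cN σ (2 * i) / th 0) ^ i * T)) := by
            rw [e1, mul_pow]; ring
        _ ≤ ε * (2 ^ ((t + 2) * i ^ 2) * 2 ^ ((t + 2) * i) * (lam0 σ i * T)) := by gcongr
        _ = ε * (2 ^ ((t + 2) * (i ^ 2 + i)) * (lam0 σ i * T)) := by
            rw [← pow_add, mul_add (t + 2)]
        _ ≤ _ := by rw [pow_succ (lam0 σ i * T)]; gcongr
    have h4 : 1 ≤ ∑ c ∈ Icc 1 (2 ^ ((t + 2) * i ^ 2)),
        ind (AgB V (ε * (lam0 σ i * T) ^ ((t + 2) * (i ^ 2 + i) + 1)) (sm c ρ)) := by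
      rw [← ind_pos h3]
      exact single_le_sum (f := fun c => ind (AgB V (ε * (lam0 σ i * T) ^
        ((t + 2) * (i ^ 2 + i) + 1)) (sm c ρ))) (fun _ _ => ind_nonneg _) (mem_Icc.2 ⟨hc1, hc3⟩)
    have h5 := single_le_sum hsum (mem_range.2 (show t < J by omega))
    have h6 : 0 ≤ 2 * ((i : ℝ) + 1) / 2 ^ ((t + 1) * K) := by positivity
    have h7 : 0 ≤ 2 * ((i : ℝ) + 1) / 2 ^ ((J + 1) * K) := by positivity
    nlinarith

theorem geom_le (J : ℕ) : ∑ t ∈ range J, (1 : ℝ) / 2 ^ (t + 1) ≤ 1 := by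
  have : ∑ t ∈ range J, (1 : ℝ) / 2 ^ (t + 1) = 1 - 1 / 2 ^ J := by
    induction J with
    | zero => simp
    | succ J ih => rw [sum_range_succ, ih]; field_simp; ring
  rw [this]
  have : (0 : ℝ) ≤ 1 / 2 ^ J := by positivity
  linarith

/-- the averaged Lagrange step -/
theorem core {Ω : Type*} (P : PF Ω) (hP : P.mass ≤ 1) {i E B J V : ℕ} (hW : WS σ i E)
    (hK : 3 * ((6 * i ^ 2 + 2 * i + 1 + B + 1) + 2) ≤ Fintype.card σ) {ε T : ℝ} (hε : 0 ≤ ε)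
    (hT : 1 ≤ T) {ρ : Ω → κ → Polynomial (MvPolynomial σ ℝ)} (hρ : ∀ ω c, Dg i (ρ ω c))
    (hV1 : ((2 : ℝ) ^ ((J + 1) * (6 * i ^ 2 + 2 * i + 1 + B + 1))) ^ E ≤ V)
    (hV2 : 3 * (2 : ℝ) ^ ((J + 1) * (6 * i ^ 2 + 2 * i + 1 + B + 1)) ≤ V)
    (hsm : ((2 : ℝ) ^ ((J + 1) * (6 * i ^ 2 + 2 * i + 1 + B + 1))) ^ (E * (Fintype.card κ + 1))
      * (T * ε) * (1 + c0 σ i) < 1) {e : ℝ} (he : 1 / 2 ^ J ≤ e)
    (hmax : ∀ c n' : ℕ, 1 ≤ c →
      P.E (fun ω => ind (AgB V (ε * (lam0 σ i * T) ^ n') (sm c (ρ ω)))) ≤ c * 2 ^ n' * e) :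
    P.E (fun ω => frac V fun v => AgA (T * ε) (ρ ω) v ∧ ¬ AgB V (lam0 σ i * T * ε) (ρ ω))
      ≤ 4 * (i + 1) / 2 ^ B * e := by
  set K := 6 * i ^ 2 + 2 * i + 1 + B + 1 with hKd
  have he0 : 0 ≤ e := le_trans (by positivity) he
  have h1 := P.mono (bdd_frac V _) ((Bdd.const _).add (Bdd.sum (range J) _ fun t _ =>
      (Bdd.const _).mul (Bdd.sum (Icc 1 (2 ^ ((t + 2) * i ^ 2))) _ fun c _ => bdd_ind _)))
    fun ω => pointwise hW hK (by omega) hε hT (hρ ω) hV1 hV2 hsm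
  refine h1.trans ?_
  rw [P.add, P.const, P.sum]
  have h2 : 2 * ((i : ℝ) + 1) / 2 ^ ((J + 1) * K) * P.mass ≤ 2 * (i + 1) / 2 ^ B * e := by
    have h3 : (2 : ℝ) ^ B * 2 ^ J ≤ 2 ^ ((J + 1) * K) := by
      rw [← pow_add]; exact pow_le_pow_right₀ (by norm_num) (by nlinarith)
    calc _ ≤ 2 * ((i : ℝ) + 1) / (2 ^ B * 2 ^ J) * 1 := by gcongr; exact P.mass_nonneg
      _ = 2 * (i + 1) / 2 ^ B * (1 / 2 ^ J) := by field_simp
      _ ≤ _ := by gcongr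
  have h3 : ∀ t ∈ range J, P.E (fun ω => 2 * ((i : ℝ) + 1) / 2 ^ ((t + 1) * K) *
      ∑ c ∈ Icc 1 (2 ^ ((t + 2) * i ^ 2)),
        ind (AgB V (ε * (lam0 σ i * T) ^ ((t + 2) * (i ^ 2 + i) + 1)) (sm c (ρ ω))))
      ≤ 2 * (i + 1) / 2 ^ B * e * (1 / 2 ^ (t + 1)) := by
    intro t _
    rw [P.cmul, P.sum]
    have h4 : ∑ c ∈ Icc 1 (2 ^ ((t + 2) * i ^ 2)), P.E (fun ω =>
        ind (AgB V (ε * (lam0 σ i * T) ^ ((t + 2) * (i ^ 2 + i) + 1)) (sm c (ρ ω))))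
        ≤ 2 ^ ((t + 2) * (3 * i ^ 2 + i) + 1) * e := by
      calc _ ≤ ∑ _c ∈ Icc 1 (2 ^ ((t + 2) * i ^ 2)),
            (2 : ℝ) ^ ((t + 2) * i ^ 2) * 2 ^ ((t + 2) * (i ^ 2 + i) + 1) * e :=
            sum_le_sum fun c hc => (hmax c _ (mem_Icc.1 hc).1).trans (by
              gcongr; exact_mod_cast (mem_Icc.1 hc).2)
        _ = _ := by
            rw [sum_const, Nat.card_Icc, add_tsub_cancel_right, nsmul_eq_mul, ← mul_assoc]
            push_cast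
            rw [← pow_add, ← pow_add]
            congr 2; ring
    have h5 : (2 : ℝ) ^ ((t + 2) * (3 * i ^ 2 + i) + 1) * (2 ^ B * 2 ^ (t + 1))
        ≤ 2 ^ ((t + 1) * K) := by
      rw [← pow_add, ← pow_add]
      refine pow_le_pow_right₀ (by norm_num) ?_
      rw [hKd]
      nlinarith [Nat.zero_le (t * i ^ 2), Nat.zero_le (t * i), Nat.zero_le (t * B)]
    calc _ ≤ 2 * ((i : ℝ) + 1) / (2 ^ ((t + 2) * (3 * i ^ 2 + i) + 1) * (2 ^ B * 2 ^ (t + 1)))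
          * (2 ^ ((t + 2) * (3 * i ^ 2 + i) + 1) * e) := by
          gcongr
          exact sum_nonneg fun c _ => P.nonneg _ (bdd_ind _) fun _ => ind_nonneg _
      _ = _ := by field_simp
  have h4 := (sum_le_sum h3).trans_eq (mul_sum _ _ _).symm
  have h5 : 2 * ((i : ℝ) + 1) / 2 ^ B * e * ∑ t ∈ range J, (1 : ℝ) / 2 ^ (t + 1)
      ≤ 2 * (i + 1) / 2 ^ B * e := mul_le_of_le_one_right (by positivity) (geom_le J)
  have h6 : 4 * ((i : ℝ) + 1) / 2 ^ B * e = 2 * (i + 1) / 2 ^ B * e + 2 * (i + 1) / 2 ^ B * e := by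
    ring
  linarith

/-- the first Weyl step with pigeonhole -/
theorem start {Ω : Type*} (P : PF Ω) (hP : P.mass ≤ 1) {i E V : ℕ} (hW : WS σ i E) {ε D : ℝ}
    (hε : 0 ≤ ε) (hD : 2 ≤ D) {ρ : Ω → κ → Polynomial (MvPolynomial σ ℝ)}
    (hρ : ∀ ω c, Dg i (ρ ω c)) (hV : D ^ E ≤ V) (hsm : ε * D ^ E ≤ 1)
    (h : 2 / D ≤ P.E fun ω => frac V (AgA ε (ρ ω))) :
    ∃ Q : ℕ, 1 ≤ Q ∧ (Q : ℝ) ≤ D ^ (E * Fintype.card κ) ∧ 1 / (D * D ^ (E * Fintype.card κ))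
      ≤ P.E fun ω => ind (AgB V (D ^ (E * (Fintype.card κ + 1)) * ε) (sm Q (ρ ω))) := by
  classical
  set M := ⌊D ^ (E * Fintype.card κ)⌋₊ with hM
  have hD0 : 0 < D := by linarith
  have hM1 : (M : ℝ) ≤ D ^ (E * Fintype.card κ) := Nat.floor_le (by positivity)
  have hM2 : 1 ≤ M := Nat.le_floor (by simpa using one_le_pow₀ (by linarith))
  have hV0 : (0 : ℝ) < V := lt_of_lt_of_le (by positivity) hV
  have h1 : ∀ ω, frac V (AgA ε (ρ ω)) ≤ 1 / D + ∑ Q ∈ Icc 1 M,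
      ind (AgB V (D ^ (E * (Fintype.card κ + 1)) * ε) (sm Q (ρ ω))) := fun ω => by
    have h0 : 0 ≤ ∑ Q ∈ Icc 1 M, ind (AgB V (D ^ (E * (Fintype.card κ + 1)) * ε) (sm Q (ρ ω))) :=
      sum_nonneg fun _ _ => ind_nonneg _
    by_cases h2 : frac V (AgA ε (ρ ω)) ≤ 1 / D
    · linarith
    have hfr : frac V (AgA ε (ρ ω))
        = ((bx σ V).filter (AgA ε (ρ ω))).card / (V : ℝ) ^ Fintype.card σ := by
      unfold frac; congr
    have h3 := (not_le.1 h2).le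
    rw [hfr, div_le_div_iff₀ hD0 (by positivity), one_mul, mul_comm] at h3
    obtain ⟨Q, hQ1, hQ2, hQ3⟩ := hW κ (ρ ω) V D ε _ (hρ ω) hD hε hV hsm (filter_subset _ _) h3
      fun v hv => (mem_filter.1 hv).2
    have h4 := single_le_sum (f := fun Q => ind (AgB V (D ^ (E * (Fintype.card κ + 1)) * ε)
      (sm Q (ρ ω)))) (fun _ _ => ind_nonneg _) (mem_Icc.2 ⟨hQ1, Nat.le_floor hQ2⟩)
    rw [ind_pos hQ3] at h4
    have h5 : 0 ≤ 1 / D := by positivity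
    linarith [frac_le_one V (AgA ε (ρ ω))]
  have h2 := h.trans (P.mono (bdd_frac V _) ((Bdd.const _).add (Bdd.sum _ _ fun _ _ => bdd_ind _)) h1)
  rw [P.add, P.const, P.sum] at h2
  have h3 : 1 / D * P.mass ≤ 1 / D := mul_le_of_le_one_right (by positivity) hP
  obtain ⟨Q, hQ, hQ2⟩ := exists_le_of_sum_le (s := Icc 1 M) (nonempty_Icc.2 hM2)
    (f := fun _ => 1 / (D * D ^ (E * Fintype.card κ)))
    (g := fun Q => P.E fun ω => ind (AgB V (D ^ (E * (Fintype.card κ + 1)) * ε) (sm Q (ρ ω))))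
    (by
      rw [sum_const, Nat.card_Icc, add_tsub_cancel_right, nsmul_eq_mul]
      have h4 : (M : ℝ) * (1 / (D * D ^ (E * Fintype.card κ))) ≤ 1 / D := by
        calc _ ≤ D ^ (E * Fintype.card κ) * (1 / (D * D ^ (E * Fintype.card κ))) := by gcongr
          _ = _ := by field_simp
      have h5 : 2 / D = 1 / D + 1 / D := by ring
      linarith)
  exact ⟨Q, (mem_Icc.1 hQ).1, le_trans (by exact_mod_cast (mem_Icc.1 hQ).2) hM1, hQ2⟩

/-- the statement of the zoom-in theorem for forms of degree `≤ i`, error `η`, variables `σ` -/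
def Zoom (i : ℕ) (η : ℝ) (σ : Type) [Fintype σ] [DecidableEq σ] (Λ : ℝ) (C : ℕ) : Prop :=
  ∀ (m : ℝ) (Ω : Type) (P : PF Ω) (κ : Type) [Fintype κ]
    (ρ : Ω → κ → Polynomial (MvPolynomial σ ℝ)) (V : ℕ) (ε0 T : ℝ),
    2 ≤ m → (Fintype.card κ : ℝ) ≤ m → P.mass ≤ 1 → (∀ ω c, Dg i (ρ ω c)) →
    Real.exp (m ^ C) ≤ V → 0 ≤ ε0 → ε0 ≤ Real.exp (-m ^ C) → 1 ≤ T → T ≤ Real.exp m →
    Real.exp (-m) ≤ (P.E fun ω => frac V (AgA ε0 (ρ ω))) →
    ∃ (q : ℕ) (ε : ℝ), 1 ≤ q ∧ (q : ℝ) ≤ Real.exp (m ^ C) ∧ ε0 ≤ ε ∧ ε ≤ Real.exp (m ^ C) * ε0 ∧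
      Real.exp (-m ^ C) ≤ (P.E fun ω => ind (AgB V ε (sm q (ρ ω)))) ∧
      (P.E fun ω => frac V fun v =>
          AgA (T * ε) (sm q (ρ ω)) v ∧ ¬ AgB V (Λ * T * ε) (sm q (ρ ω)))
        ≤ η * P.E fun ω => ind (AgB V ε (sm q (ρ ω)))

theorem bk1 (E : ℕ) : ∃ C1 : ℕ, ∀ (m : ℝ) (d : ℕ), 2 ≤ m → (d : ℝ) ≤ m →
    (2 * Real.exp m) * (2 * Real.exp m) ^ (E * d) * (2 * Real.exp m) ^ (E * d)
      ≤ Real.exp (m ^ C1) := by qp

theorem bk2 (E K C1 : ℕ) (L c : ℝ) :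
    ∃ C : ℕ, ∀ (m T ε0 : ℝ) (d V n J : ℕ), 2 ≤ m → (d : ℝ) ≤ m → 1 ≤ T →
      T ≤ Real.exp m → Real.exp (m ^ C) ≤ V → 0 ≤ ε0 → ε0 ≤ Real.exp (-m ^ C) →
      (n : ℝ) ≤ 2 * m ^ C1 → (J : ℝ) ≤ 2 * m ^ C1 + 1 →
      (2 * Real.exp m) ^ E ≤ V ∧ (2 * Real.exp m) ^ E * ε0 ≤ 1 ∧
      ((2 : ℝ) ^ ((J + 1) * K)) ^ E ≤ V ∧ 3 * (2 : ℝ) ^ ((J + 1) * K) ≤ V ∧
      (((2 : ℝ) ^ ((J + 1) * K)) ^ (E * (d + 1)) * T * (2 * Real.exp m) ^ (E * (d + 1))
        * (L * T) ^ n * (1 + c)) * ε0 ≤ 1 / 2 ∧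
      (2 * Real.exp m) ^ (E * (d + 1)) * (L * T) ^ n ≤ Real.exp (m ^ C) ∧
      m ^ C1 ≤ m ^ C := by qp

set_option maxHeartbeats 1600000 in
/-- **Zoom-in** -/
theorem zoom (i : ℕ) {η : ℝ} (hη : 0 < η) : ∃ k0 : ℕ, ∀ (σ : Type) [Fintype σ] [DecidableEq σ],
    k0 ≤ Fintype.card σ → ∃ C : ℕ, Zoom i η σ (lam0 σ i) C := by
  obtain ⟨B, hB⟩ := pow_unbounded_of_one_lt (4 * ((i : ℝ) + 1) / η) (show (1 : ℝ) < 2 by norm_num)
  refine ⟨3 * ((6 * i ^ 2 + 2 * i + 1 + B + 1) + 2), fun σ _ _ hK => ?_⟩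
  have : Nonempty σ := Fintype.card_pos_iff.1 (by omega)
  obtain ⟨E, hE⟩ := weyl_shear σ i
  have hW : WS σ i E := hE
  set K := 6 * i ^ 2 + 2 * i + 1 + B + 1 with hKd
  have hL := two_le_lam0 (σ := σ) i
  have hc0 := one_le_c0 (σ := σ) i
  set L := lam0 σ i with hLd
  set c := c0 σ i with hcd
  obtain ⟨C1, hC1⟩ := bk1 E
  obtain ⟨C, hC⟩ := bk2 E K C1 L c
  refine ⟨C, fun m Ω P κ _ ρ V ε0 T hm hκ hP hρ hV hε0 hε1 hT1 hT2 h => ?_⟩
  set D := 2 * Real.exp m with hD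
  have hexp : 1 ≤ Real.exp m := Real.one_le_exp (by linarith)
  have hD2 : 2 ≤ D := by linarith
  have hD0 : 0 < D := by linarith
  have hmC : 0 ≤ m ^ C1 := by positivity
  obtain ⟨a1, a2, -⟩ := hC m T ε0 _ V 0 0 hm hκ hT1 hT2 hV hε0 hε1 (by simpa using hmC)
    (by push_cast; linarith)
  obtain ⟨Q, hQ1, hQ2, hQ3⟩ := start P hP hW hε0 hD2 hρ a1 (by rwa [mul_comm])
    (le_trans (by rw [hD, Real.exp_neg]; field_simp; rfl) h)
  set ε1 := D ^ (E * (Fintype.card κ + 1)) * ε0 with hε1d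
  obtain ⟨q, n, hq1, hq2, hq3, hq4⟩ := maxi
    (fun q n => P.E fun ω => ind (AgB V (ε1 * (L * T) ^ n) (sm q (ρ ω))))
    (fun q n => (P.le_const (bdd_ind _) fun _ => ind_le_one _).trans (by linarith)) hQ1
    (e1 := 1 / (D * D ^ (E * Fintype.card κ))) (by positivity) (by simpa using hQ3)
  have hQ0 : (0 : ℝ) < Q := by exact_mod_cast hQ1
  have b1 : (Q : ℝ) / (1 / (D * D ^ (E * Fintype.card κ))) ≤ Real.exp (m ^ C1) := by
    refine le_trans ?_ (hC1 m _ hm hκ)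
    rw [div_div_eq_mul_div, div_one, mul_comm]
    gcongr
  have b2 : Real.exp (-m ^ C1) ≤ 1 / (D * D ^ (E * Fintype.card κ)) / Q := by
    rw [Real.exp_neg, ← inv_div (Q : ℝ)]
    exact inv_anti₀ (by positivity) b1
  have hq' : (1 : ℝ) ≤ q := by exact_mod_cast hq1
  have h2n : (1 : ℝ) ≤ 2 ^ n := one_le_pow₀ (by norm_num)
  have hlog : (1 : ℝ) / 2 ≤ Real.log 2 := by linarith [Real.log_two_gt_d9]
  have b3 : (n : ℝ) ≤ 2 * m ^ C1 := by
    have h1 : (2 : ℝ) ^ n ≤ Real.exp (m ^ C1) := le_trans (by nlinarith) (hq2.trans b1)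
    have h2 := Real.log_le_log (by positivity) h1
    rw [Real.log_pow, Real.log_exp] at h2
    nlinarith [(Nat.cast_nonneg n : (0 : ℝ) ≤ n)]
  set J := ⌈2 * m ^ C1⌉₊ with hJ
  have b4 : Real.exp (m ^ C1) ≤ 2 ^ J := by
    have h1 : 2 * m ^ C1 ≤ J := Nat.le_ceil _
    rw [← Real.exp_log (show (0 : ℝ) < 2 ^ J by positivity), Real.log_pow]
    exact Real.exp_le_exp.2 (by nlinarith)
  obtain ⟨-, -, a3, a4, a5, a6, a7⟩ := hC m T ε0 _ V n J hm hκ hT1 hT2 hV hε0 hε1 b3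
    (Nat.ceil_lt_add_one (by positivity)).le
  have hLT : 1 ≤ (L * T) ^ n := one_le_pow₀ (by nlinarith)
  have hDp : 1 ≤ D ^ (E * (Fintype.card κ + 1)) := one_le_pow₀ (by linarith)
  have he := b2.trans hq3
  refine ⟨q, ε1 * (L * T) ^ n, hq1, ?_, ?_, ?_, ?_, ?_⟩
  · exact le_trans (by nlinarith) ((hq2.trans b1).trans (Real.exp_le_exp.2 a7))
  · rw [hε1d, mul_right_comm]
    exact le_mul_of_one_le_left hε0 (one_le_mul_of_one_le_of_one_le hDp hLT)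
  · rw [hε1d, mul_right_comm]
    exact mul_le_mul_of_nonneg_right a6 hε0
  · exact le_trans (Real.exp_le_exp.2 (by linarith)) he
  · refine (core P hP hW hK (J := J) (by positivity) hT1 (fun ω c => (hρ ω c).smul q) a3 a4
      (lt_of_le_of_lt (le_of_eq_of_le (by rw [hε1d]; ring) a5) (by norm_num))
      (le_trans ?_ he) fun c n' hc => ?_).trans ?_
    · rw [Real.exp_neg, one_div]; exact inv_anti₀ (by positivity) b4
    · have := hq4 c n' hc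
      simp only [pow_add, ← mul_assoc, ← sm_sm] at this
      exact this
    · refine mul_le_mul_of_nonneg_right ?_ (le_trans (by positivity) he)
      rw [div_lt_iff₀ hη] at hB
      rw [div_le_iff₀ (by positivity)]
      linarith

end Crest.Agent.T49.Zm
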