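import Crest.Agent.T49.Zo0_89

/-!
# Row 49 (helper89): Z0 — the theorem
-/

set_option autoImplicit false

noncomputable section

namespace Crest.Agent.T49.Zo

open Finset Crest.Agent.T49.Nil Crest.Agent.T49.Nil.ND Crest.Agent.T49.GI
open Crest.Agent.T49.Bch (star)
open scoped ComplexConjugate Classical

/-- directions of the flats -/
def dirs (κ σ : Type) [Fintype κ] [DecidableEq κ] [Fintype σ] [DecidableEq σ] (V : ℕ) :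
    Finset (κ → σ → ℤ) := Fintype.piFinset fun _ => Rat.box σ V

section dirs

variable {κ σ : Type} [Fintype κ] [DecidableEq κ] [Fintype σ] [DecidableEq σ] {V : ℕ}

theorem mem_dirs {E : κ → σ → ℤ} : E ∈ dirs κ σ V ↔ ∀ k v, |E k v| ≤ V := by
  simp [dirs, mem_box]

theorem dirs_nonempty : (dirs κ σ V).Nonempty := ⟨0, mem_dirs.2 fun _ _ => by simp⟩

theorem card_dirs : #(dirs κ σ V) = #(Rat.box σ V) ^ Fintype.card κ := by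
  rw [dirs, Fintype.card_piFinset, prod_const, card_univ]

theorem card_col {A : Finset (κ → σ → ℤ)} (hA : A ⊆ dirs κ σ V) (k₀ : κ) :
    #A * #(Rat.box σ V) ≤ #(A.image fun E => E k₀) * #(dirs κ σ V) := by
  rw [← card_product, ← card_product]
  refine card_le_card_of_injOn (fun z => (z.1 k₀, Function.update z.1 k₀ z.2)) ?_ ?_
  · rintro ⟨E, n⟩ hz
    simp only [coe_product, Set.mem_prod, mem_coe] at hz ⊢
    refine ⟨mem_image_of_mem _ hz.1, mem_dirs.2 fun k v => ?_⟩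
    rcases eq_or_ne k k₀ with rfl | hk
    · rw [Function.update_self]; exact mem_box.1 hz.2 v
    · rw [Function.update_of_ne hk]; exact mem_dirs.1 (hA hz.1) k v
  · rintro ⟨E, n⟩ - ⟨E', n'⟩ - h
    simp only [Prod.mk.injEq] at h ⊢
    refine ⟨funext fun k => ?_, by simpa using congrFun h.2 k₀⟩
    rcases eq_or_ne k k₀ with rfl | hk
    · exact h.1
    · simpa [Function.update_of_ne hk] using congrFun h.2 k

theorem pow_le_card_box (L : ℕ) : (L : ℝ) ^ Fintype.card σ ≤ #(Rat.box σ L) := by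
  rw [card_box]
  push_cast
  gcongr
  linarith [(Nat.cast_nonneg L : (0 : ℝ) ≤ L)]

/-- the boundary hypothesis of Z0 for a cube -/
theorem shift_Ico (a₀ : σ → ℤ) {L L₁ : ℕ} (hL : 0 < L) {δ : ℝ}
    (h : (Fintype.card σ * (Fintype.card κ * (V * L₁)) : ℝ) ≤ δ / 4 * L) :
    ∀ E ∈ dirs κ σ V, ∀ t ∈ Rat.box κ L₁,
      (#{a ∈ Fintype.piFinset fun i => Ico (a₀ i) (a₀ i + L) |
        apt a E t ∉ Fintype.piFinset fun i => Ico (a₀ i) (a₀ i + L)} : ℝ) ≤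
      δ / 4 * #(Fintype.piFinset fun i => Ico (a₀ i) (a₀ i + L)) := fun E hE t ht => by
  have := Box.card_shift_notMem a₀ L (Fintype.card κ * (V * L₁)) hL (fun v => ∑ k, t k * E k v)
    fun v => by
      refine (abs_sum_le_sum_abs _ _).trans ?_
      refine (sum_le_card_nsmul _ _ ((V * L₁ : ℕ) : ℤ) fun k _ => ?_).trans (by simp)
      rw [abs_mul, mul_comm]
      push_cast
      exact mul_le_mul (mem_dirs.1 hE k v) (mem_box.1 ht k) (abs_nonneg _) (Nat.cast_nonneg _)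
  refine le_trans (le_of_eq (by congr!)) (this.trans ?_)
  refine mul_le_mul_of_nonneg_right ?_ (Nat.cast_nonneg _)
  rw [div_le_iff₀ (by exact_mod_cast hL)]
  exact_mod_cast h

end dirs

/-- the hypotheses of Z0 -/
structure In {ι σ κ Ω 𝔄 : Type} [Fintype ι] [Fintype σ] [DecidableEq σ] [Fintype κ]
    [DecidableEq κ] (N : ND ι) (S s : ℕ) (m δ : ℝ) (η : ι → ℤ) (Z : Finset Ω) (μ : Ω → ℝ)
    (F : Ω → N.L → ℂ) (P : Ω → N.PS σ) (f : Ω → (σ → ℤ) → ℂ) (B : Finset (σ → ℤ)) (L₁ V : ℕ)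
    (fl : Ω → (σ → ℤ) → (κ → σ → ℤ) → 𝔄) (φ : 𝔄 → (κ → ℤ) → ℂ) : Prop where
  card : (Fintype.card ι : ℝ) ≤ m
  good : N.Good S (Real.exp m)
  μ_nonneg : ∀ W ∈ Z, 0 ≤ μ W
  μ_pos : 0 < ∑ W ∈ Z, μ W
  nchar : ∀ W ∈ Z, N.NChar S s (Real.exp m) η (F W)
  poly : ∀ W ∈ Z, P W ∈ N.poly σ
  bdd : ∀ W ∈ Z, ∀ n, ‖f W n‖ ≤ 1
  δ_ge : Real.exp (-m) ≤ δ
  cor : ∀ W ∈ Z, δ * #B ≤ ‖∑ n ∈ B, f W n * F W (N.evZ n (P W))‖
  B_ne : B.Nonempty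
  shift : ∀ E ∈ dirs κ σ V, ∀ t ∈ Rat.box κ L₁, (#{a ∈ B | apt a E t ∉ B} : ℝ) ≤ δ / 4 * #B
  flat : ∀ W ∈ Z, ∀ a ∈ B, ∀ E ∈ dirs κ σ V, ∀ t ∈ Rat.box κ L₁, f W (apt a E t) = φ (fl W a E) t

/-- first moment, Bessel references, `LT`, pigeonhole -/
theorem z0_pairs (S s D : ℕ) (hs : 1 ≤ s) : ∃ C : ℕ, ∀ m : ℝ, 2 ≤ m → ∀ (ι σ κ Ω 𝔄 : Type)
    [Fintype ι] [Fintype σ] [DecidableEq σ] [Fintype κ] [DecidableEq κ] (N : ND ι) (δ : ℝ)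
    (η : ι → ℤ) (Z : Finset Ω) (μ : Ω → ℝ) (F : Ω → N.L → ℂ) (P : Ω → N.PS σ)
    (f : Ω → (σ → ℤ) → ℂ) (B : Finset (σ → ℤ)) (L₁ V : ℕ) (fl : Ω → (σ → ℤ) → (κ → σ → ℤ) → 𝔄)
    (φ : 𝔄 → (κ → ℤ) → ℂ), Fintype.card κ ≤ D → In N S s m δ η Z μ F P f B L₁ V fl φ →
    Real.exp (m ^ C) ≤ L₁ →
    ∃ (H : ℕ → Submodule ℝ (pd N N).L) (q : ℕ) (R : 𝔄 → N.PS κ)
      (T : Finset ((Ω × (σ → ℤ)) × (κ → σ → ℤ))), (pd N N).GrSub H ∧
      (∀ i, (pd N N).RatS (Real.exp (m ^ C)) (H i)) ∧ (∀ x, pair x 0 ∈ H s → N.fn η x = 0) ∧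
      1 ≤ q ∧ (q : ℝ) ≤ Real.exp (m ^ C) ∧ T ⊆ (Z ×ˢ B) ×ˢ dirs κ σ V ∧
      Real.exp (-m ^ C) * (#(dirs κ σ V) * (#B * ∑ W ∈ Z, μ W)) ≤ ∑ i ∈ T, μ i.1.1 ∧
      ∀ i ∈ T, (pd N N).FactQ S L₁ (Real.exp (m ^ C)) q H
        (pair (N.subst (aff i.1.2 i.2) (P i.1.1)) (R (fl i.1.1 i.1.2 i.2))) := by
  obtain ⟨CL, hCL⟩ := ltStmt S s D hs
  obtain ⟨C₁, hC₁⟩ : ∃ C : ℕ, ∀ m δ : ℝ, 2 ≤ m → Real.exp (-m) ≤ δ → 2 * m ≤ m ^ C ∧
      Real.exp m + Real.exp m ≤ Real.exp (m ^ C) ∧ Real.exp (-m ^ C) ≤ (δ / 4) ^ 2 / 2 := by qp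
  obtain ⟨C₂, hC₂⟩ : ∃ C : ℕ, ∀ m : ℝ, 2 ≤ m → (m ^ C₁) ^ CL ≤ m ^ C ∧ 2 * m ≤ m ^ C := by qp
  obtain ⟨C, hC⟩ : ∃ C : ℕ, ∀ m δ : ℝ, 2 ≤ m → Real.exp (-m) ≤ δ → m ^ C₂ ≤ m ^ C ∧
      Real.exp (-m ^ C) ≤ (Real.exp ((m ^ C₂) ^ (S + 5)) * Real.exp (m ^ C₂))⁻¹ *
        ((δ / 4) ^ 2 / 2 * (δ / 4)) := by qp
  refine ⟨C, fun m hm ι σ κ Ω 𝔄 _ _ _ _ _ N δ η Z μ F P f B L₁ V fl φ hD h hL₁ => ?_⟩
  obtain ⟨a1, a2, a3⟩ := hC₁ m δ hm h.δ_ge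
  obtain ⟨b1, b2⟩ := hC₂ m hm
  obtain ⟨c1, c2⟩ := hC m δ hm h.δ_ge
  have hδ : 0 < δ := (Real.exp_pos _).trans_le h.δ_ge
  have e1 : Real.exp m ≤ Real.exp (m ^ C₁) := Real.exp_le_exp.2 (by linarith)
  have e2 : Real.exp ((m ^ C₁) ^ CL) ≤ Real.exp (m ^ C₂) := Real.exp_le_exp.2 b1
  have e3 : Real.exp (m ^ C₂) ≤ Real.exp (m ^ C) := Real.exp_le_exp.2 c1
  set g : (Ω × (σ → ℤ)) × (κ → σ → ℤ) → (κ → ℤ) → ℂ :=
    fun i t => F i.1.1 (N.evZ (apt i.1.2 i.2 t) (P i.1.1)) with hg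
  set T₀ := ((Z ×ˢ B) ×ˢ dirs κ σ V).filter fun i => δ / 4 * #(Rat.box κ L₁) ≤
    ‖∑ t ∈ Rat.box κ L₁, f i.1.1 (apt i.1.2 i.2 t) * g i t‖ with hT₀
  have mem₀ : ∀ i ∈ T₀, i.1.1 ∈ Z ∧ i.1.2 ∈ B ∧ i.2 ∈ dirs κ σ V := fun i hi => by
    have := (mem_filter.1 hi).1
    rw [mem_product, mem_product] at this
    exact ⟨this.1.1, this.1.2, this.2⟩
  set X : ℝ := #(dirs κ σ V) * (#B * ∑ W ∈ Z, μ W) with hX
  have hX0 : 0 < X := by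
    have h1 : (0 : ℝ) < #(dirs κ σ V) := by exact_mod_cast dirs_nonempty.card_pos
    have h2 : (0 : ℝ) < #B := by exact_mod_cast h.B_ne.card_pos
    exact mul_pos h1 (mul_pos h2 h.μ_pos)
  have m₀ : δ / 4 * X ≤ ∑ i ∈ T₀, μ i.1.1 := by
    rw [hT₀, sum_filter, sum_product, sum_product, hX]
    simp only [mul_sum]
    refine sum_le_sum fun W hW => ?_
    rw [sum_comm]
    have key : ∀ E ∈ dirs κ σ V, δ / 4 * #B * μ W ≤ ∑ a ∈ B, if δ / 4 * #(Rat.box κ L₁) ≤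
        ‖∑ t ∈ Rat.box κ L₁, f W (apt a E t) * g ((W, a), E) t‖ then μ W else 0 := fun E hE => by
      rw [← sum_filter, sum_const, nsmul_eq_mul]
      refine mul_le_mul_of_nonneg_right ?_ (h.μ_nonneg W hW)
      have := many_translates B (Φ := fun n => f W n * F W (N.evZ n (P W))) (fun n => by
          rw [norm_mul]; exact mul_le_one₀ (h.bdd W hW n) (norm_nonneg _) ((h.nchar W hW).bdd _))
        (Rat.box κ L₁) (box_nonempty _) (fun t v => ∑ k, t k * E k v) hδ.le (h.cor W hW)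
        (fun t ht => by convert h.shift E hE t ht; rfl)
      convert this <;> rfl
    refine le_trans (le_of_eq ?_) (sum_le_sum key)
    rw [sum_const, nsmul_eq_mul]
    ring
  have ne₀ : T₀.Nonempty := by
    by_contra h0
    rw [not_nonempty_iff_eq_empty.1 h0, sum_empty] at m₀
    exact absurd m₀ (not_le.2 (by positivity))
  obtain ⟨ref, T₁, hT₁, m₁, hr⟩ := bessel_fam (Rat.box κ L₁) (box_nonempty _) T₀ ne₀
    (fun i => μ i.1.1) (fun i hi => h.μ_nonneg _ (mem₀ i hi).1) (fun i => fl i.1.1 i.1.2 i.2) φ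
    (fun i hi t ht => by
      obtain ⟨h1, h2, h3⟩ := mem₀ i hi
      rw [← h.flat _ h1 _ h2 _ h3 t ht]; exact h.bdd _ h1 _)
    g (fun i hi t _ => (h.nchar _ (mem₀ i hi).1).bdd _) (δ := δ / 4) (by positivity)
    (fun i hi => by
      obtain ⟨h1, h2, h3⟩ := mem₀ i hi
      refine (mem_filter.1 hi).2.trans (le_of_eq ?_)
      rw [sum_congr rfl fun t ht => by rw [h.flat _ h1 _ h2 _ h3 t ht]])
  have m₁' : (δ / 4) ^ 2 / 2 * (δ / 4) * X ≤ ∑ i ∈ T₁, μ i.1.1 := by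
    rw [mul_assoc]; exact le_trans (by gcongr) m₁
  have ne₁ : T₁.Nonempty := by
    by_contra h0
    rw [not_nonempty_iff_eq_empty.1 h0, sum_empty] at m₁'
    exact absurd m₁' (not_le.2 (by positivity))
  have hcard : (Fintype.card (ι ⊕ ι) : ℝ) ≤ 2 * m := by
    rw [Fintype.card_sum]; push_cast; linarith [h.card]
  have hG : (pd N N).Good S (Real.exp m) := good_pd h.good h.good (Real.exp_pos _).le
  set R : 𝔄 → N.PS κ := fun A => N.subst (aff (ref A).1.2 (ref A).2) (P (ref A).1.1) with hR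
  obtain ⟨⟨H, q⟩, ⟨⟨gH, rH⟩, hq1, hq2⟩, T₂, hT₂, ne₂, m₂, hp⟩ := Cnt.pigeon_wt
    ((cnt_grSub_exp (pd N N) hG.wt_le (m := m ^ C₂) (by linarith) (hcard.trans b2)).prod
      (cnt_nat (Real.exp_pos (m ^ C₂)).le)) ne₁ (fun i => μ i.1.1)
    (fun i hi => h.μ_nonneg _ (mem₀ i (hT₁ hi)).1)
    (fun i x => (∀ y, pair y 0 ∈ x.1 s → N.fn η y = 0) ∧
      (pd N N).FactQ S L₁ (Real.exp (m ^ C₂)) x.2 x.1
        (pair (N.subst (aff i.1.2 i.2) (P i.1.1)) (R (fl i.1.1 i.1.2 i.2))))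
    (fun i hi => by
      obtain ⟨h1, h2⟩ := hr i hi
      set j := ref (fl i.1.1 i.1.2 i.2) with hj
      have hi1 := (mem₀ i (hT₁ hi)).1
      have hj1 := (mem₀ j h1).1
      obtain ⟨H, k1, k2, k3, q, k4, k5, k6⟩ := hCL (m ^ C₁) (by linarith) (ι ⊕ ι) κ (pd N N) _ _
        (pair (N.subst (aff i.1.2 i.2) (P i.1.1)) (N.subst (aff j.1.2 j.2) (P j.1.1))) L₁
        (fun _ => -(L₁ : ℤ)) (fun _ => (L₁ : ℤ)) hD (hcard.trans a1) (hG.mono e1)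
        ((nChar_pd (Real.exp_pos _).le (Real.exp_pos _).le (h.nchar _ hi1)
          (h.nchar _ hj1).conj).mono a2)
        (pair_mem_poly (subst_mem_poly (aff_deg _ _) (h.poly _ hi1))
          (subst_mem_poly (aff_deg _ _) (h.poly _ hj1)))
        (e2.trans (e3.trans hL₁)) (fun _ => by simp) (by
          refine le_trans ?_ (h2.trans (le_of_eq ?_))
          · exact mul_le_mul a3 (pow_le_card_box _) (by positivity) (by positivity)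
          · simp only [evZ_pair, evZ_aff, hg]
            rfl)
      refine ⟨(H, q), ⟨⟨k1, fun i => (k2 i).mono e2⟩, k4, k5.trans e2⟩, fun y hy => ?_,
        k6.mono e2 dvd_rfl⟩
      have := k3 _ hy
      rw [fn_apply, Fintype.sum_sum_type] at this
      rw [fn_apply]
      simpa [pair] using this)
  obtain ⟨i₀, hi₀⟩ := ne₂
  refine ⟨H, q, R, T₂, gH, fun i => (rH i).mono e3, (hp i₀ hi₀).1, hq1, hq2.trans e3,
    fun i hi => (mem_filter.1 (hT₁ (hT₂ hi))).1, ?_, fun i hi => (hp i hi).2.mono e3 dvd_rfl⟩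
  refine (mul_le_mul_of_nonneg_right c2 hX0.le).trans ?_
  rw [mul_assoc, inv_mul_le_iff₀ (by positivity)]
  exact m₁'.trans m₂

/-- **Z0** -/
theorem z0 (S s D : ℕ) (hs : 1 ≤ s) : ∃ C : ℕ, ∀ m : ℝ, 2 ≤ m → ∀ (ι σ κ Ω 𝔄 : Type)
    [Fintype ι] [Fintype σ] [DecidableEq σ] [Fintype κ] [DecidableEq κ] [Nonempty κ] (N : ND ι)
    (δ : ℝ) (η : ι → ℤ) (Z : Finset Ω) (μ : Ω → ℝ) (F : Ω → N.L → ℂ) (P : Ω → N.PS σ)
    (f : Ω → (σ → ℤ) → ℂ) (B : Finset (σ → ℤ)) (L : ℝ) (L₁ V : ℕ)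
    (fl : Ω → (σ → ℤ) → (κ → σ → ℤ) → 𝔄) (φ : 𝔄 → (κ → ℤ) → ℂ),
    Fintype.card σ ≤ D → Fintype.card κ ≤ D → In N S s m δ η Z μ F P f B L₁ V fl φ →
    Real.exp (m ^ C) ≤ L₁ → Real.exp (m ^ C) ≤ V → (∀ a ∈ B, ∀ v, |(a v : ℝ)| ≤ L) →
    (V * L₁ : ℝ) ≤ L → L ≤ Real.exp m * (V * L₁) →
    ∃ (d : ℕ) (Nb : ND (Fin d)) (Γ : ℕ → Submodule ℝ (pd N Nb).L) (ηb : Fin d → ℤ)
      (gb : Ω → Nb.PS σ) (τ : 𝔄 → Nb.PS κ) (Z' : Finset (Ω × (σ → ℤ)))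
      (A : Ω × (σ → ℤ) → Finset (κ → σ → ℤ)), QD N Nb S s (Real.exp (m ^ C)) η ηb Γ ∧
      Z' ⊆ Z ×ˢ B ∧ Real.exp (-m ^ C) * (#B * ∑ W ∈ Z, μ W) ≤ ∑ z ∈ Z', μ z.1 ∧
      ∀ z ∈ Z', Rel S L (Real.exp (m ^ C)) Γ (P z.1) (gb z.1) ∧ A z ⊆ dirs κ σ V ∧
        Real.exp (-m ^ C) * #(dirs κ σ V) ≤ #(A z) ∧
        ∀ E ∈ A z, Agree Nb S L₁ (Real.exp (m ^ C)) (Nb.subst (aff z.2 E) (gb z.1))
          (τ (fl z.1 z.2 E)) := by
  obtain ⟨Cp, hCp⟩ := z0_pairs S s D hs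
  obtain ⟨Cq, hCq⟩ := exists_qd S
  obtain ⟨Cz, hCz⟩ := sz S D
  obtain ⟨Cc, hCc⟩ := ratS_cmp S
  obtain ⟨Cr, hCr⟩ := rel_comp S
  obtain ⟨C₁, hC₁⟩ : ∃ C : ℕ, ∀ m : ℝ, 2 ≤ m → m ≤ m ^ C ∧ m ^ Cp ≤ m ^ C ∧
      (D + 1 : ℝ) ≤ Real.exp (m ^ C) ∧ Real.exp (-m ^ C) ≤ Real.exp (-m ^ Cp) / 2 := by qp
  obtain ⟨C₂, hC₂⟩ : ∃ C : ℕ, ∀ m : ℝ, 2 ≤ m → m ^ C₁ ≤ m ^ C ∧ (m ^ C₁) ^ Cq ≤ m ^ C ∧
      (m ^ C₁) ^ Cz ≤ m ^ C ∧
      (nm D S : ℝ) * (D + 1 : ℝ) ^ S * Real.exp ((m ^ C₁) ^ Cz) ≤ Real.exp (m ^ C) := by qp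
  obtain ⟨C₃, hC₃⟩ : ∃ C : ℕ, ∀ m : ℝ, 2 ≤ m → m ^ C₂ ≤ m ^ C ∧ (m ^ C₂) ^ Cc ≤ m ^ C ∧
      (m ^ C₂) ^ Cr ≤ m ^ C := by qp
  obtain ⟨C, hC⟩ : ∃ C : ℕ, ∀ m : ℝ, 2 ≤ m → m ^ C₃ ≤ m ^ C ∧ (m ^ C₃) ^ Cr ≤ m ^ C := by qp
  refine ⟨C, fun m hm ι σ κ Ω 𝔄 _ _ _ _ _ _ N δ η Z μ F P f B L L₁ V fl φ hσ hκ h hL₁ hV hB hVL
    hLV => ?_⟩
  obtain ⟨a1, a2, a3, a4⟩ := hC₁ m hm
  obtain ⟨b1, b2, b3, b4⟩ := hC₂ m hm
  obtain ⟨c1, c2, c3⟩ := hC₃ m hm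
  obtain ⟨d1, d2⟩ := hC m hm
  have ee : ∀ {x y : ℝ}, x ≤ y → Real.exp x ≤ Real.exp y := fun h => Real.exp_le_exp.2 h
  have one : ∀ {x : ℝ}, m ≤ x → 1 ≤ Real.exp x := fun h => Real.one_le_exp (by linarith)
  have hL10 : (1 : ℝ) ≤ L₁ := (one (by linarith)).trans hL₁
  have hV0 : (1 : ℝ) ≤ V := (one (by linarith)).trans hV
  have hLL : (L₁ : ℝ) ≤ L := le_trans (le_mul_of_one_le_left (by linarith) hV0) hVL
  have hL0 : 0 < L := by linarith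
  obtain ⟨H, q, R, T, gH, rH, hη, hq1, hq2, hT, mT, hF⟩ := hCp m hm ι σ κ Ω 𝔄 N δ η Z μ F P f B L₁
    V fl φ hκ h ((ee (by linarith)).trans hL₁)
  obtain ⟨W₀, hW₀⟩ : Z.Nonempty := by
    by_contra h0
    have := h.μ_pos
    rw [not_nonempty_iff_eq_empty.1 h0, sum_empty] at this
    exact lt_irrefl _ this
  have sN : Sz N S m := Sz.of_good h.good h.card
  obtain ⟨d, Nb, Γ, ηb, H₁, hQ, gH₁, rH₁, k1, k2, k3⟩ := hCq (m ^ C₁) (by linarith) ι ι N N H s η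
    (h.card.trans a1) (h.good.mono (ee a1)) (sN.mono a1) gH (fun i => (rH i).mono (ee a2))
    (h.nchar W₀ hW₀).supp (fun k => ((h.nchar W₀ hW₀).η_le k).trans (ee a1)) hη
  set c : ℝ := Real.exp (-m ^ C₁) with hc
  have hc0 : 0 < c := Real.exp_pos _
  set A : Ω × (σ → ℤ) → Finset (κ → σ → ℤ) := fun z => {E ∈ dirs κ σ V | (z, E) ∈ T} with hA
  set Z' := (Z ×ˢ B).filter fun z => c * #(dirs κ σ V) ≤ #(A z) with hZ'
  have sumZ : ∑ z ∈ Z ×ˢ B, μ z.1 = #B * ∑ W ∈ Z, μ W := by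
    rw [sum_product, mul_sum]; simp
  have mZ : c * (#B * ∑ W ∈ Z, μ W) ≤ ∑ z ∈ Z', μ z.1 := by
    have := heavy_fibres (Z ×ˢ B) (dirs κ σ V) dirs_nonempty (fun z => μ z.1)
      (fun z hz => h.μ_nonneg _ (mem_product.1 hz).1) T hT hc0.le (by
        rw [sumZ, mul_assoc]
        refine le_trans (mul_le_mul_of_nonneg_right (by linarith) ?_) mT
        exact mul_nonneg (Nat.cast_nonneg _) (mul_nonneg (Nat.cast_nonneg _) h.μ_pos.le))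
    rw [sumZ] at this
    convert this
  have hpos : ∀ a ∈ B, ∀ E ∈ dirs κ σ V, ∀ v,
      |(a v : ℝ)| + ∑ k, |(E k v : ℝ)| * L₁ ≤ (D + 1) * L := fun a ha E hE v => by
    have h1 : ∑ k, |(E k v : ℝ)| * L₁ ≤ ∑ _k : κ, L := sum_le_sum fun k _ => by
      refine le_trans (mul_le_mul_of_nonneg_right ?_ (by linarith)) hVL
      exact_mod_cast mem_dirs.1 hE k v
    rw [sum_const, card_univ, nsmul_eq_mul] at h1
    have h2 : (Fintype.card κ : ℝ) * L ≤ D * L :=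
      mul_le_mul_of_nonneg_right (by exact_mod_cast hκ) hL0.le
    linarith [hB a ha v]
  obtain ⟨k₀⟩ := ‹Nonempty κ›
  have hfact : ∀ z ∈ Z', N.Fact S L (Real.exp ((m ^ C₁) ^ Cz)) H₁ (P z.1) := fun z hz => by
    obtain ⟨hz1, hz2⟩ := mem_filter.1 hz
    obtain ⟨hz3, hz4⟩ := mem_product.1 hz1
    refine hCz (m ^ C₁) (by linarith) ι σ κ {E // E ∈ A z} N H₁ L L₁ V q (P z.1) (fun _ => z.2)
      (fun E => E.1) k₀ ((A z).image fun E => E k₀) hσ (sN.mono a1) gH₁ rH₁ (h.poly _ hz3)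
      ((ee (by linarith)).trans hL₁) ((ee (by linarith)).trans hV) hL0
      (hLV.trans (mul_le_mul_of_nonneg_right (ee a1) (by positivity)))
      (fun E v => (hpos _ hz4 _ (mem_filter.1 E.2).1 v).trans
        (mul_le_mul_of_nonneg_right a3 hL0.le))
      (fun n hn => ?_) ?_ hq1 (hq2.trans (ee a2)) fun E => ?_
    · obtain ⟨E, hE, rfl⟩ := mem_image.1 hn
      exact ⟨fun v => by exact_mod_cast mem_dirs.1 (mem_filter.1 hE).1 k₀ v, ⟨E, hE⟩, rfl⟩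
    · have h1 : (#(A z) * #(Rat.box σ V) : ℝ) ≤ #((A z).image fun E => E k₀) * #(dirs κ σ V) := by
        exact_mod_cast card_col (filter_subset _ _) k₀
      have h2 : (0 : ℝ) < #(dirs κ σ V) := by exact_mod_cast dirs_nonempty.card_pos
      have h3 : c * #(Rat.box σ V) ≤ #((A z).image fun E => E k₀) := by
        refine le_of_mul_le_mul_right (le_trans ?_ h1) h2
        rw [mul_right_comm]
        exact mul_le_mul_of_nonneg_right hz2 (Nat.cast_nonneg _)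
      refine (pow_le_card_box V).trans ?_
      rw [hc, Real.exp_neg, inv_mul_le_iff₀ (Real.exp_pos _)] at h3
      exact h3
    · have := fHom_fst.factQ zero_le_one (by linarith) k1 (hF _ (mem_filter.1 E.2).2)
      rw [bc_fst, one_mul] at this
      exact this.mono (ee a2) dvd_rfl
  have hgb : ∀ W, ∃ g : Nb.PS σ, ∀ a, (W, a) ∈ Z' →
      Rel S L (Real.exp ((m ^ C₁) ^ Cz)) Γ (P W) g := fun W => by
    by_cases hW : ∃ a, (W, a) ∈ Z'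
    · obtain ⟨a, ha⟩ := hW
      obtain ⟨g, -, hg⟩ := exists_rel_of_fact hL0.le hQ.gr k2 (hfact _ ha)
      exact ⟨g, fun _ _ => hg⟩
    · exact ⟨0, fun a ha => (hW ⟨a, ha⟩).elim⟩
  choose gb hgb using hgb
  have sb : Sz Nb S (m ^ C₂) := Sz.of_good (hQ.good.mono (ee b2))
    (le_trans (by simpa using hQ.card) (h.card.trans (by linarith)))
  have sN₂ : Sz N S (m ^ C₂) := sN.mono (by linarith)
  have rΓ : ∀ i, (pd Nb N).RatS (Real.exp (m ^ C₂)) (swp Γ i) := fun i =>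
    ratS_swp (Real.exp_pos _).le ((hQ.rat i).mono (ee b2))
  have rH₂ : ∀ i, (pd N N).RatS (Real.exp (m ^ C₂)) (H i) := fun i => (rH i).mono (ee (by linarith))
  have gΛ := grSub_cmp (grSub_swp hQ.gr) gH
  have rΛ : ∀ i, (pd Nb N).RatS (Real.exp (m ^ C₃)) (cmp (swp Γ) H i) := fun i =>
    (hCc (m ^ C₂) (by linarith) _ _ _ Nb N N _ _ sb sN₂ sN₂ (grSub_swp hQ.gr) gH rΓ rH₂ i).mono
      (ee c2)
  have hΛ : ∀ z ∈ Z', ∀ E ∈ A z, Rel S L₁ (Real.exp (m ^ C₃)) (cmp (swp Γ) H)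
      (Nb.subst (aff z.2 E) (gb z.1)) (R (fl z.1 z.2 E)) := fun z hz E hE => by
    obtain ⟨-, hz4⟩ := mem_product.1 (mem_filter.1 hz).1
    have h1 := ((hgb z.1 z.2 hz).subst hσ sN.wt sb.wt (T₁ := L₁) (K := D + 1) (by linarith) hL0.le
      (by linarith [(Nat.cast_nonneg D : (0 : ℝ) ≤ D)])
      (sub_aff (by linarith) (hpos _ hz4 _ (mem_filter.1 hE).1)) hQ.gr).mono b4
    exact (hCr (m ^ C₂) (by linarith) _ _ _ κ Nb N N _ _ _ L₁ _ _ _ sb sN₂ sN₂ (grSub_swp hQ.gr) gH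
      rΓ rH₂ (fun i x y z h h' => pair_mem_cmp.2 ⟨y, h, h'⟩) ((ee (by linarith)).trans hL₁)
      (h1.swp (by linarith)) ⟨q, hq1, hq2.trans (ee (by linarith)),
        (hF _ (mem_filter.1 hE).2).mono (ee (by linarith)) dvd_rfl⟩).mono (ee c3)
  have hτ : ∀ X : 𝔄, ∃ t : Nb.PS κ, (∃ z ∈ Z', ∃ E ∈ A z, fl z.1 z.2 E = X) →
      Rel S L₁ (Real.exp (m ^ C₃)) (cmp (swp Γ) H) t (R X) := fun X => by
    by_cases hX : ∃ z ∈ Z', ∃ E ∈ A z, fl z.1 z.2 E = X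
    · obtain ⟨z, hz, E, hE, rfl⟩ := hX
      exact ⟨_, fun _ => hΛ z hz E hE⟩
    · exact ⟨0, fun h => (hX h).elim⟩
  choose τ hτ using hτ
  have cc : Real.exp (-m ^ C) ≤ c := ee (by linarith)
  refine ⟨d, Nb, Γ, ηb, gb, τ, Z', A, hQ.mono (ee (by linarith)), filter_subset _ _,
    le_trans (mul_le_mul_of_nonneg_right cc (mul_nonneg (Nat.cast_nonneg _) h.μ_pos.le)) mZ,
    fun z hz => ⟨(hgb z.1 z.2 hz).mono (ee (by linarith)), filter_subset _ _,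
      le_trans (mul_le_mul_of_nonneg_right cc (Nat.cast_nonneg _)) (mem_filter.1 hz).2,
      fun E hE => ?_⟩⟩
  refine (hCr (m ^ C₃) (by linarith) _ _ _ κ Nb N Nb _ _ (diag Nb) L₁ _ _ _ (sb.mono c1)
    (sN₂.mono c1) (sb.mono c1) gΛ (grSub_swp gΛ) rΛ
    (fun i => ratS_swp (Real.exp_pos _).le (rΛ i)) ?_ ((ee d2).trans hL₁) (hΛ z hz E hE)
    ((hτ _ ⟨z, hz, E, hE, rfl⟩).swp (by linarith))).mono (ee d2)
  rintro i y r y' ⟨x, h1, h2⟩ ⟨x', h3, h4⟩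
  have h5 : pair x y ∈ Γ i := h1
  have h6 : pair x' y' ∈ Γ i := h3
  refine pair_mem_diag.2 ⟨⟨(mem_pd_FA.1 (hQ.gr.le i h5)).2, (mem_pd_FA.1 (hQ.gr.le i h6)).2⟩, ?_⟩
  refine (k3 i (x - x') _ (by rw [pair_sub]; exact sub_mem h5 h6)).1 ?_
  have h7 : pair x r - pair x' r ∈ H i := sub_mem h2 h4
  rwa [← pair_sub, sub_self] at h7

end Crest.Agent.T49.Zo
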