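import Crest.Agent.T49.ZoRel_89
import Crest.Agent.T49.Gf_84

/-!
# Row 49 (helper89): a factorisation on many affine subspaces is a factorisation (SZ)
-/

set_option autoImplicit false

noncomputable section

namespace Crest.Agent.T49.Zo

open Finset MvPolynomial Crest.Agent.T49.Nil Crest.Agent.T49.Nil.ND
open Crest.Agent.T49.Bch (star)
open Crest.Agent.T49.Tw (nrm DegLe)

variable {ι σ κ : Type}

theorem nrmL_eq_nw {L : ℝ} (hL : 0 ≤ L) (p : MvPolynomial κ ℝ) : Gf.nrmL L p = nw L p := by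
  rw [Gf.nrmL, Tw.nrm_eq_sum (s := p.support) fun α hα => ?_, nw]
  · exact sum_congr rfl fun α _ => by
      rw [Gf.coeff_dil, abs_mul, abs_of_nonneg (pow_nonneg hL _)]
  · rw [mem_support_iff] at hα ⊢
    rw [Gf.coeff_dil] at hα
    exact left_ne_zero_of_mul hα

theorem weight_one (α : σ →₀ ℕ) : Finsupp.weight (fun _ : σ => 1) α = α.degree := by
  rw [Finsupp.degree_eq_weight_one]

theorem degLe_of_totalDegree {p : MvPolynomial κ ℝ} {d : ℕ} (h : p.totalDegree ≤ d) :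
    DegLe (fun _ => 1) p d := fun α hα => by
  rw [weight_one]
  exact (le_totalDegree hα).trans h

theorem degree_of_hom {G : MvPolynomial σ ℝ} {i : ℕ} (hG : IsWeightedHomogeneous (fun _ => 1) G i)
    {α : σ →₀ ℕ} (hα : α ∈ G.support) : α.degree = i := by
  rw [← weight_one]; exact hG (mem_support_iff.1 hα)

/-- the pure top coefficient of a form along an affine map is its value at the direction -/
theorem coeff_top_hom {f : σ → MvPolynomial κ ℝ} (h : ∀ v, (f v).totalDegree ≤ 1) (k : κ)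
    {G : MvPolynomial σ ℝ} {i : ℕ} (hG : IsWeightedHomogeneous (fun _ => 1) G i) :
    coeff (Finsupp.single k i) (bind₁ f G) =
      eval (fun v => coeff (Finsupp.single k 1) (f v)) G := by
  conv_lhs => rw [G.as_sum]
  conv_rhs => rw [G.as_sum]
  rw [map_sum, map_sum, coeff_sum]
  refine sum_congr rfl fun β hβ => ?_
  have e : (monomial β (coeff β G) : MvPolynomial σ ℝ) = coeff β G • monomial β 1 := by
    rw [smul_monomial, smul_eq_mul, mul_one]
  rw [e, map_smul, coeff_smul, smul_eval, smul_eq_mul, ← degree_of_hom hG hβ, ← coeff_top_fp h]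
  rfl

/-- the Weyl oracle -/
theorem orc_weyl [Fintype σ] [DecidableEq σ] [Fintype κ] {Ω : Type} {S D E₀ : ℕ}
    (hD : Fintype.card σ ≤ D) (hW : Weyl.Small σ S E₀) {L L₁ V K U : ℝ} (hK : 2 ≤ K)
    (hU : 0 ≤ U) (hV : K ^ E₀ ≤ V) (hL₁ : U * K ^ E₀ ≤ L₁) (hL₁' : 1 ≤ L₁) (hL : 0 < L)
    (hLV : L ≤ K * (V * L₁)) (a : Ω → σ → ℤ) (E : Ω → κ → σ → ℤ) (k₀ : κ) (A : Finset (σ → ℤ))
    (hA : ∀ n ∈ A, (∀ v, |(n v : ℝ)| ≤ V) ∧ ∃ ω, E ω k₀ = n)
    (hA' : V ^ Fintype.card σ ≤ K * #A) :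
    Gf.Orc (fun _ => 1) (fun c => C L⁻¹ * X c) (fun ω => aff (a ω) (E ω)) S L₁ U
      ((nm D S + 1) * (K ^ E₀ * U * K ^ S)) := by
  intro i G q hi1 hiS hG hq1 hqU h
  have hK1 : 1 ≤ K := by linarith
  have hKE : 1 ≤ K ^ E₀ := one_le_pow₀ hK1
  have hV0 : 0 < V := by linarith
  have hLi : L₁ ≤ L₁ ^ i := le_self_pow₀ hL₁' (by omega)
  have hLi0 : 0 < L₁ ^ i := by positivity
  have hdeg : (C (q : ℝ) * G).totalDegree ≤ S := by
    refine (totalDegree_mul _ _).trans ?_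
    rw [totalDegree_C, zero_add]
    exact Finset.sup_le fun β hβ => (degree_of_hom hG hβ).le.trans hiS
  obtain ⟨q', h1, h2, h3⟩ := hW (C (q : ℝ) * G) hdeg A (fun _ => V) K (U / L₁ ^ i) hK
    (by positivity) (fun _ => hV) (by rw [div_mul_eq_mul_div, div_le_one hLi0]; linarith)
    (fun n hn => (hA n hn).1) (by simpa using hA') (fun n hn => by
      obtain ⟨ω, rfl⟩ := (hA n hn).2
      obtain ⟨r, hr⟩ := h ω (Finsupp.single k₀ i) (by simp)
      refine ⟨r, ?_⟩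
      rw [coeff_top_hom (aff_deg _ _) k₀ hG] at hr
      simp only [coeff_aff] at hr
      rw [le_div_iff₀ hLi0, Weyl.ev, map_mul, eval_C]
      exact hr)
  choose r hr using h3
  set e : MvPolynomial σ ℝ :=
    ∑ α ∈ G.support, monomial α ((((q' * q : ℕ) : ℝ) * coeff α G - r α) * L ^ i) with he
  have hce : ∀ α, coeff α e = if α ∈ G.support then
      (((q' * q : ℕ) : ℝ) * coeff α G - r α) * L ^ i else 0 := fun α => by
    simp [he, coeff_sum, coeff_monomial]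
  have hKS : 1 ≤ K ^ S := one_le_pow₀ hK1
  have hnm : (0 : ℝ) ≤ nm D S := Nat.cast_nonneg _
  have hB : 0 ≤ K ^ E₀ * U * K ^ S := by positivity
  refine ⟨q' * q, e, Nat.mul_pos h1 hq1, ?_, fun α hα => ?_, ?_, fun α => ?_⟩
  · push_cast
    calc (q' : ℝ) * q ≤ K ^ E₀ * U := by gcongr
      _ ≤ K ^ E₀ * U * K ^ S := le_mul_of_one_le_right (by positivity) hKS
      _ ≤ _ := le_mul_of_one_le_left hB (by linarith)
  · rw [hce] at hα
    rw [weight_one]
    exact degree_of_hom hG (by by_contra h'; exact hα (if_neg h'))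
  · have hs : e.support ⊆ G.support := fun α hα => by
      by_contra h'; exact mem_support_iff.1 hα (by rw [hce, if_neg h'])
    refine (Tw.nrm_le_card_mul hs (K := K ^ E₀ * U * K ^ S) fun α hα => ?_).trans ?_
    · have h4 := hr α
      rw [coeff_C_mul, ← mul_assoc, Weyl.mpow, prod_pow_eq_pow_sum,
        ← Finsupp.degree_eq_sum, degree_of_hom hG hα] at h4
      rw [hce, if_pos hα, abs_mul, abs_of_pos (pow_pos hL i)]
      push_cast
      have h5 : L ^ i ≤ K ^ S * (V ^ i * L₁ ^ i) := by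
        calc L ^ i ≤ (K * (V * L₁)) ^ i := by gcongr
          _ = K ^ i * (V ^ i * L₁ ^ i) := by rw [mul_pow, mul_pow]
          _ ≤ _ := by gcongr
      calc _ ≤ K ^ E₀ * (U / L₁ ^ i) / V ^ i * (K ^ S * (V ^ i * L₁ ^ i)) := by gcongr
        _ = _ := by field_simp
    · have : (#G.support : ℝ) ≤ nm D S := by
        exact_mod_cast card_le_nm hD _ fun β hβ => (degree_of_hom hG hβ).le.trans hiS
      exact mul_le_mul_of_nonneg_right (by linarith) hB
  · change ∃ n : ℤ, coeff α (C ((q' * q : ℕ) : ℝ) * G - Gf.dil L⁻¹ e) = (n : ℝ)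
    rw [coeff_sub, coeff_C_mul, Gf.coeff_dil, hce]
    split_ifs with hα
    · refine ⟨r α, ?_⟩
      rw [degree_of_hom hG hα, mul_assoc (_ - _), ← mul_pow, mul_inv_cancel₀ hL.ne', one_pow]
      ring
    · exact ⟨0, by simp [notMem_support_iff.1 hα]⟩

theorem sm_subst_dil [Fintype ι] {N : ND ι} {L M : ℝ} (hL : 0 < L) {P : N.PS σ} (h : N.Sm 1 M P) :
    N.Sm L M (N.subst (fun c => C L⁻¹ * X c) P) := fun α => by
  have e : N.cv α (N.subst (fun c => C L⁻¹ * X c) P) = (L⁻¹ ^ α.degree) • N.cv α P := by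
    funext k
    change coeff α (Gf.dil L⁻¹ (P k)) = L⁻¹ ^ α.degree * coeff α (P k)
    rw [Gf.coeff_dil, mul_comm]
  have := h α
  rw [one_pow, mul_one] at this
  rw [e, norm_smul, Real.norm_of_nonneg (by positivity), mul_right_comm, ← mul_pow,
    inv_mul_cancel₀ hL.ne', one_pow, one_mul]
  exact this

/-- **SZ**: a factorisation along affine maps whose first directions fill a dense part of a box -/
theorem sz (S D : ℕ) : ∃ C : ℕ, ∀ m : ℝ, 2 ≤ m → ∀ (ι σ κ Ω : Type) [Fintype ι] [Fintype σ]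
    [DecidableEq σ] [Fintype κ] (N : ND ι) (H : ℕ → Submodule ℝ N.L) (L L₁ V : ℝ) (q : ℕ)
    (P : N.PS σ) (a : Ω → σ → ℤ) (E : Ω → κ → σ → ℤ) (k₀ : κ) (A : Finset (σ → ℤ)),
    Fintype.card σ ≤ D → Sz N S m → N.GrSub H → (∀ i, N.RatS (Real.exp m) (H i)) →
    P ∈ N.poly σ → Real.exp (m ^ C) ≤ L₁ → Real.exp (m ^ C) ≤ V → 0 < L →
    L ≤ Real.exp m * (V * L₁) →
    (∀ ω v, |(a ω v : ℝ)| + ∑ k, |(E ω k v : ℝ)| * L₁ ≤ Real.exp m * L) →
    (∀ n ∈ A, (∀ v, |(n v : ℝ)| ≤ V) ∧ ∃ ω, E ω k₀ = n) →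
    V ^ Fintype.card σ ≤ Real.exp m * #A → 1 ≤ q → (q : ℝ) ≤ Real.exp m →
    (∀ ω, N.FactQ S L₁ (Real.exp m) q H (N.subst (aff (a ω) (E ω)) P)) →
    N.Fact S L (Real.exp (m ^ C)) H P := by
  obtain ⟨Cw, hCw⟩ := Weyl.exists_small.{0} S
  obtain ⟨C₀, hC₀⟩ : ∃ C : ℕ, ∀ u m : ℝ, 2 ≤ u → 0 ≤ m → m ≤ u →
      ((nm D S : ℝ) + 1) * (Real.exp m ^ (D + 2) ^ Cw * Real.exp u * Real.exp m ^ S) ≤
        Real.exp (u ^ C) := by qp
  obtain ⟨Cg, hCg⟩ := Gf.gfact S C₀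
  obtain ⟨C, hC⟩ : ∃ C : ℕ, ∀ m : ℝ, 2 ≤ m → m ^ Cg ≤ m ^ C ∧
      Real.exp (m ^ Cg) * Real.exp m ^ (D + 2) ^ Cw ≤ Real.exp (m ^ C) ∧
      Real.exp m ^ (D + 2) ^ Cw ≤ Real.exp (m ^ C) := by qp
  refine ⟨C, fun m hm ι σ κ Ω _ _ _ _ N H L L₁ V q P a E k₀ A hD hN hH hR hP hL₁ hV hL hLV haE hA
    hA' hq1 hq hF => ?_⟩
  obtain ⟨b1, b2, b3⟩ := hC m hm
  have e1 : Real.exp (m ^ Cg) ≤ Real.exp (m ^ C) := Real.exp_le_exp.2 b1
  have hL1 : 1 ≤ L₁ := (Real.one_le_exp (by positivity)).trans hL₁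
  have hK : 2 ≤ Real.exp m := by linarith [Real.add_one_le_exp m]
  have hW : Weyl.Small σ S ((D + 2) ^ Cw) :=
    (hCw σ).mono (Nat.pow_le_pow_left (by omega) _)
  obtain ⟨q', h1, h2, ε, hε, h, hh, γ, hγ, h3, h4, h5⟩ := hCg m hm ι σ κ Ω N (fun _ => 1)
    (fun c => MvPolynomial.C L⁻¹ * X c) (fun ω => aff (a ω) (E ω)) H L₁ q P hN.card hN.wt hN.c hH
    hR (fun _ => one_pos)
    (fun c => by simpa using (isWeightedHomogeneous_C _ L⁻¹).mul (isWeightedHomogeneous_X ℝ _ c))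
    (fun ω c α => (aff_int _ _ c).coeff α) (fun ω c => degLe_of_totalDegree (aff_deg _ _ c))
    (fun ω c => by
      rw [map_mul, bind₁_C_right, bind₁_X_right, nrmL_eq_nw (by linarith)]
      refine (nw_mul_le (by linarith) _ _).trans ?_
      rw [nw_C, abs_of_pos (inv_pos.2 hL), inv_mul_le_iff₀ hL, mul_comm]
      exact (nw_aff (by linarith) _ _ c).trans (haE ω c))
    (e1.trans hL₁)
    (fun u hu hu' => (orc_weyl hD hW hK (Real.exp_pos u).le (b3.trans hV)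
      (le_trans (by gcongr) (b2.trans hL₁)) hL1 hL hLV a E k₀ A hA hA').mono le_rfl
        (hC₀ u m (hm.trans hu) (by linarith) hu))
    hq1 hq (by rw [Gf.wcf_one]; exact hP) hF
  rw [Gf.wcf_one] at hε hh hγ
  refine ⟨q', h1, h2.trans e1, _, subst_mem_poly (fun v => ?_) hε, h, hh, γ, hγ,
    (sm_subst_dil hL h3).mono e1, h4, h5⟩
  refine (totalDegree_mul _ _).trans ?_
  rw [totalDegree_C, totalDegree_X]

end Crest.Agent.T49.Zo
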